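/-!
# Row 187, PLAN S: record types of the top level certificate (E3, E4, E5)

Keys = shapes in base 64, row 0 most significant.  Packed matrices: slots of 24 bits, row stride
33 slots, entry `(i, j)` = slot `33 * i + j`, entries `< 127`.
-/

set_option autoImplicit false

namespace Crest.Agent.R187.SN.Top

/-- entries of a `V` table: `key` = lower shape `κ'` (STRICTLY DECREASING keys), `x` = packed
matrix: row `r` = vector, column `l` = frame vector `v κ' l` -/
inductive VE where
  | nil : VE
  | cons (key x : Nat) (t : VE) : VE

/-- `V` table: shape `key`, `n` vectors -/
structure VT where
  /-- the shape -/
  key : Nat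
  /-- number of vectors -/
  n : Nat
  /-- blocks -/
  ent : VE

/-- entries of a `W` table: `key` = `κ'`, `cs` = `∑_{t<5} 8 * (content_t + 5) * 512^t`,
`K` = number of frame vectors of `κ'`, `x` = packed `K × n` matrix -/
inductive WE where
  | nil : WE
  | cons (key cs K x : Nat) (t : WE) : WE

/-- `W` table: shape `key` (`λ'`), `n` = number of columns, all `κ'` with `HS κ' λ' 5` -/
structure WT where
  /-- the shape -/
  key : Nat
  /-- number of columns -/
  n : Nat
  /-- blocks -/
  ent : WE

/-- source of the top level: table and quadrature record (weight, key of the node) -/
structure Src where
  /-- source table -/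
  tab : VT
  /-- quadrature record -/
  quad : List (Nat × Nat)

/-- record of the top level: shape `λ`, claimed dimension, sources, functionals -/
structure Rec where
  /-- the shape `λ` -/
  key : Nat
  /-- the claimed dimension -/
  m : Nat
  /-- sources -/
  src : List Src
  /-- functionals -/
  cols : List WT

/-- source of a forward step at `a = 6`: the images of the first `t` vectors of `tab` -/
structure FSrc where
  /-- source table -/
  tab : VT
  /-- number of vectors used (the first `t`) -/
  t : Nat
  /-- quadrature record -/
  quad : List (Nat × Nat)

/-- forward step at `a = 6`: `out` = stacked images of the sources, `ws` = `W` tables of the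
shapes listed in `out.ent` (same order) -/
structure Fwd where
  /-- the resulting table -/
  out : VT
  /-- sources -/
  src : List FSrc
  /-- `W` tables -/
  ws : List WT

end Crest.Agent.R187.SN.Top
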