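import Crest.Agent.R187.SN.Top
import Crest.Agent.R187.SN.TD.X6_0
import Crest.Agent.R187.SN.TD.W7_0

/-!
# Row 187, PLAN S, generated certificate data (mod 127): rank records and checks, chunk 0

Written by a C++ program (helper824).  The tables are only data: every property is checked by
the kernel.
-/

set_option autoImplicit false
set_option maxRecDepth 100000
set_option Elab.async false

namespace Crest.Agent.R187.SN.Top

noncomputable def R_8726282754 : Rec := ⟨nat_lit 8726282754, nat_lit 1,
  [⟨V6_8726282496, [(nat_lit 71, nat_lit 8726282754), (nat_lit 44, nat_lit 9800024577), (nat_lit 78, nat_lit 9800024514), (nat_lit 68, nat_lit 10873766400), (nat_lit 120, nat_lit 10873766337), (nat_lit 124, nat_lit 10873766274), (nat_lit 57, nat_lit 11947508160), (nat_lit 12, nat_lit 11947508097), (nat_lit 104, nat_lit 11947508034), (nat_lit 59, nat_lit 13021249920), (nat_lit 117, nat_lit 13021249857), (nat_lit 77, nat_lit 13021249794), (nat_lit 22, nat_lit 14094991680), (nat_lit 67, nat_lit 14094991617), (nat_lit 74, nat_lit 15168733440)]⟩],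
  [W_8726282432]⟩
theorem C_8726282754 : chkRec R_8726282754 = true := by decide +kernel

noncomputable def R_9800024451 : Rec := ⟨nat_lit 9800024451, nat_lit 1,
  [⟨V6_8726274432, [(nat_lit 7, nat_lit 9800024451), (nat_lit 51, nat_lit 10873766274), (nat_lit 115, nat_lit 10873762179), (nat_lit 58, nat_lit 11947508097), (nat_lit 6, nat_lit 11947504002), (nat_lit 6, nat_lit 11947499907), (nat_lit 100, nat_lit 13021249920), (nat_lit 38, nat_lit 13021245825), (nat_lit 84, nat_lit 13021241730), (nat_lit 74, nat_lit 14094987648), (nat_lit 88, nat_lit 14094983553), (nat_lit 96, nat_lit 15168725376)]⟩],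
  [W_8726282432]⟩
theorem C_9800024451 : chkRec R_9800024451 = true := by decide +kernel

noncomputable def R_9816797508 : Rec := ⟨nat_lit 9816797508, nat_lit 1,
  [⟨V6_9816789312, [(nat_lit 122, nat_lit 9816797508), (nat_lit 34, nat_lit 10890539331), (nat_lit 15, nat_lit 10890535236), (nat_lit 117, nat_lit 11964281154), (nat_lit 116, nat_lit 11964277059), (nat_lit 96, nat_lit 11964272964), (nat_lit 3, nat_lit 13038022977), (nat_lit 14, nat_lit 13038018882), (nat_lit 79, nat_lit 13038014787), (nat_lit 42, nat_lit 14111764800), (nat_lit 10, nat_lit 14111760705), (nat_lit 29, nat_lit 14111756610), (nat_lit 114, nat_lit 15185502528), (nat_lit 55, nat_lit 15185498433), (nat_lit 13, nat_lit 16259240256)]⟩],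
  [W_9800016128]⟩
theorem C_9816797508 : chkRec R_9816797508 = true := by decide +kernel

noncomputable def R_9817051461 : Rec := ⟨nat_lit 9817051461, nat_lit 1,
  [⟨V6_9816789312, [(nat_lit 102, nat_lit 9817051461), (nat_lit 42, nat_lit 10890793284), (nat_lit 83, nat_lit 10890531141), (nat_lit 14, nat_lit 11964535107), (nat_lit 78, nat_lit 11964272964), (nat_lit 125, nat_lit 13038276930), (nat_lit 101, nat_lit 13038014787), (nat_lit 36, nat_lit 14112018753), (nat_lit 104, nat_lit 14111756610), (nat_lit 50, nat_lit 15185760576), (nat_lit 118, nat_lit 15185498433), (nat_lit 80, nat_lit 16259240256)]⟩],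
  [W_9816527168]⟩
theorem C_9817051461 : chkRec R_9817051461 = true := by decide +kernel

noncomputable def R_10873758084 : Rec := ⟨nat_lit 10873758084, nat_lit 1,
  [⟨V6_8726274432, [(nat_lit 96, nat_lit 10873758084), (nat_lit 93, nat_lit 11947499907), (nat_lit 49, nat_lit 13021241730), (nat_lit 59, nat_lit 14094983553), (nat_lit 39, nat_lit 15168725376)]⟩],
  [W_10873233728]⟩
theorem C_10873758084 : chkRec R_10873758084 = true := by decide +kernel

noncomputable def R_10873766148 : Rec := ⟨nat_lit 10873766148, nat_lit 1,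
  [⟨V6_8726282496, [(nat_lit 115, nat_lit 10873766148), (nat_lit 36, nat_lit 11947507971), (nat_lit 105, nat_lit 13021249794), (nat_lit 72, nat_lit 14094991617), (nat_lit 11, nat_lit 15168733440)]⟩],
  [W_10873753856]⟩
theorem C_10873766148 : chkRec R_10873766148 = true := by decide +kernel

noncomputable def R_10873766211 : Rec := ⟨nat_lit 10873766211, nat_lit 1,
  [⟨V6_8726282496, [(nat_lit 117, nat_lit 10873766211), (nat_lit 74, nat_lit 11947508034), (nat_lit 14, nat_lit 11947507971), (nat_lit 97, nat_lit 13021249857), (nat_lit 93, nat_lit 13021249794), (nat_lit 108, nat_lit 14094991680), (nat_lit 25, nat_lit 14094991617), (nat_lit 65, nat_lit 15168733440)]⟩],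
  [W_10873753856]⟩
theorem C_10873766211 : chkRec R_10873766211 = true := by decide +kernel

noncomputable def R_10873766274 : Rec := ⟨nat_lit 10873766274, nat_lit 1,
  [⟨V6_8726274432, [(nat_lit 101, nat_lit 10873766274), (nat_lit 76, nat_lit 11947508097), (nat_lit 96, nat_lit 11947504002), (nat_lit 109, nat_lit 13021249920), (nat_lit 95, nat_lit 13021245825), (nat_lit 71, nat_lit 13021241730), (nat_lit 5, nat_lit 14094987648), (nat_lit 12, nat_lit 14094983553), (nat_lit 113, nat_lit 15168725376)]⟩],
  [W_10873761920]⟩
theorem C_10873766274 : chkRec R_10873766274 = true := by decide +kernel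

noncomputable def R_10873766337 : Rec := ⟨nat_lit 10873766337, nat_lit 1,
  [⟨V6_8726282496, [(nat_lit 65, nat_lit 10873766337), (nat_lit 61, nat_lit 11947508160), (nat_lit 24, nat_lit 11947508097), (nat_lit 65, nat_lit 13021249920), (nat_lit 66, nat_lit 13021249857), (nat_lit 75, nat_lit 14094991680), (nat_lit 12, nat_lit 14094991617), (nat_lit 121, nat_lit 15168733440)]⟩],
  [W_10873765952]⟩
theorem C_10873766337 : chkRec R_10873766337 = true := by decide +kernel

noncomputable def R_10873766400 : Rec := ⟨nat_lit 10873766400, nat_lit 1,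
  [⟨V6_8726282496, [(nat_lit 95, nat_lit 10873766400), (nat_lit 55, nat_lit 11947508160), (nat_lit 4, nat_lit 13021249920), (nat_lit 97, nat_lit 14094991680), (nat_lit 37, nat_lit 15168733440)]⟩],
  [W_10873765952]⟩
theorem C_10873766400 : chkRec R_10873766400 = true := by decide +kernel

noncomputable def R_10890273093 : Rec := ⟨nat_lit 10890273093, nat_lit 1,
  [⟨V6_10890010944, [(nat_lit 84, nat_lit 10890273093), (nat_lit 64, nat_lit 11964014916), (nat_lit 114, nat_lit 11963752773), (nat_lit 1, nat_lit 13037756739), (nat_lit 30, nat_lit 13037494596), (nat_lit 2, nat_lit 14111498562), (nat_lit 98, nat_lit 14111236419), (nat_lit 23, nat_lit 15185240385), (nat_lit 126, nat_lit 15184978242), (nat_lit 88, nat_lit 16258982208), (nat_lit 75, nat_lit 16258720065), (nat_lit 89, nat_lit 17332461888)]⟩],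
  [W_9816527168]⟩
theorem C_10890273093 : chkRec R_10890273093 = true := by decide +kernel

noncomputable def R_10890535236 : Rec := ⟨nat_lit 10890535236, nat_lit 1,
  [⟨V6_9816789312, [(nat_lit 65, nat_lit 10890535236), (nat_lit 28, nat_lit 11964277059), (nat_lit 93, nat_lit 11964272964), (nat_lit 38, nat_lit 13038018882), (nat_lit 6, nat_lit 13038014787), (nat_lit 121, nat_lit 14111760705), (nat_lit 106, nat_lit 14111756610), (nat_lit 12, nat_lit 15185502528), (nat_lit 101, nat_lit 15185498433), (nat_lit 106, nat_lit 16259240256)]⟩],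
  [W_10873233728]⟩
theorem C_10890535236 : chkRec R_10890535236 = true := by decide +kernel

noncomputable def R_10890535299 : Rec := ⟨nat_lit 10890535299, nat_lit 1,
  [⟨V6_9800016192, [(nat_lit 82, nat_lit 10890535299), (nat_lit 71, nat_lit 11964277122), (nat_lit 14, nat_lit 11964277059), (nat_lit 118, nat_lit 11947499907), (nat_lit 58, nat_lit 13038018945), (nat_lit 85, nat_lit 13038018882), (nat_lit 40, nat_lit 13021241730), (nat_lit 74, nat_lit 13021241667), (nat_lit 124, nat_lit 14111760768), (nat_lit 85, nat_lit 14111760705), (nat_lit 120, nat_lit 14094983553), (nat_lit 49, nat_lit 14094983490), (nat_lit 18, nat_lit 15185502528), (nat_lit 58, nat_lit 15168725376), (nat_lit 42, nat_lit 15168725313), (nat_lit 92, nat_lit 16242467136)]⟩],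
  [W_10890010880]⟩
theorem C_10890535299 : chkRec R_10890535299 = true := by decide +kernel

noncomputable def R_10890539331 : Rec := ⟨nat_lit 10890539331, nat_lit 1,
  [⟨V6_9816789312, [(nat_lit 117, nat_lit 10890539331), (nat_lit 56, nat_lit 11964281154), (nat_lit 94, nat_lit 11964277059), (nat_lit 2, nat_lit 13038022977), (nat_lit 58, nat_lit 13038018882), (nat_lit 96, nat_lit 13038014787), (nat_lit 80, nat_lit 14111764800), (nat_lit 59, nat_lit 14111760705), (nat_lit 59, nat_lit 14111756610), (nat_lit 53, nat_lit 15185502528), (nat_lit 80, nat_lit 15185498433), (nat_lit 120, nat_lit 16259240256)]⟩],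
  [W_9800016128]⟩
theorem C_10890539331 : chkRec R_10890539331 = true := by decide +kernel

noncomputable def R_10890539394 : Rec := ⟨nat_lit 10890539394, nat_lit 1,
  [⟨V6_9799753986, [(nat_lit 1, nat_lit 10890539394), (nat_lit 93, nat_lit 11964281154), (nat_lit 4, nat_lit 11964277122), (nat_lit 66, nat_lit 11964019074), (nat_lit 105, nat_lit 11947504002), (nat_lit 65, nat_lit 13038022914), (nat_lit 115, nat_lit 13038018882), (nat_lit 121, nat_lit 13037760834), (nat_lit 98, nat_lit 13037756802), (nat_lit 11, nat_lit 13021245762), (nat_lit 67, nat_lit 13021241730), (nat_lit 96, nat_lit 13020983682), (nat_lit 9, nat_lit 14111760642), (nat_lit 110, nat_lit 14111502594), (nat_lit 42, nat_lit 14111498562), (nat_lit 86, nat_lit 14094987522), (nat_lit 40, nat_lit 14094983490), (nat_lit 25, nat_lit 14094725442), (nat_lit 72, nat_lit 14094721410), (nat_lit 118, nat_lit 15185240322), (nat_lit 17, nat_lit 15168725250), (nat_lit 41, nat_lit 15168467202), (nat_lit 25, nat_lit 15168463170), (nat_lit 62, nat_lit 16242204930)]⟩],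
  [W_10873761920]⟩
theorem C_10890539394 : chkRec R_10890539394 = true := by decide +kernel

noncomputable def R_10890543363 : Rec := ⟨nat_lit 10890543363, nat_lit 1,
  [⟨V6_9816785091, [(nat_lit 44, nat_lit 10890543363), (nat_lit 69, nat_lit 11964285123), (nat_lit 37, nat_lit 11964281091), (nat_lit 24, nat_lit 13038022851), (nat_lit 116, nat_lit 13038018819), (nat_lit 2, nat_lit 14111760579), (nat_lit 92, nat_lit 14111756547), (nat_lit 62, nat_lit 15185498307), (nat_lit 79, nat_lit 15185494275), (nat_lit 117, nat_lit 16259236035)]⟩],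
  [W_9800016128]⟩
theorem C_10890543363 : chkRec R_10890543363 = true := by decide +kernel

noncomputable def R_10890543426 : Rec := ⟨nat_lit 10890543426, nat_lit 1,
  [⟨V6_9816789312, [(nat_lit 5, nat_lit 10890543426), (nat_lit 40, nat_lit 11964285249), (nat_lit 51, nat_lit 11964281154), (nat_lit 59, nat_lit 13038027072), (nat_lit 100, nat_lit 13038022977), (nat_lit 5, nat_lit 13038018882), (nat_lit 66, nat_lit 14111764800), (nat_lit 65, nat_lit 14111760705), (nat_lit 83, nat_lit 14111756610), (nat_lit 46, nat_lit 15185502528), (nat_lit 14, nat_lit 15185498433), (nat_lit 22, nat_lit 16259240256)]⟩],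
  [W_10873761920]⟩
theorem C_10890543426 : chkRec R_10890543426 = true := by decide +kernel

noncomputable def R_10890543489 : Rec := ⟨nat_lit 10890543489, nat_lit 1,
  [⟨V6_10890539073, [(nat_lit 37, nat_lit 10890543489), (nat_lit 55, nat_lit 11964285249), (nat_lit 73, nat_lit 11964281217), (nat_lit 21, nat_lit 13038027009), (nat_lit 53, nat_lit 13038022977), (nat_lit 54, nat_lit 14111768769), (nat_lit 71, nat_lit 14111764737), (nat_lit 27, nat_lit 15185510529), (nat_lit 104, nat_lit 15185506497), (nat_lit 87, nat_lit 16259252289), (nat_lit 68, nat_lit 16259248257), (nat_lit 32, nat_lit 17332990017)]⟩],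
  [W_10873765952]⟩
theorem C_10890543489 : chkRec R_10890543489 = true := by decide +kernel

noncomputable def R_10890797379 : Rec := ⟨nat_lit 10890797379, nat_lit 1,
  [⟨V6_9817055424, [(nat_lit 95, nat_lit 10890797379), (nat_lit 115, nat_lit 11964539202), (nat_lit 77, nat_lit 11964539139), (nat_lit 114, nat_lit 13038281025), (nat_lit 94, nat_lit 13038280962), (nat_lit 80, nat_lit 13038280899), (nat_lit 92, nat_lit 14112022848), (nat_lit 55, nat_lit 14112022785), (nat_lit 45, nat_lit 14112022722), (nat_lit 13, nat_lit 15185764608), (nat_lit 122, nat_lit 15185764545), (nat_lit 48, nat_lit 16259506368)]⟩],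
  [W_10890010880]⟩
theorem C_10890797379 : chkRec R_10890797379 = true := by decide +kernel

noncomputable def R_10890801474 : Rec := ⟨nat_lit 10890801474, nat_lit 1,
  [⟨V6_9817051266, [(nat_lit 115, nat_lit 10890801474), (nat_lit 35, nat_lit 11964543234), (nat_lit 125, nat_lit 11964539202), (nat_lit 3, nat_lit 13038284994), (nat_lit 78, nat_lit 13038280962), (nat_lit 113, nat_lit 13038276930), (nat_lit 63, nat_lit 14112026754), (nat_lit 26, nat_lit 14112022722), (nat_lit 93, nat_lit 14112018690), (nat_lit 29, nat_lit 15185764482), (nat_lit 19, nat_lit 15185760450), (nat_lit 20, nat_lit 16259502210)]⟩],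
  [W_10890535040]⟩
theorem C_10890801474 : chkRec R_10890801474 = true := by decide +kernel

noncomputable def R_10906788228 : Rec := ⟨nat_lit 10906788228, nat_lit 1,
  [⟨V6_10839679236, [(nat_lit 98, nat_lit 10906788228), (nat_lit 10, nat_lit 11980529988), (nat_lit 2, nat_lit 11963752836), (nat_lit 93, nat_lit 13054271748), (nat_lit 69, nat_lit 13037494596), (nat_lit 82, nat_lit 13020717444), (nat_lit 6, nat_lit 14111236356), (nat_lit 36, nat_lit 14094459204), (nat_lit 95, nat_lit 14077682052), (nat_lit 17, nat_lit 15168200964), (nat_lit 69, nat_lit 15151423812), (nat_lit 35, nat_lit 15134646660), (nat_lit 19, nat_lit 16225165572), (nat_lit 110, nat_lit 16208388420), (nat_lit 36, nat_lit 17282130180)]⟩],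
  [W_10890010880]⟩
theorem C_10906788228 : chkRec R_10906788228 = true := by decide +kernel

noncomputable def R_10907050371 : Rec := ⟨nat_lit 10907050371, nat_lit 1,
  [⟨V6_10856456451, [(nat_lit 104, nat_lit 10907050371), (nat_lit 27, nat_lit 11980792131), (nat_lit 105, nat_lit 11980530051), (nat_lit 94, nat_lit 11964014979), (nat_lit 33, nat_lit 13054533891), (nat_lit 47, nat_lit 13054271811), (nat_lit 4, nat_lit 13037756739), (nat_lit 111, nat_lit 13037494659), (nat_lit 25, nat_lit 13020979587), (nat_lit 18, nat_lit 14128013571), (nat_lit 108, nat_lit 14111498499), (nat_lit 83, nat_lit 14111236419), (nat_lit 81, nat_lit 14094721347), (nat_lit 106, nat_lit 14094459267), (nat_lit 98, nat_lit 14077944195), (nat_lit 79, nat_lit 15184978179), (nat_lit 18, nat_lit 15168463107), (nat_lit 93, nat_lit 15168201027), (nat_lit 45, nat_lit 15151685955), (nat_lit 2, nat_lit 15151423875), (nat_lit 118, nat_lit 16241942787), (nat_lit 101, nat_lit 16225427715), (nat_lit 83, nat_lit 16225165635), (nat_lit 102, nat_lit 17298907395)]⟩],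
  [W_10906788032]⟩
theorem C_10907050371 : chkRec R_10907050371 = true := by decide +kernel

noncomputable def R_10907312388 : Rec := ⟨nat_lit 10907312388, nat_lit 1,
  [⟨V6_10873225476, [(nat_lit 87, nat_lit 10907312388), (nat_lit 72, nat_lit 11981050116), (nat_lit 92, nat_lit 11980792068), (nat_lit 103, nat_lit 11964276996), (nat_lit 43, nat_lit 13054787844), (nat_lit 55, nat_lit 13054529796), (nat_lit 4, nat_lit 13054271748), (nat_lit 35, nat_lit 13038014724), (nat_lit 24, nat_lit 13037756676), (nat_lit 124, nat_lit 13021241604), (nat_lit 115, nat_lit 14128267524), (nat_lit 40, nat_lit 14128009476), (nat_lit 69, nat_lit 14111752452), (nat_lit 40, nat_lit 14111494404), (nat_lit 74, nat_lit 14111236356), (nat_lit 33, nat_lit 14094979332), (nat_lit 4, nat_lit 14094721284), (nat_lit 71, nat_lit 15201747204), (nat_lit 95, nat_lit 15185232132), (nat_lit 108, nat_lit 15184974084), (nat_lit 58, nat_lit 15168717060), (nat_lit 14, nat_lit 15168459012), (nat_lit 125, nat_lit 15168200964), (nat_lit 106, nat_lit 16258711812), (nat_lit 85, nat_lit 16242196740),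 (nat_lit 33, nat_lit 16241938692), (nat_lit 95, nat_lit 17315676420)]⟩],
  [W_10907042048]⟩
theorem C_10907312388 : chkRec R_10907312388 = true := by decide +kernel

noncomputable def R_10907312451 : Rec := ⟨nat_lit 10907312451, nat_lit 1,
  [⟨V6_10890006849, [(nat_lit 70, nat_lit 10907312451), (nat_lit 5, nat_lit 11981054274), (nat_lit 112, nat_lit 11981050179), (nat_lit 59, nat_lit 11980792131), (nat_lit 78, nat_lit 11964277059), (nat_lit 90, nat_lit 13054796097), (nat_lit 93, nat_lit 13054792002), (nat_lit 23, nat_lit 13054533954), (nat_lit 30, nat_lit 13054529859), (nat_lit 75, nat_lit 13054271811), (nat_lit 124, nat_lit 13038018882), (nat_lit 87, nat_lit 13038014787), (nat_lit 98, nat_lit 13037756739), (nat_lit 118, nat_lit 14128533825), (nat_lit 35, nat_lit 14128275777), (nat_lit 59, nat_lit 14128271682), (nat_lit 62, nat_lit 14128013634), (nat_lit 53, nat_lit 14128009539), (nat_lit 22, nat_lit 14111760705), (nat_lit 13, nat_lit 14111756610), (nat_lit 121, nat_lit 14111498562), (nat_lit 90, nat_lit 14111494467), (nat_lit 64, nat_lit 14111236419),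 (nat_lit 4, nat_lit 15202013505), (nat_lit 121, nat_lit 15201755457), (nat_lit 28, nat_lit 15201751362), (nat_lit 87, nat_lit 15185498433), (nat_lit 89, nat_lit 15185240385), (nat_lit 61, nat_lit 15185236290), (nat_lit 123, nat_lit 15184978242), (nat_lit 68, nat_lit 15184974147), (nat_lit 39, nat_lit 16275493185), (nat_lit 20, nat_lit 16258978113), (nat_lit 110, nat_lit 16258720065), (nat_lit 26, nat_lit 16258715970), (nat_lit 81, nat_lit 17332457793)]⟩],
  [W_10906788032]⟩
theorem C_10907312451 : chkRec R_10907312451 = true := by decide +kernel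

noncomputable def R_10907312514 : Rec := ⟨nat_lit 10907312514, nat_lit 2,
  [⟨V6_10873233792, [(nat_lit 33, nat_lit 10907312514), (nat_lit 52, nat_lit 11981054337), (nat_lit 18, nat_lit 11980792194), (nat_lit 84, nat_lit 11964277122), (nat_lit 53, nat_lit 13054796160), (nat_lit 113, nat_lit 13054534017), (nat_lit 35, nat_lit 13054271874), (nat_lit 106, nat_lit 13038018945), (nat_lit 40, nat_lit 13037756802), (nat_lit 107, nat_lit 13021241730), (nat_lit 7, nat_lit 14128275840), (nat_lit 126, nat_lit 14128013697), (nat_lit 38, nat_lit 14111760768), (nat_lit 101, nat_lit 14111498625), (nat_lit 3, nat_lit 14111236482), (nat_lit 95, nat_lit 14094983553), (nat_lit 76, nat_lit 14094721410), (nat_lit 14, nat_lit 15201755520), (nat_lit 35, nat_lit 15185240448), (nat_lit 21, nat_lit 15184978305), (nat_lit 122, nat_lit 15168725376), (nat_lit 52, nat_lit 15168463233), (nat_lit 8, nat_lit 15168201090), (nat_lit 117, nat_lit 16258720128), (nat_lit 5, nat_lit 16242205056), (nat_lit 48, nat_lit 16241942913), (nat_lit 12, nat_lit 17315684736)]⟩],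
  [W_10907050112, W_10890272960]⟩
theorem C_10907312514 : chkRec R_10907312514 = true := by decide +kernel

noncomputable def R_10907316483 : Rec := ⟨nat_lit 10907316483, nat_lit 1,
  [⟨V6_10907304192, [(nat_lit 122, nat_lit 10907316483), (nat_lit 46, nat_lit 11981058306), (nat_lit 110, nat_lit 11981054211), (nat_lit 100, nat_lit 13054800129), (nat_lit 15, nat_lit 13054796034), (nat_lit 100, nat_lit 13054791939), (nat_lit 37, nat_lit 14128541952), (nat_lit 103, nat_lit 14128537857), (nat_lit 121, nat_lit 14128533762), (nat_lit 14, nat_lit 14128529667), (nat_lit 80, nat_lit 15202279680), (nat_lit 36, nat_lit 15202275585), (nat_lit 56, nat_lit 15202271490), (nat_lit 68, nat_lit 16276017408), (nat_lit 31, nat_lit 16276013313), (nat_lit 82, nat_lit 17349755136)]⟩],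
  [W_10873757888]⟩
theorem C_10907316483 : chkRec R_10907316483 = true := by decide +kernel

noncomputable def R_10907316546 : Rec := ⟨nat_lit 10907316546, nat_lit 1,
  [⟨V6_10907046018, [(nat_lit 53, nat_lit 10907316546), (nat_lit 99, nat_lit 11981058306), (nat_lit 18, nat_lit 11981054274), (nat_lit 98, nat_lit 11980796226), (nat_lit 26, nat_lit 13054800066), (nat_lit 54, nat_lit 13054796034), (nat_lit 98, nat_lit 13054792002), (nat_lit 117, nat_lit 13054537986), (nat_lit 30, nat_lit 13054533954), (nat_lit 83, nat_lit 14128541826), (nat_lit 59, nat_lit 14128537794), (nat_lit 11, nat_lit 14128533762), (nat_lit 121, nat_lit 14128279746), (nat_lit 62, nat_lit 14128275714), (nat_lit 25, nat_lit 14128271682), (nat_lit 58, nat_lit 15202279554), (nat_lit 122, nat_lit 15202275522), (nat_lit 47, nat_lit 15202021506), (nat_lit 60, nat_lit 15202017474), (nat_lit 83, nat_lit 15202013442), (nat_lit 17, nat_lit 16276017282), (nat_lit 29, nat_lit 16275759234), (nat_lit 75, nat_lit 16275755202), (nat_lit 81, nat_lit 17349496962)]⟩],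
  [W_10873761920]⟩
theorem C_10907316546 : chkRec R_10907316546 = true := by decide +kernel

noncomputable def R_10907316609 : Rec := ⟨nat_lit 10907316609, nat_lit 1,
  [⟨V6_10890539073, [(nat_lit 110, nat_lit 10907316609), (nat_lit 95, nat_lit 11981058369), (nat_lit 69, nat_lit 11964281217), (nat_lit 25, nat_lit 13054800129), (nat_lit 28, nat_lit 13038022977), (nat_lit 17, nat_lit 14128541889), (nat_lit 6, nat_lit 14111764737), (nat_lit 93, nat_lit 15202283649), (nat_lit 99, nat_lit 15185506497), (nat_lit 51, nat_lit 16276025409), (nat_lit 54, nat_lit 16259248257), (nat_lit 112, nat_lit 17332990017)]⟩],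
  [W_10890272960]⟩
theorem C_10907316609 : chkRec R_10907316609 = true := by decide +kernel

noncomputable def R_10907320578 : Rec := ⟨nat_lit 10907320578, nat_lit 2,
  [⟨V6_10907304066, [(nat_lit 95, nat_lit 10907320578), (nat_lit 104, nat_lit 11981062338), (nat_lit 107, nat_lit 11981058306), (nat_lit 97, nat_lit 13054804098), (nat_lit 73, nat_lit 13054800066), (nat_lit 93, nat_lit 13054796034), (nat_lit 23, nat_lit 14128541826), (nat_lit 24, nat_lit 14128537794), (nat_lit 26, nat_lit 14128533762), (nat_lit 114, nat_lit 15202279554), (nat_lit 69, nat_lit 15202275522), (nat_lit 59, nat_lit 15202271490), (nat_lit 121, nat_lit 16276017282), (nat_lit 72, nat_lit 16276013250), (nat_lit 4, nat_lit 17349755010)]⟩],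
  [W_10873761920, W_10873753856]⟩
theorem C_10907320578 : chkRec R_10907320578 = true := by decide +kernel

noncomputable def R_10907320641 : Rec := ⟨nat_lit 10907320641, nat_lit 2,
  [⟨V6_10907308161, [(nat_lit 103, nat_lit 10907320641), (nat_lit 67, nat_lit 11981062401), (nat_lit 105, nat_lit 11981058369), (nat_lit 68, nat_lit 13054804161), (nat_lit 26, nat_lit 13054800129), (nat_lit 74, nat_lit 13054796097), (nat_lit 39, nat_lit 14128545921), (nat_lit 121, nat_lit 14128541889), (nat_lit 95, nat_lit 14128537857), (nat_lit 36, nat_lit 14128533825), (nat_lit 59, nat_lit 15202283649), (nat_lit 45, nat_lit 15202279617), (nat_lit 17, nat_lit 15202275585), (nat_lit 55, nat_lit 16276021377), (nat_lit 50, nat_lit 16276017345), (nat_lit 84, nat_lit 17349759105)]⟩],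
  [W_10873765952, W_10873761920]⟩
theorem C_10907320641 : chkRec R_10907320641 = true := by decide +kernel

noncomputable def R_10907320704 : Rec := ⟨nat_lit 10907320704, nat_lit 2,
  [⟨V6_10907320320, [(nat_lit 32, nat_lit 10907320704), (nat_lit 41, nat_lit 11981062464), (nat_lit 3, nat_lit 13054804224), (nat_lit 31, nat_lit 14128545984), (nat_lit 66, nat_lit 15202287744), (nat_lit 87, nat_lit 16276029504), (nat_lit 109, nat_lit 17349771264)]⟩],
  [W_10873765952, W_10873761920]⟩
theorem C_10907320704 : chkRec R_10907320704 = true := by decide +kernel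

noncomputable def R_10907574531 : Rec := ⟨nat_lit 10907574531, nat_lit 1,
  [⟨V6_10907566272, [(nat_lit 72, nat_lit 10907574531), (nat_lit 75, nat_lit 11981316354), (nat_lit 84, nat_lit 11981316291), (nat_lit 36, nat_lit 11981312259), (nat_lit 90, nat_lit 13055058177), (nat_lit 32, nat_lit 13055058114), (nat_lit 47, nat_lit 13055054082), (nat_lit 79, nat_lit 13055054019), (nat_lit 85, nat_lit 13055049987), (nat_lit 112, nat_lit 14128800000), (nat_lit 94, nat_lit 14128799937), (nat_lit 21, nat_lit 14128795905), (nat_lit 114, nat_lit 14128795842), (nat_lit 29, nat_lit 14128791810), (nat_lit 117, nat_lit 14128791747), (nat_lit 99, nat_lit 15202541760), (nat_lit 93, nat_lit 15202537728), (nat_lit 85, nat_lit 15202537665), (nat_lit 1, nat_lit 15202533633), (nat_lit 110, nat_lit 15202533570), (nat_lit 81, nat_lit 16276279488), (nat_lit 3, nat_lit 16276275456), (nat_lit 82, nat_lit 16276275393), (nat_lit 110, nat_lit 17350017216)]⟩],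
  [W_10890010880]⟩
theorem C_10907574531 : chkRec R_10907574531 = true := by decide +kernel

noncomputable def R_10907574594 : Rec := ⟨nat_lit 10907574594, nat_lit 1,
  [⟨V6_10907046018, [(nat_lit 25, nat_lit 10907574594), (nat_lit 41, nat_lit 11981316354), (nat_lit 56, nat_lit 11981312322), (nat_lit 17, nat_lit 11981054274), (nat_lit 112, nat_lit 13055058114), (nat_lit 9, nat_lit 13055054082), (nat_lit 22, nat_lit 13054796034), (nat_lit 86, nat_lit 13054792002), (nat_lit 60, nat_lit 13054533954), (nat_lit 76, nat_lit 14128799874), (nat_lit 102, nat_lit 14128795842), (nat_lit 82, nat_lit 14128537794), (nat_lit 121, nat_lit 14128533762), (nat_lit 51, nat_lit 14128275714), (nat_lit 80, nat_lit 14128271682), (nat_lit 121, nat_lit 15202537602), (nat_lit 26, nat_lit 15202279554), (nat_lit 47, nat_lit 15202275522), (nat_lit 23, nat_lit 15202017474), (nat_lit 6, nat_lit 15202013442), (nat_lit 70, nat_lit 16276017282), (nat_lit 35, nat_lit 16275759234), (nat_lit 46, nat_lit 16275755202), (nat_lit 117, nat_lit 17349496962)]⟩],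
  [W_10906788032]⟩
theorem C_10907574594 : chkRec R_10907574594 = true := by decide +kernel

noncomputable def R_10907574657 : Rec := ⟨nat_lit 10907574657, nat_lit 2,
  [⟨V6_10890010944, [(nat_lit 33, nat_lit 10907574657), (nat_lit 100, nat_lit 11981316480), (nat_lit 56, nat_lit 11981316417), (nat_lit 53, nat_lit 11981054337), (nat_lit 86, nat_lit 11964539265), (nat_lit 36, nat_lit 13055058240), (nat_lit 42, nat_lit 13054796160), (nat_lit 18, nat_lit 13054796097), (nat_lit 122, nat_lit 13054534017), (nat_lit 69, nat_lit 13038281088), (nat_lit 13, nat_lit 13038281025), (nat_lit 2, nat_lit 13038018945), (nat_lit 111, nat_lit 14128537920), (nat_lit 110, nat_lit 14128275840), (nat_lit 118, nat_lit 14128275777), (nat_lit 116, nat_lit 14128013697), (nat_lit 86, nat_lit 14112022848), (nat_lit 125, nat_lit 14111760768), (nat_lit 60, nat_lit 14111760705), (nat_lit 119, nat_lit 14111498625), (nat_lit 44, nat_lit 15202017600), (nat_lit 45, nat_lit 15201755520), (nat_lit 19, nat_lit 15201755457), (nat_lit 29, nat_lit 15185502528), (nat_lit 44, nat_lit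 15185240448), (nat_lit 125, nat_lit 15185240385), (nat_lit 115, nat_lit 15184978305), (nat_lit 52, nat_lit 16275497280), (nat_lit 73, nat_lit 16258982208), (nat_lit 70, nat_lit 16258720128), (nat_lit 76, nat_lit 16258720065), (nat_lit 52, nat_lit 17332461888)]⟩],
  [W_10907312192]⟩
theorem C_10907574657 : chkRec R_10907574657 = true := by decide +kernel

noncomputable def R_10907578563 : Rec := ⟨nat_lit 10907578563, nat_lit 1,
  [⟨V6_10907037891, [(nat_lit 44, nat_lit 10907578563), (nat_lit 113, nat_lit 11981316291), (nat_lit 100, nat_lit 11981058243), (nat_lit 33, nat_lit 13055054019), (nat_lit 71, nat_lit 13054795971), (nat_lit 7, nat_lit 13054537923), (nat_lit 56, nat_lit 14128791747), (nat_lit 90, nat_lit 14128533699), (nat_lit 115, nat_lit 14128275651), (nat_lit 17, nat_lit 15202529475), (nat_lit 9, nat_lit 15202271427), (nat_lit 92, nat_lit 15202013379), (nat_lit 114, nat_lit 16276009155), (nat_lit 64, nat_lit 16275751107), (nat_lit 26, nat_lit 17349488835)]⟩],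
  [W_10890531008]⟩
theorem C_10907578563 : chkRec R_10907578563 = true := by decide +kernel

noncomputable def R_10907578626 : Rec := ⟨nat_lit 10907578626, nat_lit 1,
  [⟨V6_10907304066, [(nat_lit 5, nat_lit 10907578626), (nat_lit 3, nat_lit 11981320386), (nat_lit 96, nat_lit 11981316354), (nat_lit 72, nat_lit 11981058306), (nat_lit 40, nat_lit 13055062146), (nat_lit 97, nat_lit 13055058114), (nat_lit 22, nat_lit 13055054082), (nat_lit 6, nat_lit 13054800066), (nat_lit 82, nat_lit 13054796034), (nat_lit 49, nat_lit 14128799874), (nat_lit 26, nat_lit 14128795842), (nat_lit 78, nat_lit 14128791810), (nat_lit 47, nat_lit 14128541826), (nat_lit 123, nat_lit 14128537794), (nat_lit 116, nat_lit 14128533762), (nat_lit 23, nat_lit 15202537602), (nat_lit 19, nat_lit 15202533570), (nat_lit 112, nat_lit 15202279554), (nat_lit 37, nat_lit 15202275522), (nat_lit 7, nat_lit 15202271490), (nat_lit 105, nat_lit 16276275330), (nat_lit 21, nat_lit 16276017282), (nat_lit 111, nat_lit 16276013250), (nat_lit 55, nat_lit 17349755010)]⟩],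
  [W_10907042048]⟩
theorem C_10907578626 : chkRec R_10907578626 = true := by decide +kernel

noncomputable def R_10907578689 : Rec := ⟨nat_lit 10907578689, nat_lit 1,
  [⟨V6_10890539073, [(nat_lit 61, nat_lit 10907578689), (nat_lit 78, nat_lit 11981320449), (nat_lit 73, nat_lit 11981058369), (nat_lit 106, nat_lit 11964543297), (nat_lit 74, nat_lit 13055062209), (nat_lit 95, nat_lit 13054800129), (nat_lit 56, nat_lit 13038285057), (nat_lit 81, nat_lit 13038022977), (nat_lit 39, nat_lit 14128803969), (nat_lit 7, nat_lit 14128541889), (nat_lit 45, nat_lit 14112026817), (nat_lit 79, nat_lit 14111764737), (nat_lit 62, nat_lit 15202545729), (nat_lit 101, nat_lit 15202283649), (nat_lit 121, nat_lit 15185768577), (nat_lit 40, nat_lit 15185506497), (nat_lit 28, nat_lit 16276025409), (nat_lit 63, nat_lit 16259510337), (nat_lit 90, nat_lit 16259248257), (nat_lit 83, nat_lit 17332990017)]⟩],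
  [W_10907050112]⟩
theorem C_10907578689 : chkRec R_10907578689 = true := by decide +kernel

noncomputable def R_10907578752 : Rec := ⟨nat_lit 10907578752, nat_lit 1,
  [⟨V6_10907578368, [(nat_lit 9, nat_lit 10907578752), (nat_lit 79, nat_lit 11981320512), (nat_lit 108, nat_lit 13055062272), (nat_lit 100, nat_lit 14128804032), (nat_lit 90, nat_lit 15202545792), (nat_lit 84, nat_lit 16276287552), (nat_lit 114, nat_lit 17350029312)]⟩],
  [W_10890272960]⟩
theorem C_10907578752 : chkRec R_10907578752 = true := by decide +kernel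

noncomputable def R_10907582658 : Rec := ⟨nat_lit 10907582658, nat_lit 1,
  [⟨V6_10907562177, [(nat_lit 111, nat_lit 10907582658), (nat_lit 60, nat_lit 11981324481), (nat_lit 75, nat_lit 11981320386), (nat_lit 59, nat_lit 13055062209), (nat_lit 63, nat_lit 13055058114), (nat_lit 9, nat_lit 14128799937), (nat_lit 23, nat_lit 14128795842), (nat_lit 35, nat_lit 15202537665), (nat_lit 47, nat_lit 15202533570), (nat_lit 37, nat_lit 16276275393), (nat_lit 18, nat_lit 16276271298), (nat_lit 47, nat_lit 17350013121)]⟩],
  [W_10907566208]⟩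
theorem C_10907582658 : chkRec R_10907582658 = true := by decide +kernel

noncomputable def R_10907582721 : Rec := ⟨nat_lit 10907582721, nat_lit 1,
  [⟨V6_10890526977, [(nat_lit 61, nat_lit 10907582721), (nat_lit 19, nat_lit 11981320449), (nat_lit 106, nat_lit 11981062401), (nat_lit 99, nat_lit 11964547329), (nat_lit 16, nat_lit 13055058177), (nat_lit 35, nat_lit 13054800129), (nat_lit 122, nat_lit 13038285057), (nat_lit 42, nat_lit 13038027009), (nat_lit 100, nat_lit 14128795905), (nat_lit 100, nat_lit 14128537857), (nat_lit 58, nat_lit 14112022785), (nat_lit 10, nat_lit 14111764737), (nat_lit 15, nat_lit 15202533633), (nat_lit 74, nat_lit 15202275585), (nat_lit 10, nat_lit 15185760513), (nat_lit 60, nat_lit 15185502465), (nat_lit 83, nat_lit 16276013313), (nat_lit 69, nat_lit 16259498241), (nat_lit 103, nat_lit 16259240193), (nat_lit 18, nat_lit 17332977921)]⟩],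
  [W_10907566208]⟩
theorem C_10907582721 : chkRec R_10907582721 = true := by decide +kernel

noncomputable def R_10907582784 : Rec := ⟨nat_lit 10907582784, nat_lit 1,
  [⟨V6_10907320320, [(nat_lit 31, nat_lit 10907582784), (nat_lit 106, nat_lit 11981324544), (nat_lit 5, nat_lit 11981062464), (nat_lit 102, nat_lit 13055066304), (nat_lit 17, nat_lit 13054804224), (nat_lit 69, nat_lit 14128808064), (nat_lit 48, nat_lit 14128545984), (nat_lit 1, nat_lit 15202549824), (nat_lit 102, nat_lit 15202287744), (nat_lit 49, nat_lit 16276291584), (nat_lit 69, nat_lit 16276029504), (nat_lit 117, nat_lit 17349771264)]⟩],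
  [W_10907574272]⟩
theorem C_10907582784 : chkRec R_10907582784 = true := by decide +kernel

noncomputable def R_10907828484 : Rec := ⟨nat_lit 10907828484, nat_lit 1,
  [⟨V6_10907042049, [(nat_lit 31, nat_lit 10907828484), (nat_lit 49, nat_lit 11981570307), (nat_lit 2, nat_lit 11981308164), (nat_lit 25, nat_lit 13055312130), (nat_lit 109, nat_lit 13055049987), (nat_lit 117, nat_lit 13054787844), (nat_lit 51, nat_lit 14129053953), (nat_lit 105, nat_lit 14128791810), (nat_lit 37, nat_lit 14128529667), (nat_lit 28, nat_lit 14128267524), (nat_lit 82, nat_lit 15202533633), (nat_lit 95, nat_lit 15202271490), (nat_lit 35, nat_lit 15202009347), (nat_lit 21, nat_lit 16276013313), (nat_lit 44, nat_lit 16275751170), (nat_lit 17, nat_lit 17349492993)]⟩],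
  [W_10907042048]⟩
theorem C_10907828484 : chkRec R_10907828484 = true := by decide +kernel

noncomputable def R_10907836674 : Rec := ⟨nat_lit 10907836674, nat_lit 2,
  [⟨V6_10907304066, [(nat_lit 90, nat_lit 10907836674), (nat_lit 63, nat_lit 11981578434), (nat_lit 33, nat_lit 11981574402), (nat_lit 44, nat_lit 11981316354), (nat_lit 2, nat_lit 13055320194), (nat_lit 126, nat_lit 13055316162), (nat_lit 51, nat_lit 13055312130), (nat_lit 20, nat_lit 13055058114), (nat_lit 105, nat_lit 13055054082), (nat_lit 9, nat_lit 13054796034), (nat_lit 72, nat_lit 14129057922), (nat_lit 98, nat_lit 14129053890), (nat_lit 46, nat_lit 14128799874), (nat_lit 84, nat_lit 14128795842), (nat_lit 63, nat_lit 14128791810), (nat_lit 15, nat_lit 14128537794), (nat_lit 46, nat_lit 14128533762), (nat_lit 63, nat_lit 15202795650), (nat_lit 74, nat_lit 15202537602), (nat_lit 118, nat_lit 15202533570), (nat_lit 29, nat_lit 15202279554), (nat_lit 118, nat_lit 15202275522), (nat_lit 124, nat_lit 15202271490), (nat_lit 92, nat_lit 16276275330), (nat_lit 17, nat_lit 16276017282),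 (nat_lit 56, nat_lit 16276013250), (nat_lit 8, nat_lit 17349755010)]⟩],
  [W_10907042048, W_10906788032]⟩
theorem C_10907836674 : chkRec R_10907836674 = true := by decide +kernel

noncomputable def R_10907836800 : Rec := ⟨nat_lit 10907836800, nat_lit 2,
  [⟨V6_10907312256, [(nat_lit 44, nat_lit 10907836800), (nat_lit 18, nat_lit 11981578560), (nat_lit 1, nat_lit 11981316480), (nat_lit 28, nat_lit 13055320320), (nat_lit 104, nat_lit 13055058240), (nat_lit 66, nat_lit 13054796160), (nat_lit 45, nat_lit 14129062080), (nat_lit 104, nat_lit 14128800000), (nat_lit 38, nat_lit 14128537920), (nat_lit 74, nat_lit 15202803840), (nat_lit 105, nat_lit 15202541760), (nat_lit 79, nat_lit 15202279680), (nat_lit 51, nat_lit 16276283520), (nat_lit 47, nat_lit 16276021440), (nat_lit 57, nat_lit 17349763200)]⟩],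
  [W_10907574272, W_10906788032]⟩
theorem C_10907836800 : chkRec R_10907836800 = true := by decide +kernel

noncomputable def R_10907840769 : Rec := ⟨nat_lit 10907840769, nat_lit 2,
  [⟨V6_10907042049, [(nat_lit 75, nat_lit 10907840769), (nat_lit 106, nat_lit 11981578497), (nat_lit 55, nat_lit 11981320449), (nat_lit 1, nat_lit 13055316225), (nat_lit 53, nat_lit 13055058177), (nat_lit 108, nat_lit 13054800129), (nat_lit 61, nat_lit 14129053953), (nat_lit 109, nat_lit 14128795905), (nat_lit 109, nat_lit 14128537857), (nat_lit 55, nat_lit 14128279809), (nat_lit 10, nat_lit 15202533633), (nat_lit 7, nat_lit 15202275585), (nat_lit 16, nat_lit 15202017537), (nat_lit 13, nat_lit 16276013313), (nat_lit 120, nat_lit 16275755265), (nat_lit 20, nat_lit 17349492993)]⟩],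
  [W_10907828288, W_10907050112]⟩
theorem C_10907840769 : chkRec R_10907840769 = true := by decide +kernel

noncomputable def R_10907840832 : Rec := ⟨nat_lit 10907840832, nat_lit 1,
  [⟨V6_10907832384, [(nat_lit 3, nat_lit 10907840832), (nat_lit 98, nat_lit 11981582592), (nat_lit 115, nat_lit 11981578560), (nat_lit 14, nat_lit 13055324352), (nat_lit 67, nat_lit 13055320320), (nat_lit 111, nat_lit 13055316288), (nat_lit 88, nat_lit 14129066112), (nat_lit 9, nat_lit 14129062080), (nat_lit 105, nat_lit 14129058048), (nat_lit 6, nat_lit 15202807872), (nat_lit 68, nat_lit 15202803840), (nat_lit 18, nat_lit 15202799808), (nat_lit 78, nat_lit 16276545600), (nat_lit 35, nat_lit 16276541568), (nat_lit 4, nat_lit 17350283328)]⟩],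
  [W_10907832320]⟩
theorem C_10907840832 : chkRec R_10907840832 = true := by decide +kernel

noncomputable def R_10907844738 : Rec := ⟨nat_lit 10907844738, nat_lit 1,
  [⟨V6_10907820162, [(nat_lit 25, nat_lit 10907844738), (nat_lit 2, nat_lit 11981582466), (nat_lit 32, nat_lit 13055320194), (nat_lit 5, nat_lit 14129057922), (nat_lit 39, nat_lit 15202795650), (nat_lit 52, nat_lit 16276533378), (nat_lit 46, nat_lit 17350271106)]⟩],
  [W_10907566208]⟩
theorem C_10907844738 : chkRec R_10907844738 = true := by decide +kernel

noncomputable def R_10907844801 : Rec := ⟨nat_lit 10907844801, nat_lit 1,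
  [⟨V6_10907562177, [(nat_lit 111, nat_lit 10907844801), (nat_lit 115, nat_lit 11981582529), (nat_lit 99, nat_lit 11981324481), (nat_lit 88, nat_lit 13055320257), (nat_lit 24, nat_lit 13055062209), (nat_lit 40, nat_lit 14129057985), (nat_lit 7, nat_lit 14128799937), (nat_lit 4, nat_lit 15202795713), (nat_lit 24, nat_lit 15202537665), (nat_lit 93, nat_lit 16276533441), (nat_lit 9, nat_lit 16276275393), (nat_lit 37, nat_lit 17350013121)]⟩],
  [W_10907828288]⟩
theorem C_10907844801 : chkRec R_10907844801 = true := by decide +kernel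

noncomputable def R_10907844864 : Rec := ⟨nat_lit 10907844864, nat_lit 2,
  [⟨V6_10907320320, [(nat_lit 10, nat_lit 10907844864), (nat_lit 42, nat_lit 11981586624), (nat_lit 107, nat_lit 11981324544), (nat_lit 8, nat_lit 13055328384), (nat_lit 84, nat_lit 13055066304), (nat_lit 39, nat_lit 13054804224), (nat_lit 41, nat_lit 14129070144), (nat_lit 67, nat_lit 14128808064), (nat_lit 9, nat_lit 14128545984), (nat_lit 72, nat_lit 15202811904), (nat_lit 55, nat_lit 15202549824), (nat_lit 79, nat_lit 15202287744), (nat_lit 85, nat_lit 16276291584), (nat_lit 89, nat_lit 16276029504), (nat_lit 58, nat_lit 17349771264)]⟩],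
  [W_10907832320, W_10907828288]⟩
theorem C_10907844864 : chkRec R_10907844864 = true := by decide +kernel

noncomputable def R_10907848896 : Rec := ⟨nat_lit 10907848896, nat_lit 1,
  [⟨V6_10907828352, [(nat_lit 119, nat_lit 10907848896), (nat_lit 117, nat_lit 11981590656), (nat_lit 91, nat_lit 11981586624), (nat_lit 89, nat_lit 13055328384), (nat_lit 70, nat_lit 13055324352), (nat_lit 76, nat_lit 14129066112), (nat_lit 55, nat_lit 14129062080), (nat_lit 100, nat_lit 15202803840), (nat_lit 87, nat_lit 15202799808), (nat_lit 111, nat_lit 16276541568), (nat_lit 33, nat_lit 16276537536), (nat_lit 72, nat_lit 17350279296)]⟩],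
  [W_10907832320]⟩
theorem C_10907848896 : chkRec R_10907848896 = true := by decide +kernel

noncomputable def R_10907852928 : Rec := ⟨nat_lit 10907852928, nat_lit 1,
  [⟨V6_10907828352, [(nat_lit 14, nat_lit 10907852928), (nat_lit 64, nat_lit 11981590656), (nat_lit 126, nat_lit 13055328384), (nat_lit 114, nat_lit 14129066112), (nat_lit 90, nat_lit 15202803840), (nat_lit 32, nat_lit 16276541568), (nat_lit 47, nat_lit 17350279296)]⟩],
  [W_10907832320]⟩
theorem C_10907852928 : chkRec R_10907852928 = true := by decide +kernel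

noncomputable def R_11946975621 : Rec := ⟨nat_lit 11946975621, nat_lit 1,
  [⟨V6_8692195716, [(nat_lit 63, nat_lit 11946975621), (nat_lit 97, nat_lit 13020717444), (nat_lit 22, nat_lit 13003940229), (nat_lit 14, nat_lit 14077682052), (nat_lit 31, nat_lit 14060904837), (nat_lit 48, nat_lit 15134646660)]⟩],
  [W_10873233728]⟩
theorem C_11946975621 : chkRec R_11946975621 = true := by decide +kernel

noncomputable def R_11947499844 : Rec := ⟨nat_lit 11947499844, nat_lit 1,
  [⟨V6_9800016192, [(nat_lit 82, nat_lit 11947499844), (nat_lit 31, nat_lit 13021241667), (nat_lit 95, nat_lit 14094983490), (nat_lit 34, nat_lit 15168725313), (nat_lit 5, nat_lit 16242467136)]⟩],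
  [W_11947233536]⟩
theorem C_11947499844 : chkRec R_11947499844 = true := by decide +kernel

noncomputable def R_11947499907 : Rec := ⟨nat_lit 11947499907, nat_lit 1,
  [⟨V6_8726274432, [(nat_lit 61, nat_lit 11947499907), (nat_lit 87, nat_lit 13021241730), (nat_lit 114, nat_lit 14094983553), (nat_lit 35, nat_lit 15168725376)]⟩],
  [W_10873233728]⟩
theorem C_11947499907 : chkRec R_11947499907 = true := by decide +kernel

noncomputable def R_11947503876 : Rec := ⟨nat_lit 11947503876, nat_lit 1,
  [⟨V6_9799753986, [(nat_lit 71, nat_lit 11947503876), (nat_lit 20, nat_lit 13021245699), (nat_lit 88, nat_lit 13021241604), (nat_lit 54, nat_lit 13020983556), (nat_lit 71, nat_lit 14094987522), (nat_lit 61, nat_lit 14094983427), (nat_lit 20, nat_lit 14094725379), (nat_lit 32, nat_lit 14094721284), (nat_lit 58, nat_lit 15168725250), (nat_lit 56, nat_lit 15168467202), (nat_lit 39, nat_lit 15168463107), (nat_lit 92, nat_lit 16242204930)]⟩],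
  [W_11947491584]⟩
theorem C_11947503876 : chkRec R_11947503876 = true := by decide +kernel

noncomputable def R_11947503939 : Rec := ⟨nat_lit 11947503939, nat_lit 1,
  [⟨V6_9800016192, [(nat_lit 10, nat_lit 11947503939), (nat_lit 62, nat_lit 13021245762), (nat_lit 70, nat_lit 13021241667), (nat_lit 99, nat_lit 14094987585), (nat_lit 40, nat_lit 14094983490), (nat_lit 45, nat_lit 15168729408), (nat_lit 99, nat_lit 15168725313), (nat_lit 82, nat_lit 16242467136)]⟩],
  [W_11947233536]⟩
theorem C_11947503939 : chkRec R_11947503939 = true := by decide +kernel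

noncomputable def R_11947504002 : Rec := ⟨nat_lit 11947504002, nat_lit 1,
  [⟨V6_8726274432, [(nat_lit 56, nat_lit 11947504002), (nat_lit 82, nat_lit 13021245825), (nat_lit 91, nat_lit 13021241730), (nat_lit 112, nat_lit 14094987648), (nat_lit 97, nat_lit 14094983553), (nat_lit 10, nat_lit 15168725376)]⟩],
  [W_10873761920]⟩
theorem C_11947504002 : chkRec R_11947504002 = true := by decide +kernel

noncomputable def R_11947507971 : Rec := ⟨nat_lit 11947507971, nat_lit 1,
  [⟨V6_8726282496, [(nat_lit 72, nat_lit 11947507971), (nat_lit 9, nat_lit 13021249794), (nat_lit 95, nat_lit 14094991617), (nat_lit 8, nat_lit 15168733440)]⟩],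
  [W_11947495616]⟩
theorem C_11947507971 : chkRec R_11947507971 = true := by decide +kernel

noncomputable def R_11947508034 : Rec := ⟨nat_lit 11947508034, nat_lit 2,
  [⟨V6_9800024256, [(nat_lit 36, nat_lit 11947508034), (nat_lit 22, nat_lit 13021249857), (nat_lit 60, nat_lit 13021249794), (nat_lit 101, nat_lit 14094991680), (nat_lit 25, nat_lit 14094991617), (nat_lit 26, nat_lit 14094991554), (nat_lit 13, nat_lit 15168733440), (nat_lit 36, nat_lit 15168733377), (nat_lit 22, nat_lit 16242475200)]⟩,
   ⟨V6_8726282496, [(nat_lit 47, nat_lit 11947508034), (nat_lit 88, nat_lit 13021249857), (nat_lit 111, nat_lit 13021249794), (nat_lit 126, nat_lit 14094991680), (nat_lit 12, nat_lit 14094991617), (nat_lit 28, nat_lit 15168733440)]⟩],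
  [W_11947495616, W_8726282432]⟩
theorem C_11947508034 : chkRec R_11947508034 = true := by decide +kernel

noncomputable def R_11947508097 : Rec := ⟨nat_lit 11947508097, nat_lit 2,
  [⟨V6_8726282496, [(nat_lit 40, nat_lit 11947508097), (nat_lit 107, nat_lit 13021249920), (nat_lit 71, nat_lit 13021249857), (nat_lit 105, nat_lit 14094991680), (nat_lit 26, nat_lit 14094991617), (nat_lit 104, nat_lit 15168733440)]⟩,
   ⟨V6_8726274432, [(nat_lit 87, nat_lit 11947508097), (nat_lit 108, nat_lit 13021249920), (nat_lit 26, nat_lit 13021245825), (nat_lit 41, nat_lit 14094987648), (nat_lit 80, nat_lit 14094983553), (nat_lit 79, nat_lit 15168725376)]⟩],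
  [W_11947503680, W_10873765952]⟩
theorem C_11947508097 : chkRec R_11947508097 = true := by decide +kernel

noncomputable def R_11947508160 : Rec := ⟨nat_lit 11947508160, nat_lit 1,
  [⟨V6_8726282496, [(nat_lit 94, nat_lit 11947508160), (nat_lit 55, nat_lit 13021249920), (nat_lit 94, nat_lit 14094991680), (nat_lit 7, nat_lit 15168733440)]⟩],
  [W_11947507712]⟩
theorem C_11947508160 : chkRec R_11947508160 = true := by decide +kernel

noncomputable def R_11963752836 : Rec := ⟨nat_lit 11963752836, nat_lit 1,
  [⟨V6_10839679236, [(nat_lit 88, nat_lit 11963752836), (nat_lit 82, nat_lit 13037494596), (nat_lit 78, nat_lit 13020717444), (nat_lit 60, nat_lit 14111236356), (nat_lit 20, nat_lit 14094459204), (nat_lit 31, nat_lit 14077682052), (nat_lit 1, nat_lit 15168200964), (nat_lit 46, nat_lit 15151423812), (nat_lit 32, nat_lit 15134646660), (nat_lit 88, nat_lit 16225165572), (nat_lit 105, nat_lit 16208388420), (nat_lit 85, nat_lit 17282130180)]⟩],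
  [W_11913421184]⟩
theorem C_11963752836 : chkRec R_11963752836 = true := by decide +kernel

noncomputable def R_11964014916 : Rec := ⟨nat_lit 11964014916, nat_lit 1,
  [⟨V6_9799753986, [(nat_lit 72, nat_lit 11964014916), (nat_lit 68, nat_lit 13037756739), (nat_lit 123, nat_lit 13037756676), (nat_lit 120, nat_lit 13020979524), (nat_lit 13, nat_lit 14111498562), (nat_lit 42, nat_lit 14111498499), (nat_lit 83, nat_lit 14094721347), (nat_lit 32, nat_lit 14094721284), (nat_lit 73, nat_lit 15185240322), (nat_lit 77, nat_lit 15168463170), (nat_lit 117, nat_lit 15168463107), (nat_lit 107, nat_lit 16242204930)]⟩],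
  [W_9816527168]⟩
theorem C_11964014916 : chkRec R_11964014916 = true := by decide +kernel

noncomputable def R_11964014979 : Rec := ⟨nat_lit 11964014979, nat_lit 1,
  [⟨V6_9799753986, [(nat_lit 12, nat_lit 11964014979), (nat_lit 52, nat_lit 13037756802), (nat_lit 46, nat_lit 13037756739), (nat_lit 21, nat_lit 13020979587), (nat_lit 32, nat_lit 14111498562), (nat_lit 65, nat_lit 14111498499), (nat_lit 56, nat_lit 14094721410), (nat_lit 32, nat_lit 14094721347), (nat_lit 84, nat_lit 15185240322), (nat_lit 12, nat_lit 15168463170), (nat_lit 48, nat_lit 15168463107), (nat_lit 52, nat_lit 16242204930)]⟩],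
  [W_10890010880]⟩
theorem C_11964014979 : chkRec R_11964014979 = true := by decide +kernel

noncomputable def R_11964019011 : Rec := ⟨nat_lit 11964019011, nat_lit 1,
  [⟨V6_9799753986, [(nat_lit 37, nat_lit 11964019011), (nat_lit 117, nat_lit 13037760834), (nat_lit 101, nat_lit 13037760771), (nat_lit 18, nat_lit 13037756739), (nat_lit 117, nat_lit 13020983619), (nat_lit 92, nat_lit 14111502594), (nat_lit 71, nat_lit 14111498562), (nat_lit 63, nat_lit 14111498499), (nat_lit 8, nat_lit 14094725442), (nat_lit 107, nat_lit 14094725379), (nat_lit 36, nat_lit 14094721347), (nat_lit 97, nat_lit 15185240322), (nat_lit 18, nat_lit 15168467202), (nat_lit 19, nat_lit 15168463170), (nat_lit 81, nat_lit 15168463107), (nat_lit 60, nat_lit 16242204930)]⟩],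
  [W_9816527168]⟩
theorem C_11964019011 : chkRec R_11964019011 = true := by decide +kernel

noncomputable def R_11964272964 : Rec := ⟨nat_lit 11964272964, nat_lit 1,
  [⟨V6_9816789312, [(nat_lit 21, nat_lit 11964272964), (nat_lit 121, nat_lit 13038014787), (nat_lit 125, nat_lit 14111756610), (nat_lit 18, nat_lit 15185498433), (nat_lit 40, nat_lit 16259240256)]⟩],
  [W_11947233536]⟩
theorem C_11964272964 : chkRec R_11964272964 = true := by decide +kernel

noncomputable def R_11964276996 : Rec := ⟨nat_lit 11964276996, nat_lit 1,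
  [⟨V6_10873225476, [(nat_lit 95, nat_lit 11964276996), (nat_lit 97, nat_lit 13038014724), (nat_lit 92, nat_lit 13037756676), (nat_lit 121, nat_lit 13021241604), (nat_lit 5, nat_lit 14111752452), (nat_lit 101, nat_lit 14111494404), (nat_lit 59, nat_lit 14111236356), (nat_lit 12, nat_lit 14094979332), (nat_lit 23, nat_lit 14094721284), (nat_lit 78, nat_lit 15185232132), (nat_lit 79, nat_lit 15184974084), (nat_lit 56, nat_lit 15168717060), (nat_lit 107, nat_lit 15168459012), (nat_lit 92, nat_lit 15168200964), (nat_lit 35, nat_lit 16258711812), (nat_lit 98, nat_lit 16242196740), (nat_lit 105, nat_lit 16241938692), (nat_lit 80, nat_lit 17315676420)]⟩],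
  [W_11963748608]⟩
theorem C_11964276996 : chkRec R_11964276996 = true := by decide +kernel

noncomputable def R_11964277059 : Rec := ⟨nat_lit 11964277059, nat_lit 3,
  [⟨V6_9816789312, [(nat_lit 33, nat_lit 11964277059), (nat_lit 43, nat_lit 13038018882), (nat_lit 41, nat_lit 13038014787), (nat_lit 56, nat_lit 14111760705), (nat_lit 51, nat_lit 14111756610), (nat_lit 114, nat_lit 15185502528), (nat_lit 63, nat_lit 15185498433), (nat_lit 121, nat_lit 16259240256)]⟩,
   ⟨V6_9800016192, [(nat_lit 57, nat_lit 11964277059), (nat_lit 85, nat_lit 13038018882), (nat_lit 118, nat_lit 13021241667), (nat_lit 19, nat_lit 14111760705), (nat_lit 110, nat_lit 14094983490), (nat_lit 3, nat_lit 15185502528), (nat_lit 4, nat_lit 15168725313), (nat_lit 126, nat_lit 16242467136)]⟩],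
  [W_11963748608, W_11947233536, W_10873233728]⟩
theorem C_11964277059 : chkRec R_11964277059 = true := by decide +kernel

noncomputable def R_11964277122 : Rec := ⟨nat_lit 11964277122, nat_lit 2,
  [⟨V6_10873233792, [(nat_lit 63, nat_lit 11964277122), (nat_lit 19, nat_lit 13038018945), (nat_lit 118, nat_lit 13037756802), (nat_lit 41, nat_lit 13021241730), (nat_lit 41, nat_lit 14111760768), (nat_lit 51, nat_lit 14111498625), (nat_lit 107, nat_lit 14111236482), (nat_lit 116, nat_lit 14094983553), (nat_lit 95, nat_lit 14094721410), (nat_lit 114, nat_lit 15185240448), (nat_lit 56, nat_lit 15184978305), (nat_lit 27, nat_lit 15168725376), (nat_lit 101, nat_lit 15168463233), (nat_lit 47, nat_lit 15168201090), (nat_lit 61, nat_lit 16258720128), (nat_lit 97, nat_lit 16242205056), (nat_lit 65, nat_lit 16241942913), (nat_lit 68, nat_lit 17315684736)]⟩],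
  [W_10890272960, W_9800016128]⟩
theorem C_11964277122 : chkRec R_11964277122 = true := by decide +kernel

noncomputable def R_11964281091 : Rec := ⟨nat_lit 11964281091, nat_lit 2,
  [⟨V6_9816793344, [(nat_lit 49, nat_lit 11964281091), (nat_lit 126, nat_lit 13038022914), (nat_lit 89, nat_lit 13038018819), (nat_lit 66, nat_lit 14111764737), (nat_lit 69, nat_lit 14111760642), (nat_lit 30, nat_lit 15185506560), (nat_lit 66, nat_lit 15185502465), (nat_lit 97, nat_lit 16259244288)]⟩,
   ⟨V6_9816785091, [(nat_lit 98, nat_lit 11964281091), (nat_lit 61, nat_lit 13038022851), (nat_lit 64, nat_lit 13038018819), (nat_lit 38, nat_lit 14111760579), (nat_lit 56, nat_lit 14111756547), (nat_lit 89, nat_lit 15185498307), (nat_lit 82, nat_lit 15185494275), (nat_lit 77, nat_lit 16259236035)]⟩],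
  [W_11964268736, W_11947491584]⟩
theorem C_11964281091 : chkRec R_11964281091 = true := by decide +kernel

noncomputable def R_11964281154 : Rec := ⟨nat_lit 11964281154, nat_lit 3,
  [⟨V6_9816789312, [(nat_lit 37, nat_lit 11964281154), (nat_lit 121, nat_lit 13038022977), (nat_lit 63, nat_lit 13038018882), (nat_lit 107, nat_lit 14111764800), (nat_lit 117, nat_lit 14111760705), (nat_lit 99, nat_lit 14111756610), (nat_lit 118, nat_lit 15185502528), (nat_lit 59, nat_lit 15185498433), (nat_lit 55, nat_lit 16259240256)]⟩,
   ⟨V6_9800016192, [(nat_lit 7, nat_lit 11964281154), (nat_lit 49, nat_lit 13038022977), (nat_lit 95, nat_lit 13038018882), (nat_lit 27, nat_lit 13021245762), (nat_lit 110, nat_lit 14111764800), (nat_lit 110, nat_lit 14111760705), (nat_lit 35, nat_lit 14094987585), (nat_lit 28, nat_lit 14094983490), (nat_lit 90, nat_lit 15185502528), (nat_lit 54, nat_lit 15168729408), (nat_lit 108, nat_lit 15168725313), (nat_lit 91, nat_lit 16242467136)]⟩],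
  [W_11947233536, W_10873761920, W_9816527168]⟩
theorem C_11964281154 : chkRec R_11964281154 = true := by decide +kernel

noncomputable def R_11964281217 : Rec := ⟨nat_lit 11964281217, nat_lit 2,
  [⟨V6_10890539073, [(nat_lit 42, nat_lit 11964281217), (nat_lit 86, nat_lit 13038022977), (nat_lit 44, nat_lit 14111764737), (nat_lit 48, nat_lit 15185506497), (nat_lit 9, nat_lit 16259248257), (nat_lit 42, nat_lit 17332990017)]⟩,
   ⟨V6_10873499841, [(nat_lit 12, nat_lit 11964281217), (nat_lit 109, nat_lit 13038022977), (nat_lit 120, nat_lit 13037760897), (nat_lit 50, nat_lit 13021245825), (nat_lit 83, nat_lit 14111764737), (nat_lit 62, nat_lit 14111502657), (nat_lit 68, nat_lit 14094987585), (nat_lit 74, nat_lit 14094725505), (nat_lit 73, nat_lit 15185506497), (nat_lit 5, nat_lit 15185244417), (nat_lit 125, nat_lit 15168729345), (nat_lit 64, nat_lit 15168467265), (nat_lit 36, nat_lit 16258986177), (nat_lit 14, nat_lit 16242471105), (nat_lit 8, nat_lit 16242209025), (nat_lit 44, nat_lit 17315950785)]⟩],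
  [W_11964018752, W_9800016128]⟩
theorem C_11964281217 : chkRec R_11964281217 = true := by decide +kernel

noncomputable def R_11964281280 : Rec := ⟨nat_lit 11964281280, nat_lit 1,
  [⟨V6_10873761984, [(nat_lit 111, nat_lit 11964281280), (nat_lit 37, nat_lit 13038023040), (nat_lit 116, nat_lit 13021245888), (nat_lit 90, nat_lit 14111764800), (nat_lit 5, nat_lit 14094987648), (nat_lit 14, nat_lit 15185506560), (nat_lit 13, nat_lit 15168729408), (nat_lit 12, nat_lit 16259248320), (nat_lit 14, nat_lit 16242471168), (nat_lit 115, nat_lit 17316212928)]⟩],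
  [W_11964018752]⟩
theorem C_11964281280 : chkRec R_11964281280 = true := by decide +kernel

noncomputable def R_11964285123 : Rec := ⟨nat_lit 11964285123, nat_lit 1,
  [⟨V6_9816785091, [(nat_lit 36, nat_lit 11964285123), (nat_lit 81, nat_lit 13038022851), (nat_lit 59, nat_lit 14111760579), (nat_lit 2, nat_lit 15185498307), (nat_lit 6, nat_lit 16259236035)]⟩],
  [W_10873757888]⟩
theorem C_11964285123 : chkRec R_11964285123 = true := by decide +kernel

noncomputable def R_11964285186 : Rec := ⟨nat_lit 11964285186, nat_lit 2,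
  [⟨V6_10890526977, [(nat_lit 124, nat_lit 11964285186), (nat_lit 14, nat_lit 13038027009), (nat_lit 55, nat_lit 13038022914), (nat_lit 45, nat_lit 14111764737), (nat_lit 20, nat_lit 14111760642), (nat_lit 60, nat_lit 15185502465), (nat_lit 71, nat_lit 15185498370), (nat_lit 5, nat_lit 16259240193), (nat_lit 49, nat_lit 16259236098), (nat_lit 94, nat_lit 17332977921)]⟩],
  [W_10873761920, W_9800016128]⟩
theorem C_11964285186 : chkRec R_11964285186 = true := by decide +kernel

noncomputable def R_11964285249 : Rec := ⟨nat_lit 11964285249, nat_lit 3,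
  [⟨V6_9816789312, [(nat_lit 95, nat_lit 11964285249), (nat_lit 102, nat_lit 13038027072), (nat_lit 67, nat_lit 13038022977), (nat_lit 21, nat_lit 14111764800), (nat_lit 66, nat_lit 14111760705), (nat_lit 112, nat_lit 15185502528), (nat_lit 80, nat_lit 15185498433), (nat_lit 18, nat_lit 16259240256)]⟩,
   ⟨V6_9800024256, [(nat_lit 50, nat_lit 11964285249), (nat_lit 61, nat_lit 13038027072), (nat_lit 39, nat_lit 13038027009), (nat_lit 3, nat_lit 13021249857), (nat_lit 121, nat_lit 14111768832), (nat_lit 48, nat_lit 14111768769), (nat_lit 5, nat_lit 14094991680), (nat_lit 67, nat_lit 14094991617), (nat_lit 82, nat_lit 15185510592), (nat_lit 44, nat_lit 15168733440), (nat_lit 25, nat_lit 15168733377), (nat_lit 51, nat_lit 16242475200)]⟩],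
  [W_11964276800, W_10873765952]⟩
theorem C_11964285249 : chkRec R_11964285249 = true := by decide +kernel

noncomputable def R_11964285312 : Rec := ⟨nat_lit 11964285312, nat_lit 2,
  [⟨V6_9800024256, [(nat_lit 85, nat_lit 11964285312), (nat_lit 10, nat_lit 13038027072), (nat_lit 111, nat_lit 13021249920), (nat_lit 35, nat_lit 14111768832), (nat_lit 105, nat_lit 14094991680), (nat_lit 36, nat_lit 15185510592), (nat_lit 14, nat_lit 15168733440), (nat_lit 11, nat_lit 16242475200)]⟩,
   ⟨V6_9800016192, [(nat_lit 105, nat_lit 11964285312), (nat_lit 96, nat_lit 13038027072), (nat_lit 105, nat_lit 13038023040), (nat_lit 113, nat_lit 13021249920), (nat_lit 108, nat_lit 14111764800), (nat_lit 101, nat_lit 14111760768), (nat_lit 79, nat_lit 14094991680), (nat_lit 16, nat_lit 14094987648), (nat_lit 124, nat_lit 15185502528), (nat_lit 98, nat_lit 15168729408), (nat_lit 121, nat_lit 15168725376), (nat_lit 78, nat_lit 16242467136)]⟩],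
  [W_11964280832, W_11947507712]⟩
theorem C_11964285312 : chkRec R_11964285312 = true := by decide +kernel

noncomputable def R_11964535107 : Rec := ⟨nat_lit 11964535107, nat_lit 1,
  [⟨V6_9817051329, [(nat_lit 28, nat_lit 11964535107), (nat_lit 70, nat_lit 13038276930), (nat_lit 113, nat_lit 13038276867), (nat_lit 113, nat_lit 14112018753), (nat_lit 40, nat_lit 14112018690), (nat_lit 74, nat_lit 14112018627), (nat_lit 110, nat_lit 15185760513), (nat_lit 87, nat_lit 15185760450), (nat_lit 35, nat_lit 16259502273)]⟩],
  [W_11963748608]⟩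
theorem C_11964535107 : chkRec R_11964535107 = true := by decide +kernel

noncomputable def R_11964539139 : Rec := ⟨nat_lit 11964539139, nat_lit 1,
  [⟨V6_9816785091, [(nat_lit 109, nat_lit 11964539139), (nat_lit 22, nat_lit 13038280899), (nat_lit 24, nat_lit 13038276867), (nat_lit 45, nat_lit 13038018819), (nat_lit 94, nat_lit 14112018627), (nat_lit 122, nat_lit 14112014595), (nat_lit 10, nat_lit 14111760579), (nat_lit 63, nat_lit 14111756547), (nat_lit 115, nat_lit 15185756355), (nat_lit 111, nat_lit 15185498307), (nat_lit 28, nat_lit 15185494275), (nat_lit 94, nat_lit 16259236035)]⟩],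
  [W_11963748608]⟩
theorem C_11964539139 : chkRec R_11964539139 = true := by decide +kernel

noncomputable def R_11964539202 : Rec := ⟨nat_lit 11964539202, nat_lit 2,
  [⟨V6_9817055424, [(nat_lit 118, nat_lit 11964539202), (nat_lit 58, nat_lit 13038281025), (nat_lit 112, nat_lit 13038280962), (nat_lit 70, nat_lit 14112022848), (nat_lit 89, nat_lit 14112022785), (nat_lit 57, nat_lit 14112022722), (nat_lit 92, nat_lit 15185764608), (nat_lit 118, nat_lit 15185764545), (nat_lit 58, nat_lit 16259506368)]⟩,
   ⟨V6_9817051266, [(nat_lit 86, nat_lit 11964539202), (nat_lit 114, nat_lit 13038280962), (nat_lit 26, nat_lit 13038276930), (nat_lit 70, nat_lit 14112022722), (nat_lit 43, nat_lit 14112018690), (nat_lit 94, nat_lit 15185764482), (nat_lit 79, nat_lit 15185760450), (nat_lit 88, nat_lit 16259502210)]⟩],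
  [W_11963748608, W_10890010880]⟩
theorem C_11964539202 : chkRec R_11964539202 = true := by decide +kernel

noncomputable def R_11964539265 : Rec := ⟨nat_lit 11964539265, nat_lit 1,
  [⟨V6_9817055424, [(nat_lit 113, nat_lit 11964539265), (nat_lit 93, nat_lit 13038281088), (nat_lit 47, nat_lit 13038281025), (nat_lit 106, nat_lit 14112022848), (nat_lit 116, nat_lit 14112022785), (nat_lit 123, nat_lit 15185764608), (nat_lit 59, nat_lit 15185764545), (nat_lit 86, nat_lit 16259506368)]⟩],
  [W_10890010880]⟩
theorem C_11964539265 : chkRec R_11964539265 = true := by decide +kernel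

noncomputable def R_11964543171 : Rec := ⟨nat_lit 11964543171, nat_lit 1,
  [⟨V6_9816785091, [(nat_lit 6, nat_lit 11964543171), (nat_lit 56, nat_lit 13038280899), (nat_lit 46, nat_lit 13038022851), (nat_lit 99, nat_lit 14112018627), (nat_lit 102, nat_lit 14111760579), (nat_lit 12, nat_lit 15185756355), (nat_lit 98, nat_lit 15185498307), (nat_lit 115, nat_lit 16259236035)]⟩],
  [W_11964526784]⟩
theorem C_11964543171 : chkRec R_11964543171 = true := by decide +kernel

noncomputable def R_11964543234 : Rec := ⟨nat_lit 11964543234, nat_lit 1,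
  [⟨V6_9817051266, [(nat_lit 23, nat_lit 11964543234), (nat_lit 78, nat_lit 13038284994), (nat_lit 68, nat_lit 13038280962), (nat_lit 109, nat_lit 14112026754), (nat_lit 98, nat_lit 14112022722), (nat_lit 61, nat_lit 14112018690), (nat_lit 101, nat_lit 15185764482), (nat_lit 34, nat_lit 15185760450), (nat_lit 102, nat_lit 16259502210)]⟩],
  [W_10890535040]⟩
theorem C_11964543234 : chkRec R_11964543234 = true := by decide +kernel

noncomputable def R_11964543297 : Rec := ⟨nat_lit 11964543297, nat_lit 2,
  [⟨V6_9816789312, [(nat_lit 48, nat_lit 11964543297), (nat_lit 60, nat_lit 13038285120), (nat_lit 82, nat_lit 13038281025), (nat_lit 69, nat_lit 13038022977), (nat_lit 88, nat_lit 14112022848), (nat_lit 31, nat_lit 14112018753), (nat_lit 83, nat_lit 14111764800), (nat_lit 83, nat_lit 14111760705), (nat_lit 59, nat_lit 15185760576), (nat_lit 29, nat_lit 15185502528), (nat_lit 63, nat_lit 15185498433), (nat_lit 70, nat_lit 16259240256)]⟩],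
  [W_11964276800]⟩
theorem C_11964543297 : chkRec R_11964543297 = true := by decide +kernel

noncomputable def R_11964543360 : Rec := ⟨nat_lit 11964543360, nat_lit 1,
  [⟨V6_9817055424, [(nat_lit 11, nat_lit 11964543360), (nat_lit 71, nat_lit 13038285120), (nat_lit 86, nat_lit 13038281088), (nat_lit 31, nat_lit 14112026880), (nat_lit 32, nat_lit 14112022848), (nat_lit 18, nat_lit 15185768640), (nat_lit 98, nat_lit 15185764608), (nat_lit 82, nat_lit 16259506368)]⟩],
  [W_11964280832]⟩
theorem C_11964543360 : chkRec R_11964543360 = true := by decide +kernel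

noncomputable def R_11964547266 : Rec := ⟨nat_lit 11964547266, nat_lit 1,
  [⟨V6_9817051266, [(nat_lit 30, nat_lit 11964547266), (nat_lit 8, nat_lit 13038289026), (nat_lit 67, nat_lit 13038284994), (nat_lit 67, nat_lit 14112026754), (nat_lit 45, nat_lit 14112022722), (nat_lit 31, nat_lit 15185764482), (nat_lit 51, nat_lit 15185760450), (nat_lit 99, nat_lit 16259502210)]⟩],
  [W_10890535040]⟩
theorem C_11964547266 : chkRec R_11964547266 = true := by decide +kernel

noncomputable def R_11964547329 : Rec := ⟨nat_lit 11964547329, nat_lit 1,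
  [⟨V6_9817051329, [(nat_lit 64, nat_lit 11964547329), (nat_lit 57, nat_lit 13038289089), (nat_lit 28, nat_lit 13038285057), (nat_lit 23, nat_lit 14112026817), (nat_lit 121, nat_lit 14112022785), (nat_lit 2, nat_lit 15185764545), (nat_lit 30, nat_lit 15185760513), (nat_lit 84, nat_lit 16259502273)]⟩],
  [W_11964534848]⟩
theorem C_11964547329 : chkRec R_11964547329 = true := by decide +kernel

noncomputable def R_11964547392 : Rec := ⟨nat_lit 11964547392, nat_lit 1,
  [⟨V6_9817055424, [(nat_lit 45, nat_lit 11964547392), (nat_lit 25, nat_lit 13038289152), (nat_lit 68, nat_lit 13038285120), (nat_lit 42, nat_lit 14112030912), (nat_lit 45, nat_lit 14112026880), (nat_lit 81, nat_lit 14112022848), (nat_lit 47, nat_lit 15185768640), (nat_lit 54, nat_lit 15185764608), (nat_lit 50, nat_lit 16259506368)]⟩],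
  [W_11964280832]⟩
theorem C_11964547392 : chkRec R_11964547392 = true := by decide +kernel

noncomputable def R_11980529988 : Rec := ⟨nat_lit 11980529988, nat_lit 1,
  [⟨V6_10839679236, [(nat_lit 102, nat_lit 11980529988), (nat_lit 16, nat_lit 13054271748), (nat_lit 101, nat_lit 13037494596), (nat_lit 24, nat_lit 14111236356), (nat_lit 113, nat_lit 14094459204), (nat_lit 106, nat_lit 15168200964), (nat_lit 15, nat_lit 15151423812), (nat_lit 5, nat_lit 16225165572), (nat_lit 124, nat_lit 16208388420), (nat_lit 36, nat_lit 17282130180)]⟩],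
  [W_11963748608]⟩
theorem C_11980529988 : chkRec R_11980529988 = true := by decide +kernel

noncomputable def R_11980530051 : Rec := ⟨nat_lit 11980530051, nat_lit 1,
  [⟨V6_10856456451, [(nat_lit 14, nat_lit 11980530051), (nat_lit 38, nat_lit 13054271811), (nat_lit 109, nat_lit 13037494659), (nat_lit 61, nat_lit 14128013571), (nat_lit 93, nat_lit 14111236419), (nat_lit 12, nat_lit 14094459267), (nat_lit 88, nat_lit 15184978179), (nat_lit 85, nat_lit 15168201027), (nat_lit 83, nat_lit 15151423875), (nat_lit 40, nat_lit 16241942787), (nat_lit 44, nat_lit 16225165635), (nat_lit 115, nat_lit 17298907395)]⟩],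
  [W_10906788032]⟩
theorem C_11980530051 : chkRec R_11980530051 = true := by decide +kernel

noncomputable def R_11980792068 : Rec := ⟨nat_lit 11980792068, nat_lit 1,
  [⟨V6_10873225476, [(nat_lit 72, nat_lit 11980792068), (nat_lit 5, nat_lit 13054529796), (nat_lit 3, nat_lit 13054271748), (nat_lit 47, nat_lit 13037756676), (nat_lit 120, nat_lit 14128267524), (nat_lit 92, nat_lit 14128009476), (nat_lit 85, nat_lit 14111494404), (nat_lit 67, nat_lit 14111236356), (nat_lit 122, nat_lit 14094721284), (nat_lit 71, nat_lit 15201747204), (nat_lit 114, nat_lit 15185232132), (nat_lit 85, nat_lit 15184974084), (nat_lit 31, nat_lit 15168459012), (nat_lit 95, nat_lit 15168200964), (nat_lit 33, nat_lit 16258711812), (nat_lit 70, nat_lit 16242196740), (nat_lit 19, nat_lit 16241938692), (nat_lit 37, nat_lit 17315676420)]⟩],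
  [W_11963748608]⟩
theorem C_11980792068 : chkRec R_11980792068 = true := by decide +kernel

noncomputable def R_11980792131 : Rec := ⟨nat_lit 11980792131, nat_lit 2,
  [⟨V6_11930460480, [(nat_lit 39, nat_lit 11980792131), (nat_lit 15, nat_lit 13054533954), (nat_lit 97, nat_lit 13037756739), (nat_lit 53, nat_lit 14128275777), (nat_lit 25, nat_lit 14111498562), (nat_lit 61, nat_lit 14094721347), (nat_lit 30, nat_lit 15202017600), (nat_lit 33, nat_lit 15185240385), (nat_lit 112, nat_lit 15168463170), (nat_lit 15, nat_lit 15151685955), (nat_lit 49, nat_lit 16258982208), (nat_lit 81, nat_lit 16242204993), (nat_lit 107, nat_lit 16225427778), (nat_lit 78, nat_lit 17315946816), (nat_lit 86, nat_lit 17299169601), (nat_lit 73, nat_lit 18372911424)]⟩,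
   ⟨V6_10856456451, [(nat_lit 42, nat_lit 11980792131), (nat_lit 51, nat_lit 13054533891), (nat_lit 70, nat_lit 13054271811), (nat_lit 60, nat_lit 13037756739), (nat_lit 6, nat_lit 14128013571), (nat_lit 36, nat_lit 14111498499), (nat_lit 22, nat_lit 14111236419), (nat_lit 45, nat_lit 14094721347), (nat_lit 9, nat_lit 15184978179), (nat_lit 99, nat_lit 15168463107), (nat_lit 90, nat_lit 15168201027), (nat_lit 16, nat_lit 15151685955), (nat_lit 8, nat_lit 16241942787), (nat_lit 5, nat_lit 16225427715), (nat_lit 85, nat_lit 16225165635), (nat_lit 113, nat_lit 17298907395)]⟩],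
  [W_11980525760, W_10906788032]⟩
theorem C_11980792131 : chkRec R_11980792131 = true := by decide +kernel

noncomputable def R_11980792194 : Rec := ⟨nat_lit 11980792194, nat_lit 2,
  [⟨V6_11947237506, [(nat_lit 72, nat_lit 11980792194), (nat_lit 87, nat_lit 13054533954), (nat_lit 85, nat_lit 13037756802), (nat_lit 64, nat_lit 14128275714), (nat_lit 15, nat_lit 14111498562), (nat_lit 58, nat_lit 14094721410), (nat_lit 37, nat_lit 15202017474), (nat_lit 24, nat_lit 15185240322), (nat_lit 72, nat_lit 15168463170), (nat_lit 85, nat_lit 16275759234), (nat_lit 71, nat_lit 16258982082), (nat_lit 16, nat_lit 16242204930), (nat_lit 51, nat_lit 17332723842), (nat_lit 122, nat_lit 17315946690), (nat_lit 64, nat_lit 18389688450)]⟩],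
  [W_10906788032, W_10873233728]⟩
theorem C_11980792194 : chkRec R_11980792194 = true := by decide +kernel

noncomputable def R_11980796163 : Rec := ⟨nat_lit 11980796163, nat_lit 1,
  [⟨V6_10873499841, [(nat_lit 92, nat_lit 11980796163), (nat_lit 13, nat_lit 13054537986), (nat_lit 83, nat_lit 13054537923), (nat_lit 61, nat_lit 13037760771), (nat_lit 98, nat_lit 14128279809), (nat_lit 23, nat_lit 14128279746), (nat_lit 63, nat_lit 14111502594), (nat_lit 39, nat_lit 14111502531), (nat_lit 108, nat_lit 14094725379), (nat_lit 7, nat_lit 15202021569), (nat_lit 54, nat_lit 15185244417), (nat_lit 112, nat_lit 15185244354), (nat_lit 68, nat_lit 15168467202), (nat_lit 110, nat_lit 15168467139), (nat_lit 108, nat_lit 16258986177), (nat_lit 37, nat_lit 16242209025), (nat_lit 119, nat_lit 16242208962), (nat_lit 53, nat_lit 17315950785)]⟩],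
  [W_10907042048]⟩
theorem C_11980796163 : chkRec R_11980796163 = true := by decide +kernel

noncomputable def R_11980796226 : Rec := ⟨nat_lit 11980796226, nat_lit 1,
  [⟨V6_10907046018, [(nat_lit 120, nat_lit 11980796226), (nat_lit 75, nat_lit 13054537986), (nat_lit 21, nat_lit 13054533954), (nat_lit 64, nat_lit 14128279746), (nat_lit 112, nat_lit 14128275714), (nat_lit 96, nat_lit 14128271682), (nat_lit 81, nat_lit 15202021506), (nat_lit 49, nat_lit 15202017474), (nat_lit 90, nat_lit 15202013442), (nat_lit 109, nat_lit 16275759234), (nat_lit 82, nat_lit 16275755202), (nat_lit 28, nat_lit 17349496962)]⟩],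
  [W_11947233536]⟩
theorem C_11980796226 : chkRec R_11980796226 = true := by decide +kernel

noncomputable def R_11980796289 : Rec := ⟨nat_lit 11980796289, nat_lit 1,
  [⟨V6_10873499841, [(nat_lit 92, nat_lit 11980796289), (nat_lit 60, nat_lit 13054538049), (nat_lit 118, nat_lit 13037760897), (nat_lit 44, nat_lit 14128279809), (nat_lit 111, nat_lit 14111502657), (nat_lit 51, nat_lit 14094725505), (nat_lit 83, nat_lit 15202021569), (nat_lit 71, nat_lit 15185244417), (nat_lit 86, nat_lit 15168467265), (nat_lit 44, nat_lit 16258986177), (nat_lit 3, nat_lit 16242209025), (nat_lit 84, nat_lit 17315950785)]⟩],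
  [W_11980791872]⟩
theorem C_11980796289 : chkRec R_11980796289 = true := by decide +kernel

noncomputable def R_11981050116 : Rec := ⟨nat_lit 11981050116, nat_lit 1,
  [⟨V6_10873225476, [(nat_lit 124, nat_lit 11981050116), (nat_lit 19, nat_lit 13054787844), (nat_lit 44, nat_lit 13054529796), (nat_lit 28, nat_lit 13038014724), (nat_lit 64, nat_lit 14128267524), (nat_lit 50, nat_lit 14128009476), (nat_lit 13, nat_lit 14111752452), (nat_lit 46, nat_lit 14111494404), (nat_lit 26, nat_lit 14094979332), (nat_lit 1, nat_lit 15201747204), (nat_lit 76, nat_lit 15185232132), (nat_lit 75, nat_lit 15184974084), (nat_lit 43, nat_lit 15168717060), (nat_lit 63, nat_lit 15168459012), (nat_lit 69, nat_lit 16258711812), (nat_lit 117, nat_lit 16242196740), (nat_lit 109, nat_lit 16241938692), (nat_lit 103, nat_lit 17315676420)]⟩],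
  [W_11963748608]⟩
theorem C_11981050116 : chkRec R_11981050116 = true := by decide +kernel

noncomputable def R_11981050179 : Rec := ⟨nat_lit 11981050179, nat_lit 1,
  [⟨V6_10890006849, [(nat_lit 70, nat_lit 11981050179), (nat_lit 126, nat_lit 13054792002), (nat_lit 21, nat_lit 13054529859), (nat_lit 99, nat_lit 13038014787), (nat_lit 117, nat_lit 14128533825), (nat_lit 13, nat_lit 14128271682), (nat_lit 54, nat_lit 14128009539), (nat_lit 33, nat_lit 14111756610), (nat_lit 35, nat_lit 14111494467), (nat_lit 84, nat_lit 15202013505), (nat_lit 50, nat_lit 15201751362), (nat_lit 49, nat_lit 15185498433), (nat_lit 73, nat_lit 15185236290), (nat_lit 96, nat_lit 15184974147), (nat_lit 97, nat_lit 16275493185), (nat_lit 64, nat_lit 16258978113), (nat_lit 52, nat_lit 16258715970), (nat_lit 24, nat_lit 17332457793)]⟩],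
  [W_11980525760]⟩
theorem C_11981050179 : chkRec R_11981050179 = true := by decide +kernel

noncomputable def R_11981054211 : Rec := ⟨nat_lit 11981054211, nat_lit 4,
  [⟨V6_10907304192, [(nat_lit 50, nat_lit 11981054211), (nat_lit 68, nat_lit 13054796034), (nat_lit 59, nat_lit 13054791939), (nat_lit 99, nat_lit 14128537857), (nat_lit 73, nat_lit 14128533762), (nat_lit 73, nat_lit 14128529667), (nat_lit 27, nat_lit 15202279680), (nat_lit 117, nat_lit 15202275585), (nat_lit 20, nat_lit 15202271490), (nat_lit 117, nat_lit 16276017408), (nat_lit 36, nat_lit 16276013313), (nat_lit 8, nat_lit 17349755136)]⟩],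
  [W_11947491584, W_11947237568, W_11946975488, W_10906788032]⟩
theorem C_11981054211 : chkRec R_11981054211 = true := by decide +kernel

noncomputable def R_11981054274 : Rec := ⟨nat_lit 11981054274, nat_lit 5,
  [⟨V6_10907312256, [(nat_lit 36, nat_lit 11981054274), (nat_lit 86, nat_lit 13054796097), (nat_lit 6, nat_lit 13054796034), (nat_lit 4, nat_lit 14128537920), (nat_lit 4, nat_lit 14128537857), (nat_lit 34, nat_lit 14128537794), (nat_lit 76, nat_lit 15202279680), (nat_lit 89, nat_lit 15202279617), (nat_lit 72, nat_lit 15202279554), (nat_lit 85, nat_lit 16276021440), (nat_lit 72, nat_lit 16276021377), (nat_lit 16, nat_lit 17349763200)]⟩],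
  [W_11980525760, W_11963748608, W_11947233536, W_11946975488, W_10873233728]⟩
theorem C_11981054274 : chkRec R_11981054274 = true := by decide +kernel

noncomputable def R_11981054337 : Rec := ⟨nat_lit 11981054337, nat_lit 4,
  [⟨V6_10873233792, [(nat_lit 34, nat_lit 11981054337), (nat_lit 101, nat_lit 13054796160), (nat_lit 37, nat_lit 13054534017), (nat_lit 95, nat_lit 13038018945), (nat_lit 5, nat_lit 14128275840), (nat_lit 36, nat_lit 14128013697), (nat_lit 36, nat_lit 14111760768), (nat_lit 43, nat_lit 14111498625), (nat_lit 102, nat_lit 14094983553), (nat_lit 71, nat_lit 15201755520), (nat_lit 107, nat_lit 15185240448), (nat_lit 46, nat_lit 15184978305), (nat_lit 15, nat_lit 15168725376), (nat_lit 103, nat_lit 15168463233), (nat_lit 95, nat_lit 16258720128), (nat_lit 3, nat_lit 16242205056), (nat_lit 42, nat_lit 16241942913), (nat_lit 107, nat_lit 17315684736)]⟩,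
   ⟨V6_10873233729, [(nat_lit 95, nat_lit 11981054337), (nat_lit 118, nat_lit 13054796097), (nat_lit 46, nat_lit 13054534017), (nat_lit 87, nat_lit 13038018945), (nat_lit 90, nat_lit 14128275777), (nat_lit 110, nat_lit 14128013697), (nat_lit 54, nat_lit 14111760705), (nat_lit 25, nat_lit 14111498625), (nat_lit 108, nat_lit 14094983553), (nat_lit 53, nat_lit 15201755457), (nat_lit 91, nat_lit 15185240385), (nat_lit 38, nat_lit 15184978305), (nat_lit 120, nat_lit 15168725313), (nat_lit 37, nat_lit 15168463233), (nat_lit 101, nat_lit 16258720065), (nat_lit 105, nat_lit 16242204993), (nat_lit 62, nat_lit 16241942913), (nat_lit 125, nat_lit 17315684673)]⟩],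
  [W_11980791872, W_10907312192, W_10906788032]⟩
theorem C_11981054337 : chkRec R_11981054337 = true := by decide +kernel

noncomputable def R_11981058243 : Rec := ⟨nat_lit 11981058243, nat_lit 2,
  [⟨V6_10907037891, [(nat_lit 50, nat_lit 11981058243), (nat_lit 52, nat_lit 13054795971), (nat_lit 27, nat_lit 13054537923), (nat_lit 16, nat_lit 14128533699), (nat_lit 73, nat_lit 14128275651), (nat_lit 19, nat_lit 15202271427), (nat_lit 79, nat_lit 15202013379), (nat_lit 50, nat_lit 16276009155), (nat_lit 117, nat_lit 16275751107), (nat_lit 45, nat_lit 17349488835)]⟩,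
   ⟨V6_10873499841, [(nat_lit 112, nat_lit 11981058243), (nat_lit 105, nat_lit 13054800066), (nat_lit 110, nat_lit 13054537923), (nat_lit 35, nat_lit 13038022851), (nat_lit 98, nat_lit 14128541889), (nat_lit 8, nat_lit 14128279746), (nat_lit 44, nat_lit 14111764674), (nat_lit 124, nat_lit 14111502531), (nat_lit 16, nat_lit 14094987459), (nat_lit 99, nat_lit 15202021569), (nat_lit 14, nat_lit 15185506497), (nat_lit 109, nat_lit 15185244354), (nat_lit 107, nat_lit 15168729282), (nat_lit 78, nat_lit 15168467139), (nat_lit 59, nat_lit 16258986177), (nat_lit 110, nat_lit 16242471105), (nat_lit 34, nat_lit 16242208962), (nat_lit 98, nat_lit 17315950785)]⟩],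
  [W_11981041856, W_11964268736]⟩
theorem C_11981058243 : chkRec R_11981058243 = true := by decide +kernel

noncomputable def R_11981058306 : Rec := ⟨nat_lit 11981058306, nat_lit 5,
  [⟨V6_10907304066, [(nat_lit 76, nat_lit 11981058306), (nat_lit 53, nat_lit 13054800066), (nat_lit 61, nat_lit 13054796034), (nat_lit 77, nat_lit 14128541826), (nat_lit 114, nat_lit 14128537794), (nat_lit 15, nat_lit 14128533762), (nat_lit 124, nat_lit 15202279554), (nat_lit 56, nat_lit 15202275522), (nat_lit 119, nat_lit 15202271490), (nat_lit 47, nat_lit 16276017282), (nat_lit 90, nat_lit 16276013250), (nat_lit 64, nat_lit 17349755010)]⟩,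
   ⟨V6_10907046018, [(nat_lit 26, nat_lit 11981058306), (nat_lit 116, nat_lit 13054800066), (nat_lit 66, nat_lit 13054796034), (nat_lit 109, nat_lit 13054537986), (nat_lit 13, nat_lit 14128541826), (nat_lit 64, nat_lit 14128537794), (nat_lit 122, nat_lit 14128533762), (nat_lit 31, nat_lit 14128279746), (nat_lit 27, nat_lit 14128275714), (nat_lit 79, nat_lit 15202279554), (nat_lit 110, nat_lit 15202275522), (nat_lit 35, nat_lit 15202021506), (nat_lit 52, nat_lit 15202017474), (nat_lit 98, nat_lit 15202013442), (nat_lit 39, nat_lit 16276017282), (nat_lit 111, nat_lit 16275759234), (nat_lit 43, nat_lit 16275755202), (nat_lit 94, nat_lit 17349496962)]⟩],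
  [W_11980783808, W_11947491584, W_10907042048, W_10873761920]⟩
theorem C_11981058306 : chkRec R_11981058306 = true := by decide +kernel

noncomputable def R_11981058369 : Rec := ⟨nat_lit 11981058369, nat_lit 5,
  [⟨V6_10907316288, [(nat_lit 112, nat_lit 11981058369), (nat_lit 82, nat_lit 13054800192), (nat_lit 82, nat_lit 13054800129), (nat_lit 34, nat_lit 14128541952), (nat_lit 110, nat_lit 14128541889), (nat_lit 28, nat_lit 15202283712), (nat_lit 79, nat_lit 15202283649), (nat_lit 74, nat_lit 16276025472), (nat_lit 88, nat_lit 16276025409), (nat_lit 59, nat_lit 17349767232)]⟩,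
   ⟨V6_10890539073, [(nat_lit 116, nat_lit 11981058369), (nat_lit 95, nat_lit 13054800129), (nat_lit 69, nat_lit 13038022977), (nat_lit 92, nat_lit 14128541889), (nat_lit 111, nat_lit 14111764737), (nat_lit 8, nat_lit 15202283649), (nat_lit 18, nat_lit 15185506497), (nat_lit 104, nat_lit 16276025409), (nat_lit 108, nat_lit 16259248257), (nat_lit 6, nat_lit 17332990017)]⟩,
   ⟨V6_10873499841, [(nat_lit 70, nat_lit 11981058369), (nat_lit 116, nat_lit 13054800129), (nat_lit 77, nat_lit 13054538049), (nat_lit 21, nat_lit 13038022977), (nat_lit 109, nat_lit 14128541889), (nat_lit 80, nat_lit 14128279809), (nat_lit 16, nat_lit 14111764737), (nat_lit 126, nat_lit 14111502657), (nat_lit 101, nat_lit 14094987585), (nat_lit 6, nat_lit 15202021569), (nat_lit 75, nat_lit 15185506497), (nat_lit 100, nat_lit 15185244417), (nat_lit 8, nat_lit 15168729345), (nat_lit 46, nat_lit 15168467265), (nat_lit 83, nat_lit 16258986177), (nat_lit 26, nat_lit 16242471105), (nat_lit 109, nat_lit 16242209025), (nat_lit 114, nat_lit 17315950785)]⟩],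
  [W_11980791872, W_11964018752, W_11947503680, W_11947233536]⟩
theorem C_11981058369 : chkRec R_11981058369 = true := by decide +kernel

noncomputable def R_11981058432 : Rec := ⟨nat_lit 11981058432, nat_lit 4,
  [⟨V6_11981058048, [(nat_lit 96, nat_lit 11981058432), (nat_lit 15, nat_lit 13054800192), (nat_lit 116, nat_lit 14128541952), (nat_lit 84, nat_lit 15202283712), (nat_lit 20, nat_lit 16276025472), (nat_lit 47, nat_lit 17349767232), (nat_lit 83, nat_lit 18423508992)]⟩],
  [W_11947237568, W_10890272960, W_10873761920, W_10873757888]⟩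
theorem C_11981058432 : chkRec R_11981058432 = true := by decide +kernel

noncomputable def R_11981062338 : Rec := ⟨nat_lit 11981062338, nat_lit 3,
  [⟨V6_10907304066, [(nat_lit 68, nat_lit 11981062338), (nat_lit 72, nat_lit 13054804098), (nat_lit 112, nat_lit 13054800066), (nat_lit 116, nat_lit 14128541826), (nat_lit 52, nat_lit 14128537794), (nat_lit 75, nat_lit 15202279554), (nat_lit 98, nat_lit 15202275522), (nat_lit 14, nat_lit 16276017282), (nat_lit 67, nat_lit 16276013250), (nat_lit 72, nat_lit 17349755010)]⟩],
  [W_11981041856, W_11964268736, W_10873761920]⟩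
theorem C_11981062338 : chkRec R_11981062338 = true := by decide +kernel

noncomputable def R_11981062401 : Rec := ⟨nat_lit 11981062401, nat_lit 5,
  [⟨V6_10907304192, [(nat_lit 79, nat_lit 11981062401), (nat_lit 108, nat_lit 13054804224), (nat_lit 104, nat_lit 13054800129), (nat_lit 52, nat_lit 14128541952), (nat_lit 43, nat_lit 14128537857), (nat_lit 42, nat_lit 15202279680), (nat_lit 78, nat_lit 15202275585), (nat_lit 111, nat_lit 16276017408), (nat_lit 58, nat_lit 16276013313), (nat_lit 14, nat_lit 17349755136)]⟩],
  [W_11964268736, W_11947503680, W_11947491584, W_10873765952, W_10873761920]⟩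
theorem C_11981062401 : chkRec R_11981062401 = true := by decide +kernel

noncomputable def R_11981062464 : Rec := ⟨nat_lit 11981062464, nat_lit 5,
  [⟨V6_10907320320, [(nat_lit 9, nat_lit 11981062464), (nat_lit 44, nat_lit 13054804224), (nat_lit 96, nat_lit 14128545984), (nat_lit 36, nat_lit 15202287744), (nat_lit 39, nat_lit 16276029504), (nat_lit 105, nat_lit 17349771264)]⟩,
   ⟨V6_10907316288, [(nat_lit 59, nat_lit 11981062464), (nat_lit 63, nat_lit 13054804224), (nat_lit 79, nat_lit 13054800192), (nat_lit 64, nat_lit 14128545984), (nat_lit 31, nat_lit 14128541952), (nat_lit 98, nat_lit 15202287744), (nat_lit 100, nat_lit 15202283712), (nat_lit 109, nat_lit 16276029504), (nat_lit 94, nat_lit 16276025472), (nat_lit 30, nat_lit 17349767232)]⟩],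
  [W_11964280832, W_11947507712, W_11947503680, W_10873765952, W_10873761920]⟩
theorem C_11981062464 : chkRec R_11981062464 = true := by decide +kernel

noncomputable def R_11981312259 : Rec := ⟨nat_lit 11981312259, nat_lit 2,
  [⟨V6_10907566272, [(nat_lit 4, nat_lit 11981312259), (nat_lit 105, nat_lit 13055054082), (nat_lit 17, nat_lit 13055054019), (nat_lit 17, nat_lit 13055049987), (nat_lit 70, nat_lit 14128795905), (nat_lit 87, nat_lit 14128795842), (nat_lit 95, nat_lit 14128791810), (nat_lit 54, nat_lit 14128791747), (nat_lit 60, nat_lit 15202537728), (nat_lit 97, nat_lit 15202537665), (nat_lit 6, nat_lit 15202533633), (nat_lit 111, nat_lit 15202533570), (nat_lit 27, nat_lit 16276279488), (nat_lit 110, nat_lit 16276275456), (nat_lit 51, nat_lit 16276275393), (nat_lit 66, nat_lit 17350017216)]⟩],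
  [W_11963748608, W_10907042048]⟩
theorem C_11981312259 : chkRec R_11981312259 = true := by decide +kernel

noncomputable def R_11981312322 : Rec := ⟨nat_lit 11981312322, nat_lit 1,
  [⟨V6_10907046018, [(nat_lit 38, nat_lit 11981312322), (nat_lit 111, nat_lit 13055054082), (nat_lit 84, nat_lit 13054792002), (nat_lit 70, nat_lit 14128795842), (nat_lit 108, nat_lit 14128533762), (nat_lit 6, nat_lit 14128271682), (nat_lit 78, nat_lit 15202537602), (nat_lit 109, nat_lit 15202275522), (nat_lit 67, nat_lit 15202013442), (nat_lit 89, nat_lit 16276017282), (nat_lit 101, nat_lit 16275755202), (nat_lit 1, nat_lit 17349496962)]⟩],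
  [W_11963748608]⟩
theorem C_11981312322 : chkRec R_11981312322 = true := by decide +kernel

noncomputable def R_11981316291 : Rec := ⟨nat_lit 11981316291, nat_lit 2,
  [⟨V6_10907562177, [(nat_lit 67, nat_lit 11981316291), (nat_lit 23, nat_lit 13055058114), (nat_lit 69, nat_lit 13055054019), (nat_lit 31, nat_lit 14128799937), (nat_lit 114, nat_lit 14128795842), (nat_lit 95, nat_lit 14128791747), (nat_lit 82, nat_lit 15202537665), (nat_lit 103, nat_lit 15202533570), (nat_lit 3, nat_lit 15202529475), (nat_lit 60, nat_lit 16276275393), (nat_lit 70, nat_lit 16276271298), (nat_lit 25, nat_lit 17350013121)]⟩,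
   ⟨V6_10907037891, [(nat_lit 10, nat_lit 11981316291), (nat_lit 73, nat_lit 13055054019), (nat_lit 106, nat_lit 13054795971), (nat_lit 31, nat_lit 14128791747), (nat_lit 60, nat_lit 14128533699), (nat_lit 14, nat_lit 14128275651), (nat_lit 29, nat_lit 15202529475), (nat_lit 97, nat_lit 15202271427), (nat_lit 82, nat_lit 15202013379), (nat_lit 32, nat_lit 16276009155), (nat_lit 24, nat_lit 16275751107), (nat_lit 58, nat_lit 17349488835)]⟩],
  [W_11980525760, W_10906788032]⟩
theorem C_11981316291 : chkRec R_11981316291 = true := by decide +kernel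

noncomputable def R_11981316354 : Rec := ⟨nat_lit 11981316354, nat_lit 5,
  [⟨V6_10907304066, [(nat_lit 6, nat_lit 11981316354), (nat_lit 106, nat_lit 13055058114), (nat_lit 73, nat_lit 13055054082), (nat_lit 62, nat_lit 13054796034), (nat_lit 97, nat_lit 14128799874), (nat_lit 38, nat_lit 14128795842), (nat_lit 126, nat_lit 14128791810), (nat_lit 51, nat_lit 14128537794), (nat_lit 116, nat_lit 14128533762), (nat_lit 70, nat_lit 15202537602), (nat_lit 37, nat_lit 15202533570), (nat_lit 36, nat_lit 15202279554), (nat_lit 8, nat_lit 15202275522), (nat_lit 92, nat_lit 15202271490), (nat_lit 9, nat_lit 16276275330), (nat_lit 12, nat_lit 16276017282), (nat_lit 7, nat_lit 16276013250), (nat_lit 115, nat_lit 17349755010)]⟩,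
   ⟨V6_10907046018, [(nat_lit 98, nat_lit 11981316354), (nat_lit 21, nat_lit 13055058114), (nat_lit 87, nat_lit 13055054082), (nat_lit 65, nat_lit 13054796034), (nat_lit 93, nat_lit 14128799874), (nat_lit 72, nat_lit 14128795842), (nat_lit 42, nat_lit 14128537794), (nat_lit 46, nat_lit 14128533762), (nat_lit 112, nat_lit 14128275714), (nat_lit 97, nat_lit 15202537602), (nat_lit 68, nat_lit 15202279554), (nat_lit 52, nat_lit 15202275522), (nat_lit 76, nat_lit 15202017474), (nat_lit 54, nat_lit 15202013442), (nat_lit 64, nat_lit 16276017282), (nat_lit 48, nat_lit 16275759234), (nat_lit 124, nat_lit 16275755202), (nat_lit 6, nat_lit 17349496962)]⟩],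
  [W_11980783808, W_10907566208, W_10907042048, W_10906788032]⟩
theorem C_11981316354 : chkRec R_11981316354 = true := by decide +kernel

noncomputable def R_11981316417 : Rec := ⟨nat_lit 11981316417, nat_lit 5,
  [⟨V6_10907308161, [(nat_lit 49, nat_lit 11981316417), (nat_lit 74, nat_lit 13055058177), (nat_lit 82, nat_lit 13055054145), (nat_lit 56, nat_lit 13054796097), (nat_lit 122, nat_lit 14128799937), (nat_lit 96, nat_lit 14128795905), (nat_lit 45, nat_lit 14128537857), (nat_lit 54, nat_lit 14128533825), (nat_lit 11, nat_lit 15202541697), (nat_lit 3, nat_lit 15202537665), (nat_lit 121, nat_lit 15202279617), (nat_lit 76, nat_lit 15202275585), (nat_lit 59, nat_lit 16276279425), (nat_lit 63, nat_lit 16276021377), (nat_lit 14, nat_lit 16276017345), (nat_lit 21, nat_lit 17349759105)]⟩,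
   ⟨V6_10890010944, [(nat_lit 43, nat_lit 11981316417), (nat_lit 60, nat_lit 13055058240), (nat_lit 64, nat_lit 13054796097), (nat_lit 7, nat_lit 13038281025), (nat_lit 93, nat_lit 14128537920), (nat_lit 107, nat_lit 14128275777), (nat_lit 94, nat_lit 14112022848), (nat_lit 7, nat_lit 14111760705), (nat_lit 114, nat_lit 15202017600), (nat_lit 8, nat_lit 15201755457), (nat_lit 8, nat_lit 15185502528), (nat_lit 66, nat_lit 15185240385), (nat_lit 44, nat_lit 16275497280), (nat_lit 52, nat_lit 16258982208), (nat_lit 109, nat_lit 16258720065), (nat_lit 7, nat_lit 17332461888)]⟩],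
  [W_11980791872, W_11964534848, W_11963748608, W_10906788032]⟩
theorem C_11981316417 : chkRec R_11981316417 = true := by decide +kernel

noncomputable def R_11981316480 : Rec := ⟨nat_lit 11981316480, nat_lit 3,
  [⟨V6_10890010944, [(nat_lit 19, nat_lit 11981316480), (nat_lit 108, nat_lit 13055058240), (nat_lit 76, nat_lit 13054796160), (nat_lit 121, nat_lit 13038281088), (nat_lit 69, nat_lit 14128537920), (nat_lit 113, nat_lit 14128275840), (nat_lit 22, nat_lit 14112022848), (nat_lit 95, nat_lit 14111760768), (nat_lit 72, nat_lit 15202017600), (nat_lit 88, nat_lit 15201755520), (nat_lit 94, nat_lit 15185502528), (nat_lit 20, nat_lit 15185240448), (nat_lit 17, nat_lit 16275497280), (nat_lit 22, nat_lit 16258982208), (nat_lit 5, nat_lit 16258720128), (nat_lit 30, nat_lit 17332461888)]⟩],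
  [W_10907574272, W_10907312192]⟩
theorem C_11981316480 : chkRec R_11981316480 = true := by decide +kernel

noncomputable def R_11981320386 : Rec := ⟨nat_lit 11981320386, nat_lit 4,
  [⟨V6_10907304066, [(nat_lit 12, nat_lit 11981320386), (nat_lit 100, nat_lit 13055062146), (nat_lit 80, nat_lit 13055058114), (nat_lit 60, nat_lit 13054800066), (nat_lit 3, nat_lit 14128799874), (nat_lit 111, nat_lit 14128795842), (nat_lit 8, nat_lit 14128541826), (nat_lit 69, nat_lit 14128537794), (nat_lit 40, nat_lit 15202537602), (nat_lit 26, nat_lit 15202533570), (nat_lit 126, nat_lit 15202279554), (nat_lit 31, nat_lit 15202275522), (nat_lit 38, nat_lit 16276275330), (nat_lit 14, nat_lit 16276017282), (nat_lit 99, nat_lit 16276013250), (nat_lit 80, nat_lit 17349755010)]⟩],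
  [W_11981303936, W_11981041856, W_11964526784, W_11964014720]⟩
theorem C_11981320386 : chkRec R_11981320386 = true := by decide +kernel

noncomputable def R_11981320449 : Rec := ⟨nat_lit 11981320449, nat_lit 5,
  [⟨V6_10907042049, [(nat_lit 96, nat_lit 11981320449), (nat_lit 55, nat_lit 13055058177), (nat_lit 49, nat_lit 13054800129), (nat_lit 28, nat_lit 14128795905), (nat_lit 42, nat_lit 14128537857), (nat_lit 65, nat_lit 14128279809), (nat_lit 26, nat_lit 15202533633), (nat_lit 87, nat_lit 15202275585), (nat_lit 38, nat_lit 15202017537), (nat_lit 49, nat_lit 16276013313), (nat_lit 50, nat_lit 16275755265), (nat_lit 104, nat_lit 17349492993)]⟩,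
   ⟨V6_10890539073, [(nat_lit 50, nat_lit 11981320449), (nat_lit 62, nat_lit 13055062209), (nat_lit 33, nat_lit 13054800129), (nat_lit 9, nat_lit 13038285057), (nat_lit 83, nat_lit 14128803969), (nat_lit 84, nat_lit 14128541889), (nat_lit 28, nat_lit 14112026817), (nat_lit 13, nat_lit 14111764737), (nat_lit 117, nat_lit 15202545729), (nat_lit 76, nat_lit 15202283649), (nat_lit 30, nat_lit 15185768577), (nat_lit 26, nat_lit 15185506497), (nat_lit 68, nat_lit 16276025409), (nat_lit 118, nat_lit 16259510337), (nat_lit 81, nat_lit 16259248257), (nat_lit 107, nat_lit 17332990017)]⟩,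
   ⟨V6_10890526977, [(nat_lit 37, nat_lit 11981320449), (nat_lit 108, nat_lit 13055058177), (nat_lit 54, nat_lit 13054800129), (nat_lit 72, nat_lit 13038285057), (nat_lit 11, nat_lit 14128795905), (nat_lit 16, nat_lit 14128537857), (nat_lit 37, nat_lit 14112022785), (nat_lit 44, nat_lit 14111764737), (nat_lit 35, nat_lit 15202533633), (nat_lit 114, nat_lit 15202275585), (nat_lit 45, nat_lit 15185760513), (nat_lit 81, nat_lit 15185502465), (nat_lit 69, nat_lit 16276013313), (nat_lit 17, nat_lit 16259498241), (nat_lit 33, nat_lit 16259240193), (nat_lit 110, nat_lit 17332977921)]⟩],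
  [W_11980791872, W_11964534848, W_11964018752, W_10907566208]⟩
theorem C_11981320449 : chkRec R_11981320449 = true := by decide +kernel

noncomputable def R_11981320512 : Rec := ⟨nat_lit 11981320512, nat_lit 5,
  [⟨V6_11981058048, [(nat_lit 19, nat_lit 11981320512), (nat_lit 5, nat_lit 13055062272), (nat_lit 6, nat_lit 13054800192), (nat_lit 101, nat_lit 14128804032), (nat_lit 36, nat_lit 14128541952), (nat_lit 21, nat_lit 15202545792), (nat_lit 101, nat_lit 15202283712), (nat_lit 76, nat_lit 16276287552), (nat_lit 106, nat_lit 16276025472), (nat_lit 36, nat_lit 17350029312), (nat_lit 31, nat_lit 17349767232), (nat_lit 44, nat_lit 18423508992)]⟩],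
  [W_11964010688, W_10907050112, W_10890531008, W_10890272960]⟩
theorem C_11981320512 : chkRec R_11981320512 = true := by decide +kernel

noncomputable def R_11981324418 : Rec := ⟨nat_lit 11981324418, nat_lit 1,
  [⟨V6_10907304066, [(nat_lit 25, nat_lit 11981324418), (nat_lit 55, nat_lit 13055062146), (nat_lit 82, nat_lit 13054804098), (nat_lit 54, nat_lit 14128799874), (nat_lit 122, nat_lit 14128541826), (nat_lit 106, nat_lit 15202537602), (nat_lit 32, nat_lit 15202279554), (nat_lit 44, nat_lit 16276275330), (nat_lit 30, nat_lit 16276017282), (nat_lit 122, nat_lit 17349755010)]⟩],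
  [W_11981303936]⟩
theorem C_11981324418 : chkRec R_11981324418 = true := by decide +kernel

noncomputable def R_11981324481 : Rec := ⟨nat_lit 11981324481, nat_lit 4,
  [⟨V6_10907566272, [(nat_lit 52, nat_lit 11981324481), (nat_lit 10, nat_lit 13055066304), (nat_lit 99, nat_lit 13055062209), (nat_lit 113, nat_lit 14128804032), (nat_lit 91, nat_lit 14128799937), (nat_lit 18, nat_lit 15202541760), (nat_lit 106, nat_lit 15202537665), (nat_lit 102, nat_lit 16276279488), (nat_lit 43, nat_lit 16276275393), (nat_lit 6, nat_lit 17350017216)]⟩],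
  [W_11981041856, W_11964534848, W_11964526784, W_11964268736]⟩
theorem C_11981324481 : chkRec R_11981324481 = true := by decide +kernel

noncomputable def R_11981324544 : Rec := ⟨nat_lit 11981324544, nat_lit 5,
  [⟨V6_10907320320, [(nat_lit 101, nat_lit 11981324544), (nat_lit 38, nat_lit 13055066304), (nat_lit 10, nat_lit 13054804224), (nat_lit 108, nat_lit 14128808064), (nat_lit 119, nat_lit 14128545984), (nat_lit 54, nat_lit 15202549824), (nat_lit 123, nat_lit 15202287744), (nat_lit 39, nat_lit 16276291584), (nat_lit 71, nat_lit 16276029504), (nat_lit 88, nat_lit 17349771264)]⟩,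
   ⟨V6_10907304192, [(nat_lit 72, nat_lit 11981324544), (nat_lit 6, nat_lit 13055062272), (nat_lit 99, nat_lit 13054804224), (nat_lit 59, nat_lit 14128800000), (nat_lit 11, nat_lit 14128541952), (nat_lit 97, nat_lit 15202537728), (nat_lit 82, nat_lit 15202279680), (nat_lit 81, nat_lit 16276275456), (nat_lit 61, nat_lit 16276017408), (nat_lit 11, nat_lit 17349755136)]⟩],
  [W_11964534848, W_11964280832, W_10907574272, W_10907566208, W_10907316224]⟩
theorem C_11981324544 : chkRec R_11981324544 = true := by decide +kernel

noncomputable def R_11981328513 : Rec := ⟨nat_lit 11981328513, nat_lit 1,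
  [⟨V6_10907566209, [(nat_lit 100, nat_lit 11981328513), (nat_lit 90, nat_lit 13055066241), (nat_lit 71, nat_lit 14128803969), (nat_lit 42, nat_lit 15202541697), (nat_lit 26, nat_lit 16276279425), (nat_lit 6, nat_lit 17350017153)]⟩],
  [W_11964534848]⟩
theorem C_11981328513 : chkRec R_11981328513 = true := by decide +kernel

noncomputable def R_11981328576 : Rec := ⟨nat_lit 11981328576, nat_lit 1,
  [⟨V6_10907566272, [(nat_lit 5, nat_lit 11981328576), (nat_lit 68, nat_lit 13055066304), (nat_lit 48, nat_lit 14128804032), (nat_lit 91, nat_lit 15202541760), (nat_lit 14, nat_lit 16276279488), (nat_lit 13, nat_lit 17350017216)]⟩],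
  [W_11964526784]⟩
theorem C_11981328576 : chkRec R_11981328576 = true := by decide +kernel

noncomputable def R_11981570307 : Rec := ⟨nat_lit 11981570307, nat_lit 1,
  [⟨V6_10907042049, [(nat_lit 101, nat_lit 11981570307), (nat_lit 82, nat_lit 13055312130), (nat_lit 123, nat_lit 13055049987), (nat_lit 95, nat_lit 14129053953), (nat_lit 1, nat_lit 14128791810), (nat_lit 113, nat_lit 14128529667), (nat_lit 101, nat_lit 15202533633), (nat_lit 98, nat_lit 15202271490), (nat_lit 18, nat_lit 15202009347), (nat_lit 83, nat_lit 16276013313), (nat_lit 126, nat_lit 16275751170), (nat_lit 67, nat_lit 17349492993)]⟩],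
  [W_11980783808]⟩
theorem C_11981570307 : chkRec R_11981570307 = true := by decide +kernel

noncomputable def R_11981574339 : Rec := ⟨nat_lit 11981574339, nat_lit 1,
  [⟨V6_10907037891, [(nat_lit 77, nat_lit 11981574339), (nat_lit 40, nat_lit 13055312067), (nat_lit 100, nat_lit 13055054019), (nat_lit 116, nat_lit 14129049795), (nat_lit 81, nat_lit 14128791747), (nat_lit 43, nat_lit 14128533699), (nat_lit 112, nat_lit 15202529475), (nat_lit 72, nat_lit 15202271427), (nat_lit 28, nat_lit 15202013379), (nat_lit 77, nat_lit 16276009155), (nat_lit 76, nat_lit 16275751107), (nat_lit 122, nat_lit 17349488835)]⟩],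
  [W_11981041856]⟩
theorem C_11981574339 : chkRec R_11981574339 = true := by decide +kernel

noncomputable def R_11981574402 : Rec := ⟨nat_lit 11981574402, nat_lit 2,
  [⟨V6_10907304066, [(nat_lit 76, nat_lit 11981574402), (nat_lit 16, nat_lit 13055316162), (nat_lit 29, nat_lit 13055312130), (nat_lit 122, nat_lit 13055054082), (nat_lit 58, nat_lit 14129057922), (nat_lit 124, nat_lit 14129053890), (nat_lit 108, nat_lit 14128795842), (nat_lit 20, nat_lit 14128791810), (nat_lit 64, nat_lit 14128533762), (nat_lit 85, nat_lit 15202795650), (nat_lit 40, nat_lit 15202537602), (nat_lit 59, nat_lit 15202533570), (nat_lit 62, nat_lit 15202275522), (nat_lit 72, nat_lit 15202271490), (nat_lit 14, nat_lit 16276275330), (nat_lit 57, nat_lit 16276017282), (nat_lit 93, nat_lit 16276013250), (nat_lit 120, nat_lit 17349755010)]⟩],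
  [W_11980783808]⟩
theorem C_11981574402 : chkRec R_11981574402 = true := by decide +kernel

noncomputable def R_11981574465 : Rec := ⟨nat_lit 11981574465, nat_lit 1,
  [⟨V6_10907308161, [(nat_lit 49, nat_lit 11981574465), (nat_lit 18, nat_lit 13055316225), (nat_lit 57, nat_lit 13055054145), (nat_lit 84, nat_lit 14129057985), (nat_lit 69, nat_lit 14128795905), (nat_lit 95, nat_lit 14128533825), (nat_lit 114, nat_lit 15202799745), (nat_lit 59, nat_lit 15202537665), (nat_lit 82, nat_lit 15202275585), (nat_lit 83, nat_lit 16276279425), (nat_lit 8, nat_lit 16276017345), (nat_lit 77, nat_lit 17349759105)]⟩],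
  [W_11980525760]⟩
theorem C_11981574465 : chkRec R_11981574465 = true := by decide +kernel

noncomputable def R_11981578434 : Rec := ⟨nat_lit 11981578434, nat_lit 3,
  [⟨V6_10907304066, [(nat_lit 63, nat_lit 11981578434), (nat_lit 33, nat_lit 13055320194), (nat_lit 117, nat_lit 13055316162), (nat_lit 29, nat_lit 13055058114), (nat_lit 69, nat_lit 14129057922), (nat_lit 60, nat_lit 14129053890), (nat_lit 2, nat_lit 14128799874), (nat_lit 75, nat_lit 14128795842), (nat_lit 102, nat_lit 14128537794), (nat_lit 74, nat_lit 15202795650), (nat_lit 115, nat_lit 15202537602), (nat_lit 27, nat_lit 15202533570), (nat_lit 28, nat_lit 15202279554), (nat_lit 23, nat_lit 15202275522), (nat_lit 18, nat_lit 16276275330), (nat_lit 24, nat_lit 16276017282), (nat_lit 88, nat_lit 16276013250), (nat_lit 26, nat_lit 17349755010)]⟩],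
  [W_11981303936, W_11981041856, W_10906788032]⟩
theorem C_11981578434 : chkRec R_11981578434 = true := by decide +kernel

noncomputable def R_11981578497 : Rec := ⟨nat_lit 11981578497, nat_lit 5,
  [⟨V6_10907828352, [(nat_lit 11, nat_lit 11981578497), (nat_lit 68, nat_lit 13055320320), (nat_lit 10, nat_lit 13055320257), (nat_lit 85, nat_lit 13055316225), (nat_lit 39, nat_lit 14129062080), (nat_lit 33, nat_lit 14129062017), (nat_lit 64, nat_lit 14129058048), (nat_lit 9, nat_lit 14129057985), (nat_lit 90, nat_lit 14129053953), (nat_lit 67, nat_lit 15202803840), (nat_lit 116, nat_lit 15202799808), (nat_lit 52, nat_lit 15202799745), (nat_lit 30, nat_lit 15202795776), (nat_lit 65, nat_lit 15202795713), (nat_lit 119, nat_lit 16276541568), (nat_lit 9, nat_lit 16276537536), (nat_lit 105, nat_lit 16276537473), (nat_lit 42, nat_lit 17350279296)]⟩,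
   ⟨V6_10907042049, [(nat_lit 8, nat_lit 11981578497), (nat_lit 43, nat_lit 13055316225), (nat_lit 34, nat_lit 13055058177), (nat_lit 93, nat_lit 14129053953), (nat_lit 25, nat_lit 14128795905), (nat_lit 71, nat_lit 14128537857), (nat_lit 13, nat_lit 15202533633), (nat_lit 103, nat_lit 15202275585), (nat_lit 96, nat_lit 15202017537), (nat_lit 114, nat_lit 16276013313), (nat_lit 10, nat_lit 16275755265), (nat_lit 34, nat_lit 17349492993)]⟩],
  [W_11980791872, W_11980783808, W_10906788032]⟩
theorem C_11981578497 : chkRec R_11981578497 = true := by decide +kernel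

noncomputable def R_11981578560 : Rec := ⟨nat_lit 11981578560, nat_lit 4,
  [⟨V6_11981574144, [(nat_lit 116, nat_lit 11981578560), (nat_lit 25, nat_lit 13055320320), (nat_lit 6, nat_lit 13055316288), (nat_lit 40, nat_lit 14129062080), (nat_lit 28, nat_lit 14129058048), (nat_lit 70, nat_lit 15202803840), (nat_lit 25, nat_lit 15202799808), (nat_lit 101, nat_lit 16276545600), (nat_lit 89, nat_lit 16276541568), (nat_lit 100, nat_lit 17350287360), (nat_lit 116, nat_lit 17350283328), (nat_lit 17, nat_lit 18424025088)]⟩],
  [W_11980787840, W_11980525760, W_10906788032]⟩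
theorem C_11981578560 : chkRec R_11981578560 = true := by decide +kernel

noncomputable def R_11981582466 : Rec := ⟨nat_lit 11981582466, nat_lit 2,
  [⟨V6_10907820162, [(nat_lit 89, nat_lit 11981582466), (nat_lit 79, nat_lit 13055320194), (nat_lit 117, nat_lit 14129057922), (nat_lit 8, nat_lit 15202795650), (nat_lit 66, nat_lit 16276533378), (nat_lit 116, nat_lit 17350271106)]⟩],
  [W_11981561984, W_11981303936]⟩
theorem C_11981582466 : chkRec R_11981582466 = true := by decide +kernel

noncomputable def R_11981582529 : Rec := ⟨nat_lit 11981582529, nat_lit 4,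
  [⟨V6_10907828352, [(nat_lit 22, nat_lit 11981582529), (nat_lit 74, nat_lit 13055324352), (nat_lit 106, nat_lit 13055324289), (nat_lit 57, nat_lit 13055320257), (nat_lit 23, nat_lit 14129066112), (nat_lit 120, nat_lit 14129062080), (nat_lit 123, nat_lit 14129062017), (nat_lit 106, nat_lit 14129057985), (nat_lit 44, nat_lit 15202803840), (nat_lit 5, nat_lit 15202799808), (nat_lit 80, nat_lit 15202799745), (nat_lit 20, nat_lit 15202795713), (nat_lit 33, nat_lit 16276541568), (nat_lit 91, nat_lit 16276537536), (nat_lit 5, nat_lit 16276537473), (nat_lit 101, nat_lit 17350279296)]⟩],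
  [W_11981566016, W_11981041856, W_11980791872]⟩
theorem C_11981582529 : chkRec R_11981582529 = true := by decide +kernel

noncomputable def R_11981582592 : Rec := ⟨nat_lit 11981582592, nat_lit 6,
  [⟨V6_10907304192, [(nat_lit 103, nat_lit 11981582592), (nat_lit 27, nat_lit 13055320320), (nat_lit 42, nat_lit 13055062272), (nat_lit 89, nat_lit 14129058048), (nat_lit 102, nat_lit 14128800000), (nat_lit 51, nat_lit 14128541952), (nat_lit 114, nat_lit 15202795776), (nat_lit 88, nat_lit 15202537728), (nat_lit 1, nat_lit 15202279680), (nat_lit 26, nat_lit 16276275456), (nat_lit 23, nat_lit 16276017408), (nat_lit 44, nat_lit 17349755136)]⟩],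
  [W_11981570048, W_11980795904, W_11980791872, W_10907832320]⟩
theorem C_11981582592 : chkRec R_11981582592 = true := by decide +kernel

noncomputable def R_11981586561 : Rec := ⟨nat_lit 11981586561, nat_lit 3,
  [⟨V6_10907566209, [(nat_lit 123, nat_lit 11981586561), (nat_lit 56, nat_lit 13055324289), (nat_lit 47, nat_lit 13055066241), (nat_lit 48, nat_lit 14129062017), (nat_lit 117, nat_lit 14128803969), (nat_lit 45, nat_lit 15202799745), (nat_lit 9, nat_lit 15202541697), (nat_lit 56, nat_lit 16276537473), (nat_lit 109, nat_lit 16276279425), (nat_lit 43, nat_lit 17350017153)]⟩],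
  [W_11981566016, W_11981561984, W_10907828288]⟩
theorem C_11981586561 : chkRec R_11981586561 = true := by decide +kernel

noncomputable def R_11981586624 : Rec := ⟨nat_lit 11981586624, nat_lit 5,
  [⟨V6_10907828352, [(nat_lit 15, nat_lit 11981586624), (nat_lit 113, nat_lit 13055328384), (nat_lit 77, nat_lit 13055324352), (nat_lit 48, nat_lit 14129066112), (nat_lit 4, nat_lit 14129062080), (nat_lit 123, nat_lit 15202803840), (nat_lit 115, nat_lit 15202799808), (nat_lit 89, nat_lit 16276541568), (nat_lit 54, nat_lit 16276537536), (nat_lit 113, nat_lit 17350279296)]⟩,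
   ⟨V6_10907320320, [(nat_lit 97, nat_lit 11981586624), (nat_lit 69, nat_lit 13055328384), (nat_lit 40, nat_lit 13055066304), (nat_lit 18, nat_lit 14129070144), (nat_lit 91, nat_lit 14128808064), (nat_lit 47, nat_lit 14128545984), (nat_lit 35, nat_lit 15202811904), (nat_lit 114, nat_lit 15202549824), (nat_lit 55, nat_lit 15202287744), (nat_lit 63, nat_lit 16276291584), (nat_lit 34, nat_lit 16276029504), (nat_lit 100, nat_lit 17349771264)]⟩],
  [W_11981570048, W_11981566016, W_11981041856, W_10907832320]⟩
theorem C_11981586624 : chkRec R_11981586624 = true := by decide +kernel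

noncomputable def R_11981590593 : Rec := ⟨nat_lit 11981590593, nat_lit 1,
  [⟨V6_10907832384, [(nat_lit 71, nat_lit 11981590593), (nat_lit 4, nat_lit 13055332416), (nat_lit 105, nat_lit 13055328321), (nat_lit 54, nat_lit 14129070144), (nat_lit 2, nat_lit 14129066049), (nat_lit 105, nat_lit 15202807872), (nat_lit 110, nat_lit 15202803777), (nat_lit 67, nat_lit 16276545600), (nat_lit 32, nat_lit 16276541505), (nat_lit 63, nat_lit 17350283328)]⟩],
  [W_11981566016]⟩
theorem C_11981590593 : chkRec R_11981590593 = true := by decide +kernel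

noncomputable def R_11981590656 : Rec := ⟨nat_lit 11981590656, nat_lit 2,
  [⟨V6_10907828352, [(nat_lit 20, nat_lit 11981590656), (nat_lit 18, nat_lit 13055328384), (nat_lit 65, nat_lit 14129066112), (nat_lit 110, nat_lit 15202803840), (nat_lit 56, nat_lit 16276541568), (nat_lit 52, nat_lit 17350279296)]⟩],
  [W_11981570048]⟩
theorem C_11981590656 : chkRec R_11981590656 = true := by decide +kernel

noncomputable def R_11981594688 : Rec := ⟨nat_lit 11981594688, nat_lit 1,
  [⟨V6_10907832384, [(nat_lit 102, nat_lit 11981594688), (nat_lit 75, nat_lit 13055332416), (nat_lit 27, nat_lit 14129070144), (nat_lit 17, nat_lit 15202807872), (nat_lit 73, nat_lit 16276545600), (nat_lit 110, nat_lit 17350283328)]⟩],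
  [W_11981570048]⟩
theorem C_11981594688 : chkRec R_11981594688 = true := by decide +kernel

noncomputable def R_11997307203 : Rec := ⟨nat_lit 11997307203, nat_lit 1,
  [⟨V6_11913421122, [(nat_lit 101, nat_lit 11997307203), (nat_lit 67, nat_lit 13071049026), (nat_lit 81, nat_lit 13054271811), (nat_lit 2, nat_lit 14128013634), (nat_lit 90, nat_lit 14111236419), (nat_lit 14, nat_lit 15184978242), (nat_lit 21, nat_lit 15168201027), (nat_lit 73, nat_lit 16241942850), (nat_lit 33, nat_lit 16225165635), (nat_lit 37, nat_lit 17298907458), (nat_lit 97, nat_lit 17282130243), (nat_lit 126, nat_lit 18355872066)]⟩],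
  [W_11980525760]⟩
theorem C_11997307203 : chkRec R_11997307203 = true := by decide +kernel

noncomputable def R_11997307266 : Rec := ⟨nat_lit 11997307266, nat_lit 1,
  [⟨V6_11913421122, [(nat_lit 64, nat_lit 11997307266), (nat_lit 80, nat_lit 13071049026), (nat_lit 74, nat_lit 13054271874), (nat_lit 98, nat_lit 14128013634), (nat_lit 111, nat_lit 14111236482), (nat_lit 31, nat_lit 15184978242), (nat_lit 14, nat_lit 15168201090), (nat_lit 61, nat_lit 16241942850), (nat_lit 39, nat_lit 16225165698), (nat_lit 33, nat_lit 17298907458), (nat_lit 103, nat_lit 17282130306), (nat_lit 35, nat_lit 18355872066)]⟩],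
  [W_11913421184]⟩
theorem C_11997307266 : chkRec R_11997307266 = true := by decide +kernel

noncomputable def R_11997565188 : Rec := ⟨nat_lit 11997565188, nat_lit 1,
  [⟨V6_11930194179, [(nat_lit 67, nat_lit 11997565188), (nat_lit 72, nat_lit 13071307011), (nat_lit 12, nat_lit 13071044868), (nat_lit 7, nat_lit 13054529796), (nat_lit 73, nat_lit 14144786691), (nat_lit 69, nat_lit 14128271619), (nat_lit 25, nat_lit 14128009476), (nat_lit 38, nat_lit 14111494404), (nat_lit 85, nat_lit 15201751299), (nat_lit 10, nat_lit 15185236227), (nat_lit 48, nat_lit 15184974084), (nat_lit 33, nat_lit 15168459012), (nat_lit 34, nat_lit 16258715907), (nat_lit 56, nat_lit 16242200835), (nat_lit 87, nat_lit 16241938692), (nat_lit 73, nat_lit 16225423620), (nat_lit 11, nat_lit 17315680515), (nat_lit 57, nat_lit 17299165443), (nat_lit 18, nat_lit 17298903300), (nat_lit 24, nat_lit 18372645123)]⟩],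
  [W_11947233536]⟩
theorem C_11997565188 : chkRec R_11997565188 = true := by decide +kernel

noncomputable def R_11997565251 : Rec := ⟨nat_lit 11997565251, nat_lit 1,
  [⟨V6_11930194179, [(nat_lit 58, nat_lit 11997565251), (nat_lit 55, nat_lit 13071307011), (nat_lit 42, nat_lit 13071044931), (nat_lit 57, nat_lit 13054529859), (nat_lit 60, nat_lit 14144786691), (nat_lit 42, nat_lit 14128271619), (nat_lit 95, nat_lit 14128009539), (nat_lit 27, nat_lit 14111494467), (nat_lit 117, nat_lit 15201751299), (nat_lit 67, nat_lit 15185236227), (nat_lit 48, nat_lit 15184974147), (nat_lit 52, nat_lit 15168459075), (nat_lit 112, nat_lit 16258715907), (nat_lit 89, nat_lit 16242200835), (nat_lit 104, nat_lit 16241938755), (nat_lit 58, nat_lit 16225423683), (nat_lit 29, nat_lit 17315680515), (nat_lit 34, nat_lit 17299165443), (nat_lit 70, nat_lit 17298903363), (nat_lit 108, nat_lit 18372645123)]⟩],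
  [W_11997040832]⟩
theorem C_11997565251 : chkRec R_11997565251 = true := by decide +kernel

noncomputable def R_11997569283 : Rec := ⟨nat_lit 11997569283, nat_lit 2,
  [⟨V6_11930198274, [(nat_lit 81, nat_lit 11997569283), (nat_lit 27, nat_lit 13071311106), (nat_lit 51, nat_lit 13071048963), (nat_lit 18, nat_lit 13054533891), (nat_lit 20, nat_lit 14144790786), (nat_lit 54, nat_lit 14128275714), (nat_lit 100, nat_lit 14128013571), (nat_lit 114, nat_lit 14111498499), (nat_lit 84, nat_lit 15201755394), (nat_lit 21, nat_lit 15185240322), (nat_lit 97, nat_lit 15184978179), (nat_lit 18, nat_lit 15168463107), (nat_lit 80, nat_lit 16258720002), (nat_lit 55, nat_lit 16242204930), (nat_lit 120, nat_lit 16241942787), (nat_lit 121, nat_lit 16225427715), (nat_lit 18, nat_lit 17315684610), (nat_lit 37, nat_lit 17299169538), (nat_lit 116, nat_lit 17298907395), (nat_lit 30, nat_lit 18372649218)]⟩,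
   ⟨V6_11930194179, [(nat_lit 123, nat_lit 11997569283), (nat_lit 31, nat_lit 13071307011), (nat_lit 99, nat_lit 13071048963), (nat_lit 40, nat_lit 13054533891), (nat_lit 120, nat_lit 14144786691), (nat_lit 91, nat_lit 14128271619), (nat_lit 80, nat_lit 14128013571), (nat_lit 111, nat_lit 14111498499), (nat_lit 31, nat_lit 15201751299), (nat_lit 54, nat_lit 15185236227), (nat_lit 59, nat_lit 15184978179), (nat_lit 89, nat_lit 15168463107), (nat_lit 52, nat_lit 16258715907), (nat_lit 82, nat_lit 16242200835), (nat_lit 112, nat_lit 16241942787), (nat_lit 46, nat_lit 16225427715), (nat_lit 110, nat_lit 17315680515), (nat_lit 18, nat_lit 17299165443), (nat_lit 71, nat_lit 17298907395), (nat_lit 26, nat_lit 18372645123)]⟩],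
  [W_11980783808]⟩
theorem C_11997569283 : chkRec R_11997569283 = true := by decide +kernel

noncomputable def R_11997569346 : Rec := ⟨nat_lit 11997569346, nat_lit 2,
  [⟨V6_11947237506, [(nat_lit 85, nat_lit 11997569346), (nat_lit 111, nat_lit 13071311106), (nat_lit 84, nat_lit 13054533954), (nat_lit 78, nat_lit 14145052866), (nat_lit 7, nat_lit 14128275714), (nat_lit 50, nat_lit 14111498562), (nat_lit 98, nat_lit 15218794626), (nat_lit 106, nat_lit 15202017474), (nat_lit 17, nat_lit 15185240322), (nat_lit 91, nat_lit 15168463170), (nat_lit 36, nat_lit 16275759234), (nat_lit 96, nat_lit 16258982082), (nat_lit 11, nat_lit 16242204930), (nat_lit 2, nat_lit 17332723842), (nat_lit 35, nat_lit 17315946690), (nat_lit 31, nat_lit 18389688450)]⟩],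
  [W_11997302912, W_11963748608]⟩
theorem C_11997569346 : chkRec R_11997569346 = true := by decide +kernel

noncomputable def R_11997569409 : Rec := ⟨nat_lit 11997569409, nat_lit 1,
  [⟨V6_11997306945, [(nat_lit 84, nat_lit 11997569409), (nat_lit 2, nat_lit 13071311169), (nat_lit 62, nat_lit 13071049089), (nat_lit 55, nat_lit 14145052929), (nat_lit 13, nat_lit 14144790849), (nat_lit 2, nat_lit 15218794689), (nat_lit 85, nat_lit 15218532609), (nat_lit 9, nat_lit 16292536449), (nat_lit 85, nat_lit 16292274369), (nat_lit 39, nat_lit 17366278209), (nat_lit 85, nat_lit 17366016129), (nat_lit 10, nat_lit 18439757889)]⟩],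
  [W_11946975488]⟩
theorem C_11997569409 : chkRec R_11997569409 = true := by decide +kernel

noncomputable def R_11997573315 : Rec := ⟨nat_lit 11997573315, nat_lit 1,
  [⟨V6_11930456259, [(nat_lit 68, nat_lit 11997573315), (nat_lit 45, nat_lit 13071311043), (nat_lit 115, nat_lit 13054537923), (nat_lit 64, nat_lit 14145048771), (nat_lit 58, nat_lit 14128275651), (nat_lit 93, nat_lit 14111502531), (nat_lit 24, nat_lit 15202013379), (nat_lit 53, nat_lit 15185240259), (nat_lit 89, nat_lit 15168467139), (nat_lit 91, nat_lit 16258977987), (nat_lit 110, nat_lit 16242204867), (nat_lit 55, nat_lit 16225431747), (nat_lit 30, nat_lit 17315942595), (nat_lit 54, nat_lit 17299169475), (nat_lit 115, nat_lit 18372907203)]⟩],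
  [W_11997556928]⟩
theorem C_11997573315 : chkRec R_11997573315 = true := by decide +kernel

noncomputable def R_11997573378 : Rec := ⟨nat_lit 11997573378, nat_lit 2,
  [⟨V6_11947237506, [(nat_lit 73, nat_lit 11997573378), (nat_lit 125, nat_lit 13071315138), (nat_lit 91, nat_lit 13071311106), (nat_lit 88, nat_lit 13054537986), (nat_lit 81, nat_lit 14145056898), (nat_lit 103, nat_lit 14145052866), (nat_lit 112, nat_lit 14128279746), (nat_lit 93, nat_lit 14128275714), (nat_lit 72, nat_lit 14111502594), (nat_lit 60, nat_lit 15218794626), (nat_lit 49, nat_lit 15202021506), (nat_lit 87, nat_lit 15202017474), (nat_lit 72, nat_lit 15185244354), (nat_lit 124, nat_lit 15185240322), (nat_lit 83, nat_lit 15168467202), (nat_lit 122, nat_lit 16275759234), (nat_lit 78, nat_lit 16258986114), (nat_lit 73, nat_lit 16258982082), (nat_lit 44, nat_lit 16242208962), (nat_lit 33, nat_lit 16242204930), (nat_lit 74, nat_lit 17332723842), (nat_lit 107, nat_lit 17315950722), (nat_lit 41, nat_lit 17315946690), (nat_lit 59, nat_lit 18389688450)]⟩],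
  [W_11980787840]⟩
theorem C_11997573378 : chkRec R_11997573378 = true := by decide +kernel

noncomputable def R_11997573441 : Rec := ⟨nat_lit 11997573441, nat_lit 2,
  [⟨V6_11997569088, [(nat_lit 105, nat_lit 11997573441), (nat_lit 81, nat_lit 13071315264), (nat_lit 64, nat_lit 13071315201), (nat_lit 118, nat_lit 13071311169), (nat_lit 124, nat_lit 14145057024), (nat_lit 108, nat_lit 14145056961), (nat_lit 65, nat_lit 14145052992), (nat_lit 41, nat_lit 14145052929), (nat_lit 20, nat_lit 15218798784), (nat_lit 103, nat_lit 15218798721), (nat_lit 119, nat_lit 15218794752), (nat_lit 23, nat_lit 15218794689), (nat_lit 122, nat_lit 16292540544), (nat_lit 75, nat_lit 16292540481), (nat_lit 71, nat_lit 16292536512), (nat_lit 57, nat_lit 16292536449), (nat_lit 42, nat_lit 17366282304), (nat_lit 4, nat_lit 17366278272), (nat_lit 98, nat_lit 17366278209), (nat_lit 1, nat_lit 18440020032)]⟩],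
  [W_11964018752, W_11947233536]⟩
theorem C_11997573441 : chkRec R_11997573441 = true := by decide +kernel

noncomputable def R_11997573504 : Rec := ⟨nat_lit 11997573504, nat_lit 1,
  [⟨V6_11997573120, [(nat_lit 119, nat_lit 11997573504), (nat_lit 94, nat_lit 13071315264), (nat_lit 75, nat_lit 14145057024), (nat_lit 120, nat_lit 15218798784), (nat_lit 83, nat_lit 16292540544), (nat_lit 49, nat_lit 17366282304), (nat_lit 46, nat_lit 18440024064)]⟩],
  [W_11947237568]⟩
theorem C_11997573504 : chkRec R_11997573504 = true := by decide +kernel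

noncomputable def R_11997827331 : Rec := ⟨nat_lit 11997827331, nat_lit 2,
  [⟨V6_11947495680, [(nat_lit 74, nat_lit 11997827331), (nat_lit 113, nat_lit 13071569154), (nat_lit 20, nat_lit 13054791939), (nat_lit 111, nat_lit 14145310977), (nat_lit 14, nat_lit 14128533762), (nat_lit 60, nat_lit 14111756547), (nat_lit 13, nat_lit 15219052800), (nat_lit 4, nat_lit 15202275585), (nat_lit 36, nat_lit 15185498370), (nat_lit 44, nat_lit 15168721155), (nat_lit 56, nat_lit 16276017408), (nat_lit 20, nat_lit 16259240193), (nat_lit 69, nat_lit 16242462978), (nat_lit 70, nat_lit 17332982016), (nat_lit 51, nat_lit 17316204801), (nat_lit 19, nat_lit 18389946624)]⟩],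
  [W_11997298880, W_11997040832]⟩
theorem C_11997827331 : chkRec R_11997827331 = true := by decide +kernel

noncomputable def R_11997827394 : Rec := ⟨nat_lit 11997827394, nat_lit 3,
  [⟨V6_11947495554, [(nat_lit 104, nat_lit 11997827394), (nat_lit 88, nat_lit 13071569154), (nat_lit 46, nat_lit 13054792002), (nat_lit 79, nat_lit 14145310914), (nat_lit 25, nat_lit 14128533762), (nat_lit 106, nat_lit 14111756610), (nat_lit 96, nat_lit 15219052674), (nat_lit 52, nat_lit 15202275522), (nat_lit 97, nat_lit 15185498370), (nat_lit 71, nat_lit 15168721218), (nat_lit 56, nat_lit 16276017282), (nat_lit 107, nat_lit 16259240130), (nat_lit 3, nat_lit 16242462978), (nat_lit 116, nat_lit 17332981890), (nat_lit 125, nat_lit 17316204738), (nat_lit 20, nat_lit 18389946498)]⟩],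
  [W_11997302912, W_11997040832, W_11963748608]⟩
theorem C_11997827394 : chkRec R_11997827394 = true := by decide +kernel

noncomputable def R_11997831363 : Rec := ⟨nat_lit 11997831363, nat_lit 3,
  [⟨V6_11997819072, [(nat_lit 23, nat_lit 11997831363), (nat_lit 105, nat_lit 13071573186), (nat_lit 122, nat_lit 13071569091), (nat_lit 78, nat_lit 14145315009), (nat_lit 126, nat_lit 14145310914), (nat_lit 119, nat_lit 14145306819), (nat_lit 104, nat_lit 15219056832), (nat_lit 97, nat_lit 15219052737), (nat_lit 22, nat_lit 15219048642), (nat_lit 1, nat_lit 15219044547), (nat_lit 65, nat_lit 16292794560), (nat_lit 116, nat_lit 16292790465), (nat_lit 112, nat_lit 16292786370), (nat_lit 10, nat_lit 17366532288), (nat_lit 8, nat_lit 17366528193), (nat_lit 54, nat_lit 18440270016)]⟩],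
  [W_11981041856, W_11963752640, W_11947237568]⟩
theorem C_11997831363 : chkRec R_11997831363 = true := by decide +kernel

noncomputable def R_11997831426 : Rec := ⟨nat_lit 11997831426, nat_lit 4,
  [⟨V6_11947495554, [(nat_lit 21, nat_lit 11997831426), (nat_lit 54, nat_lit 13071573186), (nat_lit 81, nat_lit 13071569154), (nat_lit 33, nat_lit 13054796034), (nat_lit 69, nat_lit 14145314946), (nat_lit 3, nat_lit 14145310914), (nat_lit 122, nat_lit 14128537794), (nat_lit 122, nat_lit 14128533762), (nat_lit 58, nat_lit 14111760642), (nat_lit 69, nat_lit 15219052674), (nat_lit 55, nat_lit 15202279554), (nat_lit 86, nat_lit 15202275522), (nat_lit 108, nat_lit 15185502402), (nat_lit 19, nat_lit 15185498370), (nat_lit 10, nat_lit 15168725250), (nat_lit 117, nat_lit 16276017282), (nat_lit 70, nat_lit 16259244162), (nat_lit 19, nat_lit 16259240130), (nat_lit 104, nat_lit 16242467010), (nat_lit 66, nat_lit 16242462978), (nat_lit 10, nat_lit 17332981890), (nat_lit 100, nat_lit 17316208770), (nat_lit 61, nat_lit 17316204738), (nat_lit 30, nat_lit 18389946498)]⟩,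
   ⟨V6_11947491585, [(nat_lit 85, nat_lit 11997831426), (nat_lit 95, nat_lit 13071573249), (nat_lit 78, nat_lit 13071569154), (nat_lit 97, nat_lit 13054796034), (nat_lit 114, nat_lit 14145310977), (nat_lit 34, nat_lit 14145306882), (nat_lit 85, nat_lit 14128537857), (nat_lit 41, nat_lit 14128533762), (nat_lit 43, nat_lit 14111760642), (nat_lit 77, nat_lit 15219048705), (nat_lit 120, nat_lit 15202275585), (nat_lit 44, nat_lit 15202271490), (nat_lit 110, nat_lit 15185502465), (nat_lit 113, nat_lit 15185498370), (nat_lit 39, nat_lit 15168725250), (nat_lit 66, nat_lit 16276013313), (nat_lit 37, nat_lit 16259240193), (nat_lit 43, nat_lit 16259236098), (nat_lit 91, nat_lit 16242467073), (nat_lit 20, nat_lit 16242462978), (nat_lit 9, nat_lit 17332977921), (nat_lit 48, nat_lit 17316204801), (nat_lit 69, nat_lit 17316200706), (nat_lit 109, nat_lit 18389942529)]⟩],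
  [W_11997560960, W_11997302912, W_11997298880, W_11946975488]⟩
theorem C_11997831426 : chkRec R_11997831426 = true := by decide +kernel

noncomputable def R_11997831489 : Rec := ⟨nat_lit 11997831489, nat_lit 5,
  [⟨V6_11997306945, [(nat_lit 106, nat_lit 11997831489), (nat_lit 92, nat_lit 13071573249), (nat_lit 63, nat_lit 13071311169), (nat_lit 85, nat_lit 14145315009), (nat_lit 30, nat_lit 14145052929), (nat_lit 73, nat_lit 14144790849), (nat_lit 38, nat_lit 15219056769), (nat_lit 8, nat_lit 15218794689), (nat_lit 27, nat_lit 15218532609), (nat_lit 24, nat_lit 16292798529), (nat_lit 42, nat_lit 16292536449), (nat_lit 71, nat_lit 16292274369), (nat_lit 47, nat_lit 17366278209), (nat_lit 104, nat_lit 17366016129), (nat_lit 80, nat_lit 18439757889)]⟩],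
  [W_11997564992, W_11963748608, W_11947233536]⟩
theorem C_11997831489 : chkRec R_11997831489 = true := by decide +kernel

noncomputable def R_11997831552 : Rec := ⟨nat_lit 11997831552, nat_lit 2,
  [⟨V6_11997569088, [(nat_lit 59, nat_lit 11997831552), (nat_lit 39, nat_lit 13071573312), (nat_lit 64, nat_lit 13071311232), (nat_lit 1, nat_lit 14145315072), (nat_lit 49, nat_lit 14145052992), (nat_lit 1, nat_lit 15219056832), (nat_lit 72, nat_lit 15218794752), (nat_lit 1, nat_lit 16292798592), (nat_lit 16, nat_lit 16292536512), (nat_lit 30, nat_lit 17366540352), (nat_lit 101, nat_lit 17366278272), (nat_lit 18, nat_lit 18440020032)]⟩],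
  [W_11997569024, W_11946975488]⟩
theorem C_11997831552 : chkRec R_11997831552 = true := by decide +kernel

noncomputable def R_11997835458 : Rec := ⟨nat_lit 11997835458, nat_lit 3,
  [⟨V6_11997819072, [(nat_lit 34, nat_lit 11997835458), (nat_lit 49, nat_lit 13071577281), (nat_lit 101, nat_lit 13071573186), (nat_lit 54, nat_lit 14145319104), (nat_lit 17, nat_lit 14145315009), (nat_lit 18, nat_lit 14145310914), (nat_lit 2, nat_lit 15219056832), (nat_lit 56, nat_lit 15219052737), (nat_lit 56, nat_lit 15219048642), (nat_lit 64, nat_lit 16292794560), (nat_lit 78, nat_lit 16292790465), (nat_lit 4, nat_lit 16292786370), (nat_lit 44, nat_lit 17366532288), (nat_lit 64, nat_lit 17366528193), (nat_lit 68, nat_lit 18440270016)]⟩],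
  [W_11964014720, W_11947499648]⟩
theorem C_11997835458 : chkRec R_11997835458 = true := by decide +kernel

noncomputable def R_11997835521 : Rec := ⟨nat_lit 11997835521, nat_lit 6,
  [⟨V6_11964268800, [(nat_lit 66, nat_lit 11997835521), (nat_lit 57, nat_lit 13071577344), (nat_lit 5, nat_lit 13071573249), (nat_lit 30, nat_lit 13054800129), (nat_lit 13, nat_lit 14145315072), (nat_lit 58, nat_lit 14145310977), (nat_lit 74, nat_lit 14128541952), (nat_lit 98, nat_lit 14128537857), (nat_lit 100, nat_lit 14111764737), (nat_lit 28, nat_lit 15219052800), (nat_lit 7, nat_lit 15219048705), (nat_lit 80, nat_lit 15202279680), (nat_lit 45, nat_lit 15202275585), (nat_lit 104, nat_lit 15185506560), (nat_lit 51, nat_lit 15185502465), (nat_lit 28, nat_lit 16292790528), (nat_lit 101, nat_lit 16276017408), (nat_lit 115, nat_lit 16276013313), (nat_lit 13, nat_lit 16259244288), (nat_lit 70, nat_lit 16259240193), (nat_lit 26, nat_lit 17349755136), (nat_lit 4, nat_lit 17332982016), (nat_lit 115, nat_lit 17332977921), (nat_lit 70, nat_lit 18406719744)]⟩],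
  [W_11997823040, W_11997564992, W_11964018752, W_11947503680]⟩
theorem C_11997835521 : chkRec R_11997835521 = true := by decide +kernel

noncomputable def R_11997835584 : Rec := ⟨nat_lit 11997835584, nat_lit 6,
  [⟨V6_11981058048, [(nat_lit 2, nat_lit 11997835584), (nat_lit 83, nat_lit 13071577344), (nat_lit 69, nat_lit 13054800192), (nat_lit 98, nat_lit 14145319104), (nat_lit 41, nat_lit 14128541952), (nat_lit 27, nat_lit 15219060864), (nat_lit 101, nat_lit 15202283712), (nat_lit 35, nat_lit 16292802624), (nat_lit 22, nat_lit 16276025472), (nat_lit 35, nat_lit 17366544384), (nat_lit 45, nat_lit 17349767232), (nat_lit 43, nat_lit 18423508992)]⟩],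
  [W_11997564992, W_11964010688, W_11947237568]⟩
theorem C_11997835584 : chkRec R_11997835584 = true := by decide +kernel

noncomputable def R_11997839490 : Rec := ⟨nat_lit 11997839490, nat_lit 1,
  [⟨V6_11947495554, [(nat_lit 13, nat_lit 11997839490), (nat_lit 110, nat_lit 13071577218), (nat_lit 45, nat_lit 13054804098), (nat_lit 63, nat_lit 14145314946), (nat_lit 106, nat_lit 14128541826), (nat_lit 11, nat_lit 14111768706), (nat_lit 74, nat_lit 15219052674), (nat_lit 92, nat_lit 15202279554), (nat_lit 60, nat_lit 15185506434), (nat_lit 58, nat_lit 15168733314), (nat_lit 28, nat_lit 16276017282), (nat_lit 83, nat_lit 16259244162), (nat_lit 125, nat_lit 16242471042), (nat_lit 5, nat_lit 17332981890), (nat_lit 1, nat_lit 17316208770), (nat_lit 108, nat_lit 18389946498)]⟩],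
  [W_11997819008]⟩
theorem C_11997839490 : chkRec R_11997839490 = true := by decide +kernel

noncomputable def R_11997839553 : Rec := ⟨nat_lit 11997839553, nat_lit 4,
  [⟨V6_11997819072, [(nat_lit 118, nat_lit 11997839553), (nat_lit 99, nat_lit 13071581376), (nat_lit 61, nat_lit 13071577281), (nat_lit 8, nat_lit 14145319104), (nat_lit 122, nat_lit 14145315009), (nat_lit 111, nat_lit 15219056832), (nat_lit 122, nat_lit 15219052737), (nat_lit 26, nat_lit 16292794560), (nat_lit 82, nat_lit 16292790465), (nat_lit 52, nat_lit 17366532288), (nat_lit 56, nat_lit 17366528193), (nat_lit 69, nat_lit 18440270016)]⟩],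
  [W_11981041856, W_11947503680, W_11947499648]⟩
theorem C_11997839553 : chkRec R_11997839553 = true := by decide +kernel

noncomputable def R_11997839616 : Rec := ⟨nat_lit 11997839616, nat_lit 3,
  [⟨V6_11964268800, [(nat_lit 62, nat_lit 11997839616), (nat_lit 43, nat_lit 13071577344), (nat_lit 117, nat_lit 13054804224), (nat_lit 10, nat_lit 14145315072), (nat_lit 94, nat_lit 14128541952), (nat_lit 49, nat_lit 14111768832), (nat_lit 110, nat_lit 15219052800), (nat_lit 17, nat_lit 15202279680), (nat_lit 15, nat_lit 15185506560), (nat_lit 37, nat_lit 16292790528), (nat_lit 93, nat_lit 16276017408), (nat_lit 105, nat_lit 16259244288), (nat_lit 53, nat_lit 17349755136), (nat_lit 38, nat_lit 17332982016), (nat_lit 114, nat_lit 18406719744)]⟩],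
  [W_11997823040, W_11964280832]⟩
theorem C_11997839616 : chkRec R_11997839616 = true := by decide +kernel

noncomputable def R_11998085379 : Rec := ⟨nat_lit 11998085379, nat_lit 1,
  [⟨V6_11997036801, [(nat_lit 86, nat_lit 11998085379), (nat_lit 4, nat_lit 13071827202), (nat_lit 39, nat_lit 13071565059), (nat_lit 70, nat_lit 14145569025), (nat_lit 101, nat_lit 14145306882), (nat_lit 74, nat_lit 14145044739), (nat_lit 101, nat_lit 15219048705), (nat_lit 7, nat_lit 15218786562), (nat_lit 83, nat_lit 15218524419), (nat_lit 69, nat_lit 16292528385), (nat_lit 90, nat_lit 16292266242), (nat_lit 34, nat_lit 16292004099), (nat_lit 20, nat_lit 17366008065), (nat_lit 100, nat_lit 17365745922), (nat_lit 105, nat_lit 18439487745)]⟩],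
  [W_11997298880]⟩
theorem C_11998085379 : chkRec R_11998085379 = true := by decide +kernel

noncomputable def R_11998089411 : Rec := ⟨nat_lit 11998089411, nat_lit 2,
  [⟨V6_11997819072, [(nat_lit 55, nat_lit 11998089411), (nat_lit 71, nat_lit 13071831234), (nat_lit 90, nat_lit 13071827139), (nat_lit 11, nat_lit 13071569091), (nat_lit 14, nat_lit 14145573057), (nat_lit 117, nat_lit 14145568962), (nat_lit 105, nat_lit 14145564867), (nat_lit 42, nat_lit 14145310914), (nat_lit 114, nat_lit 14145306819), (nat_lit 57, nat_lit 15219314880), (nat_lit 37, nat_lit 15219310785), (nat_lit 98, nat_lit 15219306690), (nat_lit 101, nat_lit 15219052737), (nat_lit 111, nat_lit 15219048642), (nat_lit 86, nat_lit 15219044547), (nat_lit 100, nat_lit 16293052608), (nat_lit 1, nat_lit 16293048513), (nat_lit 57, nat_lit 16292794560), (nat_lit 97, nat_lit 16292790465), (nat_lit 80, nat_lit 16292786370), (nat_lit 40, nat_lit 17366790336), (nat_lit 83, nat_lit 17366532288), (nat_lit 33, nat_lit 17366528193), (nat_lit 61, nat_lit 18440270016)]⟩],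
  [W_11981041856, W_11964526784]⟩
theorem C_11998089411 : chkRec R_11998089411 = true := by decide +kernel

noncomputable def R_11998089474 : Rec := ⟨nat_lit 11998089474, nat_lit 3,
  [⟨V6_11997040833, [(nat_lit 3, nat_lit 11998089474), (nat_lit 70, nat_lit 13071831297), (nat_lit 71, nat_lit 13071831234), (nat_lit 83, nat_lit 13071569154), (nat_lit 54, nat_lit 14145573057), (nat_lit 26, nat_lit 14145310977), (nat_lit 20, nat_lit 14145310914), (nat_lit 76, nat_lit 14145048834), (nat_lit 30, nat_lit 15219052737), (nat_lit 1, nat_lit 15218790657), (nat_lit 9, nat_lit 15218790594), (nat_lit 72, nat_lit 15218528514), (nat_lit 124, nat_lit 16292532417), (nat_lit 106, nat_lit 16292270337), (nat_lit 54, nat_lit 16292270274), (nat_lit 41, nat_lit 16292008194), (nat_lit 18, nat_lit 17366012097), (nat_lit 32, nat_lit 17365750017), (nat_lit 109, nat_lit 17365749954), (nat_lit 105, nat_lit 18439491777)]⟩,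
   ⟨V6_11997036801, [(nat_lit 35, nat_lit 11998089474), (nat_lit 91, nat_lit 13071831297), (nat_lit 28, nat_lit 13071827202), (nat_lit 96, nat_lit 13071569154), (nat_lit 97, nat_lit 14145569025), (nat_lit 52, nat_lit 14145310977), (nat_lit 80, nat_lit 14145306882), (nat_lit 45, nat_lit 14145048834), (nat_lit 91, nat_lit 15219048705), (nat_lit 111, nat_lit 15218790657), (nat_lit 40, nat_lit 15218786562), (nat_lit 34, nat_lit 15218528514), (nat_lit 4, nat_lit 16292528385), (nat_lit 77, nat_lit 16292270337), (nat_lit 34, nat_lit 16292266242), (nat_lit 19, nat_lit 16292008194), (nat_lit 22, nat_lit 17366008065), (nat_lit 37, nat_lit 17365750017), (nat_lit 110, nat_lit 17365745922), (nat_lit 2, nat_lit 18439487745)]⟩,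
   ⟨V6_11963486466, [(nat_lit 81, nat_lit 11998089474), (nat_lit 66, nat_lit 13071569154), (nat_lit 65, nat_lit 13055054082), (nat_lit 54, nat_lit 14145048834), (nat_lit 49, nat_lit 14128533762), (nat_lit 62, nat_lit 14112018690), (nat_lit 123, nat_lit 15218528514), (nat_lit 52, nat_lit 15202013442), (nat_lit 104, nat_lit 15185498370), (nat_lit 117, nat_lit 16292008194), (nat_lit 54, nat_lit 16275493122), (nat_lit 49, nat_lit 16258978050), (nat_lit 30, nat_lit 17348972802), (nat_lit 66, nat_lit 17332457730), (nat_lit 77, nat_lit 18405937410)]⟩],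
  [W_11981045888]⟩
theorem C_11998089474 : chkRec R_11998089474 = true := by decide +kernel

noncomputable def R_11998089537 : Rec := ⟨nat_lit 11998089537, nat_lit 3,
  [⟨V6_11963748672, [(nat_lit 50, nat_lit 11998089537), (nat_lit 45, nat_lit 13071831360), (nat_lit 118, nat_lit 13071569217), (nat_lit 38, nat_lit 13055054145), (nat_lit 62, nat_lit 14145311040), (nat_lit 20, nat_lit 14145048897), (nat_lit 118, nat_lit 14128795968), (nat_lit 92, nat_lit 14128533825), (nat_lit 18, nat_lit 14112018753), (nat_lit 103, nat_lit 15218790720), (nat_lit 99, nat_lit 15218528577), (nat_lit 94, nat_lit 15202275648), (nat_lit 3, nat_lit 15202013505), (nat_lit 24, nat_lit 15185760576), (nat_lit 18, nat_lit 15185498433), (nat_lit 1, nat_lit 16292270400), (nat_lit 21, nat_lit 16275755328), (nat_lit 75, nat_lit 16275493185), (nat_lit 75, nat_lit 16259240256), (nat_lit 79, nat_lit 16258978113), (nat_lit 95, nat_lit 17349235008), (nat_lit 43, nat_lit 17332719936), (nat_lit 117, nat_lit 17332457793), (nat_lit 18, nat_lit 18406199616)]⟩],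
  [W_11997564992, W_11997040832]⟩
theorem C_11998089537 : chkRec R_11998089537 = true := by decide +kernel

noncomputable def R_11998093506 : Rec := ⟨nat_lit 11998093506, nat_lit 4,
  [⟨V6_11997819072, [(nat_lit 100, nat_lit 11998093506), (nat_lit 43, nat_lit 13071835329), (nat_lit 72, nat_lit 13071831234), (nat_lit 86, nat_lit 13071573186), (nat_lit 32, nat_lit 14145577152), (nat_lit 78, nat_lit 14145573057), (nat_lit 91, nat_lit 14145568962), (nat_lit 4, nat_lit 14145315009), (nat_lit 63, nat_lit 14145310914), (nat_lit 12, nat_lit 15219314880), (nat_lit 7, nat_lit 15219310785), (nat_lit 106, nat_lit 15219306690), (nat_lit 92, nat_lit 15219056832), (nat_lit 42, nat_lit 15219052737), (nat_lit 118, nat_lit 15219048642), (nat_lit 48, nat_lit 16293052608), (nat_lit 10, nat_lit 16293048513), (nat_lit 113, nat_lit 16292794560), (nat_lit 89, nat_lit 16292790465), (nat_lit 20, nat_lit 16292786370), (nat_lit 17, nat_lit 17366790336), (nat_lit 111, nat_lit 17366532288), (nat_lit 123, nat_lit 17366528193), (nat_lit 74, nat_lit 18440270016)]⟩],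
  [W_11997302912, W_11964526784, W_11964014720, W_11963752640]⟩
theorem C_11998093506 : chkRec R_11998093506 = true := by decide +kernel

noncomputable def R_11998093569 : Rec := ⟨nat_lit 11998093569, nat_lit 6,
  [⟨V6_11998085184, [(nat_lit 107, nat_lit 11998093569), (nat_lit 102, nat_lit 13071835392), (nat_lit 97, nat_lit 13071835329), (nat_lit 47, nat_lit 13071831297), (nat_lit 87, nat_lit 14145577152), (nat_lit 38, nat_lit 14145577089), (nat_lit 99, nat_lit 14145573120), (nat_lit 119, nat_lit 14145573057), (nat_lit 105, nat_lit 14145569025), (nat_lit 57, nat_lit 15219318912), (nat_lit 13, nat_lit 15219318849), (nat_lit 102, nat_lit 15219314880), (nat_lit 30, nat_lit 15219314817), (nat_lit 114, nat_lit 15219310848), (nat_lit 14, nat_lit 15219310785), (nat_lit 26, nat_lit 16293060672), (nat_lit 38, nat_lit 16293056640), (nat_lit 65, nat_lit 16293056577), (nat_lit 45, nat_lit 16293052608), (nat_lit 60, nat_lit 16293052545), (nat_lit 11, nat_lit 17366798400), (nat_lit 31, nat_lit 17366794368), (nat_lit 54, nat_lit 17366794305), (nat_lit 88,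 nat_lit 18440536128)]⟩],
  [W_11997564992, W_11980521728, W_11964534848, W_11963748608]⟩
theorem C_11998093569 : chkRec R_11998093569 = true := by decide +kernel

noncomputable def R_11998093632 : Rec := ⟨nat_lit 11998093632, nat_lit 5,
  [⟨V6_11997569088, [(nat_lit 24, nat_lit 11998093632), (nat_lit 115, nat_lit 13071835392), (nat_lit 63, nat_lit 13071573312), (nat_lit 39, nat_lit 14145577152), (nat_lit 120, nat_lit 14145315072), (nat_lit 48, nat_lit 14145052992), (nat_lit 109, nat_lit 15219318912), (nat_lit 94, nat_lit 15219056832), (nat_lit 65, nat_lit 15218794752), (nat_lit 35, nat_lit 16293060672), (nat_lit 102, nat_lit 16292798592), (nat_lit 56, nat_lit 16292536512), (nat_lit 77, nat_lit 17366540352), (nat_lit 85, nat_lit 17366278272), (nat_lit 84, nat_lit 18440020032)]⟩],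
  [W_11997564992, W_11964534848, W_11963748608]⟩
theorem C_11998093632 : chkRec R_11998093632 = true := by decide +kernel

noncomputable def R_11998097538 : Rec := ⟨nat_lit 11998097538, nat_lit 2,
  [⟨V6_11998077057, [(nat_lit 52, nat_lit 11998097538), (nat_lit 20, nat_lit 13071839361), (nat_lit 121, nat_lit 13071835266), (nat_lit 99, nat_lit 14145577089), (nat_lit 83, nat_lit 14145572994), (nat_lit 119, nat_lit 15219314817), (nat_lit 78, nat_lit 15219310722), (nat_lit 9, nat_lit 16293052545), (nat_lit 100, nat_lit 16293048450), (nat_lit 110, nat_lit 17366790273), (nat_lit 32, nat_lit 17366786178), (nat_lit 65, nat_lit 18440528001)]⟩],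
  [W_11981303936, W_11964014720]⟩
theorem C_11998097538 : chkRec R_11998097538 = true := by decide +kernel

noncomputable def R_11998097601 : Rec := ⟨nat_lit 11998097601, nat_lit 6,
  [⟨V6_11997819072, [(nat_lit 92, nat_lit 11998097601), (nat_lit 108, nat_lit 13071839424), (nat_lit 76, nat_lit 13071835329), (nat_lit 2, nat_lit 13071577281), (nat_lit 93, nat_lit 14145577152), (nat_lit 22, nat_lit 14145573057), (nat_lit 17, nat_lit 14145319104), (nat_lit 6, nat_lit 14145315009), (nat_lit 82, nat_lit 15219314880), (nat_lit 8, nat_lit 15219310785), (nat_lit 76, nat_lit 15219056832), (nat_lit 58, nat_lit 15219052737), (nat_lit 31, nat_lit 16293052608), (nat_lit 79, nat_lit 16293048513), (nat_lit 55, nat_lit 16292794560), (nat_lit 72, nat_lit 16292790465), (nat_lit 92, nat_lit 17366790336), (nat_lit 94, nat_lit 17366532288), (nat_lit 31, nat_lit 17366528193), (nat_lit 67, nat_lit 18440270016)]⟩],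
  [W_11997564992, W_11964534848, W_11964018752, W_11964014720]⟩
theorem C_11998097601 : chkRec R_11998097601 = true := by decide +kernel

noncomputable def R_11998097664 : Rec := ⟨nat_lit 11998097664, nat_lit 7,
  [⟨V6_11997573120, [(nat_lit 91, nat_lit 11998097664), (nat_lit 58, nat_lit 13071839424), (nat_lit 76, nat_lit 13071577344), (nat_lit 57, nat_lit 14145581184), (nat_lit 12, nat_lit 14145319104), (nat_lit 46, nat_lit 14145057024), (nat_lit 29, nat_lit 15219322944), (nat_lit 32, nat_lit 15219060864), (nat_lit 64, nat_lit 15218798784), (nat_lit 42, nat_lit 16293064704), (nat_lit 86, nat_lit 16292802624), (nat_lit 19, nat_lit 16292540544), (nat_lit 15, nat_lit 17366544384), (nat_lit 68, nat_lit 17366282304), (nat_lit 84, nat_lit 18440024064)]⟩,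
   ⟨V6_11981058048, [(nat_lit 105, nat_lit 11998097664), (nat_lit 84, nat_lit 13071839424), (nat_lit 39, nat_lit 13071577344), (nat_lit 29, nat_lit 13055062272), (nat_lit 78, nat_lit 14145581184), (nat_lit 89, nat_lit 14145319104), (nat_lit 26, nat_lit 14128804032), (nat_lit 67, nat_lit 14128541952), (nat_lit 89, nat_lit 15219322944), (nat_lit 126, nat_lit 15219060864), (nat_lit 114, nat_lit 15202545792), (nat_lit 48, nat_lit 15202283712), (nat_lit 116, nat_lit 16293064704), (nat_lit 69, nat_lit 16292802624), (nat_lit 57, nat_lit 16276287552), (nat_lit 24, nat_lit 16276025472), (nat_lit 38, nat_lit 17366544384), (nat_lit 20, nat_lit 17350029312), (nat_lit 82, nat_lit 17349767232), (nat_lit 107, nat_lit 18423508992)]⟩],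
  [W_11997564992, W_11980783808, W_11964010688]⟩
theorem C_11998097664 : chkRec R_11998097664 = true := by decide +kernel

noncomputable def R_11998101633 : Rec := ⟨nat_lit 11998101633, nat_lit 3,
  [⟨V6_11998081089, [(nat_lit 9, nat_lit 11998101633), (nat_lit 65, nat_lit 13071843393), (nat_lit 57, nat_lit 13071839361), (nat_lit 56, nat_lit 14145581121), (nat_lit 90, nat_lit 14145577089), (nat_lit 111, nat_lit 15219318849), (nat_lit 31, nat_lit 15219314817), (nat_lit 46, nat_lit 16293056577), (nat_lit 54, nat_lit 16293052545), (nat_lit 74, nat_lit 17366794305), (nat_lit 10, nat_lit 17366790273), (nat_lit 26, nat_lit 18440532033)]⟩],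
  [W_11998081088, W_11964534848]⟩
theorem C_11998101633 : chkRec R_11998101633 = true := by decide +kernel

noncomputable def R_11998101696 : Rec := ⟨nat_lit 11998101696, nat_lit 5,
  [⟨V6_11997819072, [(nat_lit 53, nat_lit 11998101696), (nat_lit 86, nat_lit 13071839424), (nat_lit 4, nat_lit 13071581376), (nat_lit 69, nat_lit 14145577152), (nat_lit 43, nat_lit 14145319104), (nat_lit 81, nat_lit 15219314880), (nat_lit 15, nat_lit 15219056832), (nat_lit 108, nat_lit 16293052608), (nat_lit 74, nat_lit 16292794560), (nat_lit 76, nat_lit 17366790336), (nat_lit 4, nat_lit 17366532288), (nat_lit 67, nat_lit 18440270016)]⟩],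
  [W_11998081088, W_11964534848, W_11964526784, W_11964280832]⟩
theorem C_11998101696 : chkRec R_11998101696 = true := by decide +kernel

noncomputable def R_11998105728 : Rec := ⟨nat_lit 11998105728, nat_lit 2,
  [⟨V6_11998085184, [(nat_lit 30, nat_lit 11998105728), (nat_lit 78, nat_lit 13071847488), (nat_lit 34, nat_lit 13071843456), (nat_lit 64, nat_lit 14145585216), (nat_lit 120, nat_lit 14145581184), (nat_lit 126, nat_lit 15219322944), (nat_lit 68, nat_lit 15219318912), (nat_lit 109, nat_lit 16293060672), (nat_lit 23, nat_lit 16293056640), (nat_lit 10, nat_lit 17366798400), (nat_lit 125, nat_lit 17366794368), (nat_lit 23, nat_lit 18440536128)]⟩],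
  [W_11998085120, W_11964534848]⟩
theorem C_11998105728 : chkRec R_11998105728 = true := by decide +kernel

noncomputable def R_11998347459 : Rec := ⟨nat_lit 11998347459, nat_lit 1,
  [⟨V6_11997819072, [(nat_lit 100, nat_lit 11998347459), (nat_lit 51, nat_lit 13072089282), (nat_lit 73, nat_lit 13072085187), (nat_lit 13, nat_lit 13071827139), (nat_lit 62, nat_lit 14145831105), (nat_lit 83, nat_lit 14145827010), (nat_lit 126, nat_lit 14145568962), (nat_lit 53, nat_lit 14145564867), (nat_lit 54, nat_lit 14145306819), (nat_lit 40, nat_lit 15219572928), (nat_lit 98, nat_lit 15219568833), (nat_lit 79, nat_lit 15219310785), (nat_lit 87, nat_lit 15219306690), (nat_lit 40, nat_lit 15219048642), (nat_lit 88, nat_lit 15219044547), (nat_lit 100, nat_lit 16293310656), (nat_lit 90, nat_lit 16293052608), (nat_lit 111, nat_lit 16293048513), (nat_lit 19, nat_lit 16292790465), (nat_lit 31, nat_lit 16292786370), (nat_lit 63, nat_lit 17366790336), (nat_lit 101, nat_lit 17366532288), (nat_lit 119, nat_lit 17366528193), (nat_lit 27, nat_lit 18440270016)]⟩],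
  [W_11981041856]⟩
theorem C_11998347459 : chkRec R_11998347459 = true := by decide +kernel

noncomputable def R_11998347522 : Rec := ⟨nat_lit 11998347522, nat_lit 1,
  [⟨V6_11997036801, [(nat_lit 80, nat_lit 11998347522), (nat_lit 17, nat_lit 13072089345), (nat_lit 123, nat_lit 13071827202), (nat_lit 41, nat_lit 14145569025), (nat_lit 68, nat_lit 14145306882), (nat_lit 40, nat_lit 15219048705), (nat_lit 17, nat_lit 15218786562), (nat_lit 26, nat_lit 16292528385), (nat_lit 112, nat_lit 16292266242), (nat_lit 8, nat_lit 17366008065), (nat_lit 3, nat_lit 17365745922), (nat_lit 28, nat_lit 18439487745)]⟩],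
  [W_11981045888]⟩
theorem C_11998347522 : chkRec R_11998347522 = true := by decide +kernel

noncomputable def R_11998351554 : Rec := ⟨nat_lit 11998351554, nat_lit 3,
  [⟨V6_11997819072, [(nat_lit 33, nat_lit 11998351554), (nat_lit 112, nat_lit 13072093377), (nat_lit 36, nat_lit 13072089282), (nat_lit 49, nat_lit 13071831234), (nat_lit 119, nat_lit 14145835200), (nat_lit 58, nat_lit 14145831105), (nat_lit 27, nat_lit 14145827010), (nat_lit 4, nat_lit 14145573057), (nat_lit 85, nat_lit 14145568962), (nat_lit 26, nat_lit 14145310914), (nat_lit 116, nat_lit 15219572928), (nat_lit 21, nat_lit 15219568833), (nat_lit 70, nat_lit 15219314880), (nat_lit 69, nat_lit 15219310785), (nat_lit 75, nat_lit 15219306690), (nat_lit 35, nat_lit 15219052737), (nat_lit 4, nat_lit 15219048642), (nat_lit 12, nat_lit 16293310656), (nat_lit 99, nat_lit 16293052608), (nat_lit 50, nat_lit 16293048513), (nat_lit 17, nat_lit 16292794560), (nat_lit 109, nat_lit 16292790465), (nat_lit 73, nat_lit 16292786370), (nat_lit 112, nat_lit 17366790336), (nat_lit 67, nat_lit 17366532288),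 (nat_lit 56, nat_lit 17366528193), (nat_lit 11, nat_lit 18440270016)]⟩],
  [W_11997302912, W_11997040832, W_11981041856]⟩
theorem C_11998351554 : chkRec R_11998351554 = true := by decide +kernel

noncomputable def R_11998351617 : Rec := ⟨nat_lit 11998351617, nat_lit 4,
  [⟨V6_11998085184, [(nat_lit 64, nat_lit 11998351617), (nat_lit 15, nat_lit 13072093440), (nat_lit 126, nat_lit 13072093377), (nat_lit 114, nat_lit 13072089345), (nat_lit 33, nat_lit 13071831297), (nat_lit 95, nat_lit 14145835200), (nat_lit 110, nat_lit 14145835137), (nat_lit 125, nat_lit 14145831168), (nat_lit 77, nat_lit 14145831105), (nat_lit 20, nat_lit 14145573120), (nat_lit 66, nat_lit 14145573057), (nat_lit 21, nat_lit 14145569025), (nat_lit 23, nat_lit 15219576960), (nat_lit 105, nat_lit 15219576897), (nat_lit 96, nat_lit 15219572928), (nat_lit 28, nat_lit 15219572865), (nat_lit 85, nat_lit 15219314880), (nat_lit 47, nat_lit 15219314817), (nat_lit 117, nat_lit 15219310848), (nat_lit 56, nat_lit 15219310785), (nat_lit 87, nat_lit 16293318720), (nat_lit 97, nat_lit 16293314688),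 (nat_lit 77, nat_lit 16293314625), (nat_lit 115, nat_lit 16293056640), (nat_lit 88, nat_lit 16293056577), (nat_lit 28, nat_lit 16293052608), (nat_lit 16, nat_lit 16293052545), (nat_lit 17, nat_lit 17367056448), (nat_lit 43, nat_lit 17366798400), (nat_lit 9, nat_lit 17366794368), (nat_lit 115, nat_lit 17366794305), (nat_lit 118, nat_lit 18440536128)]⟩],
  [W_11997564992, W_11997040832]⟩
theorem C_11998351617 : chkRec R_11998351617 = true := by decide +kernel

noncomputable def R_11998351680 : Rec := ⟨nat_lit 11998351680, nat_lit 3,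
  [⟨V6_11981574144, [(nat_lit 82, nat_lit 11998351680), (nat_lit 101, nat_lit 13072093440), (nat_lit 35, nat_lit 13055316288), (nat_lit 81, nat_lit 14145835200), (nat_lit 30, nat_lit 14129058048), (nat_lit 91, nat_lit 15219576960), (nat_lit 77, nat_lit 15202799808), (nat_lit 38, nat_lit 16293318720), (nat_lit 13, nat_lit 16276541568), (nat_lit 38, nat_lit 17367060480), (nat_lit 67, nat_lit 17350283328), (nat_lit 112, nat_lit 18424025088)]⟩],
  [W_11997564992]⟩
theorem C_11998351680 : chkRec R_11998351680 = true := by decide +kernel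

noncomputable def R_11998355586 : Rec := ⟨nat_lit 11998355586, nat_lit 1,
  [⟨V6_11998077057, [(nat_lit 60, nat_lit 11998355586), (nat_lit 60, nat_lit 13072097409), (nat_lit 69, nat_lit 13072093314), (nat_lit 4, nat_lit 13071835266), (nat_lit 100, nat_lit 14145835137), (nat_lit 91, nat_lit 14145831042), (nat_lit 76, nat_lit 14145577089), (nat_lit 63, nat_lit 14145572994), (nat_lit 34, nat_lit 15219572865), (nat_lit 91, nat_lit 15219568770), (nat_lit 12, nat_lit 15219314817), (nat_lit 70, nat_lit 15219310722), (nat_lit 104, nat_lit 16293310593), (nat_lit 89, nat_lit 16293306498), (nat_lit 28, nat_lit 16293052545), (nat_lit 45, nat_lit 16293048450), (nat_lit 60, nat_lit 17367048321), (nat_lit 70, nat_lit 17366790273), (nat_lit 16, nat_lit 17366786178), (nat_lit 28, nat_lit 18440528001)]⟩],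
  [W_11997560960]⟩
theorem C_11998355586 : chkRec R_11998355586 = true := by decide +kernel

noncomputable def R_11998355649 : Rec := ⟨nat_lit 11998355649, nat_lit 6,
  [⟨V6_11998081089, [(nat_lit 8, nat_lit 11998355649), (nat_lit 13, nat_lit 13072097409), (nat_lit 76, nat_lit 13072093377), (nat_lit 56, nat_lit 13071835329), (nat_lit 2, nat_lit 14145839169), (nat_lit 64, nat_lit 14145835137), (nat_lit 32, nat_lit 14145831105), (nat_lit 8, nat_lit 14145577089), (nat_lit 25, nat_lit 14145573057), (nat_lit 7, nat_lit 15219576897), (nat_lit 37, nat_lit 15219572865), (nat_lit 51, nat_lit 15219568833), (nat_lit 124, nat_lit 15219318849), (nat_lit 28, nat_lit 15219314817), (nat_lit 113, nat_lit 15219310785), (nat_lit 53, nat_lit 16293314625), (nat_lit 31, nat_lit 16293310593), (nat_lit 124, nat_lit 16293056577), (nat_lit 23, nat_lit 16293052545), (nat_lit 69, nat_lit 16293048513), (nat_lit 89, nat_lit 17367052353), (nat_lit 1, nat_lit 17366794305), (nat_lit 121, nat_lit 17366790273), (nat_lit 106, nat_lit 18440532033)]⟩,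
   ⟨V6_11997306945, [(nat_lit 73, nat_lit 11998355649), (nat_lit 114, nat_lit 13072097409), (nat_lit 71, nat_lit 13071835329), (nat_lit 39, nat_lit 14145839169), (nat_lit 107, nat_lit 14145577089), (nat_lit 84, nat_lit 14145315009), (nat_lit 76, nat_lit 15219318849), (nat_lit 97, nat_lit 15219056769), (nat_lit 67, nat_lit 15218794689), (nat_lit 17, nat_lit 16292798529), (nat_lit 6, nat_lit 16292536449), (nat_lit 126, nat_lit 16292274369), (nat_lit 105, nat_lit 17366278209), (nat_lit 48, nat_lit 17366016129), (nat_lit 32, nat_lit 18439757889)]⟩],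
  [W_11998081088, W_11997556928, W_11997298880, W_11981566016, W_11981041856]⟩
theorem C_11998355649 : chkRec R_11998355649 = true := by decide +kernel

noncomputable def R_11998355712 : Rec := ⟨nat_lit 11998355712, nat_lit 5,
  [⟨V6_11998347264, [(nat_lit 113, nat_lit 11998355712), (nat_lit 3, nat_lit 13072097472), (nat_lit 91, nat_lit 13072093440), (nat_lit 37, nat_lit 14145839232), (nat_lit 113, nat_lit 14145835200), (nat_lit 74, nat_lit 14145831168), (nat_lit 106, nat_lit 15219580992), (nat_lit 67, nat_lit 15219576960), (nat_lit 76, nat_lit 15219572928), (nat_lit 71, nat_lit 16293322752), (nat_lit 123, nat_lit 16293318720), (nat_lit 58, nat_lit 16293314688), (nat_lit 87, nat_lit 17367060480), (nat_lit 95, nat_lit 17367056448), (nat_lit 90, nat_lit 18440798208)]⟩,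
   ⟨V6_11981574144, [(nat_lit 113, nat_lit 11998355712), (nat_lit 107, nat_lit 13072097472), (nat_lit 39, nat_lit 13072093440), (nat_lit 62, nat_lit 13055320320), (nat_lit 10, nat_lit 14145839232), (nat_lit 40, nat_lit 14145835200), (nat_lit 88, nat_lit 14129062080), (nat_lit 38, nat_lit 14129058048), (nat_lit 64, nat_lit 15219580992), (nat_lit 21, nat_lit 15219576960), (nat_lit 53, nat_lit 15202803840), (nat_lit 32, nat_lit 15202799808), (nat_lit 109, nat_lit 16293322752), (nat_lit 13, nat_lit 16293318720), (nat_lit 81, nat_lit 16276545600), (nat_lit 116, nat_lit 16276541568), (nat_lit 23, nat_lit 17367060480), (nat_lit 33, nat_lit 17350287360), (nat_lit 102, nat_lit 17350283328), (nat_lit 50, nat_lit 18424025088)]⟩],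
  [W_11997564992, W_11980783808]⟩
theorem C_11998355712 : chkRec R_11998355712 = true := by decide +kernel

noncomputable def R_11998359681 : Rec := ⟨nat_lit 11998359681, nat_lit 4,
  [⟨V6_11998339137, [(nat_lit 16, nat_lit 11998359681), (nat_lit 58, nat_lit 13072101441), (nat_lit 3, nat_lit 13072097409), (nat_lit 13, nat_lit 14145839169), (nat_lit 19, nat_lit 14145835137), (nat_lit 84, nat_lit 15219576897), (nat_lit 58, nat_lit 15219572865), (nat_lit 77, nat_lit 16293314625), (nat_lit 88, nat_lit 16293310593), (nat_lit 11, nat_lit 17367052353), (nat_lit 52, nat_lit 17367048321), (nat_lit 51, nat_lit 18440790081)]⟩,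
   ⟨V6_11998077057, [(nat_lit 7, nat_lit 11998359681), (nat_lit 108, nat_lit 13072097409), (nat_lit 12, nat_lit 13071839361), (nat_lit 75, nat_lit 14145835137), (nat_lit 85, nat_lit 14145577089), (nat_lit 39, nat_lit 15219572865), (nat_lit 34, nat_lit 15219314817), (nat_lit 125, nat_lit 16293310593), (nat_lit 79, nat_lit 16293052545), (nat_lit 58, nat_lit 17367048321), (nat_lit 123, nat_lit 17366790273), (nat_lit 11, nat_lit 18440528001)]⟩],
  [W_11997564992, W_11997560960]⟩
theorem C_11998359681 : chkRec R_11998359681 = true := by decide +kernel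

noncomputable def R_11998359744 : Rec := ⟨nat_lit 11998359744, nat_lit 7,
  [⟨V6_11998347264, [(nat_lit 69, nat_lit 11998359744), (nat_lit 117, nat_lit 13072101504), (nat_lit 15, nat_lit 13072097472), (nat_lit 50, nat_lit 14145843264), (nat_lit 12, nat_lit 14145839232), (nat_lit 19, nat_lit 14145835200), (nat_lit 104, nat_lit 15219585024), (nat_lit 29, nat_lit 15219580992), (nat_lit 45, nat_lit 15219576960), (nat_lit 14, nat_lit 15219572928), (nat_lit 62, nat_lit 16293322752), (nat_lit 22, nat_lit 16293318720), (nat_lit 49, nat_lit 16293314688), (nat_lit 45, nat_lit 17367060480), (nat_lit 101, nat_lit 17367056448), (nat_lit 125, nat_lit 18440798208)]⟩,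
   ⟨V6_11997573120, [(nat_lit 123, nat_lit 11998359744), (nat_lit 66, nat_lit 13072101504), (nat_lit 12, nat_lit 13071839424), (nat_lit 46, nat_lit 14145843264), (nat_lit 44, nat_lit 14145581184), (nat_lit 63, nat_lit 14145319104), (nat_lit 113, nat_lit 15219585024), (nat_lit 84, nat_lit 15219322944), (nat_lit 23, nat_lit 15219060864), (nat_lit 102, nat_lit 15218798784), (nat_lit 83, nat_lit 16293064704), (nat_lit 98, nat_lit 16292802624), (nat_lit 68, nat_lit 16292540544), (nat_lit 14, nat_lit 17366544384), (nat_lit 25, nat_lit 17366282304), (nat_lit 100, nat_lit 18440024064)]⟩],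
  [W_11997556928, W_11981570048, W_11981566016, W_11981041856, W_11980783808]⟩
theorem C_11998359744 : chkRec R_11998359744 = true := by decide +kernel

noncomputable def R_11998363713 : Rec := ⟨nat_lit 11998363713, nat_lit 2,
  [⟨V6_11998339137, [(nat_lit 47, nat_lit 11998363713), (nat_lit 103, nat_lit 13072101441), (nat_lit 116, nat_lit 14145839169), (nat_lit 93, nat_lit 15219576897), (nat_lit 42, nat_lit 16293314625), (nat_lit 54, nat_lit 17367052353), (nat_lit 87, nat_lit 18440790081)]⟩],
  [W_11998081088]⟩
theorem C_11998363713 : chkRec R_11998363713 = true := by decide +kernel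

noncomputable def R_11998363776 : Rec := ⟨nat_lit 11998363776, nat_lit 4,
  [⟨V6_11998343232, [(nat_lit 18, nat_lit 11998363776), (nat_lit 3, nat_lit 13072105536), (nat_lit 114, nat_lit 13072101504), (nat_lit 112, nat_lit 14145843264), (nat_lit 53, nat_lit 14145839232), (nat_lit 95, nat_lit 15219580992), (nat_lit 62, nat_lit 15219576960), (nat_lit 92, nat_lit 16293318720), (nat_lit 108, nat_lit 16293314688), (nat_lit 21, nat_lit 17367056448), (nat_lit 20, nat_lit 17367052416), (nat_lit 52, nat_lit 18440794176)]⟩],
  [W_11998343168, W_11981570048, W_11981561984]⟩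
theorem C_11998363776 : chkRec R_11998363776 = true := by decide +kernel

noncomputable def R_11998367808 : Rec := ⟨nat_lit 11998367808, nat_lit 2,
  [⟨V6_11998343232, [(nat_lit 84, nat_lit 11998367808), (nat_lit 88, nat_lit 13072105536), (nat_lit 11, nat_lit 14145843264), (nat_lit 93, nat_lit 15219580992), (nat_lit 65, nat_lit 16293318720), (nat_lit 2, nat_lit 17367056448), (nat_lit 119, nat_lit 18440794176)]⟩],
  [W_11981570048]⟩
theorem C_11998367808 : chkRec R_11998367808 = true := by decide +kernel

noncomputable def R_11998605507 : Rec := ⟨nat_lit 11998605507, nat_lit 1,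
  [⟨V6_11997819072, [(nat_lit 40, nat_lit 11998605507), (nat_lit 74, nat_lit 13072347330), (nat_lit 106, nat_lit 13072085187), (nat_lit 126, nat_lit 14146089153), (nat_lit 81, nat_lit 14145827010), (nat_lit 30, nat_lit 14145564867), (nat_lit 21, nat_lit 15219830976), (nat_lit 112, nat_lit 15219568833), (nat_lit 53, nat_lit 15219306690), (nat_lit 74, nat_lit 15219044547), (nat_lit 47, nat_lit 16293310656), (nat_lit 44, nat_lit 16293048513), (nat_lit 113, nat_lit 16292786370), (nat_lit 80, nat_lit 17366790336), (nat_lit 111, nat_lit 17366528193), (nat_lit 13, nat_lit 18440270016)]⟩],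
  [W_11997556928]⟩
theorem C_11998605507 : chkRec R_11998605507 = true := by decide +kernel

noncomputable def R_11998609665 : Rec := ⟨nat_lit 11998609665, nat_lit 1,
  [⟨V6_11997036801, [(nat_lit 28, nat_lit 11998609665), (nat_lit 15, nat_lit 13072089345), (nat_lit 83, nat_lit 14145569025), (nat_lit 30, nat_lit 15219048705), (nat_lit 13, nat_lit 16292528385), (nat_lit 79, nat_lit 17366008065), (nat_lit 7, nat_lit 18439487745)]⟩],
  [W_11997823040]⟩
theorem C_11998609665 : chkRec R_11998609665 = true := by decide +kernel

noncomputable def R_11998613634 : Rec := ⟨nat_lit 11998613634, nat_lit 1,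
  [⟨V6_11998077057, [(nat_lit 63, nat_lit 11998613634), (nat_lit 82, nat_lit 13072355457), (nat_lit 32, nat_lit 13072351362), (nat_lit 124, nat_lit 13072093314), (nat_lit 79, nat_lit 14146093185), (nat_lit 42, nat_lit 14146089090), (nat_lit 110, nat_lit 14145835137), (nat_lit 69, nat_lit 14145831042), (nat_lit 74, nat_lit 14145572994), (nat_lit 9, nat_lit 15219830913), (nat_lit 40, nat_lit 15219826818), (nat_lit 21, nat_lit 15219572865), (nat_lit 92, nat_lit 15219568770), (nat_lit 51, nat_lit 15219314817), (nat_lit 31, nat_lit 15219310722), (nat_lit 55, nat_lit 16293568641), (nat_lit 123, nat_lit 16293310593), (nat_lit 125, nat_lit 16293306498), (nat_lit 113, nat_lit 16293052545), (nat_lit 81, nat_lit 16293048450), (nat_lit 7, nat_lit 17367048321), (nat_lit 38, nat_lit 17366790273), (nat_lit 126, nat_lit 17366786178), (nat_lit 3, nat_lit 18440528001)]⟩],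
  [W_11997302912]⟩
theorem C_11998613634 : chkRec R_11998613634 = true := by decide +kernel

noncomputable def R_11998613697 : Rec := ⟨nat_lit 11998613697, nat_lit 2,
  [⟨V6_11998081089, [(nat_lit 22, nat_lit 11998613697), (nat_lit 81, nat_lit 13072355457), (nat_lit 98, nat_lit 13072351425), (nat_lit 89, nat_lit 13072093377), (nat_lit 71, nat_lit 14146097217), (nat_lit 61, nat_lit 14146093185), (nat_lit 14, nat_lit 14146089153), (nat_lit 56, nat_lit 14145835137), (nat_lit 99, nat_lit 14145831105), (nat_lit 122, nat_lit 14145573057), (nat_lit 17, nat_lit 15219834945), (nat_lit 60, nat_lit 15219830913), (nat_lit 75, nat_lit 15219576897), (nat_lit 13, nat_lit 15219572865), (nat_lit 4, nat_lit 15219568833), (nat_lit 86, nat_lit 15219314817), (nat_lit 43, nat_lit 15219310785), (nat_lit 49, nat_lit 16293572673), (nat_lit 73, nat_lit 16293314625), (nat_lit 58, nat_lit 16293310593), (nat_lit 96, nat_lit 16293056577), (nat_lit 76, nat_lit 16293052545), (nat_lit 44, nat_lit 16293048513), (nat_lit 66, nat_lit 17367052353), (nat_lit 71, nat_lit 17366794305),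 (nat_lit 84, nat_lit 17366790273), (nat_lit 44, nat_lit 18440532033)]⟩],
  [W_11997556928, W_11997040832]⟩
theorem C_11998613697 : chkRec R_11998613697 = true := by decide +kernel

noncomputable def R_11998613760 : Rec := ⟨nat_lit 11998613760, nat_lit 2,
  [⟨V6_11998347264, [(nat_lit 54, nat_lit 11998613760), (nat_lit 39, nat_lit 13072355520), (nat_lit 100, nat_lit 13072351488), (nat_lit 122, nat_lit 13072093440), (nat_lit 120, nat_lit 14146097280), (nat_lit 101, nat_lit 14146093248), (nat_lit 40, nat_lit 14145835200), (nat_lit 115, nat_lit 14145831168), (nat_lit 78, nat_lit 15219839040), (nat_lit 37, nat_lit 15219835008), (nat_lit 81, nat_lit 15219576960), (nat_lit 1, nat_lit 15219572928), (nat_lit 51, nat_lit 16293580800), (nat_lit 90, nat_lit 16293576768), (nat_lit 105, nat_lit 16293318720), (nat_lit 63, nat_lit 16293314688), (nat_lit 21, nat_lit 17367318528), (nat_lit 105, nat_lit 17367060480), (nat_lit 73, nat_lit 17367056448), (nat_lit 39, nat_lit 18440798208)]⟩],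
  [W_11997302912, W_11997040832]⟩
theorem C_11998613760 : chkRec R_11998613760 = true := by decide +kernel

noncomputable def R_11998617729 : Rec := ⟨nat_lit 11998617729, nat_lit 1,
  [⟨V6_11997306945, [(nat_lit 116, nat_lit 11998617729), (nat_lit 60, nat_lit 13072359489), (nat_lit 40, nat_lit 13072097409), (nat_lit 34, nat_lit 14145839169), (nat_lit 61, nat_lit 14145577089), (nat_lit 28, nat_lit 15219318849), (nat_lit 101, nat_lit 15219056769), (nat_lit 51, nat_lit 16292798529), (nat_lit 36, nat_lit 16292536449), (nat_lit 12, nat_lit 17366278209), (nat_lit 65, nat_lit 17366016129), (nat_lit 23, nat_lit 18439757889)]⟩],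
  [W_11998081088]⟩
theorem C_11998617729 : chkRec R_11998617729 = true := by decide +kernel

noncomputable def R_11998617792 : Rec := ⟨nat_lit 11998617792, nat_lit 3,
  [⟨V6_11997819072, [(nat_lit 110, nat_lit 11998617792), (nat_lit 65, nat_lit 13072355520), (nat_lit 51, nat_lit 13072097472), (nat_lit 21, nat_lit 14146093248), (nat_lit 126, nat_lit 14145835200), (nat_lit 15, nat_lit 14145577152), (nat_lit 22, nat_lit 15219830976), (nat_lit 118, nat_lit 15219572928), (nat_lit 33, nat_lit 15219314880), (nat_lit 120, nat_lit 15219056832), (nat_lit 82, nat_lit 16293310656), (nat_lit 66, nat_lit 16293052608), (nat_lit 53, nat_lit 16292794560), (nat_lit 67, nat_lit 17366790336), (nat_lit 121, nat_lit 17366532288), (nat_lit 32, nat_lit 18440270016)]⟩],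
  [W_11997564992]⟩
theorem C_11998617792 : chkRec R_11998617792 = true := by decide +kernel

noncomputable def R_11998621761 : Rec := ⟨nat_lit 11998621761, nat_lit 2,
  [⟨V6_11998339137, [(nat_lit 63, nat_lit 11998621761), (nat_lit 97, nat_lit 13072359489), (nat_lit 43, nat_lit 13072101441), (nat_lit 115, nat_lit 14146097217), (nat_lit 84, nat_lit 14145839169), (nat_lit 2, nat_lit 15219834945), (nat_lit 126, nat_lit 15219576897), (nat_lit 106, nat_lit 16293572673), (nat_lit 50, nat_lit 16293314625), (nat_lit 26, nat_lit 17367310401), (nat_lit 17, nat_lit 17367052353), (nat_lit 88, nat_lit 18440790081)]⟩],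
  [W_11998081088]⟩
theorem C_11998621761 : chkRec R_11998621761 = true := by decide +kernel

noncomputable def R_11998621824 : Rec := ⟨nat_lit 11998621824, nat_lit 2,
  [⟨V6_11998605312, [(nat_lit 68, nat_lit 11998621824), (nat_lit 97, nat_lit 13072363584), (nat_lit 106, nat_lit 13072359552), (nat_lit 6, nat_lit 14146105344), (nat_lit 17, nat_lit 14146101312), (nat_lit 90, nat_lit 14146097280), (nat_lit 123, nat_lit 15219843072), (nat_lit 101, nat_lit 15219839040), (nat_lit 46, nat_lit 15219835008), (nat_lit 8, nat_lit 16293580800), (nat_lit 91, nat_lit 16293576768), (nat_lit 48, nat_lit 16293572736), (nat_lit 119, nat_lit 17367318528), (nat_lit 24, nat_lit 17367314496), (nat_lit 96, nat_lit 18441056256)]⟩],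
  [W_11998081088]⟩
theorem C_11998621824 : chkRec R_11998621824 = true := by decide +kernel

noncomputable def R_11998625856 : Rec := ⟨nat_lit 11998625856, nat_lit 1,
  [⟨V6_11998605312, [(nat_lit 15, nat_lit 11998625856), (nat_lit 90, nat_lit 13072367616), (nat_lit 32, nat_lit 13072363584), (nat_lit 62, nat_lit 14146105344), (nat_lit 63, nat_lit 14146101312), (nat_lit 11, nat_lit 15219843072), (nat_lit 104, nat_lit 15219839040), (nat_lit 56, nat_lit 16293580800), (nat_lit 81, nat_lit 16293576768), (nat_lit 32, nat_lit 17367318528), (nat_lit 22, nat_lit 17367314496), (nat_lit 100, nat_lit 18441056256)]⟩],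
  [W_11998597184]⟩
theorem C_11998625856 : chkRec R_11998625856 = true := by decide +kernel

noncomputable def R_11998629888 : Rec := ⟨nat_lit 11998629888, nat_lit 1,
  [⟨V6_11998605312, [(nat_lit 94, nat_lit 11998629888), (nat_lit 38, nat_lit 13072367616), (nat_lit 100, nat_lit 14146105344), (nat_lit 95, nat_lit 15219843072), (nat_lit 106, nat_lit 16293580800), (nat_lit 99, nat_lit 17367318528), (nat_lit 112, nat_lit 18441056256)]⟩],
  [W_11998343168]⟩
theorem C_11998629888 : chkRec R_11998629888 = true := by decide +kernel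

noncomputable def R_12987163014 : Rec := ⟨nat_lit 12987163014, nat_lit 1,
  [⟨V6_6544712070, [(nat_lit 78, nat_lit 12987163014)]⟩],
  [W_11913421184]⟩
theorem C_12987163014 : chkRec R_12987163014 = true := by decide +kernel

noncomputable def R_13020717444 : Rec := ⟨nat_lit 13020717444, nat_lit 1,
  [⟨V6_10839679236, [(nat_lit 121, nat_lit 13020717444), (nat_lit 123, nat_lit 14094459204), (nat_lit 110, nat_lit 14077682052), (nat_lit 1, nat_lit 15168200964), (nat_lit 27, nat_lit 15151423812), (nat_lit 98, nat_lit 15134646660), (nat_lit 62, nat_lit 16225165572), (nat_lit 82, nat_lit 16208388420), (nat_lit 37, nat_lit 17282130180)]⟩],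
  [W_11913421184]⟩
theorem C_13020717444 : chkRec R_13020717444 = true := by decide +kernel

noncomputable def R_13020979524 : Rec := ⟨nat_lit 13020979524, nat_lit 1,
  [⟨V6_9799753986, [(nat_lit 45, nat_lit 13020979524), (nat_lit 113, nat_lit 14094721347), (nat_lit 67, nat_lit 14094721284), (nat_lit 26, nat_lit 15168463170), (nat_lit 39, nat_lit 15168463107), (nat_lit 75, nat_lit 16242204930)]⟩],
  [W_13003940096]⟩
theorem C_13020979524 : chkRec R_13020979524 = true := by decide +kernel

end Crest.Agent.R187.SN.Top
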