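import Crest.Agent.R187.SN.Top
import Crest.Agent.R187.SN.TD.X6_0
import Crest.Agent.R187.SN.TD.W7_0

/-!
# Row 187, PLAN S, generated certificate data (mod 127): rank records and checks, chunk 1

Written by a C++ program (helper824).  The tables are only data: every property is checked by
the kernel.
-/

set_option autoImplicit false
set_option maxRecDepth 100000
set_option Elab.async false

namespace Crest.Agent.R187.SN.Top

noncomputable def R_13020979587 : Rec := ⟨nat_lit 13020979587, nat_lit 1,
  [⟨V6_10856456451, [(nat_lit 114, nat_lit 13020979587), (nat_lit 124, nat_lit 14094721347), (nat_lit 20, nat_lit 14094459267), (nat_lit 20, nat_lit 14077944195), (nat_lit 90, nat_lit 15168463107), (nat_lit 98, nat_lit 15168201027), (nat_lit 39, nat_lit 15151685955), (nat_lit 99, nat_lit 15151423875), (nat_lit 39, nat_lit 16241942787), (nat_lit 121, nat_lit 16225427715), (nat_lit 37, nat_lit 16225165635), (nat_lit 5, nat_lit 17298907395)]⟩],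
  [W_10873233728]⟩
theorem C_13020979587 : chkRec R_13020979587 = true := by decide +kernel

noncomputable def R_13021241604 : Rec := ⟨nat_lit 13021241604, nat_lit 2,
  [⟨V6_10873757952, [(nat_lit 96, nat_lit 13021241604), (nat_lit 43, nat_lit 14094983427), (nat_lit 50, nat_lit 15168725250), (nat_lit 47, nat_lit 16242467073), (nat_lit 9, nat_lit 17316208896)]⟩],
  [W_13020971264, W_13020713216]⟩
theorem C_13021241604 : chkRec R_13021241604 = true := by decide +kernel

noncomputable def R_13021241667 : Rec := ⟨nat_lit 13021241667, nat_lit 2,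
  [⟨V6_9800016192, [(nat_lit 20, nat_lit 13021241667), (nat_lit 83, nat_lit 14094983490), (nat_lit 33, nat_lit 15168725313), (nat_lit 14, nat_lit 16242467136)]⟩,
   ⟨V6_9799753986, [(nat_lit 46, nat_lit 13021241667), (nat_lit 41, nat_lit 14094983490), (nat_lit 83, nat_lit 14094983427), (nat_lit 26, nat_lit 14094721347), (nat_lit 18, nat_lit 15168725250), (nat_lit 21, nat_lit 15168463170), (nat_lit 56, nat_lit 15168463107), (nat_lit 46, nat_lit 16242204930)]⟩],
  [W_13020717248]⟩
theorem C_13021241667 : chkRec R_13021241667 = true := by decide +kernel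

noncomputable def R_13021241730 : Rec := ⟨nat_lit 13021241730, nat_lit 3,
  [⟨V6_10873233792, [(nat_lit 101, nat_lit 13021241730), (nat_lit 114, nat_lit 14094983553), (nat_lit 123, nat_lit 14094721410), (nat_lit 76, nat_lit 15168725376), (nat_lit 71, nat_lit 15168463233), (nat_lit 73, nat_lit 15168201090), (nat_lit 91, nat_lit 16242205056), (nat_lit 121, nat_lit 16241942913), (nat_lit 19, nat_lit 17315684736)]⟩],
  [W_13020979328, W_9800016128]⟩
theorem C_13021241730 : chkRec R_13021241730 = true := by decide +kernel

noncomputable def R_13021245699 : Rec := ⟨nat_lit 13021245699, nat_lit 2,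
  [⟨V6_10873761984, [(nat_lit 57, nat_lit 13021245699), (nat_lit 84, nat_lit 14094987522), (nat_lit 76, nat_lit 14094987459), (nat_lit 18, nat_lit 15168729345), (nat_lit 107, nat_lit 15168729282), (nat_lit 71, nat_lit 16242471168), (nat_lit 36, nat_lit 16242471105), (nat_lit 16, nat_lit 17316212928)]⟩],
  [W_13020971264, W_11947233536]⟩
theorem C_13021245699 : chkRec R_13021245699 = true := by decide +kernel

noncomputable def R_13021245762 : Rec := ⟨nat_lit 13021245762, nat_lit 2,
  [⟨V6_9800016192, [(nat_lit 118, nat_lit 13021245762), (nat_lit 66, nat_lit 14094987585), (nat_lit 79, nat_lit 14094983490), (nat_lit 5, nat_lit 15168729408), (nat_lit 63, nat_lit 15168725313), (nat_lit 1, nat_lit 16242467136)]⟩,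
   ⟨V6_9799753986, [(nat_lit 124, nat_lit 13021245762), (nat_lit 18, nat_lit 14094987522), (nat_lit 114, nat_lit 14094983490), (nat_lit 64, nat_lit 14094725442), (nat_lit 56, nat_lit 15168725250), (nat_lit 108, nat_lit 15168467202), (nat_lit 17, nat_lit 15168463170), (nat_lit 67, nat_lit 16242204930)]⟩],
  [W_13021237376]⟩
theorem C_13021245762 : chkRec R_13021245762 = true := by decide +kernel

noncomputable def R_13021245825 : Rec := ⟨nat_lit 13021245825, nat_lit 2,
  [⟨V6_9800016192, [(nat_lit 46, nat_lit 13021245825), (nat_lit 111, nat_lit 14094987648), (nat_lit 108, nat_lit 14094987585), (nat_lit 68, nat_lit 14094983553), (nat_lit 80, nat_lit 15168729408), (nat_lit 112, nat_lit 15168725376), (nat_lit 119, nat_lit 15168725313), (nat_lit 100, nat_lit 16242467136)]⟩,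
   ⟨V6_8726274432, [(nat_lit 28, nat_lit 13021245825), (nat_lit 35, nat_lit 14094987648), (nat_lit 113, nat_lit 14094983553), (nat_lit 81, nat_lit 15168725376)]⟩],
  [W_13021241408]⟩
theorem C_13021245825 : chkRec R_13021245825 = true := by decide +kernel

noncomputable def R_13021249731 : Rec := ⟨nat_lit 13021249731, nat_lit 1,
  [⟨V6_9800024256, [(nat_lit 2, nat_lit 13021249731), (nat_lit 21, nat_lit 14094991554), (nat_lit 16, nat_lit 15168733377), (nat_lit 103, nat_lit 16242475200)]⟩],
  [W_13021233344]⟩
theorem C_13021249731 : chkRec R_13021249731 = true := by decide +kernel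

noncomputable def R_13021249794 : Rec := ⟨nat_lit 13021249794, nat_lit 4,
  [⟨V6_11947495554, [(nat_lit 100, nat_lit 13021249794), (nat_lit 30, nat_lit 14094991554), (nat_lit 66, nat_lit 14094987522), (nat_lit 48, nat_lit 15168733314), (nat_lit 100, nat_lit 15168729282), (nat_lit 50, nat_lit 15168725250), (nat_lit 92, nat_lit 16242471042), (nat_lit 59, nat_lit 16242467010), (nat_lit 6, nat_lit 16242462978), (nat_lit 83, nat_lit 17316208770), (nat_lit 34, nat_lit 17316204738), (nat_lit 15, nat_lit 18389946498)]⟩,
   ⟨V6_8726282496, [(nat_lit 26, nat_lit 13021249794), (nat_lit 123, nat_lit 14094991617), (nat_lit 106, nat_lit 15168733440)]⟩],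
  [W_13021237376, W_8726282432]⟩
theorem C_13021249794 : chkRec R_13021249794 = true := by decide +kernel

noncomputable def R_13021249857 : Rec := ⟨nat_lit 13021249857, nat_lit 3,
  [⟨V6_10873753857, [(nat_lit 81, nat_lit 13021249857), (nat_lit 88, nat_lit 14094991617), (nat_lit 84, nat_lit 14094987585), (nat_lit 34, nat_lit 15168729345), (nat_lit 10, nat_lit 15168725313), (nat_lit 93, nat_lit 16242467073), (nat_lit 60, nat_lit 16242463041), (nat_lit 109, nat_lit 17316204801)]⟩],
  [W_13021237376]⟩
theorem C_13021249857 : chkRec R_13021249857 = true := by decide +kernel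

noncomputable def R_13021249920 : Rec := ⟨nat_lit 13021249920, nat_lit 4,
  [⟨V6_13021249536, [(nat_lit 10, nat_lit 13021249920), (nat_lit 84, nat_lit 14094991680), (nat_lit 125, nat_lit 15168733440), (nat_lit 22, nat_lit 16242475200), (nat_lit 89, nat_lit 17316216960), (nat_lit 87, nat_lit 18389958720), (nat_lit 38, nat_lit 19463700480)]⟩],
  [W_13021241408, W_8726282432]⟩
theorem C_13021249920 : chkRec R_13021249920 = true := by decide +kernel

noncomputable def R_13037494596 : Rec := ⟨nat_lit 13037494596, nat_lit 1,
  [⟨V6_10839679236, [(nat_lit 69, nat_lit 13037494596), (nat_lit 43, nat_lit 14111236356), (nat_lit 36, nat_lit 14094459204), (nat_lit 16, nat_lit 15168200964), (nat_lit 106, nat_lit 15151423812), (nat_lit 92, nat_lit 16225165572), (nat_lit 81, nat_lit 16208388420), (nat_lit 93, nat_lit 17282130180)]⟩],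
  [W_11963748608]⟩
theorem C_13037494596 : chkRec R_13037494596 = true := by decide +kernel

noncomputable def R_13037494659 : Rec := ⟨nat_lit 13037494659, nat_lit 2,
  [⟨V6_10856456451, [(nat_lit 110, nat_lit 13037494659), (nat_lit 105, nat_lit 14111236419), (nat_lit 52, nat_lit 14094459267), (nat_lit 83, nat_lit 15184978179), (nat_lit 88, nat_lit 15168201027), (nat_lit 58, nat_lit 15151423875), (nat_lit 95, nat_lit 16241942787), (nat_lit 42, nat_lit 16225165635), (nat_lit 12, nat_lit 17298907395)]⟩,
   ⟨V6_9765937539, [(nat_lit 18, nat_lit 13037494659), (nat_lit 40, nat_lit 14094459267), (nat_lit 29, nat_lit 15151423875), (nat_lit 14, nat_lit 16208388483)]⟩],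
  [W_13020717248]⟩
theorem C_13037494659 : chkRec R_13037494659 = true := by decide +kernel

noncomputable def R_13037752644 : Rec := ⟨nat_lit 13037752644, nat_lit 1,
  [⟨V6_13037228352, [(nat_lit 116, nat_lit 13037752644), (nat_lit 124, nat_lit 14111494467), (nat_lit 85, nat_lit 14111232324), (nat_lit 3, nat_lit 15185236290), (nat_lit 9, nat_lit 15184974147), (nat_lit 59, nat_lit 15184712004), (nat_lit 74, nat_lit 16258978113), (nat_lit 94, nat_lit 16258715970), (nat_lit 56, nat_lit 16258453827), (nat_lit 18, nat_lit 17332719936), (nat_lit 52, nat_lit 17332457793), (nat_lit 119, nat_lit 17332195650), (nat_lit 83, nat_lit 18406199616), (nat_lit 18, nat_lit 18405937473), (nat_lit 25, nat_lit 19479679296)]⟩],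
  [W_9816527168]⟩
theorem C_13037752644 : chkRec R_13037752644 = true := by decide +kernel

noncomputable def R_13037756676 : Rec := ⟨nat_lit 13037756676, nat_lit 1,
  [⟨V6_10873225476, [(nat_lit 74, nat_lit 13037756676), (nat_lit 50, nat_lit 14111494404), (nat_lit 23, nat_lit 14111236356), (nat_lit 109, nat_lit 14094721284), (nat_lit 72, nat_lit 15185232132), (nat_lit 15, nat_lit 15184974084), (nat_lit 74, nat_lit 15168459012), (nat_lit 1, nat_lit 15168200964), (nat_lit 37, nat_lit 16258711812), (nat_lit 44, nat_lit 16242196740), (nat_lit 98, nat_lit 16241938692), (nat_lit 81, nat_lit 17315676420)]⟩],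
  [W_11963748608]⟩
theorem C_13037756676 : chkRec R_13037756676 = true := by decide +kernel

noncomputable def R_13037756739 : Rec := ⟨nat_lit 13037756739, nat_lit 3,
  [⟨V6_10890010944, [(nat_lit 85, nat_lit 13037756739), (nat_lit 61, nat_lit 14111498562), (nat_lit 101, nat_lit 14111236419), (nat_lit 37, nat_lit 15185240385), (nat_lit 80, nat_lit 15184978242), (nat_lit 12, nat_lit 16258982208), (nat_lit 41, nat_lit 16258720065), (nat_lit 84, nat_lit 17332461888)]⟩],
  [W_13020713216, W_11947233536, W_9816527168]⟩
theorem C_13037756739 : chkRec R_13037756739 = true := by decide +kernel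

noncomputable def R_13037756802 : Rec := ⟨nat_lit 13037756802, nat_lit 2,
  [⟨V6_11947237506, [(nat_lit 68, nat_lit 13037756802), (nat_lit 57, nat_lit 14111498562), (nat_lit 59, nat_lit 14094721410), (nat_lit 75, nat_lit 15185240322), (nat_lit 72, nat_lit 15168463170), (nat_lit 68, nat_lit 16258982082), (nat_lit 80, nat_lit 16242204930), (nat_lit 108, nat_lit 17332723842), (nat_lit 46, nat_lit 17315946690), (nat_lit 51, nat_lit 18389688450)]⟩],
  [W_13003940096, W_10873233728]⟩
theorem C_13037756802 : chkRec R_13037756802 = true := by decide +kernel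

noncomputable def R_13037760771 : Rec := ⟨nat_lit 13037760771, nat_lit 1,
  [⟨V6_9799753986, [(nat_lit 63, nat_lit 13037760771), (nat_lit 86, nat_lit 14111502594), (nat_lit 17, nat_lit 14111498499), (nat_lit 43, nat_lit 14094725379), (nat_lit 84, nat_lit 15185240322), (nat_lit 89, nat_lit 15168467202), (nat_lit 100, nat_lit 15168463107), (nat_lit 88, nat_lit 16242204930)]⟩],
  [W_13037748416]⟩
theorem C_13037760771 : chkRec R_13037760771 = true := by decide +kernel

noncomputable def R_13037760834 : Rec := ⟨nat_lit 13037760834, nat_lit 2,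
  [⟨V6_10873499841, [(nat_lit 57, nat_lit 13037760834), (nat_lit 111, nat_lit 14111502657), (nat_lit 49, nat_lit 14111502594), (nat_lit 97, nat_lit 14094725442), (nat_lit 100, nat_lit 15185244417), (nat_lit 35, nat_lit 15185244354), (nat_lit 33, nat_lit 15168467265), (nat_lit 77, nat_lit 15168467202), (nat_lit 35, nat_lit 16258986177), (nat_lit 101, nat_lit 16242209025), (nat_lit 72, nat_lit 16242208962), (nat_lit 98, nat_lit 17315950785)]⟩,
   ⟨V6_9799753986, [(nat_lit 43, nat_lit 13037760834), (nat_lit 32, nat_lit 14111502594), (nat_lit 89, nat_lit 14111498562), (nat_lit 24, nat_lit 14094725442), (nat_lit 107, nat_lit 15185240322), (nat_lit 33, nat_lit 15168467202), (nat_lit 14, nat_lit 15168463170), (nat_lit 105, nat_lit 16242204930)]⟩],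
  [W_13020979328]⟩
theorem C_13037760834 : chkRec R_13037760834 = true := by decide +kernel

noncomputable def R_13037760897 : Rec := ⟨nat_lit 13037760897, nat_lit 1,
  [⟨V6_10873499841, [(nat_lit 61, nat_lit 13037760897), (nat_lit 120, nat_lit 14111502657), (nat_lit 65, nat_lit 14094725505), (nat_lit 68, nat_lit 15185244417), (nat_lit 111, nat_lit 15168467265), (nat_lit 115, nat_lit 16258986177), (nat_lit 74, nat_lit 16242209025), (nat_lit 28, nat_lit 17315950785)]⟩],
  [W_13037756480]⟩
theorem C_13037760897 : chkRec R_13037760897 = true := by decide +kernel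

noncomputable def R_13038014724 : Rec := ⟨nat_lit 13038014724, nat_lit 1,
  [⟨V6_10873225476, [(nat_lit 69, nat_lit 13038014724), (nat_lit 83, nat_lit 14111752452), (nat_lit 114, nat_lit 14111494404), (nat_lit 88, nat_lit 14094979332), (nat_lit 94, nat_lit 15185232132), (nat_lit 53, nat_lit 15184974084), (nat_lit 27, nat_lit 15168717060), (nat_lit 19, nat_lit 15168459012), (nat_lit 50, nat_lit 16258711812), (nat_lit 27, nat_lit 16242196740), (nat_lit 2, nat_lit 16241938692), (nat_lit 55, nat_lit 17315676420)]⟩],
  [W_11963748608]⟩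
theorem C_13038014724 : chkRec R_13038014724 = true := by decide +kernel

noncomputable def R_13038014787 : Rec := ⟨nat_lit 13038014787, nat_lit 2,
  [⟨V6_9816789312, [(nat_lit 121, nat_lit 13038014787), (nat_lit 64, nat_lit 14111756610), (nat_lit 79, nat_lit 15185498433), (nat_lit 72, nat_lit 16259240256)]⟩],
  [W_13020713216, W_11947233536]⟩
theorem C_13038014787 : chkRec R_13038014787 = true := by decide +kernel

noncomputable def R_13038018819 : Rec := ⟨nat_lit 13038018819, nat_lit 5,
  [⟨V6_10873757952, [(nat_lit 76, nat_lit 13038018819), (nat_lit 100, nat_lit 14111760642), (nat_lit 57, nat_lit 14094983427), (nat_lit 82, nat_lit 15185502465), (nat_lit 95, nat_lit 15168725250), (nat_lit 30, nat_lit 16259244288), (nat_lit 45, nat_lit 16242467073), (nat_lit 111, nat_lit 17316208896)]⟩],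
  [W_13037748416, W_13021233344, W_11963748608]⟩
theorem C_13038018819 : chkRec R_13038018819 = true := by decide +kernel

noncomputable def R_13038018882 : Rec := ⟨nat_lit 13038018882, nat_lit 7,
  [⟨V6_10873757952, [(nat_lit 85, nat_lit 13038018882), (nat_lit 22, nat_lit 14111760705), (nat_lit 104, nat_lit 14111760642), (nat_lit 25, nat_lit 14094983490), (nat_lit 84, nat_lit 15185502528), (nat_lit 108, nat_lit 15185502465), (nat_lit 108, nat_lit 15168725313), (nat_lit 25, nat_lit 15168725250), (nat_lit 37, nat_lit 16259244288), (nat_lit 86, nat_lit 16242467136), (nat_lit 39, nat_lit 16242467073), (nat_lit 25, nat_lit 17316208896)]⟩,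
   ⟨V6_9799753986, [(nat_lit 30, nat_lit 13038018882), (nat_lit 77, nat_lit 14111760642), (nat_lit 83, nat_lit 14111498562), (nat_lit 26, nat_lit 14094983490), (nat_lit 27, nat_lit 15185240322), (nat_lit 81, nat_lit 15168725250), (nat_lit 31, nat_lit 15168463170), (nat_lit 89, nat_lit 16242204930)]⟩],
  [W_13037494400, W_13021237376, W_11963748608, W_9816527168]⟩
theorem C_13038018882 : chkRec R_13038018882 = true := by decide +kernel

noncomputable def R_13038018945 : Rec := ⟨nat_lit 13038018945, nat_lit 5,
  [⟨V6_10873233792, [(nat_lit 91, nat_lit 13038018945), (nat_lit 83, nat_lit 14111760768), (nat_lit 19, nat_lit 14111498625), (nat_lit 82, nat_lit 14094983553), (nat_lit 36, nat_lit 15185240448), (nat_lit 25, nat_lit 15184978305), (nat_lit 13, nat_lit 15168725376), (nat_lit 74, nat_lit 15168463233), (nat_lit 63, nat_lit 16258720128), (nat_lit 32, nat_lit 16242205056), (nat_lit 31, nat_lit 16241942913), (nat_lit 63, nat_lit 17315684736)]⟩,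
   ⟨V6_9816793344, [(nat_lit 3, nat_lit 13038018945), (nat_lit 118, nat_lit 14111760768), (nat_lit 111, nat_lit 14111760705), (nat_lit 53, nat_lit 15185502528), (nat_lit 108, nat_lit 15185502465), (nat_lit 52, nat_lit 16259244288)]⟩,
   ⟨V6_9800016192, [(nat_lit 12, nat_lit 13038018945), (nat_lit 54, nat_lit 14111760768), (nat_lit 58, nat_lit 14111760705), (nat_lit 52, nat_lit 14094983553), (nat_lit 58, nat_lit 15185502528), (nat_lit 74, nat_lit 15168725376), (nat_lit 117, nat_lit 15168725313), (nat_lit 37, nat_lit 16242467136)]⟩],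
  [W_13037494400, W_13021241408]⟩
theorem C_13038018945 : chkRec R_13038018945 = true := by decide +kernel

noncomputable def R_13038022851 : Rec := ⟨nat_lit 13038022851, nat_lit 2,
  [⟨V6_10873499841, [(nat_lit 100, nat_lit 13038022851), (nat_lit 1, nat_lit 14111764674), (nat_lit 55, nat_lit 14111502531), (nat_lit 55, nat_lit 14094987459), (nat_lit 76, nat_lit 15185506497), (nat_lit 82, nat_lit 15185244354), (nat_lit 57, nat_lit 15168729282), (nat_lit 125, nat_lit 15168467139), (nat_lit 125, nat_lit 16258986177), (nat_lit 12, nat_lit 16242471105), (nat_lit 9, nat_lit 16242208962), (nat_lit 33, nat_lit 17315950785)]⟩,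
   ⟨V6_9816785091, [(nat_lit 60, nat_lit 13038022851), (nat_lit 27, nat_lit 14111760579), (nat_lit 60, nat_lit 15185498307), (nat_lit 45, nat_lit 16259236035)]⟩],
  [W_13021233344]⟩
theorem C_13038022851 : chkRec R_13038022851 = true := by decide +kernel

noncomputable def R_13038022914 : Rec := ⟨nat_lit 13038022914, nat_lit 6,
  [⟨V6_10873757952, [(nat_lit 10, nat_lit 13038022914), (nat_lit 83, nat_lit 14111764737), (nat_lit 48, nat_lit 14111760642), (nat_lit 98, nat_lit 14094987522), (nat_lit 102, nat_lit 15185506560), (nat_lit 13, nat_lit 15185502465), (nat_lit 113, nat_lit 15168729345), (nat_lit 9, nat_lit 15168725250), (nat_lit 59, nat_lit 16259244288), (nat_lit 15, nat_lit 16242471168), (nat_lit 86, nat_lit 16242467073), (nat_lit 74, nat_lit 17316208896)]⟩],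
  [W_13037748416, W_13021233344, W_11964268736, W_10873761920]⟩
theorem C_13038022914 : chkRec R_13038022914 = true := by decide +kernel

noncomputable def R_13038022977 : Rec := ⟨nat_lit 13038022977, nat_lit 7,
  [⟨V6_13020983361, [(nat_lit 83, nat_lit 13038022977), (nat_lit 107, nat_lit 14111764737), (nat_lit 92, nat_lit 14111502657), (nat_lit 112, nat_lit 14094987585), (nat_lit 113, nat_lit 15185506497), (nat_lit 7, nat_lit 15185244417), (nat_lit 102, nat_lit 15168729345), (nat_lit 88, nat_lit 15168467265), (nat_lit 57, nat_lit 16259248257), (nat_lit 66, nat_lit 16258986177), (nat_lit 81, nat_lit 16242471105), (nat_lit 54, nat_lit 16242209025), (nat_lit 97, nat_lit 17332990017), (nat_lit 67, nat_lit 17332727937), (nat_lit 37, nat_lit 17316212865), (nat_lit 17, nat_lit 17315950785), (nat_lit 62, nat_lit 18406469697), (nat_lit 60, nat_lit 18389954625), (nat_lit 6, nat_lit 18389692545), (nat_lit 4, nat_lit 19463434305)]⟩,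
   ⟨V6_10890539073, [(nat_lit 105, nat_lit 13038022977), (nat_lit 66, nat_lit 14111764737), (nat_lit 2, nat_lit 15185506497), (nat_lit 5, nat_lit 16259248257), (nat_lit 126, nat_lit 17332990017)]⟩,
   ⟨V6_10873753857, [(nat_lit 34, nat_lit 13038022977), (nat_lit 29, nat_lit 14111764737), (nat_lit 124, nat_lit 14111760705), (nat_lit 42, nat_lit 14094987585), (nat_lit 20, nat_lit 15185502465), (nat_lit 80, nat_lit 15185498433), (nat_lit 94, nat_lit 15168729345), (nat_lit 8, nat_lit 15168725313), (nat_lit 65, nat_lit 16259240193), (nat_lit 2, nat_lit 16242467073), (nat_lit 60, nat_lit 16242463041), (nat_lit 20, nat_lit 17316204801)]⟩],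
  [W_13021241408, W_13021237376, W_11947503680, W_9816527168]⟩
theorem C_13038022977 : chkRec R_13038022977 = true := by decide +kernel

noncomputable def R_13038023040 : Rec := ⟨nat_lit 13038023040, nat_lit 4,
  [⟨V6_13037760576, [(nat_lit 71, nat_lit 13038023040), (nat_lit 87, nat_lit 14111764800), (nat_lit 108, nat_lit 14111502720), (nat_lit 101, nat_lit 15185506560), (nat_lit 46, nat_lit 15185244480), (nat_lit 20, nat_lit 16259248320), (nat_lit 92, nat_lit 16258986240), (nat_lit 5, nat_lit 17332990080), (nat_lit 57, nat_lit 17332728000), (nat_lit 14, nat_lit 18406731840), (nat_lit 84, nat_lit 18406469760), (nat_lit 95, nat_lit 19480211520)]⟩],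
  [W_13021245440, W_10873761920, W_9800016128]⟩
theorem C_13038023040 : chkRec R_13038023040 = true := by decide +kernel

noncomputable def R_13038026946 : Rec := ⟨nat_lit 13038026946, nat_lit 3,
  [⟨V6_11947491522, [(nat_lit 67, nat_lit 13038026946), (nat_lit 120, nat_lit 14111764674), (nat_lit 84, nat_lit 14094991554), (nat_lit 22, nat_lit 15185502402), (nat_lit 65, nat_lit 15168729282), (nat_lit 121, nat_lit 16259240130), (nat_lit 24, nat_lit 16242467010), (nat_lit 27, nat_lit 17332977858), (nat_lit 74, nat_lit 17316204738), (nat_lit 53, nat_lit 18389942466)]⟩,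
   ⟨V6_9800024256, [(nat_lit 18, nat_lit 13038026946), (nat_lit 114, nat_lit 14111768769), (nat_lit 35, nat_lit 14094991554), (nat_lit 3, nat_lit 15185510592), (nat_lit 63, nat_lit 15168733377), (nat_lit 45, nat_lit 16242475200)]⟩],
  [W_13038006464, W_13021237376]⟩
theorem C_13038026946 : chkRec R_13038026946 = true := by decide +kernel

noncomputable def R_13038027009 : Rec := ⟨nat_lit 13038027009, nat_lit 6,
  [⟨V6_11947491585, [(nat_lit 25, nat_lit 13038027009), (nat_lit 77, nat_lit 14111764737), (nat_lit 92, nat_lit 14094991617), (nat_lit 12, nat_lit 15185502465), (nat_lit 47, nat_lit 15168729345), (nat_lit 66, nat_lit 16259240193), (nat_lit 117, nat_lit 16242467073), (nat_lit 84, nat_lit 17332977921), (nat_lit 75, nat_lit 17316204801), (nat_lit 52, nat_lit 18389942529)]⟩,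
   ⟨V6_10890526977, [(nat_lit 39, nat_lit 13038027009), (nat_lit 93, nat_lit 14111764737), (nat_lit 34, nat_lit 15185502465), (nat_lit 18, nat_lit 16259240193), (nat_lit 66, nat_lit 17332977921)]⟩,
   ⟨V6_9816793344, [(nat_lit 106, nat_lit 13038027009), (nat_lit 10, nat_lit 14111768832), (nat_lit 108, nat_lit 14111764737), (nat_lit 84, nat_lit 15185506560), (nat_lit 125, nat_lit 15185502465), (nat_lit 58, nat_lit 16259244288)]⟩],
  [W_13021241408, W_11947503680, W_10873765952, W_10873761920]⟩
theorem C_13038027009 : chkRec R_13038027009 = true := by decide +kernel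

noncomputable def R_13038027072 : Rec := ⟨nat_lit 13038027072, nat_lit 6,
  [⟨V6_13021249536, [(nat_lit 79, nat_lit 13038027072), (nat_lit 116, nat_lit 14111768832), (nat_lit 113, nat_lit 14094991680), (nat_lit 8, nat_lit 15185510592), (nat_lit 117, nat_lit 15168733440), (nat_lit 70, nat_lit 16259252352), (nat_lit 62, nat_lit 16242475200), (nat_lit 123, nat_lit 17332994112), (nat_lit 77, nat_lit 17316216960), (nat_lit 18, nat_lit 18406735872), (nat_lit 52, nat_lit 18389958720), (nat_lit 126, nat_lit 19463700480)]⟩,
   ⟨V6_9800024256, [(nat_lit 124, nat_lit 13038027072), (nat_lit 76, nat_lit 14111768832), (nat_lit 106, nat_lit 14094991680), (nat_lit 82, nat_lit 15185510592), (nat_lit 88, nat_lit 15168733440), (nat_lit 12, nat_lit 16242475200)]⟩],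
  [W_13021241408, W_13021237376]⟩
theorem C_13038027072 : chkRec R_13038027072 = true := by decide +kernel

noncomputable def R_13038276867 : Rec := ⟨nat_lit 13038276867, nat_lit 1,
  [⟨V6_9816785091, [(nat_lit 99, nat_lit 13038276867), (nat_lit 106, nat_lit 14112018627), (nat_lit 26, nat_lit 14112014595), (nat_lit 89, nat_lit 14111756547), (nat_lit 26, nat_lit 15185756355), (nat_lit 86, nat_lit 15185498307), (nat_lit 36, nat_lit 15185494275), (nat_lit 5, nat_lit 16259236035)]⟩],
  [W_11963748608]⟩
theorem C_13038276867 : chkRec R_13038276867 = true := by decide +kernel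

noncomputable def R_13038276930 : Rec := ⟨nat_lit 13038276930, nat_lit 3,
  [⟨V6_9817051266, [(nat_lit 19, nat_lit 13038276930), (nat_lit 89, nat_lit 14112018690), (nat_lit 124, nat_lit 15185760450), (nat_lit 37, nat_lit 16259502210)]⟩,
   ⟨V6_9816789312, [(nat_lit 60, nat_lit 13038276930), (nat_lit 46, nat_lit 14112018753), (nat_lit 103, nat_lit 14111756610), (nat_lit 56, nat_lit 15185760576), (nat_lit 102, nat_lit 15185498433), (nat_lit 123, nat_lit 16259240256)]⟩],
  [W_13037490368, W_11963748608]⟩
theorem C_13038276930 : chkRec R_13038276930 = true := by decide +kernel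

noncomputable def R_13038280899 : Rec := ⟨nat_lit 13038280899, nat_lit 3,
  [⟨V6_9817055424, [(nat_lit 82, nat_lit 13038280899), (nat_lit 99, nat_lit 14112022722), (nat_lit 21, nat_lit 15185764545), (nat_lit 32, nat_lit 16259506368)]⟩,
   ⟨V6_9817051329, [(nat_lit 33, nat_lit 13038280899), (nat_lit 7, nat_lit 14112022722), (nat_lit 18, nat_lit 14112018627), (nat_lit 101, nat_lit 15185764545), (nat_lit 105, nat_lit 15185760450), (nat_lit 125, nat_lit 16259502273)]⟩,
   ⟨V6_9816785091, [(nat_lit 107, nat_lit 13038280899), (nat_lit 18, nat_lit 14112018627), (nat_lit 10, nat_lit 14111760579), (nat_lit 67, nat_lit 15185756355), (nat_lit 92, nat_lit 15185498307), (nat_lit 118, nat_lit 16259236035)]⟩],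
  [W_13037748416, W_10890272960]⟩
theorem C_13038280899 : chkRec R_13038280899 = true := by decide +kernel

noncomputable def R_13038280962 : Rec := ⟨nat_lit 13038280962, nat_lit 3,
  [⟨V6_9817051329, [(nat_lit 125, nat_lit 13038280962), (nat_lit 22, nat_lit 14112022785), (nat_lit 11, nat_lit 14112022722), (nat_lit 95, nat_lit 14112018690), (nat_lit 102, nat_lit 15185764545), (nat_lit 50, nat_lit 15185760513), (nat_lit 71, nat_lit 15185760450), (nat_lit 27, nat_lit 16259502273)]⟩,
   ⟨V6_9817051266, [(nat_lit 37, nat_lit 13038280962), (nat_lit 44, nat_lit 14112022722), (nat_lit 90, nat_lit 14112018690), (nat_lit 88, nat_lit 15185764482), (nat_lit 14, nat_lit 15185760450), (nat_lit 123, nat_lit 16259502210)]⟩,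
   ⟨V6_9816793344, [(nat_lit 1, nat_lit 13038280962), (nat_lit 5, nat_lit 14112022785), (nat_lit 25, nat_lit 14111760642), (nat_lit 111, nat_lit 15185764608), (nat_lit 116, nat_lit 15185502465), (nat_lit 110, nat_lit 16259244288)]⟩],
  [W_13038010496]⟩
theorem C_13038280962 : chkRec R_13038280962 = true := by decide +kernel

noncomputable def R_13038281025 : Rec := ⟨nat_lit 13038281025, nat_lit 5,
  [⟨V6_10890010944, [(nat_lit 90, nat_lit 13038281025), (nat_lit 86, nat_lit 14112022848), (nat_lit 49, nat_lit 14111760705), (nat_lit 74, nat_lit 15185502528), (nat_lit 20, nat_lit 15185240385), (nat_lit 78, nat_lit 16258982208), (nat_lit 33, nat_lit 16258720065), (nat_lit 73, nat_lit 17332461888)]⟩,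
   ⟨V6_9817051329, [(nat_lit 42, nat_lit 13038281025), (nat_lit 99, nat_lit 14112022785), (nat_lit 102, nat_lit 14112018753), (nat_lit 26, nat_lit 15185764545), (nat_lit 121, nat_lit 15185760513), (nat_lit 4, nat_lit 16259502273)]⟩,
   ⟨V6_9816793344, [(nat_lit 125, nat_lit 13038281025), (nat_lit 122, nat_lit 14112022848), (nat_lit 86, nat_lit 14112022785), (nat_lit 124, nat_lit 14111760705), (nat_lit 7, nat_lit 15185764608), (nat_lit 48, nat_lit 15185502528), (nat_lit 71, nat_lit 15185502465), (nat_lit 2, nat_lit 16259244288)]⟩],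
  [W_13037494400, W_11964534848, W_9816527168]⟩
theorem C_13038281025 : chkRec R_13038281025 = true := by decide +kernel

noncomputable def R_13038281088 : Rec := ⟨nat_lit 13038281088, nat_lit 2,
  [⟨V6_13038280704, [(nat_lit 85, nat_lit 13038281088), (nat_lit 79, nat_lit 14112022848), (nat_lit 110, nat_lit 15185764608), (nat_lit 60, nat_lit 16259506368), (nat_lit 58, nat_lit 17333248128), (nat_lit 41, nat_lit 18406989888), (nat_lit 69, nat_lit 19480731648)]⟩],
  [W_13038018560]⟩
theorem C_13038281088 : chkRec R_13038281088 = true := by decide +kernel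

noncomputable def R_13038284994 : Rec := ⟨nat_lit 13038284994, nat_lit 3,
  [⟨V6_13038268608, [(nat_lit 93, nat_lit 13038284994), (nat_lit 50, nat_lit 14112026817), (nat_lit 101, nat_lit 14112022722), (nat_lit 48, nat_lit 15185768640), (nat_lit 63, nat_lit 15185764545), (nat_lit 123, nat_lit 15185760450), (nat_lit 97, nat_lit 16259506368), (nat_lit 51, nat_lit 16259502273), (nat_lit 115, nat_lit 16259498178), (nat_lit 44, nat_lit 17333244096), (nat_lit 80, nat_lit 17333240001), (nat_lit 20, nat_lit 17333235906), (nat_lit 87, nat_lit 18406981824), (nat_lit 13, nat_lit 18406977729), (nat_lit 107, nat_lit 19480719552)]⟩],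
  [W_13038010496]⟩
theorem C_13038284994 : chkRec R_13038284994 = true := by decide +kernel

noncomputable def R_13038285057 : Rec := ⟨nat_lit 13038285057, nat_lit 4,
  [⟨V6_10890526977, [(nat_lit 34, nat_lit 13038285057), (nat_lit 124, nat_lit 14112022785), (nat_lit 93, nat_lit 14111764737), (nat_lit 100, nat_lit 15185760513), (nat_lit 51, nat_lit 15185502465), (nat_lit 123, nat_lit 16259498241), (nat_lit 7, nat_lit 16259240193), (nat_lit 5, nat_lit 17332977921)]⟩,
   ⟨V6_9817055424, [(nat_lit 14, nat_lit 13038285057), (nat_lit 42, nat_lit 14112026880), (nat_lit 19, nat_lit 14112026817), (nat_lit 124, nat_lit 14112022785), (nat_lit 10, nat_lit 15185768640), (nat_lit 9, nat_lit 15185764608), (nat_lit 90, nat_lit 15185764545), (nat_lit 93, nat_lit 16259506368)]⟩,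
   ⟨V6_9817051329, [(nat_lit 73, nat_lit 13038285057), (nat_lit 48, nat_lit 14112026817), (nat_lit 75, nat_lit 14112022785), (nat_lit 70, nat_lit 15185764545), (nat_lit 97, nat_lit 15185760513), (nat_lit 32, nat_lit 16259502273)]⟩,
   ⟨V6_9816793344, [(nat_lit 63, nat_lit 13038285057), (nat_lit 79, nat_lit 14112026880), (nat_lit 69, nat_lit 14112022785), (nat_lit 108, nat_lit 14111764737), (nat_lit 107, nat_lit 15185764608), (nat_lit 15, nat_lit 15185506560), (nat_lit 124, nat_lit 15185502465), (nat_lit 11, nat_lit 16259244288)]⟩],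
  [W_13037748416, W_11964534848, W_11964018752]⟩
theorem C_13038285057 : chkRec R_13038285057 = true := by decide +kernel

noncomputable def R_13038285120 : Rec := ⟨nat_lit 13038285120, nat_lit 5,
  [⟨V6_13038280704, [(nat_lit 52, nat_lit 13038285120), (nat_lit 81, nat_lit 14112026880), (nat_lit 79, nat_lit 14112022848), (nat_lit 93, nat_lit 15185768640), (nat_lit 38, nat_lit 15185764608), (nat_lit 18, nat_lit 16259510400), (nat_lit 108, nat_lit 16259506368), (nat_lit 120, nat_lit 17333252160), (nat_lit 116, nat_lit 17333248128), (nat_lit 17, nat_lit 18406993920), (nat_lit 106, nat_lit 18406989888), (nat_lit 60, nat_lit 19480731648)]⟩,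
   ⟨V6_9817055424, [(nat_lit 67, nat_lit 13038285120), (nat_lit 11, nat_lit 14112026880), (nat_lit 112, nat_lit 14112022848), (nat_lit 35, nat_lit 15185768640), (nat_lit 15, nat_lit 15185764608), (nat_lit 74, nat_lit 16259506368)]⟩,
   ⟨V6_9816793344, [(nat_lit 92, nat_lit 13038285120), (nat_lit 60, nat_lit 14112026880), (nat_lit 80, nat_lit 14112022848), (nat_lit 84, nat_lit 14111764800), (nat_lit 9, nat_lit 15185764608), (nat_lit 95, nat_lit 15185506560), (nat_lit 38, nat_lit 15185502528), (nat_lit 20, nat_lit 16259244288)]⟩],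
  [W_11964280832, W_11964018752, W_10890531008, W_10890272960, W_9816527168]⟩
theorem C_13038285120 : chkRec R_13038285120 = true := by decide +kernel

noncomputable def R_13038289026 : Rec := ⟨nat_lit 13038289026, nat_lit 1,
  [⟨V6_9817051266, [(nat_lit 116, nat_lit 13038289026), (nat_lit 80, nat_lit 14112026754), (nat_lit 12, nat_lit 15185764482), (nat_lit 23, nat_lit 16259502210)]⟩],
  [W_13038268544]⟩
theorem C_13038289026 : chkRec R_13038289026 = true := by decide +kernel

noncomputable def R_13038289089 : Rec := ⟨nat_lit 13038289089, nat_lit 3,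
  [⟨V6_10890539073, [(nat_lit 80, nat_lit 13038289089), (nat_lit 120, nat_lit 14112030849), (nat_lit 9, nat_lit 14112026817), (nat_lit 52, nat_lit 14111768769), (nat_lit 36, nat_lit 15185772609), (nat_lit 3, nat_lit 15185768577), (nat_lit 49, nat_lit 15185510529), (nat_lit 84, nat_lit 15185506497), (nat_lit 16, nat_lit 16259510337), (nat_lit 56, nat_lit 16259252289), (nat_lit 99, nat_lit 16259248257), (nat_lit 52, nat_lit 17332990017)]⟩,
   ⟨V6_9817055424, [(nat_lit 109, nat_lit 13038289089), (nat_lit 63, nat_lit 14112030912), (nat_lit 20, nat_lit 14112026817), (nat_lit 72, nat_lit 15185768640), (nat_lit 89, nat_lit 15185764545), (nat_lit 86, nat_lit 16259506368)]⟩,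
   ⟨V6_9817051329, [(nat_lit 100, nat_lit 13038289089), (nat_lit 104, nat_lit 14112026817), (nat_lit 41, nat_lit 15185764545), (nat_lit 68, nat_lit 16259502273)]⟩],
  [W_13038010496]⟩
theorem C_13038289089 : chkRec R_13038289089 = true := by decide +kernel

noncomputable def R_13038289152 : Rec := ⟨nat_lit 13038289152, nat_lit 2,
  [⟨V6_9817055424, [(nat_lit 105, nat_lit 13038289152), (nat_lit 15, nat_lit 14112030912), (nat_lit 1, nat_lit 14112026880), (nat_lit 13, nat_lit 15185768640), (nat_lit 12, nat_lit 15185764608), (nat_lit 14, nat_lit 16259506368)]⟩,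
   ⟨V6_9816793344, [(nat_lit 93, nat_lit 13038289152), (nat_lit 17, nat_lit 14112026880), (nat_lit 65, nat_lit 14111768832), (nat_lit 58, nat_lit 15185764608), (nat_lit 126, nat_lit 15185506560), (nat_lit 69, nat_lit 16259244288)]⟩],
  [W_13038276608, W_13038272576]⟩
theorem C_13038289152 : chkRec R_13038289152 = true := by decide +kernel

noncomputable def R_13038293184 : Rec := ⟨nat_lit 13038293184, nat_lit 1,
  [⟨V6_9817055424, [(nat_lit 52, nat_lit 13038293184), (nat_lit 42, nat_lit 14112030912), (nat_lit 106, nat_lit 15185768640), (nat_lit 18, nat_lit 16259506368)]⟩],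
  [W_13038276608]⟩
theorem C_13038293184 : chkRec R_13038293184 = true := by decide +kernel

noncomputable def R_13054271748 : Rec := ⟨nat_lit 13054271748, nat_lit 2,
  [⟨V6_12987154692, [(nat_lit 54, nat_lit 13054271748), (nat_lit 120, nat_lit 14128009476), (nat_lit 38, nat_lit 14111236356), (nat_lit 36, nat_lit 15201747204), (nat_lit 105, nat_lit 15184974084), (nat_lit 53, nat_lit 15168200964), (nat_lit 52, nat_lit 16258711812), (nat_lit 102, nat_lit 16241938692), (nat_lit 104, nat_lit 16225165572), (nat_lit 8, nat_lit 17315676420), (nat_lit 121, nat_lit 17298903300), (nat_lit 108, nat_lit 17282130180), (nat_lit 2, nat_lit 18372641028), (nat_lit 109, nat_lit 18355867908), (nat_lit 108, nat_lit 19429605636)]⟩,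
   ⟨V6_10839679236, [(nat_lit 67, nat_lit 13054271748), (nat_lit 60, nat_lit 14111236356), (nat_lit 91, nat_lit 15168200964), (nat_lit 12, nat_lit 16225165572), (nat_lit 89, nat_lit 17282130180)]⟩],
  [W_11980521728, W_11963748608]⟩
theorem C_13054271748 : chkRec R_13054271748 = true := by decide +kernel

noncomputable def R_13054271811 : Rec := ⟨nat_lit 13054271811, nat_lit 2,
  [⟨V6_11913421122, [(nat_lit 21, nat_lit 13054271811), (nat_lit 60, nat_lit 14128013634), (nat_lit 35, nat_lit 14111236419), (nat_lit 122, nat_lit 15184978242), (nat_lit 86, nat_lit 15168201027), (nat_lit 5, nat_lit 16241942850), (nat_lit 3, nat_lit 16225165635), (nat_lit 61, nat_lit 17298907458), (nat_lit 68, nat_lit 17282130243), (nat_lit 99, nat_lit 18355872066)]⟩,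
   ⟨V6_10856456451, [(nat_lit 121, nat_lit 13054271811), (nat_lit 106, nat_lit 14128013571), (nat_lit 13, nat_lit 14111236419), (nat_lit 18, nat_lit 15184978179), (nat_lit 63, nat_lit 15168201027), (nat_lit 17, nat_lit 16241942787), (nat_lit 83, nat_lit 16225165635), (nat_lit 22, nat_lit 17298907395)]⟩],
  [W_11980525760, W_10906788032]⟩
theorem C_13054271811 : chkRec R_13054271811 = true := by decide +kernel

noncomputable def R_13054271874 : Rec := ⟨nat_lit 13054271874, nat_lit 4,
  [⟨V6_11913421122, [(nat_lit 99, nat_lit 13054271874), (nat_lit 56, nat_lit 14128013634), (nat_lit 64, nat_lit 14111236482), (nat_lit 81, nat_lit 15184978242), (nat_lit 9, nat_lit 15168201090), (nat_lit 70, nat_lit 16241942850), (nat_lit 46, nat_lit 16225165698), (nat_lit 74, nat_lit 17298907458), (nat_lit 119, nat_lit 17282130306), (nat_lit 61, nat_lit 18355872066)]⟩,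
   ⟨V6_10873233792, [(nat_lit 2, nat_lit 13054271874), (nat_lit 119, nat_lit 14128013697), (nat_lit 20, nat_lit 14111236482), (nat_lit 66, nat_lit 15201755520), (nat_lit 42, nat_lit 15184978305), (nat_lit 53, nat_lit 15168201090), (nat_lit 88, nat_lit 16258720128), (nat_lit 70, nat_lit 16241942913), (nat_lit 50, nat_lit 17315684736)]⟩],
  [W_13037494400, W_10906788032]⟩
theorem C_13054271874 : chkRec R_13054271874 = true := by decide +kernel

noncomputable def R_13054529796 : Rec := ⟨nat_lit 13054529796, nat_lit 1,
  [⟨V6_10873225476, [(nat_lit 41, nat_lit 13054529796), (nat_lit 115, nat_lit 14128267524), (nat_lit 57, nat_lit 14128009476), (nat_lit 7, nat_lit 14111494404), (nat_lit 85, nat_lit 15201747204), (nat_lit 104, nat_lit 15185232132), (nat_lit 11, nat_lit 15184974084), (nat_lit 122, nat_lit 15168459012), (nat_lit 75, nat_lit 16258711812), (nat_lit 48, nat_lit 16242196740), (nat_lit 66, nat_lit 16241938692), (nat_lit 100, nat_lit 17315676420)]⟩],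
  [W_13054001408]⟩
theorem C_13054529796 : chkRec R_13054529796 = true := by decide +kernel

noncomputable def R_13054529859 : Rec := ⟨nat_lit 13054529859, nat_lit 1,
  [⟨V6_10890006849, [(nat_lit 67, nat_lit 13054529859), (nat_lit 88, nat_lit 14128271682), (nat_lit 111, nat_lit 14128009539), (nat_lit 77, nat_lit 14111494467), (nat_lit 55, nat_lit 15202013505), (nat_lit 55, nat_lit 15201751362), (nat_lit 81, nat_lit 15185236290), (nat_lit 14, nat_lit 15184974147), (nat_lit 45, nat_lit 16275493185), (nat_lit 27, nat_lit 16258978113), (nat_lit 54, nat_lit 16258715970), (nat_lit 109, nat_lit 17332457793)]⟩],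
  [W_11980525760]⟩
theorem C_13054529859 : chkRec R_13054529859 = true := by decide +kernel

noncomputable def R_13054533891 : Rec := ⟨nat_lit 13054533891, nat_lit 5,
  [⟨V6_10907042049, [(nat_lit 106, nat_lit 13054533891), (nat_lit 10, nat_lit 14128275714), (nat_lit 31, nat_lit 14128271619), (nat_lit 119, nat_lit 15202017537), (nat_lit 96, nat_lit 15202013442), (nat_lit 87, nat_lit 15202009347), (nat_lit 93, nat_lit 16275755265), (nat_lit 85, nat_lit 16275751170), (nat_lit 36, nat_lit 17349492993)]⟩,
   ⟨V6_10907041986, [(nat_lit 78, nat_lit 13054533891), (nat_lit 27, nat_lit 14128275714), (nat_lit 97, nat_lit 14128275651), (nat_lit 125, nat_lit 14128271619), (nat_lit 35, nat_lit 15202017474), (nat_lit 64, nat_lit 15202013442), (nat_lit 101, nat_lit 15202013379), (nat_lit 36, nat_lit 15202009347), (nat_lit 51, nat_lit 16275755202), (nat_lit 92, nat_lit 16275751170), (nat_lit 116, nat_lit 16275751107), (nat_lit 66, nat_lit 17349492930)]⟩],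
  [W_13020717248, W_13020713216, W_13003940096, W_10906788032]⟩
theorem C_13054533891 : chkRec R_13054533891 = true := by decide +kernel

noncomputable def R_13054533954 : Rec := ⟨nat_lit 13054533954, nat_lit 6,
  [⟨V6_11947237506, [(nat_lit 105, nat_lit 13054533954), (nat_lit 73, nat_lit 14128275714), (nat_lit 62, nat_lit 14111498562), (nat_lit 16, nat_lit 15202017474), (nat_lit 21, nat_lit 15185240322), (nat_lit 46, nat_lit 15168463170), (nat_lit 29, nat_lit 16275759234), (nat_lit 108, nat_lit 16258982082), (nat_lit 94, nat_lit 16242204930), (nat_lit 13, nat_lit 17332723842), (nat_lit 79, nat_lit 17315946690), (nat_lit 64, nat_lit 18389688450)]⟩,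
   ⟨V6_11930460480, [(nat_lit 120, nat_lit 13054533954), (nat_lit 33, nat_lit 14128275777), (nat_lit 44, nat_lit 14111498562), (nat_lit 75, nat_lit 15202017600), (nat_lit 20, nat_lit 15185240385), (nat_lit 45, nat_lit 15168463170), (nat_lit 46, nat_lit 16258982208), (nat_lit 100, nat_lit 16242204993), (nat_lit 115, nat_lit 16225427778), (nat_lit 38, nat_lit 17315946816), (nat_lit 65, nat_lit 17299169601), (nat_lit 101, nat_lit 18372911424)]⟩,
   ⟨V6_10907046018, [(nat_lit 120, nat_lit 13054533954), (nat_lit 119, nat_lit 14128275714), (nat_lit 44, nat_lit 14128271682), (nat_lit 79, nat_lit 15202017474), (nat_lit 61, nat_lit 15202013442), (nat_lit 82, nat_lit 16275759234), (nat_lit 126, nat_lit 16275755202), (nat_lit 126, nat_lit 17349496962)]⟩,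
   ⟨V6_10873233729, [(nat_lit 97, nat_lit 13054533954), (nat_lit 116, nat_lit 14128275777), (nat_lit 80, nat_lit 14128013634), (nat_lit 60, nat_lit 14111498562), (nat_lit 13, nat_lit 15201755457), (nat_lit 71, nat_lit 15185240385), (nat_lit 41, nat_lit 15184978242), (nat_lit 98, nat_lit 15168463170), (nat_lit 106, nat_lit 16258720065), (nat_lit 74, nat_lit 16242204993), (nat_lit 42, nat_lit 16241942850), (nat_lit 59, nat_lit 17315684673)]⟩],
  [W_13054267520, W_13037494400, W_10906788032]⟩
theorem C_13054533954 : chkRec R_13054533954 = true := by decide +kernel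

noncomputable def R_13054534017 : Rec := ⟨nat_lit 13054534017, nat_lit 5,
  [⟨V6_10873233792, [(nat_lit 78, nat_lit 13054534017), (nat_lit 126, nat_lit 14128275840), (nat_lit 47, nat_lit 14128013697), (nat_lit 11, nat_lit 14111498625), (nat_lit 45, nat_lit 15201755520), (nat_lit 2, nat_lit 15185240448), (nat_lit 90, nat_lit 15184978305), (nat_lit 121, nat_lit 15168463233), (nat_lit 31, nat_lit 16258720128), (nat_lit 71, nat_lit 16242205056), (nat_lit 66, nat_lit 16241942913), (nat_lit 103, nat_lit 17315684736)]⟩,
   ⟨V6_10873233729, [(nat_lit 121, nat_lit 13054534017), (nat_lit 73, nat_lit 14128275777), (nat_lit 66, nat_lit 14128013697), (nat_lit 95, nat_lit 14111498625), (nat_lit 65, nat_lit 15201755457), (nat_lit 87, nat_lit 15185240385), (nat_lit 113, nat_lit 15184978305), (nat_lit 41, nat_lit 15168463233), (nat_lit 20, nat_lit 16258720065), (nat_lit 89, nat_lit 16242204993), (nat_lit 43, nat_lit 16241942913), (nat_lit 69, nat_lit 17315684673)]⟩],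
  [W_13054271552, W_10907050112]⟩
theorem C_13054534017 : chkRec R_13054534017 = true := by decide +kernel

noncomputable def R_13054537923 : Rec := ⟨nat_lit 13054537923, nat_lit 2,
  [⟨V6_10907037891, [(nat_lit 109, nat_lit 13054537923), (nat_lit 48, nat_lit 14128275651), (nat_lit 102, nat_lit 15202013379), (nat_lit 66, nat_lit 16275751107), (nat_lit 67, nat_lit 17349488835)]⟩,
   ⟨V6_10873499841, [(nat_lit 96, nat_lit 13054537923), (nat_lit 96, nat_lit 14128279746), (nat_lit 1, nat_lit 14111502531), (nat_lit 31, nat_lit 15202021569), (nat_lit 19, nat_lit 15185244354), (nat_lit 15, nat_lit 15168467139), (nat_lit 83, nat_lit 16258986177), (nat_lit 107, nat_lit 16242208962), (nat_lit 118, nat_lit 17315950785)]⟩],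
  [W_11980783808]⟩
theorem C_13054537923 : chkRec R_13054537923 = true := by decide +kernel

noncomputable def R_13054537986 : Rec := ⟨nat_lit 13054537986, nat_lit 3,
  [⟨V6_10907046018, [(nat_lit 62, nat_lit 13054537986), (nat_lit 50, nat_lit 14128279746), (nat_lit 3, nat_lit 14128275714), (nat_lit 88, nat_lit 15202021506), (nat_lit 105, nat_lit 15202017474), (nat_lit 30, nat_lit 15202013442), (nat_lit 2, nat_lit 16275759234), (nat_lit 70, nat_lit 16275755202), (nat_lit 24, nat_lit 17349496962)]⟩,
   ⟨V6_10907042049, [(nat_lit 9, nat_lit 13054537986), (nat_lit 82, nat_lit 14128279809), (nat_lit 52, nat_lit 14128275714), (nat_lit 105, nat_lit 15202017537), (nat_lit 93, nat_lit 15202013442), (nat_lit 115, nat_lit 16275755265), (nat_lit 63, nat_lit 16275751170), (nat_lit 96, nat_lit 17349492993)]⟩],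
  [W_13020979328, W_10907050112]⟩
theorem C_13054537986 : chkRec R_13054537986 = true := by decide +kernel

noncomputable def R_13054538049 : Rec := ⟨nat_lit 13054538049, nat_lit 3,
  [⟨V6_13020983361, [(nat_lit 25, nat_lit 13054538049), (nat_lit 90, nat_lit 14128279809), (nat_lit 39, nat_lit 14111502657), (nat_lit 118, nat_lit 15202021569), (nat_lit 12, nat_lit 15185244417), (nat_lit 117, nat_lit 15168467265), (nat_lit 48, nat_lit 16275763329), (nat_lit 68, nat_lit 16258986177), (nat_lit 5, nat_lit 16242209025), (nat_lit 7, nat_lit 17349505089), (nat_lit 122, nat_lit 17332727937), (nat_lit 14, nat_lit 17315950785), (nat_lit 47, nat_lit 18406469697), (nat_lit 16, nat_lit 18389692545), (nat_lit 11, nat_lit 19463434305)]⟩],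
  [W_11980791872, W_10907050112, W_10890272960]⟩
theorem C_13054538049 : chkRec R_13054538049 = true := by decide +kernel

noncomputable def R_13054538112 : Rec := ⟨nat_lit 13054538112, nat_lit 2,
  [⟨V6_13054537728, [(nat_lit 113, nat_lit 13054538112), (nat_lit 111, nat_lit 14128279872), (nat_lit 79, nat_lit 15202021632), (nat_lit 20, nat_lit 16275763392), (nat_lit 104, nat_lit 17349505152), (nat_lit 56, nat_lit 18423246912), (nat_lit 23, nat_lit 19496988672)]⟩],
  [W_10907050112, W_10890272960]⟩
theorem C_13054538112 : chkRec R_13054538112 = true := by decide +kernel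

noncomputable def R_13054787844 : Rec := ⟨nat_lit 13054787844, nat_lit 2,
  [⟨V6_10907304192, [(nat_lit 26, nat_lit 13054787844), (nat_lit 9, nat_lit 14128529667), (nat_lit 40, nat_lit 15202271490), (nat_lit 63, nat_lit 16276013313), (nat_lit 58, nat_lit 17349755136)]⟩],
  [W_13054001408, W_13020971264]⟩
theorem C_13054787844 : chkRec R_13054787844 = true := by decide +kernel

noncomputable def R_13054791939 : Rec := ⟨nat_lit 13054791939, nat_lit 5,
  [⟨V6_10907304192, [(nat_lit 77, nat_lit 13054791939), (nat_lit 90, nat_lit 14128533762), (nat_lit 29, nat_lit 14128529667), (nat_lit 5, nat_lit 15202275585), (nat_lit 51, nat_lit 15202271490), (nat_lit 47, nat_lit 16276017408), (nat_lit 25, nat_lit 16276013313), (nat_lit 24, nat_lit 17349755136)]⟩],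
  [W_13054263488, W_13021233344, W_13020713216]⟩
theorem C_13054791939 : chkRec R_13054791939 = true := by decide +kernel

noncomputable def R_13054792002 : Rec := ⟨nat_lit 13054792002, nat_lit 3,
  [⟨V6_10907046018, [(nat_lit 59, nat_lit 13054792002), (nat_lit 97, nat_lit 14128533762), (nat_lit 15, nat_lit 14128271682), (nat_lit 29, nat_lit 15202275522), (nat_lit 83, nat_lit 15202013442), (nat_lit 22, nat_lit 16276017282), (nat_lit 96, nat_lit 16275755202), (nat_lit 105, nat_lit 17349496962)]⟩,
   ⟨V6_10890006849, [(nat_lit 119, nat_lit 13054792002), (nat_lit 104, nat_lit 14128533825), (nat_lit 78, nat_lit 14128271682), (nat_lit 53, nat_lit 14111756610), (nat_lit 56, nat_lit 15202013505), (nat_lit 98, nat_lit 15201751362), (nat_lit 22, nat_lit 15185498433), (nat_lit 10, nat_lit 15185236290), (nat_lit 112, nat_lit 16275493185), (nat_lit 6, nat_lit 16258978113), (nat_lit 21, nat_lit 16258715970), (nat_lit 89, nat_lit 17332457793)]⟩,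
   ⟨V6_10873753794, [(nat_lit 115, nat_lit 13054792002), (nat_lit 77, nat_lit 14128533762), (nat_lit 71, nat_lit 14111756610), (nat_lit 79, nat_lit 15202275522), (nat_lit 64, nat_lit 15185498370), (nat_lit 116, nat_lit 15168721218), (nat_lit 49, nat_lit 16259240130), (nat_lit 34, nat_lit 16242462978), (nat_lit 97, nat_lit 17316204738)]⟩],
  [W_13054267520]⟩
theorem C_13054792002 : chkRec R_13054792002 = true := by decide +kernel

noncomputable def R_13054795971 : Rec := ⟨nat_lit 13054795971, nat_lit 4,
  [⟨V6_10907041986, [(nat_lit 73, nat_lit 13054795971), (nat_lit 43, nat_lit 14128537794), (nat_lit 30, nat_lit 14128533699), (nat_lit 76, nat_lit 14128275651), (nat_lit 98, nat_lit 15202275522), (nat_lit 111, nat_lit 15202271427), (nat_lit 37, nat_lit 15202017474), (nat_lit 16, nat_lit 15202013379), (nat_lit 126, nat_lit 16276013250), (nat_lit 7, nat_lit 16275755202), (nat_lit 75, nat_lit 16275751107), (nat_lit 35, nat_lit 17349492930)]⟩,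
   ⟨V6_10907037891, [(nat_lit 38, nat_lit 13054795971), (nat_lit 23, nat_lit 14128533699), (nat_lit 11, nat_lit 14128275651), (nat_lit 126, nat_lit 15202271427), (nat_lit 43, nat_lit 15202013379), (nat_lit 51, nat_lit 16276009155), (nat_lit 5, nat_lit 16275751107), (nat_lit 36, nat_lit 17349488835)]⟩,
   ⟨V6_10873753794, [(nat_lit 93, nat_lit 13054795971), (nat_lit 88, nat_lit 14128537794), (nat_lit 80, nat_lit 14128533699), (nat_lit 114, nat_lit 14111760579), (nat_lit 118, nat_lit 15202275522), (nat_lit 79, nat_lit 15185502402), (nat_lit 40, nat_lit 15185498307), (nat_lit 103, nat_lit 15168725187), (nat_lit 105, nat_lit 16259240130), (nat_lit 89, nat_lit 16242467010), (nat_lit 116, nat_lit 16242462915), (nat_lit 119, nat_lit 17316204738)]⟩],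
  [W_13038006464, W_13020717248, W_11981041856]⟩
theorem C_13054795971 : chkRec R_13054795971 = true := by decide +kernel

noncomputable def R_13054796034 : Rec := ⟨nat_lit 13054796034, nat_lit 14,
  [⟨V6_10907304192, [(nat_lit 62, nat_lit 13054796034), (nat_lit 81, nat_lit 14128537857), (nat_lit 79, nat_lit 14128533762), (nat_lit 21, nat_lit 15202279680), (nat_lit 68, nat_lit 15202275585), (nat_lit 66, nat_lit 15202271490), (nat_lit 96, nat_lit 16276017408), (nat_lit 64, nat_lit 16276013313), (nat_lit 40, nat_lit 17349755136)]⟩,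
   ⟨V6_10907304066, [(nat_lit 54, nat_lit 13054796034), (nat_lit 70, nat_lit 14128537794), (nat_lit 1, nat_lit 14128533762), (nat_lit 18, nat_lit 15202279554), (nat_lit 102, nat_lit 15202275522), (nat_lit 57, nat_lit 15202271490), (nat_lit 102, nat_lit 16276017282), (nat_lit 5, nat_lit 16276013250), (nat_lit 85, nat_lit 17349755010)]⟩,
   ⟨V6_10873757952, [(nat_lit 69, nat_lit 13054796034), (nat_lit 105, nat_lit 14128537857), (nat_lit 55, nat_lit 14111760642), (nat_lit 118, nat_lit 15202279680), (nat_lit 52, nat_lit 15185502465), (nat_lit 114, nat_lit 15168725250), (nat_lit 115, nat_lit 16259244288), (nat_lit 2, nat_lit 16242467073), (nat_lit 74, nat_lit 17316208896)]⟩],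
  [W_13054267520, W_13054263488, W_13037494400, W_13021237376, W_13021233344, W_10906788032]⟩
theorem C_13054796034 : chkRec R_13054796034 = true := by decide +kernel

noncomputable def R_13054796097 : Rec := ⟨nat_lit 13054796097, nat_lit 13,
  [⟨V6_10907312256, [(nat_lit 27, nat_lit 13054796097), (nat_lit 18, nat_lit 14128537920), (nat_lit 16, nat_lit 14128537857), (nat_lit 124, nat_lit 15202279680), (nat_lit 53, nat_lit 15202279617), (nat_lit 91, nat_lit 16276021440), (nat_lit 46, nat_lit 16276021377), (nat_lit 123, nat_lit 17349763200)]⟩,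
   ⟨V6_10907308161, [(nat_lit 45, nat_lit 13054796097), (nat_lit 124, nat_lit 14128537857), (nat_lit 80, nat_lit 14128533825), (nat_lit 109, nat_lit 15202279617), (nat_lit 7, nat_lit 15202275585), (nat_lit 126, nat_lit 16276021377), (nat_lit 79, nat_lit 16276017345), (nat_lit 79, nat_lit 17349759105)]⟩],
  [W_13054271552, W_13037494400, W_13021237376, W_13020979328, W_13020713216, W_10873233728]⟩
theorem C_13054796097 : chkRec R_13054796097 = true := by decide +kernel

noncomputable def R_13054796160 : Rec := ⟨nat_lit 13054796160, nat_lit 11,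
  [⟨V6_10907312256, [(nat_lit 97, nat_lit 13054796160), (nat_lit 18, nat_lit 14128537920), (nat_lit 75, nat_lit 15202279680), (nat_lit 69, nat_lit 16276021440), (nat_lit 25, nat_lit 17349763200)]⟩,
   ⟨V6_10873757952, [(nat_lit 122, nat_lit 13054796160), (nat_lit 119, nat_lit 14128537920), (nat_lit 103, nat_lit 14111760768), (nat_lit 34, nat_lit 15202279680), (nat_lit 37, nat_lit 15185502528), (nat_lit 108, nat_lit 15168725376), (nat_lit 62, nat_lit 16259244288), (nat_lit 90, nat_lit 16242467136), (nat_lit 69, nat_lit 17316208896)]⟩],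
  [W_13054533632, W_13054271552, W_13037494400, W_10873233728]⟩
theorem C_13054796160 : chkRec R_13054796160 = true := by decide +kernel

noncomputable def R_13054800066 : Rec := ⟨nat_lit 13054800066, nat_lit 9,
  [⟨V6_10907304066, [(nat_lit 18, nat_lit 13054800066), (nat_lit 27, nat_lit 14128541826), (nat_lit 33, nat_lit 14128537794), (nat_lit 123, nat_lit 15202279554), (nat_lit 114, nat_lit 15202275522), (nat_lit 63, nat_lit 16276017282), (nat_lit 94, nat_lit 16276013250), (nat_lit 81, nat_lit 17349755010)]⟩,
   ⟨V6_10907041986, [(nat_lit 113, nat_lit 13054800066), (nat_lit 14, nat_lit 14128537794), (nat_lit 20, nat_lit 14128279746), (nat_lit 112, nat_lit 15202275522), (nat_lit 58, nat_lit 15202017474), (nat_lit 72, nat_lit 16276013250), (nat_lit 14, nat_lit 16275755202), (nat_lit 35, nat_lit 17349492930)]⟩,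
   ⟨V6_10873761984, [(nat_lit 93, nat_lit 13054800066), (nat_lit 9, nat_lit 14128541889), (nat_lit 41, nat_lit 14111764674), (nat_lit 21, nat_lit 15202283712), (nat_lit 48, nat_lit 15185506497), (nat_lit 115, nat_lit 15168729282), (nat_lit 28, nat_lit 16259248320), (nat_lit 80, nat_lit 16242471105), (nat_lit 39, nat_lit 17316212928)]⟩,
   ⟨V6_10873753794, [(nat_lit 103, nat_lit 13054800066), (nat_lit 70, nat_lit 14128537794), (nat_lit 93, nat_lit 14111764674), (nat_lit 26, nat_lit 15202275522), (nat_lit 113, nat_lit 15185502402), (nat_lit 61, nat_lit 15168729282), (nat_lit 44, nat_lit 16259240130), (nat_lit 101, nat_lit 16242467010), (nat_lit 70, nat_lit 17316204738)]⟩],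
  [W_13054783616, W_13054525568, W_13020979328]⟩
theorem C_13054800066 : chkRec R_13054800066 = true := by decide +kernel

noncomputable def R_13054800129 : Rec := ⟨nat_lit 13054800129, nat_lit 14,
  [⟨V6_11947491585, [(nat_lit 18, nat_lit 13054800129), (nat_lit 51, nat_lit 14128537857), (nat_lit 22, nat_lit 14111764737), (nat_lit 49, nat_lit 15202275585), (nat_lit 42, nat_lit 15185502465), (nat_lit 71, nat_lit 15168729345), (nat_lit 2, nat_lit 16276013313), (nat_lit 43, nat_lit 16259240193), (nat_lit 73, nat_lit 16242467073), (nat_lit 60, nat_lit 17332977921), (nat_lit 49, nat_lit 17316204801), (nat_lit 91, nat_lit 18389942529)]⟩,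
   ⟨V6_10907304192, [(nat_lit 126, nat_lit 13054800129), (nat_lit 36, nat_lit 14128541952), (nat_lit 34, nat_lit 14128537857), (nat_lit 81, nat_lit 15202279680), (nat_lit 49, nat_lit 15202275585), (nat_lit 118, nat_lit 16276017408), (nat_lit 49, nat_lit 16276013313), (nat_lit 125, nat_lit 17349755136)]⟩,
   ⟨V6_10907042049, [(nat_lit 102, nat_lit 13054800129), (nat_lit 25, nat_lit 14128537857), (nat_lit 72, nat_lit 14128279809), (nat_lit 73, nat_lit 15202275585), (nat_lit 31, nat_lit 15202017537), (nat_lit 56, nat_lit 16276013313), (nat_lit 25, nat_lit 16275755265), (nat_lit 126, nat_lit 17349492993)]⟩,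
   ⟨V6_10890539073, [(nat_lit 35, nat_lit 13054800129), (nat_lit 78, nat_lit 14128541889), (nat_lit 73, nat_lit 14111764737), (nat_lit 41, nat_lit 15202283649), (nat_lit 34, nat_lit 15185506497), (nat_lit 17, nat_lit 16276025409), (nat_lit 12, nat_lit 16259248257), (nat_lit 14, nat_lit 17332990017)]⟩,
   ⟨V6_10890526977, [(nat_lit 115, nat_lit 13054800129), (nat_lit 70, nat_lit 14128537857), (nat_lit 81, nat_lit 14111764737), (nat_lit 65, nat_lit 15202275585), (nat_lit 119, nat_lit 15185502465), (nat_lit 97, nat_lit 16276013313), (nat_lit 81, nat_lit 16259240193), (nat_lit 29, nat_lit 17332977921)]⟩,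
   ⟨V6_10873499841, [(nat_lit 16, nat_lit 13054800129), (nat_lit 51, nat_lit 14128541889), (nat_lit 67, nat_lit 14128279809), (nat_lit 54, nat_lit 14111764737), (nat_lit 21, nat_lit 15202021569), (nat_lit 57, nat_lit 15185506497), (nat_lit 50, nat_lit 15185244417), (nat_lit 4, nat_lit 15168729345), (nat_lit 18, nat_lit 16258986177), (nat_lit 24, nat_lit 16242471105), (nat_lit 41, nat_lit 16242209025), (nat_lit 97, nat_lit 17315950785)]⟩],
  [W_13037756480, W_13021241408, W_13021237376, W_13020979328, W_11964018752, W_11947503680, W_10907042048, W_10873761920]⟩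
theorem C_13054800129 : chkRec R_13054800129 = true := by decide +kernel

noncomputable def R_13054800192 : Rec := ⟨nat_lit 13054800192, nat_lit 12,
  [⟨V6_13054537728, [(nat_lit 52, nat_lit 13054800192), (nat_lit 21, nat_lit 14128541952), (nat_lit 56, nat_lit 14128279872), (nat_lit 124, nat_lit 15202283712), (nat_lit 26, nat_lit 15202021632), (nat_lit 62, nat_lit 16276025472), (nat_lit 104, nat_lit 16275763392), (nat_lit 53, nat_lit 17349767232), (nat_lit 106, nat_lit 17349505152), (nat_lit 97, nat_lit 18423508992), (nat_lit 20, nat_lit 18423246912), (nat_lit 76, nat_lit 19496988672)]⟩,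
   ⟨V6_11981058048, [(nat_lit 8, nat_lit 13054800192), (nat_lit 9, nat_lit 14128541952), (nat_lit 102, nat_lit 15202283712), (nat_lit 94, nat_lit 16276025472), (nat_lit 27, nat_lit 17349767232), (nat_lit 81, nat_lit 18423508992)]⟩,
   ⟨V6_10907316288, [(nat_lit 5, nat_lit 13054800192), (nat_lit 112, nat_lit 14128541952), (nat_lit 115, nat_lit 15202283712), (nat_lit 97, nat_lit 16276025472), (nat_lit 6, nat_lit 17349767232)]⟩],
  [W_13021245440, W_13021237376, W_11964018752, W_11947503680, W_11947237568, W_11947233536, W_10907316224, W_10890272960, W_10873761920]⟩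
theorem C_13054800192 : chkRec R_13054800192 = true := by decide +kernel

noncomputable def R_13054804098 : Rec := ⟨nat_lit 13054804098, nat_lit 5,
  [⟨V6_13054779522, [(nat_lit 46, nat_lit 13054804098), (nat_lit 76, nat_lit 14128541826), (nat_lit 71, nat_lit 15202279554), (nat_lit 118, nat_lit 16276017282), (nat_lit 35, nat_lit 17349755010), (nat_lit 93, nat_lit 18423492738), (nat_lit 15, nat_lit 19497230466)]⟩,
   ⟨V6_10907304066, [(nat_lit 21, nat_lit 13054804098), (nat_lit 11, nat_lit 14128541826), (nat_lit 116, nat_lit 15202279554), (nat_lit 39, nat_lit 16276017282), (nat_lit 16, nat_lit 17349755010)]⟩],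
  [W_13021237376, W_10907308160, W_10873761920]⟩
theorem C_13054804098 : chkRec R_13054804098 = true := by decide +kernel

noncomputable def R_13054804161 : Rec := ⟨nat_lit 13054804161, nat_lit 9,
  [⟨V6_10907312256, [(nat_lit 40, nat_lit 13054804161), (nat_lit 33, nat_lit 14128545984), (nat_lit 91, nat_lit 14128545921), (nat_lit 81, nat_lit 14128541889), (nat_lit 92, nat_lit 15202287744), (nat_lit 55, nat_lit 15202283712), (nat_lit 60, nat_lit 15202283649), (nat_lit 8, nat_lit 15202279617), (nat_lit 67, nat_lit 16276025472), (nat_lit 120, nat_lit 16276021440), (nat_lit 83, nat_lit 16276021377), (nat_lit 83, nat_lit 17349763200)]⟩],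
  [W_13021241408, W_13021237376, W_13021233344, W_10873765952]⟩
theorem C_13054804161 : chkRec R_13054804161 = true := by decide +kernel

noncomputable def R_13054804224 : Rec := ⟨nat_lit 13054804224, nat_lit 14,
  [⟨V6_13021249536, [(nat_lit 113, nat_lit 13054804224), (nat_lit 63, nat_lit 14128545984), (nat_lit 115, nat_lit 14111768832), (nat_lit 6, nat_lit 15202287744), (nat_lit 115, nat_lit 15185510592), (nat_lit 58, nat_lit 15168733440), (nat_lit 87, nat_lit 16276029504), (nat_lit 30, nat_lit 16259252352), (nat_lit 69, nat_lit 16242475200), (nat_lit 111, nat_lit 17349771264), (nat_lit 10, nat_lit 17332994112), (nat_lit 123, nat_lit 17316216960), (nat_lit 36, nat_lit 18406735872), (nat_lit 35, nat_lit 18389958720), (nat_lit 108, nat_lit 19463700480)]⟩,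
   ⟨V6_10907320320, [(nat_lit 97, nat_lit 13054804224), (nat_lit 63, nat_lit 14128545984), (nat_lit 21, nat_lit 15202287744), (nat_lit 65, nat_lit 16276029504), (nat_lit 88, nat_lit 17349771264)]⟩,
   ⟨V6_10907304192, [(nat_lit 84, nat_lit 13054804224), (nat_lit 44, nat_lit 14128541952), (nat_lit 83, nat_lit 15202279680), (nat_lit 29, nat_lit 16276017408), (nat_lit 64, nat_lit 17349755136)]⟩],
  [W_13021245440, W_13021241408, W_13021237376, W_13021233344, W_11964280832, W_11947503680, W_10907316224, W_10873761920]⟩
theorem C_13054804224 : chkRec R_13054804224 = true := by decide +kernel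

noncomputable def R_13055049987 : Rec := ⟨nat_lit 13055049987, nat_lit 2,
  [⟨V6_10907566272, [(nat_lit 18, nat_lit 13055049987), (nat_lit 80, nat_lit 14128791810), (nat_lit 24, nat_lit 14128791747), (nat_lit 126, nat_lit 15202533633), (nat_lit 114, nat_lit 15202533570), (nat_lit 116, nat_lit 16276275456), (nat_lit 125, nat_lit 16276275393), (nat_lit 112, nat_lit 17350017216)]⟩],
  [W_13054001408, W_13037486336]⟩
theorem C_13055049987 : chkRec R_13055049987 = true := by decide +kernel

noncomputable def R_13055054019 : Rec := ⟨nat_lit 13055054019, nat_lit 3,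
  [⟨V6_10907566272, [(nat_lit 97, nat_lit 13055054019), (nat_lit 54, nat_lit 14128795842), (nat_lit 119, nat_lit 14128791747), (nat_lit 3, nat_lit 15202537665), (nat_lit 56, nat_lit 15202533570), (nat_lit 79, nat_lit 16276279488), (nat_lit 15, nat_lit 16276275393), (nat_lit 116, nat_lit 17350017216)]⟩],
  [W_13054263488]⟩
theorem C_13055054019 : chkRec R_13055054019 = true := by decide +kernel

noncomputable def R_13055054082 : Rec := ⟨nat_lit 13055054082, nat_lit 7,
  [⟨V6_10907566209, [(nat_lit 13, nat_lit 13055054082), (nat_lit 12, nat_lit 14128795905), (nat_lit 29, nat_lit 14128795842), (nat_lit 102, nat_lit 14128791810), (nat_lit 35, nat_lit 15202537665), (nat_lit 102, nat_lit 15202537602), (nat_lit 59, nat_lit 15202533633), (nat_lit 108, nat_lit 15202533570), (nat_lit 24, nat_lit 16276279425), (nat_lit 46, nat_lit 16276275393), (nat_lit 77, nat_lit 16276275330), (nat_lit 50, nat_lit 17350017153)]⟩,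
   ⟨V6_10907304066, [(nat_lit 124, nat_lit 13055054082), (nat_lit 122, nat_lit 14128795842), (nat_lit 82, nat_lit 14128791810), (nat_lit 64, nat_lit 14128533762), (nat_lit 62, nat_lit 15202537602), (nat_lit 27, nat_lit 15202533570), (nat_lit 123, nat_lit 15202275522), (nat_lit 111, nat_lit 15202271490), (nat_lit 125, nat_lit 16276275330), (nat_lit 52, nat_lit 16276017282), (nat_lit 86, nat_lit 16276013250), (nat_lit 44, nat_lit 17349755010)]⟩],
  [W_13054267520, W_13054263488, W_13054001408]⟩
theorem C_13055054082 : chkRec R_13055054082 = true := by decide +kernel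

noncomputable def R_13055054145 : Rec := ⟨nat_lit 13055054145, nat_lit 4,
  [⟨V6_10907308161, [(nat_lit 1, nat_lit 13055054145), (nat_lit 14, nat_lit 14128795905), (nat_lit 31, nat_lit 14128533825), (nat_lit 108, nat_lit 15202537665), (nat_lit 40, nat_lit 15202275585), (nat_lit 7, nat_lit 16276279425), (nat_lit 61, nat_lit 16276017345), (nat_lit 96, nat_lit 17349759105)]⟩],
  [W_13054267520, W_11964534848]⟩
theorem C_13055054145 : chkRec R_13055054145 = true := by decide +kernel

noncomputable def R_13055058114 : Rec := ⟨nat_lit 13055058114, nat_lit 10,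
  [⟨V6_10907566272, [(nat_lit 121, nat_lit 13055058114), (nat_lit 70, nat_lit 14128799937), (nat_lit 62, nat_lit 14128795842), (nat_lit 84, nat_lit 15202541760), (nat_lit 18, nat_lit 15202537665), (nat_lit 10, nat_lit 15202533570), (nat_lit 3, nat_lit 16276279488), (nat_lit 2, nat_lit 16276275393), (nat_lit 33, nat_lit 17350017216)]⟩,
   ⟨V6_10907304066, [(nat_lit 36, nat_lit 13055058114), (nat_lit 67, nat_lit 14128799874), (nat_lit 48, nat_lit 14128795842), (nat_lit 49, nat_lit 14128537794), (nat_lit 84, nat_lit 15202537602), (nat_lit 113, nat_lit 15202533570), (nat_lit 124, nat_lit 15202279554), (nat_lit 33, nat_lit 15202275522), (nat_lit 28, nat_lit 16276275330), (nat_lit 101, nat_lit 16276017282), (nat_lit 29, nat_lit 16276013250), (nat_lit 58, nat_lit 17349755010)]⟩,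
   ⟨V6_10907041986, [(nat_lit 49, nat_lit 13055058114), (nat_lit 80, nat_lit 14128795842), (nat_lit 117, nat_lit 14128537794), (nat_lit 98, nat_lit 15202533570), (nat_lit 126, nat_lit 15202275522), (nat_lit 35, nat_lit 15202017474), (nat_lit 6, nat_lit 16276013250), (nat_lit 123, nat_lit 16275755202), (nat_lit 51, nat_lit 17349492930)]⟩],
  [W_13054267520, W_13038268544, W_13038006464, W_13037494400, W_11964526784, W_10906788032]⟩
theorem C_13055058114 : chkRec R_13055058114 = true := by decide +kernel

noncomputable def R_13055058177 : Rec := ⟨nat_lit 13055058177, nat_lit 15,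
  [⟨V6_10907566272, [(nat_lit 122, nat_lit 13055058177), (nat_lit 118, nat_lit 14128800000), (nat_lit 13, nat_lit 14128799937), (nat_lit 53, nat_lit 14128795905), (nat_lit 91, nat_lit 15202541760), (nat_lit 45, nat_lit 15202537728), (nat_lit 45, nat_lit 15202537665), (nat_lit 24, nat_lit 15202533633), (nat_lit 12, nat_lit 16276279488), (nat_lit 86, nat_lit 16276275456), (nat_lit 8, nat_lit 16276275393), (nat_lit 8, nat_lit 17350017216)]⟩,
   ⟨V6_10907566209, [(nat_lit 67, nat_lit 13055058177), (nat_lit 21, nat_lit 14128799937), (nat_lit 13, nat_lit 14128795905), (nat_lit 107, nat_lit 15202541697), (nat_lit 56, nat_lit 15202537665), (nat_lit 106, nat_lit 15202533633), (nat_lit 56, nat_lit 16276279425), (nat_lit 65, nat_lit 16276275393), (nat_lit 89, nat_lit 17350017153)]⟩,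
   ⟨V6_10907304192, [(nat_lit 104, nat_lit 13055058177), (nat_lit 123, nat_lit 14128800000), (nat_lit 53, nat_lit 14128795905), (nat_lit 65, nat_lit 14128537857), (nat_lit 43, nat_lit 15202537728), (nat_lit 89, nat_lit 15202533633), (nat_lit 16, nat_lit 15202279680), (nat_lit 120, nat_lit 15202275585), (nat_lit 3, nat_lit 16276275456), (nat_lit 79, nat_lit 16276017408), (nat_lit 23, nat_lit 16276013313), (nat_lit 29, nat_lit 17349755136)]⟩,
   ⟨V6_10890526977, [(nat_lit 59, nat_lit 13055058177), (nat_lit 123, nat_lit 14128795905), (nat_lit 89, nat_lit 14128537857), (nat_lit 34, nat_lit 14112022785), (nat_lit 96, nat_lit 15202533633), (nat_lit 27, nat_lit 15202275585), (nat_lit 71, nat_lit 15185760513), (nat_lit 110, nat_lit 15185502465), (nat_lit 87, nat_lit 16276013313), (nat_lit 102, nat_lit 16259498241), (nat_lit 123, nat_lit 16259240193), (nat_lit 28, nat_lit 17332977921)]⟩],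
  [W_13054271552, W_13054267520, W_13038272576, W_13037756480, W_13037494400, W_11964534848, W_10906788032]⟩
theorem C_13055058177 : chkRec R_13055058177 = true := by decide +kernel

noncomputable def R_13055058240 : Rec := ⟨nat_lit 13055058240, nat_lit 13,
  [⟨V6_13055053824, [(nat_lit 108, nat_lit 13055058240), (nat_lit 70, nat_lit 14128800000), (nat_lit 117, nat_lit 14128795968), (nat_lit 119, nat_lit 15202541760), (nat_lit 87, nat_lit 15202537728), (nat_lit 60, nat_lit 16276283520), (nat_lit 114, nat_lit 16276279488), (nat_lit 3, nat_lit 17350025280), (nat_lit 104, nat_lit 17350021248), (nat_lit 67, nat_lit 18423767040), (nat_lit 16, nat_lit 18423763008), (nat_lit 70, nat_lit 19497504768)]⟩,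
   ⟨V6_13038280704, [(nat_lit 107, nat_lit 13055058240), (nat_lit 22, nat_lit 14128800000), (nat_lit 72, nat_lit 14112022848), (nat_lit 16, nat_lit 15202541760), (nat_lit 3, nat_lit 15185764608), (nat_lit 110, nat_lit 16276283520), (nat_lit 38, nat_lit 16259506368), (nat_lit 38, nat_lit 17350025280), (nat_lit 24, nat_lit 17333248128), (nat_lit 53, nat_lit 18423767040), (nat_lit 49, nat_lit 18406989888), (nat_lit 77, nat_lit 19480731648)]⟩],
  [W_13054271552, W_13037494400, W_11980525760, W_11963748608, W_10907574272, W_10890531008, W_10890272960, W_10890010880]⟩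
theorem C_13055058240 : chkRec R_13055058240 = true := by decide +kernel

noncomputable def R_13055062146 : Rec := ⟨nat_lit 13055062146, nat_lit 4,
  [⟨V6_10907304066, [(nat_lit 29, nat_lit 13055062146), (nat_lit 46, nat_lit 14128799874), (nat_lit 98, nat_lit 14128541826), (nat_lit 33, nat_lit 15202537602), (nat_lit 107, nat_lit 15202279554), (nat_lit 19, nat_lit 16276275330), (nat_lit 62, nat_lit 16276017282), (nat_lit 8, nat_lit 17349755010)]⟩],
  [W_13054783616, W_13038268544]⟩
theorem C_13055062146 : chkRec R_13055062146 = true := by decide +kernel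

noncomputable def R_13055062209 : Rec := ⟨nat_lit 13055062209, nat_lit 13,
  [⟨V6_10907566272, [(nat_lit 118, nat_lit 13055062209), (nat_lit 70, nat_lit 14128804032), (nat_lit 52, nat_lit 14128799937), (nat_lit 94, nat_lit 15202541760), (nat_lit 60, nat_lit 15202537665), (nat_lit 46, nat_lit 16276279488), (nat_lit 60, nat_lit 16276275393), (nat_lit 109, nat_lit 17350017216)]⟩,
   ⟨V6_10907566209, [(nat_lit 92, nat_lit 13055062209), (nat_lit 11, nat_lit 14128803969), (nat_lit 84, nat_lit 14128799937), (nat_lit 36, nat_lit 15202541697), (nat_lit 117, nat_lit 15202537665), (nat_lit 68, nat_lit 16276279425), (nat_lit 43, nat_lit 16276275393), (nat_lit 33, nat_lit 17350017153)]⟩,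
   ⟨V6_10907316288, [(nat_lit 117, nat_lit 13055062209), (nat_lit 36, nat_lit 14128804032), (nat_lit 103, nat_lit 14128803969), (nat_lit 53, nat_lit 14128541889), (nat_lit 21, nat_lit 15202545792), (nat_lit 89, nat_lit 15202545729), (nat_lit 7, nat_lit 15202283712), (nat_lit 76, nat_lit 15202283649), (nat_lit 2, nat_lit 16276287552), (nat_lit 70, nat_lit 16276025472), (nat_lit 25, nat_lit 16276025409), (nat_lit 102, nat_lit 17349767232)]⟩,
   ⟨V6_10907308161, [(nat_lit 120, nat_lit 13055062209), (nat_lit 14, nat_lit 14128803969), (nat_lit 126, nat_lit 14128799937), (nat_lit 78, nat_lit 14128541889), (nat_lit 55, nat_lit 15202541697), (nat_lit 42, nat_lit 15202537665), (nat_lit 29, nat_lit 15202283649), (nat_lit 8, nat_lit 15202279617), (nat_lit 76, nat_lit 16276279425), (nat_lit 59, nat_lit 16276021377), (nat_lit 48, nat_lit 16276017345), (nat_lit 22, nat_lit 17349759105)]⟩],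
  [W_13055045696, W_13054521536, W_13038272576, W_13038268544, W_13038006464, W_13037756480, W_11964534848, W_11964526784, W_11964018752]⟩
theorem C_13055062209 : chkRec R_13055062209 = true := by decide +kernel

noncomputable def R_13055062272 : Rec := ⟨nat_lit 13055062272, nat_lit 15,
  [⟨V6_11981058048, [(nat_lit 37, nat_lit 13055062272), (nat_lit 102, nat_lit 14128804032), (nat_lit 58, nat_lit 14128541952), (nat_lit 44, nat_lit 15202545792), (nat_lit 92, nat_lit 15202283712), (nat_lit 42, nat_lit 16276287552), (nat_lit 40, nat_lit 16276025472), (nat_lit 110, nat_lit 17350029312), (nat_lit 30, nat_lit 17349767232), (nat_lit 33, nat_lit 18423508992)]⟩,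
   ⟨V6_10907316288, [(nat_lit 93, nat_lit 13055062272), (nat_lit 84, nat_lit 14128804032), (nat_lit 115, nat_lit 14128541952), (nat_lit 101, nat_lit 15202545792), (nat_lit 34, nat_lit 15202283712), (nat_lit 104, nat_lit 16276287552), (nat_lit 71, nat_lit 16276025472), (nat_lit 49, nat_lit 17349767232)]⟩,
   ⟨V6_10907304192, [(nat_lit 26, nat_lit 13055062272), (nat_lit 50, nat_lit 14128800000), (nat_lit 101, nat_lit 14128541952), (nat_lit 69, nat_lit 15202537728), (nat_lit 39, nat_lit 15202279680), (nat_lit 109, nat_lit 16276275456), (nat_lit 95, nat_lit 16276017408), (nat_lit 86, nat_lit 17349755136)]⟩],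
  [W_13054533632, W_13037756480, W_11980795904, W_11980783808, W_11964280832, W_11964018752, W_10907574272, W_10907042048]⟩
theorem C_13055062272 : chkRec R_13055062272 = true := by decide +kernel

noncomputable def R_13055066241 : Rec := ⟨nat_lit 13055066241, nat_lit 7,
  [⟨V6_10907566209, [(nat_lit 125, nat_lit 13055066241), (nat_lit 5, nat_lit 14128803969), (nat_lit 122, nat_lit 15202541697), (nat_lit 87, nat_lit 16276279425), (nat_lit 65, nat_lit 17350017153)]⟩,
   ⟨V6_10907308161, [(nat_lit 24, nat_lit 13055066241), (nat_lit 41, nat_lit 14128803969), (nat_lit 97, nat_lit 14128545921), (nat_lit 10, nat_lit 15202541697), (nat_lit 101, nat_lit 15202283649), (nat_lit 30, nat_lit 16276279425), (nat_lit 13, nat_lit 16276021377), (nat_lit 67, nat_lit 17349759105)]⟩],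
  [W_13055045696, W_13054787648]⟩
theorem C_13055066241 : chkRec R_13055066241 = true := by decide +kernel

noncomputable def R_13055066304 : Rec := ⟨nat_lit 13055066304, nat_lit 12,
  [⟨V6_11981058048, [(nat_lit 74, nat_lit 13055066304), (nat_lit 20, nat_lit 14128808064), (nat_lit 6, nat_lit 14128804032), (nat_lit 57, nat_lit 14128545984), (nat_lit 13, nat_lit 15202549824), (nat_lit 61, nat_lit 15202545792), (nat_lit 91, nat_lit 15202287744), (nat_lit 116, nat_lit 15202283712), (nat_lit 75, nat_lit 16276291584), (nat_lit 84, nat_lit 16276287552), (nat_lit 56, nat_lit 16276029504), (nat_lit 6, nat_lit 16276025472), (nat_lit 82, nat_lit 17350029312), (nat_lit 38, nat_lit 17349771264), (nat_lit 121, nat_lit 17349767232), (nat_lit 122, nat_lit 18423508992)]⟩,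
   ⟨V6_10907566272, [(nat_lit 36, nat_lit 13055066304), (nat_lit 37, nat_lit 14128804032), (nat_lit 90, nat_lit 15202541760), (nat_lit 85, nat_lit 16276279488), (nat_lit 100, nat_lit 17350017216)]⟩,
   ⟨V6_10907320320, [(nat_lit 26, nat_lit 13055066304), (nat_lit 121, nat_lit 14128808064), (nat_lit 125, nat_lit 14128545984), (nat_lit 72, nat_lit 15202549824), (nat_lit 107, nat_lit 15202287744), (nat_lit 65, nat_lit 16276291584), (nat_lit 116, nat_lit 16276029504), (nat_lit 8, nat_lit 17349771264)]⟩],
  [W_13055045696, W_13038272576, W_13038268544, W_13038018560, W_11964534848, W_11964526784, W_10907574272]⟩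
theorem C_13055066304 : chkRec R_13055066304 = true := by decide +kernel

noncomputable def R_13055070273 : Rec := ⟨nat_lit 13055070273, nat_lit 1,
  [⟨V6_10890801216, [(nat_lit 83, nat_lit 13055070273), (nat_lit 24, nat_lit 14128812096), (nat_lit 78, nat_lit 14128808001), (nat_lit 23, nat_lit 14112034881), (nat_lit 20, nat_lit 15202549824), (nat_lit 67, nat_lit 15202545729), (nat_lit 95, nat_lit 15185776704), (nat_lit 40, nat_lit 15185772609), (nat_lit 87, nat_lit 16276287552), (nat_lit 97, nat_lit 16259514432), (nat_lit 3, nat_lit 16259510337), (nat_lit 64, nat_lit 17333252160)]⟩],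
  [W_13055045696]⟩
theorem C_13055070273 : chkRec R_13055070273 = true := by decide +kernel

noncomputable def R_13055070336 : Rec := ⟨nat_lit 13055070336, nat_lit 2,
  [⟨V6_13038280704, [(nat_lit 7, nat_lit 13055070336), (nat_lit 58, nat_lit 14128812096), (nat_lit 112, nat_lit 14128808064), (nat_lit 28, nat_lit 14112034944), (nat_lit 117, nat_lit 15202553856), (nat_lit 88, nat_lit 15202549824), (nat_lit 96, nat_lit 15202545792), (nat_lit 90, nat_lit 15185776704), (nat_lit 123, nat_lit 15185772672), (nat_lit 35, nat_lit 16276291584), (nat_lit 77, nat_lit 16276287552), (nat_lit 123, nat_lit 16276283520), (nat_lit 18, nat_lit 16259518464), (nat_lit 31, nat_lit 16259514432), (nat_lit 29, nat_lit 16259510400), (nat_lit 17, nat_lit 17350029312), (nat_lit 111, nat_lit 17350025280), (nat_lit 72, nat_lit 17333256192), (nat_lit 12, nat_lit 17333252160), (nat_lit 107, nat_lit 17333248128), (nat_lit 108, nat_lit 18423767040), (nat_lit 9, nat_lit 18406993920), (nat_lit 4, nat_lit 18406989888), (nat_lit 11, nat_lit 19480731648)]⟩],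
  [W_13055041664, W_10907566208]⟩
theorem C_13055070336 : chkRec R_13055070336 = true := by decide +kernel

noncomputable def R_13055312067 : Rec := ⟨nat_lit 13055312067, nat_lit 1,
  [⟨V6_10907037891, [(nat_lit 66, nat_lit 13055312067), (nat_lit 8, nat_lit 14129049795), (nat_lit 51, nat_lit 14128791747), (nat_lit 65, nat_lit 15202529475), (nat_lit 2, nat_lit 15202271427), (nat_lit 88, nat_lit 16276009155), (nat_lit 83, nat_lit 16275751107), (nat_lit 100, nat_lit 17349488835)]⟩],
  [W_13054263488]⟩
theorem C_13055312067 : chkRec R_13055312067 = true := by decide +kernel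

noncomputable def R_13055312130 : Rec := ⟨nat_lit 13055312130, nat_lit 5,
  [⟨V6_10907304066, [(nat_lit 94, nat_lit 13055312130), (nat_lit 126, nat_lit 14129053890), (nat_lit 33, nat_lit 14128791810), (nat_lit 25, nat_lit 15202795650), (nat_lit 126, nat_lit 15202533570), (nat_lit 3, nat_lit 15202271490), (nat_lit 65, nat_lit 16276275330), (nat_lit 42, nat_lit 16276013250), (nat_lit 63, nat_lit 17349755010)]⟩,
   ⟨V6_10907041986, [(nat_lit 72, nat_lit 13055312130), (nat_lit 24, nat_lit 14129053890), (nat_lit 106, nat_lit 14128791810), (nat_lit 7, nat_lit 15202533570), (nat_lit 12, nat_lit 15202271490), (nat_lit 70, nat_lit 16276013250), (nat_lit 82, nat_lit 16275751170), (nat_lit 111, nat_lit 17349492930)]⟩],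
  [W_13054525568, W_13054001408]⟩
theorem C_13055312130 : chkRec R_13055312130 = true := by decide +kernel

noncomputable def R_13055316162 : Rec := ⟨nat_lit 13055316162, nat_lit 4,
  [⟨V6_10907304066, [(nat_lit 27, nat_lit 13055316162), (nat_lit 116, nat_lit 14129057922), (nat_lit 98, nat_lit 14129053890), (nat_lit 99, nat_lit 14128795842), (nat_lit 8, nat_lit 15202795650), (nat_lit 56, nat_lit 15202537602), (nat_lit 14, nat_lit 15202533570), (nat_lit 92, nat_lit 15202275522), (nat_lit 32, nat_lit 16276275330), (nat_lit 57, nat_lit 16276017282), (nat_lit 5, nat_lit 16276013250), (nat_lit 43, nat_lit 17349755010)]⟩],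
  [W_13054783616, W_13054521536]⟩
theorem C_13055316162 : chkRec R_13055316162 = true := by decide +kernel

noncomputable def R_13055316225 : Rec := ⟨nat_lit 13055316225, nat_lit 7,
  [⟨V6_10907304192, [(nat_lit 82, nat_lit 13055316225), (nat_lit 22, nat_lit 14129058048), (nat_lit 37, nat_lit 14129053953), (nat_lit 109, nat_lit 14128795905), (nat_lit 38, nat_lit 15202795776), (nat_lit 3, nat_lit 15202537728), (nat_lit 119, nat_lit 15202533633), (nat_lit 59, nat_lit 15202275585), (nat_lit 5, nat_lit 16276275456), (nat_lit 46, nat_lit 16276017408), (nat_lit 72, nat_lit 16276013313), (nat_lit 34, nat_lit 17349755136)]⟩,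
   ⟨V6_10907042049, [(nat_lit 57, nat_lit 13055316225), (nat_lit 37, nat_lit 14129053953), (nat_lit 98, nat_lit 14128795905), (nat_lit 28, nat_lit 15202533633), (nat_lit 119, nat_lit 15202275585), (nat_lit 46, nat_lit 16276013313), (nat_lit 14, nat_lit 16275755265), (nat_lit 75, nat_lit 17349492993)]⟩],
  [W_13054267520, W_13054263488, W_13054001408, W_10907828288]⟩
theorem C_13055316225 : chkRec R_13055316225 = true := by decide +kernel

noncomputable def R_13055316288 : Rec := ⟨nat_lit 13055316288, nat_lit 2,
  [⟨V6_11981574144, [(nat_lit 4, nat_lit 13055316288), (nat_lit 68, nat_lit 14129058048), (nat_lit 51, nat_lit 15202799808), (nat_lit 47, nat_lit 16276541568), (nat_lit 77, nat_lit 17350283328), (nat_lit 104, nat_lit 18424025088)]⟩],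
  [W_13054267520]⟩
theorem C_13055316288 : chkRec R_13055316288 = true := by decide +kernel

noncomputable def R_13055320194 : Rec := ⟨nat_lit 13055320194, nat_lit 6,
  [⟨V6_10907820162, [(nat_lit 105, nat_lit 13055320194), (nat_lit 87, nat_lit 14129057922), (nat_lit 9, nat_lit 15202795650), (nat_lit 59, nat_lit 16276533378), (nat_lit 101, nat_lit 17350271106)]⟩,
   ⟨V6_10907304066, [(nat_lit 105, nat_lit 13055320194), (nat_lit 115, nat_lit 14129057922), (nat_lit 111, nat_lit 14128799874), (nat_lit 26, nat_lit 15202795650), (nat_lit 14, nat_lit 15202537602), (nat_lit 6, nat_lit 15202279554), (nat_lit 45, nat_lit 16276275330), (nat_lit 96, nat_lit 16276017282), (nat_lit 13, nat_lit 17349755010)]⟩],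
  [W_13055041664, W_13054783616, W_11981561984]⟩
theorem C_13055320194 : chkRec R_13055320194 = true := by decide +kernel

noncomputable def R_13055320257 : Rec := ⟨nat_lit 13055320257, nat_lit 10,
  [⟨V6_10907312256, [(nat_lit 58, nat_lit 13055320257), (nat_lit 49, nat_lit 14129062080), (nat_lit 28, nat_lit 14129062017), (nat_lit 10, nat_lit 14128799937), (nat_lit 8, nat_lit 15202803840), (nat_lit 41, nat_lit 15202541760), (nat_lit 87, nat_lit 15202541697), (nat_lit 46, nat_lit 15202279617), (nat_lit 6, nat_lit 16276283520), (nat_lit 2, nat_lit 16276021440), (nat_lit 57, nat_lit 16276021377), (nat_lit 9, nat_lit 17349763200)]⟩],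
  [W_13055045696, W_13054271552, W_13054263488, W_11981566016]⟩
theorem C_13055320257 : chkRec R_13055320257 = true := by decide +kernel

noncomputable def R_13055320320 : Rec := ⟨nat_lit 13055320320, nat_lit 16,
  [⟨V6_13055311872, [(nat_lit 51, nat_lit 13055320320), (nat_lit 74, nat_lit 14129062080), (nat_lit 116, nat_lit 14129058048), (nat_lit 80, nat_lit 15202803840), (nat_lit 25, nat_lit 15202799808), (nat_lit 15, nat_lit 15202795776), (nat_lit 4, nat_lit 16276545600), (nat_lit 54, nat_lit 16276541568), (nat_lit 70, nat_lit 16276537536), (nat_lit 47, nat_lit 17350287360), (nat_lit 106, nat_lit 17350283328), (nat_lit 5, nat_lit 17350279296), (nat_lit 51, nat_lit 18424025088), (nat_lit 92, nat_lit 18424021056), (nat_lit 115, nat_lit 19497762816)]⟩,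
   ⟨V6_10907304192, [(nat_lit 15, nat_lit 13055320320), (nat_lit 89, nat_lit 14129058048), (nat_lit 34, nat_lit 14128800000), (nat_lit 40, nat_lit 15202795776), (nat_lit 2, nat_lit 15202537728), (nat_lit 19, nat_lit 15202279680), (nat_lit 79, nat_lit 16276275456), (nat_lit 50, nat_lit 16276017408), (nat_lit 20, nat_lit 17349755136)]⟩],
  [W_13054271552, W_13054267520, W_13054263488, W_11981570048, W_10907832320, W_10907828288, W_10907574272, W_10907566208, W_10906788032]⟩
theorem C_13055320320 : chkRec R_13055320320 = true := by decide +kernel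

noncomputable def R_13055324289 : Rec := ⟨nat_lit 13055324289, nat_lit 8,
  [⟨V6_11981561985, [(nat_lit 124, nat_lit 13055324289), (nat_lit 54, nat_lit 14129062017), (nat_lit 66, nat_lit 15202799745), (nat_lit 73, nat_lit 16276537473), (nat_lit 86, nat_lit 17350275201), (nat_lit 89, nat_lit 18424012929)]⟩,
   ⟨V6_10907828352, [(nat_lit 46, nat_lit 13055324289), (nat_lit 122, nat_lit 14129066112), (nat_lit 87, nat_lit 14129062017), (nat_lit 84, nat_lit 15202803840), (nat_lit 32, nat_lit 15202799745), (nat_lit 33, nat_lit 16276541568), (nat_lit 32, nat_lit 16276537473), (nat_lit 92, nat_lit 17350279296)]⟩,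
   ⟨V6_10907566209, [(nat_lit 12, nat_lit 13055324289), (nat_lit 109, nat_lit 14129062017), (nat_lit 17, nat_lit 14128803969), (nat_lit 5, nat_lit 15202799745), (nat_lit 49, nat_lit 15202541697), (nat_lit 58, nat_lit 16276537473), (nat_lit 109, nat_lit 16276279425), (nat_lit 106, nat_lit 17350017153)]⟩],
  [W_13055303744, W_13055045696, W_13055041664, W_11981566016, W_11981561984]⟩
theorem C_13055324289 : chkRec R_13055324289 = true := by decide +kernel

noncomputable def R_13055324352 : Rec := ⟨nat_lit 13055324352, nat_lit 13,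
  [⟨V6_13055311872, [(nat_lit 74, nat_lit 13055324352), (nat_lit 1, nat_lit 14129066112), (nat_lit 6, nat_lit 14129062080), (nat_lit 8, nat_lit 15202807872), (nat_lit 52, nat_lit 15202803840), (nat_lit 35, nat_lit 15202799808), (nat_lit 53, nat_lit 16276549632), (nat_lit 36, nat_lit 16276545600), (nat_lit 126, nat_lit 16276541568), (nat_lit 75, nat_lit 16276537536), (nat_lit 49, nat_lit 17350287360), (nat_lit 64, nat_lit 17350283328), (nat_lit 18, nat_lit 17350279296), (nat_lit 115, nat_lit 18424025088), (nat_lit 92, nat_lit 18424021056), (nat_lit 113, nat_lit 19497762816)]⟩],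
  [W_13055045696, W_13054521536, W_11981041856, W_11980795904, W_11980787840, W_11980783808, W_10907566208, W_10907316224, W_10907304128]⟩
theorem C_13055324352 : chkRec R_13055324352 = true := by decide +kernel

noncomputable def R_13055328321 : Rec := ⟨nat_lit 13055328321, nat_lit 3,
  [⟨V6_10907316288, [(nat_lit 67, nat_lit 13055328321), (nat_lit 20, nat_lit 14129070144), (nat_lit 28, nat_lit 14129066049), (nat_lit 27, nat_lit 14128808001), (nat_lit 35, nat_lit 15202807872), (nat_lit 46, nat_lit 15202549824), (nat_lit 116, nat_lit 15202545729), (nat_lit 64, nat_lit 15202287681), (nat_lit 35, nat_lit 16276287552), (nat_lit 35, nat_lit 16276029504), (nat_lit 6, nat_lit 16276025409), (nat_lit 76, nat_lit 17349767232)]⟩],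
  [W_13055303744, W_11981566016]⟩
theorem C_13055328321 : chkRec R_13055328321 = true := by decide +kernel

noncomputable def R_13055328384 : Rec := ⟨nat_lit 13055328384, nat_lit 12,
  [⟨V6_11981574144, [(nat_lit 66, nat_lit 13055328384), (nat_lit 58, nat_lit 14129070144), (nat_lit 54, nat_lit 14129066112), (nat_lit 2, nat_lit 15202811904), (nat_lit 47, nat_lit 15202807872), (nat_lit 71, nat_lit 15202803840), (nat_lit 121, nat_lit 16276549632), (nat_lit 43, nat_lit 16276545600), (nat_lit 48, nat_lit 16276541568), (nat_lit 15, nat_lit 17350287360), (nat_lit 75, nat_lit 17350283328), (nat_lit 121, nat_lit 18424025088)]⟩,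
   ⟨V6_10907828352, [(nat_lit 105, nat_lit 13055328384), (nat_lit 55, nat_lit 14129066112), (nat_lit 72, nat_lit 15202803840), (nat_lit 68, nat_lit 16276541568), (nat_lit 80, nat_lit 17350279296)]⟩,
   ⟨V6_10907320320, [(nat_lit 54, nat_lit 13055328384), (nat_lit 2, nat_lit 14129070144), (nat_lit 65, nat_lit 14128808064), (nat_lit 65, nat_lit 15202811904), (nat_lit 25, nat_lit 15202549824), (nat_lit 26, nat_lit 15202287744), (nat_lit 7, nat_lit 16276291584), (nat_lit 26, nat_lit 16276029504), (nat_lit 101, nat_lit 17349771264)]⟩],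
  [W_13055307776, W_13055303744, W_13055045696, W_13055041664, W_11981561984, W_10907574272, W_10907316224]⟩
theorem C_13055328384 : chkRec R_13055328384 = true := by decide +kernel

noncomputable def R_13055332416 : Rec := ⟨nat_lit 13055332416, nat_lit 4,
  [⟨V6_11981574144, [(nat_lit 81, nat_lit 13055332416), (nat_lit 40, nat_lit 14129074176), (nat_lit 15, nat_lit 14129070144), (nat_lit 71, nat_lit 15202811904), (nat_lit 110, nat_lit 15202807872), (nat_lit 72, nat_lit 16276549632), (nat_lit 43, nat_lit 16276545600), (nat_lit 27, nat_lit 17350287360), (nat_lit 45, nat_lit 17350283328), (nat_lit 24, nat_lit 18424025088)]⟩],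
  [W_13055303744, W_13055045696]⟩
theorem C_13055332416 : chkRec R_13055332416 = true := by decide +kernel

noncomputable def R_13055336448 : Rec := ⟨nat_lit 13055336448, nat_lit 2,
  [⟨V6_11981574144, [(nat_lit 56, nat_lit 13055336448), (nat_lit 25, nat_lit 14129074176), (nat_lit 55, nat_lit 15202811904), (nat_lit 54, nat_lit 16276549632), (nat_lit 106, nat_lit 17350287360), (nat_lit 44, nat_lit 18424025088)]⟩],
  [W_13055307776]⟩
theorem C_13055336448 : chkRec R_13055336448 = true := by decide +kernel

noncomputable def R_13071044868 : Rec := ⟨nat_lit 13071044868, nat_lit 1,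
  [⟨V6_12987154692, [(nat_lit 74, nat_lit 13071044868), (nat_lit 96, nat_lit 14144782596), (nat_lit 40, nat_lit 14128009476), (nat_lit 106, nat_lit 15201747204), (nat_lit 4, nat_lit 15184974084), (nat_lit 5, nat_lit 16258711812), (nat_lit 64, nat_lit 16241938692), (nat_lit 46, nat_lit 17315676420), (nat_lit 95, nat_lit 17298903300), (nat_lit 66, nat_lit 18372641028), (nat_lit 25, nat_lit 18355867908), (nat_lit 72, nat_lit 19429605636)]⟩],
  [W_13054001408]⟩
theorem C_13071044868 : chkRec R_13071044868 = true := by decide +kernel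

noncomputable def R_13071044931 : Rec := ⟨nat_lit 13071044931, nat_lit 1,
  [⟨V6_11930194179, [(nat_lit 71, nat_lit 13071044931), (nat_lit 120, nat_lit 14144786691), (nat_lit 3, nat_lit 14128009539), (nat_lit 74, nat_lit 15201751299), (nat_lit 57, nat_lit 15184974147), (nat_lit 118, nat_lit 16258715907), (nat_lit 32, nat_lit 16241938755), (nat_lit 55, nat_lit 17315680515), (nat_lit 22, nat_lit 17298903363), (nat_lit 116, nat_lit 18372645123)]⟩],
  [W_11997040832]⟩
theorem C_13071044931 : chkRec R_13071044931 = true := by decide +kernel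

noncomputable def R_13071048963 : Rec := ⟨nat_lit 13071048963, nat_lit 3,
  [⟨V6_12987162882, [(nat_lit 121, nat_lit 13071048963), (nat_lit 71, nat_lit 14144790786), (nat_lit 64, nat_lit 14128013571), (nat_lit 42, nat_lit 15201755394), (nat_lit 80, nat_lit 15184978179), (nat_lit 45, nat_lit 16258720002), (nat_lit 82, nat_lit 16241942787), (nat_lit 87, nat_lit 17315684610), (nat_lit 42, nat_lit 17298907395), (nat_lit 114, nat_lit 18372649218), (nat_lit 30, nat_lit 18355872003), (nat_lit 100, nat_lit 19429613826)]⟩],
  [W_13054263488]⟩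
theorem C_13071048963 : chkRec R_13071048963 = true := by decide +kernel

noncomputable def R_13071049026 : Rec := ⟨nat_lit 13071049026, nat_lit 3,
  [⟨V6_12987162882, [(nat_lit 116, nat_lit 13071049026), (nat_lit 28, nat_lit 14144790786), (nat_lit 116, nat_lit 14128013634), (nat_lit 22, nat_lit 15201755394), (nat_lit 90, nat_lit 15184978242), (nat_lit 53, nat_lit 16258720002), (nat_lit 81, nat_lit 16241942850), (nat_lit 86, nat_lit 17315684610), (nat_lit 40, nat_lit 17298907458), (nat_lit 84, nat_lit 18372649218), (nat_lit 97, nat_lit 18355872066), (nat_lit 109, nat_lit 19429613826)]⟩],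
  [W_13054267520]⟩
theorem C_13071049026 : chkRec R_13071049026 = true := by decide +kernel

noncomputable def R_13071049089 : Rec := ⟨nat_lit 13071049089, nat_lit 3,
  [⟨V6_11997306945, [(nat_lit 48, nat_lit 13071049089), (nat_lit 23, nat_lit 14144790849), (nat_lit 4, nat_lit 15218532609), (nat_lit 65, nat_lit 16292274369), (nat_lit 81, nat_lit 17366016129), (nat_lit 52, nat_lit 18439757889)]⟩],
  [W_13037494400]⟩
theorem C_13071049089 : chkRec R_13071049089 = true := by decide +kernel

noncomputable def R_13071307011 : Rec := ⟨nat_lit 13071307011, nat_lit 4,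
  [⟨V6_13004198082, [(nat_lit 122, nat_lit 13071307011), (nat_lit 58, nat_lit 14145048834), (nat_lit 53, nat_lit 14145048771), (nat_lit 30, nat_lit 14128271619), (nat_lit 10, nat_lit 15218790594), (nat_lit 43, nat_lit 15202013442), (nat_lit 29, nat_lit 15202013379), (nat_lit 63, nat_lit 15185236227), (nat_lit 78, nat_lit 16275755202), (nat_lit 52, nat_lit 16258978050), (nat_lit 105, nat_lit 16258977987), (nat_lit 27, nat_lit 16242200835), (nat_lit 45, nat_lit 17332719810), (nat_lit 50, nat_lit 17315942658), (nat_lit 82, nat_lit 17315942595), (nat_lit 11, nat_lit 17299165443), (nat_lit 30, nat_lit 18389684418), (nat_lit 100, nat_lit 18372907266), (nat_lit 88, nat_lit 18372907203), (nat_lit 93, nat_lit 19446649026)]⟩,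
   ⟨V6_11997040833, [(nat_lit 14, nat_lit 13071307011), (nat_lit 76, nat_lit 14145048834), (nat_lit 19, nat_lit 14145048771), (nat_lit 120, nat_lit 14144786691), (nat_lit 31, nat_lit 15218790657), (nat_lit 71, nat_lit 15218790594), (nat_lit 30, nat_lit 15218528514), (nat_lit 88, nat_lit 15218528451), (nat_lit 21, nat_lit 15218266371), (nat_lit 113, nat_lit 16292532417), (nat_lit 78, nat_lit 16292270337), (nat_lit 114, nat_lit 16292270274), (nat_lit 107, nat_lit 16292008194), (nat_lit 74, nat_lit 16292008131), (nat_lit 35, nat_lit 17366012097), (nat_lit 21, nat_lit 17365750017), (nat_lit 29, nat_lit 17365749954), (nat_lit 111, nat_lit 18439491777)]⟩,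
   ⟨V6_11997036801, [(nat_lit 59, nat_lit 13071307011), (nat_lit 45, nat_lit 14145048834), (nat_lit 74, nat_lit 14145044739), (nat_lit 66, nat_lit 14144786691), (nat_lit 12, nat_lit 15218790657), (nat_lit 15, nat_lit 15218786562), (nat_lit 120, nat_lit 15218528514), (nat_lit 49, nat_lit 15218524419), (nat_lit 118, nat_lit 15218266371), (nat_lit 110, nat_lit 16292528385), (nat_lit 95, nat_lit 16292270337), (nat_lit 45, nat_lit 16292266242), (nat_lit 31, nat_lit 16292008194), (nat_lit 95, nat_lit 16292004099), (nat_lit 51, nat_lit 17366008065), (nat_lit 60, nat_lit 17365750017), (nat_lit 79, nat_lit 17365745922), (nat_lit 63, nat_lit 18439487745)]⟩],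
  [W_13054001408, W_13020971264, W_13020713216, W_11997040832]⟩
theorem C_13071307011 : chkRec R_13071307011 = true := by decide +kernel

noncomputable def R_13071307074 : Rec := ⟨nat_lit 13071307074, nat_lit 3,
  [⟨V6_13004198082, [(nat_lit 84, nat_lit 13071307074), (nat_lit 112, nat_lit 14145048834), (nat_lit 79, nat_lit 14128271682), (nat_lit 53, nat_lit 15218790594), (nat_lit 113, nat_lit 15202013442), (nat_lit 4, nat_lit 15185236290), (nat_lit 35, nat_lit 16275755202), (nat_lit 20, nat_lit 16258978050), (nat_lit 117, nat_lit 16242200898), (nat_lit 124, nat_lit 17332719810), (nat_lit 113, nat_lit 17315942658), (nat_lit 31, nat_lit 17299165506), (nat_lit 36, nat_lit 18389684418), (nat_lit 4, nat_lit 18372907266), (nat_lit 53, nat_lit 19446649026)]⟩,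
   ⟨V6_11963486466, [(nat_lit 75, nat_lit 13071307074), (nat_lit 78, nat_lit 14145048834), (nat_lit 122, nat_lit 14144786754), (nat_lit 21, nat_lit 14128271682), (nat_lit 8, nat_lit 15218528514), (nat_lit 8, nat_lit 15218266434), (nat_lit 7, nat_lit 15202013442), (nat_lit 25, nat_lit 15201751362), (nat_lit 9, nat_lit 15185236290), (nat_lit 11, nat_lit 16292008194), (nat_lit 23, nat_lit 16275493122), (nat_lit 104, nat_lit 16275231042), (nat_lit 124, nat_lit 16258978050), (nat_lit 84, nat_lit 16258715970), (nat_lit 67, nat_lit 17348972802), (nat_lit 4, nat_lit 17332457730), (nat_lit 110, nat_lit 17332195650), (nat_lit 83, nat_lit 18405937410)]⟩],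
  [W_13054267520]⟩
theorem C_13071307074 : chkRec R_13071307074 = true := by decide +kernel

noncomputable def R_13071311043 : Rec := ⟨nat_lit 13071311043, nat_lit 3,
  [⟨V6_13003940034, [(nat_lit 38, nat_lit 13071311043), (nat_lit 39, nat_lit 14145052866), (nat_lit 94, nat_lit 14144790723), (nat_lit 63, nat_lit 14128275651), (nat_lit 73, nat_lit 15218532546), (nat_lit 104, nat_lit 15202017474), (nat_lit 98, nat_lit 15201755331), (nat_lit 52, nat_lit 15185240259), (nat_lit 104, nat_lit 16275497154), (nat_lit 109, nat_lit 16258982082), (nat_lit 59, nat_lit 16258719939), (nat_lit 101, nat_lit 16242204867), (nat_lit 57, nat_lit 17332461762), (nat_lit 113, nat_lit 17315946690), (nat_lit 70, nat_lit 17315684547), (nat_lit 69, nat_lit 17299169475), (nat_lit 34, nat_lit 18389426370), (nat_lit 122, nat_lit 18372911298), (nat_lit 104, nat_lit 18372649155), (nat_lit 119, nat_lit 19446390978)]⟩],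
  [W_11997556928, W_11980783808]⟩
theorem C_13071311043 : chkRec R_13071311043 = true := by decide +kernel

noncomputable def R_13071311106 : Rec := ⟨nat_lit 13071311106, nat_lit 9,
  [⟨V6_13004198082, [(nat_lit 71, nat_lit 13071311106), (nat_lit 7, nat_lit 14145052866), (nat_lit 105, nat_lit 14145048834), (nat_lit 120, nat_lit 14128275714), (nat_lit 15, nat_lit 15218790594), (nat_lit 108, nat_lit 15202017474), (nat_lit 64, nat_lit 15202013442), (nat_lit 79, nat_lit 15185240322), (nat_lit 14, nat_lit 16275755202), (nat_lit 35, nat_lit 16258982082), (nat_lit 31, nat_lit 16258978050), (nat_lit 126, nat_lit 16242204930), (nat_lit 47, nat_lit 17332719810), (nat_lit 76, nat_lit 17315946690), (nat_lit 72, nat_lit 17315942658), (nat_lit 26, nat_lit 17299169538), (nat_lit 67, nat_lit 18389684418), (nat_lit 36, nat_lit 18372911298), (nat_lit 86, nat_lit 18372907266), (nat_lit 90, nat_lit 19446649026)]⟩,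
   ⟨V6_13003940034, [(nat_lit 80, nat_lit 13071311106), (nat_lit 115, nat_lit 14145052866), (nat_lit 34, nat_lit 14144790786), (nat_lit 74, nat_lit 14128275714), (nat_lit 82, nat_lit 15218532546), (nat_lit 85, nat_lit 15202017474), (nat_lit 87, nat_lit 15201755394), (nat_lit 59, nat_lit 15185240322), (nat_lit 82, nat_lit 16275497154), (nat_lit 123, nat_lit 16258982082), (nat_lit 109, nat_lit 16258720002), (nat_lit 29, nat_lit 16242204930), (nat_lit 68, nat_lit 17332461762), (nat_lit 73, nat_lit 17315946690), (nat_lit 67, nat_lit 17315684610), (nat_lit 35, nat_lit 17299169538), (nat_lit 112, nat_lit 18389426370), (nat_lit 107, nat_lit 18372911298), (nat_lit 83, nat_lit 18372649218), (nat_lit 2, nat_lit 19446390978)]⟩,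
   ⟨V6_11947237506, [(nat_lit 119, nat_lit 13071311106), (nat_lit 72, nat_lit 14145052866), (nat_lit 35, nat_lit 14128275714), (nat_lit 126, nat_lit 15218794626), (nat_lit 109, nat_lit 15202017474), (nat_lit 28, nat_lit 15185240322), (nat_lit 100, nat_lit 16275759234), (nat_lit 54, nat_lit 16258982082), (nat_lit 120, nat_lit 16242204930), (nat_lit 1, nat_lit 17332723842), (nat_lit 77, nat_lit 17315946690), (nat_lit 7, nat_lit 18389688450)]⟩,
   ⟨V6_11930198274, [(nat_lit 42, nat_lit 13071311106), (nat_lit 108, nat_lit 14144790786), (nat_lit 9, nat_lit 14128275714), (nat_lit 74, nat_lit 15201755394), (nat_lit 63, nat_lit 15185240322), (nat_lit 53, nat_lit 16258720002), (nat_lit 68, nat_lit 16242204930), (nat_lit 19, nat_lit 17315684610), (nat_lit 110, nat_lit 17299169538), (nat_lit 36, nat_lit 18372649218)]⟩],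
  [W_13071040640, W_13054525568, W_11980787840]⟩
theorem C_13071311106 : chkRec R_13071311106 = true := by decide +kernel

noncomputable def R_13071311169 : Rec := ⟨nat_lit 13071311169, nat_lit 9,
  [⟨V6_11997569088, [(nat_lit 81, nat_lit 13071311169), (nat_lit 38, nat_lit 14145052992), (nat_lit 57, nat_lit 14145052929), (nat_lit 11, nat_lit 15218794752), (nat_lit 50, nat_lit 15218794689), (nat_lit 40, nat_lit 16292536512), (nat_lit 101, nat_lit 16292536449), (nat_lit 2, nat_lit 17366278272), (nat_lit 91, nat_lit 17366278209), (nat_lit 33, nat_lit 18440020032)]⟩],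
  [W_13054271552, W_13037494400, W_13020713216, W_13003940096, W_11963748608]⟩
theorem C_13071311169 : chkRec R_13071311169 = true := by decide +kernel

noncomputable def R_13071311232 : Rec := ⟨nat_lit 13071311232, nat_lit 5,
  [⟨V6_11997569088, [(nat_lit 39, nat_lit 13071311232), (nat_lit 106, nat_lit 14145052992), (nat_lit 35, nat_lit 15218794752), (nat_lit 29, nat_lit 16292536512), (nat_lit 42, nat_lit 17366278272), (nat_lit 74, nat_lit 18440020032)]⟩],
  [W_13071048704, W_13037494400]⟩
theorem C_13071311232 : chkRec R_13071311232 = true := by decide +kernel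

noncomputable def R_13071315138 : Rec := ⟨nat_lit 13071315138, nat_lit 4,
  [⟨V6_13004198082, [(nat_lit 2, nat_lit 13071315138), (nat_lit 107, nat_lit 14145052866), (nat_lit 7, nat_lit 14128279746), (nat_lit 22, nat_lit 15218790594), (nat_lit 55, nat_lit 15202017474), (nat_lit 62, nat_lit 15185244354), (nat_lit 11, nat_lit 16275755202), (nat_lit 7, nat_lit 16258982082), (nat_lit 52, nat_lit 16242208962), (nat_lit 37, nat_lit 17332719810), (nat_lit 77, nat_lit 17315946690), (nat_lit 116, nat_lit 17299173570), (nat_lit 80, nat_lit 18389684418), (nat_lit 87, nat_lit 18372911298), (nat_lit 9, nat_lit 19446649026)]⟩,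
   ⟨V6_11947237506, [(nat_lit 65, nat_lit 13071315138), (nat_lit 55, nat_lit 14145056898), (nat_lit 12, nat_lit 14145052866), (nat_lit 102, nat_lit 14128279746), (nat_lit 35, nat_lit 15218794626), (nat_lit 67, nat_lit 15202021506), (nat_lit 12, nat_lit 15202017474), (nat_lit 80, nat_lit 15185244354), (nat_lit 30, nat_lit 16275759234), (nat_lit 40, nat_lit 16258986114), (nat_lit 87, nat_lit 16258982082), (nat_lit 6, nat_lit 16242208962), (nat_lit 85, nat_lit 17332723842), (nat_lit 84, nat_lit 17315950722), (nat_lit 73, nat_lit 17315946690), (nat_lit 38, nat_lit 18389688450)]⟩],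
  [W_13071298688, W_11997560960, W_11997556928]⟩
theorem C_13071315138 : chkRec R_13071315138 = true := by decide +kernel

noncomputable def R_13071315201 : Rec := ⟨nat_lit 13071315201, nat_lit 6,
  [⟨V6_11997569088, [(nat_lit 8, nat_lit 13071315201), (nat_lit 19, nat_lit 14145057024), (nat_lit 64, nat_lit 14145056961), (nat_lit 83, nat_lit 14145052929), (nat_lit 69, nat_lit 15218798784), (nat_lit 83, nat_lit 15218798721), (nat_lit 41, nat_lit 15218794752), (nat_lit 14, nat_lit 15218794689), (nat_lit 27, nat_lit 16292540544), (nat_lit 30, nat_lit 16292540481), (nat_lit 100, nat_lit 16292536512), (nat_lit 29, nat_lit 16292536449), (nat_lit 114, nat_lit 17366282304), (nat_lit 38, nat_lit 17366278272), (nat_lit 11, nat_lit 17366278209), (nat_lit 9, nat_lit 18440020032)]⟩],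
  [W_13020971264, W_11997564992, W_11964018752, W_11947233536]⟩
theorem C_13071315201 : chkRec R_13071315201 = true := by decide +kernel

noncomputable def R_13071315264 : Rec := ⟨nat_lit 13071315264, nat_lit 6,
  [⟨V6_11997573120, [(nat_lit 126, nat_lit 13071315264), (nat_lit 110, nat_lit 14145057024), (nat_lit 19, nat_lit 15218798784), (nat_lit 20, nat_lit 16292540544), (nat_lit 76, nat_lit 17366282304), (nat_lit 101, nat_lit 18440024064)]⟩,
   ⟨V6_11930460480, [(nat_lit 118, nat_lit 13071315264), (nat_lit 87, nat_lit 14145052992), (nat_lit 14, nat_lit 14128279872), (nat_lit 64, nat_lit 15202017600), (nat_lit 89, nat_lit 15185244480), (nat_lit 67, nat_lit 16258982208), (nat_lit 19, nat_lit 16242209088), (nat_lit 32, nat_lit 17315946816), (nat_lit 24, nat_lit 17299173696), (nat_lit 119, nat_lit 18372911424)]⟩],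
  [W_11997564992, W_11980787840, W_11964018752]⟩
theorem C_13071315264 : chkRec R_13071315264 = true := by decide +kernel

noncomputable def R_13071565059 : Rec := ⟨nat_lit 13071565059, nat_lit 3,
  [⟨V6_11947491585, [(nat_lit 34, nat_lit 13071565059), (nat_lit 32, nat_lit 14145306882), (nat_lit 45, nat_lit 14128529667), (nat_lit 126, nat_lit 15219048705), (nat_lit 45, nat_lit 15202271490), (nat_lit 60, nat_lit 15185494275), (nat_lit 82, nat_lit 16276013313), (nat_lit 124, nat_lit 16259236098), (nat_lit 11, nat_lit 16242458883), (nat_lit 27, nat_lit 17332977921), (nat_lit 70, nat_lit 17316200706), (nat_lit 95, nat_lit 18389942529)]⟩],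
  [W_13054263488]⟩
theorem C_13071565059 : chkRec R_13071565059 = true := by decide +kernel

noncomputable def R_13071569091 : Rec := ⟨nat_lit 13071569091, nat_lit 4,
  [⟨V6_11997819072, [(nat_lit 29, nat_lit 13071569091), (nat_lit 102, nat_lit 14145310914), (nat_lit 119, nat_lit 14145306819), (nat_lit 29, nat_lit 15219052737), (nat_lit 111, nat_lit 15219048642), (nat_lit 49, nat_lit 15219044547), (nat_lit 74, nat_lit 16292794560), (nat_lit 104, nat_lit 16292790465), (nat_lit 15, nat_lit 16292786370), (nat_lit 58, nat_lit 17366532288), (nat_lit 23, nat_lit 17366528193), (nat_lit 56, nat_lit 18440270016)]⟩],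
  [W_13071036608, W_13021233344, W_13020975296]⟩
theorem C_13071569091 : chkRec R_13071569091 = true := by decide +kernel

noncomputable def R_13071569154 : Rec := ⟨nat_lit 13071569154, nat_lit 10,
  [⟨V6_11997036801, [(nat_lit 84, nat_lit 13071569154), (nat_lit 37, nat_lit 14145310977), (nat_lit 111, nat_lit 14145306882), (nat_lit 4, nat_lit 14145048834), (nat_lit 36, nat_lit 15219048705), (nat_lit 7, nat_lit 15218790657), (nat_lit 77, nat_lit 15218786562), (nat_lit 59, nat_lit 15218528514), (nat_lit 102, nat_lit 16292528385), (nat_lit 119, nat_lit 16292270337), (nat_lit 99, nat_lit 16292266242), (nat_lit 2, nat_lit 16292008194), (nat_lit 14, nat_lit 17366008065), (nat_lit 93, nat_lit 17365750017), (nat_lit 26, nat_lit 17365745922), (nat_lit 37, nat_lit 18439487745)]⟩,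
   ⟨V6_11947495680, [(nat_lit 77, nat_lit 13071569154), (nat_lit 38, nat_lit 14145310977), (nat_lit 87, nat_lit 14128533762), (nat_lit 61, nat_lit 15219052800), (nat_lit 33, nat_lit 15202275585), (nat_lit 108, nat_lit 15185498370), (nat_lit 77, nat_lit 16276017408), (nat_lit 49, nat_lit 16259240193), (nat_lit 83, nat_lit 16242462978), (nat_lit 18, nat_lit 17332982016), (nat_lit 124, nat_lit 17316204801), (nat_lit 16, nat_lit 18389946624)]⟩,
   ⟨V6_11947495554, [(nat_lit 24, nat_lit 13071569154), (nat_lit 38, nat_lit 14145310914), (nat_lit 22, nat_lit 14128533762), (nat_lit 3, nat_lit 15219052674), (nat_lit 54, nat_lit 15202275522), (nat_lit 43, nat_lit 15185498370), (nat_lit 81, nat_lit 16276017282), (nat_lit 92, nat_lit 16259240130), (nat_lit 21, nat_lit 16242462978), (nat_lit 124, nat_lit 17332981890), (nat_lit 23, nat_lit 17316204738), (nat_lit 106, nat_lit 18389946498)]⟩],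
  [W_13071040640, W_13070782592, W_13054267520, W_13054001408, W_11997040832]⟩
theorem C_13071569154 : chkRec R_13071569154 = true := by decide +kernel

noncomputable def R_13071569217 : Rec := ⟨nat_lit 13071569217, nat_lit 7,
  [⟨V6_11997040833, [(nat_lit 46, nat_lit 13071569217), (nat_lit 54, nat_lit 14145310977), (nat_lit 116, nat_lit 14145048897), (nat_lit 13, nat_lit 15219052737), (nat_lit 117, nat_lit 15218790657), (nat_lit 60, nat_lit 15218528577), (nat_lit 58, nat_lit 16292532417), (nat_lit 12, nat_lit 16292270337), (nat_lit 7, nat_lit 16292008257), (nat_lit 118, nat_lit 17366012097), (nat_lit 100, nat_lit 17365750017), (nat_lit 47, nat_lit 18439491777)]⟩,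
   ⟨V6_11947495680, [(nat_lit 43, nat_lit 13071569217), (nat_lit 69, nat_lit 14145311040), (nat_lit 56, nat_lit 14145310977), (nat_lit 100, nat_lit 14128533825), (nat_lit 5, nat_lit 15219052800), (nat_lit 77, nat_lit 15202275648), (nat_lit 123, nat_lit 15202275585), (nat_lit 42, nat_lit 15185498433), (nat_lit 55, nat_lit 16276017408), (nat_lit 90, nat_lit 16259240256), (nat_lit 22, nat_lit 16259240193), (nat_lit 15, nat_lit 16242463041), (nat_lit 99, nat_lit 17332982016), (nat_lit 126, nat_lit 17316204864), (nat_lit 53, nat_lit 17316204801), (nat_lit 51, nat_lit 18389946624)]⟩],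
  [W_13070782592, W_13054267520, W_11997564992]⟩
theorem C_13071569217 : chkRec R_13071569217 = true := by decide +kernel

noncomputable def R_13071573186 : Rec := ⟨nat_lit 13071573186, nat_lit 13,
  [⟨V6_11947499712, [(nat_lit 22, nat_lit 13071573186), (nat_lit 29, nat_lit 14145315009), (nat_lit 43, nat_lit 14128537794), (nat_lit 90, nat_lit 15219056832), (nat_lit 82, nat_lit 15202279617), (nat_lit 49, nat_lit 15185502402), (nat_lit 22, nat_lit 16276021440), (nat_lit 14, nat_lit 16259244225), (nat_lit 60, nat_lit 16242467010), (nat_lit 114, nat_lit 17332986048), (nat_lit 108, nat_lit 17316208833), (nat_lit 59, nat_lit 18389950656)]⟩,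
   ⟨V6_11947495554, [(nat_lit 20, nat_lit 13071573186), (nat_lit 116, nat_lit 14145314946), (nat_lit 43, nat_lit 14145310914), (nat_lit 13, nat_lit 14128537794), (nat_lit 95, nat_lit 15219052674), (nat_lit 61, nat_lit 15202279554), (nat_lit 3, nat_lit 15202275522), (nat_lit 16, nat_lit 15185502402), (nat_lit 58, nat_lit 16276017282), (nat_lit 71, nat_lit 16259244162), (nat_lit 92, nat_lit 16259240130), (nat_lit 55, nat_lit 16242467010), (nat_lit 46, nat_lit 17332981890), (nat_lit 71, nat_lit 17316208770), (nat_lit 45, nat_lit 17316204738), (nat_lit 122, nat_lit 18389946498)]⟩,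
   ⟨V6_11947491522, [(nat_lit 29, nat_lit 13071573186), (nat_lit 115, nat_lit 14145310914), (nat_lit 126, nat_lit 14128537794), (nat_lit 81, nat_lit 15219048642), (nat_lit 111, nat_lit 15202275522), (nat_lit 43, nat_lit 15185502402), (nat_lit 19, nat_lit 16276013250), (nat_lit 40, nat_lit 16259240130), (nat_lit 54, nat_lit 16242467010), (nat_lit 101, nat_lit 17332977858), (nat_lit 73, nat_lit 17316204738), (nat_lit 84, nat_lit 18389942466)]⟩],
  [W_13071298688, W_13071040640, W_13071036608, W_13037494400, W_11997819008, W_11997556928, W_11997302912]⟩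
theorem C_13071573186 : chkRec R_13071573186 = true := by decide +kernel

noncomputable def R_13071573249 : Rec := ⟨nat_lit 13071573249, nat_lit 20,
  [⟨V6_11997569088, [(nat_lit 73, nat_lit 13071573249), (nat_lit 35, nat_lit 14145315072), (nat_lit 28, nat_lit 14145315009), (nat_lit 109, nat_lit 14145052929), (nat_lit 12, nat_lit 15219056832), (nat_lit 27, nat_lit 15219056769), (nat_lit 43, nat_lit 15218794752), (nat_lit 35, nat_lit 15218794689), (nat_lit 106, nat_lit 16292798592), (nat_lit 112, nat_lit 16292798529), (nat_lit 19, nat_lit 16292536512), (nat_lit 92, nat_lit 16292536449), (nat_lit 72, nat_lit 17366540352), (nat_lit 58, nat_lit 17366278272), (nat_lit 37, nat_lit 17366278209), (nat_lit 90, nat_lit 18440020032)]⟩,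
   ⟨V6_11997306945, [(nat_lit 55, nat_lit 13071573249), (nat_lit 73, nat_lit 14145315009), (nat_lit 118, nat_lit 14145052929), (nat_lit 116, nat_lit 15219056769), (nat_lit 62, nat_lit 15218794689), (nat_lit 107, nat_lit 15218532609), (nat_lit 68, nat_lit 16292798529), (nat_lit 120, nat_lit 16292536449), (nat_lit 120, nat_lit 16292274369), (nat_lit 26, nat_lit 17366278209), (nat_lit 68, nat_lit 17366016129), (nat_lit 102, nat_lit 18439757889)]⟩,
   ⟨V6_11947491585, [(nat_lit 72, nat_lit 13071573249), (nat_lit 14, nat_lit 14145310977), (nat_lit 107, nat_lit 14128537857), (nat_lit 96, nat_lit 15219048705), (nat_lit 61, nat_lit 15202275585), (nat_lit 98, nat_lit 15185502465), (nat_lit 126, nat_lit 16276013313), (nat_lit 38, nat_lit 16259240193), (nat_lit 64, nat_lit 16242467073), (nat_lit 115, nat_lit 17332977921), (nat_lit 63, nat_lit 17316204801), (nat_lit 29, nat_lit 18389942529)]⟩],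
  [W_13071040640, W_13054271552, W_13054267520, W_13054263488, W_13037494400, W_13021237376]⟩
theorem C_13071573249 : chkRec R_13071573249 = true := by decide +kernel

noncomputable def R_13071573312 : Rec := ⟨nat_lit 13071573312, nat_lit 17,
  [⟨V6_13071310848, [(nat_lit 3, nat_lit 13071573312), (nat_lit 116, nat_lit 14145315072), (nat_lit 13, nat_lit 14145052992), (nat_lit 56, nat_lit 15219056832), (nat_lit 65, nat_lit 15218794752), (nat_lit 28, nat_lit 16292798592), (nat_lit 6, nat_lit 16292536512), (nat_lit 69, nat_lit 17366540352), (nat_lit 11, nat_lit 17366278272), (nat_lit 52, nat_lit 18440282112), (nat_lit 50, nat_lit 18440020032), (nat_lit 63, nat_lit 19513761792)]⟩,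
   ⟨V6_11997569088, [(nat_lit 40, nat_lit 13071573312), (nat_lit 105, nat_lit 14145315072), (nat_lit 3, nat_lit 14145052992), (nat_lit 77, nat_lit 15219056832), (nat_lit 34, nat_lit 15218794752), (nat_lit 53, nat_lit 16292798592), (nat_lit 30, nat_lit 16292536512), (nat_lit 77, nat_lit 17366540352), (nat_lit 112, nat_lit 17366278272), (nat_lit 17, nat_lit 18440020032)]⟩],
  [W_13071048704, W_13054271552, W_13054267520, W_13037494400, W_13021237376, W_11963748608]⟩
theorem C_13071573312 : chkRec R_13071573312 = true := by decide +kernel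

noncomputable def R_13071577218 : Rec := ⟨nat_lit 13071577218, nat_lit 6,
  [⟨V6_13054779522, [(nat_lit 118, nat_lit 13071577218), (nat_lit 118, nat_lit 14145314946), (nat_lit 11, nat_lit 14128541826), (nat_lit 3, nat_lit 15219052674), (nat_lit 73, nat_lit 15202279554), (nat_lit 64, nat_lit 16292790402), (nat_lit 66, nat_lit 16276017282), (nat_lit 68, nat_lit 17366528130), (nat_lit 116, nat_lit 17349755010), (nat_lit 120, nat_lit 18440265858), (nat_lit 22, nat_lit 18423492738), (nat_lit 94, nat_lit 19497230466)]⟩,
   ⟨V6_11947495554, [(nat_lit 59, nat_lit 13071577218), (nat_lit 67, nat_lit 14145314946), (nat_lit 6, nat_lit 14128541826), (nat_lit 50, nat_lit 15219052674), (nat_lit 46, nat_lit 15202279554), (nat_lit 72, nat_lit 15185506434), (nat_lit 57, nat_lit 16276017282), (nat_lit 67, nat_lit 16259244162), (nat_lit 80, nat_lit 16242471042), (nat_lit 116, nat_lit 17332981890), (nat_lit 70, nat_lit 17316208770), (nat_lit 46, nat_lit 18389946498)]⟩],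
  [W_13021237376, W_13020979328, W_11997819008]⟩
theorem C_13071577218 : chkRec R_13071577218 = true := by decide +kernel

noncomputable def R_13071577281 : Rec := ⟨nat_lit 13071577281, nat_lit 16,
  [⟨V6_13021241409, [(nat_lit 20, nat_lit 13071577281), (nat_lit 79, nat_lit 14145319041), (nat_lit 44, nat_lit 14145315009), (nat_lit 68, nat_lit 14128541889), (nat_lit 14, nat_lit 15219060801), (nat_lit 17, nat_lit 15219056769), (nat_lit 125, nat_lit 15202283649), (nat_lit 53, nat_lit 15202279617), (nat_lit 18, nat_lit 15185506497), (nat_lit 33, nat_lit 16292798529), (nat_lit 37, nat_lit 16276025409), (nat_lit 86, nat_lit 16276021377), (nat_lit 83, nat_lit 16259248257), (nat_lit 115, nat_lit 16259244225), (nat_lit 35, nat_lit 16242471105), (nat_lit 98, nat_lit 17349763137), (nat_lit 99, nat_lit 17332990017), (nat_lit 87, nat_lit 17332985985), (nat_lit 88, nat_lit 17316212865), (nat_lit 88, nat_lit 17316208833), (nat_lit 20, nat_lit 18406727745), (nat_lit 54, nat_lit 18389954625), (nat_lit 43, nat_lit 18389950593), (nat_lit 104, nat_lit 19463692353)]⟩,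
   ⟨V6_13020983361, [(nat_lit 27, nat_lit 13071577281), (nat_lit 112, nat_lit 14145319041), (nat_lit 12, nat_lit 14145056961), (nat_lit 53, nat_lit 14128541889), (nat_lit 80, nat_lit 15219060801), (nat_lit 32, nat_lit 15218798721), (nat_lit 5, nat_lit 15202283649), (nat_lit 43, nat_lit 15202021569), (nat_lit 38, nat_lit 15185506497), (nat_lit 86, nat_lit 16292540481), (nat_lit 14, nat_lit 16276025409), (nat_lit 62, nat_lit 16275763329), (nat_lit 94, nat_lit 16259248257), (nat_lit 88, nat_lit 16258986177), (nat_lit 4, nat_lit 16242471105), (nat_lit 55, nat_lit 17349505089), (nat_lit 124, nat_lit 17332990017), (nat_lit 54, nat_lit 17332727937), (nat_lit 3, nat_lit 17316212865), (nat_lit 48, nat_lit 17315950785), (nat_lit 99, nat_lit 18406469697), (nat_lit 65, nat_lit 18389954625), (nat_lit 5, nat_lit 18389692545), (nat_lit 61, nat_lit 19463434305)]⟩,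
   ⟨V6_11997569088, [(nat_lit 71, nat_lit 13071577281), (nat_lit 69, nat_lit 14145319104), (nat_lit 66, nat_lit 14145319041), (nat_lit 47, nat_lit 14145315009), (nat_lit 103, nat_lit 14145056961), (nat_lit 10, nat_lit 15219060864), (nat_lit 60, nat_lit 15219060801), (nat_lit 101, nat_lit 15219056832), (nat_lit 71, nat_lit 15219056769), (nat_lit 81, nat_lit 15218798784), (nat_lit 13, nat_lit 15218798721), (nat_lit 45, nat_lit 15218794689), (nat_lit 66, nat_lit 16292802624), (nat_lit 97, nat_lit 16292798592), (nat_lit 40, nat_lit 16292798529), (nat_lit 32, nat_lit 16292540544), (nat_lit 69, nat_lit 16292540481), (nat_lit 9, nat_lit 16292536512), (nat_lit 52, nat_lit 16292536449), (nat_lit 83, nat_lit 17366540352), (nat_lit 119, nat_lit 17366282304), (nat_lit 126, nat_lit 17366278272), (nat_lit 19, nat_lit 17366278209), (nat_lit 120, nat_lit 18440020032)]⟩],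
  [W_13071560768, W_13021237376, W_13021233344, W_11997564992, W_11997556928, W_11981041856, W_11947503680]⟩
theorem C_13071577281 : chkRec R_13071577281 = true := by decide +kernel

noncomputable def R_13071577344 : Rec := ⟨nat_lit 13071577344, nat_lit 20,
  [⟨V6_13021233408, [(nat_lit 56, nat_lit 13071577344), (nat_lit 10, nat_lit 14145315072), (nat_lit 86, nat_lit 14128541952), (nat_lit 13, nat_lit 15219052800), (nat_lit 78, nat_lit 15202279680), (nat_lit 100, nat_lit 15185506560), (nat_lit 62, nat_lit 16292790528), (nat_lit 67, nat_lit 16276017408), (nat_lit 93, nat_lit 16259244288), (nat_lit 38, nat_lit 16242471168), (nat_lit 81, nat_lit 17349755136), (nat_lit 59, nat_lit 17332982016), (nat_lit 57, nat_lit 17316208896), (nat_lit 108, nat_lit 18406719744), (nat_lit 87, nat_lit 18389946624), (nat_lit 44, nat_lit 19463684352)]⟩,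
   ⟨V6_11997573120, [(nat_lit 10, nat_lit 13071577344), (nat_lit 76, nat_lit 14145319104), (nat_lit 103, nat_lit 14145057024), (nat_lit 121, nat_lit 15219060864), (nat_lit 78, nat_lit 15218798784), (nat_lit 75, nat_lit 16292802624), (nat_lit 71, nat_lit 16292540544), (nat_lit 123, nat_lit 17366544384), (nat_lit 62, nat_lit 17366282304), (nat_lit 114, nat_lit 18440024064)]⟩,
   ⟨V6_11981058048, [(nat_lit 82, nat_lit 13071577344), (nat_lit 98, nat_lit 14145319104), (nat_lit 21, nat_lit 14128541952), (nat_lit 24, nat_lit 15219060864), (nat_lit 121, nat_lit 15202283712), (nat_lit 103, nat_lit 16292802624), (nat_lit 125, nat_lit 16276025472), (nat_lit 83, nat_lit 17366544384), (nat_lit 18, nat_lit 17349767232), (nat_lit 40, nat_lit 18423508992)]⟩],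
  [W_13071564800, W_13021245440, W_13021237376, W_11997569024, W_11997564992, W_11980795904, W_11964280832, W_11964018752, W_11947503680]⟩
theorem C_13071577344 : chkRec R_13071577344 = true := by decide +kernel

noncomputable def R_13071581313 : Rec := ⟨nat_lit 13071581313, nat_lit 8,
  [⟨V6_13021245504, [(nat_lit 65, nat_lit 13071581313), (nat_lit 92, nat_lit 14145323136), (nat_lit 5, nat_lit 14145323073), (nat_lit 84, nat_lit 14145319041), (nat_lit 82, nat_lit 14128545921), (nat_lit 42, nat_lit 15219064896), (nat_lit 111, nat_lit 15219060864), (nat_lit 53, nat_lit 15219060801), (nat_lit 98, nat_lit 15202287744), (nat_lit 47, nat_lit 15202287681), (nat_lit 42, nat_lit 15202283649), (nat_lit 58, nat_lit 15185510529), (nat_lit 45, nat_lit 16292802624), (nat_lit 110, nat_lit 16276029504), (nat_lit 89, nat_lit 16276025472), (nat_lit 48, nat_lit 16276025409), (nat_lit 118, nat_lit 16259252352), (nat_lit 40, nat_lit 16259252289), (nat_lit 67, nat_lit 16259248257), (nat_lit 106, nat_lit 16242475137), (nat_lit 57, nat_lit 17349767232), (nat_lit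 18, nat_lit 17332994112), (nat_lit 68, nat_lit 17332990080), (nat_lit 76, nat_lit 17332990017), (nat_lit 14, nat_lit 17316216960), (nat_lit 78, nat_lit 17316216897), (nat_lit 54, nat_lit 17316212865), (nat_lit 94, nat_lit 18406731840), (nat_lit 100, nat_lit 18389958720), (nat_lit 8, nat_lit 18389954688), (nat_lit 81, nat_lit 18389954625), (nat_lit 16, nat_lit 19463696448)]⟩,
   ⟨V6_13021241409, [(nat_lit 53, nat_lit 13071581313), (nat_lit 37, nat_lit 14145323073), (nat_lit 110, nat_lit 14145319041), (nat_lit 89, nat_lit 14128545921), (nat_lit 10, nat_lit 15219060801), (nat_lit 122, nat_lit 15219056769), (nat_lit 44, nat_lit 15202287681), (nat_lit 74, nat_lit 15202283649), (nat_lit 12, nat_lit 15185510529), (nat_lit 82, nat_lit 16292798529), (nat_lit 49, nat_lit 16276025409), (nat_lit 48, nat_lit 16276021377), (nat_lit 117, nat_lit 16259252289), (nat_lit 74, nat_lit 16259248257), (nat_lit 28, nat_lit 16242475137), (nat_lit 78, nat_lit 17349763137), (nat_lit 42, nat_lit 17332990017), (nat_lit 50, nat_lit 17332985985), (nat_lit 41, nat_lit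 17316216897), (nat_lit 99, nat_lit 17316212865), (nat_lit 115, nat_lit 18406727745), (nat_lit 19, nat_lit 18389954625), (nat_lit 13, nat_lit 18389950593), (nat_lit 120, nat_lit 19463692353)]⟩],
  [W_13071560768, W_13071556736, W_11997823040, W_11997819008]⟩
theorem C_13071581313 : chkRec R_13071581313 = true := by decide +kernel

noncomputable def R_13071581376 : Rec := ⟨nat_lit 13071581376, nat_lit 14,
  [⟨V6_13071568896, [(nat_lit 20, nat_lit 13071581376), (nat_lit 81, nat_lit 14145323136), (nat_lit 80, nat_lit 14145319104), (nat_lit 33, nat_lit 15219064896), (nat_lit 72, nat_lit 15219060864), (nat_lit 112, nat_lit 15219056832), (nat_lit 64, nat_lit 16292806656), (nat_lit 37, nat_lit 16292802624), (nat_lit 105, nat_lit 16292798592), (nat_lit 119, nat_lit 16292794560), (nat_lit 36, nat_lit 17366544384), (nat_lit 119, nat_lit 17366540352), (nat_lit 119, nat_lit 17366536320), (nat_lit 71, nat_lit 18440282112), (nat_lit 47, nat_lit 18440278080), (nat_lit 59, nat_lit 19514019840)]⟩],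
  [W_13071560768, W_13021245440, W_13021237376, W_13021233344, W_11981041856, W_11947503680]⟩
theorem C_13071581376 : chkRec R_13071581376 = true := by decide +kernel

noncomputable def R_13071827139 : Rec := ⟨nat_lit 13071827139, nat_lit 3,
  [⟨V6_13070516418, [(nat_lit 116, nat_lit 13071827139), (nat_lit 77, nat_lit 14145568962), (nat_lit 18, nat_lit 14145306819), (nat_lit 28, nat_lit 15219048642), (nat_lit 56, nat_lit 15218786499), (nat_lit 54, nat_lit 16292528322), (nat_lit 71, nat_lit 16292266179), (nat_lit 56, nat_lit 17366008002), (nat_lit 109, nat_lit 17365745859), (nat_lit 4, nat_lit 18439487682), (nat_lit 11, nat_lit 18439225539), (nat_lit 88, nat_lit 19512967362)]⟩,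
   ⟨V6_13037482179, [(nat_lit 83, nat_lit 13071827139), (nat_lit 98, nat_lit 14145564867), (nat_lit 71, nat_lit 14145306819), (nat_lit 41, nat_lit 14128791747), (nat_lit 29, nat_lit 15219044547), (nat_lit 105, nat_lit 15218786499), (nat_lit 87, nat_lit 15202529475), (nat_lit 102, nat_lit 15202271427), (nat_lit 53, nat_lit 15185756355), (nat_lit 116, nat_lit 16292524227), (nat_lit 108, nat_lit 16292266179), (nat_lit 45, nat_lit 16276009155), (nat_lit 50, nat_lit 16275751107), (nat_lit 61, nat_lit 16259494083), (nat_lit 55, nat_lit 16259236035), (nat_lit 83, nat_lit 17366003907), (nat_lit 65, nat_lit 17349488835), (nat_lit 108, nat_lit 17349230787), (nat_lit 99, nat_lit 17332973763), (nat_lit 35, nat_lit 17332715715), (nat_lit 38, nat_lit 18422968515), (nat_lit 18, nat_lit 18406453443), (nat_lit 40, nat_lit 18406195395), (nat_lit 80, nat_lit 19479933123)]⟩],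
  [W_11997556928, W_11980783808]⟩
theorem C_13071827139 : chkRec R_13071827139 = true := by decide +kernel

noncomputable def R_13071827202 : Rec := ⟨nat_lit 13071827202, nat_lit 4,
  [⟨V6_11964268800, [(nat_lit 87, nat_lit 13071827202), (nat_lit 24, nat_lit 14145569025), (nat_lit 53, nat_lit 14145306882), (nat_lit 28, nat_lit 14128791810), (nat_lit 65, nat_lit 15219310848), (nat_lit 41, nat_lit 15219048705), (nat_lit 72, nat_lit 15202533633), (nat_lit 17, nat_lit 15202271490), (nat_lit 83, nat_lit 15185756418), (nat_lit 9, nat_lit 16292790528), (nat_lit 69, nat_lit 16276275456), (nat_lit 59, nat_lit 16276013313), (nat_lit 34, nat_lit 16259498241), (nat_lit 43, nat_lit 16259236098), (nat_lit 53, nat_lit 17349755136), (nat_lit 69, nat_lit 17333240064), (nat_lit 103, nat_lit 17332977921), (nat_lit 113, nat_lit 18406719744)]⟩],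
  [W_13071040640, W_13054001408]⟩
theorem C_13071827202 : chkRec R_13071827202 = true := by decide +kernel

noncomputable def R_13071831234 : Rec := ⟨nat_lit 13071831234, nat_lit 10,
  [⟨V6_13070774466, [(nat_lit 66, nat_lit 13071831234), (nat_lit 103, nat_lit 14145568962), (nat_lit 73, nat_lit 14145310914), (nat_lit 46, nat_lit 15219306690), (nat_lit 32, nat_lit 15219048642), (nat_lit 86, nat_lit 15218790594), (nat_lit 24, nat_lit 16292786370), (nat_lit 14, nat_lit 16292528322), (nat_lit 121, nat_lit 16292270274), (nat_lit 3, nat_lit 17366266050), (nat_lit 72, nat_lit 17366008002), (nat_lit 45, nat_lit 17365749954), (nat_lit 60, nat_lit 18439745730), (nat_lit 42, nat_lit 18439487682), (nat_lit 87, nat_lit 19513225410)]⟩,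
   ⟨V6_11997819072, [(nat_lit 67, nat_lit 13071831234), (nat_lit 44, nat_lit 14145573057), (nat_lit 43, nat_lit 14145568962), (nat_lit 118, nat_lit 14145310914), (nat_lit 48, nat_lit 15219314880), (nat_lit 43, nat_lit 15219310785), (nat_lit 12, nat_lit 15219306690), (nat_lit 49, nat_lit 15219052737), (nat_lit 98, nat_lit 15219048642), (nat_lit 72, nat_lit 16293052608), (nat_lit 89, nat_lit 16293048513), (nat_lit 92, nat_lit 16292794560), (nat_lit 31, nat_lit 16292790465), (nat_lit 11, nat_lit 16292786370), (nat_lit 43, nat_lit 17366790336), (nat_lit 112, nat_lit 17366532288), (nat_lit 73, nat_lit 17366528193), (nat_lit 18, nat_lit 18440270016)]⟩,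
   ⟨V6_11997040833, [(nat_lit 90, nat_lit 13071831234), (nat_lit 48, nat_lit 14145573057), (nat_lit 117, nat_lit 14145310914), (nat_lit 13, nat_lit 15219052737), (nat_lit 24, nat_lit 15218790594), (nat_lit 117, nat_lit 16292532417), (nat_lit 50, nat_lit 16292270274), (nat_lit 42, nat_lit 17366012097), (nat_lit 3, nat_lit 17365749954), (nat_lit 121, nat_lit 18439491777)]⟩],
  [W_13071040640, W_13038268544, W_13038010496, W_11997040832, W_11964526784]⟩
theorem C_13071831234 : chkRec R_13071831234 = true := by decide +kernel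

noncomputable def R_13071831297 : Rec := ⟨nat_lit 13071831297, nat_lit 14,
  [⟨V6_11998085184, [(nat_lit 62, nat_lit 13071831297), (nat_lit 110, nat_lit 14145573120), (nat_lit 119, nat_lit 14145573057), (nat_lit 31, nat_lit 14145569025), (nat_lit 19, nat_lit 15219314880), (nat_lit 121, nat_lit 15219314817), (nat_lit 111, nat_lit 15219310848), (nat_lit 37, nat_lit 15219310785), (nat_lit 20, nat_lit 16293056640), (nat_lit 21, nat_lit 16293056577), (nat_lit 111, nat_lit 16293052608), (nat_lit 59, nat_lit 16293052545), (nat_lit 76, nat_lit 17366798400), (nat_lit 88, nat_lit 17366794368), (nat_lit 93, nat_lit 17366794305), (nat_lit 101, nat_lit 18440536128)]⟩,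
   ⟨V6_11997040833, [(nat_lit 89, nat_lit 13071831297), (nat_lit 71, nat_lit 14145573057), (nat_lit 13, nat_lit 14145310977), (nat_lit 19, nat_lit 15219052737), (nat_lit 79, nat_lit 15218790657), (nat_lit 30, nat_lit 16292532417), (nat_lit 105, nat_lit 16292270337), (nat_lit 13, nat_lit 17366012097), (nat_lit 120, nat_lit 17365750017), (nat_lit 86, nat_lit 18439491777)]⟩,
   ⟨V6_11997036801, [(nat_lit 103, nat_lit 13071831297), (nat_lit 124, nat_lit 14145569025), (nat_lit 26, nat_lit 14145310977), (nat_lit 10, nat_lit 15219048705), (nat_lit 6, nat_lit 15218790657), (nat_lit 22, nat_lit 16292528385), (nat_lit 123, nat_lit 16292270337), (nat_lit 47, nat_lit 17366008065), (nat_lit 107, nat_lit 17365750017), (nat_lit 17, nat_lit 18439487745)]⟩],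
  [W_13071040640, W_13054001408, W_13038272576, W_13038010496, W_13037486336, W_11997564992, W_11964534848]⟩
theorem C_13071831297 : chkRec R_13071831297 = true := by decide +kernel

noncomputable def R_13071831360 : Rec := ⟨nat_lit 13071831360, nat_lit 10,
  [⟨V6_13055053824, [(nat_lit 34, nat_lit 13071831360), (nat_lit 12, nat_lit 14145573120), (nat_lit 40, nat_lit 14128795968), (nat_lit 25, nat_lit 15219314880), (nat_lit 89, nat_lit 15202537728), (nat_lit 96, nat_lit 16293056640), (nat_lit 62, nat_lit 16276279488), (nat_lit 69, nat_lit 17366798400), (nat_lit 109, nat_lit 17350021248), (nat_lit 54, nat_lit 18440540160), (nat_lit 82, nat_lit 18423763008), (nat_lit 5, nat_lit 19497504768)]⟩,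
   ⟨V6_13037228352, [(nat_lit 48, nat_lit 13071831360), (nat_lit 116, nat_lit 14145311040), (nat_lit 20, nat_lit 14128795968), (nat_lit 125, nat_lit 15218790720), (nat_lit 102, nat_lit 15202275648), (nat_lit 41, nat_lit 15185760576), (nat_lit 115, nat_lit 16292270400), (nat_lit 126, nat_lit 16275755328), (nat_lit 101, nat_lit 16259240256), (nat_lit 30, nat_lit 17365750080), (nat_lit 89, nat_lit 17349235008), (nat_lit 89, nat_lit 17332719936), (nat_lit 7, nat_lit 18422714688), (nat_lit 43, nat_lit 18406199616), (nat_lit 98, nat_lit 19479679296)]⟩],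
  [W_13070782592, W_11997564992, W_11997302912, W_11997040832, W_11964534848, W_11964010688, W_11963748608]⟩
theorem C_13071831360 : chkRec R_13071831360 = true := by decide +kernel

noncomputable def R_13071835266 : Rec := ⟨nat_lit 13071835266, nat_lit 7,
  [⟨V6_13071294594, [(nat_lit 34, nat_lit 13071835266), (nat_lit 15, nat_lit 14145572994), (nat_lit 56, nat_lit 14145314946), (nat_lit 57, nat_lit 15219310722), (nat_lit 116, nat_lit 15219052674), (nat_lit 71, nat_lit 15218794626), (nat_lit 5, nat_lit 16293048450), (nat_lit 57, nat_lit 16292790402), (nat_lit 60, nat_lit 16292532354), (nat_lit 55, nat_lit 17366786178), (nat_lit 114, nat_lit 17366528130), (nat_lit 84, nat_lit 17366270082), (nat_lit 26, nat_lit 18440265858), (nat_lit 48, nat_lit 18440007810), (nat_lit 21, nat_lit 19513745538)]⟩,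
   ⟨V6_13054779522, [(nat_lit 85, nat_lit 13071835266), (nat_lit 21, nat_lit 14145572994), (nat_lit 89, nat_lit 14145314946), (nat_lit 101, nat_lit 14128799874), (nat_lit 55, nat_lit 15219310722), (nat_lit 88, nat_lit 15219052674), (nat_lit 90, nat_lit 15202537602), (nat_lit 96, nat_lit 15202279554), (nat_lit 42, nat_lit 16293048450), (nat_lit 103, nat_lit 16292790402), (nat_lit 109, nat_lit 16276275330), (nat_lit 7, nat_lit 16276017282), (nat_lit 57, nat_lit 17366786178), (nat_lit 116, nat_lit 17366528130), (nat_lit 40, nat_lit 17350013058), (nat_lit 25, nat_lit 17349755010), (nat_lit 39, nat_lit 18440265858), (nat_lit 99, nat_lit 18423750786), (nat_lit 88, nat_lit 18423492738), (nat_lit 62, nat_lit 19497230466)]⟩,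
   ⟨V6_11998077057, [(nat_lit 66, nat_lit 13071835266), (nat_lit 76, nat_lit 14145577089), (nat_lit 33, nat_lit 14145572994), (nat_lit 79, nat_lit 15219314817), (nat_lit 53, nat_lit 15219310722), (nat_lit 39, nat_lit 16293052545), (nat_lit 2, nat_lit 16293048450), (nat_lit 84, nat_lit 17366790273), (nat_lit 32, nat_lit 17366786178), (nat_lit 115, nat_lit 18440528001)]⟩],
  [W_13071040640, W_11980529792, W_11964014720]⟩
theorem C_13071835266 : chkRec R_13071835266 = true := by decide +kernel

noncomputable def R_13071835329 : Rec := ⟨nat_lit 13071835329, nat_lit 20,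
  [⟨V6_11998081089, [(nat_lit 23, nat_lit 13071835329), (nat_lit 99, nat_lit 14145577089), (nat_lit 95, nat_lit 14145573057), (nat_lit 120, nat_lit 15219318849), (nat_lit 11, nat_lit 15219314817), (nat_lit 9, nat_lit 15219310785), (nat_lit 28, nat_lit 16293056577), (nat_lit 126, nat_lit 16293052545), (nat_lit 122, nat_lit 16293048513), (nat_lit 35, nat_lit 17366794305), (nat_lit 76, nat_lit 17366790273), (nat_lit 119, nat_lit 18440532033)]⟩,
   ⟨V6_11997569088, [(nat_lit 114, nat_lit 13071835329), (nat_lit 105, nat_lit 14145577152), (nat_lit 113, nat_lit 14145577089), (nat_lit 116, nat_lit 14145315009), (nat_lit 115, nat_lit 15219318912), (nat_lit 48, nat_lit 15219318849), (nat_lit 125, nat_lit 15219056832), (nat_lit 90, nat_lit 15219056769), (nat_lit 71, nat_lit 15218794689), (nat_lit 73, nat_lit 16293060672), (nat_lit 105, nat_lit 16292798592), (nat_lit 123, nat_lit 16292798529), (nat_lit 71, nat_lit 16292536512), (nat_lit 29, nat_lit 16292536449), (nat_lit 22, nat_lit 17366540352), (nat_lit 112, nat_lit 17366278272), (nat_lit 117, nat_lit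 17366278209), (nat_lit 112, nat_lit 18440020032)]⟩,
   ⟨V6_11997306945, [(nat_lit 104, nat_lit 13071835329), (nat_lit 70, nat_lit 14145577089), (nat_lit 121, nat_lit 14145315009), (nat_lit 8, nat_lit 15219318849), (nat_lit 48, nat_lit 15219056769), (nat_lit 104, nat_lit 15218794689), (nat_lit 52, nat_lit 16292798529), (nat_lit 82, nat_lit 16292536449), (nat_lit 50, nat_lit 16292274369), (nat_lit 17, nat_lit 17366278209), (nat_lit 88, nat_lit 17366016129), (nat_lit 102, nat_lit 18439757889)]⟩],
  [W_13071560768, W_13071040640, W_13071036608, W_13055045696, W_13054263488, W_13038268544, W_13037494400, W_11964526784]⟩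
theorem C_13071835329 : chkRec R_13071835329 = true := by decide +kernel

noncomputable def R_13071835392 : Rec := ⟨nat_lit 13071835392, nat_lit 23,
  [⟨V6_13071310848, [(nat_lit 103, nat_lit 13071835392), (nat_lit 94, nat_lit 14145577152), (nat_lit 81, nat_lit 14145315072), (nat_lit 22, nat_lit 15219318912), (nat_lit 75, nat_lit 15219056832), (nat_lit 51, nat_lit 15218794752), (nat_lit 32, nat_lit 16293060672), (nat_lit 50, nat_lit 16292798592), (nat_lit 103, nat_lit 16292536512), (nat_lit 121, nat_lit 17366802432), (nat_lit 39, nat_lit 17366540352), (nat_lit 26, nat_lit 17366278272), (nat_lit 59, nat_lit 18440282112), (nat_lit 61, nat_lit 18440020032), (nat_lit 96, nat_lit 19513761792)]⟩,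
   ⟨V6_11997569088, [(nat_lit 61, nat_lit 13071835392), (nat_lit 15, nat_lit 14145577152), (nat_lit 35, nat_lit 14145315072), (nat_lit 72, nat_lit 15219318912), (nat_lit 119, nat_lit 15219056832), (nat_lit 13, nat_lit 15218794752), (nat_lit 108, nat_lit 16293060672), (nat_lit 13, nat_lit 16292798592), (nat_lit 7, nat_lit 16292536512), (nat_lit 38, nat_lit 17366540352), (nat_lit 80, nat_lit 17366278272), (nat_lit 69, nat_lit 18440020032)]⟩],
  [W_13071048704, W_13071040640, W_13054267520, W_13054263488, W_13038272576, W_13037494400, W_11997564992, W_11997298880, W_11980521728, W_11964268736, W_11963748608]⟩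
theorem C_13071835392 : chkRec R_13071835392 = true := by decide +kernel

noncomputable def R_13071839361 : Rec := ⟨nat_lit 13071839361, nat_lit 14,
  [⟨V6_11998085184, [(nat_lit 33, nat_lit 13071839361), (nat_lit 53, nat_lit 14145581184), (nat_lit 23, nat_lit 14145581121), (nat_lit 18, nat_lit 14145577089), (nat_lit 98, nat_lit 15219322944), (nat_lit 75, nat_lit 15219318912), (nat_lit 99, nat_lit 15219318849), (nat_lit 55, nat_lit 15219314817), (nat_lit 42, nat_lit 16293060672), (nat_lit 43, nat_lit 16293056640), (nat_lit 32, nat_lit 16293056577), (nat_lit 121, nat_lit 16293052545), (nat_lit 78, nat_lit 17366798400), (nat_lit 69, nat_lit 17366794368), (nat_lit 48, nat_lit 17366794305), (nat_lit 26, nat_lit 18440536128)]⟩,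
   ⟨V6_11998077057, [(nat_lit 32, nat_lit 13071839361), (nat_lit 59, nat_lit 14145577089), (nat_lit 58, nat_lit 15219314817), (nat_lit 68, nat_lit 16293052545), (nat_lit 14, nat_lit 17366790273), (nat_lit 109, nat_lit 18440528001)]⟩],
  [W_13071560768, W_13071556736, W_13055045696, W_13038268544, W_13038010496, W_11964018752]⟩
theorem C_13071839361 : chkRec R_13071839361 = true := by decide +kernel

noncomputable def R_13071839424 : Rec := ⟨nat_lit 13071839424, nat_lit 23,
  [⟨V6_13071310848, [(nat_lit 88, nat_lit 13071839424), (nat_lit 67, nat_lit 14145581184), (nat_lit 58, nat_lit 14145577152), (nat_lit 98, nat_lit 14145319104), (nat_lit 41, nat_lit 15219322944), (nat_lit 119, nat_lit 15219318912), (nat_lit 113, nat_lit 15219060864), (nat_lit 7, nat_lit 15219056832), (nat_lit 37, nat_lit 15218798784), (nat_lit 91, nat_lit 16293064704), (nat_lit 84, nat_lit 16293060672), (nat_lit 107, nat_lit 16292802624), (nat_lit 36, nat_lit 16292798592), (nat_lit 29, nat_lit 16292540544), (nat_lit 64, nat_lit 16292536512), (nat_lit 61, nat_lit 17366802432),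 (nat_lit 78, nat_lit 17366544384), (nat_lit 84, nat_lit 17366540352), (nat_lit 13, nat_lit 17366282304), (nat_lit 82, nat_lit 17366278272), (nat_lit 18, nat_lit 18440282112), (nat_lit 79, nat_lit 18440024064), (nat_lit 105, nat_lit 18440020032), (nat_lit 122, nat_lit 19513761792)]⟩,
   ⟨V6_11997573120, [(nat_lit 70, nat_lit 13071839424), (nat_lit 119, nat_lit 14145581184), (nat_lit 41, nat_lit 14145319104), (nat_lit 91, nat_lit 15219322944), (nat_lit 70, nat_lit 15219060864), (nat_lit 5, nat_lit 15218798784), (nat_lit 110, nat_lit 16293064704), (nat_lit 57, nat_lit 16292802624), (nat_lit 117, nat_lit 16292540544), (nat_lit 111, nat_lit 17366544384), (nat_lit 117, nat_lit 17366282304), (nat_lit 63, nat_lit 18440024064)]⟩,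
   ⟨V6_11981058048, [(nat_lit 97, nat_lit 13071839424), (nat_lit 96, nat_lit 14145581184), (nat_lit 103, nat_lit 14145319104), (nat_lit 67, nat_lit 14128804032), (nat_lit 126, nat_lit 15219322944), (nat_lit 101, nat_lit 15219060864), (nat_lit 92, nat_lit 15202545792), (nat_lit 73, nat_lit 15202283712), (nat_lit 74, nat_lit 16293064704), (nat_lit 124, nat_lit 16292802624), (nat_lit 39, nat_lit 16276287552), (nat_lit 95, nat_lit 16276025472), (nat_lit 78, nat_lit 17366544384), (nat_lit 104, nat_lit 17350029312), (nat_lit 84, nat_lit 17349767232), (nat_lit 89, nat_lit 18423508992)]⟩],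
  [W_13071822848, W_13071560768, W_13071298688, W_13055045696, W_13038268544, W_11998081088, W_11997564992, W_11997556928, W_11980783808, W_11964526784]⟩
theorem C_13071839424 : chkRec R_13071839424 = true := by decide +kernel

noncomputable def R_13071843393 : Rec := ⟨nat_lit 13071843393, nat_lit 7,
  [⟨V6_11998085184, [(nat_lit 49, nat_lit 13071843393), (nat_lit 98, nat_lit 14145585216), (nat_lit 6, nat_lit 14145581121), (nat_lit 82, nat_lit 15219322944), (nat_lit 8, nat_lit 15219318849), (nat_lit 60, nat_lit 16293060672), (nat_lit 81, nat_lit 16293056577), (nat_lit 5, nat_lit 17366798400), (nat_lit 112, nat_lit 17366794305), (nat_lit 120, nat_lit 18440536128)]⟩],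
  [W_13071560768, W_13038272576, W_11964534848]⟩
theorem C_13071843393 : chkRec R_13071843393 = true := by decide +kernel

noncomputable def R_13071843456 : Rec := ⟨nat_lit 13071843456, nat_lit 14,
  [⟨V6_11998085184, [(nat_lit 68, nat_lit 13071843456), (nat_lit 109, nat_lit 14145585216), (nat_lit 39, nat_lit 14145581184), (nat_lit 63, nat_lit 15219322944), (nat_lit 21, nat_lit 15219318912), (nat_lit 115, nat_lit 16293060672), (nat_lit 78, nat_lit 16293056640), (nat_lit 8, nat_lit 17366798400), (nat_lit 45, nat_lit 17366794368), (nat_lit 44, nat_lit 18440536128)]⟩,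
   ⟨V6_11981058048, [(nat_lit 100, nat_lit 13071843456), (nat_lit 98, nat_lit 14145585216), (nat_lit 34, nat_lit 14145581184), (nat_lit 22, nat_lit 14145323136), (nat_lit 93, nat_lit 14128808064), (nat_lit 102, nat_lit 15219326976), (nat_lit 90, nat_lit 15219322944), (nat_lit 116, nat_lit 15219064896), (nat_lit 54, nat_lit 15219060864), (nat_lit 10, nat_lit 15202549824), (nat_lit 25, nat_lit 15202545792), (nat_lit 10, nat_lit 15202287744), (nat_lit 10, nat_lit 16293064704), (nat_lit 42, nat_lit 16292806656), (nat_lit 28, nat_lit 16292802624), (nat_lit 35, nat_lit 16276291584), (nat_lit 110, nat_lit 16276287552), (nat_lit 82, nat_lit 16276029504), (nat_lit 40, nat_lit 16276025472), (nat_lit 3, nat_lit 17366544384), (nat_lit 123, nat_lit 17350029312), (nat_lit 118, nat_lit 17349771264), (nat_lit 102, nat_lit 17349767232), (nat_lit 5, nat_lit 18423508992)]⟩],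
  [W_13071822848, W_13071818816, W_13071556736, W_13055045696, W_13055041664, W_13038272576, W_13038268544]⟩
theorem C_13071843456 : chkRec R_13071843456 = true := by decide +kernel

noncomputable def R_13071847488 : Rec := ⟨nat_lit 13071847488, nat_lit 4,
  [⟨V6_11998085184, [(nat_lit 99, nat_lit 13071847488), (nat_lit 100, nat_lit 14145585216), (nat_lit 104, nat_lit 15219322944), (nat_lit 32, nat_lit 16293060672), (nat_lit 38, nat_lit 17366798400), (nat_lit 100, nat_lit 18440536128)]⟩],
  [W_13071822848, W_13038272576]⟩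
theorem C_13071847488 : chkRec R_13071847488 = true := by decide +kernel

noncomputable def R_13072089282 : Rec := ⟨nat_lit 13072089282, nat_lit 6,
  [⟨V6_11997819072, [(nat_lit 4, nat_lit 13072089282), (nat_lit 39, nat_lit 14145831105), (nat_lit 69, nat_lit 14145827010), (nat_lit 11, nat_lit 14145568962), (nat_lit 123, nat_lit 15219572928), (nat_lit 108, nat_lit 15219568833), (nat_lit 101, nat_lit 15219310785), (nat_lit 29, nat_lit 15219306690), (nat_lit 88, nat_lit 15219048642), (nat_lit 8, nat_lit 16293310656), (nat_lit 24, nat_lit 16293052608), (nat_lit 117, nat_lit 16293048513), (nat_lit 126, nat_lit 16292790465), (nat_lit 108, nat_lit 16292786370), (nat_lit 78, nat_lit 17366790336), (nat_lit 125, nat_lit 17366532288), (nat_lit 1, nat_lit 17366528193), (nat_lit 55, nat_lit 18440270016)]⟩],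
  [W_13071298688, W_13071040640]⟩
theorem C_13072089282 : chkRec R_13072089282 = true := by decide +kernel

noncomputable def R_13072089345 : Rec := ⟨nat_lit 13072089345, nat_lit 6,
  [⟨V6_11998085184, [(nat_lit 35, nat_lit 13072089345), (nat_lit 13, nat_lit 14145831168), (nat_lit 115, nat_lit 14145831105), (nat_lit 60, nat_lit 14145569025), (nat_lit 25, nat_lit 15219572928), (nat_lit 115, nat_lit 15219572865), (nat_lit 1, nat_lit 15219310848), (nat_lit 75, nat_lit 15219310785), (nat_lit 44, nat_lit 16293314688), (nat_lit 25, nat_lit 16293314625), (nat_lit 86, nat_lit 16293052608), (nat_lit 68, nat_lit 16293052545), (nat_lit 33, nat_lit 17367056448), (nat_lit 42, nat_lit 17366794368), (nat_lit 4, nat_lit 17366794305), (nat_lit 78, nat_lit 18440536128)]⟩],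
  [W_13071040640, W_13054001408, W_11997298880]⟩
theorem C_13072089345 : chkRec R_13072089345 = true := by decide +kernel

noncomputable def R_13072093314 : Rec := ⟨nat_lit 13072093314, nat_lit 5,
  [⟨V6_13054779522, [(nat_lit 85, nat_lit 13072093314), (nat_lit 113, nat_lit 14145831042), (nat_lit 25, nat_lit 14145572994), (nat_lit 77, nat_lit 14129057922), (nat_lit 74, nat_lit 15219568770), (nat_lit 63, nat_lit 15219310722), (nat_lit 3, nat_lit 15219052674), (nat_lit 59, nat_lit 15202795650), (nat_lit 80, nat_lit 15202537602), (nat_lit 96, nat_lit 16293306498), (nat_lit 49, nat_lit 16293048450), (nat_lit 119, nat_lit 16292790402), (nat_lit 31, nat_lit 16276533378), (nat_lit 27, nat_lit 16276275330), (nat_lit 87, nat_lit 16276017282), (nat_lit 60, nat_lit 17366786178), (nat_lit 19, nat_lit 17366528130), (nat_lit 53, nat_lit 17350271106), (nat_lit 80, nat_lit 17350013058), (nat_lit 105, nat_lit 17349755010), (nat_lit 119, nat_lit 18440265858), (nat_lit 23, nat_lit 18423750786), (nat_lit 66, nat_lit 18423492738), (nat_lit 41, nat_lit 19497230466)]⟩,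
   ⟨V6_11981561985, [(nat_lit 9, nat_lit 13072093314), (nat_lit 1, nat_lit 14145835137), (nat_lit 109, nat_lit 14145831042), (nat_lit 125, nat_lit 14129057922), (nat_lit 72, nat_lit 15219572865), (nat_lit 59, nat_lit 15219568770), (nat_lit 7, nat_lit 15202799745), (nat_lit 123, nat_lit 15202795650), (nat_lit 70, nat_lit 16293310593), (nat_lit 66, nat_lit 16293306498), (nat_lit 4, nat_lit 16276537473), (nat_lit 99, nat_lit 16276533378), (nat_lit 115, nat_lit 17367048321), (nat_lit 123, nat_lit 17350275201), (nat_lit 15, nat_lit 17350271106), (nat_lit 109, nat_lit 18424012929)]⟩],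
  [W_13071040640, W_13070782592]⟩
theorem C_13072093314 : chkRec R_13072093314 = true := by decide +kernel

noncomputable def R_13072093377 : Rec := ⟨nat_lit 13072093377, nat_lit 14,
  [⟨V6_11998085184, [(nat_lit 51, nat_lit 13072093377), (nat_lit 15, nat_lit 14145835200), (nat_lit 68, nat_lit 14145835137), (nat_lit 120, nat_lit 14145831105), (nat_lit 6, nat_lit 14145573057), (nat_lit 86, nat_lit 15219576960), (nat_lit 47, nat_lit 15219576897), (nat_lit 95, nat_lit 15219572928), (nat_lit 53, nat_lit 15219572865), (nat_lit 113, nat_lit 15219314880), (nat_lit 97, nat_lit 15219314817), (nat_lit 38, nat_lit 15219310785), (nat_lit 17, nat_lit 16293318720), (nat_lit 73, nat_lit 16293314688), (nat_lit 58, nat_lit 16293314625), (nat_lit 47, nat_lit 16293056640), (nat_lit 97, nat_lit 16293056577), (nat_lit 112, nat_lit 16293052608), (nat_lit 72, nat_lit 16293052545), (nat_lit 53, nat_lit 17367056448), (nat_lit 105, nat_lit 17366798400), (nat_lit 85, nat_lit 17366794368), (nat_lit 26, nat_lit 17366794305), (nat_lit 8, nat_lit 18440536128)]⟩,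
   ⟨V6_11998081089, [(nat_lit 66, nat_lit 13072093377), (nat_lit 33, nat_lit 14145835137), (nat_lit 104, nat_lit 14145831105), (nat_lit 54, nat_lit 14145573057), (nat_lit 45, nat_lit 15219576897), (nat_lit 122, nat_lit 15219572865), (nat_lit 89, nat_lit 15219568833), (nat_lit 121, nat_lit 15219314817), (nat_lit 42, nat_lit 15219310785), (nat_lit 62, nat_lit 16293314625), (nat_lit 35, nat_lit 16293310593), (nat_lit 82, nat_lit 16293056577), (nat_lit 90, nat_lit 16293052545), (nat_lit 17, nat_lit 16293048513), (nat_lit 115, nat_lit 17367052353), (nat_lit 85, nat_lit 17366794305), (nat_lit 103, nat_lit 17366790273), (nat_lit 38, nat_lit 18440532033)]⟩],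
  [W_13071560768, W_13071040640, W_13071036608, W_13055045696, W_11997556928, W_11981566016]⟩
theorem C_13072093377 : chkRec R_13072093377 = true := by decide +kernel

noncomputable def R_13072093440 : Rec := ⟨nat_lit 13072093440, nat_lit 16,
  [⟨V6_13055311872, [(nat_lit 49, nat_lit 13072093440), (nat_lit 28, nat_lit 14145835200), (nat_lit 88, nat_lit 14145831168), (nat_lit 120, nat_lit 14129058048), (nat_lit 11, nat_lit 15219576960), (nat_lit 61, nat_lit 15219572928), (nat_lit 105, nat_lit 15202799808), (nat_lit 67, nat_lit 15202795776), (nat_lit 123, nat_lit 16293318720), (nat_lit 40, nat_lit 16293314688), (nat_lit 117, nat_lit 16276541568), (nat_lit 57, nat_lit 16276537536), (nat_lit 30, nat_lit 17367060480), (nat_lit 73, nat_lit 17367056448), (nat_lit 102, nat_lit 17350283328), (nat_lit 71, nat_lit 17350279296), (nat_lit 25, nat_lit 18440798208), (nat_lit 31, nat_lit 18424025088), (nat_lit 20, nat_lit 18424021056), (nat_lit 80, nat_lit 19497762816)]⟩,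
   ⟨V6_11998347264, [(nat_lit 52, nat_lit 13072093440), (nat_lit 39, nat_lit 14145835200), (nat_lit 34, nat_lit 14145831168), (nat_lit 21, nat_lit 15219576960), (nat_lit 34, nat_lit 15219572928), (nat_lit 29, nat_lit 16293318720), (nat_lit 67, nat_lit 16293314688), (nat_lit 87, nat_lit 17367060480), (nat_lit 87, nat_lit 17367056448), (nat_lit 2, nat_lit 18440798208)]⟩],
  [W_13071040640, W_13070782592, W_13054267520, W_13054263488, W_13054001408, W_11997564992, W_11997040832, W_11980521728]⟩
theorem C_13072093440 : chkRec R_13072093440 = true := by decide +kernel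

noncomputable def R_13072097409 : Rec := ⟨nat_lit 13072097409, nat_lit 15,
  [⟨V6_11998339137, [(nat_lit 53, nat_lit 13072097409), (nat_lit 45, nat_lit 14145839169), (nat_lit 20, nat_lit 14145835137), (nat_lit 74, nat_lit 15219576897), (nat_lit 79, nat_lit 15219572865), (nat_lit 29, nat_lit 16293314625), (nat_lit 92, nat_lit 16293310593), (nat_lit 124, nat_lit 17367052353), (nat_lit 5, nat_lit 17367048321), (nat_lit 55, nat_lit 18440790081)]⟩,
   ⟨V6_11998081089, [(nat_lit 74, nat_lit 13072097409), (nat_lit 46, nat_lit 14145839169), (nat_lit 115, nat_lit 14145835137), (nat_lit 58, nat_lit 14145577089), (nat_lit 42, nat_lit 15219576897), (nat_lit 16, nat_lit 15219572865), (nat_lit 61, nat_lit 15219318849), (nat_lit 64, nat_lit 15219314817), (nat_lit 8, nat_lit 16293314625), (nat_lit 5, nat_lit 16293310593), (nat_lit 38, nat_lit 16293056577), (nat_lit 61, nat_lit 16293052545), (nat_lit 106, nat_lit 17367052353), (nat_lit 9, nat_lit 17366794305), (nat_lit 99, nat_lit 17366790273), (nat_lit 88, nat_lit 18440532033)]⟩,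
   ⟨V6_11998077057, [(nat_lit 3, nat_lit 13072097409), (nat_lit 99, nat_lit 14145835137), (nat_lit 12, nat_lit 14145577089), (nat_lit 121, nat_lit 15219572865), (nat_lit 95, nat_lit 15219314817), (nat_lit 21, nat_lit 16293310593), (nat_lit 65, nat_lit 16293052545), (nat_lit 30, nat_lit 17367048321), (nat_lit 76, nat_lit 17366790273), (nat_lit 91, nat_lit 18440528001)]⟩,
   ⟨V6_11997306945, [(nat_lit 53, nat_lit 13072097409), (nat_lit 8, nat_lit 14145839169), (nat_lit 109, nat_lit 14145577089), (nat_lit 21, nat_lit 15219318849), (nat_lit 20, nat_lit 15219056769), (nat_lit 24, nat_lit 16292798529), (nat_lit 80, nat_lit 16292536449), (nat_lit 31, nat_lit 17366278209), (nat_lit 1, nat_lit 17366016129), (nat_lit 21, nat_lit 18439757889)]⟩],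
  [W_13071560768, W_13071040640, W_13055303744, W_13054271552, W_11981561984]⟩
theorem C_13072097409 : chkRec R_13072097409 = true := by decide +kernel

noncomputable def R_13072097472 : Rec := ⟨nat_lit 13072097472, nat_lit 23,
  [⟨V6_13071310848, [(nat_lit 100, nat_lit 13072097472), (nat_lit 32, nat_lit 14145839232), (nat_lit 61, nat_lit 14145577152), (nat_lit 79, nat_lit 15219580992), (nat_lit 3, nat_lit 15219318912), (nat_lit 28, nat_lit 15219056832), (nat_lit 34, nat_lit 16293322752), (nat_lit 7, nat_lit 16293060672), (nat_lit 59, nat_lit 16292798592), (nat_lit 43, nat_lit 16292536512), (nat_lit 91, nat_lit 17366802432), (nat_lit 87, nat_lit 17366540352), (nat_lit 113, nat_lit 17366278272), (nat_lit 61, nat_lit 18440282112), (nat_lit 68, nat_lit 18440020032), (nat_lit 119, nat_lit 19513761792)]⟩,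
   ⟨V6_11997569088, [(nat_lit 21, nat_lit 13072097472), (nat_lit 103, nat_lit 14145839232), (nat_lit 30, nat_lit 14145577152), (nat_lit 53, nat_lit 15219580992), (nat_lit 56, nat_lit 15219318912), (nat_lit 102, nat_lit 15219056832), (nat_lit 103, nat_lit 16293060672), (nat_lit 89, nat_lit 16292798592), (nat_lit 88, nat_lit 16292536512), (nat_lit 75, nat_lit 17366540352), (nat_lit 123, nat_lit 17366278272), (nat_lit 79, nat_lit 18440020032)]⟩],
  [W_13071822848, W_13071560768, W_13071040640, W_13071036608, W_13055307776, W_13054263488, W_11981570048, W_11981566016]⟩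
theorem C_13072097472 : chkRec R_13072097472 = true := by decide +kernel

noncomputable def R_13072101441 : Rec := ⟨nat_lit 13072101441, nat_lit 7,
  [⟨V6_11998339137, [(nat_lit 110, nat_lit 13072101441), (nat_lit 52, nat_lit 14145839169), (nat_lit 120, nat_lit 15219576897), (nat_lit 75, nat_lit 16293314625), (nat_lit 64, nat_lit 17367052353), (nat_lit 81, nat_lit 18440790081)]⟩,
   ⟨V6_11998081089, [(nat_lit 51, nat_lit 13072101441), (nat_lit 8, nat_lit 14145839169), (nat_lit 15, nat_lit 14145581121), (nat_lit 99, nat_lit 15219576897), (nat_lit 5, nat_lit 15219318849), (nat_lit 82, nat_lit 16293314625), (nat_lit 122, nat_lit 16293056577), (nat_lit 67, nat_lit 17367052353), (nat_lit 98, nat_lit 17366794305), (nat_lit 84, nat_lit 18440532033)]⟩],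
  [W_13071560768, W_13055303744]⟩
theorem C_13072101441 : chkRec R_13072101441 = true := by decide +kernel

noncomputable def R_13072101504 : Rec := ⟨nat_lit 13072101504, nat_lit 20,
  [⟨V6_13055311872, [(nat_lit 123, nat_lit 13072101504), (nat_lit 26, nat_lit 14145843264), (nat_lit 73, nat_lit 14145839232), (nat_lit 47, nat_lit 14129066112), (nat_lit 48, nat_lit 15219585024), (nat_lit 78, nat_lit 15219580992), (nat_lit 38, nat_lit 15219576960), (nat_lit 108, nat_lit 15202807872), (nat_lit 14, nat_lit 15202803840), (nat_lit 20, nat_lit 16293322752), (nat_lit 71, nat_lit 16293318720), (nat_lit 109, nat_lit 16293314688), (nat_lit 1, nat_lit 16276549632), (nat_lit 72, nat_lit 16276545600), (nat_lit 36, nat_lit 16276541568), (nat_lit 122, nat_lit 17367060480), (nat_lit 43, nat_lit 17367056448), (nat_lit 73, nat_lit 17350287360), (nat_lit 84, nat_lit 17350283328), (nat_lit 124, nat_lit 17350279296), (nat_lit 16, nat_lit 18440798208), (nat_lit 113, nat_lit 18424025088), (nat_lit 1, nat_lit 18424021056), (nat_lit 6, nat_lit 19497762816)]⟩,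
   ⟨V6_11997573120, [(nat_lit 10, nat_lit 13072101504), (nat_lit 81, nat_lit 14145843264), (nat_lit 80, nat_lit 14145581184), (nat_lit 107, nat_lit 15219585024), (nat_lit 8, nat_lit 15219322944), (nat_lit 43, nat_lit 15219060864), (nat_lit 44, nat_lit 16293064704), (nat_lit 95, nat_lit 16292802624), (nat_lit 25, nat_lit 16292540544), (nat_lit 48, nat_lit 17366544384), (nat_lit 57, nat_lit 17366282304), (nat_lit 19, nat_lit 18440024064)]⟩],
  [W_13071818816, W_13071560768, W_13071556736, W_13071298688, W_13055041664, W_11998081088, W_11997819008, W_11997564992, W_11981561984]⟩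
theorem C_13072101504 : chkRec R_13072101504 = true := by decide +kernel

noncomputable def R_13072105536 : Rec := ⟨nat_lit 13072105536, nat_lit 12,
  [⟨V6_11998343232, [(nat_lit 104, nat_lit 13072105536), (nat_lit 118, nat_lit 14145843264), (nat_lit 14, nat_lit 15219580992), (nat_lit 65, nat_lit 16293318720), (nat_lit 60, nat_lit 17367056448), (nat_lit 117, nat_lit 18440794176)]⟩,
   ⟨V6_11981574144, [(nat_lit 5, nat_lit 13072105536), (nat_lit 97, nat_lit 14145847296), (nat_lit 101, nat_lit 14145843264), (nat_lit 59, nat_lit 14129070144), (nat_lit 98, nat_lit 15219585024), (nat_lit 71, nat_lit 15219580992), (nat_lit 102, nat_lit 15202811904), (nat_lit 72, nat_lit 15202807872), (nat_lit 38, nat_lit 16293322752), (nat_lit 125, nat_lit 16293318720), (nat_lit 108, nat_lit 16276549632), (nat_lit 54, nat_lit 16276545600), (nat_lit 89, nat_lit 17367060480), (nat_lit 43, nat_lit 17350287360), (nat_lit 125, nat_lit 17350283328), (nat_lit 54, nat_lit 18424025088)]⟩],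
  [W_13072076864, W_13071822848, W_13071560768, W_13055303744]⟩
theorem C_13072105536 : chkRec R_13072105536 = true := by decide +kernel

noncomputable def R_13072109568 : Rec := ⟨nat_lit 13072109568, nat_lit 3,
  [⟨V6_11998347264, [(nat_lit 10, nat_lit 13072109568), (nat_lit 55, nat_lit 14145847296), (nat_lit 108, nat_lit 15219585024), (nat_lit 43, nat_lit 16293322752), (nat_lit 59, nat_lit 17367060480), (nat_lit 55, nat_lit 18440798208)]⟩],
  [W_13055307776]⟩
theorem C_13072109568 : chkRec R_13072109568 = true := by decide +kernel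

noncomputable def R_13072347330 : Rec := ⟨nat_lit 13072347330, nat_lit 1,
  [⟨V6_13070774466, [(nat_lit 47, nat_lit 13072347330), (nat_lit 106, nat_lit 14145827010), (nat_lit 42, nat_lit 15219306690), (nat_lit 38, nat_lit 16292786370), (nat_lit 30, nat_lit 17366266050), (nat_lit 53, nat_lit 18439745730), (nat_lit 58, nat_lit 19513225410)]⟩],
  [W_11997819008]⟩
theorem C_13072347330 : chkRec R_13072347330 = true := by decide +kernel

noncomputable def R_13072351362 : Rec := ⟨nat_lit 13072351362, nat_lit 1,
  [⟨V6_13071294594, [(nat_lit 110, nat_lit 13072351362), (nat_lit 5, nat_lit 14146089090), (nat_lit 32, nat_lit 14145831042), (nat_lit 15, nat_lit 15219826818), (nat_lit 114, nat_lit 15219568770), (nat_lit 74, nat_lit 15219310722), (nat_lit 51, nat_lit 16293306498), (nat_lit 30, nat_lit 16293048450), (nat_lit 91, nat_lit 16292790402), (nat_lit 20, nat_lit 17366786178), (nat_lit 86, nat_lit 17366528130), (nat_lit 87, nat_lit 17366270082), (nat_lit 55, nat_lit 18440265858), (nat_lit 116, nat_lit 18440007810), (nat_lit 5, nat_lit 19513745538)]⟩],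
  [W_11997819008]⟩
theorem C_13072351362 : chkRec R_13072351362 = true := by decide +kernel

noncomputable def R_13072351425 : Rec := ⟨nat_lit 13072351425, nat_lit 5,
  [⟨V6_11997819072, [(nat_lit 120, nat_lit 13072351425), (nat_lit 90, nat_lit 14146093248), (nat_lit 52, nat_lit 14146089153), (nat_lit 75, nat_lit 14145831105), (nat_lit 120, nat_lit 15219830976), (nat_lit 22, nat_lit 15219572928), (nat_lit 31, nat_lit 15219568833), (nat_lit 35, nat_lit 15219310785), (nat_lit 13, nat_lit 16293310656), (nat_lit 67, nat_lit 16293052608), (nat_lit 22, nat_lit 16293048513), (nat_lit 35, nat_lit 16292790465), (nat_lit 124, nat_lit 17366790336), (nat_lit 3, nat_lit 17366532288), (nat_lit 19, nat_lit 17366528193), (nat_lit 72, nat_lit 18440270016)]⟩],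
  [W_13071040640, W_13071036608]⟩
theorem C_13072351425 : chkRec R_13072351425 = true := by decide +kernel

noncomputable def R_13072351488 : Rec := ⟨nat_lit 13072351488, nat_lit 2,
  [⟨V6_11998347264, [(nat_lit 106, nat_lit 13072351488), (nat_lit 99, nat_lit 14146093248), (nat_lit 121, nat_lit 14145831168), (nat_lit 7, nat_lit 15219835008), (nat_lit 30, nat_lit 15219572928), (nat_lit 13, nat_lit 16293576768), (nat_lit 54, nat_lit 16293314688), (nat_lit 5, nat_lit 17367318528), (nat_lit 73, nat_lit 17367056448), (nat_lit 28, nat_lit 18440798208)]⟩],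
  [W_13070778560, W_11997298880]⟩
theorem C_13072351488 : chkRec R_13072351488 = true := by decide +kernel

noncomputable def R_13072355457 : Rec := ⟨nat_lit 13072355457, nat_lit 6,
  [⟨V6_11998081089, [(nat_lit 126, nat_lit 13072355457), (nat_lit 50, nat_lit 14146097217), (nat_lit 93, nat_lit 14146093185), (nat_lit 8, nat_lit 14145835137), (nat_lit 120, nat_lit 15219834945), (nat_lit 120, nat_lit 15219830913), (nat_lit 20, nat_lit 15219576897), (nat_lit 66, nat_lit 15219572865), (nat_lit 93, nat_lit 15219314817), (nat_lit 39, nat_lit 16293572673), (nat_lit 49, nat_lit 16293314625), (nat_lit 91, nat_lit 16293310593), (nat_lit 104, nat_lit 16293056577), (nat_lit 107, nat_lit 16293052545), (nat_lit 19, nat_lit 17367052353), (nat_lit 3, nat_lit 17366794305), (nat_lit 40, nat_lit 17366790273), (nat_lit 25, nat_lit 18440532033)]⟩,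
   ⟨V6_11998077057, [(nat_lit 97, nat_lit 13072355457), (nat_lit 46, nat_lit 14146093185), (nat_lit 61, nat_lit 14145835137), (nat_lit 3, nat_lit 15219830913), (nat_lit 7, nat_lit 15219572865), (nat_lit 17, nat_lit 15219314817), (nat_lit 122, nat_lit 16293568641), (nat_lit 52, nat_lit 16293310593), (nat_lit 12, nat_lit 16293052545), (nat_lit 71, nat_lit 17367048321), (nat_lit 91, nat_lit 17366790273), (nat_lit 98, nat_lit 18440528001)]⟩],
  [W_13071556736, W_13071040640, W_13070782592]⟩
theorem C_13072355457 : chkRec R_13072355457 = true := by decide +kernel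

noncomputable def R_13072355520 : Rec := ⟨nat_lit 13072355520, nat_lit 10,
  [⟨V6_11998347264, [(nat_lit 79, nat_lit 13072355520), (nat_lit 16, nat_lit 14146097280), (nat_lit 3, nat_lit 14146093248), (nat_lit 3, nat_lit 14145835200), (nat_lit 106, nat_lit 15219839040), (nat_lit 110, nat_lit 15219835008), (nat_lit 58, nat_lit 15219576960), (nat_lit 39, nat_lit 15219572928), (nat_lit 50, nat_lit 16293580800), (nat_lit 100, nat_lit 16293576768), (nat_lit 30, nat_lit 16293318720), (nat_lit 118, nat_lit 16293314688), (nat_lit 8, nat_lit 17367318528), (nat_lit 101, nat_lit 17367060480), (nat_lit 87, nat_lit 17367056448), (nat_lit 22, nat_lit 18440798208)]⟩,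
   ⟨V6_11998343232, [(nat_lit 2, nat_lit 13072355520), (nat_lit 28, nat_lit 14146097280), (nat_lit 58, nat_lit 14146093248), (nat_lit 42, nat_lit 14145835200), (nat_lit 83, nat_lit 15219839040), (nat_lit 88, nat_lit 15219835008), (nat_lit 90, nat_lit 15219830976), (nat_lit 59, nat_lit 15219576960), (nat_lit 21, nat_lit 15219572928), (nat_lit 69, nat_lit 16293576768), (nat_lit 112, nat_lit 16293572736), (nat_lit 89, nat_lit 16293318720), (nat_lit 57, nat_lit 16293314688), (nat_lit 55, nat_lit 16293310656), (nat_lit 119, nat_lit 17367314496), (nat_lit 28, nat_lit 17367056448), (nat_lit 66, nat_lit 17367052416), (nat_lit 110, nat_lit 18440794176)]⟩],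
  [W_13071822848, W_13071040640, W_13070782592, W_11997040832]⟩
theorem C_13072355520 : chkRec R_13072355520 = true := by decide +kernel

noncomputable def R_13072359489 : Rec := ⟨nat_lit 13072359489, nat_lit 5,
  [⟨V6_11998597185, [(nat_lit 18, nat_lit 13072359489), (nat_lit 55, nat_lit 14146097217), (nat_lit 37, nat_lit 15219834945), (nat_lit 75, nat_lit 16293572673), (nat_lit 22, nat_lit 17367310401), (nat_lit 18, nat_lit 18441048129)]⟩,
   ⟨V6_11997306945, [(nat_lit 109, nat_lit 13072359489), (nat_lit 45, nat_lit 14145839169), (nat_lit 73, nat_lit 15219318849), (nat_lit 36, nat_lit 16292798529), (nat_lit 96, nat_lit 17366278209), (nat_lit 11, nat_lit 18439757889)]⟩],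
  [W_13071560768]⟩
theorem C_13072359489 : chkRec R_13072359489 = true := by decide +kernel

noncomputable def R_13072359552 : Rec := ⟨nat_lit 13072359552, nat_lit 9,
  [⟨V6_11997569088, [(nat_lit 113, nat_lit 13072359552), (nat_lit 87, nat_lit 14146101312), (nat_lit 19, nat_lit 14145839232), (nat_lit 88, nat_lit 15219580992), (nat_lit 112, nat_lit 15219318912), (nat_lit 39, nat_lit 16293060672), (nat_lit 125, nat_lit 16292798592), (nat_lit 44, nat_lit 17366540352), (nat_lit 124, nat_lit 17366278272), (nat_lit 61, nat_lit 18440020032)]⟩],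
  [W_13072080896, W_13071556736, W_13071040640, W_11997302912]⟩
theorem C_13072359552 : chkRec R_13072359552 = true := by decide +kernel

noncomputable def R_13072363584 : Rec := ⟨nat_lit 13072363584, nat_lit 8,
  [⟨V6_13072339008, [(nat_lit 53, nat_lit 13072363584), (nat_lit 56, nat_lit 14146101312), (nat_lit 1, nat_lit 15219839040), (nat_lit 95, nat_lit 16293576768), (nat_lit 22, nat_lit 17367314496), (nat_lit 29, nat_lit 18441052224), (nat_lit 121, nat_lit 19514789952)]⟩,
   ⟨V6_11997573120, [(nat_lit 119, nat_lit 13072363584), (nat_lit 47, nat_lit 14146105344), (nat_lit 102, nat_lit 14145843264), (nat_lit 36, nat_lit 15219585024), (nat_lit 13, nat_lit 15219322944), (nat_lit 5, nat_lit 16293064704), (nat_lit 115, nat_lit 16292802624), (nat_lit 43, nat_lit 17366544384), (nat_lit 81, nat_lit 17366282304), (nat_lit 1, nat_lit 18440024064)]⟩],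
  [W_13071564800, W_11998597184, W_11998343168]⟩
theorem C_13072363584 : chkRec R_13072363584 = true := by decide +kernel

noncomputable def R_13072367616 : Rec := ⟨nat_lit 13072367616, nat_lit 2,
  [⟨V6_11998605312, [(nat_lit 92, nat_lit 13072367616), (nat_lit 36, nat_lit 14146105344), (nat_lit 71, nat_lit 15219843072), (nat_lit 121, nat_lit 16293580800), (nat_lit 14, nat_lit 17367318528), (nat_lit 40, nat_lit 18441056256)]⟩],
  [W_13072080896]⟩
theorem C_13072367616 : chkRec R_13072367616 = true := by decide +kernel

noncomputable def R_13087817988 : Rec := ⟨nat_lit 13087817988, nat_lit 1,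
  [⟨V6_12987154692, [(nat_lit 10, nat_lit 13087817988), (nat_lit 97, nat_lit 14144782596), (nat_lit 50, nat_lit 15201747204), (nat_lit 77, nat_lit 16258711812), (nat_lit 30, nat_lit 17315676420), (nat_lit 117, nat_lit 18372641028), (nat_lit 74, nat_lit 19429605636)]⟩],
  [W_13054001408]⟩
theorem C_13087817988 : chkRec R_13087817988 = true := by decide +kernel

noncomputable def R_13087822083 : Rec := ⟨nat_lit 13087822083, nat_lit 1,
  [⟨V6_13087555776, [(nat_lit 114, nat_lit 13087822083), (nat_lit 59, nat_lit 14161563906), (nat_lit 43, nat_lit 14161563843), (nat_lit 92, nat_lit 14161559811), (nat_lit 96, nat_lit 14161301763), (nat_lit 11, nat_lit 15235305729), (nat_lit 98, nat_lit 15235305666), (nat_lit 75, nat_lit 15235301634), (nat_lit 99, nat_lit 15235301571), (nat_lit 66, nat_lit 15235043586), (nat_lit 97, nat_lit 15235043523), (nat_lit 32, nat_lit 15235039491), (nat_lit 122, nat_lit 16309047552), (nat_lit 48, nat_lit 16309047489), (nat_lit 123, nat_lit 16309043457), (nat_lit 80, nat_lit 16309043394), (nat_lit 114, nat_lit 16308785409),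 (nat_lit 36, nat_lit 16308785346), (nat_lit 15, nat_lit 16308781314), (nat_lit 29, nat_lit 16308781251), (nat_lit 46, nat_lit 17382789312), (nat_lit 53, nat_lit 17382785280), (nat_lit 46, nat_lit 17382785217), (nat_lit 98, nat_lit 17382527232), (nat_lit 18, nat_lit 17382527169), (nat_lit 14, nat_lit 17382523137), (nat_lit 34, nat_lit 17382523074), (nat_lit 78, nat_lit 18456527040), (nat_lit 78, nat_lit 18456268992), (nat_lit 122, nat_lit 18456264960), (nat_lit 23, nat_lit 18456264897), (nat_lit 88, nat_lit 19530006720)]⟩],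
  [W_13020713216]⟩
theorem C_13087822083 : chkRec R_13087822083 = true := by decide +kernel

noncomputable def R_13087822146 : Rec := ⟨nat_lit 13087822146, nat_lit 1,
  [⟨V6_13037228352, [(nat_lit 76, nat_lit 13087822146), (nat_lit 9, nat_lit 14161563969), (nat_lit 67, nat_lit 14161301826), (nat_lit 74, nat_lit 14144786754), (nat_lit 6, nat_lit 15235305792), (nat_lit 121, nat_lit 15235043649), (nat_lit 121, nat_lit 15218528577), (nat_lit 120, nat_lit 15218266434), (nat_lit 15, nat_lit 15201751362), (nat_lit 4, nat_lit 16308785472), (nat_lit 30, nat_lit 16292270400), (nat_lit 57, nat_lit 16292008257), (nat_lit 16, nat_lit 16275493185), (nat_lit 26, nat_lit 16275231042), (nat_lit 90, nat_lit 16258715970), (nat_lit 31, nat_lit 17365750080), (nat_lit 1, nat_lit 17349235008), (nat_lit 65, nat_lit 17348972865), (nat_lit 102, nat_lit 17332457793), (nat_lit 99, nat_lit 17332195650), (nat_lit 115, nat_lit 18422714688), (nat_lit 77, nat_lit 18406199616), (nat_lit 5, nat_lit 18405937473), (nat_lit 117, nat_lit 19479679296)]⟩],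
  [W_13020713216]⟩
theorem C_13087822146 : chkRec R_13087822146 = true := by decide +kernel

noncomputable def R_13087826115 : Rec := ⟨nat_lit 13087826115, nat_lit 1,
  [⟨V6_13037482179, [(nat_lit 86, nat_lit 13087826115), (nat_lit 93, nat_lit 14161563843), (nat_lit 29, nat_lit 14144790723), (nat_lit 36, nat_lit 15235301571), (nat_lit 41, nat_lit 15218528451), (nat_lit 51, nat_lit 15201755331), (nat_lit 5, nat_lit 16309039299), (nat_lit 47, nat_lit 16292266179), (nat_lit 6, nat_lit 16275493059), (nat_lit 92, nat_lit 16258719939), (nat_lit 80, nat_lit 17366003907), (nat_lit 21, nat_lit 17349230787), (nat_lit 63, nat_lit 17332457667), (nat_lit 47, nat_lit 18422968515), (nat_lit 110, nat_lit 18406195395), (nat_lit 32, nat_lit 19479933123)]⟩],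
  [W_13020717248]⟩
theorem C_13087826115 : chkRec R_13087826115 = true := by decide +kernel

noncomputable def R_13087826178 : Rec := ⟨nat_lit 13087826178, nat_lit 5,
  [⟨V6_13003940034, [(nat_lit 124, nat_lit 13087826178), (nat_lit 77, nat_lit 14161567938), (nat_lit 89, nat_lit 14144790786), (nat_lit 74, nat_lit 15218532546), (nat_lit 115, nat_lit 15201755394), (nat_lit 55, nat_lit 16275497154), (nat_lit 10, nat_lit 16258720002), (nat_lit 29, nat_lit 17332461762), (nat_lit 59, nat_lit 17315684610), (nat_lit 121, nat_lit 18389426370), (nat_lit 19, nat_lit 18372649218), (nat_lit 107, nat_lit 19446390978)]⟩,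
   ⟨V6_12987162882, [(nat_lit 3, nat_lit 13087826178), (nat_lit 118, nat_lit 14144790786), (nat_lit 15, nat_lit 15201755394), (nat_lit 112, nat_lit 16258720002), (nat_lit 9, nat_lit 17315684610), (nat_lit 124, nat_lit 18372649218), (nat_lit 73, nat_lit 19429613826)]⟩],
  [W_13071040640, W_13054267520]⟩
theorem C_13087826178 : chkRec R_13087826178 = true := by decide +kernel

noncomputable def R_13087826241 : Rec := ⟨nat_lit 13087826241, nat_lit 3,
  [⟨V6_13087821888, [(nat_lit 56, nat_lit 13087826241), (nat_lit 109, nat_lit 14161568064), (nat_lit 80, nat_lit 14161568001), (nat_lit 5, nat_lit 14161563969), (nat_lit 73, nat_lit 15235309824), (nat_lit 64, nat_lit 15235309761), (nat_lit 44, nat_lit 15235305792), (nat_lit 70, nat_lit 15235305729), (nat_lit 86, nat_lit 16309051584), (nat_lit 39, nat_lit 16309051521), (nat_lit 49, nat_lit 16309047552), (nat_lit 63, nat_lit 16309047489), (nat_lit 117, nat_lit 17382793344), (nat_lit 111, nat_lit 17382793281), (nat_lit 108, nat_lit 17382789312), (nat_lit 60, nat_lit 17382789249), (nat_lit 63, nat_lit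 18456535104), (nat_lit 25, nat_lit 18456531072), (nat_lit 46, nat_lit 18456531009), (nat_lit 82, nat_lit 19530272832)]⟩],
  [W_13037494400]⟩
theorem C_13087826241 : chkRec R_13087826241 = true := by decide +kernel

noncomputable def R_13087826304 : Rec := ⟨nat_lit 13087826304, nat_lit 4,
  [⟨V6_13087825920, [(nat_lit 44, nat_lit 13087826304), (nat_lit 14, nat_lit 14161568064), (nat_lit 42, nat_lit 15235309824), (nat_lit 46, nat_lit 16309051584), (nat_lit 36, nat_lit 17382793344), (nat_lit 78, nat_lit 18456535104), (nat_lit 91, nat_lit 19530276864)]⟩],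
  [W_13054271552]⟩
theorem C_13087826304 : chkRec R_13087826304 = true := by decide +kernel

noncomputable def R_13088080131 : Rec := ⟨nat_lit 13088080131, nat_lit 2,
  [⟨V6_13070516418, [(nat_lit 79, nat_lit 13088080131), (nat_lit 4, nat_lit 14161821954), (nat_lit 89, nat_lit 14161821891), (nat_lit 17, nat_lit 14161559811), (nat_lit 124, nat_lit 14145044739), (nat_lit 103, nat_lit 15235563714), (nat_lit 83, nat_lit 15235301634), (nat_lit 87, nat_lit 15235301571), (nat_lit 94, nat_lit 15235039491), (nat_lit 8, nat_lit 15218786562), (nat_lit 66, nat_lit 15218786499), (nat_lit 2, nat_lit 15218524419), (nat_lit 21, nat_lit 16309043394), (nat_lit 14, nat_lit 16308781314), (nat_lit 38, nat_lit 16308781251), (nat_lit 118, nat_lit 16308519171), (nat_lit 104, nat_lit 16292528322), (nat_lit 51, nat_lit 16292266242), (nat_lit 60, nat_lit 16292266179), (nat_lit 53, nat_lit 16292004099), (nat_lit 76, nat_lit 17382523074), (nat_lit 105, nat_lit 17382260994), (nat_lit 3, nat_lit 17382260931), (nat_lit 8, nat_lit 17366008002), (nat_lit 4, nat_lit 17365745922),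 (nat_lit 45, nat_lit 17365745859), (nat_lit 101, nat_lit 17365483779), (nat_lit 38, nat_lit 18456002754), (nat_lit 86, nat_lit 18439487682), (nat_lit 97, nat_lit 18439225602), (nat_lit 80, nat_lit 18439225539), (nat_lit 84, nat_lit 19512967362)]⟩],
  [W_13054001408, W_13020971264]⟩
theorem C_13088080131 : chkRec R_13088080131 = true := by decide +kernel

noncomputable def R_13088084163 : Rec := ⟨nat_lit 13088084163, nat_lit 2,
  [⟨V6_13004198082, [(nat_lit 94, nat_lit 13088084163), (nat_lit 17, nat_lit 14161825986), (nat_lit 40, nat_lit 14145048771), (nat_lit 118, nat_lit 15218790594), (nat_lit 41, nat_lit 15202013379), (nat_lit 117, nat_lit 16275755202), (nat_lit 105, nat_lit 16258977987), (nat_lit 40, nat_lit 17332719810), (nat_lit 30, nat_lit 17315942595), (nat_lit 81, nat_lit 18389684418), (nat_lit 65, nat_lit 18372907203), (nat_lit 88, nat_lit 19446649026)]⟩],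
  [W_13071036608, W_13070778560]⟩
theorem C_13088084163 : chkRec R_13088084163 = true := by decide +kernel

noncomputable def R_13088084226 : Rec := ⟨nat_lit 13088084226, nat_lit 4,
  [⟨V6_13087559808, [(nat_lit 114, nat_lit 13088084226), (nat_lit 18, nat_lit 14161826049), (nat_lit 24, nat_lit 14161825986), (nat_lit 16, nat_lit 14161563906), (nat_lit 49, nat_lit 15235567872), (nat_lit 31, nat_lit 15235567809), (nat_lit 94, nat_lit 15235567746), (nat_lit 71, nat_lit 15235305729), (nat_lit 106, nat_lit 15235305666), (nat_lit 77, nat_lit 15235043586), (nat_lit 122, nat_lit 16309309632), (nat_lit 49, nat_lit 16309309569), (nat_lit 106, nat_lit 16309047552), (nat_lit 43, nat_lit 16309047489), (nat_lit 17, nat_lit 16309047426), (nat_lit 49, nat_lit 16308785409), (nat_lit 70, nat_lit 16308785346), (nat_lit 50, nat_lit 17383051392), (nat_lit 68, nat_lit 17382789312), (nat_lit 6, nat_lit 17382789249), (nat_lit 61, nat_lit 17382527232), (nat_lit 53, nat_lit 17382527169), (nat_lit 8, nat_lit 17382527106), (nat_lit 117, nat_lit 18456531072), (nat_lit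 55, nat_lit 18456268992), (nat_lit 100, nat_lit 18456268929), (nat_lit 82, nat_lit 19530010752)]⟩],
  [W_13071040640, W_13020971264]⟩
theorem C_13088084226 : chkRec R_13088084226 = true := by decide +kernel

noncomputable def R_13088084289 : Rec := ⟨nat_lit 13088084289, nat_lit 3,
  [⟨V6_13087559808, [(nat_lit 67, nat_lit 13088084289), (nat_lit 35, nat_lit 14161826112), (nat_lit 99, nat_lit 14161826049), (nat_lit 56, nat_lit 14161563969), (nat_lit 47, nat_lit 15235567872), (nat_lit 78, nat_lit 15235567809), (nat_lit 59, nat_lit 15235305792), (nat_lit 64, nat_lit 15235305729), (nat_lit 71, nat_lit 15235043649), (nat_lit 20, nat_lit 16309309632), (nat_lit 37, nat_lit 16309309569), (nat_lit 40, nat_lit 16309047552), (nat_lit 32, nat_lit 16309047489), (nat_lit 59, nat_lit 16308785472), (nat_lit 55, nat_lit 16308785409), (nat_lit 18, nat_lit 17383051392), (nat_lit 106, nat_lit 17382789312), (nat_lit 96, nat_lit 17382789249), (nat_lit 45, nat_lit 17382527232), (nat_lit 114, nat_lit 17382527169), (nat_lit 72, nat_lit 18456531072), (nat_lit 51,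 nat_lit 18456268992), (nat_lit 7, nat_lit 18456268929), (nat_lit 90, nat_lit 19530010752)]⟩,
   ⟨V6_13037228352, [(nat_lit 20, nat_lit 13088084289), (nat_lit 19, nat_lit 14161826112), (nat_lit 37, nat_lit 14161563969), (nat_lit 42, nat_lit 14145048897), (nat_lit 19, nat_lit 15235305792), (nat_lit 62, nat_lit 15235043649), (nat_lit 50, nat_lit 15218790720), (nat_lit 85, nat_lit 15218528577), (nat_lit 85, nat_lit 15202013505), (nat_lit 78, nat_lit 16308785472), (nat_lit 124, nat_lit 16292270400), (nat_lit 44, nat_lit 16292008257), (nat_lit 80, nat_lit 16275755328), (nat_lit 12, nat_lit 16275493185), (nat_lit 100, nat_lit 16258978113), (nat_lit 15, nat_lit 17365750080), (nat_lit 122, nat_lit 17349235008), (nat_lit 98, nat_lit 17348972865), (nat_lit 31, nat_lit 17332719936), (nat_lit 30, nat_lit 17332457793), (nat_lit 62, nat_lit 18422714688), (nat_lit 108, nat_lit 18406199616), (nat_lit 70, nat_lit 18405937473), (nat_lit 2, nat_lit 19479679296)]⟩],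
  [W_13070782592, W_13020975296, W_13020713216]⟩
theorem C_13088084289 : chkRec R_13088084289 = true := by decide +kernel

noncomputable def R_13088088258 : Rec := ⟨nat_lit 13088088258, nat_lit 6,
  [⟨V6_13087813824, [(nat_lit 119, nat_lit 13088088258), (nat_lit 78, nat_lit 14161830081), (nat_lit 116, nat_lit 14161825986), (nat_lit 6, nat_lit 14161567938), (nat_lit 108, nat_lit 15235571904), (nat_lit 45, nat_lit 15235567809), (nat_lit 94, nat_lit 15235563714), (nat_lit 122, nat_lit 15235309761), (nat_lit 11, nat_lit 15235305666), (nat_lit 121, nat_lit 16309309632), (nat_lit 93, nat_lit 16309305537), (nat_lit 55, nat_lit 16309301442), (nat_lit 109, nat_lit 16309051584), (nat_lit 45, nat_lit 16309047489), (nat_lit 53, nat_lit 16309043394), (nat_lit 17, nat_lit 17383047360), (nat_lit 4, nat_lit 17383043265), (nat_lit 86, nat_lit 17382789312), (nat_lit 57, nat_lit 17382785217), (nat_lit 61, nat_lit 17382781122), (nat_lit 72, nat_lit 18456785088), (nat_lit 91, nat_lit 18456527040), (nat_lit 81, nat_lit 18456522945), (nat_lit 57, nat_lit 19530264768)]⟩,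
   ⟨V6_13003940034, [(nat_lit 108, nat_lit 13088088258), (nat_lit 16, nat_lit 14161567938), (nat_lit 66, nat_lit 14145052866), (nat_lit 79, nat_lit 15218532546), (nat_lit 123, nat_lit 15202017474), (nat_lit 80, nat_lit 16275497154), (nat_lit 99, nat_lit 16258982082), (nat_lit 47, nat_lit 17332461762), (nat_lit 125, nat_lit 17315946690), (nat_lit 48, nat_lit 18389426370), (nat_lit 64, nat_lit 18372911298), (nat_lit 111, nat_lit 19446390978)]⟩],
  [W_13071298688, W_13037494400]⟩
theorem C_13088088258 : chkRec R_13088088258 = true := by decide +kernel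

noncomputable def R_13088088321 : Rec := ⟨nat_lit 13088088321, nat_lit 10,
  [⟨V6_13087821888, [(nat_lit 68, nat_lit 13088088321), (nat_lit 12, nat_lit 14161830144), (nat_lit 21, nat_lit 14161830081), (nat_lit 126, nat_lit 14161826049), (nat_lit 53, nat_lit 14161568001), (nat_lit 119, nat_lit 15235571904), (nat_lit 79, nat_lit 15235571841), (nat_lit 89, nat_lit 15235567872), (nat_lit 90, nat_lit 15235567809), (nat_lit 105, nat_lit 15235309824), (nat_lit 113, nat_lit 15235309761), (nat_lit 116, nat_lit 15235305729), (nat_lit 75, nat_lit 16309313664), (nat_lit 56, nat_lit 16309313601), (nat_lit 92, nat_lit 16309309632), (nat_lit 89, nat_lit 16309309569), (nat_lit 107, nat_lit 16309051584), (nat_lit 120, nat_lit 16309051521), (nat_lit 107, nat_lit 16309047552), (nat_lit 47, nat_lit 16309047489), (nat_lit 95, nat_lit 17383055424), (nat_lit 96, nat_lit 17383051392), (nat_lit 55, nat_lit 17383051329), (nat_lit 84, nat_lit 17382793344), (nat_lit 37, nat_lit 17382793281), (nat_lit 95, nat_lit 17382789312), (nat_lit 42, nat_lit 17382789249), (nat_lit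 42, nat_lit 18456793152), (nat_lit 43, nat_lit 18456535104), (nat_lit 57, nat_lit 18456531072), (nat_lit 118, nat_lit 18456531009), (nat_lit 20, nat_lit 19530272832)]⟩],
  [W_13054271552, W_13037494400, W_13037486336, W_13020971264, W_13020713216]⟩
theorem C_13088088321 : chkRec R_13088088321 = true := by decide +kernel

noncomputable def R_13088088384 : Rec := ⟨nat_lit 13088088384, nat_lit 8,
  [⟨V6_13087825920, [(nat_lit 34, nat_lit 13088088384), (nat_lit 26, nat_lit 14161830144), (nat_lit 68, nat_lit 14161568064), (nat_lit 114, nat_lit 15235571904), (nat_lit 47, nat_lit 15235309824), (nat_lit 66, nat_lit 16309313664), (nat_lit 84, nat_lit 16309051584), (nat_lit 126, nat_lit 17383055424), (nat_lit 42, nat_lit 17382793344), (nat_lit 21, nat_lit 18456797184), (nat_lit 40, nat_lit 18456535104), (nat_lit 78, nat_lit 19530276864)]⟩],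
  [W_13054271552, W_13037494400, W_13020975296]⟩
theorem C_13088088384 : chkRec R_13088088384 = true := by decide +kernel

noncomputable def R_13088092290 : Rec := ⟨nat_lit 13088092290, nat_lit 2,
  [⟨V6_13020983424, [(nat_lit 86, nat_lit 13088092290), (nat_lit 98, nat_lit 14161834113), (nat_lit 3, nat_lit 14145056898), (nat_lit 12, nat_lit 15235575936), (nat_lit 79, nat_lit 15218798721), (nat_lit 104, nat_lit 15202021506), (nat_lit 70, nat_lit 16292540544), (nat_lit 92, nat_lit 16275763329), (nat_lit 24, nat_lit 16258986114), (nat_lit 3, nat_lit 17349505152), (nat_lit 25, nat_lit 17332727937), (nat_lit 89, nat_lit 17315950722), (nat_lit 4, nat_lit 18406469760), (nat_lit 84, nat_lit 18389692545), (nat_lit 60, nat_lit 19463434368)]⟩],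
  [W_13088071808]⟩
theorem C_13088092290 : chkRec R_13088092290 = true := by decide +kernel

noncomputable def R_13088092353 : Rec := ⟨nat_lit 13088092353, nat_lit 5,
  [⟨V6_13037760576, [(nat_lit 30, nat_lit 13088092353), (nat_lit 112, nat_lit 14161834176), (nat_lit 35, nat_lit 14161834113), (nat_lit 71, nat_lit 14145056961), (nat_lit 20, nat_lit 15235575936), (nat_lit 30, nat_lit 15235575873), (nat_lit 44, nat_lit 15218798784), (nat_lit 47, nat_lit 15218798721), (nat_lit 105, nat_lit 15202021569), (nat_lit 41, nat_lit 16309317696), (nat_lit 107, nat_lit 16292540544), (nat_lit 1, nat_lit 16292540481), (nat_lit 5, nat_lit 16275763392), (nat_lit 56, nat_lit 16275763329), (nat_lit 54, nat_lit 16258986177), (nat_lit 85, nat_lit 17366282304), (nat_lit 3, nat_lit 17349505152), (nat_lit 108, nat_lit 17349505089), (nat_lit 46, nat_lit 17332728000), (nat_lit 6, nat_lit 17332727937), (nat_lit 44, nat_lit 18423246912), (nat_lit 101, nat_lit 18406469760), (nat_lit 111, nat_lit 18406469697), (nat_lit 36, nat_lit 19480211520)]⟩],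
  [W_13088075840, W_13071298688, W_13054521536]⟩
theorem C_13088092353 : chkRec R_13088092353 = true := by decide +kernel

noncomputable def R_13088092416 : Rec := ⟨nat_lit 13088092416, nat_lit 5,
  [⟨V6_13088083968, [(nat_lit 97, nat_lit 13088092416), (nat_lit 114, nat_lit 14161834176), (nat_lit 22, nat_lit 14161830144), (nat_lit 117, nat_lit 15235575936), (nat_lit 70, nat_lit 15235571904), (nat_lit 15, nat_lit 15235567872), (nat_lit 70, nat_lit 16309317696), (nat_lit 74, nat_lit 16309313664), (nat_lit 84, nat_lit 16309309632), (nat_lit 24, nat_lit 17383059456), (nat_lit 26, nat_lit 17383055424), (nat_lit 49, nat_lit 17383051392), (nat_lit 98, nat_lit 18456797184), (nat_lit 77, nat_lit 18456793152), (nat_lit 109, nat_lit 19530534912)]⟩],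
  [W_13088079872, W_13020975296, W_13020971264]⟩
theorem C_13088092416 : chkRec R_13088092416 = true := by decide +kernel

noncomputable def R_13088342211 : Rec := ⟨nat_lit 13088342211, nat_lit 1,
  [⟨V6_13070516418, [(nat_lit 27, nat_lit 13088342211), (nat_lit 4, nat_lit 14162084034), (nat_lit 109, nat_lit 14161821891), (nat_lit 9, nat_lit 14145306819), (nat_lit 45, nat_lit 15235563714), (nat_lit 86, nat_lit 15235301571), (nat_lit 85, nat_lit 15219048642), (nat_lit 89, nat_lit 15218786499), (nat_lit 16, nat_lit 16309043394), (nat_lit 29, nat_lit 16308781251), (nat_lit 119, nat_lit 16292528322), (nat_lit 67, nat_lit 16292266179), (nat_lit 35, nat_lit 17382523074), (nat_lit 73, nat_lit 17382260931), (nat_lit 74, nat_lit 17366008002), (nat_lit 41, nat_lit 17365745859), (nat_lit 104, nat_lit 18456002754), (nat_lit 112, nat_lit 18439487682), (nat_lit 107, nat_lit 18439225539), (nat_lit 99, nat_lit 19512967362)]⟩],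
  [W_13071036608]⟩
theorem C_13088342211 : chkRec R_13088342211 = true := by decide +kernel

noncomputable def R_13088342274 : Rec := ⟨nat_lit 13088342274, nat_lit 6,
  [⟨V6_13021233408, [(nat_lit 97, nat_lit 13088342274), (nat_lit 81, nat_lit 14162084097), (nat_lit 123, nat_lit 14145306882), (nat_lit 111, nat_lit 15235825920), (nat_lit 64, nat_lit 15219048705), (nat_lit 73, nat_lit 15202271490), (nat_lit 76, nat_lit 16292790528), (nat_lit 89, nat_lit 16276013313), (nat_lit 95, nat_lit 16259236098), (nat_lit 123, nat_lit 17349755136), (nat_lit 9, nat_lit 17332977921), (nat_lit 93, nat_lit 17316200706), (nat_lit 37, nat_lit 18406719744), (nat_lit 15, nat_lit 18389942529), (nat_lit 47, nat_lit 19463684352)]⟩],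
  [W_13087555712, W_13087293632, W_13071040640]⟩
theorem C_13088342274 : chkRec R_13088342274 = true := by decide +kernel

noncomputable def R_13088346306 : Rec := ⟨nat_lit 13088346306, nat_lit 7,
  [⟨V6_13087555776, [(nat_lit 74, nat_lit 13088346306), (nat_lit 53, nat_lit 14162088129), (nat_lit 115, nat_lit 14162084034), (nat_lit 54, nat_lit 14161825986), (nat_lit 100, nat_lit 15235829952), (nat_lit 76, nat_lit 15235825857), (nat_lit 12, nat_lit 15235567809), (nat_lit 14, nat_lit 15235563714), (nat_lit 80, nat_lit 15235305666), (nat_lit 116, nat_lit 16309567680), (nat_lit 79, nat_lit 16309309632), (nat_lit 15, nat_lit 16309305537), (nat_lit 81, nat_lit 16309047489), (nat_lit 108, nat_lit 16309043394), (nat_lit 45, nat_lit 16308785346), (nat_lit 29, nat_lit 17383047360), (nat_lit 72, nat_lit 17382789312), (nat_lit 102, nat_lit 17382785217), (nat_lit 48, nat_lit 17382527169), (nat_lit 81, nat_lit 17382523074), (nat_lit 86, nat_lit 18456527040), (nat_lit 42, nat_lit 18456268992), (nat_lit 90, nat_lit 18456264897), (nat_lit 81, nat_lit 19530006720)]⟩],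
  [W_13071298688, W_13021237376, W_13021233344]⟩
theorem C_13088346306 : chkRec R_13088346306 = true := by decide +kernel

noncomputable def R_13088346369 : Rec := ⟨nat_lit 13088346369, nat_lit 11,
  [⟨V6_13021233408, [(nat_lit 10, nat_lit 13088346369), (nat_lit 15, nat_lit 14162088192), (nat_lit 42, nat_lit 14162084097), (nat_lit 108, nat_lit 14145310977), (nat_lit 14, nat_lit 15235825920), (nat_lit 55, nat_lit 15219052800), (nat_lit 77, nat_lit 15219048705), (nat_lit 83, nat_lit 15202275585), (nat_lit 125, nat_lit 16292790528), (nat_lit 97, nat_lit 16276017408), (nat_lit 69, nat_lit 16276013313), (nat_lit 115, nat_lit 16259240193), (nat_lit 22, nat_lit 17349755136), (nat_lit 73, nat_lit 17332982016), (nat_lit 69, nat_lit 17332977921), (nat_lit 75, nat_lit 17316204801), (nat_lit 69, nat_lit 18406719744), (nat_lit 53, nat_lit 18389946624), (nat_lit 10, nat_lit 18389942529), (nat_lit 90, nat_lit 19463684352)]⟩],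
  [W_13087817792, W_13087555712, W_13071040640, W_13070782592, W_13054001408]⟩
theorem C_13088346369 : chkRec R_13088346369 = true := by decide +kernel

noncomputable def R_13088346432 : Rec := ⟨nat_lit 13088346432, nat_lit 5,
  [⟨V6_13088083968, [(nat_lit 18, nat_lit 13088346432), (nat_lit 61, nat_lit 14162088192), (nat_lit 78, nat_lit 14161826112), (nat_lit 82, nat_lit 15235829952), (nat_lit 9, nat_lit 15235567872), (nat_lit 41, nat_lit 16309571712), (nat_lit 36, nat_lit 16309309632), (nat_lit 33, nat_lit 17383313472), (nat_lit 66, nat_lit 17383051392), (nat_lit 58, nat_lit 18457055232), (nat_lit 46, nat_lit 18456793152), (nat_lit 124, nat_lit 19530534912)]⟩,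
   ⟨V6_13037228352, [(nat_lit 60, nat_lit 13088346432), (nat_lit 29, nat_lit 14161826112), (nat_lit 110, nat_lit 14145311040), (nat_lit 27, nat_lit 15235305792), (nat_lit 118, nat_lit 15218790720), (nat_lit 41, nat_lit 15202275648), (nat_lit 68, nat_lit 16308785472), (nat_lit 112, nat_lit 16292270400), (nat_lit 62, nat_lit 16275755328), (nat_lit 43, nat_lit 16259240256), (nat_lit 12, nat_lit 17365750080), (nat_lit 90, nat_lit 17349235008), (nat_lit 108, nat_lit 17332719936), (nat_lit 111, nat_lit 18422714688), (nat_lit 73, nat_lit 18406199616), (nat_lit 10, nat_lit 19479679296)]⟩],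
  [W_13087821824, W_13021237376, W_13020713216]⟩
theorem C_13088346432 : chkRec R_13088346432 = true := by decide +kernel

noncomputable def R_13088350338 : Rec := ⟨nat_lit 13088350338, nat_lit 9,
  [⟨V6_13088071809, [(nat_lit 56, nat_lit 13088350338), (nat_lit 55, nat_lit 14162092161), (nat_lit 21, nat_lit 14162088066), (nat_lit 59, nat_lit 14161830018), (nat_lit 121, nat_lit 15235829889), (nat_lit 107, nat_lit 15235825794), (nat_lit 35, nat_lit 15235571841), (nat_lit 11, nat_lit 15235567746), (nat_lit 12, nat_lit 16309567617), (nat_lit 111, nat_lit 16309563522), (nat_lit 39, nat_lit 16309309569), (nat_lit 11, nat_lit 16309305474), (nat_lit 122, nat_lit 17383305345), (nat_lit 79, nat_lit 17383301250), (nat_lit 120, nat_lit 17383047297), (nat_lit 115, nat_lit 17383043202), (nat_lit 126, nat_lit 18457043073), (nat_lit 22, nat_lit 18456785025), (nat_lit 119, nat_lit 18456780930), (nat_lit 80, nat_lit 19530522753)]⟩,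
   ⟨V6_13087809666, [(nat_lit 54, nat_lit 13088350338), (nat_lit 113, nat_lit 14162088066), (nat_lit 38, nat_lit 14161830018), (nat_lit 125, nat_lit 15235825794), (nat_lit 63, nat_lit 15235567746), (nat_lit 93, nat_lit 15235309698), (nat_lit 60, nat_lit 16309563522), (nat_lit 35, nat_lit 16309305474), (nat_lit 112, nat_lit 16309047426), (nat_lit 108, nat_lit 17383301250), (nat_lit 81, nat_lit 17383043202), (nat_lit 70, nat_lit 17382785154), (nat_lit 7, nat_lit 18456780930), (nat_lit 122, nat_lit 18456522882), (nat_lit 72, nat_lit 19530260610)]⟩,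
   ⟨V6_13071294594, [(nat_lit 66, nat_lit 13088350338), (nat_lit 90, nat_lit 14162088066), (nat_lit 123, nat_lit 14161830018), (nat_lit 93, nat_lit 14145314946), (nat_lit 126, nat_lit 15235825794), (nat_lit 92, nat_lit 15235567746), (nat_lit 81, nat_lit 15219052674), (nat_lit 99, nat_lit 15218794626), (nat_lit 36, nat_lit 16309563522), (nat_lit 7, nat_lit 16309305474), (nat_lit 51, nat_lit 16292790402), (nat_lit 118, nat_lit 16292532354), (nat_lit 39, nat_lit 17383301250), (nat_lit 55, nat_lit 17383043202), (nat_lit 62, nat_lit 17366528130), (nat_lit 25, nat_lit 17366270082), (nat_lit 25, nat_lit 18456780930), (nat_lit 112, nat_lit 18440265858), (nat_lit 19, nat_lit 18440007810), (nat_lit 14, nat_lit 19513745538)]⟩],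
  [W_13054267520, W_13037494400, W_13021237376]⟩
theorem C_13088350338 : chkRec R_13088350338 = true := by decide +kernel

noncomputable def R_13088350401 : Rec := ⟨nat_lit 13088350401, nat_lit 15,
  [⟨V6_13087821888, [(nat_lit 84, nat_lit 13088350401), (nat_lit 91, nat_lit 14162092224), (nat_lit 70, nat_lit 14162092161), (nat_lit 33, nat_lit 14162088129), (nat_lit 26, nat_lit 14161830081), (nat_lit 125, nat_lit 15235833984), (nat_lit 123, nat_lit 15235833921), (nat_lit 57, nat_lit 15235829952), (nat_lit 114, nat_lit 15235829889), (nat_lit 102, nat_lit 15235571904), (nat_lit 23, nat_lit 15235571841), (nat_lit 92, nat_lit 15235567809), (nat_lit 10, nat_lit 15235309761), (nat_lit 57, nat_lit 16309575744), (nat_lit 57, nat_lit 16309571712), (nat_lit 93, nat_lit 16309571649), (nat_lit 49, nat_lit 16309313664), (nat_lit 63, nat_lit 16309313601), (nat_lit 112, nat_lit 16309309632), (nat_lit 107, nat_lit 16309309569), (nat_lit 102, nat_lit 16309051584), (nat_lit 104, nat_lit 16309051521), (nat_lit 83, nat_lit 16309047489), (nat_lit 62, nat_lit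 17383313472), (nat_lit 63, nat_lit 17383055424), (nat_lit 72, nat_lit 17383051392), (nat_lit 23, nat_lit 17383051329), (nat_lit 25, nat_lit 17382793344), (nat_lit 23, nat_lit 17382793281), (nat_lit 107, nat_lit 17382789312), (nat_lit 69, nat_lit 17382789249), (nat_lit 42, nat_lit 18456793152), (nat_lit 9, nat_lit 18456535104), (nat_lit 106, nat_lit 18456531072), (nat_lit 71, nat_lit 18456531009), (nat_lit 8, nat_lit 19530272832)]⟩],
  [W_13071560768, W_13054271552, W_13037494400, W_13021237376, W_13021233344]⟩
theorem C_13088350401 : chkRec R_13088350401 = true := by decide +kernel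

noncomputable def R_13088350464 : Rec := ⟨nat_lit 13088350464, nat_lit 23,
  [⟨V6_13087825920, [(nat_lit 1, nat_lit 13088350464), (nat_lit 105, nat_lit 14162092224), (nat_lit 106, nat_lit 14161830144), (nat_lit 18, nat_lit 15235833984), (nat_lit 18, nat_lit 15235571904), (nat_lit 34, nat_lit 15235309824), (nat_lit 17, nat_lit 16309575744), (nat_lit 73, nat_lit 16309313664), (nat_lit 15, nat_lit 16309051584), (nat_lit 69, nat_lit 17383317504), (nat_lit 51, nat_lit 17383055424), (nat_lit 117, nat_lit 17382793344), (nat_lit 81, nat_lit 18456797184), (nat_lit 124, nat_lit 18456535104), (nat_lit 72, nat_lit 19530276864)]⟩,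
   ⟨V6_13021233408, [(nat_lit 1, nat_lit 13088350464), (nat_lit 88, nat_lit 14162088192), (nat_lit 61, nat_lit 14145315072), (nat_lit 6, nat_lit 15235825920), (nat_lit 93, nat_lit 15219052800), (nat_lit 103, nat_lit 15202279680), (nat_lit 39, nat_lit 16292790528), (nat_lit 124, nat_lit 16276017408), (nat_lit 16, nat_lit 16259244288), (nat_lit 75, nat_lit 17349755136), (nat_lit 71, nat_lit 17332982016), (nat_lit 26, nat_lit 17316208896), (nat_lit 11, nat_lit 18406719744), (nat_lit 101, nat_lit 18389946624), (nat_lit 111, nat_lit 19463684352)]⟩],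
  [W_13087821824, W_13071564800, W_13071048704, W_13054271552, W_13037494400, W_13021237376]⟩
theorem C_13088350464 : chkRec R_13088350464 = true := by decide +kernel

noncomputable def R_13088354433 : Rec := ⟨nat_lit 13088354433, nat_lit 11,
  [⟨V6_13088333952, [(nat_lit 47, nat_lit 13088354433), (nat_lit 88, nat_lit 14162096256), (nat_lit 19, nat_lit 14162092161), (nat_lit 59, nat_lit 15235833984), (nat_lit 48, nat_lit 15235829889), (nat_lit 92, nat_lit 16309571712), (nat_lit 53, nat_lit 16309567617), (nat_lit 119, nat_lit 17383309440), (nat_lit 28, nat_lit 17383305345), (nat_lit 121, nat_lit 18457047168), (nat_lit 101, nat_lit 18457043073), (nat_lit 64, nat_lit 19530784896)]⟩],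
  [W_13071560768, W_13021241408, W_13021237376, W_13020979328]⟩
theorem C_13088354433 : chkRec R_13088354433 = true := by decide +kernel

noncomputable def R_13088354496 : Rec := ⟨nat_lit 13088354496, nat_lit 16,
  [⟨V6_13088342016, [(nat_lit 93, nat_lit 13088354496), (nat_lit 27, nat_lit 14162096256), (nat_lit 35, nat_lit 14162092224), (nat_lit 89, nat_lit 15235838016), (nat_lit 7, nat_lit 15235833984), (nat_lit 56, nat_lit 15235829952), (nat_lit 34, nat_lit 16309579776), (nat_lit 83, nat_lit 16309575744), (nat_lit 100, nat_lit 16309571712), (nat_lit 120, nat_lit 16309567680), (nat_lit 53, nat_lit 17383317504), (nat_lit 77, nat_lit 17383313472), (nat_lit 105, nat_lit 17383309440), (nat_lit 57, nat_lit 18457055232), (nat_lit 71, nat_lit 18457051200), (nat_lit 3, nat_lit 19530792960)]⟩],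
  [W_13071560768, W_13071298688, W_13054521536, W_13021245440, W_13021237376, W_13021233344, W_13020975296]⟩
theorem C_13088354496 : chkRec R_13088354496 = true := by decide +kernel

noncomputable def R_13088358465 : Rec := ⟨nat_lit 13088358465, nat_lit 2,
  [⟨V6_13021241409, [(nat_lit 71, nat_lit 13088358465), (nat_lit 75, nat_lit 14162096193), (nat_lit 107, nat_lit 14145323073), (nat_lit 22, nat_lit 15235833921), (nat_lit 12, nat_lit 15219060801), (nat_lit 28, nat_lit 15202287681), (nat_lit 40, nat_lit 16292798529), (nat_lit 46, nat_lit 16276025409), (nat_lit 106, nat_lit 16259252289), (nat_lit 67, nat_lit 17349763137), (nat_lit 14, nat_lit 17332990017), (nat_lit 7, nat_lit 17316216897), (nat_lit 50, nat_lit 18406727745), (nat_lit 90, nat_lit 18389954625), (nat_lit 107, nat_lit 19463692353)]⟩],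
  [W_13088333888]⟩
theorem C_13088358465 : chkRec R_13088358465 = true := by decide +kernel

noncomputable def R_13088358528 : Rec := ⟨nat_lit 13088358528, nat_lit 13,
  [⟨V6_13088333952, [(nat_lit 23, nat_lit 13088358528), (nat_lit 38, nat_lit 14162096256), (nat_lit 99, nat_lit 15235833984), (nat_lit 59, nat_lit 16309571712), (nat_lit 81, nat_lit 17383309440), (nat_lit 110, nat_lit 18457047168), (nat_lit 71, nat_lit 19530784896)]⟩],
  [W_13088337920, W_13071560768, W_13021241408]⟩
theorem C_13088358528 : chkRec R_13088358528 = true := by decide +kernel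

noncomputable def R_13088600259 : Rec := ⟨nat_lit 13088600259, nat_lit 1,
  [⟨V6_13037482179, [(nat_lit 118, nat_lit 13088600259), (nat_lit 85, nat_lit 14162079939), (nat_lit 103, nat_lit 14145564867), (nat_lit 116, nat_lit 15235559619), (nat_lit 16, nat_lit 15219044547), (nat_lit 32, nat_lit 15202529475), (nat_lit 36, nat_lit 16309039299), (nat_lit 85, nat_lit 16292524227), (nat_lit 103, nat_lit 16276009155), (nat_lit 107, nat_lit 16259494083), (nat_lit 19, nat_lit 17366003907), (nat_lit 118, nat_lit 17349488835), (nat_lit 20, nat_lit 17332973763), (nat_lit 53, nat_lit 18422968515), (nat_lit 64, nat_lit 18406453443), (nat_lit 74, nat_lit 19479933123)]⟩],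
  [W_13071036608]⟩
theorem C_13088600259 : chkRec R_13088600259 = true := by decide +kernel

noncomputable def R_13088604354 : Rec := ⟨nat_lit 13088604354, nat_lit 5,
  [⟨V6_13087555776, [(nat_lit 88, nat_lit 13088604354), (nat_lit 28, nat_lit 14162346177), (nat_lit 29, nat_lit 14162084034), (nat_lit 67, nat_lit 15236088000), (nat_lit 19, nat_lit 15235825857), (nat_lit 27, nat_lit 15235563714), (nat_lit 61, nat_lit 16309567680), (nat_lit 53, nat_lit 16309305537), (nat_lit 20, nat_lit 16309043394), (nat_lit 97, nat_lit 17383047360), (nat_lit 36, nat_lit 17382785217), (nat_lit 85, nat_lit 17382523074), (nat_lit 86, nat_lit 18456527040), (nat_lit 53, nat_lit 18456264897), (nat_lit 78, nat_lit 19530006720)]⟩],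
  [W_13071040640, W_13038268544]⟩
theorem C_13088604354 : chkRec R_13088604354 = true := by decide +kernel

noncomputable def R_13088604417 : Rec := ⟨nat_lit 13088604417, nat_lit 7,
  [⟨V6_13087555776, [(nat_lit 42, nat_lit 13088604417), (nat_lit 119, nat_lit 14162346240), (nat_lit 116, nat_lit 14162346177), (nat_lit 91, nat_lit 14162084097), (nat_lit 74, nat_lit 15236088000), (nat_lit 94, nat_lit 15235825920), (nat_lit 89, nat_lit 15235825857), (nat_lit 34, nat_lit 15235563777), (nat_lit 8, nat_lit 16309567680), (nat_lit 55, nat_lit 16309305600), (nat_lit 124, nat_lit 16309305537), (nat_lit 30, nat_lit 16309043457), (nat_lit 77, nat_lit 17383047360), (nat_lit 44, nat_lit 17382785280), (nat_lit 43, nat_lit 17382785217), (nat_lit 70, nat_lit 17382523137), (nat_lit 43, nat_lit 18456527040), (nat_lit 109, nat_lit 18456264960), (nat_lit 28, nat_lit 18456264897), (nat_lit 99, nat_lit 19530006720)]⟩],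
  [W_13071040640, W_13054001408, W_13038272576, W_13037486336]⟩
theorem C_13088604417 : chkRec R_13088604417 = true := by decide +kernel

noncomputable def R_13088608386 : Rec := ⟨nat_lit 13088608386, nat_lit 6,
  [⟨V6_13087559808, [(nat_lit 24, nat_lit 13088608386), (nat_lit 100, nat_lit 14162350209), (nat_lit 31, nat_lit 14162088066), (nat_lit 76, nat_lit 15236092032), (nat_lit 86, nat_lit 15235829889), (nat_lit 42, nat_lit 15235567746), (nat_lit 109, nat_lit 16309571712), (nat_lit 26, nat_lit 16309309569), (nat_lit 17, nat_lit 16309047426), (nat_lit 38, nat_lit 17383051392), (nat_lit 56, nat_lit 17382789249), (nat_lit 104, nat_lit 17382527106), (nat_lit 35, nat_lit 18456531072), (nat_lit 26, nat_lit 18456268929), (nat_lit 79, nat_lit 19530010752)]⟩,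
   ⟨V6_13071294594, [(nat_lit 42, nat_lit 13088608386), (nat_lit 89, nat_lit 14162346114), (nat_lit 43, nat_lit 14162088066), (nat_lit 85, nat_lit 14145572994), (nat_lit 59, nat_lit 15236083842), (nat_lit 58, nat_lit 15235825794), (nat_lit 25, nat_lit 15235567746), (nat_lit 48, nat_lit 15219310722), (nat_lit 115, nat_lit 15219052674), (nat_lit 67, nat_lit 16309821570), (nat_lit 55, nat_lit 16309563522), (nat_lit 34, nat_lit 16309305474), (nat_lit 58, nat_lit 16293048450), (nat_lit 105, nat_lit 16292790402), (nat_lit 71, nat_lit 16292532354), (nat_lit 36, nat_lit 17383301250), (nat_lit 48, nat_lit 17383043202), (nat_lit 46, nat_lit 17366786178), (nat_lit 67, nat_lit 17366528130), (nat_lit 57, nat_lit 17366270082), (nat_lit 37, nat_lit 18456780930), (nat_lit 62, nat_lit 18440265858), (nat_lit 84, nat_lit 18440007810), (nat_lit 119, nat_lit 19513745538)]⟩],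
  [W_13088071808, W_13071040640]⟩
theorem C_13088608386 : chkRec R_13088608386 = true := by decide +kernel

noncomputable def R_13088608449 : Rec := ⟨nat_lit 13088608449, nat_lit 13,
  [⟨V6_13087821888, [(nat_lit 31, nat_lit 13088608449), (nat_lit 9, nat_lit 14162350272), (nat_lit 76, nat_lit 14162350209), (nat_lit 4, nat_lit 14162088129), (nat_lit 117, nat_lit 15236092032), (nat_lit 100, nat_lit 15236091969), (nat_lit 104, nat_lit 15235829952), (nat_lit 109, nat_lit 15235829889), (nat_lit 5, nat_lit 15235567809), (nat_lit 105, nat_lit 16309833792), (nat_lit 45, nat_lit 16309571712), (nat_lit 32, nat_lit 16309571649), (nat_lit 80, nat_lit 16309309632), (nat_lit 108, nat_lit 16309309569), (nat_lit 117, nat_lit 16309047489), (nat_lit 105, nat_lit 17383313472), (nat_lit 39, nat_lit 17383051392), (nat_lit 65, nat_lit 17383051329), (nat_lit 92, nat_lit 17382789312), (nat_lit 79, nat_lit 17382789249), (nat_lit 36, nat_lit 18456793152), (nat_lit 65, nat_lit 18456531072), (nat_lit 54, nat_lit 18456531009), (nat_lit 93, nat_lit 19530272832)]⟩],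
  [W_13071560768, W_13071298688, W_13070778560, W_13055045696, W_13038268544]⟩
theorem C_13088608449 : chkRec R_13088608449 = true := by decide +kernel

noncomputable def R_13088608512 : Rec := ⟨nat_lit 13088608512, nat_lit 14,
  [⟨V6_13088083968, [(nat_lit 23, nat_lit 13088608512), (nat_lit 111, nat_lit 14162350272), (nat_lit 97, nat_lit 14162088192), (nat_lit 53, nat_lit 15236092032), (nat_lit 71, nat_lit 15235829952), (nat_lit 94, nat_lit 15235567872), (nat_lit 54, nat_lit 16309833792), (nat_lit 5, nat_lit 16309571712), (nat_lit 23, nat_lit 16309309632), (nat_lit 101, nat_lit 17383575552), (nat_lit 42, nat_lit 17383313472), (nat_lit 28, nat_lit 17383051392), (nat_lit 44, nat_lit 18457055232), (nat_lit 95, nat_lit 18456793152), (nat_lit 35, nat_lit 19530534912)]⟩,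
   ⟨V6_13087559808, [(nat_lit 45, nat_lit 13088608512), (nat_lit 90, nat_lit 14162350272), (nat_lit 43, nat_lit 14162088192), (nat_lit 29, nat_lit 15236092032), (nat_lit 19, nat_lit 15235829952), (nat_lit 17, nat_lit 15235567872), (nat_lit 111, nat_lit 16309571712), (nat_lit 23, nat_lit 16309309632), (nat_lit 111, nat_lit 16309047552), (nat_lit 105, nat_lit 17383051392), (nat_lit 92, nat_lit 17382789312), (nat_lit 90, nat_lit 17382527232), (nat_lit 51, nat_lit 18456531072), (nat_lit 83, nat_lit 18456268992), (nat_lit 94, nat_lit 19530010752)]⟩],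
  [W_13087821824, W_13071040640, W_13070778560, W_13054263488, W_13054001408, W_13038272576, W_13037486336]⟩
theorem C_13088608512 : chkRec R_13088608512 = true := by decide +kernel

noncomputable def R_13088612481 : Rec := ⟨nat_lit 13088612481, nat_lit 15,
  [⟨V6_13088333952, [(nat_lit 65, nat_lit 13088612481), (nat_lit 89, nat_lit 14162354304), (nat_lit 126, nat_lit 14162350209), (nat_lit 55, nat_lit 14162092161), (nat_lit 107, nat_lit 15236092032), (nat_lit 59, nat_lit 15236087937), (nat_lit 112, nat_lit 15235833984), (nat_lit 102, nat_lit 15235829889), (nat_lit 107, nat_lit 16309829760), (nat_lit 98, nat_lit 16309825665), (nat_lit 25, nat_lit 16309571712), (nat_lit 113, nat_lit 16309567617), (nat_lit 68, nat_lit 17383567488), (nat_lit 93, nat_lit 17383563393), (nat_lit 116, nat_lit 17383309440), (nat_lit 85, nat_lit 17383305345), (nat_lit 3, nat_lit 18457305216), (nat_lit 45, nat_lit 18457047168), (nat_lit 126, nat_lit 18457043073), (nat_lit 110, nat_lit 19530784896)]⟩],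
  [W_13071044672, W_13055045696, W_13054271552, W_13038272576, W_13038268544, W_13037494400]⟩
theorem C_13088612481 : chkRec R_13088612481 = true := by decide +kernel

noncomputable def R_13088612544 : Rec := ⟨nat_lit 13088612544, nat_lit 24,
  [⟨V6_13087825920, [(nat_lit 125, nat_lit 13088612544), (nat_lit 101, nat_lit 14162354304), (nat_lit 118, nat_lit 14162092224), (nat_lit 19, nat_lit 15236096064), (nat_lit 117, nat_lit 15235833984), (nat_lit 81, nat_lit 15235571904), (nat_lit 103, nat_lit 16309837824), (nat_lit 19, nat_lit 16309575744), (nat_lit 76, nat_lit 16309313664), (nat_lit 36, nat_lit 16309051584), (nat_lit 122, nat_lit 17383317504), (nat_lit 119, nat_lit 17383055424), (nat_lit 42, nat_lit 17382793344), (nat_lit 79, nat_lit 18456797184), (nat_lit 64, nat_lit 18456535104), (nat_lit 124, nat_lit 19530276864)]⟩,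
   ⟨V6_13087813824, [(nat_lit 26, nat_lit 13088612544), (nat_lit 65, nat_lit 14162350272), (nat_lit 45, nat_lit 14162092224), (nat_lit 11, nat_lit 15236088000), (nat_lit 120, nat_lit 15235829952), (nat_lit 68, nat_lit 15235571904), (nat_lit 53, nat_lit 16309825728), (nat_lit 70, nat_lit 16309567680), (nat_lit 77, nat_lit 16309309632), (nat_lit 88, nat_lit 16309051584), (nat_lit 116, nat_lit 17383305408), (nat_lit 110, nat_lit 17383047360), (nat_lit 98, nat_lit 17382789312), (nat_lit 78, nat_lit 18456785088), (nat_lit 94, nat_lit 18456527040), (nat_lit 36, nat_lit 19530264768)]⟩,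
   ⟨V6_13038280704, [(nat_lit 49, nat_lit 13088612544), (nat_lit 104, nat_lit 14162354304), (nat_lit 51, nat_lit 14145577152), (nat_lit 10, nat_lit 15236096064), (nat_lit 23, nat_lit 15219318912), (nat_lit 26, nat_lit 15202541760), (nat_lit 103, nat_lit 16309837824), (nat_lit 61, nat_lit 16293060672), (nat_lit 41, nat_lit 16276283520), (nat_lit 36, nat_lit 16259506368), (nat_lit 92, nat_lit 17366802432), (nat_lit 51, nat_lit 17350025280), (nat_lit 68, nat_lit 17333248128), (nat_lit 115, nat_lit 18423767040), (nat_lit 111, nat_lit 18406989888), (nat_lit 4, nat_lit 19480731648)]⟩],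
  [W_13088337920, W_13071822848, W_13071560768, W_13071048704, W_13054271552, W_13038268544, W_13037494400]⟩
theorem C_13088612544 : chkRec R_13088612544 = true := by decide +kernel

noncomputable def R_13088616513 : Rec := ⟨nat_lit 13088616513, nat_lit 7,
  [⟨V6_13037760576, [(nat_lit 19, nat_lit 13088616513), (nat_lit 121, nat_lit 14162358336), (nat_lit 26, nat_lit 14162096193), (nat_lit 56, nat_lit 14145581121), (nat_lit 98, nat_lit 15235838016), (nat_lit 125, nat_lit 15235575873), (nat_lit 19, nat_lit 15219322944), (nat_lit 96, nat_lit 15219060801), (nat_lit 18, nat_lit 15202545729), (nat_lit 66, nat_lit 16309317696), (nat_lit 2, nat_lit 16292802624), (nat_lit 90, nat_lit 16292540481), (nat_lit 12, nat_lit 16276287552), (nat_lit 71, nat_lit 16276025409), (nat_lit 88, nat_lit 16259510337), (nat_lit 50, nat_lit 17366282304), (nat_lit 95, nat_lit 17349767232), (nat_lit 71, nat_lit 17349505089), (nat_lit 57, nat_lit 17333252160), (nat_lit 63, nat_lit 17332990017), (nat_lit 78, nat_lit 18423246912), (nat_lit 9, nat_lit 18406731840), (nat_lit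 55, nat_lit 18406469697), (nat_lit 16, nat_lit 19480211520)]⟩],
  [W_13088333888, W_13071818816, W_13055045696]⟩
theorem C_13088616513 : chkRec R_13088616513 = true := by decide +kernel

noncomputable def R_13088616576 : Rec := ⟨nat_lit 13088616576, nat_lit 18,
  [⟨V6_13088333952, [(nat_lit 29, nat_lit 13088616576), (nat_lit 74, nat_lit 14162354304), (nat_lit 119, nat_lit 14162096256), (nat_lit 116, nat_lit 15236092032), (nat_lit 69, nat_lit 15235833984), (nat_lit 8, nat_lit 16309829760), (nat_lit 114, nat_lit 16309571712), (nat_lit 4, nat_lit 17383567488), (nat_lit 6, nat_lit 17383309440), (nat_lit 27, nat_lit 18457305216), (nat_lit 43, nat_lit 18457047168), (nat_lit 80, nat_lit 19530784896)]⟩,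
   ⟨V6_13038280704, [(nat_lit 81, nat_lit 13088616576), (nat_lit 118, nat_lit 14162358336), (nat_lit 54, nat_lit 14162354304), (nat_lit 24, nat_lit 14145581184), (nat_lit 6, nat_lit 15236100096), (nat_lit 41, nat_lit 15236096064), (nat_lit 84, nat_lit 15219322944), (nat_lit 101, nat_lit 15219318912), (nat_lit 77, nat_lit 15202545792), (nat_lit 55, nat_lit 16309837824), (nat_lit 115, nat_lit 16293064704), (nat_lit 8, nat_lit 16293060672), (nat_lit 76, nat_lit 16276287552), (nat_lit 92, nat_lit 16276283520), (nat_lit 87, nat_lit 16259510400), (nat_lit 20, nat_lit 17366802432), (nat_lit 88, nat_lit 17350029312), (nat_lit 9, nat_lit 17350025280), (nat_lit 63, nat_lit 17333252160), (nat_lit 119, nat_lit 17333248128), (nat_lit 85, nat_lit 18423767040), (nat_lit 75, nat_lit 18406993920), (nat_lit 79, nat_lit 18406989888), (nat_lit 111, nat_lit 19480731648)]⟩],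
  [W_13088595968, W_13088337920, W_13088075840, W_13071822848, W_13071560768, W_13055041664]⟩
theorem C_13088616576 : chkRec R_13088616576 = true := by decide +kernel

noncomputable def R_13088620608 : Rec := ⟨nat_lit 13088620608, nat_lit 10,
  [⟨V6_13088342016, [(nat_lit 40, nat_lit 13088620608), (nat_lit 126, nat_lit 14162362368), (nat_lit 80, nat_lit 14162358336), (nat_lit 17, nat_lit 14162100288), (nat_lit 2, nat_lit 15236100096), (nat_lit 80, nat_lit 15236096064), (nat_lit 31, nat_lit 15235842048), (nat_lit 3, nat_lit 15235838016), (nat_lit 92, nat_lit 16309837824), (nat_lit 85, nat_lit 16309833792), (nat_lit 2, nat_lit 16309579776), (nat_lit 51, nat_lit 16309575744), (nat_lit 57, nat_lit 17383575552), (nat_lit 120, nat_lit 17383571520), (nat_lit 40, nat_lit 17383317504), (nat_lit 7, nat_lit 17383313472), (nat_lit 39, nat_lit 18457313280), (nat_lit 43, nat_lit 18457055232), (nat_lit 85, nat_lit 18457051200), (nat_lit 17, nat_lit 19530792960)]⟩],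
  [W_13088595968, W_13071818816, W_13055045696]⟩
theorem C_13088620608 : chkRec R_13088620608 = true := by decide +kernel

noncomputable def R_13088624640 : Rec := ⟨nat_lit 13088624640, nat_lit 1,
  [⟨V6_13038280704, [(nat_lit 108, nat_lit 13088624640), (nat_lit 103, nat_lit 14162362368), (nat_lit 71, nat_lit 14145589248), (nat_lit 74, nat_lit 15236100096), (nat_lit 60, nat_lit 15219326976), (nat_lit 23, nat_lit 15202553856), (nat_lit 97, nat_lit 16309837824), (nat_lit 100, nat_lit 16293064704), (nat_lit 10, nat_lit 16276291584), (nat_lit 52, nat_lit 16259518464), (nat_lit 47, nat_lit 17366802432), (nat_lit 35, nat_lit 17350029312), (nat_lit 42, nat_lit 17333256192), (nat_lit 22, nat_lit 18423767040), (nat_lit 106, nat_lit 18406993920), (nat_lit 18, nat_lit 19480731648)]⟩],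
  [W_13088595968]⟩
theorem C_13088624640 : chkRec R_13088624640 = true := by decide +kernel

noncomputable def R_13088862402 : Rec := ⟨nat_lit 13088862402, nat_lit 1,
  [⟨V6_13070774466, [(nat_lit 2, nat_lit 13088862402), (nat_lit 37, nat_lit 14162342082), (nat_lit 82, nat_lit 14145827010), (nat_lit 49, nat_lit 15235821762), (nat_lit 8, nat_lit 15219306690), (nat_lit 68, nat_lit 16309301442), (nat_lit 74, nat_lit 16292786370), (nat_lit 44, nat_lit 17382781122), (nat_lit 56, nat_lit 17366266050), (nat_lit 32, nat_lit 18456260802), (nat_lit 106, nat_lit 18439745730), (nat_lit 71, nat_lit 19513225410)]⟩],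
  [W_13087813760]⟩
theorem C_13088862402 : chkRec R_13088862402 = true := by decide +kernel

end Crest.Agent.R187.SN.Top
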