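import Crest.Agent.R187.SN.Top
import Crest.Agent.R187.SN.TD.X6_0
import Crest.Agent.R187.SN.TD.W7_0

/-!
# Row 187, PLAN S, generated certificate data (mod 127): rank records and checks, chunk 2

Written by a C++ program (helper824).  The tables are only data: every property is checked by
the kernel.
-/

set_option autoImplicit false
set_option maxRecDepth 100000
set_option Elab.async false

namespace Crest.Agent.R187.SN.Top

noncomputable def R_13088866434 : Rec := ⟨nat_lit 13088866434, nat_lit 6,
  [⟨V6_13087809666, [(nat_lit 117, nat_lit 13088866434), (nat_lit 26, nat_lit 14162604162), (nat_lit 23, nat_lit 14162346114), (nat_lit 121, nat_lit 15236341890), (nat_lit 94, nat_lit 15236083842), (nat_lit 4, nat_lit 15235825794), (nat_lit 51, nat_lit 16309821570), (nat_lit 111, nat_lit 16309563522), (nat_lit 73, nat_lit 16309305474), (nat_lit 6, nat_lit 17383301250), (nat_lit 98, nat_lit 17383043202), (nat_lit 109, nat_lit 17382785154), (nat_lit 13, nat_lit 18456780930), (nat_lit 80, nat_lit 18456522882), (nat_lit 113, nat_lit 19530260610)]⟩,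
   ⟨V6_13071294594, [(nat_lit 107, nat_lit 13088866434), (nat_lit 37, nat_lit 14162604162), (nat_lit 23, nat_lit 14162346114), (nat_lit 24, nat_lit 14145831042), (nat_lit 76, nat_lit 15236341890), (nat_lit 62, nat_lit 15236083842), (nat_lit 2, nat_lit 15235825794), (nat_lit 86, nat_lit 15219568770), (nat_lit 115, nat_lit 15219310722), (nat_lit 58, nat_lit 16309821570), (nat_lit 92, nat_lit 16309563522), (nat_lit 40, nat_lit 16309305474), (nat_lit 20, nat_lit 16293306498), (nat_lit 54, nat_lit 16293048450), (nat_lit 53, nat_lit 16292790402), (nat_lit 108, nat_lit 17383301250), (nat_lit 54, nat_lit 17383043202), (nat_lit 79, nat_lit 17366786178), (nat_lit 74, nat_lit 17366528130), (nat_lit 67, nat_lit 17366270082), (nat_lit 119, nat_lit 18456780930), (nat_lit 121, nat_lit 18440265858), (nat_lit 126, nat_lit 18440007810), (nat_lit 111, nat_lit 19513745538)]⟩],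
  [W_13087813760, W_13071040640]⟩
theorem C_13088866434 : chkRec R_13088866434 = true := by decide +kernel

noncomputable def R_13088866497 : Rec := ⟨nat_lit 13088866497, nat_lit 8,
  [⟨V6_13087813824, [(nat_lit 77, nat_lit 13088866497), (nat_lit 50, nat_lit 14162608320), (nat_lit 78, nat_lit 14162604225), (nat_lit 59, nat_lit 14162346177), (nat_lit 14, nat_lit 15236346048), (nat_lit 104, nat_lit 15236088000), (nat_lit 74, nat_lit 15236083905), (nat_lit 62, nat_lit 15235825857), (nat_lit 100, nat_lit 16309825728), (nat_lit 66, nat_lit 16309567680), (nat_lit 29, nat_lit 16309563585), (nat_lit 20, nat_lit 16309305537), (nat_lit 89, nat_lit 17383305408), (nat_lit 113, nat_lit 17383047360), (nat_lit 77, nat_lit 17383043265), (nat_lit 83, nat_lit 17382785217), (nat_lit 10, nat_lit 18456785088), (nat_lit 75, nat_lit 18456527040), (nat_lit 75, nat_lit 18456522945), (nat_lit 88, nat_lit 19530264768)]⟩,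
   ⟨V6_13087555776, [(nat_lit 26, nat_lit 13088866497), (nat_lit 43, nat_lit 14162608320), (nat_lit 99, nat_lit 14162346177), (nat_lit 101, nat_lit 15236088000), (nat_lit 74, nat_lit 15235825857), (nat_lit 90, nat_lit 16309567680), (nat_lit 79, nat_lit 16309305537), (nat_lit 5, nat_lit 17383047360), (nat_lit 108, nat_lit 17382785217), (nat_lit 66, nat_lit 18456527040), (nat_lit 80, nat_lit 18456264897), (nat_lit 64, nat_lit 19530006720)]⟩],
  [W_13071560768, W_13055045696]⟩
theorem C_13088866497 : chkRec R_13088866497 = true := by decide +kernel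

noncomputable def R_13088866560 : Rec := ⟨nat_lit 13088866560, nat_lit 11,
  [⟨V6_13055311872, [(nat_lit 10, nat_lit 13088866560), (nat_lit 111, nat_lit 14162608320), (nat_lit 21, nat_lit 14145831168), (nat_lit 73, nat_lit 15236350080), (nat_lit 22, nat_lit 15219572928), (nat_lit 41, nat_lit 15202795776), (nat_lit 89, nat_lit 16310091840), (nat_lit 65, nat_lit 16293314688), (nat_lit 79, nat_lit 16276537536), (nat_lit 70, nat_lit 17383833600), (nat_lit 62, nat_lit 17367056448), (nat_lit 111, nat_lit 17350279296), (nat_lit 29, nat_lit 18440798208), (nat_lit 17, nat_lit 18424021056), (nat_lit 66, nat_lit 19497762816)]⟩],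
  [W_13087555712, W_13087293632, W_13071040640, W_13070778560, W_13054263488, W_13054001408]⟩
theorem C_13088866560 : chkRec R_13088866560 = true := by decide +kernel

noncomputable def R_13088870529 : Rec := ⟨nat_lit 13088870529, nat_lit 12,
  [⟨V6_13088333952, [(nat_lit 83, nat_lit 13088870529), (nat_lit 82, nat_lit 14162612352), (nat_lit 51, nat_lit 14162608257), (nat_lit 89, nat_lit 14162350209), (nat_lit 52, nat_lit 15236350080), (nat_lit 96, nat_lit 15236345985), (nat_lit 37, nat_lit 15236092032), (nat_lit 106, nat_lit 15236087937), (nat_lit 120, nat_lit 15235829889), (nat_lit 92, nat_lit 16310087808), (nat_lit 70, nat_lit 16310083713), (nat_lit 9, nat_lit 16309829760), (nat_lit 124, nat_lit 16309825665), (nat_lit 66, nat_lit 16309571712), (nat_lit 39, nat_lit 16309567617), (nat_lit 1, nat_lit 17383825536), (nat_lit 117, nat_lit 17383567488), (nat_lit 26, nat_lit 17383563393), (nat_lit 9, nat_lit 17383309440), (nat_lit 98, nat_lit 17383305345), (nat_lit 36, nat_lit 18457305216), (nat_lit 26, nat_lit 18457047168), (nat_lit 89, nat_lit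 18457043073), (nat_lit 114, nat_lit 19530784896)]⟩],
  [W_13071044672, W_13055303744, W_13055045696, W_13054267520]⟩
theorem C_13088870529 : chkRec R_13088870529 = true := by decide +kernel

noncomputable def R_13088870592 : Rec := ⟨nat_lit 13088870592, nat_lit 16,
  [⟨V6_13087559808, [(nat_lit 39, nat_lit 13088870592), (nat_lit 123, nat_lit 14162612352), (nat_lit 123, nat_lit 14162350272), (nat_lit 18, nat_lit 15236092032), (nat_lit 71, nat_lit 15235829952), (nat_lit 2, nat_lit 16309571712), (nat_lit 73, nat_lit 16309309632), (nat_lit 125, nat_lit 17383051392), (nat_lit 99, nat_lit 17382789312), (nat_lit 109, nat_lit 18456531072), (nat_lit 50, nat_lit 18456268992), (nat_lit 4, nat_lit 19530010752)]⟩,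
   ⟨V6_13055311872, [(nat_lit 58, nat_lit 13088870592), (nat_lit 7, nat_lit 14162612352), (nat_lit 36, nat_lit 14162608320), (nat_lit 117, nat_lit 14145835200), (nat_lit 32, nat_lit 15236354112), (nat_lit 87, nat_lit 15236350080), (nat_lit 103, nat_lit 15219576960), (nat_lit 124, nat_lit 15219572928), (nat_lit 126, nat_lit 15202799808), (nat_lit 102, nat_lit 16310095872), (nat_lit 65, nat_lit 16310091840), (nat_lit 27, nat_lit 16293318720), (nat_lit 30, nat_lit 16293314688), (nat_lit 56, nat_lit 16276541568), (nat_lit 13, nat_lit 16276537536), (nat_lit 66, nat_lit 17383833600), (nat_lit 2, nat_lit 17367060480), (nat_lit 91, nat_lit 17367056448), (nat_lit 68, nat_lit 17350283328), (nat_lit 70, nat_lit 17350279296), (nat_lit 96, nat_lit 18440798208), (nat_lit 53, nat_lit 18424025088), (nat_lit 6, nat_lit 18424021056), (nat_lit 123, nat_lit 19497762816)]⟩],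
  [W_13088337920, W_13071822848, W_13071560768, W_13071298688]⟩
theorem C_13088870592 : chkRec R_13088870592 = true := by decide +kernel

noncomputable def R_13088874561 : Rec := ⟨nat_lit 13088874561, nat_lit 6,
  [⟨V6_13087821888, [(nat_lit 22, nat_lit 13088874561), (nat_lit 49, nat_lit 14162616384), (nat_lit 47, nat_lit 14162612289), (nat_lit 5, nat_lit 14162354241), (nat_lit 24, nat_lit 15236354112), (nat_lit 106, nat_lit 15236096064), (nat_lit 8, nat_lit 15236091969), (nat_lit 29, nat_lit 15235833921), (nat_lit 80, nat_lit 16309833792), (nat_lit 48, nat_lit 16309575744), (nat_lit 124, nat_lit 16309571649), (nat_lit 116, nat_lit 16309313601), (nat_lit 65, nat_lit 17383313472), (nat_lit 40, nat_lit 17383055424), (nat_lit 50, nat_lit 17383051329), (nat_lit 90, nat_lit 17382793281), (nat_lit 53, nat_lit 18456793152), (nat_lit 15, nat_lit 18456535104), (nat_lit 78, nat_lit 18456531009), (nat_lit 90, nat_lit 19530272832)]⟩],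
  [W_13072076864, W_13055303744, W_13055045696]⟩
theorem C_13088874561 : chkRec R_13088874561 = true := by decide +kernel

noncomputable def R_13088874624 : Rec := ⟨nat_lit 13088874624, nat_lit 25,
  [⟨V6_13088333952, [(nat_lit 43, nat_lit 13088874624), (nat_lit 90, nat_lit 14162612352), (nat_lit 120, nat_lit 14162354304), (nat_lit 126, nat_lit 15236350080), (nat_lit 111, nat_lit 15236092032), (nat_lit 27, nat_lit 15235833984), (nat_lit 72, nat_lit 16310087808), (nat_lit 43, nat_lit 16309829760), (nat_lit 113, nat_lit 16309571712), (nat_lit 95, nat_lit 17383825536), (nat_lit 78, nat_lit 17383567488), (nat_lit 106, nat_lit 17383309440), (nat_lit 77, nat_lit 18457305216), (nat_lit 89, nat_lit 18457047168), (nat_lit 98, nat_lit 19530784896)]⟩,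
   ⟨V6_13087825920, [(nat_lit 81, nat_lit 13088874624), (nat_lit 82, nat_lit 14162616384), (nat_lit 9, nat_lit 14162354304), (nat_lit 21, nat_lit 15236358144), (nat_lit 36, nat_lit 15236096064), (nat_lit 18, nat_lit 15235833984), (nat_lit 11, nat_lit 16309837824), (nat_lit 111, nat_lit 16309575744), (nat_lit 96, nat_lit 16309313664), (nat_lit 86, nat_lit 17383317504), (nat_lit 43, nat_lit 17383055424), (nat_lit 100, nat_lit 17382793344), (nat_lit 69, nat_lit 18456797184), (nat_lit 39, nat_lit 18456535104), (nat_lit 91, nat_lit 19530276864)]⟩],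
  [W_13088071808, W_13071560768, W_13071298688, W_13071040640, W_13055307776, W_13055045696, W_13054271552]⟩
theorem C_13088874624 : chkRec R_13088874624 = true := by decide +kernel

noncomputable def R_13088878656 : Rec := ⟨nat_lit 13088878656, nat_lit 15,
  [⟨V6_13088858112, [(nat_lit 98, nat_lit 13088878656), (nat_lit 69, nat_lit 14162620416), (nat_lit 109, nat_lit 14162616384), (nat_lit 122, nat_lit 15236358144), (nat_lit 114, nat_lit 15236354112), (nat_lit 87, nat_lit 16310095872), (nat_lit 95, nat_lit 16310091840), (nat_lit 57, nat_lit 17383833600), (nat_lit 103, nat_lit 17383829568), (nat_lit 71, nat_lit 18457571328), (nat_lit 2, nat_lit 18457567296), (nat_lit 37, nat_lit 19531309056)]⟩,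
   ⟨V6_13054537728, [(nat_lit 63, nat_lit 13088878656), (nat_lit 44, nat_lit 14162620416), (nat_lit 42, nat_lit 14162358336), (nat_lit 119, nat_lit 14145843264), (nat_lit 7, nat_lit 15236100096), (nat_lit 76, nat_lit 15235838016), (nat_lit 42, nat_lit 15219585024), (nat_lit 121, nat_lit 15219322944), (nat_lit 43, nat_lit 15202807872), (nat_lit 112, nat_lit 16309579776), (nat_lit 46, nat_lit 16309317696), (nat_lit 27, nat_lit 16293064704), (nat_lit 113, nat_lit 16292802624), (nat_lit 15, nat_lit 16276549632), (nat_lit 43, nat_lit 16276287552), (nat_lit 80, nat_lit 17383059456), (nat_lit 29, nat_lit 17366544384), (nat_lit 31, nat_lit 17366282304), (nat_lit 31, nat_lit 17350029312), (nat_lit 97, nat_lit 17349767232), (nat_lit 107, nat_lit 18440024064), (nat_lit 11, nat_lit 18423508992), (nat_lit 89, nat_lit 18423246912), (nat_lit 43, nat_lit 19496988672)]⟩],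
  [W_13088337920, W_13071560768, W_13055307776, W_13055303744]⟩
theorem C_13088878656 : chkRec R_13088878656 = true := by decide +kernel

noncomputable def R_13088882688 : Rec := ⟨nat_lit 13088882688, nat_lit 9,
  [⟨V6_13088858112, [(nat_lit 39, nat_lit 13088882688), (nat_lit 81, nat_lit 14162620416), (nat_lit 74, nat_lit 15236358144), (nat_lit 89, nat_lit 16310095872), (nat_lit 49, nat_lit 17383833600), (nat_lit 54, nat_lit 18457571328), (nat_lit 21, nat_lit 19531309056)]⟩],
  [W_13071564800, W_13055307776]⟩
theorem C_13088882688 : chkRec R_13088882688 = true := by decide +kernel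

noncomputable def R_13089124482 : Rec := ⟨nat_lit 13089124482, nat_lit 2,
  [⟨V6_13087809666, [(nat_lit 17, nat_lit 13089124482), (nat_lit 107, nat_lit 14162862210), (nat_lit 35, nat_lit 14162604162), (nat_lit 5, nat_lit 15236341890), (nat_lit 64, nat_lit 15236083842), (nat_lit 9, nat_lit 16309821570), (nat_lit 60, nat_lit 16309563522), (nat_lit 23, nat_lit 17383301250), (nat_lit 97, nat_lit 17383043202), (nat_lit 68, nat_lit 18456780930), (nat_lit 19, nat_lit 18456522882), (nat_lit 1, nat_lit 19530260610)]⟩],
  [W_13087813760]⟩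
theorem C_13089124482 : chkRec R_13089124482 = true := by decide +kernel

noncomputable def R_13089124545 : Rec := ⟨nat_lit 13089124545, nat_lit 2,
  [⟨V6_13087813824, [(nat_lit 9, nat_lit 13089124545), (nat_lit 58, nat_lit 14162866368), (nat_lit 76, nat_lit 14162604225), (nat_lit 66, nat_lit 15236346048), (nat_lit 63, nat_lit 15236083905), (nat_lit 88, nat_lit 16309825728), (nat_lit 12, nat_lit 16309563585), (nat_lit 4, nat_lit 17383305408), (nat_lit 27, nat_lit 17383043265), (nat_lit 113, nat_lit 18456785088), (nat_lit 90, nat_lit 18456522945), (nat_lit 48, nat_lit 19530264768)]⟩],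
  [W_13088075840]⟩
theorem C_13089124545 : chkRec R_13089124545 = true := by decide +kernel

noncomputable def R_13089128577 : Rec := ⟨nat_lit 13089128577, nat_lit 6,
  [⟨V6_13088333952, [(nat_lit 20, nat_lit 13089128577), (nat_lit 12, nat_lit 14162870400), (nat_lit 36, nat_lit 14162866305), (nat_lit 42, nat_lit 14162608257), (nat_lit 86, nat_lit 15236608128), (nat_lit 35, nat_lit 15236604033), (nat_lit 19, nat_lit 15236350080), (nat_lit 26, nat_lit 15236345985), (nat_lit 4, nat_lit 15236087937), (nat_lit 108, nat_lit 16310345856), (nat_lit 12, nat_lit 16310087808), (nat_lit 101, nat_lit 16310083713), (nat_lit 107, nat_lit 16309829760), (nat_lit 126, nat_lit 16309825665), (nat_lit 42, nat_lit 16309567617), (nat_lit 38, nat_lit 17383825536), (nat_lit 74, nat_lit 17383567488), (nat_lit 126, nat_lit 17383563393), (nat_lit 74, nat_lit 17383309440), (nat_lit 40, nat_lit 17383305345), (nat_lit 62, nat_lit 18457305216), (nat_lit 21, nat_lit 18457047168), (nat_lit 62, nat_lit 18457043073), (nat_lit 116, nat_lit 19530784896)]⟩],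
  [W_13071818816, W_13071560768]⟩
theorem C_13089128577 : chkRec R_13089128577 = true := by decide +kernel

noncomputable def R_13089128640 : Rec := ⟨nat_lit 13089128640, nat_lit 8,
  [⟨V6_13087813824, [(nat_lit 94, nat_lit 13089128640), (nat_lit 55, nat_lit 14162866368), (nat_lit 40, nat_lit 14162608320), (nat_lit 109, nat_lit 15236346048), (nat_lit 72, nat_lit 15236088000), (nat_lit 59, nat_lit 16309825728), (nat_lit 57, nat_lit 16309567680), (nat_lit 68, nat_lit 17383305408), (nat_lit 36, nat_lit 17383047360), (nat_lit 18, nat_lit 18456785088), (nat_lit 8, nat_lit 18456527040), (nat_lit 72, nat_lit 19530264768)]⟩,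
   ⟨V6_13087555776, [(nat_lit 125, nat_lit 13089128640), (nat_lit 9, nat_lit 14162608320), (nat_lit 109, nat_lit 15236088000), (nat_lit 20, nat_lit 16309567680), (nat_lit 96, nat_lit 17383047360), (nat_lit 68, nat_lit 18456527040), (nat_lit 84, nat_lit 19530006720)]⟩],
  [W_13088337920, W_13071822848]⟩
theorem C_13089128640 : chkRec R_13089128640 = true := by decide +kernel

noncomputable def R_13089132609 : Rec := ⟨nat_lit 13089132609, nat_lit 5,
  [⟨V6_13072339008, [(nat_lit 119, nat_lit 13089132609), (nat_lit 47, nat_lit 14162874432), (nat_lit 105, nat_lit 14162870337), (nat_lit 104, nat_lit 14146097217), (nat_lit 64, nat_lit 15236612160), (nat_lit 6, nat_lit 15236608065), (nat_lit 74, nat_lit 15219839040), (nat_lit 7, nat_lit 15219834945), (nat_lit 28, nat_lit 16310349888), (nat_lit 26, nat_lit 16310345793), (nat_lit 95, nat_lit 16293576768), (nat_lit 53, nat_lit 16293572673), (nat_lit 25, nat_lit 17384087616), (nat_lit 104, nat_lit 17384083521), (nat_lit 50, nat_lit 17367314496), (nat_lit 88, nat_lit 17367310401), (nat_lit 49, nat_lit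 18457825344), (nat_lit 59, nat_lit 18441052224), (nat_lit 120, nat_lit 18441048129), (nat_lit 40, nat_lit 19514789952)]⟩,
   ⟨V6_13072076865, [(nat_lit 5, nat_lit 13089132609), (nat_lit 106, nat_lit 14162870337), (nat_lit 22, nat_lit 14162612289), (nat_lit 111, nat_lit 14146097217), (nat_lit 15, nat_lit 15236608065), (nat_lit 93, nat_lit 15236350017), (nat_lit 2, nat_lit 15219834945), (nat_lit 67, nat_lit 15219576897), (nat_lit 18, nat_lit 16310345793), (nat_lit 12, nat_lit 16310087745), (nat_lit 101, nat_lit 16293572673), (nat_lit 91, nat_lit 16293314625), (nat_lit 74, nat_lit 17384083521), (nat_lit 73, nat_lit 17383825473), (nat_lit 93, nat_lit 17367310401), (nat_lit 40, nat_lit 17367052353), (nat_lit 49, nat_lit 18457563201), (nat_lit 12, nat_lit 18441048129), (nat_lit 9, nat_lit 18440790081), (nat_lit 117, nat_lit 19514527809)]⟩],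
  [W_13088333888, W_13087817792]⟩
theorem C_13089132609 : chkRec R_13089132609 = true := by decide +kernel

noncomputable def R_13089132672 : Rec := ⟨nat_lit 13089132672, nat_lit 13,
  [⟨V6_13088333952, [(nat_lit 103, nat_lit 13089132672), (nat_lit 44, nat_lit 14162870400), (nat_lit 59, nat_lit 14162612352), (nat_lit 33, nat_lit 15236608128), (nat_lit 62, nat_lit 15236350080), (nat_lit 107, nat_lit 15236092032), (nat_lit 3, nat_lit 16310345856), (nat_lit 17, nat_lit 16310087808), (nat_lit 102, nat_lit 16309829760), (nat_lit 23, nat_lit 16309571712), (nat_lit 101, nat_lit 17383825536), (nat_lit 37, nat_lit 17383567488), (nat_lit 108, nat_lit 17383309440), (nat_lit 79, nat_lit 18457305216), (nat_lit 61, nat_lit 18457047168), (nat_lit 108, nat_lit 19530784896)]⟩],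
  [W_13087821824, W_13072080896, W_13071822848, W_13071306752]⟩
theorem C_13089132672 : chkRec R_13089132672 = true := by decide +kernel

noncomputable def R_13089136704 : Rec := ⟨nat_lit 13089136704, nat_lit 11,
  [⟨V6_13087825920, [(nat_lit 49, nat_lit 13089136704), (nat_lit 126, nat_lit 14162878464), (nat_lit 47, nat_lit 14162616384), (nat_lit 108, nat_lit 15236358144), (nat_lit 105, nat_lit 15236096064), (nat_lit 69, nat_lit 16309837824), (nat_lit 126, nat_lit 16309575744), (nat_lit 49, nat_lit 17383317504), (nat_lit 67, nat_lit 17383055424), (nat_lit 24, nat_lit 18456797184), (nat_lit 115, nat_lit 18456535104), (nat_lit 46, nat_lit 19530276864)]⟩],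
  [W_13088333888, W_13072076864, W_13071564800]⟩
theorem C_13089136704 : chkRec R_13089136704 = true := by decide +kernel

noncomputable def R_13089140736 : Rec := ⟨nat_lit 13089140736, nat_lit 5,
  [⟨V6_13088858112, [(nat_lit 1, nat_lit 13089140736), (nat_lit 67, nat_lit 14162878464), (nat_lit 62, nat_lit 14162620416), (nat_lit 90, nat_lit 15236616192), (nat_lit 62, nat_lit 15236358144), (nat_lit 108, nat_lit 16310353920), (nat_lit 64, nat_lit 16310095872), (nat_lit 44, nat_lit 17384091648), (nat_lit 53, nat_lit 17383833600), (nat_lit 54, nat_lit 18457829376), (nat_lit 96, nat_lit 18457571328), (nat_lit 20, nat_lit 19531309056)]⟩],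
  [W_13071306752]⟩
theorem C_13089140736 : chkRec R_13089140736 = true := by decide +kernel

noncomputable def R_13089382530 : Rec := ⟨nat_lit 13089382530, nat_lit 2,
  [⟨V6_13087809666, [(nat_lit 76, nat_lit 13089382530), (nat_lit 77, nat_lit 14162862210), (nat_lit 62, nat_lit 15236341890), (nat_lit 27, nat_lit 16309821570), (nat_lit 126, nat_lit 17383301250), (nat_lit 33, nat_lit 18456780930), (nat_lit 19, nat_lit 19530260610)]⟩],
  [W_13088071808]⟩
theorem C_13089382530 : chkRec R_13089382530 = true := by decide +kernel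

noncomputable def R_13089386625 : Rec := ⟨nat_lit 13089386625, nat_lit 1,
  [⟨V6_13088071809, [(nat_lit 49, nat_lit 13089386625), (nat_lit 36, nat_lit 14163124353), (nat_lit 32, nat_lit 14162866305), (nat_lit 36, nat_lit 15236604033), (nat_lit 116, nat_lit 15236345985), (nat_lit 98, nat_lit 16310083713), (nat_lit 48, nat_lit 16309825665), (nat_lit 12, nat_lit 17383563393), (nat_lit 86, nat_lit 17383305345), (nat_lit 100, nat_lit 18457043073), (nat_lit 59, nat_lit 18456785025), (nat_lit 52, nat_lit 19530522753)]⟩],
  [W_13088333888]⟩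
theorem C_13089386625 : chkRec R_13089386625 = true := by decide +kernel

noncomputable def R_13089386688 : Rec := ⟨nat_lit 13089386688, nat_lit 1,
  [⟨V6_13087813824, [(nat_lit 70, nat_lit 13089386688), (nat_lit 101, nat_lit 14162866368), (nat_lit 17, nat_lit 15236346048), (nat_lit 75, nat_lit 16309825728), (nat_lit 96, nat_lit 17383305408), (nat_lit 7, nat_lit 18456785088), (nat_lit 81, nat_lit 19530264768)]⟩],
  [W_13088337920]⟩
theorem C_13089386688 : chkRec R_13089386688 = true := by decide +kernel

noncomputable def R_13089390657 : Rec := ⟨nat_lit 13089390657, nat_lit 1,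
  [⟨V6_13088591937, [(nat_lit 20, nat_lit 13089390657), (nat_lit 48, nat_lit 14163128385), (nat_lit 116, nat_lit 14162870337), (nat_lit 53, nat_lit 15236866113), (nat_lit 99, nat_lit 15236608065), (nat_lit 55, nat_lit 15236350017), (nat_lit 37, nat_lit 16310603841), (nat_lit 121, nat_lit 16310345793), (nat_lit 114, nat_lit 16310087745), (nat_lit 100, nat_lit 16309829697), (nat_lit 57, nat_lit 17384083521), (nat_lit 49, nat_lit 17383825473), (nat_lit 125, nat_lit 17383567425), (nat_lit 75, nat_lit 18457563201), (nat_lit 12, nat_lit 18457305153), (nat_lit 97, nat_lit 19531042881)]⟩],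
  [W_13087817792]⟩
theorem C_13089390657 : chkRec R_13089390657 = true := by decide +kernel

noncomputable def R_13089390720 : Rec := ⟨nat_lit 13089390720, nat_lit 7,
  [⟨V6_13088333952, [(nat_lit 33, nat_lit 13089390720), (nat_lit 44, nat_lit 14163128448), (nat_lit 90, nat_lit 14162870400), (nat_lit 107, nat_lit 15236866176), (nat_lit 58, nat_lit 15236608128), (nat_lit 56, nat_lit 15236350080), (nat_lit 109, nat_lit 16310345856), (nat_lit 26, nat_lit 16310087808), (nat_lit 114, nat_lit 16309829760), (nat_lit 85, nat_lit 17383825536), (nat_lit 58, nat_lit 17383567488), (nat_lit 53, nat_lit 17383309440), (nat_lit 123, nat_lit 18457305216), (nat_lit 56, nat_lit 18457047168), (nat_lit 107, nat_lit 19530784896)]⟩],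
  [W_13088595968, W_13088337920]⟩
theorem C_13089390720 : chkRec R_13089390720 = true := by decide +kernel

noncomputable def R_13089394752 : Rec := ⟨nat_lit 13089394752, nat_lit 3,
  [⟨V6_13089116160, [(nat_lit 109, nat_lit 13089394752), (nat_lit 8, nat_lit 14163136512), (nat_lit 11, nat_lit 14163132480), (nat_lit 78, nat_lit 14162874432), (nat_lit 49, nat_lit 15236874240), (nat_lit 22, nat_lit 15236870208), (nat_lit 76, nat_lit 15236616192), (nat_lit 90, nat_lit 15236612160), (nat_lit 113, nat_lit 16310611968), (nat_lit 58, nat_lit 16310607936), (nat_lit 106, nat_lit 16310353920), (nat_lit 87, nat_lit 16310349888), (nat_lit 123, nat_lit 17384349696), (nat_lit 114, nat_lit 17384345664), (nat_lit 41, nat_lit 17384091648), (nat_lit 55, nat_lit 17384087616), (nat_lit 99, nat_lit 18458087424), (nat_lit 10, nat_lit 18457829376), (nat_lit 57, nat_lit 18457825344), (nat_lit 60, nat_lit 19531567104)]⟩,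
   ⟨V6_13088854080, [(nat_lit 40, nat_lit 13089394752), (nat_lit 41, nat_lit 14163132480), (nat_lit 47, nat_lit 14162874432), (nat_lit 32, nat_lit 15236870208), (nat_lit 82, nat_lit 15236612160), (nat_lit 29, nat_lit 15236354112), (nat_lit 37, nat_lit 16310607936), (nat_lit 14, nat_lit 16310349888), (nat_lit 36, nat_lit 16310091840), (nat_lit 34, nat_lit 17384345664), (nat_lit 93, nat_lit 17384087616), (nat_lit 62, nat_lit 17383829568), (nat_lit 86, nat_lit 18457825344), (nat_lit 102, nat_lit 18457567296), (nat_lit 105, nat_lit 19531305024)]⟩],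
  [W_13087821824]⟩
theorem C_13089394752 : chkRec R_13089394752 = true := by decide +kernel

noncomputable def R_13089398784 : Rec := ⟨nat_lit 13089398784, nat_lit 6,
  [⟨V6_13087825920, [(nat_lit 113, nat_lit 13089398784), (nat_lit 56, nat_lit 14162878464), (nat_lit 22, nat_lit 15236358144), (nat_lit 112, nat_lit 16309837824), (nat_lit 57, nat_lit 17383317504), (nat_lit 24, nat_lit 18456797184), (nat_lit 60, nat_lit 19530276864)]⟩],
  [W_13089112064, W_13088854016, W_13088595968]⟩
theorem C_13089398784 : chkRec R_13089398784 = true := by decide +kernel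

noncomputable def R_14077682052 : Rec := ⟨nat_lit 14077682052, nat_lit 1,
  [⟨V6_10839679236, [(nat_lit 3, nat_lit 14077682052), (nat_lit 124, nat_lit 15151423812), (nat_lit 93, nat_lit 15134646660), (nat_lit 36, nat_lit 16225165572), (nat_lit 104, nat_lit 16208388420), (nat_lit 97, nat_lit 17282130180)]⟩],
  [W_11913421184]⟩
theorem C_14077682052 : chkRec R_14077682052 = true := by decide +kernel

noncomputable def R_14094459204 : Rec := ⟨nat_lit 14094459204, nat_lit 1,
  [⟨V6_10839679236, [(nat_lit 68, nat_lit 14094459204), (nat_lit 37, nat_lit 15168200964), (nat_lit 59, nat_lit 15151423812), (nat_lit 20, nat_lit 16225165572), (nat_lit 122, nat_lit 16208388420), (nat_lit 89, nat_lit 17282130180)]⟩],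
  [W_10873233728]⟩
theorem C_14094459204 : chkRec R_14094459204 = true := by decide +kernel

noncomputable def R_14094459267 : Rec := ⟨nat_lit 14094459267, nat_lit 2,
  [⟨V6_10856456451, [(nat_lit 71, nat_lit 14094459267), (nat_lit 119, nat_lit 15168201027), (nat_lit 59, nat_lit 15151423875), (nat_lit 100, nat_lit 16241942787), (nat_lit 5, nat_lit 16225165635), (nat_lit 99, nat_lit 17298907395)]⟩,
   ⟨V6_9765937539, [(nat_lit 123, nat_lit 14094459267), (nat_lit 93, nat_lit 15151423875), (nat_lit 54, nat_lit 16208388483)]⟩],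
  [W_13020717248]⟩
theorem C_14094459267 : chkRec R_14094459267 = true := by decide +kernel

noncomputable def R_14094721284 : Rec := ⟨nat_lit 14094721284, nat_lit 1,
  [⟨V6_10873225476, [(nat_lit 104, nat_lit 14094721284), (nat_lit 107, nat_lit 15168459012), (nat_lit 82, nat_lit 15168200964), (nat_lit 75, nat_lit 16242196740), (nat_lit 119, nat_lit 16241938692), (nat_lit 2, nat_lit 17315676420)]⟩],
  [W_11947233536]⟩
theorem C_14094721284 : chkRec R_14094721284 = true := by decide +kernel

noncomputable def R_14094721347 : Rec := ⟨nat_lit 14094721347, nat_lit 2,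
  [⟨V6_10856456451, [(nat_lit 59, nat_lit 14094721347), (nat_lit 5, nat_lit 15168463107), (nat_lit 73, nat_lit 15168201027), (nat_lit 51, nat_lit 15151685955), (nat_lit 64, nat_lit 16241942787), (nat_lit 105, nat_lit 16225427715), (nat_lit 54, nat_lit 16225165635), (nat_lit 14, nat_lit 17298907395)]⟩,
   ⟨V6_9799753986, [(nat_lit 45, nat_lit 14094721347), (nat_lit 27, nat_lit 15168463170), (nat_lit 51, nat_lit 15168463107), (nat_lit 63, nat_lit 16242204930)]⟩],
  [W_14094454976]⟩
theorem C_14094721347 : chkRec R_14094721347 = true := by decide +kernel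

noncomputable def R_14094721410 : Rec := ⟨nat_lit 14094721410, nat_lit 2,
  [⟨V6_11947237506, [(nat_lit 6, nat_lit 14094721410), (nat_lit 109, nat_lit 15168463170), (nat_lit 11, nat_lit 16242204930), (nat_lit 91, nat_lit 17315946690), (nat_lit 58, nat_lit 18389688450)]⟩],
  [W_14077681856, W_13003940096]⟩
theorem C_14094721410 : chkRec R_14094721410 = true := by decide +kernel

noncomputable def R_14094725379 : Rec := ⟨nat_lit 14094725379, nat_lit 1,
  [⟨V6_9799753986, [(nat_lit 19, nat_lit 14094725379), (nat_lit 46, nat_lit 15168467202), (nat_lit 63, nat_lit 15168463107), (nat_lit 74, nat_lit 16242204930)]⟩],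
  [W_14077939904]⟩
theorem C_14094725379 : chkRec R_14094725379 = true := by decide +kernel

noncomputable def R_14094725442 : Rec := ⟨nat_lit 14094725442, nat_lit 1,
  [⟨V6_9799753986, [(nat_lit 86, nat_lit 14094725442), (nat_lit 108, nat_lit 15168467202), (nat_lit 112, nat_lit 15168463170), (nat_lit 46, nat_lit 16242204930)]⟩],
  [W_14077939904]⟩
theorem C_14094725442 : chkRec R_14094725442 = true := by decide +kernel

noncomputable def R_14094979332 : Rec := ⟨nat_lit 14094979332, nat_lit 2,
  [⟨V6_10873753857, [(nat_lit 60, nat_lit 14094979332), (nat_lit 122, nat_lit 15168721155), (nat_lit 99, nat_lit 16242462978), (nat_lit 42, nat_lit 17316204801)]⟩],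
  [W_14094450944]⟩
theorem C_14094979332 : chkRec R_14094979332 = true := by decide +kernel

noncomputable def R_14094979395 : Rec := ⟨nat_lit 14094979395, nat_lit 1,
  [⟨V6_10873753794, [(nat_lit 35, nat_lit 14094979395), (nat_lit 23, nat_lit 15168721218), (nat_lit 121, nat_lit 15168721155), (nat_lit 89, nat_lit 16242462978), (nat_lit 103, nat_lit 16242462915), (nat_lit 9, nat_lit 17316204738)]⟩],
  [W_14094454976]⟩
theorem C_14094979395 : chkRec R_14094979395 = true := by decide +kernel

noncomputable def R_14094983427 : Rec := ⟨nat_lit 14094983427, nat_lit 4,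
  [⟨V6_10873757952, [(nat_lit 93, nat_lit 14094983427), (nat_lit 13, nat_lit 15168725250), (nat_lit 5, nat_lit 16242467073), (nat_lit 121, nat_lit 17316208896)]⟩],
  [W_14094454976, W_14094450944]⟩
theorem C_14094983427 : chkRec R_14094983427 = true := by decide +kernel

noncomputable def R_14094983490 : Rec := ⟨nat_lit 14094983490, nat_lit 5,
  [⟨V6_10873757952, [(nat_lit 75, nat_lit 14094983490), (nat_lit 97, nat_lit 15168725313), (nat_lit 54, nat_lit 15168725250), (nat_lit 94, nat_lit 16242467136), (nat_lit 43, nat_lit 16242467073), (nat_lit 126, nat_lit 17316208896)]⟩],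
  [W_14094459008, W_14094454976, W_10873233728]⟩
theorem C_14094983490 : chkRec R_14094983490 = true := by decide +kernel

noncomputable def R_14094983553 : Rec := ⟨nat_lit 14094983553, nat_lit 4,
  [⟨V6_10873233792, [(nat_lit 48, nat_lit 14094983553), (nat_lit 4, nat_lit 15168725376), (nat_lit 125, nat_lit 15168463233), (nat_lit 52, nat_lit 16242205056), (nat_lit 21, nat_lit 16241942913), (nat_lit 79, nat_lit 17315684736)]⟩,
   ⟨V6_8726274432, [(nat_lit 118, nat_lit 14094983553), (nat_lit 6, nat_lit 15168725376)]⟩],
  [W_14094721088, W_13021241408]⟩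
theorem C_14094983553 : chkRec R_14094983553 = true := by decide +kernel

noncomputable def R_14094987459 : Rec := ⟨nat_lit 14094987459, nat_lit 1,
  [⟨V6_10873499841, [(nat_lit 17, nat_lit 14094987459), (nat_lit 65, nat_lit 15168729282), (nat_lit 37, nat_lit 15168467139), (nat_lit 124, nat_lit 16242471105), (nat_lit 120, nat_lit 16242208962), (nat_lit 11, nat_lit 17315950785)]⟩],
  [W_13021233344]⟩
theorem C_14094987459 : chkRec R_14094987459 = true := by decide +kernel

noncomputable def R_14094987522 : Rec := ⟨nat_lit 14094987522, nat_lit 5,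
  [⟨V6_10873757952, [(nat_lit 48, nat_lit 14094987522), (nat_lit 47, nat_lit 15168729345), (nat_lit 119, nat_lit 15168725250), (nat_lit 126, nat_lit 16242471168), (nat_lit 63, nat_lit 16242467073), (nat_lit 77, nat_lit 17316208896)]⟩],
  [W_14094713024, W_13021233344, W_10873761920]⟩
theorem C_14094987522 : chkRec R_14094987522 = true := by decide +kernel

noncomputable def R_14094987585 : Rec := ⟨nat_lit 14094987585, nat_lit 5,
  [⟨V6_13020983361, [(nat_lit 84, nat_lit 14094987585), (nat_lit 50, nat_lit 15168729345), (nat_lit 39, nat_lit 15168467265), (nat_lit 19, nat_lit 16242471105), (nat_lit 17, nat_lit 16242209025), (nat_lit 68, nat_lit 17316212865), (nat_lit 2, nat_lit 17315950785), (nat_lit 112, nat_lit 18389954625), (nat_lit 102, nat_lit 18389692545), (nat_lit 86, nat_lit 19463434305)]⟩,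
   ⟨V6_10873499841, [(nat_lit 74, nat_lit 14094987585), (nat_lit 4, nat_lit 15168729345), (nat_lit 126, nat_lit 15168467265), (nat_lit 23, nat_lit 16242471105), (nat_lit 50, nat_lit 16242209025), (nat_lit 78, nat_lit 17315950785)]⟩,
   ⟨V6_9800016192, [(nat_lit 92, nat_lit 14094987585), (nat_lit 23, nat_lit 15168729408), (nat_lit 107, nat_lit 15168725313), (nat_lit 5, nat_lit 16242467136)]⟩],
  [W_14094979136, W_11947233536]⟩
theorem C_14094987585 : chkRec R_14094987585 = true := by decide +kernel

noncomputable def R_14094987648 : Rec := ⟨nat_lit 14094987648, nat_lit 4,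
  [⟨V6_14094987264, [(nat_lit 30, nat_lit 14094987648), (nat_lit 89, nat_lit 15168729408), (nat_lit 117, nat_lit 16242471168), (nat_lit 91, nat_lit 17316212928), (nat_lit 76, nat_lit 18389954688), (nat_lit 35, nat_lit 19463696448), (nat_lit 124, nat_lit 20537438208)]⟩],
  [W_14094721088, W_9800016128]⟩
theorem C_14094987648 : chkRec R_14094987648 = true := by decide +kernel

noncomputable def R_14094991554 : Rec := ⟨nat_lit 14094991554, nat_lit 3,
  [⟨V6_11947491522, [(nat_lit 46, nat_lit 14094991554), (nat_lit 89, nat_lit 15168729282), (nat_lit 78, nat_lit 16242467010), (nat_lit 43, nat_lit 17316204738), (nat_lit 111, nat_lit 18389942466)]⟩,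
   ⟨V6_10873753794, [(nat_lit 81, nat_lit 14094991554), (nat_lit 119, nat_lit 15168729282), (nat_lit 81, nat_lit 16242467010), (nat_lit 29, nat_lit 17316204738)]⟩],
  [W_13021237376]⟩
theorem C_14094991554 : chkRec R_14094991554 = true := by decide +kernel

noncomputable def R_14094991617 : Rec := ⟨nat_lit 14094991617, nat_lit 6,
  [⟨V6_11947491585, [(nat_lit 28, nat_lit 14094991617), (nat_lit 10, nat_lit 15168729345), (nat_lit 53, nat_lit 16242467073), (nat_lit 109, nat_lit 17316204801), (nat_lit 51, nat_lit 18389942529)]⟩,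
   ⟨V6_10873753857, [(nat_lit 125, nat_lit 14094991617), (nat_lit 88, nat_lit 15168729345), (nat_lit 125, nat_lit 16242467073), (nat_lit 62, nat_lit 17316204801)]⟩],
  [W_14094979136, W_10873765952, W_8726282432]⟩
theorem C_14094991617 : chkRec R_14094991617 = true := by decide +kernel

noncomputable def R_14094991680 : Rec := ⟨nat_lit 14094991680, nat_lit 6,
  [⟨V6_13021249536, [(nat_lit 76, nat_lit 14094991680), (nat_lit 79, nat_lit 15168733440), (nat_lit 46, nat_lit 16242475200), (nat_lit 121, nat_lit 17316216960), (nat_lit 82, nat_lit 18389958720), (nat_lit 120, nat_lit 19463700480)]⟩,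
   ⟨V6_8726282496, [(nat_lit 63, nat_lit 14094991680), (nat_lit 54, nat_lit 15168733440)]⟩],
  [W_14094979136, W_9800016128, W_8726282432]⟩
theorem C_14094991680 : chkRec R_14094991680 = true := by decide +kernel

noncomputable def R_14111236356 : Rec := ⟨nat_lit 14111236356, nat_lit 2,
  [⟨V6_12987154692, [(nat_lit 108, nat_lit 14111236356), (nat_lit 54, nat_lit 15184974084), (nat_lit 104, nat_lit 15168200964), (nat_lit 84, nat_lit 16258711812), (nat_lit 33, nat_lit 16241938692), (nat_lit 70, nat_lit 16225165572), (nat_lit 2, nat_lit 17315676420), (nat_lit 53, nat_lit 17298903300), (nat_lit 119, nat_lit 17282130180), (nat_lit 46, nat_lit 18372641028), (nat_lit 122, nat_lit 18355867908), (nat_lit 104, nat_lit 19429605636)]⟩,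
   ⟨V6_10856456451, [(nat_lit 118, nat_lit 14111236356), (nat_lit 39, nat_lit 15184978179), (nat_lit 49, nat_lit 15168200964), (nat_lit 66, nat_lit 16241942787), (nat_lit 12, nat_lit 16225165572), (nat_lit 59, nat_lit 17298907395)]⟩],
  [W_14094450944]⟩
theorem C_14111236356 : chkRec R_14111236356 = true := by decide +kernel

noncomputable def R_14111236419 : Rec := ⟨nat_lit 14111236419, nat_lit 3,
  [⟨V6_10890010944, [(nat_lit 50, nat_lit 14111236419), (nat_lit 78, nat_lit 15184978242), (nat_lit 30, nat_lit 16258720065), (nat_lit 91, nat_lit 17332461888)]⟩],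
  [W_14094454976, W_14060904704]⟩
theorem C_14111236419 : chkRec R_14111236419 = true := by decide +kernel

noncomputable def R_14111236482 : Rec := ⟨nat_lit 14111236482, nat_lit 3,
  [⟨V6_10873233792, [(nat_lit 109, nat_lit 14111236482), (nat_lit 78, nat_lit 15184978305), (nat_lit 111, nat_lit 15168201090), (nat_lit 11, nat_lit 16258720128), (nat_lit 5, nat_lit 16241942913), (nat_lit 21, nat_lit 17315684736)]⟩],
  [W_13037494400]⟩
theorem C_14111236482 : chkRec R_14111236482 = true := by decide +kernel

noncomputable def R_14111494404 : Rec := ⟨nat_lit 14111494404, nat_lit 1,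
  [⟨V6_10873225476, [(nat_lit 12, nat_lit 14111494404), (nat_lit 52, nat_lit 15185232132), (nat_lit 27, nat_lit 15184974084), (nat_lit 22, nat_lit 15168459012), (nat_lit 84, nat_lit 16258711812), (nat_lit 40, nat_lit 16242196740), (nat_lit 16, nat_lit 16241938692), (nat_lit 102, nat_lit 17315676420)]⟩],
  [W_11963748608]⟩
theorem C_14111494404 : chkRec R_14111494404 = true := by decide +kernel

noncomputable def R_14111494467 : Rec := ⟨nat_lit 14111494467, nat_lit 2,
  [⟨V6_13037228352, [(nat_lit 55, nat_lit 14111494467), (nat_lit 8, nat_lit 15185236290), (nat_lit 33, nat_lit 15184974147), (nat_lit 47, nat_lit 16258978113), (nat_lit 43, nat_lit 16258715970), (nat_lit 31, nat_lit 16258453827), (nat_lit 43, nat_lit 17332719936), (nat_lit 49, nat_lit 17332457793), (nat_lit 62, nat_lit 17332195650), (nat_lit 69, nat_lit 18406199616), (nat_lit 72, nat_lit 18405937473), (nat_lit 93, nat_lit 19479679296)]⟩,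
   ⟨V6_10890006849, [(nat_lit 3, nat_lit 14111494467), (nat_lit 105, nat_lit 15185236290), (nat_lit 16, nat_lit 15184974147), (nat_lit 83, nat_lit 16258978113), (nat_lit 106, nat_lit 16258715970), (nat_lit 42, nat_lit 17332457793)]⟩],
  [W_14077939904, W_9816527168]⟩
theorem C_14111494467 : chkRec R_14111494467 = true := by decide +kernel

noncomputable def R_14111498499 : Rec := ⟨nat_lit 14111498499, nat_lit 5,
  [⟨V6_13004198082, [(nat_lit 98, nat_lit 14111498499), (nat_lit 64, nat_lit 15185240322), (nat_lit 64, nat_lit 15185240259), (nat_lit 8, nat_lit 15185236227), (nat_lit 126, nat_lit 15168463107), (nat_lit 54, nat_lit 16258982082), (nat_lit 40, nat_lit 16258978050), (nat_lit 94, nat_lit 16258977987), (nat_lit 126, nat_lit 16242204930), (nat_lit 81, nat_lit 16242204867), (nat_lit 47, nat_lit 16242200835), (nat_lit 110, nat_lit 16225427715), (nat_lit 34, nat_lit 17332719810), (nat_lit 108, nat_lit 17315946690), (nat_lit 86, nat_lit 17315942658), (nat_lit 51, nat_lit 17315942595), (nat_lit 32, nat_lit 17299169538), (nat_lit 96, nat_lit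 17299169475), (nat_lit 31, nat_lit 17299165443), (nat_lit 92, nat_lit 18389684418), (nat_lit 28, nat_lit 18372911298), (nat_lit 121, nat_lit 18372907266), (nat_lit 72, nat_lit 18372907203), (nat_lit 6, nat_lit 19446649026)]⟩,
   ⟨V6_11930198274, [(nat_lit 14, nat_lit 14111498499), (nat_lit 43, nat_lit 15185240322), (nat_lit 67, nat_lit 15184978179), (nat_lit 98, nat_lit 15168463107), (nat_lit 50, nat_lit 16258720002), (nat_lit 68, nat_lit 16242204930), (nat_lit 99, nat_lit 16241942787), (nat_lit 38, nat_lit 16225427715), (nat_lit 86, nat_lit 17315684610), (nat_lit 67, nat_lit 17299169538), (nat_lit 46, nat_lit 17298907395), (nat_lit 108, nat_lit 18372649218)]⟩,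
   ⟨V6_9799753986, [(nat_lit 32, nat_lit 14111498499), (nat_lit 31, nat_lit 15185240322), (nat_lit 28, nat_lit 15168463107), (nat_lit 46, nat_lit 16242204930)]⟩],
  [W_14111228096, W_14094713024, W_14094450944]⟩
theorem C_14111498499 : chkRec R_14111498499 = true := by decide +kernel

noncomputable def R_14111498562 : Rec := ⟨nat_lit 14111498562, nat_lit 7,
  [⟨V6_11947237506, [(nat_lit 7, nat_lit 14111498562), (nat_lit 35, nat_lit 15185240322), (nat_lit 122, nat_lit 15168463170), (nat_lit 95, nat_lit 16258982082), (nat_lit 120, nat_lit 16242204930), (nat_lit 1, nat_lit 17332723842), (nat_lit 19, nat_lit 17315946690), (nat_lit 31, nat_lit 18389688450)]⟩,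
   ⟨V6_11930198274, [(nat_lit 101, nat_lit 14111498562), (nat_lit 47, nat_lit 15185240322), (nat_lit 106, nat_lit 15184978242), (nat_lit 88, nat_lit 15168463170), (nat_lit 19, nat_lit 16258720002), (nat_lit 68, nat_lit 16242204930), (nat_lit 36, nat_lit 16241942850), (nat_lit 83, nat_lit 16225427778), (nat_lit 62, nat_lit 17315684610), (nat_lit 63, nat_lit 17299169538), (nat_lit 103, nat_lit 17298907458), (nat_lit 99, nat_lit 18372649218)]⟩,
   ⟨V6_10873233729, [(nat_lit 101, nat_lit 14111498562), (nat_lit 44, nat_lit 15185240385), (nat_lit 32, nat_lit 15184978242), (nat_lit 28, nat_lit 15168463170), (nat_lit 103, nat_lit 16258720065), (nat_lit 18, nat_lit 16242204993), (nat_lit 98, nat_lit 16241942850), (nat_lit 64, nat_lit 17315684673)]⟩,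
   ⟨V6_9799753986, [(nat_lit 4, nat_lit 14111498562), (nat_lit 90, nat_lit 15185240322), (nat_lit 96, nat_lit 15168463170), (nat_lit 46, nat_lit 16242204930)]⟩],
  [W_14111232128, W_13037494400, W_9816527168]⟩
theorem C_14111498562 : chkRec R_14111498562 = true := by decide +kernel

noncomputable def R_14111498625 : Rec := ⟨nat_lit 14111498625, nat_lit 5,
  [⟨V6_10873233792, [(nat_lit 14, nat_lit 14111498625), (nat_lit 69, nat_lit 15185240448), (nat_lit 58, nat_lit 15184978305), (nat_lit 45, nat_lit 15168463233), (nat_lit 3, nat_lit 16258720128), (nat_lit 82, nat_lit 16242205056), (nat_lit 85, nat_lit 16241942913), (nat_lit 33, nat_lit 17315684736)]⟩,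
   ⟨V6_10873233729, [(nat_lit 17, nat_lit 14111498625), (nat_lit 116, nat_lit 15185240385), (nat_lit 70, nat_lit 15184978305), (nat_lit 10, nat_lit 15168463233), (nat_lit 119, nat_lit 16258720065), (nat_lit 99, nat_lit 16242204993), (nat_lit 65, nat_lit 16241942913), (nat_lit 81, nat_lit 17315684673)]⟩],
  [W_14111236160, W_10890272960]⟩
theorem C_14111498625 : chkRec R_14111498625 = true := by decide +kernel

noncomputable def R_14111502531 : Rec := ⟨nat_lit 14111502531, nat_lit 2,
  [⟨V6_14077931715, [(nat_lit 88, nat_lit 14111502531), (nat_lit 121, nat_lit 15185240259), (nat_lit 3, nat_lit 15168467139), (nat_lit 28, nat_lit 16258977987), (nat_lit 106, nat_lit 16242204867), (nat_lit 124, nat_lit 16225431747), (nat_lit 125, nat_lit 17332715715), (nat_lit 28, nat_lit 17315942595), (nat_lit 103, nat_lit 17299169475), (nat_lit 105, nat_lit 18406453443), (nat_lit 56, nat_lit 18389680323), (nat_lit 68, nat_lit 18372907203), (nat_lit 15, nat_lit 19463418051), (nat_lit 57, nat_lit 19446644931), (nat_lit 17, nat_lit 20520382659)]⟩,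
   ⟨V6_10873499841, [(nat_lit 43, nat_lit 14111502531), (nat_lit 88, nat_lit 15185244354), (nat_lit 59, nat_lit 15168467139), (nat_lit 74, nat_lit 16258986177), (nat_lit 35, nat_lit 16242208962), (nat_lit 31, nat_lit 17315950785)]⟩],
  [W_14111486144]⟩
theorem C_14111502531 : chkRec R_14111502531 = true := by decide +kernel

noncomputable def R_14111502594 : Rec := ⟨nat_lit 14111502594, nat_lit 3,
  [⟨V6_11947237506, [(nat_lit 2, nat_lit 14111502594), (nat_lit 117, nat_lit 15185244354), (nat_lit 27, nat_lit 15185240322), (nat_lit 54, nat_lit 15168467202), (nat_lit 48, nat_lit 16258986114), (nat_lit 110, nat_lit 16258982082), (nat_lit 16, nat_lit 16242208962), (nat_lit 41, nat_lit 16242204930), (nat_lit 85, nat_lit 17332723842), (nat_lit 34, nat_lit 17315950722), (nat_lit 7, nat_lit 17315946690), (nat_lit 36, nat_lit 18389688450)]⟩,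
   ⟨V6_9799753986, [(nat_lit 87, nat_lit 14111502594), (nat_lit 15, nat_lit 15185240322), (nat_lit 93, nat_lit 15168467202), (nat_lit 39, nat_lit 16242204930)]⟩],
  [W_14111490176, W_14077939904]⟩
theorem C_14111502594 : chkRec R_14111502594 = true := by decide +kernel

noncomputable def R_14111502657 : Rec := ⟨nat_lit 14111502657, nat_lit 4,
  [⟨V6_13020983361, [(nat_lit 124, nat_lit 14111502657), (nat_lit 105, nat_lit 15185244417), (nat_lit 112, nat_lit 15168467265), (nat_lit 120, nat_lit 16258986177), (nat_lit 20, nat_lit 16242209025), (nat_lit 103, nat_lit 17332727937), (nat_lit 86, nat_lit 17315950785), (nat_lit 46, nat_lit 18406469697), (nat_lit 1, nat_lit 18389692545), (nat_lit 90, nat_lit 19463434305)]⟩,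
   ⟨V6_10873499841, [(nat_lit 74, nat_lit 14111502657), (nat_lit 95, nat_lit 15185244417), (nat_lit 59, nat_lit 15168467265), (nat_lit 10, nat_lit 16258986177), (nat_lit 14, nat_lit 16242209025), (nat_lit 52, nat_lit 17315950785)]⟩],
  [W_14094721088, W_14077939904, W_9816527168]⟩
theorem C_14111502657 : chkRec R_14111502657 = true := by decide +kernel

noncomputable def R_14111502720 : Rec := ⟨nat_lit 14111502720, nat_lit 2,
  [⟨V6_14111502336, [(nat_lit 101, nat_lit 14111502720), (nat_lit 16, nat_lit 15185244480), (nat_lit 51, nat_lit 16258986240), (nat_lit 82, nat_lit 17332728000), (nat_lit 95, nat_lit 18406469760), (nat_lit 12, nat_lit 19480211520), (nat_lit 28, nat_lit 20553953280)]⟩],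
  [W_11947237568, W_10890272960]⟩
theorem C_14111502720 : chkRec R_14111502720 = true := by decide +kernel

noncomputable def R_14111756547 : Rec := ⟨nat_lit 14111756547, nat_lit 5,
  [⟨V6_10890526977, [(nat_lit 69, nat_lit 14111756547), (nat_lit 97, nat_lit 15185498370), (nat_lit 58, nat_lit 15185494275), (nat_lit 54, nat_lit 16259240193), (nat_lit 32, nat_lit 16259236098), (nat_lit 67, nat_lit 17332977921)]⟩,
   ⟨V6_10873753857, [(nat_lit 23, nat_lit 14111756547), (nat_lit 115, nat_lit 15185498370), (nat_lit 67, nat_lit 15168721155), (nat_lit 13, nat_lit 16259240193), (nat_lit 1, nat_lit 16242462978), (nat_lit 117, nat_lit 17316204801)]⟩],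
  [W_14110970048, W_14094454976, W_14094450944]⟩
theorem C_14111756547 : chkRec R_14111756547 = true := by decide +kernel

noncomputable def R_14111756610 : Rec := ⟨nat_lit 14111756610, nat_lit 5,
  [⟨V6_11947495554, [(nat_lit 45, nat_lit 14111756610), (nat_lit 98, nat_lit 15185498370), (nat_lit 113, nat_lit 15168721218), (nat_lit 12, nat_lit 16259240130), (nat_lit 82, nat_lit 16242462978), (nat_lit 79, nat_lit 17332981890), (nat_lit 104, nat_lit 17316204738), (nat_lit 36, nat_lit 18389946498)]⟩,
   ⟨V6_10873753857, [(nat_lit 11, nat_lit 14111756610), (nat_lit 125, nat_lit 15185498433), (nat_lit 100, nat_lit 15185498370), (nat_lit 68, nat_lit 15168721218), (nat_lit 123, nat_lit 16259240193), (nat_lit 123, nat_lit 16242463041), (nat_lit 23, nat_lit 16242462978), (nat_lit 13, nat_lit 17316204801)]⟩],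
  [W_14111232128, W_14110970048]⟩
theorem C_14111756610 : chkRec R_14111756610 = true := by decide +kernel

noncomputable def R_14111760579 : Rec := ⟨nat_lit 14111760579, nat_lit 5,
  [⟨V6_11947499712, [(nat_lit 18, nat_lit 14111760579), (nat_lit 51, nat_lit 15185502402), (nat_lit 1, nat_lit 15168725187), (nat_lit 8, nat_lit 16259244225), (nat_lit 5, nat_lit 16242467010), (nat_lit 45, nat_lit 17332986048), (nat_lit 117, nat_lit 17316208833), (nat_lit 97, nat_lit 18389950656)]⟩],
  [W_14111486144, W_14094454976]⟩
theorem C_14111760579 : chkRec R_14111760579 = true := by decide +kernel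

noncomputable def R_14111760642 : Rec := ⟨nat_lit 14111760642, nat_lit 13,
  [⟨V6_11947495554, [(nat_lit 48, nat_lit 14111760642), (nat_lit 83, nat_lit 15185502402), (nat_lit 92, nat_lit 15185498370), (nat_lit 91, nat_lit 15168725250), (nat_lit 71, nat_lit 16259244162), (nat_lit 48, nat_lit 16259240130), (nat_lit 94, nat_lit 16242467010), (nat_lit 71, nat_lit 16242462978), (nat_lit 49, nat_lit 17332981890), (nat_lit 94, nat_lit 17316208770), (nat_lit 101, nat_lit 17316204738), (nat_lit 40, nat_lit 18389946498)]⟩,
   ⟨V6_10890526977, [(nat_lit 2, nat_lit 14111760642), (nat_lit 121, nat_lit 15185502465), (nat_lit 74, nat_lit 15185498370), (nat_lit 120, nat_lit 16259240193), (nat_lit 72, nat_lit 16259236098), (nat_lit 77, nat_lit 17332977921)]⟩,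
   ⟨V6_10873757952, [(nat_lit 48, nat_lit 14111760642), (nat_lit 46, nat_lit 15185502465), (nat_lit 85, nat_lit 15168725250), (nat_lit 13, nat_lit 16259244288), (nat_lit 29, nat_lit 16242467073), (nat_lit 71, nat_lit 17316208896)]⟩,
   ⟨V6_10873753857, [(nat_lit 2, nat_lit 14111760642), (nat_lit 74, nat_lit 15185502465), (nat_lit 55, nat_lit 15185498370), (nat_lit 43, nat_lit 15168725250), (nat_lit 43, nat_lit 16259240193), (nat_lit 3, nat_lit 16242467073), (nat_lit 102, nat_lit 16242462978), (nat_lit 102, nat_lit 17316204801)]⟩],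
  [W_14111490176, W_14111232128, W_14094459008, W_14094450944, W_13037494400]⟩
theorem C_14111760642 : chkRec R_14111760642 = true := by decide +kernel

noncomputable def R_14111760705 : Rec := ⟨nat_lit 14111760705, nat_lit 14,
  [⟨V6_14094979137, [(nat_lit 26, nat_lit 14111760705), (nat_lit 104, nat_lit 15185502465), (nat_lit 1, nat_lit 15185498433), (nat_lit 68, nat_lit 15168725313), (nat_lit 106, nat_lit 16259244225), (nat_lit 90, nat_lit 16259240193), (nat_lit 66, nat_lit 16242467073), (nat_lit 111, nat_lit 16242463041), (nat_lit 20, nat_lit 17332985985), (nat_lit 11, nat_lit 17332981953), (nat_lit 6, nat_lit 17316208833), (nat_lit 54, nat_lit 17316204801), (nat_lit 76, nat_lit 18406727745), (nat_lit 11, nat_lit 18406723713), (nat_lit 94, nat_lit 18389950593), (nat_lit 95, nat_lit 18389946561), (nat_lit 70, nat_lit 19480465473), (nat_lit 85, nat_lit 19463692353), (nat_lit 120, nat_lit 19463688321), (nat_lit 9, nat_lit 20537430081)]⟩,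
   ⟨V6_10873757952, [(nat_lit 12, nat_lit 14111760705), (nat_lit 75, nat_lit 15185502528), (nat_lit 47, nat_lit 15185502465), (nat_lit 116, nat_lit 15168725313), (nat_lit 93, nat_lit 16259244288), (nat_lit 48, nat_lit 16242467136), (nat_lit 29, nat_lit 16242467073), (nat_lit 76, nat_lit 17316208896)]⟩],
  [W_14111236160, W_14094721088, W_14094454976, W_13037494400, W_10873233728, W_9816527168]⟩
theorem C_14111760705 : chkRec R_14111760705 = true := by decide +kernel

noncomputable def R_14111760768 : Rec := ⟨nat_lit 14111760768, nat_lit 9,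
  [⟨V6_11947499712, [(nat_lit 104, nat_lit 14111760768), (nat_lit 59, nat_lit 15185502528), (nat_lit 49, nat_lit 15168725376), (nat_lit 56, nat_lit 16259244288), (nat_lit 96, nat_lit 16242467136), (nat_lit 93, nat_lit 17332986048), (nat_lit 121, nat_lit 17316208896), (nat_lit 78, nat_lit 18389950656)]⟩,
   ⟨V6_9816793344, [(nat_lit 4, nat_lit 14111760768), (nat_lit 80, nat_lit 15185502528), (nat_lit 34, nat_lit 16259244288)]⟩],
  [W_14111236160, W_14094983168]⟩
theorem C_14111760768 : chkRec R_14111760768 = true := by decide +kernel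

noncomputable def R_14111764674 : Rec := ⟨nat_lit 14111764674, nat_lit 9,
  [⟨V6_11947499712, [(nat_lit 101, nat_lit 14111764674), (nat_lit 104, nat_lit 15185506497), (nat_lit 62, nat_lit 15185502402), (nat_lit 126, nat_lit 15168729282), (nat_lit 109, nat_lit 16259248320), (nat_lit 22, nat_lit 16259244225), (nat_lit 76, nat_lit 16242471105), (nat_lit 82, nat_lit 16242467010), (nat_lit 38, nat_lit 17332986048), (nat_lit 77, nat_lit 17316212928), (nat_lit 94, nat_lit 17316208833), (nat_lit 122, nat_lit 18389950656)]⟩,
   ⟨V6_10873499841, [(nat_lit 93, nat_lit 14111764674), (nat_lit 89, nat_lit 15185506497), (nat_lit 80, nat_lit 15185244354), (nat_lit 7, nat_lit 15168729282), (nat_lit 98, nat_lit 16258986177), (nat_lit 59, nat_lit 16242471105), (nat_lit 115, nat_lit 16242208962), (nat_lit 89, nat_lit 17315950785)]⟩],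
  [W_14111748224, W_14111490176, W_14111486144, W_10873761920]⟩
theorem C_14111764674 : chkRec R_14111764674 = true := by decide +kernel

noncomputable def R_14111764737 : Rec := ⟨nat_lit 14111764737, nat_lit 13,
  [⟨V6_13021233408, [(nat_lit 51, nat_lit 14111764737), (nat_lit 34, nat_lit 15185506560), (nat_lit 65, nat_lit 15185502465), (nat_lit 89, nat_lit 15168729345), (nat_lit 126, nat_lit 16259244288), (nat_lit 19, nat_lit 16259240193), (nat_lit 26, nat_lit 16242471168), (nat_lit 77, nat_lit 16242467073), (nat_lit 10, nat_lit 17332982016), (nat_lit 8, nat_lit 17332977921), (nat_lit 46, nat_lit 17316208896), (nat_lit 67, nat_lit 17316204801), (nat_lit 96, nat_lit 18406719744), (nat_lit 50, nat_lit 18389946624), (nat_lit 59, nat_lit 18389942529), (nat_lit 22, nat_lit 19463684352)]⟩,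
   ⟨V6_10890539073, [(nat_lit 62, nat_lit 14111764737), (nat_lit 103, nat_lit 15185506497), (nat_lit 43, nat_lit 16259248257), (nat_lit 21, nat_lit 17332990017)]⟩,
   ⟨V6_10890526977, [(nat_lit 34, nat_lit 14111764737), (nat_lit 15, nat_lit 15185502465), (nat_lit 2, nat_lit 16259240193), (nat_lit 56, nat_lit 17332977921)]⟩,
   ⟨V6_10873499841, [(nat_lit 65, nat_lit 14111764737), (nat_lit 27, nat_lit 15185506497), (nat_lit 71, nat_lit 15185244417), (nat_lit 19, nat_lit 15168729345), (nat_lit 30, nat_lit 16258986177), (nat_lit 39, nat_lit 16242471105), (nat_lit 42, nat_lit 16242209025), (nat_lit 86, nat_lit 17315950785)]⟩],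
  [W_14111490176, W_14094979136, W_14094721088, W_11964018752, W_11947503680, W_10873761920]⟩
theorem C_14111764737 : chkRec R_14111764737 = true := by decide +kernel

noncomputable def R_14111764800 : Rec := ⟨nat_lit 14111764800, nat_lit 14,
  [⟨V6_14111502336, [(nat_lit 28, nat_lit 14111764800), (nat_lit 92, nat_lit 15185506560), (nat_lit 78, nat_lit 15185244480), (nat_lit 33, nat_lit 16259248320), (nat_lit 81, nat_lit 16258986240), (nat_lit 126, nat_lit 17332990080), (nat_lit 81, nat_lit 17332728000), (nat_lit 116, nat_lit 18406731840), (nat_lit 118, nat_lit 18406469760), (nat_lit 46, nat_lit 19480473600), (nat_lit 99, nat_lit 19480211520), (nat_lit 92, nat_lit 20553953280)]⟩,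
   ⟨V6_14094987264, [(nat_lit 55, nat_lit 14111764800), (nat_lit 42, nat_lit 15185506560), (nat_lit 121, nat_lit 15168729408), (nat_lit 27, nat_lit 16259248320), (nat_lit 34, nat_lit 16242471168), (nat_lit 3, nat_lit 17332990080), (nat_lit 87, nat_lit 17316212928), (nat_lit 92, nat_lit 18406731840), (nat_lit 59, nat_lit 18389954688), (nat_lit 61, nat_lit 19480473600), (nat_lit 3, nat_lit 19463696448), (nat_lit 122, nat_lit 20537438208)]⟩],
  [W_14111494208, W_14094983168, W_10873761920, W_9816527168, W_9800016128]⟩
theorem C_14111764800 : chkRec R_14111764800 = true := by decide +kernel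

noncomputable def R_14111768706 : Rec := ⟨nat_lit 14111768706, nat_lit 3,
  [⟨V6_11947495554, [(nat_lit 9, nat_lit 14111768706), (nat_lit 115, nat_lit 15185506434), (nat_lit 118, nat_lit 15168733314), (nat_lit 19, nat_lit 16259244162), (nat_lit 77, nat_lit 16242471042), (nat_lit 111, nat_lit 17332981890), (nat_lit 28, nat_lit 17316208770), (nat_lit 20, nat_lit 18389946498)]⟩],
  [W_14111748224]⟩
theorem C_14111768706 : chkRec R_14111768706 = true := by decide +kernel

noncomputable def R_14111768769 : Rec := ⟨nat_lit 14111768769, nat_lit 9,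
  [⟨V6_11947499712, [(nat_lit 13, nat_lit 14111768769), (nat_lit 123, nat_lit 15185510592), (nat_lit 122, nat_lit 15185506497), (nat_lit 50, nat_lit 15168733377), (nat_lit 4, nat_lit 16259248320), (nat_lit 62, nat_lit 16259244225), (nat_lit 96, nat_lit 16242475200), (nat_lit 15, nat_lit 16242471105), (nat_lit 75, nat_lit 17332986048), (nat_lit 19, nat_lit 17316212928), (nat_lit 81, nat_lit 17316208833), (nat_lit 126, nat_lit 18389950656)]⟩,
   ⟨V6_10890539073, [(nat_lit 95, nat_lit 14111768769), (nat_lit 25, nat_lit 15185510529), (nat_lit 19, nat_lit 15185506497), (nat_lit 60, nat_lit 16259252289), (nat_lit 114, nat_lit 16259248257), (nat_lit 38, nat_lit 17332990017)]⟩],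
  [W_14111748224, W_14094979136, W_10873765952]⟩
theorem C_14111768769 : chkRec R_14111768769 = true := by decide +kernel

noncomputable def R_14111768832 : Rec := ⟨nat_lit 14111768832, nat_lit 12,
  [⟨V6_13021249536, [(nat_lit 89, nat_lit 14111768832), (nat_lit 114, nat_lit 15185510592), (nat_lit 38, nat_lit 15168733440), (nat_lit 63, nat_lit 16259252352), (nat_lit 114, nat_lit 16242475200), (nat_lit 59, nat_lit 17332994112), (nat_lit 113, nat_lit 17316216960), (nat_lit 106, nat_lit 18406735872), (nat_lit 69, nat_lit 18389958720), (nat_lit 22, nat_lit 19463700480)]⟩,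
   ⟨V6_13021233408, [(nat_lit 34, nat_lit 14111768832), (nat_lit 80, nat_lit 15185506560), (nat_lit 60, nat_lit 15168733440), (nat_lit 55, nat_lit 16259244288), (nat_lit 114, nat_lit 16242471168), (nat_lit 103, nat_lit 17332982016), (nat_lit 109, nat_lit 17316208896), (nat_lit 110, nat_lit 18406719744), (nat_lit 89, nat_lit 18389946624), (nat_lit 34, nat_lit 19463684352)]⟩],
  [W_14094983168, W_14094979136, W_13021245440, W_11964280832]⟩
theorem C_14111768832 : chkRec R_14111768832 = true := by decide +kernel

noncomputable def R_14112014595 : Rec := ⟨nat_lit 14112014595, nat_lit 1,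
  [⟨V6_9816785091, [(nat_lit 109, nat_lit 14112014595), (nat_lit 111, nat_lit 15185756355), (nat_lit 94, nat_lit 15185494275), (nat_lit 90, nat_lit 16259236035)]⟩],
  [W_13037486336]⟩
theorem C_14112014595 : chkRec R_14112014595 = true := by decide +kernel

noncomputable def R_14112018627 : Rec := ⟨nat_lit 14112018627, nat_lit 3,
  [⟨V6_13037482179, [(nat_lit 21, nat_lit 14112018627), (nat_lit 113, nat_lit 15185756355), (nat_lit 64, nat_lit 15185498307), (nat_lit 86, nat_lit 16259494083), (nat_lit 12, nat_lit 16259236035), (nat_lit 55, nat_lit 16258977987), (nat_lit 32, nat_lit 17332973763), (nat_lit 11, nat_lit 17332715715), (nat_lit 17, nat_lit 17332457667), (nat_lit 87, nat_lit 18406453443), (nat_lit 7, nat_lit 18406195395), (nat_lit 96, nat_lit 19479933123)]⟩,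
   ⟨V6_9817051329, [(nat_lit 63, nat_lit 14112018627), (nat_lit 88, nat_lit 15185760450), (nat_lit 81, nat_lit 16259502273)]⟩,
   ⟨V6_9816785091, [(nat_lit 63, nat_lit 14112018627), (nat_lit 123, nat_lit 15185756355), (nat_lit 80, nat_lit 15185498307), (nat_lit 74, nat_lit 16259236035)]⟩],
  [W_14111486144, W_10890531008]⟩
theorem C_14112018627 : chkRec R_14112018627 = true := by decide +kernel

noncomputable def R_14112018690 : Rec := ⟨nat_lit 14112018690, nat_lit 4,
  [⟨V6_10890526977, [(nat_lit 45, nat_lit 14112018690), (nat_lit 32, nat_lit 15185760513), (nat_lit 22, nat_lit 15185756418), (nat_lit 58, nat_lit 15185498370), (nat_lit 21, nat_lit 16259498241), (nat_lit 18, nat_lit 16259240193), (nat_lit 46, nat_lit 16259236098), (nat_lit 51, nat_lit 17332977921)]⟩,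
   ⟨V6_9817051329, [(nat_lit 122, nat_lit 14112018690), (nat_lit 92, nat_lit 15185760513), (nat_lit 95, nat_lit 15185760450), (nat_lit 2, nat_lit 16259502273)]⟩,
   ⟨V6_9817051266, [(nat_lit 22, nat_lit 14112018690), (nat_lit 8, nat_lit 15185760450), (nat_lit 82, nat_lit 16259502210)]⟩],
  [W_14111232128, W_14110970048]⟩
theorem C_14112018690 : chkRec R_14112018690 = true := by decide +kernel

noncomputable def R_14112018753 : Rec := ⟨nat_lit 14112018753, nat_lit 5,
  [⟨V6_13037228352, [(nat_lit 118, nat_lit 14112018753), (nat_lit 109, nat_lit 15185760576), (nat_lit 33, nat_lit 15185498433), (nat_lit 111, nat_lit 16259240256), (nat_lit 56, nat_lit 16258978113), (nat_lit 20, nat_lit 17332719936), (nat_lit 20, nat_lit 17332457793), (nat_lit 73, nat_lit 18406199616), (nat_lit 59, nat_lit 18405937473), (nat_lit 45, nat_lit 19479679296)]⟩,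
   ⟨V6_10890006849, [(nat_lit 110, nat_lit 14112018753), (nat_lit 40, nat_lit 15185498433), (nat_lit 107, nat_lit 16258978113), (nat_lit 126, nat_lit 17332457793)]⟩,
   ⟨V6_9817051329, [(nat_lit 28, nat_lit 14112018753), (nat_lit 73, nat_lit 15185760513), (nat_lit 99, nat_lit 16259502273)]⟩,
   ⟨V6_9816789312, [(nat_lit 36, nat_lit 14112018753), (nat_lit 11, nat_lit 15185760576), (nat_lit 63, nat_lit 15185498433), (nat_lit 80, nat_lit 16259240256)]⟩],
  [W_14111232128, W_11964534848]⟩
theorem C_14112018753 : chkRec R_14112018753 = true := by decide +kernel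

noncomputable def R_14112022722 : Rec := ⟨nat_lit 14112022722, nat_lit 7,
  [⟨V6_13038268608, [(nat_lit 25, nat_lit 14112022722), (nat_lit 90, nat_lit 15185764545), (nat_lit 126, nat_lit 15185760450), (nat_lit 86, nat_lit 16259506368), (nat_lit 50, nat_lit 16259502273), (nat_lit 107, nat_lit 16259498178), (nat_lit 67, nat_lit 17333244096), (nat_lit 68, nat_lit 17333240001), (nat_lit 28, nat_lit 17333235906), (nat_lit 75, nat_lit 18406981824), (nat_lit 39, nat_lit 18406977729), (nat_lit 95, nat_lit 19480719552)]⟩],
  [W_14111232128, W_13037494400, W_11964014720]⟩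
theorem C_14112022722 : chkRec R_14112022722 = true := by decide +kernel

noncomputable def R_14112022785 : Rec := ⟨nat_lit 14112022785, nat_lit 10,
  [⟨V6_11964268800, [(nat_lit 8, nat_lit 14112022785), (nat_lit 49, nat_lit 15185764608), (nat_lit 56, nat_lit 15185760513), (nat_lit 42, nat_lit 15185502465), (nat_lit 30, nat_lit 16259502336), (nat_lit 82, nat_lit 16259498241), (nat_lit 30, nat_lit 16259244288), (nat_lit 85, nat_lit 16259240193), (nat_lit 40, nat_lit 17333240064), (nat_lit 17, nat_lit 17332982016), (nat_lit 55, nat_lit 17332977921), (nat_lit 73, nat_lit 18406719744)]⟩,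
   ⟨V6_10890526977, [(nat_lit 90, nat_lit 14112022785), (nat_lit 18, nat_lit 15185760513), (nat_lit 51, nat_lit 15185502465), (nat_lit 46, nat_lit 16259498241), (nat_lit 82, nat_lit 16259240193), (nat_lit 76, nat_lit 17332977921)]⟩,
   ⟨V6_9817055424, [(nat_lit 90, nat_lit 14112022785), (nat_lit 110, nat_lit 15185764608), (nat_lit 32, nat_lit 15185764545), (nat_lit 69, nat_lit 16259506368)]⟩,
   ⟨V6_9817051329, [(nat_lit 36, nat_lit 14112022785), (nat_lit 39, nat_lit 15185764545), (nat_lit 20, nat_lit 15185760513), (nat_lit 72, nat_lit 16259502273)]⟩,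
   ⟨V6_9816793344, [(nat_lit 89, nat_lit 14112022785), (nat_lit 66, nat_lit 15185764608), (nat_lit 124, nat_lit 15185502465), (nat_lit 99, nat_lit 16259244288)]⟩],
  [W_14111236160, W_14111232128, W_13038272576, W_13037494400]⟩
theorem C_14112022785 : chkRec R_14112022785 = true := by decide +kernel

noncomputable def R_14112022848 : Rec := ⟨nat_lit 14112022848, nat_lit 10,
  [⟨V6_14112018432, [(nat_lit 46, nat_lit 14112022848), (nat_lit 99, nat_lit 15185764608), (nat_lit 73, nat_lit 15185760576), (nat_lit 77, nat_lit 16259506368), (nat_lit 88, nat_lit 16259502336), (nat_lit 35, nat_lit 17333248128), (nat_lit 77, nat_lit 17333244096), (nat_lit 98, nat_lit 18406989888), (nat_lit 122, nat_lit 18406985856), (nat_lit 17, nat_lit 19480731648), (nat_lit 123, nat_lit 19480727616), (nat_lit 92, nat_lit 20554469376)]⟩,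
   ⟨V6_9816793344, [(nat_lit 45, nat_lit 14112022848), (nat_lit 16, nat_lit 15185764608), (nat_lit 112, nat_lit 15185502528), (nat_lit 107, nat_lit 16259244288)]⟩],
  [W_14111236160, W_14111232128, W_13037494400, W_9816527168]⟩
theorem C_14112022848 : chkRec R_14112022848 = true := by decide +kernel

noncomputable def R_14112026754 : Rec := ⟨nat_lit 14112026754, nat_lit 3,
  [⟨V6_14111744130, [(nat_lit 95, nat_lit 14112026754), (nat_lit 96, nat_lit 15185764482), (nat_lit 55, nat_lit 15185506434), (nat_lit 100, nat_lit 16259502210), (nat_lit 116, nat_lit 16259244162), (nat_lit 96, nat_lit 17333239938), (nat_lit 16, nat_lit 17332981890), (nat_lit 51, nat_lit 18406977666), (nat_lit 16, nat_lit 18406719618), (nat_lit 94, nat_lit 19480715394), (nat_lit 16, nat_lit 19480457346), (nat_lit 99, nat_lit 20554195074)]⟩,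
   ⟨V6_9817051266, [(nat_lit 5, nat_lit 14112026754), (nat_lit 122, nat_lit 15185764482), (nat_lit 36, nat_lit 16259502210)]⟩],
  [W_13038268544, W_11964014720, W_10890535040]⟩
theorem C_14112026754 : chkRec R_14112026754 = true := by decide +kernel

noncomputable def R_14112026817 : Rec := ⟨nat_lit 14112026817, nat_lit 9,
  [⟨V6_13038268608, [(nat_lit 93, nat_lit 14112026817), (nat_lit 1, nat_lit 15185768640), (nat_lit 97, nat_lit 15185764545), (nat_lit 29, nat_lit 16259506368), (nat_lit 113, nat_lit 16259502273), (nat_lit 123, nat_lit 17333244096), (nat_lit 42, nat_lit 17333240001), (nat_lit 45, nat_lit 18406981824), (nat_lit 46, nat_lit 18406977729), (nat_lit 40, nat_lit 19480719552)]⟩],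
  [W_14112010304, W_14111748224, W_11964534848, W_11964018752, W_11964014720]⟩
theorem C_14112026817 : chkRec R_14112026817 = true := by decide +kernel

noncomputable def R_14112026880 : Rec := ⟨nat_lit 14112026880, nat_lit 9,
  [⟨V6_14111502336, [(nat_lit 96, nat_lit 14112026880), (nat_lit 33, nat_lit 15185768640), (nat_lit 55, nat_lit 15185506560), (nat_lit 86, nat_lit 16259510400), (nat_lit 68, nat_lit 16259248320), (nat_lit 116, nat_lit 16258986240), (nat_lit 124, nat_lit 17333252160), (nat_lit 46, nat_lit 17332990080), (nat_lit 76, nat_lit 17332728000), (nat_lit 17, nat_lit 18406993920), (nat_lit 23, nat_lit 18406731840), (nat_lit 64, nat_lit 18406469760), (nat_lit 24, nat_lit 19480473600), (nat_lit 95, nat_lit 19480211520), (nat_lit 70, nat_lit 20553953280)]⟩,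
   ⟨V6_9817055424, [(nat_lit 22, nat_lit 14112026880), (nat_lit 3, nat_lit 15185768640), (nat_lit 18, nat_lit 15185764608), (nat_lit 125, nat_lit 16259506368)]⟩],
  [W_14112014336, W_14111494208, W_13038272576, W_11964534848]⟩
theorem C_14112026880 : chkRec R_14112026880 = true := by decide +kernel

noncomputable def R_14112030849 : Rec := ⟨nat_lit 14112030849, nat_lit 4,
  [⟨V6_14112006273, [(nat_lit 31, nat_lit 14112030849), (nat_lit 4, nat_lit 15185768577), (nat_lit 118, nat_lit 16259506305), (nat_lit 34, nat_lit 17333244033), (nat_lit 56, nat_lit 18406981761), (nat_lit 120, nat_lit 19480719489), (nat_lit 54, nat_lit 20554457217)]⟩,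
   ⟨V6_10890539073, [(nat_lit 29, nat_lit 14112030849), (nat_lit 56, nat_lit 15185772609), (nat_lit 17, nat_lit 15185768577), (nat_lit 70, nat_lit 15185510529), (nat_lit 43, nat_lit 16259510337), (nat_lit 23, nat_lit 16259252289), (nat_lit 8, nat_lit 16259248257), (nat_lit 81, nat_lit 17332990017)]⟩],
  [W_14112010304, W_11964534848]⟩
theorem C_14112030849 : chkRec R_14112030849 = true := by decide +kernel

noncomputable def R_14112030912 : Rec := ⟨nat_lit 14112030912, nat_lit 7,
  [⟨V6_13038268608, [(nat_lit 73, nat_lit 14112030912), (nat_lit 83, nat_lit 15185768640), (nat_lit 45, nat_lit 16259506368), (nat_lit 44, nat_lit 17333244096), (nat_lit 24, nat_lit 18406981824), (nat_lit 78, nat_lit 19480719552)]⟩],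
  [W_14112014336, W_14112010304, W_11964534848, W_11964280832]⟩
theorem C_14112030912 : chkRec R_14112030912 = true := by decide +kernel

noncomputable def R_14112034881 : Rec := ⟨nat_lit 14112034881, nat_lit 1,
  [⟨V6_10890801216, [(nat_lit 23, nat_lit 14112034881), (nat_lit 76, nat_lit 15185776704), (nat_lit 89, nat_lit 15185772609), (nat_lit 99, nat_lit 16259514432), (nat_lit 18, nat_lit 16259510337), (nat_lit 104, nat_lit 17333252160)]⟩],
  [W_14112010304]⟩
theorem C_14112034881 : chkRec R_14112034881 = true := by decide +kernel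

noncomputable def R_14112034944 : Rec := ⟨nat_lit 14112034944, nat_lit 1,
  [⟨V6_10890801216, [(nat_lit 98, nat_lit 14112034944), (nat_lit 56, nat_lit 15185776704), (nat_lit 112, nat_lit 15185772672), (nat_lit 63, nat_lit 16259514432), (nat_lit 35, nat_lit 16259510400), (nat_lit 96, nat_lit 17333252160)]⟩],
  [W_13038268544]⟩
theorem C_14112034944 : chkRec R_14112034944 = true := by decide +kernel

noncomputable def R_14128009476 : Rec := ⟨nat_lit 14128009476, nat_lit 1,
  [⟨V6_10873225476, [(nat_lit 122, nat_lit 14128009476), (nat_lit 81, nat_lit 15201747204), (nat_lit 93, nat_lit 15184974084), (nat_lit 13, nat_lit 16258711812), (nat_lit 56, nat_lit 16241938692), (nat_lit 99, nat_lit 17315676420)]⟩],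
  [W_13054001408]⟩
theorem C_14128009476 : chkRec R_14128009476 = true := by decide +kernel

noncomputable def R_14128009539 : Rec := ⟨nat_lit 14128009539, nat_lit 1,
  [⟨V6_10890006849, [(nat_lit 63, nat_lit 14128009539), (nat_lit 18, nat_lit 15201751362), (nat_lit 59, nat_lit 15184974147), (nat_lit 74, nat_lit 16275493185), (nat_lit 30, nat_lit 16258715970), (nat_lit 94, nat_lit 17332457793)]⟩],
  [W_14110970048]⟩
theorem C_14128009539 : chkRec R_14128009539 = true := by decide +kernel

noncomputable def R_14128013571 : Rec := ⟨nat_lit 14128013571, nat_lit 5,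
  [⟨V6_12987162882, [(nat_lit 26, nat_lit 14128013571), (nat_lit 75, nat_lit 15201755394), (nat_lit 52, nat_lit 15184978179), (nat_lit 56, nat_lit 16258720002), (nat_lit 19, nat_lit 16241942787), (nat_lit 93, nat_lit 17315684610), (nat_lit 39, nat_lit 17298907395), (nat_lit 118, nat_lit 18372649218), (nat_lit 90, nat_lit 18355872003), (nat_lit 11, nat_lit 19429613826)]⟩,
   ⟨V6_11930198274, [(nat_lit 115, nat_lit 14128013571), (nat_lit 111, nat_lit 15201755394), (nat_lit 115, nat_lit 15184978179), (nat_lit 77, nat_lit 16258720002), (nat_lit 32, nat_lit 16241942787), (nat_lit 56, nat_lit 17315684610), (nat_lit 49, nat_lit 17298907395), (nat_lit 115, nat_lit 18372649218)]⟩],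
  [W_14094450944, W_13054263488]⟩
theorem C_14128013571 : chkRec R_14128013571 = true := by decide +kernel

noncomputable def R_14128013634 : Rec := ⟨nat_lit 14128013634, nat_lit 6,
  [⟨V6_14060904768, [(nat_lit 95, nat_lit 14128013634), (nat_lit 80, nat_lit 15201755457), (nat_lit 111, nat_lit 15184978242), (nat_lit 52, nat_lit 16275497280), (nat_lit 106, nat_lit 16258720065), (nat_lit 116, nat_lit 16241942850), (nat_lit 122, nat_lit 17332461888), (nat_lit 67, nat_lit 17315684673), (nat_lit 91, nat_lit 17298907458), (nat_lit 71, nat_lit 18389426496), (nat_lit 63, nat_lit 18372649281), (nat_lit 89, nat_lit 18355872066), (nat_lit 25, nat_lit 19446391104), (nat_lit 84, nat_lit 19429613889), (nat_lit 14, nat_lit 20503355712)]⟩,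
   ⟨V6_11913421122, [(nat_lit 96, nat_lit 14128013634), (nat_lit 75, nat_lit 15184978242), (nat_lit 39, nat_lit 16241942850), (nat_lit 94, nat_lit 17298907458), (nat_lit 25, nat_lit 18355872066)]⟩,
   ⟨V6_10873233729, [(nat_lit 7, nat_lit 14128013634), (nat_lit 69, nat_lit 15201755457), (nat_lit 52, nat_lit 15184978242), (nat_lit 23, nat_lit 16258720065), (nat_lit 106, nat_lit 16241942850), (nat_lit 36, nat_lit 17315684673)]⟩],
  [W_14111232128, W_13054267520]⟩
theorem C_14128013634 : chkRec R_14128013634 = true := by decide +kernel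

noncomputable def R_14128013697 : Rec := ⟨nat_lit 14128013697, nat_lit 6,
  [⟨V6_11930198400, [(nat_lit 19, nat_lit 14128013697), (nat_lit 79, nat_lit 15201755520), (nat_lit 79, nat_lit 15184978305), (nat_lit 37, nat_lit 16258720128), (nat_lit 26, nat_lit 16241942913), (nat_lit 26, nat_lit 17315684736), (nat_lit 115, nat_lit 17298907521), (nat_lit 26, nat_lit 18372649344)]⟩,
   ⟨V6_10873233792, [(nat_lit 58, nat_lit 14128013697), (nat_lit 91, nat_lit 15201755520), (nat_lit 18, nat_lit 15184978305), (nat_lit 41, nat_lit 16258720128), (nat_lit 92, nat_lit 16241942913), (nat_lit 108, nat_lit 17315684736)]⟩,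
   ⟨V6_10873233729, [(nat_lit 22, nat_lit 14128013697), (nat_lit 50, nat_lit 15201755457), (nat_lit 48, nat_lit 15184978305), (nat_lit 19, nat_lit 16258720065), (nat_lit 33, nat_lit 16241942913), (nat_lit 47, nat_lit 17315684673)]⟩],
  [W_14111236160, W_13054271552]⟩
theorem C_14128013697 : chkRec R_14128013697 = true := by decide +kernel

noncomputable def R_14128267524 : Rec := ⟨nat_lit 14128267524, nat_lit 2,
  [⟨V6_10907042049, [(nat_lit 76, nat_lit 14128267524), (nat_lit 36, nat_lit 15202009347), (nat_lit 100, nat_lit 16275751170), (nat_lit 104, nat_lit 17349492993)]⟩],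
  [W_14094450944]⟩
theorem C_14128267524 : chkRec R_14128267524 = true := by decide +kernel

noncomputable def R_14128271619 : Rec := ⟨nat_lit 14128271619, nat_lit 5,
  [⟨V6_10907042049, [(nat_lit 64, nat_lit 14128271619), (nat_lit 55, nat_lit 15202013442), (nat_lit 63, nat_lit 15202009347), (nat_lit 28, nat_lit 16275755265), (nat_lit 26, nat_lit 16275751170), (nat_lit 110, nat_lit 17349492993)]⟩,
   ⟨V6_10907041986, [(nat_lit 86, nat_lit 14128271619), (nat_lit 79, nat_lit 15202013442), (nat_lit 90, nat_lit 15202013379), (nat_lit 83, nat_lit 15202009347), (nat_lit 125, nat_lit 16275755202), (nat_lit 64, nat_lit 16275751170), (nat_lit 104, nat_lit 16275751107), (nat_lit 60, nat_lit 17349492930)]⟩],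
  [W_14094454976, W_14094450944, W_14077939904]⟩
theorem C_14128271619 : chkRec R_14128271619 = true := by decide +kernel

noncomputable def R_14128271682 : Rec := ⟨nat_lit 14128271682, nat_lit 4,
  [⟨V6_13004198082, [(nat_lit 72, nat_lit 14128271682), (nat_lit 2, nat_lit 15202013442), (nat_lit 92, nat_lit 15185236290), (nat_lit 72, nat_lit 16275755202), (nat_lit 68, nat_lit 16258978050), (nat_lit 30, nat_lit 16242200898), (nat_lit 91, nat_lit 17332719810), (nat_lit 4, nat_lit 17315942658), (nat_lit 57, nat_lit 17299165506), (nat_lit 32, nat_lit 18389684418), (nat_lit 92, nat_lit 18372907266), (nat_lit 74, nat_lit 19446649026)]⟩,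
   ⟨V6_10907046018, [(nat_lit 66, nat_lit 14128271682), (nat_lit 29, nat_lit 15202013442), (nat_lit 70, nat_lit 16275755202), (nat_lit 124, nat_lit 17349496962)]⟩,
   ⟨V6_10890006849, [(nat_lit 13, nat_lit 14128271682), (nat_lit 90, nat_lit 15202013505), (nat_lit 109, nat_lit 15201751362), (nat_lit 15, nat_lit 15185236290), (nat_lit 66, nat_lit 16275493185), (nat_lit 114, nat_lit 16258978113), (nat_lit 56, nat_lit 16258715970), (nat_lit 57, nat_lit 17332457793)]⟩],
  [W_14110970048, W_13054267520]⟩
theorem C_14128271682 : chkRec R_14128271682 = true := by decide +kernel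

noncomputable def R_14128275651 : Rec := ⟨nat_lit 14128275651, nat_lit 6,
  [⟨V6_13003940034, [(nat_lit 24, nat_lit 14128275651), (nat_lit 10, nat_lit 15202017474), (nat_lit 37, nat_lit 15201755331), (nat_lit 45, nat_lit 15185240259), (nat_lit 53, nat_lit 16275497154), (nat_lit 7, nat_lit 16258982082), (nat_lit 74, nat_lit 16258719939), (nat_lit 83, nat_lit 16242204867), (nat_lit 109, nat_lit 17332461762), (nat_lit 95, nat_lit 17315946690), (nat_lit 71, nat_lit 17315684547), (nat_lit 86, nat_lit 17299169475), (nat_lit 20, nat_lit 18389426370), (nat_lit 31, nat_lit 18372911298), (nat_lit 119, nat_lit 18372649155), (nat_lit 80, nat_lit 19446390978)]⟩,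
   ⟨V6_10907041986, [(nat_lit 44, nat_lit 14128275651), (nat_lit 31, nat_lit 15202017474), (nat_lit 9, nat_lit 15202013379), (nat_lit 95, nat_lit 16275755202), (nat_lit 28, nat_lit 16275751107), (nat_lit 113, nat_lit 17349492930)]⟩,
   ⟨V6_10907037891, [(nat_lit 120, nat_lit 14128275651), (nat_lit 48, nat_lit 15202013379), (nat_lit 95, nat_lit 16275751107), (nat_lit 66, nat_lit 17349488835)]⟩],
  [W_14128001216, W_14111486144, W_13054521536, W_10906788032]⟩
theorem C_14128275651 : chkRec R_14128275651 = true := by decide +kernel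

noncomputable def R_14128275714 : Rec := ⟨nat_lit 14128275714, nat_lit 14,
  [⟨V6_14077944000, [(nat_lit 102, nat_lit 14128275714), (nat_lit 31, nat_lit 15202017537), (nat_lit 52, nat_lit 15202017474), (nat_lit 106, nat_lit 15185240322), (nat_lit 75, nat_lit 16275759360), (nat_lit 57, nat_lit 16275759297), (nat_lit 21, nat_lit 16258982145), (nat_lit 14, nat_lit 16258982082), (nat_lit 11, nat_lit 16242204930), (nat_lit 16, nat_lit 17349501120), (nat_lit 110, nat_lit 17332723968), (nat_lit 16, nat_lit 17332723905), (nat_lit 45, nat_lit 17315946753), (nat_lit 92, nat_lit 17315946690), (nat_lit 75, nat_lit 17299169538), (nat_lit 39, nat_lit 18406465728), (nat_lit 35, nat_lit 18389688576), (nat_lit 2, nat_lit 18389688513), (nat_lit 100, nat_lit 18372911361), (nat_lit 14, nat_lit 18372911298), (nat_lit 28, nat_lit 19463430336), (nat_lit 109, nat_lit 19446653184), (nat_lit 21, nat_lit 19446653121), (nat_lit 125, nat_lit 20520394944)]⟩,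
   ⟨V6_13004198082, [(nat_lit 50, nat_lit 14128275714), (nat_lit 114, nat_lit 15202017474), (nat_lit 42, nat_lit 15202013442), (nat_lit 95, nat_lit 15185240322), (nat_lit 109, nat_lit 16275755202), (nat_lit 45, nat_lit 16258982082), (nat_lit 77, nat_lit 16258978050), (nat_lit 105, nat_lit 16242204930), (nat_lit 92, nat_lit 17332719810), (nat_lit 104, nat_lit 17315946690), (nat_lit 31, nat_lit 17315942658), (nat_lit 55, nat_lit 17299169538), (nat_lit 118, nat_lit 18389684418), (nat_lit 105, nat_lit 18372911298), (nat_lit 2, nat_lit 18372907266), (nat_lit 88, nat_lit 19446649026)]⟩,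
   ⟨V6_10907046018, [(nat_lit 10, nat_lit 14128275714), (nat_lit 57, nat_lit 15202017474), (nat_lit 101, nat_lit 15202013442), (nat_lit 51, nat_lit 16275759234), (nat_lit 46, nat_lit 16275755202), (nat_lit 39, nat_lit 17349496962)]⟩,
   ⟨V6_10907042049, [(nat_lit 4, nat_lit 14128275714), (nat_lit 115, nat_lit 15202017537), (nat_lit 21, nat_lit 15202013442), (nat_lit 113, nat_lit 16275755265), (nat_lit 17, nat_lit 16275751170), (nat_lit 27, nat_lit 17349492993)]⟩,
   ⟨V6_10907041986, [(nat_lit 87, nat_lit 14128275714), (nat_lit 70, nat_lit 15202017474), (nat_lit 14, nat_lit 15202013442), (nat_lit 28, nat_lit 16275755202), (nat_lit 120, nat_lit 16275751170), (nat_lit 66, nat_lit 17349492930)]⟩],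
  [W_14094450944, W_13054525568, W_13054267520, W_13037494400, W_10907042048]⟩
theorem C_14128275714 : chkRec R_14128275714 = true := by decide +kernel

noncomputable def R_14128275777 : Rec := ⟨nat_lit 14128275777, nat_lit 13,
  [⟨V6_14128013376, [(nat_lit 101, nat_lit 14128275777), (nat_lit 116, nat_lit 15202017600), (nat_lit 61, nat_lit 15202017537), (nat_lit 20, nat_lit 15201755457), (nat_lit 126, nat_lit 16275759360), (nat_lit 101, nat_lit 16275759297), (nat_lit 22, nat_lit 16275497280), (nat_lit 103, nat_lit 16275497217), (nat_lit 16, nat_lit 17349501120), (nat_lit 7, nat_lit 17349501057), (nat_lit 36, nat_lit 17349239040), (nat_lit 121, nat_lit 17349238977), (nat_lit 44, nat_lit 18423242880), (nat_lit 111, nat_lit 18423242817), (nat_lit 35, nat_lit 18422980800), (nat_lit 72, nat_lit 18422980737), (nat_lit 5, nat_lit 19496984640), (nat_lit 99, nat_lit 19496722560), (nat_lit 86, nat_lit 19496722497), (nat_lit 73, nat_lit 20570464320)]⟩],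
  [W_14128009280, W_14094721088, W_13037494400, W_11963748608, W_10906788032, W_10873233728]⟩
theorem C_14128275777 : chkRec R_14128275777 = true := by decide +kernel

noncomputable def R_14128275840 : Rec := ⟨nat_lit 14128275840, nat_lit 10,
  [⟨V6_14128013376, [(nat_lit 92, nat_lit 14128275840), (nat_lit 114, nat_lit 15202017600), (nat_lit 3, nat_lit 15201755520), (nat_lit 18, nat_lit 16275759360), (nat_lit 77, nat_lit 16275497280), (nat_lit 110, nat_lit 17349501120), (nat_lit 25, nat_lit 17349239040), (nat_lit 56, nat_lit 18423242880), (nat_lit 88, nat_lit 18422980800), (nat_lit 118, nat_lit 19496984640), (nat_lit 41, nat_lit 19496722560), (nat_lit 28, nat_lit 20570464320)]⟩],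
  [W_14128013312, W_14094721088, W_10906788032, W_10873233728]⟩
theorem C_14128275840 : chkRec R_14128275840 = true := by decide +kernel

noncomputable def R_14128279746 : Rec := ⟨nat_lit 14128279746, nat_lit 6,
  [⟨V6_13004198082, [(nat_lit 118, nat_lit 14128279746), (nat_lit 21, nat_lit 15202017474), (nat_lit 43, nat_lit 15185244354), (nat_lit 39, nat_lit 16275755202), (nat_lit 56, nat_lit 16258982082), (nat_lit 84, nat_lit 16242208962), (nat_lit 9, nat_lit 17332719810), (nat_lit 8, nat_lit 17315946690), (nat_lit 9, nat_lit 17299173570), (nat_lit 117, nat_lit 18389684418), (nat_lit 69, nat_lit 18372911298), (nat_lit 35, nat_lit 19446649026)]⟩,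
   ⟨V6_10907046018, [(nat_lit 125, nat_lit 14128279746), (nat_lit 72, nat_lit 15202021506), (nat_lit 74, nat_lit 15202017474), (nat_lit 19, nat_lit 16275759234), (nat_lit 112, nat_lit 16275755202), (nat_lit 92, nat_lit 17349496962)]⟩,
   ⟨V6_10907041986, [(nat_lit 27, nat_lit 14128279746), (nat_lit 53, nat_lit 15202017474), (nat_lit 24, nat_lit 16275755202), (nat_lit 37, nat_lit 17349492930)]⟩,
   ⟨V6_10873499841, [(nat_lit 74, nat_lit 14128279746), (nat_lit 40, nat_lit 15202021569), (nat_lit 78, nat_lit 15185244354), (nat_lit 98, nat_lit 16258986177), (nat_lit 32, nat_lit 16242208962), (nat_lit 54, nat_lit 17315950785)]⟩],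
  [W_14128263296, W_14111486144, W_10907050112]⟩
theorem C_14128279746 : chkRec R_14128279746 = true := by decide +kernel

noncomputable def R_14128279809 : Rec := ⟨nat_lit 14128279809, nat_lit 10,
  [⟨V6_14077939968, [(nat_lit 48, nat_lit 14128279809), (nat_lit 52, nat_lit 15202021632), (nat_lit 17, nat_lit 15202017537), (nat_lit 119, nat_lit 15185244417), (nat_lit 98, nat_lit 16275759360), (nat_lit 83, nat_lit 16275755265), (nat_lit 19, nat_lit 16258986240), (nat_lit 102, nat_lit 16258982145), (nat_lit 32, nat_lit 16242209025), (nat_lit 76, nat_lit 17349497088), (nat_lit 20, nat_lit 17332723968), (nat_lit 26, nat_lit 17332719873), (nat_lit 78, nat_lit 17315950848), (nat_lit 22, nat_lit 17315946753), (nat_lit 51, nat_lit 17299173633), (nat_lit 110, nat_lit 18406461696), (nat_lit 121, nat_lit 18389688576), (nat_lit 82, nat_lit 18389684481), (nat_lit 68, nat_lit 18372915456), (nat_lit 96, nat_lit 18372911361), (nat_lit 45, nat_lit 19463426304), (nat_lit 126, nat_lit 19446653184), (nat_lit 33, nat_lit 19446649089), (nat_lit 8, nat_lit 20520390912)]⟩,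
   ⟨V6_13020983361, [(nat_lit 51, nat_lit 14128279809), (nat_lit 25, nat_lit 15202021569), (nat_lit 20, nat_lit 15185244417), (nat_lit 25, nat_lit 16275763329), (nat_lit 23, nat_lit 16258986177), (nat_lit 12, nat_lit 16242209025), (nat_lit 33, nat_lit 17349505089), (nat_lit 63, nat_lit 17332727937), (nat_lit 37, nat_lit 17315950785), (nat_lit 117, nat_lit 18406469697), (nat_lit 110, nat_lit 18389692545), (nat_lit 35, nat_lit 19463434305)]⟩,
   ⟨V6_10907042049, [(nat_lit 67, nat_lit 14128279809), (nat_lit 108, nat_lit 15202017537), (nat_lit 116, nat_lit 16275755265), (nat_lit 73, nat_lit 17349492993)]⟩],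
  [W_14128267328, W_11980791872, W_10907050112, W_10907042048]⟩
theorem C_14128279809 : chkRec R_14128279809 = true := by decide +kernel

noncomputable def R_14128279872 : Rec := ⟨nat_lit 14128279872, nat_lit 8,
  [⟨V6_14111502336, [(nat_lit 15, nat_lit 14128279872), (nat_lit 42, nat_lit 15202021632), (nat_lit 44, nat_lit 15185244480), (nat_lit 100, nat_lit 16275763392), (nat_lit 80, nat_lit 16258986240), (nat_lit 43, nat_lit 17349505152), (nat_lit 84, nat_lit 17332728000), (nat_lit 56, nat_lit 18423246912), (nat_lit 125, nat_lit 18406469760), (nat_lit 76, nat_lit 19496988672), (nat_lit 110, nat_lit 19480211520), (nat_lit 1, nat_lit 20553953280)]⟩],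
  [W_14111494208, W_10907050112, W_10890272960]⟩
theorem C_14128279872 : chkRec R_14128279872 = true := by decide +kernel

noncomputable def R_14128529667 : Rec := ⟨nat_lit 14128529667, nat_lit 5,
  [⟨V6_10907304192, [(nat_lit 49, nat_lit 14128529667), (nat_lit 112, nat_lit 15202271490), (nat_lit 4, nat_lit 16276013313), (nat_lit 46, nat_lit 17349755136)]⟩],
  [W_14127743168, W_14094450944, W_13020971264]⟩
theorem C_14128529667 : chkRec R_14128529667 = true := by decide +kernel

noncomputable def R_14128533699 : Rec := ⟨nat_lit 14128533699, nat_lit 6,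
  [⟨V6_11947491522, [(nat_lit 120, nat_lit 14128533699), (nat_lit 8, nat_lit 15202275522), (nat_lit 92, nat_lit 15202271427), (nat_lit 37, nat_lit 15185498307), (nat_lit 85, nat_lit 16276013250), (nat_lit 13, nat_lit 16259240130), (nat_lit 1, nat_lit 16259236035), (nat_lit 13, nat_lit 16242462915), (nat_lit 99, nat_lit 17332977858), (nat_lit 44, nat_lit 17316204738), (nat_lit 100, nat_lit 17316200643), (nat_lit 94, nat_lit 18389942466)]⟩,
   ⟨V6_10907041986, [(nat_lit 123, nat_lit 14128533699), (nat_lit 125, nat_lit 15202275522), (nat_lit 66, nat_lit 15202271427), (nat_lit 106, nat_lit 15202013379), (nat_lit 86, nat_lit 16276013250), (nat_lit 74, nat_lit 16275755202), (nat_lit 14, nat_lit 16275751107), (nat_lit 1, nat_lit 17349492930)]⟩,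
   ⟨V6_10907037891, [(nat_lit 107, nat_lit 14128533699), (nat_lit 20, nat_lit 15202271427), (nat_lit 15, nat_lit 15202013379), (nat_lit 14, nat_lit 16276009155), (nat_lit 111, nat_lit 16275751107), (nat_lit 73, nat_lit 17349488835)]⟩,
   ⟨V6_10873753794, [(nat_lit 74, nat_lit 14128533699), (nat_lit 122, nat_lit 15202275522), (nat_lit 67, nat_lit 15185498307), (nat_lit 53, nat_lit 16259240130), (nat_lit 11, nat_lit 16242462915), (nat_lit 9, nat_lit 17316204738)]⟩],
  [W_14128001216, W_14111486144, W_14110970048, W_11981041856]⟩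
theorem C_14128533699 : chkRec R_14128533699 = true := by decide +kernel

noncomputable def R_14128533762 : Rec := ⟨nat_lit 14128533762, nat_lit 15,
  [⟨V6_10907308161, [(nat_lit 44, nat_lit 14128533762), (nat_lit 61, nat_lit 15202275585), (nat_lit 19, nat_lit 15202275522), (nat_lit 87, nat_lit 16276017345), (nat_lit 34, nat_lit 16276017282), (nat_lit 114, nat_lit 17349759105)]⟩,
   ⟨V6_10907304192, [(nat_lit 91, nat_lit 14128533762), (nat_lit 56, nat_lit 15202275585), (nat_lit 59, nat_lit 15202271490), (nat_lit 43, nat_lit 16276017408), (nat_lit 2, nat_lit 16276013313), (nat_lit 84, nat_lit 17349755136)]⟩,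
   ⟨V6_10907304066, [(nat_lit 96, nat_lit 14128533762), (nat_lit 4, nat_lit 15202275522), (nat_lit 126, nat_lit 15202271490), (nat_lit 47, nat_lit 16276017282), (nat_lit 7, nat_lit 16276013250), (nat_lit 33, nat_lit 17349755010)]⟩,
   ⟨V6_10907046018, [(nat_lit 95, nat_lit 14128533762), (nat_lit 26, nat_lit 15202275522), (nat_lit 106, nat_lit 15202013442), (nat_lit 39, nat_lit 16276017282), (nat_lit 62, nat_lit 16275755202), (nat_lit 87, nat_lit 17349496962)]⟩],
  [W_14127747200, W_14127743168, W_14111232128, W_14110970048, W_14094454976, W_14094450944, W_13021237376]⟩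
theorem C_14128533762 : chkRec R_14128533762 = true := by decide +kernel

noncomputable def R_14128533825 : Rec := ⟨nat_lit 14128533825, nat_lit 10,
  [⟨V6_14094979137, [(nat_lit 32, nat_lit 14128533825), (nat_lit 97, nat_lit 15202275585), (nat_lit 101, nat_lit 15185498433), (nat_lit 96, nat_lit 16276017345), (nat_lit 55, nat_lit 16259240193), (nat_lit 14, nat_lit 16242463041), (nat_lit 108, nat_lit 17349759105), (nat_lit 25, nat_lit 17332981953), (nat_lit 64, nat_lit 17316204801), (nat_lit 120, nat_lit 18423500865), (nat_lit 115, nat_lit 18406723713), (nat_lit 121, nat_lit 18389946561), (nat_lit 43, nat_lit 19480465473), (nat_lit 40, nat_lit 19463688321), (nat_lit 16, nat_lit 20537430081)]⟩,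
   ⟨V6_10873753857, [(nat_lit 78, nat_lit 14128533825), (nat_lit 23, nat_lit 15202275585), (nat_lit 3, nat_lit 15185498433), (nat_lit 4, nat_lit 16259240193), (nat_lit 72, nat_lit 16242463041), (nat_lit 98, nat_lit 17316204801)]⟩],
  [W_14110970048, W_14094979136, W_14094454976, W_13021237376]⟩
theorem C_14128533825 : chkRec R_14128533825 = true := by decide +kernel

noncomputable def R_14128537794 : Rec := ⟨nat_lit 14128537794, nat_lit 20,
  [⟨V6_10907312256, [(nat_lit 70, nat_lit 14128537794), (nat_lit 66, nat_lit 15202279617), (nat_lit 109, nat_lit 15202279554), (nat_lit 124, nat_lit 16276021440), (nat_lit 108, nat_lit 16276021377), (nat_lit 32, nat_lit 17349763200)]⟩,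
   ⟨V6_10907308161, [(nat_lit 34, nat_lit 14128537794), (nat_lit 95, nat_lit 15202279617), (nat_lit 118, nat_lit 15202279554), (nat_lit 56, nat_lit 15202275522), (nat_lit 86, nat_lit 16276021377), (nat_lit 19, nat_lit 16276017345), (nat_lit 32, nat_lit 16276017282), (nat_lit 81, nat_lit 17349759105)]⟩,
   ⟨V6_10907304066, [(nat_lit 22, nat_lit 14128537794), (nat_lit 102, nat_lit 15202279554), (nat_lit 92, nat_lit 15202275522), (nat_lit 104, nat_lit 16276017282), (nat_lit 72, nat_lit 16276013250), (nat_lit 75, nat_lit 17349755010)]⟩,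
   ⟨V6_10907041986, [(nat_lit 94, nat_lit 14128537794), (nat_lit 28, nat_lit 15202275522), (nat_lit 91, nat_lit 15202017474), (nat_lit 120, nat_lit 16276013250), (nat_lit 69, nat_lit 16275755202), (nat_lit 7, nat_lit 17349492930)]⟩],
  [W_14128001216, W_14111748224, W_14111486144, W_14111232128, W_14094459008, W_13037494400, W_13020979328]⟩
theorem C_14128537794 : chkRec R_14128537794 = true := by decide +kernel

noncomputable def R_14128537857 : Rec := ⟨nat_lit 14128537857, nat_lit 32,
  [⟨V6_14128013376, [(nat_lit 96, nat_lit 14128537857), (nat_lit 75, nat_lit 15202279680), (nat_lit 13, nat_lit 15202279617), (nat_lit 53, nat_lit 15202017537), (nat_lit 32, nat_lit 16276021440), (nat_lit 59, nat_lit 16276021377), (nat_lit 67, nat_lit 16275759360), (nat_lit 16, nat_lit 16275759297), (nat_lit 13, nat_lit 16275497217), (nat_lit 95, nat_lit 17349763200), (nat_lit 12, nat_lit 17349763137), (nat_lit 31, nat_lit 17349501120), (nat_lit 9, nat_lit 17349501057), (nat_lit 48, nat_lit 17349239040), (nat_lit 60, nat_lit 17349238977), (nat_lit 15, nat_lit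 18423504960), (nat_lit 98, nat_lit 18423242880), (nat_lit 24, nat_lit 18423242817), (nat_lit 80, nat_lit 18422980800), (nat_lit 71, nat_lit 18422980737), (nat_lit 38, nat_lit 19496984640), (nat_lit 43, nat_lit 19496722560), (nat_lit 31, nat_lit 19496722497), (nat_lit 62, nat_lit 20570464320)]⟩,
   ⟨V6_10873753857, [(nat_lit 68, nat_lit 14128537857), (nat_lit 102, nat_lit 15202275585), (nat_lit 36, nat_lit 15185502465), (nat_lit 12, nat_lit 16259240193), (nat_lit 69, nat_lit 16242467073), (nat_lit 61, nat_lit 17316204801)]⟩],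
  [W_14128267328, W_14128009280, W_14111490176, W_14111236160, W_14094979136, W_14094450944, W_13037494400, W_13021237376, W_10907042048]⟩
theorem C_14128537857 : chkRec R_14128537857 = true := by decide +kernel

noncomputable def R_14128537920 : Rec := ⟨nat_lit 14128537920, nat_lit 28,
  [⟨V6_14128013376, [(nat_lit 74, nat_lit 14128537920), (nat_lit 8, nat_lit 15202279680), (nat_lit 59, nat_lit 15202017600), (nat_lit 47, nat_lit 16276021440), (nat_lit 69, nat_lit 16275759360), (nat_lit 4, nat_lit 16275497280), (nat_lit 92, nat_lit 17349763200), (nat_lit 16, nat_lit 17349501120), (nat_lit 39, nat_lit 17349239040), (nat_lit 89, nat_lit 18423504960), (nat_lit 68, nat_lit 18423242880), (nat_lit 72, nat_lit 18422980800), (nat_lit 6, nat_lit 19496984640), (nat_lit 68, nat_lit 19496722560), (nat_lit 22, nat_lit 20570464320)]⟩],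
  [W_14128013312, W_14128009280, W_14094983168, W_14094979136, W_14094721088, W_13021237376, W_10906788032, W_10873233728]⟩
theorem C_14128537920 : chkRec R_14128537920 = true := by decide +kernel

noncomputable def R_14128541826 : Rec := ⟨nat_lit 14128541826, nat_lit 10,
  [⟨V6_10907312256, [(nat_lit 24, nat_lit 14128541826), (nat_lit 87, nat_lit 15202283649), (nat_lit 123, nat_lit 15202279554), (nat_lit 63, nat_lit 16276025472), (nat_lit 95, nat_lit 16276021377), (nat_lit 102, nat_lit 17349763200)]⟩],
  [W_14128521344, W_14128263296, W_13020979328]⟩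
theorem C_14128541826 : chkRec R_14128541826 = true := by decide +kernel

noncomputable def R_14128541889 : Rec := ⟨nat_lit 14128541889, nat_lit 24,
  [⟨V6_14094979137, [(nat_lit 34, nat_lit 14128541889), (nat_lit 126, nat_lit 15202283649), (nat_lit 38, nat_lit 15202279617), (nat_lit 124, nat_lit 15185506497), (nat_lit 102, nat_lit 16276025409), (nat_lit 100, nat_lit 16276021377), (nat_lit 52, nat_lit 16276017345), (nat_lit 92, nat_lit 16259248257), (nat_lit 46, nat_lit 16259244225), (nat_lit 124, nat_lit 16242471105), (nat_lit 104, nat_lit 17349763137), (nat_lit 117, nat_lit 17349759105), (nat_lit 12, nat_lit 17332990017), (nat_lit 111, nat_lit 17332985985), (nat_lit 89, nat_lit 17332981953), (nat_lit 36, nat_lit 17316212865), (nat_lit 66, nat_lit 17316208833), (nat_lit 95, nat_lit 18423500865), (nat_lit 75, nat_lit 18406727745), (nat_lit 6, nat_lit 18406723713), (nat_lit 70, nat_lit 18389954625), (nat_lit 64, nat_lit 18389950593), (nat_lit 113, nat_lit 18389946561), (nat_lit 60, nat_lit 19480465473), (nat_lit 1, nat_lit 19463692353),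 (nat_lit 102, nat_lit 19463688321), (nat_lit 22, nat_lit 20537430081)]⟩,
   ⟨V6_10907316288, [(nat_lit 91, nat_lit 14128541889), (nat_lit 94, nat_lit 15202283712), (nat_lit 45, nat_lit 15202283649), (nat_lit 98, nat_lit 16276025472), (nat_lit 62, nat_lit 16276025409), (nat_lit 117, nat_lit 17349767232)]⟩,
   ⟨V6_10907312256, [(nat_lit 108, nat_lit 14128541889), (nat_lit 78, nat_lit 15202283712), (nat_lit 73, nat_lit 15202283649), (nat_lit 70, nat_lit 15202279617), (nat_lit 99, nat_lit 16276025472), (nat_lit 20, nat_lit 16276021440), (nat_lit 117, nat_lit 16276021377), (nat_lit 24, nat_lit 17349763200)]⟩,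
   ⟨V6_10907308161, [(nat_lit 86, nat_lit 14128541889), (nat_lit 79, nat_lit 15202283649), (nat_lit 120, nat_lit 15202279617), (nat_lit 72, nat_lit 16276021377), (nat_lit 10, nat_lit 16276017345), (nat_lit 108, nat_lit 17349759105)]⟩],
  [W_14128525376, W_14128267328, W_14111748224, W_14111490176, W_14111486144, W_14094721088, W_11964018752]⟩
theorem C_14128541889 : chkRec R_14128541889 = true := by decide +kernel

noncomputable def R_14128541952 : Rec := ⟨nat_lit 14128541952, nat_lit 32,
  [⟨V6_14094987264, [(nat_lit 89, nat_lit 14128541952), (nat_lit 11, nat_lit 15202283712), (nat_lit 85, nat_lit 15185506560), (nat_lit 8, nat_lit 16276025472), (nat_lit 53, nat_lit 16259248320), (nat_lit 58, nat_lit 16242471168), (nat_lit 19, nat_lit 17349767232), (nat_lit 85, nat_lit 17332990080), (nat_lit 49, nat_lit 17316212928), (nat_lit 66, nat_lit 18423508992), (nat_lit 105, nat_lit 18406731840), (nat_lit 27, nat_lit 18389954688), (nat_lit 121, nat_lit 19480473600), (nat_lit 105, nat_lit 19463696448), (nat_lit 13, nat_lit 20537438208)]⟩,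
   ⟨V6_13054537728, [(nat_lit 45, nat_lit 14128541952), (nat_lit 71, nat_lit 15202283712), (nat_lit 39, nat_lit 15202021632), (nat_lit 37, nat_lit 16276025472), (nat_lit 72, nat_lit 16275763392), (nat_lit 38, nat_lit 17349767232), (nat_lit 7, nat_lit 17349505152), (nat_lit 5, nat_lit 18423508992), (nat_lit 34, nat_lit 18423246912), (nat_lit 25, nat_lit 19496988672)]⟩,
   ⟨V6_11981058048, [(nat_lit 110, nat_lit 14128541952), (nat_lit 126, nat_lit 15202283712), (nat_lit 52, nat_lit 16276025472), (nat_lit 120, nat_lit 17349767232), (nat_lit 50, nat_lit 18423508992)]⟩,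
   ⟨V6_10907312256, [(nat_lit 20, nat_lit 14128541952), (nat_lit 33, nat_lit 15202283712), (nat_lit 109, nat_lit 15202279680), (nat_lit 97, nat_lit 16276025472), (nat_lit 75, nat_lit 16276021440), (nat_lit 30, nat_lit 17349763200)]⟩,
   ⟨V6_10873757952, [(nat_lit 65, nat_lit 14128541952), (nat_lit 2, nat_lit 15202279680), (nat_lit 45, nat_lit 15185506560), (nat_lit 126, nat_lit 16259244288), (nat_lit 70, nat_lit 16242471168), (nat_lit 99, nat_lit 17316208896)]⟩],
  [W_14128267328, W_14111494208, W_14111490176, W_14094983168, W_14094721088, W_13020971264, W_11980783808, W_10907042048]⟩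
theorem C_14128541952 : chkRec R_14128541952 = true := by decide +kernel

noncomputable def R_14128545921 : Rec := ⟨nat_lit 14128545921, nat_lit 14,
  [⟨V6_10907312256, [(nat_lit 31, nat_lit 14128545921), (nat_lit 91, nat_lit 15202287744), (nat_lit 95, nat_lit 15202283649), (nat_lit 45, nat_lit 16276025472), (nat_lit 87, nat_lit 16276021377), (nat_lit 39, nat_lit 17349763200)]⟩,
   ⟨V6_10907308161, [(nat_lit 34, nat_lit 14128545921), (nat_lit 28, nat_lit 15202283649), (nat_lit 34, nat_lit 16276021377), (nat_lit 89, nat_lit 17349759105)]⟩],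
  [W_14128525376, W_14128521344, W_14094979136, W_11947503680]⟩
theorem C_14128545921 : chkRec R_14128545921 = true := by decide +kernel

noncomputable def R_14128545984 : Rec := ⟨nat_lit 14128545984, nat_lit 22,
  [⟨V6_13021249536, [(nat_lit 93, nat_lit 14128545984), (nat_lit 25, nat_lit 15202287744), (nat_lit 114, nat_lit 15185510592), (nat_lit 99, nat_lit 16276029504), (nat_lit 103, nat_lit 16259252352), (nat_lit 34, nat_lit 16242475200), (nat_lit 99, nat_lit 17349771264), (nat_lit 84, nat_lit 17332994112), (nat_lit 87, nat_lit 17316216960), (nat_lit 121, nat_lit 18406735872), (nat_lit 8, nat_lit 18389958720), (nat_lit 98, nat_lit 19463700480)]⟩,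
   ⟨V6_11981058048, [(nat_lit 80, nat_lit 14128545984), (nat_lit 94, nat_lit 15202287744), (nat_lit 47, nat_lit 15202283712), (nat_lit 57, nat_lit 16276029504), (nat_lit 92, nat_lit 16276025472), (nat_lit 33, nat_lit 17349771264), (nat_lit 10, nat_lit 17349767232), (nat_lit 41, nat_lit 18423508992)]⟩,
   ⟨V6_10907320320, [(nat_lit 93, nat_lit 14128545984), (nat_lit 24, nat_lit 15202287744), (nat_lit 109, nat_lit 16276029504), (nat_lit 27, nat_lit 17349771264)]⟩,
   ⟨V6_10907312256, [(nat_lit 68, nat_lit 14128545984), (nat_lit 74, nat_lit 15202287744), (nat_lit 100, nat_lit 15202283712), (nat_lit 113, nat_lit 16276025472), (nat_lit 91, nat_lit 16276021440), (nat_lit 37, nat_lit 17349763200)]⟩],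
  [W_14128525376, W_14111748224, W_14094983168, W_14094979136, W_13021233344]⟩
theorem C_14128545984 : chkRec R_14128545984 = true := by decide +kernel

noncomputable def R_14128791747 : Rec := ⟨nat_lit 14128791747, nat_lit 4,
  [⟨V6_10907566272, [(nat_lit 29, nat_lit 14128791747), (nat_lit 30, nat_lit 15202533570), (nat_lit 119, nat_lit 16276275393), (nat_lit 35, nat_lit 17350017216)]⟩],
  [W_14128001216, W_14111486144]⟩
theorem C_14128791747 : chkRec R_14128791747 = true := by decide +kernel

noncomputable def R_14128791810 : Rec := ⟨nat_lit 14128791810, nat_lit 7,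
  [⟨V6_10907566209, [(nat_lit 124, nat_lit 14128791810), (nat_lit 68, nat_lit 15202533633), (nat_lit 42, nat_lit 15202533570), (nat_lit 72, nat_lit 16276275393), (nat_lit 15, nat_lit 16276275330), (nat_lit 125, nat_lit 17350017153)]⟩,
   ⟨V6_10907304066, [(nat_lit 20, nat_lit 14128791810), (nat_lit 74, nat_lit 15202533570), (nat_lit 46, nat_lit 15202271490), (nat_lit 26, nat_lit 16276275330), (nat_lit 6, nat_lit 16276013250), (nat_lit 94, nat_lit 17349755010)]⟩],
  [W_14127743168, W_14111490176, W_13054001408]⟩
theorem C_14128791810 : chkRec R_14128791810 = true := by decide +kernel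

noncomputable def R_14128795842 : Rec := ⟨nat_lit 14128795842, nat_lit 14,
  [⟨V6_10907566209, [(nat_lit 4, nat_lit 14128795842), (nat_lit 69, nat_lit 15202537665), (nat_lit 14, nat_lit 15202537602), (nat_lit 55, nat_lit 15202533570), (nat_lit 68, nat_lit 16276279425), (nat_lit 8, nat_lit 16276275393), (nat_lit 34, nat_lit 16276275330), (nat_lit 42, nat_lit 17350017153)]⟩,
   ⟨V6_10907308161, [(nat_lit 2, nat_lit 14128795842), (nat_lit 15, nat_lit 15202537665), (nat_lit 33, nat_lit 15202537602), (nat_lit 13, nat_lit 15202275522), (nat_lit 76, nat_lit 16276279425), (nat_lit 60, nat_lit 16276017345), (nat_lit 103, nat_lit 16276017282), (nat_lit 77, nat_lit 17349759105)]⟩,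
   ⟨V6_10907304066, [(nat_lit 65, nat_lit 14128795842), (nat_lit 11, nat_lit 15202537602), (nat_lit 109, nat_lit 15202533570), (nat_lit 103, nat_lit 15202275522), (nat_lit 42, nat_lit 16276275330), (nat_lit 49, nat_lit 16276017282), (nat_lit 46, nat_lit 16276013250), (nat_lit 65, nat_lit 17349755010)]⟩,
   ⟨V6_10907046018, [(nat_lit 63, nat_lit 14128795842), (nat_lit 86, nat_lit 15202537602), (nat_lit 98, nat_lit 15202275522), (nat_lit 92, nat_lit 16276017282), (nat_lit 99, nat_lit 16275755202), (nat_lit 79, nat_lit 17349496962)]⟩,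
   ⟨V6_10907041986, [(nat_lit 66, nat_lit 14128795842), (nat_lit 126, nat_lit 15202533570), (nat_lit 70, nat_lit 15202275522), (nat_lit 119, nat_lit 16276013250), (nat_lit 121, nat_lit 16275755202), (nat_lit 45, nat_lit 17349492930)]⟩],
  [W_14128263296, W_14111748224, W_14111486144, W_14111232128, W_14110970048]⟩
theorem C_14128795842 : chkRec R_14128795842 = true := by decide +kernel

noncomputable def R_14128795905 : Rec := ⟨nat_lit 14128795905, nat_lit 18,
  [⟨V6_10907566209, [(nat_lit 74, nat_lit 14128795905), (nat_lit 56, nat_lit 15202537665), (nat_lit 113, nat_lit 15202533633), (nat_lit 23, nat_lit 16276279425), (nat_lit 98, nat_lit 16276275393), (nat_lit 81, nat_lit 17350017153)]⟩,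
   ⟨V6_10907308161, [(nat_lit 60, nat_lit 14128795905), (nat_lit 95, nat_lit 15202537665), (nat_lit 11, nat_lit 15202275585), (nat_lit 78, nat_lit 16276279425), (nat_lit 18, nat_lit 16276017345), (nat_lit 28, nat_lit 17349759105)]⟩,
   ⟨V6_10907304192, [(nat_lit 77, nat_lit 14128795905), (nat_lit 44, nat_lit 15202537728), (nat_lit 17, nat_lit 15202533633), (nat_lit 33, nat_lit 15202275585), (nat_lit 109, nat_lit 16276275456), (nat_lit 68, nat_lit 16276017408), (nat_lit 28, nat_lit 16276013313), (nat_lit 124, nat_lit 17349755136)]⟩,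
   ⟨V6_10907042049, [(nat_lit 117, nat_lit 14128795905), (nat_lit 4, nat_lit 15202533633), (nat_lit 101, nat_lit 15202275585), (nat_lit 32, nat_lit 16276013313), (nat_lit 24, nat_lit 16275755265), (nat_lit 74, nat_lit 17349492993)]⟩,
   ⟨V6_10890526977, [(nat_lit 114, nat_lit 14128795905), (nat_lit 64, nat_lit 15202533633), (nat_lit 36, nat_lit 15202275585), (nat_lit 48, nat_lit 15185760513), (nat_lit 1, nat_lit 16276013313), (nat_lit 3, nat_lit 16259498241), (nat_lit 67, nat_lit 16259240193), (nat_lit 8, nat_lit 17332977921)]⟩],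
  [W_14128267328, W_14128009280, W_14127747200, W_14111232128, W_14110970048, W_13054001408]⟩
theorem C_14128795905 : chkRec R_14128795905 = true := by decide +kernel

noncomputable def R_14128795968 : Rec := ⟨nat_lit 14128795968, nat_lit 11,
  [⟨V6_13055053824, [(nat_lit 24, nat_lit 14128795968), (nat_lit 45, nat_lit 15202537728), (nat_lit 68, nat_lit 16276279488), (nat_lit 85, nat_lit 17350021248), (nat_lit 66, nat_lit 18423763008), (nat_lit 78, nat_lit 19497504768)]⟩],
  [W_14127747200, W_14111232128, W_14110970048, W_11980525760, W_11964010688, W_11963748608, W_10890531008]⟩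
theorem C_14128795968 : chkRec R_14128795968 = true := by decide +kernel

noncomputable def R_14128799874 : Rec := ⟨nat_lit 14128799874, nat_lit 11,
  [⟨V6_10907312256, [(nat_lit 44, nat_lit 14128799874), (nat_lit 50, nat_lit 15202541697), (nat_lit 108, nat_lit 15202279554), (nat_lit 126, nat_lit 16276283520), (nat_lit 40, nat_lit 16276021377), (nat_lit 61, nat_lit 17349763200)]⟩,
   ⟨V6_10907304066, [(nat_lit 63, nat_lit 14128799874), (nat_lit 38, nat_lit 15202537602), (nat_lit 23, nat_lit 15202279554), (nat_lit 83, nat_lit 16276275330), (nat_lit 32, nat_lit 16276017282), (nat_lit 104, nat_lit 17349755010)]⟩],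
  [W_14128521344, W_14128263296, W_14111232128]⟩
theorem C_14128799874 : chkRec R_14128799874 = true := by decide +kernel

noncomputable def R_14128799937 : Rec := ⟨nat_lit 14128799937, nat_lit 29,
  [⟨V6_14128013376, [(nat_lit 50, nat_lit 14128799937), (nat_lit 107, nat_lit 15202541760), (nat_lit 21, nat_lit 15202541697), (nat_lit 16, nat_lit 15202279617), (nat_lit 35, nat_lit 16276283520), (nat_lit 10, nat_lit 16276283457), (nat_lit 107, nat_lit 16276021440), (nat_lit 39, nat_lit 16276021377), (nat_lit 31, nat_lit 16275759297), (nat_lit 121, nat_lit 17350025280), (nat_lit 92, nat_lit 17349763200), (nat_lit 12, nat_lit 17349763137), (nat_lit 25, nat_lit 17349501120), (nat_lit 31, nat_lit 17349501057), (nat_lit 62, nat_lit 17349238977), (nat_lit 41, nat_lit 18423504960), (nat_lit 44, nat_lit 18423242880), (nat_lit 10, nat_lit 18423242817), (nat_lit 3, nat_lit 18422980800), (nat_lit 42, nat_lit 18422980737), (nat_lit 8, nat_lit 19496984640), (nat_lit 96, nat_lit 19496722560), (nat_lit 21, nat_lit 19496722497), (nat_lit 64, nat_lit 20570464320)]⟩],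
  [W_14128525376, W_14128267328, W_14128001216, W_14111748224, W_14111486144, W_13055045696, W_13038268544, W_11964526784, W_10907566208]⟩
theorem C_14128799937 : chkRec R_14128799937 = true := by decide +kernel

noncomputable def R_14128800000 : Rec := ⟨nat_lit 14128800000, nat_lit 35,
  [⟨V6_14112018432, [(nat_lit 10, nat_lit 14128800000), (nat_lit 64, nat_lit 15202541760), (nat_lit 126, nat_lit 15202537728), (nat_lit 90, nat_lit 15185764608), (nat_lit 97, nat_lit 16276283520), (nat_lit 69, nat_lit 16276279488), (nat_lit 126, nat_lit 16259506368), (nat_lit 125, nat_lit 16259502336), (nat_lit 106, nat_lit 17350025280), (nat_lit 29, nat_lit 17350021248), (nat_lit 76, nat_lit 17333248128), (nat_lit 54, nat_lit 17333244096), (nat_lit 10, nat_lit 18423767040), (nat_lit 82, nat_lit 18423763008), (nat_lit 71, nat_lit 18406989888), (nat_lit 42, nat_lit 18406985856), (nat_lit 35, nat_lit 19497504768), (nat_lit 113, nat_lit 19480731648), (nat_lit 58, nat_lit 19480727616), (nat_lit 102, nat_lit 20554469376)]⟩,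
   ⟨V6_13055053824, [(nat_lit 13, nat_lit 14128800000), (nat_lit 61, nat_lit 15202541760), (nat_lit 56, nat_lit 15202537728), (nat_lit 58, nat_lit 16276283520), (nat_lit 110, nat_lit 16276279488), (nat_lit 83, nat_lit 17350025280), (nat_lit 38, nat_lit 17350021248), (nat_lit 94, nat_lit 18423767040), (nat_lit 105, nat_lit 18423763008), (nat_lit 81, nat_lit 19497504768)]⟩,
   ⟨V6_10907312256, [(nat_lit 80, nat_lit 14128800000), (nat_lit 42, nat_lit 15202541760), (nat_lit 57, nat_lit 15202279680), (nat_lit 104, nat_lit 16276283520), (nat_lit 24, nat_lit 16276021440), (nat_lit 122, nat_lit 17349763200)]⟩],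
  [W_14128013312, W_14112014336, W_14111490176, W_14111236160, W_14111232128, W_13054263488, W_13037494400, W_13037486336, W_11980783808, W_11980525760, W_11980521728, W_11963748608, W_10907566208, W_10907042048, W_10906788032]⟩
theorem C_14128800000 : chkRec R_14128800000 = true := by decide +kernel

noncomputable def R_14128803969 : Rec := ⟨nat_lit 14128803969, nat_lit 19,
  [⟨V6_14112006273, [(nat_lit 10, nat_lit 14128803969), (nat_lit 91, nat_lit 15202541697), (nat_lit 111, nat_lit 15185768577), (nat_lit 43, nat_lit 16276279425), (nat_lit 60, nat_lit 16259506305), (nat_lit 66, nat_lit 17350017153), (nat_lit 17, nat_lit 17333244033), (nat_lit 115, nat_lit 18423754881), (nat_lit 75, nat_lit 18406981761), (nat_lit 106, nat_lit 19497492609), (nat_lit 106, nat_lit 19480719489), (nat_lit 114, nat_lit 20554457217)]⟩,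
   ⟨V6_10907316288, [(nat_lit 113, nat_lit 14128803969), (nat_lit 46, nat_lit 15202545792), (nat_lit 14, nat_lit 15202545729), (nat_lit 65, nat_lit 15202283649), (nat_lit 108, nat_lit 16276287552), (nat_lit 115, nat_lit 16276025472), (nat_lit 85, nat_lit 16276025409), (nat_lit 67, nat_lit 17349767232)]⟩,
   ⟨V6_10907312256, [(nat_lit 14, nat_lit 14128803969), (nat_lit 110, nat_lit 15202545792), (nat_lit 108, nat_lit 15202541697), (nat_lit 49, nat_lit 15202283649), (nat_lit 113, nat_lit 16276283520), (nat_lit 76, nat_lit 16276025472), (nat_lit 76, nat_lit 16276021377), (nat_lit 48, nat_lit 17349763200)]⟩,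
   ⟨V6_10907308161, [(nat_lit 114, nat_lit 14128803969), (nat_lit 112, nat_lit 15202541697), (nat_lit 100, nat_lit 15202283649), (nat_lit 31, nat_lit 16276279425), (nat_lit 37, nat_lit 16276021377), (nat_lit 46, nat_lit 17349759105)]⟩],
  [W_14128525376, W_14112010304, W_14111748224, W_13055045696, W_13055041664, W_11964018752]⟩
theorem C_14128803969 : chkRec R_14128803969 = true := by decide +kernel

noncomputable def R_14128804032 : Rec := ⟨nat_lit 14128804032, nat_lit 33,
  [⟨V6_14128787520, [(nat_lit 1, nat_lit 14128804032), (nat_lit 108, nat_lit 15202545792), (nat_lit 61, nat_lit 15202541760), (nat_lit 126, nat_lit 16276287552), (nat_lit 68, nat_lit 16276283520), (nat_lit 8, nat_lit 16276279488), (nat_lit 107, nat_lit 17350025280), (nat_lit 71, nat_lit 17350021248), (nat_lit 53, nat_lit 17350017216), (nat_lit 57, nat_lit 18423763008), (nat_lit 43, nat_lit 18423758976), (nat_lit 83, nat_lit 18423754944), (nat_lit 15, nat_lit 19497500736), (nat_lit 81, nat_lit 19497496704), (nat_lit 58, nat_lit 20571238464)]⟩],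
  [W_14128787456, W_14111748224, W_14111490176, W_14111486144, W_13038010496, W_11980795904, W_11964526784, W_11964280832, W_11964268736, W_11964010688, W_10907316224, W_10907304128, W_10890535040, W_10890531008, W_10890272960]⟩
theorem C_14128804032 : chkRec R_14128804032 = true := by decide +kernel

noncomputable def R_14128808001 : Rec := ⟨nat_lit 14128808001, nat_lit 7,
  [⟨V6_14128787520, [(nat_lit 1, nat_lit 14128808001), (nat_lit 67, nat_lit 15202549824), (nat_lit 86, nat_lit 15202545729), (nat_lit 46, nat_lit 16276287552), (nat_lit 10, nat_lit 16276283457), (nat_lit 36, nat_lit 17350025280), (nat_lit 16, nat_lit 17350021185), (nat_lit 8, nat_lit 18423763008), (nat_lit 62, nat_lit 18423758913), (nat_lit 21, nat_lit 19497500736), (nat_lit 116, nat_lit 19497496641), (nat_lit 44, nat_lit 20571238464)]⟩],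
  [W_14128525376]⟩
theorem C_14128808001 : chkRec R_14128808001 = true := by decide +kernel

noncomputable def R_14128808064 : Rec := ⟨nat_lit 14128808064, nat_lit 21,
  [⟨V6_11981058048, [(nat_lit 12, nat_lit 14128808064), (nat_lit 94, nat_lit 15202549824), (nat_lit 13, nat_lit 15202545792), (nat_lit 60, nat_lit 15202287744), (nat_lit 22, nat_lit 16276291584), (nat_lit 70, nat_lit 16276287552), (nat_lit 79, nat_lit 16276029504), (nat_lit 2, nat_lit 16276025472), (nat_lit 89, nat_lit 17350029312), (nat_lit 49, nat_lit 17349771264), (nat_lit 28, nat_lit 17349767232), (nat_lit 18, nat_lit 18423508992)]⟩,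
   ⟨V6_10907320320, [(nat_lit 98, nat_lit 14128808064), (nat_lit 81, nat_lit 15202549824), (nat_lit 118, nat_lit 15202287744), (nat_lit 36, nat_lit 16276291584), (nat_lit 82, nat_lit 16276029504), (nat_lit 17, nat_lit 17349771264)]⟩,
   ⟨V6_10907316288, [(nat_lit 47, nat_lit 14128808064), (nat_lit 82, nat_lit 15202549824), (nat_lit 102, nat_lit 15202545792), (nat_lit 39, nat_lit 15202287744), (nat_lit 4, nat_lit 16276287552), (nat_lit 11, nat_lit 16276029504), (nat_lit 48, nat_lit 16276025472), (nat_lit 105, nat_lit 17349767232)]⟩,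
   ⟨V6_10907312256, [(nat_lit 80, nat_lit 14128808064), (nat_lit 12, nat_lit 15202545792), (nat_lit 4, nat_lit 15202287744), (nat_lit 23, nat_lit 16276283520), (nat_lit 77, nat_lit 16276025472), (nat_lit 43, nat_lit 17349763200)]⟩],
  [W_14128787456, W_14128525376, W_14128521344, W_14111748224, W_13055041664]⟩
theorem C_14128808064 : chkRec R_14128808064 = true := by decide +kernel

noncomputable def R_14128812096 : Rec := ⟨nat_lit 14128812096, nat_lit 5,
  [⟨V6_13038280704, [(nat_lit 87, nat_lit 14128812096), (nat_lit 39, nat_lit 15202553856), (nat_lit 109, nat_lit 15202549824), (nat_lit 52, nat_lit 15185776704), (nat_lit 85, nat_lit 16276291584), (nat_lit 115, nat_lit 16276287552), (nat_lit 39, nat_lit 16259518464), (nat_lit 93, nat_lit 16259514432), (nat_lit 28, nat_lit 17350029312), (nat_lit 53, nat_lit 17350025280), (nat_lit 48, nat_lit 17333256192), (nat_lit 100, nat_lit 17333252160), (nat_lit 111, nat_lit 18423767040), (nat_lit 59, nat_lit 18406993920), (nat_lit 25, nat_lit 18406989888), (nat_lit 107, nat_lit 19480731648)]⟩],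
  [W_14128783424, W_10907574272]⟩
theorem C_14128812096 : chkRec R_14128812096 = true := by decide +kernel

noncomputable def R_14129049795 : Rec := ⟨nat_lit 14129049795, nat_lit 1,
  [⟨V6_10907037891, [(nat_lit 73, nat_lit 14129049795), (nat_lit 54, nat_lit 15202529475), (nat_lit 122, nat_lit 16276009155), (nat_lit 22, nat_lit 17349488835)]⟩],
  [W_14128001216]⟩
theorem C_14129049795 : chkRec R_14129049795 = true := by decide +kernel

noncomputable def R_14129053890 : Rec := ⟨nat_lit 14129053890, nat_lit 6,
  [⟨V6_10907304066, [(nat_lit 102, nat_lit 14129053890), (nat_lit 66, nat_lit 15202795650), (nat_lit 122, nat_lit 15202533570), (nat_lit 14, nat_lit 16276275330), (nat_lit 118, nat_lit 16276013250), (nat_lit 51, nat_lit 17349755010)]⟩,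
   ⟨V6_10907041986, [(nat_lit 92, nat_lit 14129053890), (nat_lit 35, nat_lit 15202533570), (nat_lit 112, nat_lit 16276013250), (nat_lit 66, nat_lit 17349492930)]⟩],
  [W_14128263296, W_14128001216]⟩
theorem C_14129053890 : chkRec R_14129053890 = true := by decide +kernel

noncomputable def R_14129053953 : Rec := ⟨nat_lit 14129053953, nat_lit 10,
  [⟨V6_14127481089, [(nat_lit 44, nat_lit 14129053953), (nat_lit 34, nat_lit 15202533633), (nat_lit 36, nat_lit 16276013313), (nat_lit 85, nat_lit 17349492993), (nat_lit 28, nat_lit 18422972673), (nat_lit 122, nat_lit 19496452353), (nat_lit 20, nat_lit 20569932033)]⟩,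
   ⟨V6_10907828352, [(nat_lit 12, nat_lit 14129053953), (nat_lit 80, nat_lit 15202795776), (nat_lit 33, nat_lit 15202795713), (nat_lit 23, nat_lit 16276537536), (nat_lit 77, nat_lit 16276537473), (nat_lit 108, nat_lit 17350279296)]⟩,
   ⟨V6_10907042049, [(nat_lit 114, nat_lit 14129053953), (nat_lit 13, nat_lit 15202533633), (nat_lit 67, nat_lit 16276013313), (nat_lit 10, nat_lit 17349492993)]⟩],
  [W_14128267328, W_10907828288, W_10907566208]⟩
theorem C_14129053953 : chkRec R_14129053953 = true := by decide +kernel

noncomputable def R_14129057922 : Rec := ⟨nat_lit 14129057922, nat_lit 7,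
  [⟨V6_10907820162, [(nat_lit 102, nat_lit 14129057922), (nat_lit 50, nat_lit 15202795650), (nat_lit 24, nat_lit 16276533378), (nat_lit 85, nat_lit 17350271106)]⟩,
   ⟨V6_10907304066, [(nat_lit 56, nat_lit 14129057922), (nat_lit 88, nat_lit 15202795650), (nat_lit 27, nat_lit 15202537602), (nat_lit 82, nat_lit 16276275330), (nat_lit 62, nat_lit 16276017282), (nat_lit 37, nat_lit 17349755010)]⟩,
   ⟨V6_10907046018, [(nat_lit 66, nat_lit 14129057922), (nat_lit 61, nat_lit 15202537602), (nat_lit 119, nat_lit 16276017282), (nat_lit 86, nat_lit 17349496962)]⟩],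
  [W_14128521344, W_14127747200, W_13055041664, W_11981561984]⟩
theorem C_14129057922 : chkRec R_14129057922 = true := by decide +kernel

noncomputable def R_14129057985 : Rec := ⟨nat_lit 14129057985, nat_lit 15,
  [⟨V6_10907828352, [(nat_lit 105, nat_lit 14129057985), (nat_lit 44, nat_lit 15202799808), (nat_lit 115, nat_lit 15202799745), (nat_lit 4, nat_lit 15202795713), (nat_lit 27, nat_lit 16276541568), (nat_lit 97, nat_lit 16276537536), (nat_lit 14, nat_lit 16276537473), (nat_lit 120, nat_lit 17350279296)]⟩,
   ⟨V6_10907566272, [(nat_lit 105, nat_lit 14129057985), (nat_lit 124, nat_lit 15202799808), (nat_lit 66, nat_lit 15202795713), (nat_lit 81, nat_lit 15202537665), (nat_lit 2, nat_lit 16276537536), (nat_lit 59, nat_lit 16276279488), (nat_lit 73, nat_lit 16276275393), (nat_lit 43, nat_lit 17350017216)]⟩,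
   ⟨V6_10907566209, [(nat_lit 102, nat_lit 14129057985), (nat_lit 14, nat_lit 15202799745), (nat_lit 122, nat_lit 15202795713), (nat_lit 50, nat_lit 15202537665), (nat_lit 73, nat_lit 16276537473), (nat_lit 105, nat_lit 16276279425), (nat_lit 101, nat_lit 16276275393), (nat_lit 37, nat_lit 17350017153)]⟩,
   ⟨V6_10907308161, [(nat_lit 93, nat_lit 14129057985), (nat_lit 105, nat_lit 15202799745), (nat_lit 44, nat_lit 15202537665), (nat_lit 80, nat_lit 16276279425), (nat_lit 3, nat_lit 16276017345), (nat_lit 110, nat_lit 17349759105)]⟩],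
  [W_14128525376, W_14128009280, W_14128001216, W_14127747200, W_14127743168]⟩
theorem C_14129057985 : chkRec R_14129057985 = true := by decide +kernel

noncomputable def R_14129058048 : Rec := ⟨nat_lit 14129058048, nat_lit 18,
  [⟨V6_13055311872, [(nat_lit 98, nat_lit 14129058048), (nat_lit 86, nat_lit 15202799808), (nat_lit 9, nat_lit 15202795776), (nat_lit 44, nat_lit 16276541568), (nat_lit 52, nat_lit 16276537536), (nat_lit 76, nat_lit 17350283328), (nat_lit 89, nat_lit 17350279296), (nat_lit 9, nat_lit 18424025088), (nat_lit 77, nat_lit 18424021056), (nat_lit 26, nat_lit 19497762816)]⟩,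
   ⟨V6_11981574144, [(nat_lit 44, nat_lit 14129058048), (nat_lit 25, nat_lit 15202799808), (nat_lit 97, nat_lit 16276541568), (nat_lit 48, nat_lit 17350283328), (nat_lit 20, nat_lit 18424025088)]⟩],
  [W_14128009280, W_14127747200, W_13054263488, W_13054001408, W_11980783808, W_11980521728, W_10907828288, W_10907566208, W_10907304128, W_10907042048]⟩
theorem C_14129058048 : chkRec R_14129058048 = true := by decide +kernel

noncomputable def R_14129062017 : Rec := ⟨nat_lit 14129062017, nat_lit 17,
  [⟨V6_10907566209, [(nat_lit 78, nat_lit 14129062017), (nat_lit 103, nat_lit 15202799745), (nat_lit 116, nat_lit 15202541697), (nat_lit 49, nat_lit 16276537473), (nat_lit 54, nat_lit 16276279425), (nat_lit 39, nat_lit 17350017153)]⟩,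
   ⟨V6_10907312256, [(nat_lit 106, nat_lit 14129062017), (nat_lit 63, nat_lit 15202803840), (nat_lit 121, nat_lit 15202541697), (nat_lit 35, nat_lit 16276283520), (nat_lit 8, nat_lit 16276021377), (nat_lit 87, nat_lit 17349763200)]⟩,
   ⟨V6_10907308161, [(nat_lit 36, nat_lit 14129062017), (nat_lit 74, nat_lit 15202799745), (nat_lit 22, nat_lit 15202541697), (nat_lit 23, nat_lit 16276279425), (nat_lit 44, nat_lit 16276021377), (nat_lit 66, nat_lit 17349759105)]⟩],
  [W_14128783424, W_14128267328, W_13055303744, W_11981566016, W_11981561984]⟩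
theorem C_14129062017 : chkRec R_14129062017 = true := by decide +kernel

noncomputable def R_14129062080 : Rec := ⟨nat_lit 14129062080, nat_lit 29,
  [⟨V6_13055311872, [(nat_lit 79, nat_lit 14129062080), (nat_lit 37, nat_lit 15202803840), (nat_lit 22, nat_lit 15202799808), (nat_lit 79, nat_lit 16276545600), (nat_lit 44, nat_lit 16276541568), (nat_lit 24, nat_lit 16276537536), (nat_lit 114, nat_lit 17350287360), (nat_lit 95, nat_lit 17350283328), (nat_lit 54, nat_lit 17350279296), (nat_lit 31, nat_lit 18424025088), (nat_lit 32, nat_lit 18424021056), (nat_lit 100, nat_lit 19497762816)]⟩,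
   ⟨V6_11981574144, [(nat_lit 7, nat_lit 14129062080), (nat_lit 89, nat_lit 15202803840), (nat_lit 95, nat_lit 15202799808), (nat_lit 12, nat_lit 16276545600), (nat_lit 97, nat_lit 16276541568), (nat_lit 62, nat_lit 17350287360), (nat_lit 60, nat_lit 17350283328), (nat_lit 83, nat_lit 18424025088)]⟩,
   ⟨V6_10907312256, [(nat_lit 8, nat_lit 14129062080), (nat_lit 50, nat_lit 15202803840), (nat_lit 27, nat_lit 15202541760), (nat_lit 26, nat_lit 16276283520), (nat_lit 74, nat_lit 16276021440), (nat_lit 4, nat_lit 17349763200)]⟩],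
  [W_14128787456, W_14128525376, W_14128013312, W_14128001216, W_13054521536, W_13054263488, W_11980525760, W_10906788032]⟩
theorem C_14129062080 : chkRec R_14129062080 = true := by decide +kernel

noncomputable def R_14129066049 : Rec := ⟨nat_lit 14129066049, nat_lit 9,
  [⟨V6_14128787520, [(nat_lit 119, nat_lit 14129066049), (nat_lit 114, nat_lit 15202807872), (nat_lit 37, nat_lit 15202803777), (nat_lit 85, nat_lit 15202545729), (nat_lit 51, nat_lit 16276545600), (nat_lit 5, nat_lit 16276541505), (nat_lit 116, nat_lit 16276287552), (nat_lit 4, nat_lit 16276283457), (nat_lit 39, nat_lit 17350283328), (nat_lit 18, nat_lit 17350279233), (nat_lit 5, nat_lit 17350025280), (nat_lit 8, nat_lit 17350021185), (nat_lit 82, nat_lit 18424021056), (nat_lit 87, nat_lit 18424016961), (nat_lit 79, nat_lit 18423763008), (nat_lit 108, nat_lit 18423758913), (nat_lit 83, nat_lit 19497758784), (nat_lit 110, nat_lit 19497500736), (nat_lit 9, nat_lit 19497496641), (nat_lit 51, nat_lit 20571238464)]⟩],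
  [W_14128525376, W_11981566016, W_10907828288]⟩
theorem C_14129066049 : chkRec R_14129066049 = true := by decide +kernel

noncomputable def R_14129066112 : Rec := ⟨nat_lit 14129066112, nat_lit 25,
  [⟨V6_13055311872, [(nat_lit 80, nat_lit 14129066112), (nat_lit 57, nat_lit 15202807872), (nat_lit 125, nat_lit 15202803840), (nat_lit 55, nat_lit 16276549632), (nat_lit 78, nat_lit 16276545600), (nat_lit 30, nat_lit 16276541568), (nat_lit 120, nat_lit 17350287360), (nat_lit 83, nat_lit 17350283328), (nat_lit 51, nat_lit 17350279296), (nat_lit 49, nat_lit 18424025088), (nat_lit 76, nat_lit 18424021056), (nat_lit 22, nat_lit 19497762816)]⟩,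
   ⟨V6_10907312256, [(nat_lit 1, nat_lit 14129066112), (nat_lit 114, nat_lit 15202803840), (nat_lit 105, nat_lit 15202545792), (nat_lit 68, nat_lit 16276283520), (nat_lit 97, nat_lit 16276025472), (nat_lit 87, nat_lit 17349763200)]⟩],
  [W_14129045504, W_14128787456, W_14128525376, W_14128521344, W_11981561984, W_10907832320]⟩
theorem C_14129066112 : chkRec R_14129066112 = true := by decide +kernel

noncomputable def R_14129070144 : Rec := ⟨nat_lit 14129070144, nat_lit 15,
  [⟨V6_13055311872, [(nat_lit 81, nat_lit 14129070144), (nat_lit 95, nat_lit 15202811904), (nat_lit 34, nat_lit 15202807872), (nat_lit 15, nat_lit 16276549632), (nat_lit 84, nat_lit 16276545600), (nat_lit 106, nat_lit 17350287360), (nat_lit 62, nat_lit 17350283328), (nat_lit 53, nat_lit 18424025088), (nat_lit 48, nat_lit 18424021056), (nat_lit 96, nat_lit 19497762816)]⟩],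
  [W_14129045504, W_14128783424, W_14128525376, W_10907316224]⟩
theorem C_14129070144 : chkRec R_14129070144 = true := by decide +kernel

noncomputable def R_14129074176 : Rec := ⟨nat_lit 14129074176, nat_lit 5,
  [⟨V6_11981574144, [(nat_lit 107, nat_lit 14129074176), (nat_lit 50, nat_lit 15202811904), (nat_lit 77, nat_lit 16276549632), (nat_lit 108, nat_lit 17350287360), (nat_lit 15, nat_lit 18424025088)]⟩,
   ⟨V6_10907578368, [(nat_lit 82, nat_lit 14129074176), (nat_lit 86, nat_lit 15202811904), (nat_lit 30, nat_lit 15202553856), (nat_lit 17, nat_lit 16276549632), (nat_lit 107, nat_lit 16276291584), (nat_lit 110, nat_lit 17350029312)]⟩],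
  [W_14129045504]⟩
theorem C_14129074176 : chkRec R_14129074176 = true := by decide +kernel

noncomputable def R_14144782596 : Rec := ⟨nat_lit 14144782596, nat_lit 1,
  [⟨V6_12987154692, [(nat_lit 9, nat_lit 14144782596), (nat_lit 41, nat_lit 15201747204), (nat_lit 27, nat_lit 16258711812), (nat_lit 109, nat_lit 17315676420), (nat_lit 79, nat_lit 18372641028), (nat_lit 58, nat_lit 19429605636)]⟩],
  [W_14127481088]⟩
theorem C_14144782596 : chkRec R_14144782596 = true := by decide +kernel

noncomputable def R_14144786691 : Rec := ⟨nat_lit 14144786691, nat_lit 4,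
  [⟨V6_14060900610, [(nat_lit 56, nat_lit 14144786691), (nat_lit 17, nat_lit 15218528514), (nat_lit 90, nat_lit 15201751299), (nat_lit 69, nat_lit 16275493122), (nat_lit 120, nat_lit 16258715907), (nat_lit 97, nat_lit 17332457730), (nat_lit 17, nat_lit 17315680515), (nat_lit 56, nat_lit 18389422338), (nat_lit 4, nat_lit 18372645123), (nat_lit 100, nat_lit 19446386946), (nat_lit 77, nat_lit 19429609731), (nat_lit 107, nat_lit 20503351554)]⟩,
   ⟨V6_14060896515, [(nat_lit 50, nat_lit 14144786691), (nat_lit 86, nat_lit 15218524419), (nat_lit 51, nat_lit 15201751299), (nat_lit 85, nat_lit 16275489027), (nat_lit 41, nat_lit 16258715907), (nat_lit 53, nat_lit 17332453635), (nat_lit 6, nat_lit 17315680515), (nat_lit 74, nat_lit 18389418243), (nat_lit 84, nat_lit 18372645123), (nat_lit 42, nat_lit 19446382851), (nat_lit 61, nat_lit 19429609731), (nat_lit 41, nat_lit 20503347459)]⟩,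
   ⟨V6_11997040833, [(nat_lit 40, nat_lit 14144786691), (nat_lit 47, nat_lit 15218528514), (nat_lit 98, nat_lit 15218528451), (nat_lit 38, nat_lit 15218266371), (nat_lit 101, nat_lit 16292270337), (nat_lit 35, nat_lit 16292270274), (nat_lit 96, nat_lit 16292008194), (nat_lit 101, nat_lit 16292008131), (nat_lit 114, nat_lit 17366012097), (nat_lit 89, nat_lit 17365750017), (nat_lit 6, nat_lit 17365749954), (nat_lit 39, nat_lit 18439491777)]⟩,
   ⟨V6_11997036801, [(nat_lit 22, nat_lit 14144786691), (nat_lit 61, nat_lit 15218528514), (nat_lit 67, nat_lit 15218524419), (nat_lit 20, nat_lit 15218266371), (nat_lit 53, nat_lit 16292270337), (nat_lit 65, nat_lit 16292266242), (nat_lit 29, nat_lit 16292008194), (nat_lit 112, nat_lit 16292004099), (nat_lit 78, nat_lit 17366008065), (nat_lit 91, nat_lit 17365750017), (nat_lit 53, nat_lit 17365745922), (nat_lit 30, nat_lit 18439487745)]⟩],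
  [W_14094450944, W_13054001408, W_11997040832]⟩
theorem C_14144786691 : chkRec R_14144786691 = true := by decide +kernel

noncomputable def R_14144786754 : Rec := ⟨nat_lit 14144786754, nat_lit 3,
  [⟨V6_11963748672, [(nat_lit 6, nat_lit 14144786754), (nat_lit 56, nat_lit 15218528577), (nat_lit 104, nat_lit 15201751362), (nat_lit 107, nat_lit 16292270400), (nat_lit 31, nat_lit 16275493185), (nat_lit 35, nat_lit 16258715970), (nat_lit 54, nat_lit 17349235008), (nat_lit 100, nat_lit 17332457793), (nat_lit 105, nat_lit 18406199616)]⟩],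
  [W_14127747200, W_13070782592, W_11997040832]⟩
theorem C_14144786754 : chkRec R_14144786754 = true := by decide +kernel

noncomputable def R_14144790723 : Rec := ⟨nat_lit 14144790723, nat_lit 4,
  [⟨V6_13037482179, [(nat_lit 66, nat_lit 14144790723), (nat_lit 102, nat_lit 15218528451), (nat_lit 69, nat_lit 15201755331), (nat_lit 95, nat_lit 16292266179), (nat_lit 10, nat_lit 16275493059), (nat_lit 115, nat_lit 16258719939), (nat_lit 11, nat_lit 17366003907), (nat_lit 38, nat_lit 17349230787), (nat_lit 126, nat_lit 17332457667), (nat_lit 47, nat_lit 18422968515), (nat_lit 3, nat_lit 18406195395), (nat_lit 13, nat_lit 19479933123)]⟩,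
   ⟨V6_13003940034, [(nat_lit 19, nat_lit 14144790723), (nat_lit 63, nat_lit 15218532546), (nat_lit 107, nat_lit 15201755331), (nat_lit 105, nat_lit 16275497154), (nat_lit 112, nat_lit 16258719939), (nat_lit 4, nat_lit 17332461762), (nat_lit 92, nat_lit 17315684547), (nat_lit 9, nat_lit 18389426370), (nat_lit 14, nat_lit 18372649155), (nat_lit 77, nat_lit 19446390978)]⟩],
  [W_14128001216, W_13071036608, W_11980525760]⟩
theorem C_14144790723 : chkRec R_14144790723 = true := by decide +kernel

noncomputable def R_14144790786 : Rec := ⟨nat_lit 14144790786, nat_lit 9,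
  [⟨V6_14077681794, [(nat_lit 101, nat_lit 14144790786), (nat_lit 58, nat_lit 15218532546), (nat_lit 119, nat_lit 15201755394), (nat_lit 99, nat_lit 16292274306), (nat_lit 20, nat_lit 16275497154), (nat_lit 71, nat_lit 16258720002), (nat_lit 18, nat_lit 17349238914), (nat_lit 110, nat_lit 17332461762), (nat_lit 53, nat_lit 17315684610), (nat_lit 100, nat_lit 18406203522), (nat_lit 27, nat_lit 18389426370), (nat_lit 80, nat_lit 18372649218), (nat_lit 110, nat_lit 19463168130), (nat_lit 44, nat_lit 19446390978), (nat_lit 23, nat_lit 20520132738)]⟩,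
   ⟨V6_14060904642, [(nat_lit 123, nat_lit 14144790786), (nat_lit 20, nat_lit 15218532546), (nat_lit 80, nat_lit 15201755394), (nat_lit 86, nat_lit 16275497154), (nat_lit 13, nat_lit 16258720002), (nat_lit 23, nat_lit 17332461762), (nat_lit 91, nat_lit 17315684610), (nat_lit 93, nat_lit 18389426370), (nat_lit 28, nat_lit 18372649218), (nat_lit 17, nat_lit 19446390978), (nat_lit 98, nat_lit 19429613826), (nat_lit 112, nat_lit 20503355586)]⟩,
   ⟨V6_14060900610, [(nat_lit 11, nat_lit 14144790786), (nat_lit 106, nat_lit 15218528514), (nat_lit 98, nat_lit 15201755394), (nat_lit 76, nat_lit 16275493122), (nat_lit 88, nat_lit 16258720002), (nat_lit 103, nat_lit 17332457730), (nat_lit 39, nat_lit 17315684610), (nat_lit 25, nat_lit 18389422338), (nat_lit 29, nat_lit 18372649218), (nat_lit 22, nat_lit 19446386946), (nat_lit 116, nat_lit 19429613826), (nat_lit 99, nat_lit 20503351554)]⟩,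
   ⟨V6_13003940034, [(nat_lit 91, nat_lit 14144790786), (nat_lit 4, nat_lit 15218532546), (nat_lit 3, nat_lit 15201755394), (nat_lit 104, nat_lit 16275497154), (nat_lit 124, nat_lit 16258720002), (nat_lit 9, nat_lit 17332461762), (nat_lit 65, nat_lit 17315684610), (nat_lit 68, nat_lit 18389426370), (nat_lit 93, nat_lit 18372649218), (nat_lit 7, nat_lit 19446390978)]⟩,
   ⟨V6_11930198274, [(nat_lit 50, nat_lit 14144790786), (nat_lit 77, nat_lit 15201755394), (nat_lit 30, nat_lit 16258720002), (nat_lit 117, nat_lit 17315684610), (nat_lit 74, nat_lit 18372649218)]⟩],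
  [W_14094450944, W_13071040640, W_13054267520]⟩
theorem C_14144790786 : chkRec R_14144790786 = true := by decide +kernel

noncomputable def R_14144790849 : Rec := ⟨nat_lit 14144790849, nat_lit 9,
  [⟨V6_14060904768, [(nat_lit 21, nat_lit 14144790849), (nat_lit 19, nat_lit 15218532672), (nat_lit 122, nat_lit 15201755457), (nat_lit 104, nat_lit 16275497280), (nat_lit 77, nat_lit 16258720065), (nat_lit 6, nat_lit 17332461888), (nat_lit 91, nat_lit 17315684673), (nat_lit 110, nat_lit 18389426496), (nat_lit 96, nat_lit 18372649281), (nat_lit 57, nat_lit 19446391104), (nat_lit 12, nat_lit 19429613889), (nat_lit 63, nat_lit 20503355712)]⟩,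
   ⟨V6_11997306945, [(nat_lit 29, nat_lit 14144790849), (nat_lit 28, nat_lit 15218532609), (nat_lit 94, nat_lit 16292274369), (nat_lit 43, nat_lit 17366016129), (nat_lit 25, nat_lit 18439757889)]⟩],
  [W_14128009280, W_13054267520]⟩
theorem C_14144790849 : chkRec R_14144790849 = true := by decide +kernel

noncomputable def R_14144790912 : Rec := ⟨nat_lit 14144790912, nat_lit 6,
  [⟨V6_14144790528, [(nat_lit 31, nat_lit 14144790912), (nat_lit 20, nat_lit 15218532672), (nat_lit 32, nat_lit 16292274432), (nat_lit 39, nat_lit 17366016192), (nat_lit 87, nat_lit 18439757952), (nat_lit 15, nat_lit 19513499712), (nat_lit 35, nat_lit 20587241472)]⟩,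
   ⟨V6_11930198400, [(nat_lit 87, nat_lit 14144790912), (nat_lit 40, nat_lit 15201755520), (nat_lit 103, nat_lit 16258720128), (nat_lit 8, nat_lit 17315684736), (nat_lit 17, nat_lit 18372649344)]⟩],
  [W_14077681856, W_14060904704, W_13037494400, W_13003940096]⟩
theorem C_14144790912 : chkRec R_14144790912 = true := by decide +kernel

noncomputable def R_14145044739 : Rec := ⟨nat_lit 14145044739, nat_lit 4,
  [⟨V6_14144258304, [(nat_lit 13, nat_lit 14145044739), (nat_lit 29, nat_lit 15218786562), (nat_lit 17, nat_lit 15218524419), (nat_lit 95, nat_lit 16292528385), (nat_lit 113, nat_lit 16292266242), (nat_lit 85, nat_lit 16292004099), (nat_lit 71, nat_lit 17366270208), (nat_lit 59, nat_lit 17366008065), (nat_lit 55, nat_lit 17365745922), (nat_lit 55, nat_lit 17365483779), (nat_lit 97, nat_lit 18439749888), (nat_lit 24, nat_lit 18439487745), (nat_lit 71, nat_lit 18439225602), (nat_lit 94, nat_lit 19513229568), (nat_lit 70, nat_lit 19512967425), (nat_lit 81, nat_lit 20586709248)]⟩],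
  [W_13020971264, W_11997298880, W_11980783808]⟩
theorem C_14145044739 : chkRec R_14145044739 = true := by decide +kernel

noncomputable def R_14145048771 : Rec := ⟨nat_lit 14145048771, nat_lit 6,
  [⟨V6_14077939905, [(nat_lit 7, nat_lit 14145048771), (nat_lit 23, nat_lit 15218790594), (nat_lit 39, nat_lit 15202013379), (nat_lit 4, nat_lit 16292532417), (nat_lit 101, nat_lit 16275755202), (nat_lit 74, nat_lit 16258977987), (nat_lit 32, nat_lit 17349497025), (nat_lit 121, nat_lit 17332719810), (nat_lit 120, nat_lit 17315942595), (nat_lit 86, nat_lit 18406461633), (nat_lit 22, nat_lit 18389684418), (nat_lit 23, nat_lit 18372907203), (nat_lit 20, nat_lit 19463426241), (nat_lit 8, nat_lit 19446649026), (nat_lit 40, nat_lit 20520390849)]⟩,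
   ⟨V6_14077931715, [(nat_lit 104, nat_lit 14145048771), (nat_lit 74, nat_lit 15218786499), (nat_lit 118, nat_lit 15202013379), (nat_lit 95, nat_lit 16292524227), (nat_lit 87, nat_lit 16275751107), (nat_lit 3, nat_lit 16258977987), (nat_lit 69, nat_lit 17349488835), (nat_lit 63, nat_lit 17332715715), (nat_lit 26, nat_lit 17315942595), (nat_lit 42, nat_lit 18406453443), (nat_lit 79, nat_lit 18389680323), (nat_lit 43, nat_lit 18372907203), (nat_lit 52, nat_lit 19463418051), (nat_lit 15, nat_lit 19446644931), (nat_lit 74, nat_lit 20520382659)]⟩],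
  [W_14144516288, W_14128001216, W_13070778560, W_11997556928, W_11997040832]⟩
theorem C_14145048771 : chkRec R_14145048771 = true := by decide +kernel

noncomputable def R_14145048834 : Rec := ⟨nat_lit 14145048834, nat_lit 13,
  [⟨V6_14077939968, [(nat_lit 83, nat_lit 14145048834), (nat_lit 124, nat_lit 15218790657), (nat_lit 123, nat_lit 15202013442), (nat_lit 63, nat_lit 16292532480), (nat_lit 49, nat_lit 16275755265), (nat_lit 31, nat_lit 16258978050), (nat_lit 97, nat_lit 17349497088), (nat_lit 43, nat_lit 17332719873), (nat_lit 13, nat_lit 17315942658), (nat_lit 31, nat_lit 18406461696), (nat_lit 105, nat_lit 18389684481), (nat_lit 91, nat_lit 18372907266), (nat_lit 64, nat_lit 19463426304), (nat_lit 42, nat_lit 19446649089), (nat_lit 80, nat_lit 20520390912)]⟩,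
   ⟨V6_14077939905, [(nat_lit 66, nat_lit 14145048834), (nat_lit 65, nat_lit 15218790657), (nat_lit 107, nat_lit 15218790594), (nat_lit 123, nat_lit 15202013442), (nat_lit 50, nat_lit 16292532417), (nat_lit 101, nat_lit 16275755265), (nat_lit 49, nat_lit 16275755202), (nat_lit 34, nat_lit 16258978050), (nat_lit 17, nat_lit 17349497025), (nat_lit 84, nat_lit 17332719873), (nat_lit 22, nat_lit 17332719810), (nat_lit 23, nat_lit 17315942658), (nat_lit 35, nat_lit 18406461633), (nat_lit 101, nat_lit 18389684481), (nat_lit 15, nat_lit 18389684418), (nat_lit 84, nat_lit 18372907266), (nat_lit 32, nat_lit 19463426241), (nat_lit 52, nat_lit 19446649089), (nat_lit 107, nat_lit 19446649026), (nat_lit 104, nat_lit 20520390849)]⟩,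
   ⟨V6_13004198082, [(nat_lit 114, nat_lit 14145048834), (nat_lit 72, nat_lit 15218790594), (nat_lit 54, nat_lit 15202013442), (nat_lit 94, nat_lit 16275755202), (nat_lit 73, nat_lit 16258978050), (nat_lit 35, nat_lit 17332719810), (nat_lit 27, nat_lit 17315942658), (nat_lit 81, nat_lit 18389684418), (nat_lit 23, nat_lit 18372907266), (nat_lit 126, nat_lit 19446649026)]⟩,
   ⟨V6_11997040833, [(nat_lit 18, nat_lit 14145048834), (nat_lit 15, nat_lit 15218790657), (nat_lit 54, nat_lit 15218790594), (nat_lit 120, nat_lit 15218528514), (nat_lit 3, nat_lit 16292532417), (nat_lit 27, nat_lit 16292270337), (nat_lit 121, nat_lit 16292270274), (nat_lit 67, nat_lit 16292008194), (nat_lit 85, nat_lit 17366012097), (nat_lit 14, nat_lit 17365750017), (nat_lit 54, nat_lit 17365749954), (nat_lit 116, nat_lit 18439491777)]⟩,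
   ⟨V6_11997036801, [(nat_lit 14, nat_lit 14145048834), (nat_lit 14, nat_lit 15218790657), (nat_lit 72, nat_lit 15218786562), (nat_lit 99, nat_lit 15218528514), (nat_lit 75, nat_lit 16292528385), (nat_lit 28, nat_lit 16292270337), (nat_lit 92, nat_lit 16292266242), (nat_lit 93, nat_lit 16292008194), (nat_lit 10, nat_lit 17366008065), (nat_lit 40, nat_lit 17365750017), (nat_lit 28, nat_lit 17365745922), (nat_lit 13, nat_lit 18439487745)]⟩],
  [W_14144520320, W_13071040640, W_13070782592, W_13054525568, W_13054001408, W_11997040832]⟩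
theorem C_14145048834 : chkRec R_14145048834 = true := by decide +kernel

noncomputable def R_14145048897 : Rec := ⟨nat_lit 14145048897, nat_lit 9,
  [⟨V6_14077939968, [(nat_lit 118, nat_lit 14145048897), (nat_lit 23, nat_lit 15218790720), (nat_lit 113, nat_lit 15218790657), (nat_lit 14, nat_lit 15202013505), (nat_lit 109, nat_lit 16292532480), (nat_lit 77, nat_lit 16275755328), (nat_lit 3, nat_lit 16275755265), (nat_lit 7, nat_lit 16258978113), (nat_lit 41, nat_lit 17349497088), (nat_lit 89, nat_lit 17332719936), (nat_lit 62, nat_lit 17332719873), (nat_lit 14, nat_lit 17315942721), (nat_lit 106, nat_lit 18406461696), (nat_lit 78, nat_lit 18389684544), (nat_lit 116, nat_lit 18389684481), (nat_lit 77, nat_lit 18372907329), (nat_lit 11, nat_lit 19463426304), (nat_lit 23, nat_lit 19446649152), (nat_lit 43, nat_lit 19446649089), (nat_lit 72, nat_lit 20520390912)]⟩,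
   ⟨V6_14077939905, [(nat_lit 117, nat_lit 14145048897), (nat_lit 7, nat_lit 15218790657), (nat_lit 79, nat_lit 15202013505), (nat_lit 106, nat_lit 16292532417), (nat_lit 1, nat_lit 16275755265), (nat_lit 72, nat_lit 16258978113), (nat_lit 47, nat_lit 17349497025), (nat_lit 65, nat_lit 17332719873), (nat_lit 3, nat_lit 17315942721), (nat_lit 69, nat_lit 18406461633), (nat_lit 114, nat_lit 18389684481), (nat_lit 108, nat_lit 18372907329), (nat_lit 90, nat_lit 19463426241), (nat_lit 23, nat_lit 19446649089), (nat_lit 100, nat_lit 20520390849)]⟩],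
  [W_13071044672, W_13070782592, W_11997564992, W_11997302912, W_11997040832]⟩
theorem C_14145048897 : chkRec R_14145048897 = true := by decide +kernel

noncomputable def R_14145052866 : Rec := ⟨nat_lit 14145052866, nat_lit 16,
  [⟨V6_14077944000, [(nat_lit 50, nat_lit 14145052866), (nat_lit 90, nat_lit 15218794689), (nat_lit 120, nat_lit 15202017474), (nat_lit 15, nat_lit 16292536512), (nat_lit 54, nat_lit 16275759297), (nat_lit 86, nat_lit 16258982082), (nat_lit 11, nat_lit 17349501120), (nat_lit 107, nat_lit 17332723905), (nat_lit 118, nat_lit 17315946690), (nat_lit 86, nat_lit 18406465728), (nat_lit 25, nat_lit 18389688513), (nat_lit 64, nat_lit 18372911298), (nat_lit 112, nat_lit 19463430336), (nat_lit 10, nat_lit 19446653121), (nat_lit 13, nat_lit 20520394944)]⟩,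
   ⟨V6_14077939905, [(nat_lit 21, nat_lit 14145052866), (nat_lit 111, nat_lit 15218794689), (nat_lit 2, nat_lit 15218790594), (nat_lit 69, nat_lit 15202017474), (nat_lit 85, nat_lit 16292532417), (nat_lit 5, nat_lit 16275759297), (nat_lit 12, nat_lit 16275755202), (nat_lit 16, nat_lit 16258982082), (nat_lit 64, nat_lit 17349497025), (nat_lit 27, nat_lit 17332723905), (nat_lit 27, nat_lit 17332719810), (nat_lit 23, nat_lit 17315946690), (nat_lit 26, nat_lit 18406461633), (nat_lit 31, nat_lit 18389688513), (nat_lit 95, nat_lit 18389684418), (nat_lit 76, nat_lit 18372911298), (nat_lit 26, nat_lit 19463426241), (nat_lit 83, nat_lit 19446653121), (nat_lit 79, nat_lit 19446649026), (nat_lit 24, nat_lit 20520390849)]⟩,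
   ⟨V6_14077939842, [(nat_lit 109, nat_lit 14145052866), (nat_lit 105, nat_lit 15218794626), (nat_lit 50, nat_lit 15218790594), (nat_lit 3, nat_lit 15202017474), (nat_lit 84, nat_lit 16292532354), (nat_lit 112, nat_lit 16275759234), (nat_lit 40, nat_lit 16275755202), (nat_lit 3, nat_lit 16258982082), (nat_lit 83, nat_lit 17349496962), (nat_lit 108, nat_lit 17332723842), (nat_lit 23, nat_lit 17332719810), (nat_lit 26, nat_lit 17315946690), (nat_lit 45, nat_lit 18406461570), (nat_lit 46, nat_lit 18389688450), (nat_lit 63, nat_lit 18389684418), (nat_lit 122, nat_lit 18372911298), (nat_lit 72, nat_lit 19463426178), (nat_lit 87, nat_lit 19446653058), (nat_lit 75, nat_lit 19446649026), (nat_lit 5, nat_lit 20520390786)]⟩,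
   ⟨V6_14077681794, [(nat_lit 49, nat_lit 14145052866), (nat_lit 54, nat_lit 15218794626), (nat_lit 19, nat_lit 15218532546), (nat_lit 20, nat_lit 15202017474), (nat_lit 85, nat_lit 16292274306), (nat_lit 30, nat_lit 16275759234), (nat_lit 107, nat_lit 16275497154), (nat_lit 94, nat_lit 16258982082), (nat_lit 78, nat_lit 17349238914), (nat_lit 77, nat_lit 17332723842), (nat_lit 86, nat_lit 17332461762), (nat_lit 35, nat_lit 17315946690), (nat_lit 73, nat_lit 18406203522), (nat_lit 84, nat_lit 18389688450), (nat_lit 85, nat_lit 18389426370), (nat_lit 31, nat_lit 18372911298), (nat_lit 3, nat_lit 19463168130), (nat_lit 78, nat_lit 19446653058), (nat_lit 52, nat_lit 19446390978), (nat_lit 40, nat_lit 20520132738)]⟩,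
   ⟨V6_13004198082, [(nat_lit 29, nat_lit 14145052866), (nat_lit 69, nat_lit 15218790594), (nat_lit 97, nat_lit 15202017474), (nat_lit 93, nat_lit 16275755202), (nat_lit 95, nat_lit 16258982082), (nat_lit 118, nat_lit 17332719810), (nat_lit 34, nat_lit 17315946690), (nat_lit 5, nat_lit 18389684418), (nat_lit 99, nat_lit 18372911298), (nat_lit 23, nat_lit 19446649026)]⟩],
  [W_14144778368, W_14128263296, W_14128001216, W_13071298688, W_13071036608, W_11997560960, W_11997556928, W_11997302912]⟩
theorem C_14145052866 : chkRec R_14145052866 = true := by decide +kernel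

noncomputable def R_14145052929 : Rec := ⟨nat_lit 14145052929, nat_lit 24,
  [⟨V6_14077944000, [(nat_lit 6, nat_lit 14145052929), (nat_lit 65, nat_lit 15218794752), (nat_lit 82, nat_lit 15218794689), (nat_lit 6, nat_lit 15202017537), (nat_lit 115, nat_lit 16292536512), (nat_lit 23, nat_lit 16275759360), (nat_lit 70, nat_lit 16275759297), (nat_lit 50, nat_lit 16258982145), (nat_lit 4, nat_lit 17349501120), (nat_lit 122, nat_lit 17332723968), (nat_lit 35, nat_lit 17332723905), (nat_lit 27, nat_lit 17315946753), (nat_lit 64, nat_lit 18406465728), (nat_lit 90, nat_lit 18389688576), (nat_lit 70, nat_lit 18389688513), (nat_lit 104, nat_lit 18372911361), (nat_lit 9, nat_lit 19463430336), (nat_lit 25, nat_lit 19446653184), (nat_lit 4, nat_lit 19446653121), (nat_lit 115, nat_lit 20520394944)]⟩,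
   ⟨V6_14077939968, [(nat_lit 47, nat_lit 14145052929), (nat_lit 86, nat_lit 15218794752), (nat_lit 54, nat_lit 15218790657), (nat_lit 1, nat_lit 15202017537), (nat_lit 111, nat_lit 16292532480), (nat_lit 83, nat_lit 16275759360), (nat_lit 115, nat_lit 16275755265), (nat_lit 104, nat_lit 16258982145), (nat_lit 31, nat_lit 17349497088), (nat_lit 126, nat_lit 17332723968), (nat_lit 19, nat_lit 17332719873), (nat_lit 66, nat_lit 17315946753), (nat_lit 38, nat_lit 18406461696), (nat_lit 70, nat_lit 18389688576), (nat_lit 113, nat_lit 18389684481), (nat_lit 17, nat_lit 18372911361), (nat_lit 2, nat_lit 19463426304), (nat_lit 27, nat_lit 19446653184), (nat_lit 39, nat_lit 19446649089), (nat_lit 3, nat_lit 20520390912)]⟩,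
   ⟨V6_14077939905, [(nat_lit 125, nat_lit 14145052929), (nat_lit 8, nat_lit 15218794689), (nat_lit 100, nat_lit 15218790657), (nat_lit 91, nat_lit 15202017537), (nat_lit 58, nat_lit 16292532417), (nat_lit 30, nat_lit 16275759297), (nat_lit 123, nat_lit 16275755265), (nat_lit 56, nat_lit 16258982145), (nat_lit 99, nat_lit 17349497025), (nat_lit 48, nat_lit 17332723905), (nat_lit 108, nat_lit 17332719873), (nat_lit 85, nat_lit 17315946753), (nat_lit 86, nat_lit 18406461633), (nat_lit 36, nat_lit 18389688513), (nat_lit 122, nat_lit 18389684481), (nat_lit 31, nat_lit 18372911361), (nat_lit 91, nat_lit 19463426241), (nat_lit 84, nat_lit 19446653121), (nat_lit 12, nat_lit 19446649089), (nat_lit 12, nat_lit 20520390849)]⟩,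
   ⟨V6_11997569088, [(nat_lit 50, nat_lit 14145052929), (nat_lit 106, nat_lit 15218794752), (nat_lit 84, nat_lit 15218794689), (nat_lit 66, nat_lit 16292536512), (nat_lit 12, nat_lit 16292536449), (nat_lit 124, nat_lit 17366278272), (nat_lit 11, nat_lit 17366278209), (nat_lit 81, nat_lit 18440020032)]⟩],
  [W_14144782400, W_14128267328, W_14111236160, W_13071040640, W_11997564992]⟩
theorem C_14145052929 : chkRec R_14145052929 = true := by decide +kernel

noncomputable def R_14145052992 : Rec := ⟨nat_lit 14145052992, nat_lit 21,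
  [⟨V6_13071310848, [(nat_lit 87, nat_lit 14145052992), (nat_lit 52, nat_lit 15218794752), (nat_lit 56, nat_lit 16292536512), (nat_lit 70, nat_lit 17366278272), (nat_lit 17, nat_lit 18440020032), (nat_lit 124, nat_lit 19513761792)]⟩,
   ⟨V6_11997569088, [(nat_lit 108, nat_lit 14145052992), (nat_lit 78, nat_lit 15218794752), (nat_lit 26, nat_lit 16292536512), (nat_lit 20, nat_lit 17366278272), (nat_lit 115, nat_lit 18440020032)]⟩],
  [W_14128013312, W_14128009280, W_14111236160, W_13037494400, W_13003940096, W_11963748608]⟩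
theorem C_14145052992 : chkRec R_14145052992 = true := by decide +kernel

noncomputable def R_14145056898 : Rec := ⟨nat_lit 14145056898, nat_lit 5,
  [⟨V6_14077939842, [(nat_lit 10, nat_lit 14145056898), (nat_lit 121, nat_lit 15218794626), (nat_lit 87, nat_lit 15202021506), (nat_lit 49, nat_lit 16292532354), (nat_lit 90, nat_lit 16275759234), (nat_lit 118, nat_lit 16258986114), (nat_lit 99, nat_lit 17349496962), (nat_lit 33, nat_lit 17332723842), (nat_lit 71, nat_lit 17315950722), (nat_lit 25, nat_lit 18406461570), (nat_lit 13, nat_lit 18389688450), (nat_lit 20, nat_lit 18372915330), (nat_lit 38, nat_lit 19463426178), (nat_lit 39, nat_lit 19446653058), (nat_lit 20, nat_lit 20520390786)]⟩,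
   ⟨V6_13071294594, [(nat_lit 31, nat_lit 14145056898), (nat_lit 3, nat_lit 15218794626), (nat_lit 99, nat_lit 16292532354), (nat_lit 108, nat_lit 17366270082), (nat_lit 52, nat_lit 18440007810), (nat_lit 31, nat_lit 19513745538)]⟩,
   ⟨V6_11947237506, [(nat_lit 72, nat_lit 14145056898), (nat_lit 51, nat_lit 15218794626), (nat_lit 64, nat_lit 15202021506), (nat_lit 43, nat_lit 16275759234), (nat_lit 15, nat_lit 16258986114), (nat_lit 42, nat_lit 17332723842), (nat_lit 108, nat_lit 17315950722), (nat_lit 33, nat_lit 18389688450)]⟩],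
  [W_13071298688, W_11997560960, W_11964014720]⟩
theorem C_14145056898 : chkRec R_14145056898 = true := by decide +kernel

noncomputable def R_14145056961 : Rec := ⟨nat_lit 14145056961, nat_lit 14,
  [⟨V6_13020983361, [(nat_lit 116, nat_lit 14145056961), (nat_lit 107, nat_lit 15218798721), (nat_lit 83, nat_lit 15202021569), (nat_lit 78, nat_lit 16292540481), (nat_lit 4, nat_lit 16275763329), (nat_lit 52, nat_lit 16258986177), (nat_lit 12, nat_lit 17349505089), (nat_lit 101, nat_lit 17332727937), (nat_lit 58, nat_lit 17315950785), (nat_lit 42, nat_lit 18406469697), (nat_lit 77, nat_lit 18389692545), (nat_lit 73, nat_lit 19463434305)]⟩,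
   ⟨V6_11997569088, [(nat_lit 22, nat_lit 14145056961), (nat_lit 7, nat_lit 15218798784), (nat_lit 103, nat_lit 15218798721), (nat_lit 111, nat_lit 15218794689), (nat_lit 78, nat_lit 16292540544), (nat_lit 36, nat_lit 16292540481), (nat_lit 109, nat_lit 16292536512), (nat_lit 99, nat_lit 16292536449), (nat_lit 98, nat_lit 17366282304), (nat_lit 36, nat_lit 17366278272), (nat_lit 94, nat_lit 17366278209), (nat_lit 111, nat_lit 18440020032)]⟩],
  [W_14128267328, W_14111486144, W_14077939904, W_11997556928]⟩
theorem C_14145056961 : chkRec R_14145056961 = true := by decide +kernel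

noncomputable def R_14145057024 : Rec := ⟨nat_lit 14145057024, nat_lit 17,
  [⟨V6_13054537728, [(nat_lit 46, nat_lit 14145057024), (nat_lit 54, nat_lit 15218798784), (nat_lit 44, nat_lit 15202021632), (nat_lit 17, nat_lit 16292540544), (nat_lit 8, nat_lit 16275763392), (nat_lit 50, nat_lit 17366282304), (nat_lit 109, nat_lit 17349505152), (nat_lit 22, nat_lit 18440024064), (nat_lit 39, nat_lit 18423246912), (nat_lit 97, nat_lit 19496988672)]⟩,
   ⟨V6_11997573120, [(nat_lit 94, nat_lit 14145057024), (nat_lit 13, nat_lit 15218798784), (nat_lit 86, nat_lit 16292540544), (nat_lit 91, nat_lit 17366282304), (nat_lit 112, nat_lit 18440024064)]⟩,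
   ⟨V6_11997569088, [(nat_lit 15, nat_lit 14145057024), (nat_lit 71, nat_lit 15218798784), (nat_lit 61, nat_lit 15218794752), (nat_lit 46, nat_lit 16292540544), (nat_lit 41, nat_lit 16292536512), (nat_lit 54, nat_lit 17366282304), (nat_lit 15, nat_lit 17366278272), (nat_lit 26, nat_lit 18440020032)]⟩],
  [W_14145044480, W_14128267328, W_11997564992]⟩
theorem C_14145057024 : chkRec R_14145057024 = true := by decide +kernel

noncomputable def R_14145306819 : Rec := ⟨nat_lit 14145306819, nat_lit 6,
  [⟨V6_11997819072, [(nat_lit 32, nat_lit 14145306819), (nat_lit 75, nat_lit 15219048642), (nat_lit 68, nat_lit 15219044547), (nat_lit 62, nat_lit 16292790465), (nat_lit 90, nat_lit 16292786370), (nat_lit 85, nat_lit 17366532288), (nat_lit 120, nat_lit 17366528193), (nat_lit 71, nat_lit 18440270016)]⟩],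
  [W_14144258240, W_14111486144, W_13021233344]⟩
theorem C_14145306819 : chkRec R_14145306819 = true := by decide +kernel

noncomputable def R_14145306882 : Rec := ⟨nat_lit 14145306882, nat_lit 10,
  [⟨V6_13021233408, [(nat_lit 60, nat_lit 14145306882), (nat_lit 49, nat_lit 15219048705), (nat_lit 72, nat_lit 15202271490), (nat_lit 124, nat_lit 16292790528), (nat_lit 2, nat_lit 16276013313), (nat_lit 102, nat_lit 16259236098), (nat_lit 37, nat_lit 17349755136), (nat_lit 89, nat_lit 17332977921), (nat_lit 4, nat_lit 17316200706), (nat_lit 110, nat_lit 18406719744), (nat_lit 19, nat_lit 18389942529), (nat_lit 13, nat_lit 19463684352)]⟩],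
  [W_14144520320, W_14111490176, W_13071040640]⟩
theorem C_14145306882 : chkRec R_14145306882 = true := by decide +kernel

noncomputable def R_14145310914 : Rec := ⟨nat_lit 14145310914, nat_lit 20,
  [⟨V6_14094975168, [(nat_lit 54, nat_lit 14145310914), (nat_lit 61, nat_lit 15219052737), (nat_lit 44, nat_lit 15219048642), (nat_lit 103, nat_lit 15202275522), (nat_lit 64, nat_lit 16292794560), (nat_lit 31, nat_lit 16292790465), (nat_lit 92, nat_lit 16276017345), (nat_lit 76, nat_lit 16276013250), (nat_lit 51, nat_lit 16259240130), (nat_lit 72, nat_lit 17366532288), (nat_lit 65, nat_lit 17349759168), (nat_lit 74, nat_lit 17349755073), (nat_lit 82, nat_lit 17332981953), (nat_lit 64, nat_lit 17332977858), (nat_lit 77, nat_lit 17316204738), (nat_lit 38, nat_lit 18423496896), (nat_lit 98, nat_lit 18406723776), (nat_lit 113, nat_lit 18406719681), (nat_lit 9, nat_lit 18389946561), (nat_lit 71, nat_lit 18389942466), (nat_lit 72, nat_lit 19480461504), (nat_lit 103, nat_lit 19463688384), (nat_lit 74, nat_lit 19463684289), (nat_lit 22, nat_lit 20537426112)]⟩,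
   ⟨V6_11947495554, [(nat_lit 124, nat_lit 14145310914), (nat_lit 41, nat_lit 15219052674), (nat_lit 14, nat_lit 15202275522), (nat_lit 90, nat_lit 16276017282), (nat_lit 4, nat_lit 16259240130), (nat_lit 87, nat_lit 17332981890), (nat_lit 51, nat_lit 17316204738), (nat_lit 71, nat_lit 18389946498)]⟩,
   ⟨V6_11947491522, [(nat_lit 54, nat_lit 14145310914), (nat_lit 62, nat_lit 15219048642), (nat_lit 10, nat_lit 15202275522), (nat_lit 92, nat_lit 16276013250), (nat_lit 68, nat_lit 16259240130), (nat_lit 101, nat_lit 17332977858), (nat_lit 15, nat_lit 17316204738), (nat_lit 56, nat_lit 18389942466)]⟩],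
  [W_14144516288, W_14128001216, W_14111748224, W_14111486144, W_13071298688, W_13071040640, W_11997819008, W_11997556928, W_11997040832]⟩
theorem C_14145310914 : chkRec R_14145310914 = true := by decide +kernel

noncomputable def R_14145310977 : Rec := ⟨nat_lit 14145310977, nat_lit 29,
  [⟨V6_14094979137, [(nat_lit 126, nat_lit 14145310977), (nat_lit 21, nat_lit 15219052737), (nat_lit 95, nat_lit 15202275585), (nat_lit 25, nat_lit 16292794497), (nat_lit 13, nat_lit 16276017345), (nat_lit 68, nat_lit 16259240193), (nat_lit 12, nat_lit 17366536257), (nat_lit 34, nat_lit 17349759105), (nat_lit 52, nat_lit 17332981953), (nat_lit 34, nat_lit 17316204801), (nat_lit 91, nat_lit 18423500865), (nat_lit 113, nat_lit 18406723713), (nat_lit 101, nat_lit 18389946561), (nat_lit 65, nat_lit 19480465473), (nat_lit 69, nat_lit 19463688321), (nat_lit 75, nat_lit 20537430081)]⟩,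
   ⟨V6_13021233408, [(nat_lit 42, nat_lit 14145310977), (nat_lit 32, nat_lit 15219052800), (nat_lit 120, nat_lit 15219048705), (nat_lit 59, nat_lit 15202275585), (nat_lit 107, nat_lit 16292790528), (nat_lit 20, nat_lit 16276017408), (nat_lit 31, nat_lit 16276013313), (nat_lit 17, nat_lit 16259240193), (nat_lit 76, nat_lit 17349755136), (nat_lit 94, nat_lit 17332982016), (nat_lit 88, nat_lit 17332977921), (nat_lit 16, nat_lit 17316204801), (nat_lit 99, nat_lit 18406719744), (nat_lit 94, nat_lit 18389946624), (nat_lit 79, nat_lit 18389942529), (nat_lit 22, nat_lit 19463684352)]⟩,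
   ⟨V6_11947495680, [(nat_lit 68, nat_lit 14145310977), (nat_lit 22, nat_lit 15219052800), (nat_lit 27, nat_lit 15202275585), (nat_lit 119, nat_lit 16276017408), (nat_lit 4, nat_lit 16259240193), (nat_lit 122, nat_lit 17332982016), (nat_lit 91, nat_lit 17316204801), (nat_lit 24, nat_lit 18389946624)]⟩,
   ⟨V6_11947491585, [(nat_lit 52, nat_lit 14145310977), (nat_lit 55, nat_lit 15219048705), (nat_lit 99, nat_lit 15202275585), (nat_lit 98, nat_lit 16276013313), (nat_lit 89, nat_lit 16259240193), (nat_lit 22, nat_lit 17332977921), (nat_lit 85, nat_lit 17316204801), (nat_lit 21, nat_lit 18389942529)]⟩],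
  [W_14144782400, W_14144524352, W_14144520320, W_14128267328, W_14110970048, W_14094450944, W_13054001408, W_11997823040, W_11997564992]⟩
theorem C_14145310977 : chkRec R_14145310977 = true := by decide +kernel

noncomputable def R_14145311040 : Rec := ⟨nat_lit 14145311040, nat_lit 19,
  [⟨V6_13071568896, [(nat_lit 117, nat_lit 14145311040), (nat_lit 13, nat_lit 15219052800), (nat_lit 14, nat_lit 16292794560), (nat_lit 81, nat_lit 17366536320), (nat_lit 36, nat_lit 18440278080), (nat_lit 31, nat_lit 19514019840)]⟩,
   ⟨V6_11947495680, [(nat_lit 104, nat_lit 14145311040), (nat_lit 116, nat_lit 15219052800), (nat_lit 125, nat_lit 15202275648), (nat_lit 45, nat_lit 16276017408), (nat_lit 39, nat_lit 16259240256), (nat_lit 52, nat_lit 17332982016), (nat_lit 47, nat_lit 17316204864), (nat_lit 4, nat_lit 18389946624)]⟩],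
  [W_14127747200, W_14111232128, W_14110970048, W_14094979136, W_13070782592, W_13021237376, W_11997564992, W_11997302912, W_11997040832]⟩
theorem C_14145311040 : chkRec R_14145311040 = true := by decide +kernel

noncomputable def R_14145314946 : Rec := ⟨nat_lit 14145314946, nat_lit 15,
  [⟨V6_14145298560, [(nat_lit 27, nat_lit 14145314946), (nat_lit 125, nat_lit 15219056769), (nat_lit 100, nat_lit 15219052674), (nat_lit 76, nat_lit 16292798592), (nat_lit 71, nat_lit 16292794497), (nat_lit 125, nat_lit 16292790402), (nat_lit 98, nat_lit 17366536320), (nat_lit 107, nat_lit 17366532225), (nat_lit 80, nat_lit 17366528130), (nat_lit 36, nat_lit 18440274048), (nat_lit 49, nat_lit 18440269953), (nat_lit 90, nat_lit 18440265858), (nat_lit 51, nat_lit 19514011776), (nat_lit 64, nat_lit 19514007681), (nat_lit 126, nat_lit 20587749504)]⟩],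
  [W_14094459008, W_13054267520, W_13037494400, W_13021237376, W_13020979328, W_11997302912, W_11964014720]⟩
theorem C_14145314946 : chkRec R_14145314946 = true := by decide +kernel

noncomputable def R_14145315009 : Rec := ⟨nat_lit 14145315009, nat_lit 42,
  [⟨V6_14128013376, [(nat_lit 95, nat_lit 14145315009), (nat_lit 90, nat_lit 15219056832), (nat_lit 53, nat_lit 15219056769), (nat_lit 34, nat_lit 15218794689), (nat_lit 6, nat_lit 15202279617), (nat_lit 125, nat_lit 16292798592), (nat_lit 102, nat_lit 16292798529), (nat_lit 117, nat_lit 16292536512), (nat_lit 29, nat_lit 16292536449), (nat_lit 107, nat_lit 16292274369), (nat_lit 27, nat_lit 16276021440), (nat_lit 89, nat_lit 16276021377), (nat_lit 44, nat_lit 16275759297), (nat_lit 38, nat_lit 17366540352), (nat_lit 109, nat_lit 17366278272), (nat_lit 64, nat_lit 17366278209), (nat_lit 90, nat_lit 17366016192), (nat_lit 7, nat_lit 17366016129), (nat_lit 14, nat_lit 17349763200), (nat_lit 111, nat_lit 17349763137), (nat_lit 73, nat_lit 17349501120), (nat_lit 93, nat_lit 17349501057),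 (nat_lit 110, nat_lit 17349238977), (nat_lit 39, nat_lit 18440020032), (nat_lit 36, nat_lit 18439757952), (nat_lit 80, nat_lit 18439757889), (nat_lit 19, nat_lit 18423504960), (nat_lit 109, nat_lit 18423242880), (nat_lit 21, nat_lit 18423242817), (nat_lit 30, nat_lit 18422980800), (nat_lit 94, nat_lit 18422980737), (nat_lit 95, nat_lit 19513499712), (nat_lit 97, nat_lit 19496984640), (nat_lit 101, nat_lit 19496722560), (nat_lit 71, nat_lit 19496722497), (nat_lit 81, nat_lit 20570464320)]⟩,
   ⟨V6_13021241409, [(nat_lit 117, nat_lit 14145315009), (nat_lit 28, nat_lit 15219056769), (nat_lit 87, nat_lit 15202279617), (nat_lit 94, nat_lit 16292798529), (nat_lit 96, nat_lit 16276021377), (nat_lit 105, nat_lit 16259244225), (nat_lit 34, nat_lit 17349763137), (nat_lit 11, nat_lit 17332985985), (nat_lit 122, nat_lit 17316208833), (nat_lit 119, nat_lit 18406727745), (nat_lit 70, nat_lit 18389950593), (nat_lit 101, nat_lit 19463692353)]⟩,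
   ⟨V6_11997569088, [(nat_lit 99, nat_lit 14145315009), (nat_lit 7, nat_lit 15219056832), (nat_lit 102, nat_lit 15219056769), (nat_lit 120, nat_lit 15218794689), (nat_lit 11, nat_lit 16292798592), (nat_lit 87, nat_lit 16292798529), (nat_lit 89, nat_lit 16292536512), (nat_lit 30, nat_lit 16292536449), (nat_lit 15, nat_lit 17366540352), (nat_lit 29, nat_lit 17366278272), (nat_lit 79, nat_lit 17366278209), (nat_lit 99, nat_lit 18440020032)]⟩],
  [W_14144782400, W_14128525376, W_14128001216, W_14111748224, W_14111486144, W_14094721088, W_13071560768, W_13021237376, W_13021233344, W_11997564992, W_11997556928]⟩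
theorem C_14145315009 : chkRec R_14145315009 = true := by decide +kernel

noncomputable def R_14145315072 : Rec := ⟨nat_lit 14145315072, nat_lit 50,
  [⟨V6_14144790528, [(nat_lit 25, nat_lit 14145315072), (nat_lit 53, nat_lit 15219056832), (nat_lit 107, nat_lit 15218794752), (nat_lit 74, nat_lit 16292798592), (nat_lit 95, nat_lit 16292536512), (nat_lit 16, nat_lit 16292274432), (nat_lit 5, nat_lit 17366540352), (nat_lit 75, nat_lit 17366278272), (nat_lit 69, nat_lit 17366016192), (nat_lit 63, nat_lit 18440282112), (nat_lit 55, nat_lit 18440020032), (nat_lit 99, nat_lit 18439757952), (nat_lit 100, nat_lit 19513761792), (nat_lit 63, nat_lit 19513499712), (nat_lit 24, nat_lit 20587241472)]⟩,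
   ⟨V6_13071568896, [(nat_lit 68, nat_lit 14145315072), (nat_lit 26, nat_lit 15219056832), (nat_lit 78, nat_lit 15219052800), (nat_lit 108, nat_lit 16292798592), (nat_lit 126, nat_lit 16292794560), (nat_lit 102, nat_lit 17366540352), (nat_lit 62, nat_lit 17366536320), (nat_lit 13, nat_lit 18440282112), (nat_lit 51, nat_lit 18440278080), (nat_lit 72, nat_lit 19514019840)]⟩,
   ⟨V6_13071310848, [(nat_lit 125, nat_lit 14145315072), (nat_lit 42, nat_lit 15219056832), (nat_lit 66, nat_lit 15218794752), (nat_lit 4, nat_lit 16292798592), (nat_lit 73, nat_lit 16292536512), (nat_lit 35, nat_lit 17366540352), (nat_lit 90, nat_lit 17366278272), (nat_lit 28, nat_lit 18440282112), (nat_lit 38, nat_lit 18440020032), (nat_lit 13, nat_lit 19513761792)]⟩],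
  [W_14145044480, W_14128013312, W_14111236160, W_14111232128, W_14094983168, W_14094721088, W_14094450944, W_13071048704, W_13054263488, W_13021233344, W_13020971264, W_11997298880, W_11980783808, W_11980525760, W_11947491584, W_11947233536]⟩
theorem C_14145315072 : chkRec R_14145315072 = true := by decide +kernel

noncomputable def R_14145319041 : Rec := ⟨nat_lit 14145319041, nat_lit 27,
  [⟨V6_14145298560, [(nat_lit 17, nat_lit 14145319041), (nat_lit 76, nat_lit 15219060864), (nat_lit 33, nat_lit 15219056769), (nat_lit 99, nat_lit 16292798592), (nat_lit 4, nat_lit 16292794497), (nat_lit 44, nat_lit 17366536320), (nat_lit 31, nat_lit 17366532225), (nat_lit 104, nat_lit 18440274048), (nat_lit 18, nat_lit 18440269953), (nat_lit 67, nat_lit 19514011776), (nat_lit 82, nat_lit 19514007681), (nat_lit 33, nat_lit 20587749504)]⟩,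
   ⟨V6_13021241409, [(nat_lit 120, nat_lit 14145319041), (nat_lit 109, nat_lit 15219060801), (nat_lit 71, nat_lit 15219056769), (nat_lit 90, nat_lit 15202283649), (nat_lit 95, nat_lit 16292798529), (nat_lit 69, nat_lit 16276025409), (nat_lit 33, nat_lit 16276021377), (nat_lit 54, nat_lit 16259248257), (nat_lit 79, nat_lit 17349763137), (nat_lit 50, nat_lit 17332990017), (nat_lit 100, nat_lit 17332985985), (nat_lit 47, nat_lit 17316212865), (nat_lit 65, nat_lit 18406727745), (nat_lit 110, nat_lit 18389954625), (nat_lit 85, nat_lit 18389950593), (nat_lit 34, nat_lit 19463692353)]⟩],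
  [W_14128525376, W_14094979136, W_14094721088, W_13071560768, W_13021237376, W_11997564992, W_11964018752, W_11947503680]⟩
theorem C_14145319041 : chkRec R_14145319041 = true := by decide +kernel

noncomputable def R_14145319104 : Rec := ⟨nat_lit 14145319104, nat_lit 45,
  [⟨V6_13071568896, [(nat_lit 24, nat_lit 14145319104), (nat_lit 54, nat_lit 15219060864), (nat_lit 30, nat_lit 15219056832), (nat_lit 32, nat_lit 16292802624), (nat_lit 110, nat_lit 16292798592), (nat_lit 68, nat_lit 16292794560), (nat_lit 100, nat_lit 17366544384), (nat_lit 61, nat_lit 17366540352), (nat_lit 43, nat_lit 17366536320), (nat_lit 101, nat_lit 18440282112), (nat_lit 116, nat_lit 18440278080), (nat_lit 79, nat_lit 19514019840)]⟩,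
   ⟨V6_13071310848, [(nat_lit 116, nat_lit 14145319104), (nat_lit 8, nat_lit 15219060864), (nat_lit 68, nat_lit 15219056832), (nat_lit 122, nat_lit 15218798784), (nat_lit 24, nat_lit 16292802624), (nat_lit 37, nat_lit 16292798592), (nat_lit 98, nat_lit 16292540544), (nat_lit 72, nat_lit 16292536512), (nat_lit 80, nat_lit 17366544384), (nat_lit 67, nat_lit 17366540352), (nat_lit 87, nat_lit 17366282304), (nat_lit 54, nat_lit 17366278272), (nat_lit 71, nat_lit 18440282112), (nat_lit 119, nat_lit 18440024064), (nat_lit 91, nat_lit 18440020032), (nat_lit 126, nat_lit 19513761792)]⟩,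
   ⟨V6_11981058048, [(nat_lit 96, nat_lit 14145319104), (nat_lit 33, nat_lit 15219060864), (nat_lit 108, nat_lit 15202283712), (nat_lit 29, nat_lit 16292802624), (nat_lit 118, nat_lit 16276025472), (nat_lit 80, nat_lit 17366544384), (nat_lit 102, nat_lit 17349767232), (nat_lit 101, nat_lit 18423508992)]⟩],
  [W_14145302528, W_14145044480, W_14111486144, W_14094983168, W_14094725120, W_14094721088, W_13071560768, W_13071298688, W_13054521536, W_13021233344, W_11997556928, W_11980783808]⟩
theorem C_14145319104 : chkRec R_14145319104 = true := by decide +kernel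

noncomputable def R_14145323073 : Rec := ⟨nat_lit 14145323073, nat_lit 10,
  [⟨V6_14094979137, [(nat_lit 107, nat_lit 14145323073), (nat_lit 106, nat_lit 15219060801), (nat_lit 72, nat_lit 15202287681), (nat_lit 92, nat_lit 16292798529), (nat_lit 47, nat_lit 16276025409), (nat_lit 77, nat_lit 16259252289), (nat_lit 33, nat_lit 17366536257), (nat_lit 8, nat_lit 17349763137), (nat_lit 111, nat_lit 17332990017), (nat_lit 56, nat_lit 17316216897), (nat_lit 5, nat_lit 18423500865), (nat_lit 44, nat_lit 18406727745), (nat_lit 10, nat_lit 18389954625), (nat_lit 119, nat_lit 19480465473), (nat_lit 13, nat_lit 19463692353), (nat_lit 62, nat_lit 20537430081)]⟩,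
   ⟨V6_13021241409, [(nat_lit 21, nat_lit 14145323073), (nat_lit 97, nat_lit 15219060801), (nat_lit 121, nat_lit 15202287681), (nat_lit 6, nat_lit 16292798529), (nat_lit 18, nat_lit 16276025409), (nat_lit 107, nat_lit 16259252289), (nat_lit 50, nat_lit 17349763137), (nat_lit 64, nat_lit 17332990017), (nat_lit 125, nat_lit 17316216897), (nat_lit 77, nat_lit 18406727745), (nat_lit 58, nat_lit 18389954625), (nat_lit 121, nat_lit 19463692353)]⟩],
  [W_14128525376, W_13071560768]⟩
theorem C_14145323073 : chkRec R_14145323073 = true := by decide +kernel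

noncomputable def R_14145323136 : Rec := ⟨nat_lit 14145323136, nat_lit 25,
  [⟨V6_14145298560, [(nat_lit 46, nat_lit 14145323136), (nat_lit 51, nat_lit 15219060864), (nat_lit 44, nat_lit 16292798592), (nat_lit 116, nat_lit 17366536320), (nat_lit 79, nat_lit 18440274048), (nat_lit 6, nat_lit 19514011776), (nat_lit 117, nat_lit 20587749504)]⟩,
   ⟨V6_13021249536, [(nat_lit 5, nat_lit 14145323136), (nat_lit 49, nat_lit 15219064896), (nat_lit 23, nat_lit 15202287744), (nat_lit 19, nat_lit 16292806656), (nat_lit 22, nat_lit 16276029504), (nat_lit 113, nat_lit 16259252352), (nat_lit 76, nat_lit 17349771264), (nat_lit 110, nat_lit 17332994112), (nat_lit 63, nat_lit 17316216960), (nat_lit 118, nat_lit 18406735872), (nat_lit 8, nat_lit 18389958720), (nat_lit 73, nat_lit 19463700480)]⟩],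
  [W_14145302528, W_14094983168, W_14094979136, W_13021245440, W_11997827072]⟩
theorem C_14145323136 : chkRec R_14145323136 = true := by decide +kernel

noncomputable def R_14145564867 : Rec := ⟨nat_lit 14145564867, nat_lit 2,
  [⟨V6_14144254146, [(nat_lit 54, nat_lit 14145564867), (nat_lit 41, nat_lit 15219306690), (nat_lit 15, nat_lit 15219044547), (nat_lit 79, nat_lit 16292786370), (nat_lit 30, nat_lit 16292524227), (nat_lit 96, nat_lit 17366266050), (nat_lit 30, nat_lit 17366003907), (nat_lit 98, nat_lit 18439745730), (nat_lit 16, nat_lit 18439483587), (nat_lit 69, nat_lit 19513225410), (nat_lit 45, nat_lit 19512963267), (nat_lit 94, nat_lit 20586705090)]⟩,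
   ⟨V6_13037482179, [(nat_lit 22, nat_lit 14145564867), (nat_lit 75, nat_lit 15219044547), (nat_lit 83, nat_lit 15202529475), (nat_lit 83, nat_lit 16292524227), (nat_lit 117, nat_lit 16276009155), (nat_lit 33, nat_lit 16259494083), (nat_lit 52, nat_lit 17366003907), (nat_lit 4, nat_lit 17349488835), (nat_lit 10, nat_lit 17332973763), (nat_lit 124, nat_lit 18422968515), (nat_lit 59, nat_lit 18406453443), (nat_lit 29, nat_lit 19479933123)]⟩],
  [W_14144516288]⟩
theorem C_14145564867 : chkRec R_14145564867 = true := by decide +kernel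

noncomputable def R_14145568962 : Rec := ⟨nat_lit 14145568962, nat_lit 14,
  [⟨V6_14144258241, [(nat_lit 108, nat_lit 14145568962), (nat_lit 121, nat_lit 15219310785), (nat_lit 17, nat_lit 15219048642), (nat_lit 83, nat_lit 16292790465), (nat_lit 101, nat_lit 16292528322), (nat_lit 39, nat_lit 17366270145), (nat_lit 26, nat_lit 17366008002), (nat_lit 39, nat_lit 18439749825), (nat_lit 110, nat_lit 18439487682), (nat_lit 97, nat_lit 19513229505), (nat_lit 19, nat_lit 19512967362), (nat_lit 122, nat_lit 20586709185)]⟩,
   ⟨V6_14144258178, [(nat_lit 119, nat_lit 14145568962), (nat_lit 79, nat_lit 15219310722), (nat_lit 93, nat_lit 15219048642), (nat_lit 77, nat_lit 16292790402), (nat_lit 68, nat_lit 16292528322), (nat_lit 28, nat_lit 17366270082), (nat_lit 80, nat_lit 17366008002), (nat_lit 4, nat_lit 18439749762), (nat_lit 33, nat_lit 18439487682), (nat_lit 93, nat_lit 19513229442), (nat_lit 56, nat_lit 19512967362), (nat_lit 116, nat_lit 20586709122)]⟩,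
   ⟨V6_14144254146, [(nat_lit 45, nat_lit 14145568962), (nat_lit 81, nat_lit 15219306690), (nat_lit 29, nat_lit 15219048642), (nat_lit 37, nat_lit 16292786370), (nat_lit 28, nat_lit 16292528322), (nat_lit 54, nat_lit 17366266050), (nat_lit 110, nat_lit 17366008002), (nat_lit 63, nat_lit 18439745730), (nat_lit 61, nat_lit 18439487682), (nat_lit 94, nat_lit 19513225410), (nat_lit 18, nat_lit 19512967362), (nat_lit 12, nat_lit 20586705090)]⟩,
   ⟨V6_14127481026, [(nat_lit 122, nat_lit 14145568962), (nat_lit 105, nat_lit 15219048642), (nat_lit 10, nat_lit 15202533570), (nat_lit 13, nat_lit 16292528322), (nat_lit 113, nat_lit 16276013250), (nat_lit 98, nat_lit 17366008002), (nat_lit 45, nat_lit 17349492930), (nat_lit 122, nat_lit 18439487682), (nat_lit 9, nat_lit 18422972610), (nat_lit 75, nat_lit 19512967362), (nat_lit 31, nat_lit 19496452290), (nat_lit 73, nat_lit 20569931970)]⟩,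
   ⟨V6_13070774466, [(nat_lit 43, nat_lit 14145568962), (nat_lit 53, nat_lit 15219306690), (nat_lit 26, nat_lit 15219048642), (nat_lit 36, nat_lit 16292786370), (nat_lit 3, nat_lit 16292528322), (nat_lit 124, nat_lit 17366266050), (nat_lit 118, nat_lit 17366008002), (nat_lit 35, nat_lit 18439745730), (nat_lit 104, nat_lit 18439487682), (nat_lit 53, nat_lit 19513225410)]⟩,
   ⟨V6_13070516418, [(nat_lit 4, nat_lit 14145568962), (nat_lit 22, nat_lit 15219048642), (nat_lit 94, nat_lit 16292528322), (nat_lit 68, nat_lit 17366008002), (nat_lit 49, nat_lit 18439487682), (nat_lit 22, nat_lit 19512967362)]⟩],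
  [W_14111748224, W_13054783616, W_13038268544, W_11997819008, W_11981303936, W_11981045888, W_11964526784]⟩
theorem C_14145568962 : chkRec R_14145568962 = true := by decide +kernel

noncomputable def R_14145569025 : Rec := ⟨nat_lit 14145569025, nat_lit 15,
  [⟨V6_14144258304, [(nat_lit 11, nat_lit 14145569025), (nat_lit 79, nat_lit 15219310848), (nat_lit 3, nat_lit 15219048705), (nat_lit 63, nat_lit 16292790528), (nat_lit 99, nat_lit 16292528385), (nat_lit 68, nat_lit 17366270208), (nat_lit 1, nat_lit 17366008065), (nat_lit 59, nat_lit 18439749888), (nat_lit 113, nat_lit 18439487745), (nat_lit 64, nat_lit 19513229568), (nat_lit 26, nat_lit 19512967425), (nat_lit 48, nat_lit 20586709248)]⟩,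
   ⟨V6_14144258241, [(nat_lit 78, nat_lit 14145569025), (nat_lit 13, nat_lit 15219310785), (nat_lit 113, nat_lit 15219048705), (nat_lit 62, nat_lit 16292790465), (nat_lit 18, nat_lit 16292528385), (nat_lit 73, nat_lit 17366270145), (nat_lit 57, nat_lit 17366008065), (nat_lit 60, nat_lit 18439749825), (nat_lit 87, nat_lit 18439487745), (nat_lit 91, nat_lit 19513229505), (nat_lit 2, nat_lit 19512967425), (nat_lit 56, nat_lit 20586709185)]⟩,
   ⟨V6_14127481089, [(nat_lit 105, nat_lit 14145569025), (nat_lit 81, nat_lit 15219048705), (nat_lit 44, nat_lit 15202533633), (nat_lit 108, nat_lit 16292528385), (nat_lit 40, nat_lit 16276013313), (nat_lit 101, nat_lit 17366008065), (nat_lit 71, nat_lit 17349492993), (nat_lit 105, nat_lit 18439487745), (nat_lit 65, nat_lit 18422972673), (nat_lit 76, nat_lit 19512967425), (nat_lit 111, nat_lit 19496452353), (nat_lit 118, nat_lit 20569932033)]⟩,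
   ⟨V6_11997036801, [(nat_lit 20, nat_lit 14145569025), (nat_lit 45, nat_lit 15219048705), (nat_lit 61, nat_lit 16292528385), (nat_lit 114, nat_lit 17366008065), (nat_lit 88, nat_lit 18439487745)]⟩],
  [W_14111752256, W_13054787648, W_13038272576, W_11981045888]⟩
theorem C_14145569025 : chkRec R_14145569025 = true := by decide +kernel

noncomputable def R_14145572994 : Rec := ⟨nat_lit 14145572994, nat_lit 13,
  [⟨V6_14145298560, [(nat_lit 43, nat_lit 14145572994), (nat_lit 88, nat_lit 15219314817), (nat_lit 86, nat_lit 15219310722), (nat_lit 123, nat_lit 15219052674), (nat_lit 94, nat_lit 16293056640), (nat_lit 14, nat_lit 16293052545), (nat_lit 18, nat_lit 16293048450), (nat_lit 17, nat_lit 16292794497), (nat_lit 34, nat_lit 16292790402), (nat_lit 20, nat_lit 17366794368), (nat_lit 100, nat_lit 17366790273), (nat_lit 5, nat_lit 17366786178), (nat_lit 117, nat_lit 17366536320), (nat_lit 122, nat_lit 17366532225), (nat_lit 102, nat_lit 17366528130), (nat_lit 46, nat_lit 18440532096), (nat_lit 63, nat_lit 18440528001), (nat_lit 82, nat_lit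 18440274048), (nat_lit 111, nat_lit 18440269953), (nat_lit 118, nat_lit 18440265858), (nat_lit 100, nat_lit 19514269824), (nat_lit 104, nat_lit 19514011776), (nat_lit 24, nat_lit 19514007681), (nat_lit 113, nat_lit 20587749504)]⟩],
  [W_14111748224, W_13071040640, W_13070782592, W_13054267520, W_11997302912]⟩
theorem C_14145572994 : chkRec R_14145572994 = true := by decide +kernel

noncomputable def R_14145573057 : Rec := ⟨nat_lit 14145573057, nat_lit 35,
  [⟨V6_14128787520, [(nat_lit 82, nat_lit 14145573057), (nat_lit 38, nat_lit 15219314880), (nat_lit 7, nat_lit 15219314817), (nat_lit 102, nat_lit 15219310785), (nat_lit 11, nat_lit 15202537665), (nat_lit 114, nat_lit 16293056640), (nat_lit 124, nat_lit 16293056577), (nat_lit 58, nat_lit 16293052608), (nat_lit 52, nat_lit 16293052545), (nat_lit 93, nat_lit 16293048513), (nat_lit 73, nat_lit 16276279488), (nat_lit 7, nat_lit 16276279425), (nat_lit 8, nat_lit 16276275393), (nat_lit 80, nat_lit 17366798400), (nat_lit 37, nat_lit 17366794368), (nat_lit 125, nat_lit 17366794305), (nat_lit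 61, nat_lit 17366790336), (nat_lit 118, nat_lit 17366790273), (nat_lit 97, nat_lit 17350021248), (nat_lit 100, nat_lit 17350021185), (nat_lit 49, nat_lit 17350017216), (nat_lit 75, nat_lit 17350017153), (nat_lit 10, nat_lit 17350013121), (nat_lit 73, nat_lit 18440536128), (nat_lit 84, nat_lit 18440532096), (nat_lit 1, nat_lit 18440532033), (nat_lit 118, nat_lit 18423763008), (nat_lit 110, nat_lit 18423758976), (nat_lit 18, nat_lit 18423758913), (nat_lit 81, nat_lit 18423754944), (nat_lit 125, nat_lit 18423754881), (nat_lit 44, nat_lit 19514273856), (nat_lit 86, nat_lit 19497500736), (nat_lit 4, nat_lit 19497496704), (nat_lit 2, nat_lit 19497496641), (nat_lit 37, nat_lit 20571238464)]⟩],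
  [W_14111748224, W_14111490176, W_14111486144, W_14111232128, W_14110970048, W_13071560768, W_13038010496, W_11997564992, W_11997556928, W_11997302912, W_11997298880, W_11997040832, W_11964526784, W_11964268736, W_11964010688]⟩
theorem C_14145573057 : chkRec R_14145573057 = true := by decide +kernel

noncomputable def R_14145573120 : Rec := ⟨nat_lit 14145573120, nat_lit 37,
  [⟨V6_14112018432, [(nat_lit 18, nat_lit 14145573120), (nat_lit 59, nat_lit 15219314880), (nat_lit 13, nat_lit 15202537728), (nat_lit 4, nat_lit 16293056640), (nat_lit 125, nat_lit 16276279488), (nat_lit 32, nat_lit 16259502336), (nat_lit 72, nat_lit 17366798400), (nat_lit 62, nat_lit 17350021248), (nat_lit 38, nat_lit 17333244096), (nat_lit 96, nat_lit 18440540160), (nat_lit 11, nat_lit 18423763008), (nat_lit 125, nat_lit 18406985856), (nat_lit 46, nat_lit 19497504768), (nat_lit 67, nat_lit 19480727616), (nat_lit 74, nat_lit 20554469376)]⟩,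
   ⟨V6_13071568896, [(nat_lit 110, nat_lit 14145573120), (nat_lit 37, nat_lit 15219314880), (nat_lit 45, nat_lit 15219052800), (nat_lit 23, nat_lit 16293056640), (nat_lit 119, nat_lit 16292794560), (nat_lit 21, nat_lit 17366798400), (nat_lit 29, nat_lit 17366536320), (nat_lit 64, nat_lit 18440540160), (nat_lit 7, nat_lit 18440278080), (nat_lit 75, nat_lit 19514019840)]⟩],
  [W_14145044480, W_14112014336, W_14111232128, W_14110970048, W_13071040640, W_13070778560, W_13054263488, W_13054001408, W_13037486336, W_11997564992, W_11997298880, W_11997040832, W_11980783808, W_11980525760, W_11980521728, W_11964268736, W_11963748608]⟩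
theorem C_14145573120 : chkRec R_14145573120 = true := by decide +kernel

noncomputable def R_14145577089 : Rec := ⟨nat_lit 14145577089, nat_lit 35,
  [⟨V6_14145298560, [(nat_lit 3, nat_lit 14145577089), (nat_lit 116, nat_lit 15219318912), (nat_lit 116, nat_lit 15219314817), (nat_lit 95, nat_lit 15219056769), (nat_lit 35, nat_lit 16293056640), (nat_lit 12, nat_lit 16293052545), (nat_lit 28, nat_lit 16292798592), (nat_lit 80, nat_lit 16292794497), (nat_lit 30, nat_lit 17366794368), (nat_lit 61, nat_lit 17366790273), (nat_lit 82, nat_lit 17366536320), (nat_lit 13, nat_lit 17366532225), (nat_lit 98, nat_lit 18440532096), (nat_lit 77, nat_lit 18440528001), (nat_lit 46, nat_lit 18440274048), (nat_lit 97, nat_lit 18440269953), (nat_lit 101, nat_lit 19514269824), (nat_lit 119, nat_lit 19514011776), (nat_lit 86, nat_lit 19514007681), (nat_lit 108, nat_lit 20587749504)]⟩,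
   ⟨V6_11997569088, [(nat_lit 35, nat_lit 14145577089), (nat_lit 66, nat_lit 15219318912), (nat_lit 29, nat_lit 15219318849), (nat_lit 117, nat_lit 15219056769), (nat_lit 33, nat_lit 16293060672), (nat_lit 59, nat_lit 16292798592), (nat_lit 22, nat_lit 16292798529), (nat_lit 114, nat_lit 16292536449), (nat_lit 64, nat_lit 17366540352), (nat_lit 98, nat_lit 17366278272), (nat_lit 73, nat_lit 17366278209), (nat_lit 25, nat_lit 18440020032)]⟩],
  [W_14144782400, W_14128783424, W_14128525376, W_14112010304, W_14111236160, W_13071560768, W_13037494400, W_11998081088]⟩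
theorem C_14145577089 : chkRec R_14145577089 = true := by decide +kernel

noncomputable def R_14145577152 : Rec := ⟨nat_lit 14145577152, nat_lit 58,
  [⟨V6_14144790528, [(nat_lit 75, nat_lit 14145577152), (nat_lit 91, nat_lit 15219318912), (nat_lit 75, nat_lit 15219056832), (nat_lit 86, nat_lit 16293060672), (nat_lit 36, nat_lit 16292798592), (nat_lit 65, nat_lit 16292536512), (nat_lit 10, nat_lit 17366802432), (nat_lit 5, nat_lit 17366540352), (nat_lit 89, nat_lit 17366278272), (nat_lit 84, nat_lit 17366016192), (nat_lit 111, nat_lit 18440282112), (nat_lit 97, nat_lit 18440020032), (nat_lit 21, nat_lit 18439757952), (nat_lit 21, nat_lit 19513761792), (nat_lit 14, nat_lit 19513499712), (nat_lit 86, nat_lit 20587241472)]⟩,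
   ⟨V6_14112018432, [(nat_lit 119, nat_lit 14145577152), (nat_lit 53, nat_lit 15219318912), (nat_lit 113, nat_lit 15219314880), (nat_lit 29, nat_lit 15202541760), (nat_lit 78, nat_lit 16293060672), (nat_lit 82, nat_lit 16293056640), (nat_lit 112, nat_lit 16276283520), (nat_lit 112, nat_lit 16276279488), (nat_lit 73, nat_lit 16259506368), (nat_lit 45, nat_lit 17366802432), (nat_lit 67, nat_lit 17366798400), (nat_lit 5, nat_lit 17350025280), (nat_lit 109, nat_lit 17350021248), (nat_lit 31, nat_lit 17333248128), (nat_lit 50, nat_lit 17333244096), (nat_lit 90, nat_lit 18440540160), (nat_lit 63, nat_lit 18423767040), (nat_lit 38, nat_lit 18423763008), (nat_lit 100, nat_lit 18406989888), (nat_lit 76, nat_lit 18406985856), (nat_lit 81, nat_lit 19497504768), (nat_lit 37, nat_lit 19480731648), (nat_lit 56, nat_lit 19480727616), (nat_lit 65, nat_lit 20554469376)]⟩,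
   ⟨V6_13071568896, [(nat_lit 82, nat_lit 14145577152), (nat_lit 49, nat_lit 15219318912), (nat_lit 101, nat_lit 15219314880), (nat_lit 32, nat_lit 15219056832), (nat_lit 57, nat_lit 16293060672), (nat_lit 27, nat_lit 16293056640), (nat_lit 80, nat_lit 16292798592), (nat_lit 28, nat_lit 16292794560), (nat_lit 64, nat_lit 17366802432), (nat_lit 46, nat_lit 17366798400), (nat_lit 102, nat_lit 17366540352), (nat_lit 117, nat_lit 17366536320), (nat_lit 60, nat_lit 18440540160), (nat_lit 35, nat_lit 18440282112), (nat_lit 78, nat_lit 18440278080), (nat_lit 35, nat_lit 19514019840)]⟩,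
   ⟨V6_13071310848, [(nat_lit 95, nat_lit 14145577152), (nat_lit 37, nat_lit 15219318912), (nat_lit 81, nat_lit 15219056832), (nat_lit 93, nat_lit 16293060672), (nat_lit 50, nat_lit 16292798592), (nat_lit 70, nat_lit 16292536512), (nat_lit 8, nat_lit 17366802432), (nat_lit 35, nat_lit 17366540352), (nat_lit 56, nat_lit 17366278272), (nat_lit 7, nat_lit 18440282112), (nat_lit 37, nat_lit 18440020032), (nat_lit 4, nat_lit 19513761792)]⟩],
  [W_14145302528, W_14145044480, W_14128787456, W_14128013312, W_14128001216, W_14112010304, W_14111236160, W_14111232128, W_13071036608, W_13054263488, W_11998081088, W_11997556928, W_11997298880, W_11980783808, W_11964526784]⟩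
theorem C_14145577152 : chkRec R_14145577152 = true := by decide +kernel

noncomputable def R_14145581121 : Rec := ⟨nat_lit 14145581121, nat_lit 18,
  [⟨V6_14145556545, [(nat_lit 23, nat_lit 14145581121), (nat_lit 79, nat_lit 15219318849), (nat_lit 86, nat_lit 16293056577), (nat_lit 36, nat_lit 17366794305), (nat_lit 63, nat_lit 18440532033), (nat_lit 2, nat_lit 19514269761), (nat_lit 90, nat_lit 20588007489)]⟩,
   ⟨V6_11998081089, [(nat_lit 35, nat_lit 14145581121), (nat_lit 29, nat_lit 15219318849), (nat_lit 3, nat_lit 16293056577), (nat_lit 62, nat_lit 17366794305), (nat_lit 76, nat_lit 18440532033)]⟩,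
   ⟨V6_11997569088, [(nat_lit 107, nat_lit 14145581121), (nat_lit 61, nat_lit 15219322944), (nat_lit 37, nat_lit 15219318849), (nat_lit 25, nat_lit 15219060801), (nat_lit 43, nat_lit 16293060672), (nat_lit 107, nat_lit 16292802624), (nat_lit 71, nat_lit 16292798529), (nat_lit 1, nat_lit 16292540481), (nat_lit 6, nat_lit 17366540352), (nat_lit 21, nat_lit 17366282304), (nat_lit 102, nat_lit 17366278209), (nat_lit 17, nat_lit 18440020032)]⟩],
  [W_14145556544, W_14128783424, W_14128525376, W_14112010304, W_13038272576, W_11964018752]⟩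
theorem C_14145581121 : chkRec R_14145581121 = true := by decide +kernel

noncomputable def R_14145581184 : Rec := ⟨nat_lit 14145581184, nat_lit 46,
  [⟨V6_14145298560, [(nat_lit 44, nat_lit 14145581184), (nat_lit 122, nat_lit 15219318912), (nat_lit 99, nat_lit 15219060864), (nat_lit 53, nat_lit 16293056640), (nat_lit 31, nat_lit 16292798592), (nat_lit 122, nat_lit 17366794368), (nat_lit 105, nat_lit 17366536320), (nat_lit 41, nat_lit 18440532096), (nat_lit 105, nat_lit 18440274048), (nat_lit 93, nat_lit 19514269824), (nat_lit 105, nat_lit 19514011776), (nat_lit 102, nat_lit 20587749504)]⟩,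
   ⟨V6_13071310848, [(nat_lit 2, nat_lit 14145581184), (nat_lit 53, nat_lit 15219322944), (nat_lit 115, nat_lit 15219318912), (nat_lit 121, nat_lit 15219060864), (nat_lit 48, nat_lit 16293064704), (nat_lit 14, nat_lit 16293060672), (nat_lit 120, nat_lit 16292802624), (nat_lit 104, nat_lit 16292798592), (nat_lit 32, nat_lit 16292540544), (nat_lit 104, nat_lit 17366802432), (nat_lit 49, nat_lit 17366544384), (nat_lit 74, nat_lit 17366540352), (nat_lit 5, nat_lit 17366282304), (nat_lit 93, nat_lit 17366278272), (nat_lit 48, nat_lit 18440282112), (nat_lit 36, nat_lit 18440024064), (nat_lit 117, nat_lit 18440020032), (nat_lit 117, nat_lit 19513761792)]⟩,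
   ⟨V6_11997573120, [(nat_lit 68, nat_lit 14145581184), (nat_lit 34, nat_lit 15219322944), (nat_lit 30, nat_lit 15219060864), (nat_lit 65, nat_lit 16293064704), (nat_lit 39, nat_lit 16292802624), (nat_lit 24, nat_lit 16292540544), (nat_lit 16, nat_lit 17366544384), (nat_lit 45, nat_lit 17366282304), (nat_lit 48, nat_lit 18440024064)]⟩,
   ⟨V6_11981058048, [(nat_lit 73, nat_lit 14145581184), (nat_lit 8, nat_lit 15219322944), (nat_lit 7, nat_lit 15219060864), (nat_lit 21, nat_lit 15202545792), (nat_lit 113, nat_lit 16293064704), (nat_lit 18, nat_lit 16292802624), (nat_lit 99, nat_lit 16276287552), (nat_lit 116, nat_lit 16276025472), (nat_lit 49, nat_lit 17366544384), (nat_lit 44, nat_lit 17350029312), (nat_lit 72, nat_lit 17349767232), (nat_lit 49, nat_lit 18423508992)]⟩],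
  [W_14145302528, W_14145044480, W_14128787456, W_14128783424, W_14112010304, W_13071822848, W_13071560768, W_11997564992]⟩
theorem C_14145581184 : chkRec R_14145581184 = true := by decide +kernel

noncomputable def R_14145585216 : Rec := ⟨nat_lit 14145585216, nat_lit 25,
  [⟨V6_14128787520, [(nat_lit 57, nat_lit 14145585216), (nat_lit 9, nat_lit 15219322944), (nat_lit 105, nat_lit 15202549824), (nat_lit 50, nat_lit 16293060672), (nat_lit 105, nat_lit 16276287552), (nat_lit 60, nat_lit 17366798400), (nat_lit 92, nat_lit 17350025280), (nat_lit 95, nat_lit 18440536128), (nat_lit 100, nat_lit 18423763008), (nat_lit 30, nat_lit 19514273856), (nat_lit 11, nat_lit 19497500736), (nat_lit 124, nat_lit 20571238464)]⟩],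
  [W_14145560576, W_14145556544, W_14145302528, W_14112014336, W_13071822848, W_11998085120, W_11964280832]⟩
theorem C_14145585216 : chkRec R_14145585216 = true := by decide +kernel

noncomputable def R_14145589248 : Rec := ⟨nat_lit 14145589248, nat_lit 5,
  [⟨V6_14112018432, [(nat_lit 42, nat_lit 14145589248), (nat_lit 117, nat_lit 15219326976), (nat_lit 1, nat_lit 15202553856), (nat_lit 8, nat_lit 16293064704), (nat_lit 32, nat_lit 16276291584), (nat_lit 16, nat_lit 16259518464), (nat_lit 73, nat_lit 17366802432), (nat_lit 58, nat_lit 17350029312), (nat_lit 68, nat_lit 17333256192), (nat_lit 50, nat_lit 18440540160), (nat_lit 40, nat_lit 18423767040), (nat_lit 123, nat_lit 18406993920), (nat_lit 79, nat_lit 19497504768), (nat_lit 38, nat_lit 19480731648), (nat_lit 83, nat_lit 20554469376)]⟩],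
  [W_14145560576, W_11998085120]⟩
theorem C_14145589248 : chkRec R_14145589248 = true := by decide +kernel

noncomputable def R_14145827010 : Rec := ⟨nat_lit 14145827010, nat_lit 5,
  [⟨V6_11997819072, [(nat_lit 88, nat_lit 14145827010), (nat_lit 113, nat_lit 15219568833), (nat_lit 23, nat_lit 15219306690), (nat_lit 86, nat_lit 16293310656), (nat_lit 95, nat_lit 16293048513), (nat_lit 3, nat_lit 16292786370), (nat_lit 100, nat_lit 17366790336), (nat_lit 93, nat_lit 17366528193), (nat_lit 82, nat_lit 18440270016)]⟩],
  [W_14144516288, W_13071298688]⟩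
theorem C_14145827010 : chkRec R_14145827010 = true := by decide +kernel

noncomputable def R_14145831042 : Rec := ⟨nat_lit 14145831042, nat_lit 8,
  [⟨V6_14145298560, [(nat_lit 13, nat_lit 14145831042), (nat_lit 45, nat_lit 15219572865), (nat_lit 65, nat_lit 15219568770), (nat_lit 38, nat_lit 15219310722), (nat_lit 37, nat_lit 16293314688), (nat_lit 113, nat_lit 16293310593), (nat_lit 70, nat_lit 16293306498), (nat_lit 96, nat_lit 16293052545), (nat_lit 104, nat_lit 16293048450), (nat_lit 32, nat_lit 16292790402), (nat_lit 8, nat_lit 17367052416), (nat_lit 27, nat_lit 17367048321), (nat_lit 50, nat_lit 17366794368), (nat_lit 57, nat_lit 17366790273), (nat_lit 15, nat_lit 17366786178), (nat_lit 77, nat_lit 17366532225), (nat_lit 41, nat_lit 17366528130), (nat_lit 67, nat_lit 18440790144), (nat_lit 106, nat_lit 18440532096), (nat_lit 119, nat_lit 18440528001), (nat_lit 82, nat_lit 18440274048), (nat_lit 101, nat_lit 18440269953), (nat_lit 40, nat_lit 18440265858), (nat_lit 33, nat_lit 19514269824), (nat_lit 55, nat_lit 19514011776), (nat_lit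 52, nat_lit 19514007681), (nat_lit 52, nat_lit 20587749504)]⟩],
  [W_14128521344, W_13071040640]⟩
theorem C_14145831042 : chkRec R_14145831042 = true := by decide +kernel

noncomputable def R_14145831105 : Rec := ⟨nat_lit 14145831105, nat_lit 21,
  [⟨V6_14128787520, [(nat_lit 36, nat_lit 14145831105), (nat_lit 58, nat_lit 15219572928), (nat_lit 1, nat_lit 15219572865), (nat_lit 52, nat_lit 15219568833), (nat_lit 66, nat_lit 15219310785), (nat_lit 56, nat_lit 15202795713), (nat_lit 105, nat_lit 16293314688), (nat_lit 14, nat_lit 16293314625), (nat_lit 32, nat_lit 16293310656), (nat_lit 96, nat_lit 16293310593), (nat_lit 68, nat_lit 16293052608), (nat_lit 9, nat_lit 16293052545), (nat_lit 25, nat_lit 16293048513), (nat_lit 104, nat_lit 16276537536), (nat_lit 86, nat_lit 16276537473), (nat_lit 120, nat_lit 16276533441), (nat_lit 24, nat_lit 16276275393), (nat_lit 55, nat_lit 17367056448), (nat_lit 86, nat_lit 17367052416), (nat_lit 115, nat_lit 17367052353), (nat_lit 123, nat_lit 17366794368), (nat_lit 58, nat_lit 17366794305), (nat_lit 31,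 nat_lit 17366790336), (nat_lit 120, nat_lit 17366790273), (nat_lit 30, nat_lit 17350279296), (nat_lit 41, nat_lit 17350279233), (nat_lit 87, nat_lit 17350275264), (nat_lit 28, nat_lit 17350275201), (nat_lit 2, nat_lit 17350017216), (nat_lit 16, nat_lit 17350017153), (nat_lit 116, nat_lit 17350013121), (nat_lit 28, nat_lit 18440794176), (nat_lit 55, nat_lit 18440536128), (nat_lit 15, nat_lit 18440532096), (nat_lit 108, nat_lit 18440532033), (nat_lit 87, nat_lit 18424021056), (nat_lit 53, nat_lit 18424017024), (nat_lit 32, nat_lit 18424016961), (nat_lit 65, nat_lit 18423758976), (nat_lit 39, nat_lit 18423758913), (nat_lit 33, nat_lit 18423754944), (nat_lit 89, nat_lit 18423754881), (nat_lit 18, nat_lit 19514273856), (nat_lit 111, nat_lit 19497758784), (nat_lit 116, nat_lit 19497500736), (nat_lit 33, nat_lit 19497496704), (nat_lit 124, nat_lit 19497496641), (nat_lit 77, nat_lit 20571238464)]⟩],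
  [W_14144782400, W_13071560768, W_13071040640, W_11998081088, W_11997556928, W_11997298880]⟩
theorem C_14145831105 : chkRec R_14145831105 = true := by decide +kernel

noncomputable def R_14145831168 : Rec := ⟨nat_lit 14145831168, nat_lit 18,
  [⟨V6_14144258304, [(nat_lit 69, nat_lit 14145831168), (nat_lit 36, nat_lit 15219310848), (nat_lit 68, nat_lit 16292790528), (nat_lit 90, nat_lit 17366270208), (nat_lit 67, nat_lit 18439749888), (nat_lit 47, nat_lit 19513229568), (nat_lit 66, nat_lit 20586709248)]⟩,
   ⟨V6_13055311872, [(nat_lit 107, nat_lit 14145831168), (nat_lit 98, nat_lit 15219572928), (nat_lit 14, nat_lit 15202795776), (nat_lit 92, nat_lit 16293314688), (nat_lit 118, nat_lit 16276537536), (nat_lit 39, nat_lit 17367056448), (nat_lit 52, nat_lit 17350279296), (nat_lit 7, nat_lit 18440798208), (nat_lit 99, nat_lit 18424021056), (nat_lit 2, nat_lit 19497762816)]⟩],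
  [W_14145044480, W_13071040640, W_13054001408, W_11980783808]⟩
theorem C_14145831168 : chkRec R_14145831168 = true := by decide +kernel

noncomputable def R_14145835137 : Rec := ⟨nat_lit 14145835137, nat_lit 27,
  [⟨V6_14145298560, [(nat_lit 18, nat_lit 14145835137), (nat_lit 67, nat_lit 15219576960), (nat_lit 25, nat_lit 15219572865), (nat_lit 110, nat_lit 15219314817), (nat_lit 5, nat_lit 16293314688), (nat_lit 50, nat_lit 16293310593), (nat_lit 2, nat_lit 16293056640), (nat_lit 12, nat_lit 16293052545), (nat_lit 81, nat_lit 16292794497), (nat_lit 21, nat_lit 17367052416), (nat_lit 66, nat_lit 17367048321), (nat_lit 47, nat_lit 17366794368), (nat_lit 88, nat_lit 17366790273), (nat_lit 58, nat_lit 17366536320), (nat_lit 116, nat_lit 17366532225), (nat_lit 57, nat_lit 18440790144), (nat_lit 38, nat_lit 18440532096), (nat_lit 21, nat_lit 18440528001), (nat_lit 81, nat_lit 18440274048), (nat_lit 15, nat_lit 18440269953), (nat_lit 42, nat_lit 19514269824), (nat_lit 74, nat_lit 19514011776), (nat_lit 29, nat_lit 19514007681), (nat_lit 86,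 nat_lit 20587749504)]⟩,
   ⟨V6_11998077057, [(nat_lit 125, nat_lit 14145835137), (nat_lit 99, nat_lit 15219572865), (nat_lit 65, nat_lit 15219314817), (nat_lit 38, nat_lit 16293310593), (nat_lit 47, nat_lit 16293052545), (nat_lit 113, nat_lit 17367048321), (nat_lit 5, nat_lit 17366790273), (nat_lit 62, nat_lit 18440528001)]⟩,
   ⟨V6_11981561985, [(nat_lit 56, nat_lit 14145835137), (nat_lit 112, nat_lit 15219572865), (nat_lit 76, nat_lit 15202799745), (nat_lit 7, nat_lit 16293310593), (nat_lit 102, nat_lit 16276537473), (nat_lit 119, nat_lit 17367048321), (nat_lit 115, nat_lit 17350275201), (nat_lit 21, nat_lit 18424012929)]⟩],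
  [W_14144782400, W_14144524352, W_14128525376, W_13071044672, W_11997564992, W_11981566016]⟩
theorem C_14145835137 : chkRec R_14145835137 = true := by decide +kernel

noncomputable def R_14145835200 : Rec := ⟨nat_lit 14145835200, nat_lit 43,
  [⟨V6_13071568896, [(nat_lit 15, nat_lit 14145835200), (nat_lit 12, nat_lit 15219576960), (nat_lit 58, nat_lit 15219314880), (nat_lit 17, nat_lit 16293318720), (nat_lit 80, nat_lit 16293056640), (nat_lit 1, nat_lit 16292794560), (nat_lit 19, nat_lit 17367060480), (nat_lit 73, nat_lit 17366798400), (nat_lit 3, nat_lit 17366536320), (nat_lit 71, nat_lit 18440540160), (nat_lit 83, nat_lit 18440278080), (nat_lit 83, nat_lit 19514019840)]⟩,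
   ⟨V6_13055311872, [(nat_lit 20, nat_lit 14145835200), (nat_lit 57, nat_lit 15219576960), (nat_lit 119, nat_lit 15219572928), (nat_lit 3, nat_lit 15202799808), (nat_lit 56, nat_lit 16293318720), (nat_lit 95, nat_lit 16293314688), (nat_lit 118, nat_lit 16276541568), (nat_lit 52, nat_lit 16276537536), (nat_lit 93, nat_lit 17367060480), (nat_lit 29, nat_lit 17367056448), (nat_lit 14, nat_lit 17350283328), (nat_lit 15, nat_lit 17350279296), (nat_lit 17, nat_lit 18440798208), (nat_lit 109, nat_lit 18424025088), (nat_lit 88, nat_lit 18424021056), (nat_lit 118, nat_lit 19497762816)]⟩,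
   ⟨V6_11981574144, [(nat_lit 50, nat_lit 14145835200), (nat_lit 41, nat_lit 15219576960), (nat_lit 88, nat_lit 15202799808), (nat_lit 113, nat_lit 16293318720), (nat_lit 35, nat_lit 16276541568), (nat_lit 84, nat_lit 17367060480), (nat_lit 69, nat_lit 17350283328), (nat_lit 87, nat_lit 18424025088)]⟩],
  [W_14145302528, W_14145044480, W_14144516288, W_14128787456, W_14128001216, W_13071298688, W_13071036608, W_13054263488, W_11997556928, W_11997040832, W_11980783808]⟩
theorem C_14145835200 : chkRec R_14145835200 = true := by decide +kernel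

noncomputable def R_14145839169 : Rec := ⟨nat_lit 14145839169, nat_lit 20,
  [⟨V6_14128013376, [(nat_lit 85, nat_lit 14145839169), (nat_lit 81, nat_lit 15219580992), (nat_lit 97, nat_lit 15219318849), (nat_lit 6, nat_lit 15202803777), (nat_lit 49, nat_lit 16293060672), (nat_lit 33, nat_lit 16292798529), (nat_lit 4, nat_lit 16276545600), (nat_lit 42, nat_lit 16276283457), (nat_lit 30, nat_lit 17366540352), (nat_lit 50, nat_lit 17366278209), (nat_lit 125, nat_lit 17350025280), (nat_lit 2, nat_lit 17349763137), (nat_lit 123, nat_lit 18440020032), (nat_lit 45, nat_lit 18439757889), (nat_lit 101, nat_lit 18423504960), (nat_lit 43, nat_lit 18423242817), (nat_lit 77, nat_lit 19513499712), (nat_lit 37, nat_lit 19496984640), (nat_lit 80, nat_lit 19496722497), (nat_lit 114, nat_lit 20570464320)]⟩],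
  [W_14145556544, W_14128783424, W_14128525376, W_13055303744, W_11998081088]⟩
theorem C_14145839169 : chkRec R_14145839169 = true := by decide +kernel

noncomputable def R_14145839232 : Rec := ⟨nat_lit 14145839232, nat_lit 48,
  [⟨V6_14145298560, [(nat_lit 44, nat_lit 14145839232), (nat_lit 31, nat_lit 15219576960), (nat_lit 122, nat_lit 15219318912), (nat_lit 88, nat_lit 16293314688), (nat_lit 46, nat_lit 16293056640), (nat_lit 95, nat_lit 16292798592), (nat_lit 126, nat_lit 17367052416), (nat_lit 80, nat_lit 17366794368), (nat_lit 16, nat_lit 17366536320), (nat_lit 113, nat_lit 18440790144), (nat_lit 39, nat_lit 18440532096), (nat_lit 75, nat_lit 18440274048), (nat_lit 89, nat_lit 19514269824), (nat_lit 24, nat_lit 19514011776), (nat_lit 38, nat_lit 20587749504)]⟩,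
   ⟨V6_14144790528, [(nat_lit 52, nat_lit 14145839232), (nat_lit 5, nat_lit 15219580992), (nat_lit 46, nat_lit 15219318912), (nat_lit 80, nat_lit 16293322752), (nat_lit 17, nat_lit 16293060672), (nat_lit 91, nat_lit 16292798592), (nat_lit 88, nat_lit 17366802432), (nat_lit 14, nat_lit 17366540352), (nat_lit 58, nat_lit 17366278272), (nat_lit 40, nat_lit 18440282112), (nat_lit 79, nat_lit 18440020032), (nat_lit 56, nat_lit 18439757952), (nat_lit 97, nat_lit 19513761792), (nat_lit 14, nat_lit 19513499712), (nat_lit 23, nat_lit 20587241472)]⟩,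
   ⟨V6_13071310848, [(nat_lit 5, nat_lit 14145839232), (nat_lit 105, nat_lit 15219580992), (nat_lit 115, nat_lit 15219318912), (nat_lit 22, nat_lit 16293322752), (nat_lit 11, nat_lit 16293060672), (nat_lit 77, nat_lit 16292798592), (nat_lit 45, nat_lit 17366802432), (nat_lit 98, nat_lit 17366540352), (nat_lit 95, nat_lit 17366278272), (nat_lit 46, nat_lit 18440282112), (nat_lit 110, nat_lit 18440020032), (nat_lit 85, nat_lit 19513761792)]⟩],
  [W_14145302528, W_14145044480, W_14129045504, W_14128787456, W_14128013312, W_13055307776, W_13055303744, W_11998081088, W_11981570048, W_11981566016]⟩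
theorem C_14145839232 : chkRec R_14145839232 = true := by decide +kernel

noncomputable def R_14145843264 : Rec := ⟨nat_lit 14145843264, nat_lit 35,
  [⟨V6_13055311872, [(nat_lit 93, nat_lit 14145843264), (nat_lit 87, nat_lit 15219585024), (nat_lit 114, nat_lit 15219580992), (nat_lit 47, nat_lit 15202807872), (nat_lit 51, nat_lit 16293322752), (nat_lit 103, nat_lit 16293318720), (nat_lit 96, nat_lit 16276549632), (nat_lit 87, nat_lit 16276545600), (nat_lit 60, nat_lit 17367060480), (nat_lit 7, nat_lit 17367056448), (nat_lit 49, nat_lit 17350287360), (nat_lit 120, nat_lit 17350283328), (nat_lit 122, nat_lit 18440798208), (nat_lit 52, nat_lit 18424025088), (nat_lit 35, nat_lit 18424021056), (nat_lit 89, nat_lit 19497762816)]⟩,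
   ⟨V6_11997569088, [(nat_lit 116, nat_lit 14145843264), (nat_lit 94, nat_lit 15219580992), (nat_lit 100, nat_lit 15219322944), (nat_lit 66, nat_lit 16293060672), (nat_lit 75, nat_lit 16292802624), (nat_lit 16, nat_lit 17366540352), (nat_lit 48, nat_lit 17366282304), (nat_lit 78, nat_lit 18440020032)]⟩,
   ⟨V6_11981574144, [(nat_lit 60, nat_lit 14145843264), (nat_lit 45, nat_lit 15219585024), (nat_lit 47, nat_lit 15219580992), (nat_lit 125, nat_lit 15202807872), (nat_lit 34, nat_lit 16293322752), (nat_lit 6, nat_lit 16293318720), (nat_lit 79, nat_lit 16276549632), (nat_lit 10, nat_lit 16276545600), (nat_lit 46, nat_lit 17367060480), (nat_lit 118, nat_lit 17350287360), (nat_lit 29, nat_lit 17350283328), (nat_lit 45, nat_lit 18424025088)]⟩,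
   ⟨V6_11981058048, [(nat_lit 62, nat_lit 14145843264), (nat_lit 126, nat_lit 15219585024), (nat_lit 47, nat_lit 15219322944), (nat_lit 35, nat_lit 15202807872), (nat_lit 45, nat_lit 16293064704), (nat_lit 47, nat_lit 16292802624), (nat_lit 27, nat_lit 16276549632), (nat_lit 90, nat_lit 16276287552), (nat_lit 57, nat_lit 17366544384), (nat_lit 31, nat_lit 17350029312), (nat_lit 6, nat_lit 17349767232), (nat_lit 41, nat_lit 18423508992)]⟩],
  [W_14145818624, W_14145556544, W_14145302528, W_14145044480, W_13072080896, W_13055303744, W_11998343168]⟩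
theorem C_14145843264 : chkRec R_14145843264 = true := by decide +kernel

noncomputable def R_14145847296 : Rec := ⟨nat_lit 14145847296, nat_lit 14,
  [⟨V6_13072084992, [(nat_lit 29, nat_lit 14145847296), (nat_lit 113, nat_lit 15219585024), (nat_lit 124, nat_lit 16293322752), (nat_lit 14, nat_lit 17367060480), (nat_lit 100, nat_lit 18440798208), (nat_lit 71, nat_lit 19514535936)]⟩,
   ⟨V6_11998347264, [(nat_lit 78, nat_lit 14145847296), (nat_lit 46, nat_lit 15219585024), (nat_lit 66, nat_lit 16293322752), (nat_lit 95, nat_lit 17367060480), (nat_lit 6, nat_lit 18440798208)]⟩],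
  [W_14129045504, W_14128787456, W_11981570048]⟩
theorem C_14145847296 : chkRec R_14145847296 = true := by decide +kernel

noncomputable def R_14146089090 : Rec := ⟨nat_lit 14146089090, nat_lit 2,
  [⟨V6_11998077057, [(nat_lit 125, nat_lit 14146089090), (nat_lit 64, nat_lit 15219830913), (nat_lit 91, nat_lit 15219826818), (nat_lit 96, nat_lit 15219568770), (nat_lit 26, nat_lit 16293568641), (nat_lit 38, nat_lit 16293310593), (nat_lit 124, nat_lit 16293306498), (nat_lit 86, nat_lit 16293048450), (nat_lit 83, nat_lit 17367048321), (nat_lit 70, nat_lit 17366790273), (nat_lit 90, nat_lit 17366786178), (nat_lit 61, nat_lit 18440528001)]⟩],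
  [W_13071556736]⟩
theorem C_14146089090 : chkRec R_14146089090 = true := by decide +kernel

noncomputable def R_14146089153 : Rec := ⟨nat_lit 14146089153, nat_lit 5,
  [⟨V6_11997819072, [(nat_lit 36, nat_lit 14146089153), (nat_lit 16, nat_lit 15219830976), (nat_lit 16, nat_lit 15219568833), (nat_lit 30, nat_lit 16293310656), (nat_lit 76, nat_lit 16293048513), (nat_lit 76, nat_lit 17366790336), (nat_lit 4, nat_lit 17366528193), (nat_lit 76, nat_lit 18440270016)]⟩],
  [W_13071560768]⟩
theorem C_14146089153 : chkRec R_14146089153 = true := by decide +kernel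

noncomputable def R_14146093185 : Rec := ⟨nat_lit 14146093185, nat_lit 10,
  [⟨V6_11998343232, [(nat_lit 41, nat_lit 14146093185), (nat_lit 46, nat_lit 15219835008), (nat_lit 26, nat_lit 15219834945), (nat_lit 34, nat_lit 15219830913), (nat_lit 19, nat_lit 15219572865), (nat_lit 74, nat_lit 16293576768), (nat_lit 64, nat_lit 16293572736), (nat_lit 32, nat_lit 16293572673), (nat_lit 106, nat_lit 16293314688), (nat_lit 9, nat_lit 16293314625), (nat_lit 40, nat_lit 16293310593), (nat_lit 33, nat_lit 17367314496), (nat_lit 87, nat_lit 17367056448), (nat_lit 101, nat_lit 17367052416), (nat_lit 28, nat_lit 17367052353), (nat_lit 35, nat_lit 18440794176)]⟩,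
   ⟨V6_11998081089, [(nat_lit 122, nat_lit 14146093185), (nat_lit 122, nat_lit 15219834945), (nat_lit 82, nat_lit 15219830913), (nat_lit 28, nat_lit 15219572865), (nat_lit 124, nat_lit 16293572673), (nat_lit 24, nat_lit 16293314625), (nat_lit 2, nat_lit 16293310593), (nat_lit 42, nat_lit 16293052545), (nat_lit 11, nat_lit 17367052353), (nat_lit 71, nat_lit 17366794305), (nat_lit 11, nat_lit 17366790273), (nat_lit 47, nat_lit 18440532033)]⟩],
  [W_14144782400, W_13071556736]⟩
theorem C_14146093185 : chkRec R_14146093185 = true := by decide +kernel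

noncomputable def R_14146093248 : Rec := ⟨nat_lit 14146093248, nat_lit 15,
  [⟨V6_13072084992, [(nat_lit 110, nat_lit 14146093248), (nat_lit 11, nat_lit 15219835008), (nat_lit 120, nat_lit 15219830976), (nat_lit 40, nat_lit 15219572928), (nat_lit 100, nat_lit 16293576768), (nat_lit 16, nat_lit 16293572736), (nat_lit 22, nat_lit 16293314688), (nat_lit 118, nat_lit 16293310656), (nat_lit 19, nat_lit 17367318528), (nat_lit 2, nat_lit 17367314496), (nat_lit 117, nat_lit 17367056448), (nat_lit 95, nat_lit 17367052416), (nat_lit 17, nat_lit 18441056256), (nat_lit 21, nat_lit 18440798208), (nat_lit 51, nat_lit 18440794176), (nat_lit 28, nat_lit 19514535936)]⟩,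
   ⟨V6_11998605312, [(nat_lit 37, nat_lit 14146093248), (nat_lit 108, nat_lit 15219835008), (nat_lit 7, nat_lit 15219830976), (nat_lit 5, nat_lit 16293576768), (nat_lit 65, nat_lit 16293572736), (nat_lit 55, nat_lit 17367318528), (nat_lit 10, nat_lit 17367314496), (nat_lit 75, nat_lit 18441056256)]⟩,
   ⟨V6_11998347264, [(nat_lit 1, nat_lit 14146093248), (nat_lit 8, nat_lit 15219835008), (nat_lit 96, nat_lit 15219572928), (nat_lit 98, nat_lit 16293576768), (nat_lit 33, nat_lit 16293314688), (nat_lit 104, nat_lit 17367318528), (nat_lit 29, nat_lit 17367056448), (nat_lit 80, nat_lit 18440798208)]⟩],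
  [W_14145044480, W_14144516288, W_14144258240, W_11997556928, W_11997298880]⟩
theorem C_14146093248 : chkRec R_14146093248 = true := by decide +kernel

noncomputable def R_14146097217 : Rec := ⟨nat_lit 14146097217, nat_lit 10,
  [⟨V6_13072339008, [(nat_lit 12, nat_lit 14146097217), (nat_lit 67, nat_lit 15219839040), (nat_lit 38, nat_lit 15219834945), (nat_lit 113, nat_lit 16293576768), (nat_lit 32, nat_lit 16293572673), (nat_lit 10, nat_lit 17367314496), (nat_lit 86, nat_lit 17367310401), (nat_lit 71, nat_lit 18441052224), (nat_lit 57, nat_lit 18441048129), (nat_lit 69, nat_lit 19514789952)]⟩,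
   ⟨V6_11998339137, [(nat_lit 105, nat_lit 14146097217), (nat_lit 115, nat_lit 15219834945), (nat_lit 67, nat_lit 15219576897), (nat_lit 96, nat_lit 16293572673), (nat_lit 7, nat_lit 16293314625), (nat_lit 22, nat_lit 17367310401), (nat_lit 56, nat_lit 17367052353), (nat_lit 63, nat_lit 18440790081)]⟩,
   ⟨V6_11998081089, [(nat_lit 64, nat_lit 14146097217), (nat_lit 4, nat_lit 15219834945), (nat_lit 14, nat_lit 15219576897), (nat_lit 77, nat_lit 16293572673), (nat_lit 72, nat_lit 16293314625), (nat_lit 80, nat_lit 16293056577), (nat_lit 11, nat_lit 17367052353), (nat_lit 37, nat_lit 17366794305), (nat_lit 66, nat_lit 18440532033)]⟩],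
  [W_14144782400, W_14144524352]⟩
theorem C_14146097217 : chkRec R_14146097217 = true := by decide +kernel

noncomputable def R_14146097280 : Rec := ⟨nat_lit 14146097280, nat_lit 22,
  [⟨V6_13071568896, [(nat_lit 122, nat_lit 14146097280), (nat_lit 41, nat_lit 15219839040), (nat_lit 103, nat_lit 15219576960), (nat_lit 49, nat_lit 16293580800), (nat_lit 107, nat_lit 16293318720), (nat_lit 70, nat_lit 16293056640), (nat_lit 11, nat_lit 17367060480), (nat_lit 88, nat_lit 17366798400), (nat_lit 69, nat_lit 17366536320), (nat_lit 71, nat_lit 18440540160), (nat_lit 92, nat_lit 18440278080), (nat_lit 59, nat_lit 19514019840)]⟩],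
  [W_14145302528, W_14145044480, W_14145036416, W_11998343168]⟩
theorem C_14146097280 : chkRec R_14146097280 = true := by decide +kernel

noncomputable def R_14146101312 : Rec := ⟨nat_lit 14146101312, nat_lit 20,
  [⟨V6_14146080768, [(nat_lit 2, nat_lit 14146101312), (nat_lit 47, nat_lit 15219843072), (nat_lit 101, nat_lit 15219839040), (nat_lit 90, nat_lit 16293580800), (nat_lit 108, nat_lit 16293576768), (nat_lit 16, nat_lit 17367318528), (nat_lit 61, nat_lit 17367314496), (nat_lit 78, nat_lit 18441056256), (nat_lit 59, nat_lit 18441052224), (nat_lit 50, nat_lit 19514793984), (nat_lit 80, nat_lit 19514789952), (nat_lit 66, nat_lit 20588531712)]⟩,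
   ⟨V6_13072339008, [(nat_lit 66, nat_lit 14146101312), (nat_lit 111, nat_lit 15219839040), (nat_lit 69, nat_lit 16293576768), (nat_lit 10, nat_lit 17367314496), (nat_lit 32, nat_lit 18441052224), (nat_lit 8, nat_lit 19514789952)]⟩,
   ⟨V6_11998605312, [(nat_lit 69, nat_lit 14146101312), (nat_lit 121, nat_lit 15219843072), (nat_lit 113, nat_lit 15219839040), (nat_lit 115, nat_lit 16293580800), (nat_lit 38, nat_lit 16293576768), (nat_lit 43, nat_lit 17367318528), (nat_lit 79, nat_lit 17367314496), (nat_lit 45, nat_lit 18441056256)]⟩,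
   ⟨V6_11997569088, [(nat_lit 125, nat_lit 14146101312), (nat_lit 54, nat_lit 15219580992), (nat_lit 23, nat_lit 16293060672), (nat_lit 88, nat_lit 17366540352), (nat_lit 18, nat_lit 18440020032)]⟩],
  [W_14145302528, W_14145044480]⟩
theorem C_14146101312 : chkRec R_14146101312 = true := by decide +kernel

noncomputable def R_14146105344 : Rec := ⟨nat_lit 14146105344, nat_lit 9,
  [⟨V6_14146080768, [(nat_lit 62, nat_lit 14146105344), (nat_lit 97, nat_lit 15219843072), (nat_lit 22, nat_lit 16293580800), (nat_lit 86, nat_lit 17367318528), (nat_lit 87, nat_lit 18441056256), (nat_lit 33, nat_lit 19514793984), (nat_lit 88, nat_lit 20588531712)]⟩,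
   ⟨V6_11997573120, [(nat_lit 56, nat_lit 14146105344), (nat_lit 12, nat_lit 15219585024), (nat_lit 118, nat_lit 16293064704), (nat_lit 76, nat_lit 17366544384), (nat_lit 4, nat_lit 18440024064)]⟩],
  [W_14145302528]⟩
theorem C_14146105344 : chkRec R_14146105344 = true := by decide +kernel

noncomputable def R_14161301763 : Rec := ⟨nat_lit 14161301763, nat_lit 1,
  [⟨V6_14094192897, [(nat_lit 9, nat_lit 14161301763), (nat_lit 97, nat_lit 15235043586), (nat_lit 70, nat_lit 15218266371), (nat_lit 104, nat_lit 16308785409), (nat_lit 111, nat_lit 16292008194), (nat_lit 51, nat_lit 16275230979), (nat_lit 1, nat_lit 17365750017), (nat_lit 62, nat_lit 17348972802), (nat_lit 81, nat_lit 17332195587), (nat_lit 3, nat_lit 18422714625), (nat_lit 78, nat_lit 18405937410), (nat_lit 75, nat_lit 18389160195), (nat_lit 120, nat_lit 19479679233), (nat_lit 115, nat_lit 19462902018), (nat_lit 40, nat_lit 20536643841)]⟩],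
  [W_13070778560]⟩
theorem C_14161301763 : chkRec R_14161301763 = true := by decide +kernel

noncomputable def R_14161559811 : Rec := ⟨nat_lit 14161559811, nat_lit 3,
  [⟨V6_14060896515, [(nat_lit 5, nat_lit 14161559811), (nat_lit 107, nat_lit 15218524419), (nat_lit 101, nat_lit 16275489027), (nat_lit 87, nat_lit 17332453635), (nat_lit 25, nat_lit 18389418243), (nat_lit 64, nat_lit 19446382851), (nat_lit 33, nat_lit 20503347459)]⟩,
   ⟨V6_13070516418, [(nat_lit 95, nat_lit 14161559811), (nat_lit 77, nat_lit 15235301634), (nat_lit 22, nat_lit 15235301571), (nat_lit 64, nat_lit 15235039491), (nat_lit 17, nat_lit 15218524419), (nat_lit 67, nat_lit 16309043394), (nat_lit 121, nat_lit 16308781314), (nat_lit 97, nat_lit 16308781251), (nat_lit 28, nat_lit 16308519171), (nat_lit 88, nat_lit 16292266242), (nat_lit 24, nat_lit 16292266179), (nat_lit 87, nat_lit 16292004099), (nat_lit 99, nat_lit 17382523074), (nat_lit 31, nat_lit 17382260994), (nat_lit 15, nat_lit 17382260931), (nat_lit 76, nat_lit 17366008002), (nat_lit 120, nat_lit 17365745922),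 (nat_lit 7, nat_lit 17365745859), (nat_lit 81, nat_lit 17365483779), (nat_lit 4, nat_lit 18456002754), (nat_lit 99, nat_lit 18439487682), (nat_lit 112, nat_lit 18439225602), (nat_lit 67, nat_lit 18439225539), (nat_lit 123, nat_lit 19512967362)]⟩],
  [W_14094450944, W_13054001408]⟩
theorem C_14161559811 : chkRec R_14161559811 = true := by decide +kernel

noncomputable def R_14161563843 : Rec := ⟨nat_lit 14161563843, nat_lit 3,
  [⟨V6_13087813824, [(nat_lit 100, nat_lit 14161563843), (nat_lit 91, nat_lit 15235305666), (nat_lit 47, nat_lit 15235301571), (nat_lit 34, nat_lit 16309047489), (nat_lit 112, nat_lit 16309043394), (nat_lit 97, nat_lit 16309039299), (nat_lit 56, nat_lit 17382789312), (nat_lit 125, nat_lit 17382785217), (nat_lit 79, nat_lit 17382781122), (nat_lit 25, nat_lit 18456527040), (nat_lit 88, nat_lit 18456522945), (nat_lit 103, nat_lit 19530264768)]⟩],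
  [W_14110970048, W_14094454976]⟩
theorem C_14161563843 : chkRec R_14161563843 = true := by decide +kernel

noncomputable def R_14161563906 : Rec := ⟨nat_lit 14161563906, nat_lit 7,
  [⟨V6_13087555776, [(nat_lit 64, nat_lit 14161563906), (nat_lit 6, nat_lit 15235305729), (nat_lit 2, nat_lit 15235305666), (nat_lit 71, nat_lit 15235301634), (nat_lit 58, nat_lit 15235043586), (nat_lit 25, nat_lit 16309047552), (nat_lit 27, nat_lit 16309047489), (nat_lit 62, nat_lit 16309043457), (nat_lit 40, nat_lit 16309043394), (nat_lit 12, nat_lit 16308785409), (nat_lit 112, nat_lit 16308785346), (nat_lit 17, nat_lit 16308781314), (nat_lit 120, nat_lit 17382789312), (nat_lit 48, nat_lit 17382785280), (nat_lit 118, nat_lit 17382785217), (nat_lit 77, nat_lit 17382527232), (nat_lit 83, nat_lit 17382527169), (nat_lit 123, nat_lit 17382523137), (nat_lit 108, nat_lit 17382523074), (nat_lit 104, nat_lit 18456527040), (nat_lit 125, nat_lit 18456268992), (nat_lit 126, nat_lit 18456264960), (nat_lit 76, nat_lit 18456264897), (nat_lit 88, nat_lit 19530006720)]⟩],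
  [W_14094450944, W_13071040640, W_13020713216]⟩
theorem C_14161563906 : chkRec R_14161563906 = true := by decide +kernel

noncomputable def R_14161563969 : Rec := ⟨nat_lit 14161563969, nat_lit 4,
  [⟨V6_13087559808, [(nat_lit 107, nat_lit 14161563969), (nat_lit 105, nat_lit 15235305792), (nat_lit 109, nat_lit 15235305729), (nat_lit 36, nat_lit 15235043649), (nat_lit 27, nat_lit 16309047552), (nat_lit 19, nat_lit 16309047489), (nat_lit 62, nat_lit 16308785472), (nat_lit 119, nat_lit 16308785409), (nat_lit 122, nat_lit 17382789312), (nat_lit 79, nat_lit 17382789249), (nat_lit 115, nat_lit 17382527232), (nat_lit 25, nat_lit 17382527169), (nat_lit 61, nat_lit 18456531072), (nat_lit 40, nat_lit 18456268992), (nat_lit 108, nat_lit 18456268929), (nat_lit 42, nat_lit 19530010752)]⟩,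
   ⟨V6_13037228352, [(nat_lit 14, nat_lit 14161563969), (nat_lit 107, nat_lit 15235305792), (nat_lit 69, nat_lit 15235043649), (nat_lit 93, nat_lit 15218528577), (nat_lit 26, nat_lit 16308785472), (nat_lit 53, nat_lit 16292270400), (nat_lit 75, nat_lit 16292008257), (nat_lit 53, nat_lit 16275493185), (nat_lit 31, nat_lit 17365750080), (nat_lit 53, nat_lit 17349235008), (nat_lit 106, nat_lit 17348972865), (nat_lit 16, nat_lit 17332457793), (nat_lit 21, nat_lit 18422714688), (nat_lit 4, nat_lit 18406199616), (nat_lit 118, nat_lit 18405937473), (nat_lit 34, nat_lit 19479679296)]⟩],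
  [W_14111232128]⟩
theorem C_14161563969 : chkRec R_14161563969 = true := by decide +kernel

noncomputable def R_14161567938 : Rec := ⟨nat_lit 14161567938, nat_lit 8,
  [⟨V6_13087813824, [(nat_lit 103, nat_lit 14161567938), (nat_lit 66, nat_lit 15235309761), (nat_lit 67, nat_lit 15235305666), (nat_lit 80, nat_lit 16309051584), (nat_lit 79, nat_lit 16309047489), (nat_lit 70, nat_lit 16309043394), (nat_lit 83, nat_lit 17382789312), (nat_lit 16, nat_lit 17382785217), (nat_lit 29, nat_lit 17382781122), (nat_lit 55, nat_lit 18456527040), (nat_lit 54, nat_lit 18456522945), (nat_lit 112, nat_lit 19530264768)]⟩,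
   ⟨V6_13003940034, [(nat_lit 63, nat_lit 14161567938), (nat_lit 22, nat_lit 15218532546), (nat_lit 105, nat_lit 16275497154), (nat_lit 64, nat_lit 17332461762), (nat_lit 21, nat_lit 18389426370), (nat_lit 124, nat_lit 19446390978)]⟩],
  [W_14128001216, W_13071040640, W_13037494400]⟩
theorem C_14161567938 : chkRec R_14161567938 = true := by decide +kernel

noncomputable def R_14161568001 : Rec := ⟨nat_lit 14161568001, nat_lit 14,
  [⟨V6_13087821888, [(nat_lit 39, nat_lit 14161568001), (nat_lit 47, nat_lit 15235309824), (nat_lit 116, nat_lit 15235309761), (nat_lit 92, nat_lit 15235305729), (nat_lit 74, nat_lit 16309051584), (nat_lit 18, nat_lit 16309051521), (nat_lit 95, nat_lit 16309047552), (nat_lit 5, nat_lit 16309047489), (nat_lit 112, nat_lit 17382793344), (nat_lit 108, nat_lit 17382793281), (nat_lit 46, nat_lit 17382789312), (nat_lit 49, nat_lit 17382789249), (nat_lit 7, nat_lit 18456535104), (nat_lit 69, nat_lit 18456531072), (nat_lit 84, nat_lit 18456531009), (nat_lit 67, nat_lit 19530272832)]⟩],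
  [W_14144782400, W_14111236160, W_14094450944, W_14060904704]⟩
theorem C_14161568001 : chkRec R_14161568001 = true := by decide +kernel

end Crest.Agent.R187.SN.Top
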