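import Crest.Agent.R187.SN.Top
import Crest.Agent.R187.SN.TD.X6_0
import Crest.Agent.R187.SN.TD.W7_0
import Crest.Agent.R187.SN.TD.W7_1

/-!
# Row 187, PLAN S, generated certificate data (mod 127): rank records and checks, chunk 3

Written by a C++ program (helper824).  The tables are only data: every property is checked by
the kernel.
-/

set_option autoImplicit false
set_option maxRecDepth 100000
set_option Elab.async false

namespace Crest.Agent.R187.SN.Top

noncomputable def R_14161568064 : Rec := ⟨nat_lit 14161568064, nat_lit 11,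
  [⟨V6_13087825920, [(nat_lit 22, nat_lit 14161568064), (nat_lit 73, nat_lit 15235309824), (nat_lit 20, nat_lit 16309051584), (nat_lit 25, nat_lit 17382793344), (nat_lit 124, nat_lit 18456535104), (nat_lit 8, nat_lit 19530276864)]⟩],
  [W_14128009280, W_14111232128, W_14060904704]⟩
theorem C_14161568064 : chkRec R_14161568064 = true := by decide +kernel

noncomputable def R_14161821891 : Rec := ⟨nat_lit 14161821891, nat_lit 4,
  [⟨V6_14077931715, [(nat_lit 20, nat_lit 14161821891), (nat_lit 108, nat_lit 15235559619), (nat_lit 96, nat_lit 15218786499), (nat_lit 108, nat_lit 16292524227), (nat_lit 94, nat_lit 16275751107), (nat_lit 40, nat_lit 17349488835), (nat_lit 17, nat_lit 17332715715), (nat_lit 36, nat_lit 18406453443), (nat_lit 4, nat_lit 18389680323), (nat_lit 46, nat_lit 19463418051), (nat_lit 50, nat_lit 19446644931), (nat_lit 29, nat_lit 20520382659)]⟩,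
   ⟨V6_13070516418, [(nat_lit 77, nat_lit 14161821891), (nat_lit 111, nat_lit 15235563714), (nat_lit 97, nat_lit 15235301571), (nat_lit 66, nat_lit 15218786499), (nat_lit 41, nat_lit 16309043394), (nat_lit 24, nat_lit 16308781251), (nat_lit 51, nat_lit 16292528322), (nat_lit 85, nat_lit 16292266179), (nat_lit 4, nat_lit 17382523074), (nat_lit 37, nat_lit 17382260931), (nat_lit 8, nat_lit 17366008002), (nat_lit 47, nat_lit 17365745859), (nat_lit 32, nat_lit 18456002754), (nat_lit 39, nat_lit 18439487682), (nat_lit 81, nat_lit 18439225539), (nat_lit 69, nat_lit 19512967362)]⟩,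
   ⟨V6_13037482179, [(nat_lit 85, nat_lit 14161821891), (nat_lit 110, nat_lit 15235559619), (nat_lit 31, nat_lit 15235301571), (nat_lit 92, nat_lit 15218786499), (nat_lit 117, nat_lit 16309039299), (nat_lit 102, nat_lit 16292524227), (nat_lit 81, nat_lit 16292266179), (nat_lit 108, nat_lit 16275751107), (nat_lit 98, nat_lit 17366003907), (nat_lit 1, nat_lit 17349488835), (nat_lit 39, nat_lit 17349230787), (nat_lit 49, nat_lit 17332715715), (nat_lit 70, nat_lit 18422968515), (nat_lit 36, nat_lit 18406453443), (nat_lit 1, nat_lit 18406195395), (nat_lit 21, nat_lit 19479933123)]⟩],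
  [W_14144516288, W_14094713024]⟩
theorem C_14161821891 : chkRec R_14161821891 = true := by decide +kernel

noncomputable def R_14161821954 : Rec := ⟨nat_lit 14161821954, nat_lit 8,
  [⟨V6_14161035456, [(nat_lit 113, nat_lit 14161821954), (nat_lit 6, nat_lit 15235563777), (nat_lit 51, nat_lit 15235563714), (nat_lit 56, nat_lit 15235301634), (nat_lit 115, nat_lit 16309305600), (nat_lit 82, nat_lit 16309305537), (nat_lit 24, nat_lit 16309043457), (nat_lit 105, nat_lit 16309043394), (nat_lit 46, nat_lit 16308781314), (nat_lit 96, nat_lit 17383047360), (nat_lit 53, nat_lit 17382785280), (nat_lit 3, nat_lit 17382785217), (nat_lit 36, nat_lit 17382523137), (nat_lit 92, nat_lit 17382523074), (nat_lit 9, nat_lit 17382260994), (nat_lit 24, nat_lit 18456527040), (nat_lit 111, nat_lit 18456264960), (nat_lit 81, nat_lit 18456264897), (nat_lit 112, nat_lit 18456002817), (nat_lit 52, nat_lit 18456002754), (nat_lit 114, nat_lit 19530006720), (nat_lit 95, nat_lit 19529744640), (nat_lit 93, nat_lit 19529744577), (nat_lit 66, nat_lit 20603486400)]⟩],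
  [W_13054525568, W_13054001408, W_13037486336, W_13020971264]⟩
theorem C_14161821954 : chkRec R_14161821954 = true := by decide +kernel

noncomputable def R_14161825986 : Rec := ⟨nat_lit 14161825986, nat_lit 14,
  [⟨V6_14077939905, [(nat_lit 70, nat_lit 14161825986), (nat_lit 122, nat_lit 15235567809), (nat_lit 4, nat_lit 15218790594), (nat_lit 44, nat_lit 16292532417), (nat_lit 101, nat_lit 16275755202), (nat_lit 119, nat_lit 17349497025), (nat_lit 31, nat_lit 17332719810), (nat_lit 37, nat_lit 18406461633), (nat_lit 9, nat_lit 18389684418), (nat_lit 73, nat_lit 19463426241), (nat_lit 97, nat_lit 19446649026), (nat_lit 101, nat_lit 20520390849)]⟩,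
   ⟨V6_13087555776, [(nat_lit 5, nat_lit 14161825986), (nat_lit 47, nat_lit 15235567809), (nat_lit 118, nat_lit 15235563714), (nat_lit 67, nat_lit 15235305666), (nat_lit 22, nat_lit 16309309632), (nat_lit 23, nat_lit 16309305537), (nat_lit 56, nat_lit 16309047489), (nat_lit 58, nat_lit 16309043394), (nat_lit 10, nat_lit 16308785346), (nat_lit 12, nat_lit 17383047360), (nat_lit 26, nat_lit 17382789312), (nat_lit 120, nat_lit 17382785217), (nat_lit 121, nat_lit 17382527169), (nat_lit 100, nat_lit 17382523074), (nat_lit 91, nat_lit 18456527040), (nat_lit 30, nat_lit 18456268992), (nat_lit 1, nat_lit 18456264897), (nat_lit 13, nat_lit 19530006720)]⟩,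
   ⟨V6_13004198082, [(nat_lit 95, nat_lit 14161825986), (nat_lit 11, nat_lit 15218790594), (nat_lit 116, nat_lit 16275755202), (nat_lit 32, nat_lit 17332719810), (nat_lit 74, nat_lit 18389684418), (nat_lit 62, nat_lit 19446649026)]⟩],
  [W_14128263296, W_14128001216, W_14111486144, W_14110970048, W_13071298688]⟩
theorem C_14161825986 : chkRec R_14161825986 = true := by decide +kernel

noncomputable def R_14161826049 : Rec := ⟨nat_lit 14161826049, nat_lit 19,
  [⟨V6_14077939905, [(nat_lit 24, nat_lit 14161826049), (nat_lit 100, nat_lit 15235567809), (nat_lit 109, nat_lit 15218790657), (nat_lit 99, nat_lit 16292532417), (nat_lit 17, nat_lit 16275755265), (nat_lit 89, nat_lit 17349497025), (nat_lit 126, nat_lit 17332719873), (nat_lit 85, nat_lit 18406461633), (nat_lit 60, nat_lit 18389684481), (nat_lit 20, nat_lit 19463426241), (nat_lit 66, nat_lit 19446649089), (nat_lit 123, nat_lit 20520390849)]⟩,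
   ⟨V6_13087821888, [(nat_lit 51, nat_lit 14161826049), (nat_lit 84, nat_lit 15235567872), (nat_lit 14, nat_lit 15235567809), (nat_lit 80, nat_lit 15235305729), (nat_lit 49, nat_lit 16309309632), (nat_lit 90, nat_lit 16309309569), (nat_lit 111, nat_lit 16309047552), (nat_lit 76, nat_lit 16309047489), (nat_lit 21, nat_lit 17383051392), (nat_lit 125, nat_lit 17383051329), (nat_lit 82, nat_lit 17382789312), (nat_lit 36, nat_lit 17382789249), (nat_lit 53, nat_lit 18456793152), (nat_lit 32, nat_lit 18456531072), (nat_lit 14, nat_lit 18456531009), (nat_lit 26, nat_lit 19530272832)]⟩],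
  [W_14161297472, W_14144782400, W_14110970048, W_14094450944, W_13071040640, W_13070778560, W_13054001408, W_13020971264]⟩
theorem C_14161826049 : chkRec R_14161826049 = true := by decide +kernel

noncomputable def R_14161826112 : Rec := ⟨nat_lit 14161826112, nat_lit 11,
  [⟨V6_13088083968, [(nat_lit 86, nat_lit 14161826112), (nat_lit 66, nat_lit 15235567872), (nat_lit 32, nat_lit 16309309632), (nat_lit 40, nat_lit 17383051392), (nat_lit 46, nat_lit 18456793152), (nat_lit 89, nat_lit 19530534912)]⟩,
   ⟨V6_13037228352, [(nat_lit 45, nat_lit 14161826112), (nat_lit 92, nat_lit 15235305792), (nat_lit 67, nat_lit 15218790720), (nat_lit 8, nat_lit 16308785472), (nat_lit 48, nat_lit 16292270400), (nat_lit 42, nat_lit 16275755328), (nat_lit 65, nat_lit 17365750080), (nat_lit 92, nat_lit 17349235008), (nat_lit 89, nat_lit 17332719936), (nat_lit 110, nat_lit 18422714688), (nat_lit 62, nat_lit 18406199616), (nat_lit 48, nat_lit 19479679296)]⟩],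
  [W_14161301504, W_14127747200, W_14111232128, W_14110970048, W_14077939904, W_13070782592, W_13020713216]⟩
theorem C_14161826112 : chkRec R_14161826112 = true := by decide +kernel

noncomputable def R_14161830018 : Rec := ⟨nat_lit 14161830018, nat_lit 11,
  [⟨V6_13088071809, [(nat_lit 68, nat_lit 14161830018), (nat_lit 107, nat_lit 15235571841), (nat_lit 29, nat_lit 15235567746), (nat_lit 67, nat_lit 16309309569), (nat_lit 20, nat_lit 16309305474), (nat_lit 62, nat_lit 17383047297), (nat_lit 38, nat_lit 17383043202), (nat_lit 63, nat_lit 18456785025), (nat_lit 98, nat_lit 18456780930), (nat_lit 75, nat_lit 19530522753)]⟩,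
   ⟨V6_13087809666, [(nat_lit 89, nat_lit 14161830018), (nat_lit 16, nat_lit 15235567746), (nat_lit 4, nat_lit 15235309698), (nat_lit 29, nat_lit 16309305474), (nat_lit 49, nat_lit 16309047426), (nat_lit 61, nat_lit 17383043202), (nat_lit 89, nat_lit 17382785154), (nat_lit 73, nat_lit 18456780930), (nat_lit 94, nat_lit 18456522882), (nat_lit 83, nat_lit 19530260610)]⟩,
   ⟨V6_13071294594, [(nat_lit 4, nat_lit 14161830018), (nat_lit 104, nat_lit 15235567746), (nat_lit 125, nat_lit 15218794626), (nat_lit 82, nat_lit 16309305474), (nat_lit 52, nat_lit 16292532354), (nat_lit 101, nat_lit 17383043202), (nat_lit 5, nat_lit 17366270082), (nat_lit 43, nat_lit 18456780930), (nat_lit 30, nat_lit 18440007810), (nat_lit 44, nat_lit 19513745538)]⟩],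
  [W_13088071808, W_13071040640, W_13037494400, W_13020979328]⟩
theorem C_14161830018 : chkRec R_14161830018 = true := by decide +kernel

noncomputable def R_14161830081 : Rec := ⟨nat_lit 14161830081, nat_lit 27,
  [⟨V6_14077944000, [(nat_lit 51, nat_lit 14161830081), (nat_lit 109, nat_lit 15235571904), (nat_lit 115, nat_lit 15218794689), (nat_lit 28, nat_lit 16292536512), (nat_lit 110, nat_lit 16275759297), (nat_lit 72, nat_lit 17349501120), (nat_lit 42, nat_lit 17332723905), (nat_lit 90, nat_lit 18406465728), (nat_lit 71, nat_lit 18389688513), (nat_lit 63, nat_lit 19463430336), (nat_lit 119, nat_lit 19446653121), (nat_lit 44, nat_lit 20520394944)]⟩,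
   ⟨V6_14077939905, [(nat_lit 92, nat_lit 14161830081), (nat_lit 61, nat_lit 15235567809), (nat_lit 36, nat_lit 15218794689), (nat_lit 70, nat_lit 16292532417), (nat_lit 29, nat_lit 16275759297), (nat_lit 68, nat_lit 17349497025), (nat_lit 83, nat_lit 17332723905), (nat_lit 16, nat_lit 18406461633), (nat_lit 22, nat_lit 18389688513), (nat_lit 34, nat_lit 19463426241), (nat_lit 86, nat_lit 19446653121), (nat_lit 14, nat_lit 20520390849)]⟩,
   ⟨V6_13087821888, [(nat_lit 62, nat_lit 14161830081), (nat_lit 42, nat_lit 15235571904), (nat_lit 108, nat_lit 15235571841), (nat_lit 6, nat_lit 15235567809), (nat_lit 12, nat_lit 15235309761), (nat_lit 27, nat_lit 16309313664), (nat_lit 53, nat_lit 16309313601), (nat_lit 19, nat_lit 16309309632), (nat_lit 98, nat_lit 16309309569), (nat_lit 117, nat_lit 16309051584), (nat_lit 62, nat_lit 16309051521), (nat_lit 63, nat_lit 16309047489), (nat_lit 60, nat_lit 17383055424), (nat_lit 111, nat_lit 17383051392), (nat_lit 89, nat_lit 17383051329), (nat_lit 53, nat_lit 17382793344), (nat_lit 12, nat_lit 17382793281),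 (nat_lit 125, nat_lit 17382789312), (nat_lit 17, nat_lit 17382789249), (nat_lit 10, nat_lit 18456793152), (nat_lit 112, nat_lit 18456535104), (nat_lit 13, nat_lit 18456531072), (nat_lit 70, nat_lit 18456531009), (nat_lit 39, nat_lit 19530272832)]⟩,
   ⟨V6_13087813824, [(nat_lit 18, nat_lit 14161830081), (nat_lit 8, nat_lit 15235571904), (nat_lit 110, nat_lit 15235567809), (nat_lit 74, nat_lit 15235309761), (nat_lit 104, nat_lit 16309309632), (nat_lit 51, nat_lit 16309305537), (nat_lit 46, nat_lit 16309051584), (nat_lit 15, nat_lit 16309047489), (nat_lit 100, nat_lit 17383047360), (nat_lit 74, nat_lit 17383043265), (nat_lit 120, nat_lit 17382789312), (nat_lit 124, nat_lit 17382785217), (nat_lit 103, nat_lit 18456785088), (nat_lit 37, nat_lit 18456527040), (nat_lit 86, nat_lit 18456522945), (nat_lit 84, nat_lit 19530264768)]⟩],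
  [W_14161555520, W_14128001216, W_14111486144, W_14111236160, W_14094721088, W_13088075840, W_13054271552, W_13037494400]⟩
theorem C_14161830081 : chkRec R_14161830081 = true := by decide +kernel

noncomputable def R_14161830144 : Rec := ⟨nat_lit 14161830144, nat_lit 33,
  [⟨V6_13088083968, [(nat_lit 116, nat_lit 14161830144), (nat_lit 7, nat_lit 15235571904), (nat_lit 21, nat_lit 15235567872), (nat_lit 117, nat_lit 16309313664), (nat_lit 73, nat_lit 16309309632), (nat_lit 47, nat_lit 17383055424), (nat_lit 46, nat_lit 17383051392), (nat_lit 67, nat_lit 18456797184), (nat_lit 87, nat_lit 18456793152), (nat_lit 78, nat_lit 19530534912)]⟩,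
   ⟨V6_13087825920, [(nat_lit 80, nat_lit 14161830144), (nat_lit 89, nat_lit 15235571904), (nat_lit 15, nat_lit 15235309824), (nat_lit 20, nat_lit 16309313664), (nat_lit 66, nat_lit 16309051584), (nat_lit 117, nat_lit 17383055424), (nat_lit 97, nat_lit 17382793344), (nat_lit 8, nat_lit 18456797184), (nat_lit 55, nat_lit 18456535104), (nat_lit 44, nat_lit 19530276864)]⟩,
   ⟨V6_13071310848, [(nat_lit 113, nat_lit 14161830144), (nat_lit 9, nat_lit 15235571904), (nat_lit 41, nat_lit 15218794752), (nat_lit 75, nat_lit 16309313664), (nat_lit 107, nat_lit 16292536512), (nat_lit 28, nat_lit 17383055424), (nat_lit 24, nat_lit 17366278272), (nat_lit 125, nat_lit 18456797184), (nat_lit 114, nat_lit 18440020032), (nat_lit 111, nat_lit 19513761792)]⟩],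
  [W_14161559552, W_14145044480, W_14128013312, W_14111236160, W_14094450944, W_13054263488]⟩
theorem C_14161830144 : chkRec R_14161830144 = true := by decide +kernel

noncomputable def R_14161834113 : Rec := ⟨nat_lit 14161834113, nat_lit 12,
  [⟨V6_14094725184, [(nat_lit 34, nat_lit 14161834113), (nat_lit 95, nat_lit 15235575936), (nat_lit 42, nat_lit 15235575873), (nat_lit 40, nat_lit 15218798721), (nat_lit 22, nat_lit 16309317696), (nat_lit 118, nat_lit 16292540544), (nat_lit 102, nat_lit 16292540481), (nat_lit 9, nat_lit 16275763329), (nat_lit 71, nat_lit 17366282304), (nat_lit 115, nat_lit 17349505152), (nat_lit 124, nat_lit 17349505089), (nat_lit 102, nat_lit 17332727937), (nat_lit 90, nat_lit 18423246912), (nat_lit 93, nat_lit 18406469760), (nat_lit 116, nat_lit 18406469697), (nat_lit 103, nat_lit 18389692545), (nat_lit 19, nat_lit 19480211520), (nat_lit 72, nat_lit 19463434368), (nat_lit 74, nat_lit 19463434305), (nat_lit 85, nat_lit 20537176128)]⟩,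
   ⟨V6_13088071809, [(nat_lit 97, nat_lit 14161834113), (nat_lit 120, nat_lit 15235571841), (nat_lit 23, nat_lit 16309309569), (nat_lit 2, nat_lit 17383047297), (nat_lit 48, nat_lit 18456785025), (nat_lit 97, nat_lit 19530522753)]⟩,
   ⟨V6_13020983361, [(nat_lit 33, nat_lit 14161834113), (nat_lit 118, nat_lit 15235575873), (nat_lit 21, nat_lit 15218798721), (nat_lit 13, nat_lit 16292540481), (nat_lit 102, nat_lit 16275763329), (nat_lit 24, nat_lit 17349505089), (nat_lit 34, nat_lit 17332727937), (nat_lit 25, nat_lit 18406469697), (nat_lit 125, nat_lit 18389692545), (nat_lit 33, nat_lit 19463434305)]⟩],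
  [W_14161813568, W_14094721088, W_13088075840, W_13088071808, W_13071298688]⟩
theorem C_14161834113 : chkRec R_14161834113 = true := by decide +kernel

noncomputable def R_14161834176 : Rec := ⟨nat_lit 14161834176, nat_lit 20,
  [⟨V6_14111502336, [(nat_lit 14, nat_lit 14161834176), (nat_lit 123, nat_lit 15235575936), (nat_lit 92, nat_lit 15218798784), (nat_lit 125, nat_lit 16309317696), (nat_lit 90, nat_lit 16292540544), (nat_lit 120, nat_lit 16275763392), (nat_lit 35, nat_lit 17383059456), (nat_lit 43, nat_lit 17366282304), (nat_lit 88, nat_lit 17349505152), (nat_lit 60, nat_lit 17332728000), (nat_lit 61, nat_lit 18440024064), (nat_lit 99, nat_lit 18423246912), (nat_lit 115, nat_lit 18406469760), (nat_lit 58, nat_lit 19496988672), (nat_lit 61, nat_lit 19480211520), (nat_lit 33, nat_lit 20553953280)]⟩,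
   ⟨V6_13088083968, [(nat_lit 55, nat_lit 14161834176), (nat_lit 92, nat_lit 15235575936), (nat_lit 37, nat_lit 15235571904), (nat_lit 31, nat_lit 16309317696), (nat_lit 51, nat_lit 16309313664), (nat_lit 50, nat_lit 16309309632), (nat_lit 81, nat_lit 17383059456), (nat_lit 71, nat_lit 17383055424), (nat_lit 125, nat_lit 17383051392), (nat_lit 78, nat_lit 18456797184), (nat_lit 33, nat_lit 18456793152), (nat_lit 17, nat_lit 19530534912)]⟩,
   ⟨V6_13054537728, [(nat_lit 55, nat_lit 14161834176), (nat_lit 29, nat_lit 15235575936), (nat_lit 60, nat_lit 15218798784), (nat_lit 75, nat_lit 16309317696), (nat_lit 100, nat_lit 16292540544), (nat_lit 4, nat_lit 16275763392), (nat_lit 59, nat_lit 17383059456), (nat_lit 34, nat_lit 17366282304), (nat_lit 42, nat_lit 17349505152), (nat_lit 50, nat_lit 18440024064), (nat_lit 32, nat_lit 18423246912), (nat_lit 79, nat_lit 19496988672)]⟩],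
  [W_14161817600, W_14111486144, W_14094721088, W_13088075840, W_13071298688, W_13054521536]⟩
theorem C_14161834176 : chkRec R_14161834176 = true := by decide +kernel

noncomputable def R_14162079939 : Rec := ⟨nat_lit 14162079939, nat_lit 1,
  [⟨V6_13037482179, [(nat_lit 26, nat_lit 14162079939), (nat_lit 86, nat_lit 15235559619), (nat_lit 116, nat_lit 15219044547), (nat_lit 75, nat_lit 16309039299), (nat_lit 118, nat_lit 16292524227), (nat_lit 40, nat_lit 16276009155), (nat_lit 78, nat_lit 17366003907), (nat_lit 58, nat_lit 17349488835), (nat_lit 29, nat_lit 17332973763), (nat_lit 62, nat_lit 18422968515), (nat_lit 10, nat_lit 18406453443), (nat_lit 26, nat_lit 19479933123)]⟩],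
  [W_14144516288]⟩
theorem C_14162079939 : chkRec R_14162079939 = true := by decide +kernel

noncomputable def R_14162084034 : Rec := ⟨nat_lit 14162084034, nat_lit 15,
  [⟨V6_14161035456, [(nat_lit 89, nat_lit 14162084034), (nat_lit 58, nat_lit 15235825857), (nat_lit 92, nat_lit 15235563714), (nat_lit 64, nat_lit 16309567680), (nat_lit 52, nat_lit 16309305537), (nat_lit 16, nat_lit 16309043394), (nat_lit 101, nat_lit 17383047360), (nat_lit 2, nat_lit 17382785217), (nat_lit 82, nat_lit 17382523074), (nat_lit 99, nat_lit 18456527040), (nat_lit 27, nat_lit 18456264897), (nat_lit 106, nat_lit 18456002754), (nat_lit 124, nat_lit 19530006720), (nat_lit 79, nat_lit 19529744577), (nat_lit 76, nat_lit 20603486400)]⟩,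
   ⟨V6_13087555776, [(nat_lit 81, nat_lit 14162084034), (nat_lit 84, nat_lit 15235825857), (nat_lit 63, nat_lit 15235563714), (nat_lit 67, nat_lit 16309567680), (nat_lit 9, nat_lit 16309305537), (nat_lit 34, nat_lit 16309043394), (nat_lit 10, nat_lit 17383047360), (nat_lit 104, nat_lit 17382785217), (nat_lit 21, nat_lit 17382523074), (nat_lit 117, nat_lit 18456527040), (nat_lit 116, nat_lit 18456264897), (nat_lit 60, nat_lit 19530006720)]⟩],
  [W_14128263296, W_14111748224, W_14111486144, W_13071298688]⟩
theorem C_14162084034 : chkRec R_14162084034 = true := by decide +kernel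

noncomputable def R_14162084097 : Rec := ⟨nat_lit 14162084097, nat_lit 17,
  [⟨V6_14144258304, [(nat_lit 112, nat_lit 14162084097), (nat_lit 118, nat_lit 15235825920), (nat_lit 97, nat_lit 15235563777), (nat_lit 70, nat_lit 15219048705), (nat_lit 28, nat_lit 16309305600), (nat_lit 117, nat_lit 16309043457), (nat_lit 66, nat_lit 16292790528), (nat_lit 40, nat_lit 16292528385), (nat_lit 92, nat_lit 17382785280), (nat_lit 33, nat_lit 17382523137), (nat_lit 26, nat_lit 17366270208), (nat_lit 50, nat_lit 17366008065), (nat_lit 75, nat_lit 18456264960), (nat_lit 56, nat_lit 18456002817), (nat_lit 21, nat_lit 18439749888), (nat_lit 30, nat_lit 18439487745), (nat_lit 1, nat_lit 19529744640), (nat_lit 89, nat_lit 19513229568), (nat_lit 53, nat_lit 19512967425), (nat_lit 53, nat_lit 20586709248)]⟩,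
   ⟨V6_14127481089, [(nat_lit 38, nat_lit 14162084097), (nat_lit 98, nat_lit 15235563777), (nat_lit 112, nat_lit 15219048705), (nat_lit 54, nat_lit 16309043457), (nat_lit 9, nat_lit 16292528385), (nat_lit 43, nat_lit 16276013313), (nat_lit 122, nat_lit 17382523137), (nat_lit 97, nat_lit 17366008065), (nat_lit 69, nat_lit 17349492993), (nat_lit 86, nat_lit 18456002817), (nat_lit 29, nat_lit 18439487745), (nat_lit 25, nat_lit 18422972673), (nat_lit 67, nat_lit 19512967425), (nat_lit 84, nat_lit 19496452353), (nat_lit 116, nat_lit 20569932033)]⟩,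
   ⟨V6_13021233408, [(nat_lit 32, nat_lit 14162084097), (nat_lit 29, nat_lit 15235825920), (nat_lit 121, nat_lit 15219048705), (nat_lit 13, nat_lit 16292790528), (nat_lit 91, nat_lit 16276013313), (nat_lit 53, nat_lit 17349755136), (nat_lit 37, nat_lit 17332977921), (nat_lit 49, nat_lit 18406719744), (nat_lit 48, nat_lit 18389942529), (nat_lit 95, nat_lit 19463684352)]⟩],
  [W_14144782400, W_14128267328, W_13087817792]⟩
theorem C_14162084097 : chkRec R_14162084097 = true := by decide +kernel

noncomputable def R_14162088066 : Rec := ⟨nat_lit 14162088066, nat_lit 15,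
  [⟨V6_13088333952, [(nat_lit 46, nat_lit 14162088066), (nat_lit 102, nat_lit 15235829889), (nat_lit 93, nat_lit 15235825794), (nat_lit 62, nat_lit 16309571712), (nat_lit 25, nat_lit 16309567617), (nat_lit 92, nat_lit 16309563522), (nat_lit 85, nat_lit 17383309440), (nat_lit 15, nat_lit 17383305345), (nat_lit 59, nat_lit 17383301250), (nat_lit 69, nat_lit 18457047168), (nat_lit 60, nat_lit 18457043073), (nat_lit 15, nat_lit 19530784896)]⟩],
  [W_14127747200, W_14111748224, W_13071040640, W_13054267520, W_13021237376]⟩
theorem C_14162088066 : chkRec R_14162088066 = true := by decide +kernel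

noncomputable def R_14162088129 : Rec := ⟨nat_lit 14162088129, nat_lit 35,
  [⟨V6_14161293504, [(nat_lit 115, nat_lit 14162088129), (nat_lit 121, nat_lit 15235829952), (nat_lit 17, nat_lit 15235825857), (nat_lit 125, nat_lit 15235567809), (nat_lit 16, nat_lit 16309567680), (nat_lit 40, nat_lit 16309563585), (nat_lit 58, nat_lit 16309309632), (nat_lit 51, nat_lit 16309305537), (nat_lit 112, nat_lit 16309047489), (nat_lit 94, nat_lit 17383305408), (nat_lit 10, nat_lit 17383047360), (nat_lit 125, nat_lit 17383043265), (nat_lit 115, nat_lit 17382789312), (nat_lit 89, nat_lit 17382785217), (nat_lit 26, nat_lit 17382527169), (nat_lit 44, nat_lit 18456785088), (nat_lit 13, nat_lit 18456527040), (nat_lit 109, nat_lit 18456522945), (nat_lit 30, nat_lit 18456268992), (nat_lit 85, nat_lit 18456264897), (nat_lit 39, nat_lit 19530264768), (nat_lit 126, nat_lit 19530006720), (nat_lit 123, nat_lit 19530002625), (nat_lit 76, nat_lit 20603744448)]⟩,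
   ⟨V6_13087821888, [(nat_lit 19, nat_lit 14162088129), (nat_lit 51, nat_lit 15235829952), (nat_lit 15, nat_lit 15235829889), (nat_lit 113, nat_lit 15235567809), (nat_lit 123, nat_lit 16309571712), (nat_lit 71, nat_lit 16309571649), (nat_lit 54, nat_lit 16309309632), (nat_lit 33, nat_lit 16309309569), (nat_lit 122, nat_lit 16309047489), (nat_lit 82, nat_lit 17383313472), (nat_lit 104, nat_lit 17383051392), (nat_lit 47, nat_lit 17383051329), (nat_lit 32, nat_lit 17382789312), (nat_lit 51, nat_lit 17382789249), (nat_lit 100, nat_lit 18456793152), (nat_lit 90, nat_lit 18456531072), (nat_lit 97, nat_lit 18456531009), (nat_lit 34, nat_lit 19530272832)]⟩,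
   ⟨V6_13087559808, [(nat_lit 115, nat_lit 14162088129), (nat_lit 84, nat_lit 15235829952), (nat_lit 43, nat_lit 15235829889), (nat_lit 92, nat_lit 15235567809), (nat_lit 90, nat_lit 16309571712), (nat_lit 14, nat_lit 16309309632), (nat_lit 33, nat_lit 16309309569), (nat_lit 121, nat_lit 16309047489), (nat_lit 55, nat_lit 17383051392), (nat_lit 118, nat_lit 17382789312), (nat_lit 121, nat_lit 17382789249), (nat_lit 119, nat_lit 17382527169), (nat_lit 101, nat_lit 18456531072), (nat_lit 12, nat_lit 18456268992), (nat_lit 34, nat_lit 18456268929), (nat_lit 22, nat_lit 19530010752)]⟩,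
   ⟨V6_13087555776, [(nat_lit 22, nat_lit 14162088129), (nat_lit 125, nat_lit 15235829952), (nat_lit 7, nat_lit 15235825857), (nat_lit 51, nat_lit 15235567809), (nat_lit 64, nat_lit 16309567680), (nat_lit 38, nat_lit 16309309632), (nat_lit 15, nat_lit 16309305537), (nat_lit 109, nat_lit 16309047489), (nat_lit 83, nat_lit 17383047360), (nat_lit 125, nat_lit 17382789312), (nat_lit 37, nat_lit 17382785217), (nat_lit 97, nat_lit 17382527169), (nat_lit 26, nat_lit 18456527040), (nat_lit 88, nat_lit 18456268992), (nat_lit 54, nat_lit 18456264897), (nat_lit 41, nat_lit 19530006720)]⟩],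
  [W_14161555520, W_14161297472, W_14128001216, W_14111748224, W_14111486144, W_14094979136, W_13088075840, W_13071560768, W_13021237376, W_13021233344]⟩
theorem C_14162088129 : chkRec R_14162088129 = true := by decide +kernel

noncomputable def R_14162088192 : Rec := ⟨nat_lit 14162088192, nat_lit 40,
  [⟨V6_13088342016, [(nat_lit 78, nat_lit 14162088192), (nat_lit 84, nat_lit 15235829952), (nat_lit 59, nat_lit 15235825920), (nat_lit 105, nat_lit 16309571712), (nat_lit 101, nat_lit 16309567680), (nat_lit 89, nat_lit 17383313472), (nat_lit 19, nat_lit 17383309440), (nat_lit 59, nat_lit 18457055232), (nat_lit 25, nat_lit 18457051200), (nat_lit 114, nat_lit 19530792960)]⟩,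
   ⟨V6_13087821888, [(nat_lit 16, nat_lit 14162088192), (nat_lit 27, nat_lit 15235829952), (nat_lit 91, nat_lit 15235567872), (nat_lit 74, nat_lit 16309571712), (nat_lit 50, nat_lit 16309309632), (nat_lit 124, nat_lit 16309047552), (nat_lit 87, nat_lit 17383313472), (nat_lit 76, nat_lit 17383051392), (nat_lit 104, nat_lit 17382789312), (nat_lit 96, nat_lit 18456793152), (nat_lit 34, nat_lit 18456531072), (nat_lit 104, nat_lit 19530272832)]⟩,
   ⟨V6_13087559808, [(nat_lit 105, nat_lit 14162088192), (nat_lit 37, nat_lit 15235829952), (nat_lit 66, nat_lit 15235567872), (nat_lit 113, nat_lit 16309571712), (nat_lit 60, nat_lit 16309309632), (nat_lit 89, nat_lit 16309047552), (nat_lit 6, nat_lit 17383051392), (nat_lit 66, nat_lit 17382789312), (nat_lit 66, nat_lit 17382527232), (nat_lit 120, nat_lit 18456531072), (nat_lit 109, nat_lit 18456268992), (nat_lit 116, nat_lit 19530010752)]⟩],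
  [W_14161559552, W_14161301504, W_14161297472, W_14145044480, W_14110970048, W_14094979136, W_14094713024, W_14094450944, W_13054001408, W_13021237376, W_13021233344, W_13020971264]⟩
theorem C_14162088192 : chkRec R_14162088192 = true := by decide +kernel

noncomputable def R_14162092161 : Rec := ⟨nat_lit 14162092161, nat_lit 38,
  [⟨V6_14145298560, [(nat_lit 92, nat_lit 14162092161), (nat_lit 112, nat_lit 15235833984), (nat_lit 58, nat_lit 15235829889), (nat_lit 122, nat_lit 15219056769), (nat_lit 73, nat_lit 16309571712), (nat_lit 49, nat_lit 16309567617), (nat_lit 7, nat_lit 16292798592), (nat_lit 28, nat_lit 16292794497), (nat_lit 3, nat_lit 17383309440), (nat_lit 62, nat_lit 17383305345), (nat_lit 51, nat_lit 17366536320), (nat_lit 58, nat_lit 17366532225), (nat_lit 37, nat_lit 18457047168), (nat_lit 49, nat_lit 18457043073), (nat_lit 90, nat_lit 18440274048), (nat_lit 33, nat_lit 18440269953), (nat_lit 88, nat_lit 19530784896), (nat_lit 9, nat_lit 19514011776), (nat_lit 92, nat_lit 19514007681), (nat_lit 36, nat_lit 20587749504)]⟩,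
   ⟨V6_13088333952, [(nat_lit 63, nat_lit 14162092161), (nat_lit 103, nat_lit 15235833984), (nat_lit 53, nat_lit 15235829889), (nat_lit 57, nat_lit 16309571712), (nat_lit 55, nat_lit 16309567617), (nat_lit 105, nat_lit 17383309440), (nat_lit 80, nat_lit 17383305345), (nat_lit 9, nat_lit 18457047168), (nat_lit 33, nat_lit 18457043073), (nat_lit 70, nat_lit 19530784896)]⟩],
  [W_14144782400, W_14111236160, W_14094979136, W_14094721088, W_14094459008, W_13071044672, W_13054271552, W_13054267520, W_13037494400, W_13021241408, W_13020979328]⟩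
theorem C_14162092161 : chkRec R_14162092161 = true := by decide +kernel

noncomputable def R_14162092224 : Rec := ⟨nat_lit 14162092224, nat_lit 61,
  [⟨V6_13088342016, [(nat_lit 60, nat_lit 14162092224), (nat_lit 49, nat_lit 15235833984), (nat_lit 36, nat_lit 15235829952), (nat_lit 60, nat_lit 16309575744), (nat_lit 72, nat_lit 16309571712), (nat_lit 97, nat_lit 16309567680), (nat_lit 48, nat_lit 17383317504), (nat_lit 40, nat_lit 17383313472), (nat_lit 123, nat_lit 17383309440), (nat_lit 120, nat_lit 18457055232), (nat_lit 87, nat_lit 18457051200), (nat_lit 2, nat_lit 19530792960)]⟩,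
   ⟨V6_13087825920, [(nat_lit 120, nat_lit 14162092224), (nat_lit 13, nat_lit 15235833984), (nat_lit 15, nat_lit 15235571904), (nat_lit 51, nat_lit 16309575744), (nat_lit 43, nat_lit 16309313664), (nat_lit 23, nat_lit 16309051584), (nat_lit 73, nat_lit 17383317504), (nat_lit 56, nat_lit 17383055424), (nat_lit 25, nat_lit 17382793344), (nat_lit 58, nat_lit 18456797184), (nat_lit 80, nat_lit 18456535104), (nat_lit 26, nat_lit 19530276864)]⟩,
   ⟨V6_13071568896, [(nat_lit 103, nat_lit 14162092224), (nat_lit 81, nat_lit 15235833984), (nat_lit 108, nat_lit 15235829952), (nat_lit 43, nat_lit 15219056832), (nat_lit 18, nat_lit 16309575744), (nat_lit 43, nat_lit 16309571712), (nat_lit 75, nat_lit 16292798592), (nat_lit 3, nat_lit 16292794560), (nat_lit 53, nat_lit 17383317504), (nat_lit 37, nat_lit 17383313472), (nat_lit 110, nat_lit 17366540352), (nat_lit 106, nat_lit 17366536320), (nat_lit 54, nat_lit 18457055232), (nat_lit 18, nat_lit 18440282112), (nat_lit 42, nat_lit 18440278080), (nat_lit 20, nat_lit 19514019840)]⟩],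
  [W_14161817600, W_14161555520, W_14145302528, W_14145044480, W_14128013312, W_14128001216, W_14111236160, W_14111232128, W_14094983168, W_14094721088, W_13054263488]⟩
theorem C_14162092224 : chkRec R_14162092224 = true := by decide +kernel

noncomputable def R_14162096193 : Rec := ⟨nat_lit 14162096193, nat_lit 16,
  [⟨V6_14094979137, [(nat_lit 110, nat_lit 14162096193), (nat_lit 24, nat_lit 15235833921), (nat_lit 22, nat_lit 15219060801), (nat_lit 110, nat_lit 16309571649), (nat_lit 43, nat_lit 16292798529), (nat_lit 94, nat_lit 16276025409), (nat_lit 4, nat_lit 17366536257), (nat_lit 28, nat_lit 17349763137), (nat_lit 111, nat_lit 17332990017), (nat_lit 108, nat_lit 18423500865), (nat_lit 77, nat_lit 18406727745), (nat_lit 5, nat_lit 18389954625), (nat_lit 66, nat_lit 19480465473), (nat_lit 59, nat_lit 19463692353), (nat_lit 30, nat_lit 20537430081)]⟩,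
   ⟨V6_14094725184, [(nat_lit 79, nat_lit 14162096193), (nat_lit 35, nat_lit 15235838016), (nat_lit 121, nat_lit 15235575873), (nat_lit 47, nat_lit 15219060801), (nat_lit 32, nat_lit 16309317696), (nat_lit 7, nat_lit 16292802624), (nat_lit 106, nat_lit 16292540481), (nat_lit 116, nat_lit 16276025409), (nat_lit 49, nat_lit 17366282304), (nat_lit 1, nat_lit 17349767232), (nat_lit 2, nat_lit 17349505089), (nat_lit 64, nat_lit 17332990017), (nat_lit 126, nat_lit 18423246912), (nat_lit 114, nat_lit 18406731840), (nat_lit 10, nat_lit 18406469697), (nat_lit 63, nat_lit 18389954625), (nat_lit 94, nat_lit 19480211520), (nat_lit 117, nat_lit 19463696448), (nat_lit 29, nat_lit 19463434305), (nat_lit 15, nat_lit 20537176128)]⟩,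
   ⟨V6_13021241409, [(nat_lit 27, nat_lit 14162096193), (nat_lit 125, nat_lit 15235833921), (nat_lit 104, nat_lit 15219060801), (nat_lit 116, nat_lit 16292798529), (nat_lit 36, nat_lit 16276025409), (nat_lit 48, nat_lit 17349763137), (nat_lit 64, nat_lit 17332990017), (nat_lit 103, nat_lit 18406727745), (nat_lit 29, nat_lit 18389954625), (nat_lit 90, nat_lit 19463692353)]⟩],
  [W_14162071616, W_14128525376, W_13088333888, W_13088075840]⟩
theorem C_14162096193 : chkRec R_14162096193 = true := by decide +kernel

noncomputable def R_14162096256 : Rec := ⟨nat_lit 14162096256, nat_lit 46,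
  [⟨V6_13088342016, [(nat_lit 55, nat_lit 14162096256), (nat_lit 63, nat_lit 15235838016), (nat_lit 78, nat_lit 15235833984), (nat_lit 14, nat_lit 16309579776), (nat_lit 6, nat_lit 16309575744), (nat_lit 100, nat_lit 16309571712), (nat_lit 19, nat_lit 17383317504), (nat_lit 65, nat_lit 17383313472), (nat_lit 43, nat_lit 17383309440), (nat_lit 121, nat_lit 18457055232), (nat_lit 84, nat_lit 18457051200), (nat_lit 31, nat_lit 19530792960)]⟩,
   ⟨V6_13088333952, [(nat_lit 116, nat_lit 14162096256), (nat_lit 44, nat_lit 15235833984), (nat_lit 55, nat_lit 16309571712), (nat_lit 60, nat_lit 17383309440), (nat_lit 43, nat_lit 18457047168), (nat_lit 116, nat_lit 19530784896)]⟩,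
   ⟨V6_13088083968, [(nat_lit 100, nat_lit 14162096256), (nat_lit 99, nat_lit 15235838016), (nat_lit 105, nat_lit 15235833984), (nat_lit 3, nat_lit 15235575936), (nat_lit 95, nat_lit 16309579776), (nat_lit 112, nat_lit 16309575744), (nat_lit 110, nat_lit 16309571712), (nat_lit 11, nat_lit 16309317696), (nat_lit 55, nat_lit 16309313664), (nat_lit 46, nat_lit 17383317504), (nat_lit 94, nat_lit 17383313472), (nat_lit 98, nat_lit 17383059456), (nat_lit 26, nat_lit 17383055424), (nat_lit 24, nat_lit 17383051392), (nat_lit 62, nat_lit 18457055232), (nat_lit 45, nat_lit 18456797184), (nat_lit 58, nat_lit 18456793152), (nat_lit 120, nat_lit 19530534912)]⟩],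
  [W_14161817600, W_14161813568, W_14145302528, W_14145044480, W_14094983168, W_14094721088, W_13088071808, W_13021245440]⟩
theorem C_14162096256 : chkRec R_14162096256 = true := by decide +kernel

noncomputable def R_14162100288 : Rec := ⟨nat_lit 14162100288, nat_lit 22,
  [⟨V6_13088342016, [(nat_lit 68, nat_lit 14162100288), (nat_lit 97, nat_lit 15235842048), (nat_lit 16, nat_lit 15235838016), (nat_lit 22, nat_lit 16309579776), (nat_lit 47, nat_lit 16309575744), (nat_lit 20, nat_lit 17383317504), (nat_lit 74, nat_lit 17383313472), (nat_lit 10, nat_lit 18457055232), (nat_lit 45, nat_lit 18457051200), (nat_lit 90, nat_lit 19530792960)]⟩],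
  [W_14145302528, W_14094983168, W_14094979136, W_13021245440]⟩
theorem C_14162100288 : chkRec R_14162100288 = true := by decide +kernel

noncomputable def R_14162342082 : Rec := ⟨nat_lit 14162342082, nat_lit 6,
  [⟨V6_13038268608, [(nat_lit 121, nat_lit 14162342082), (nat_lit 35, nat_lit 15236083905), (nat_lit 25, nat_lit 15219306690), (nat_lit 44, nat_lit 16309825728), (nat_lit 64, nat_lit 16293048513), (nat_lit 10, nat_lit 16276271298), (nat_lit 86, nat_lit 17366790336), (nat_lit 108, nat_lit 17350013121), (nat_lit 40, nat_lit 17333235906), (nat_lit 98, nat_lit 18423754944), (nat_lit 78, nat_lit 18406977729), (nat_lit 120, nat_lit 19480719552)]⟩],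
  [W_14161293440, W_13071298688]⟩
theorem C_14162342082 : chkRec R_14162342082 = true := by decide +kernel

noncomputable def R_14162346114 : Rec := ⟨nat_lit 14162346114, nat_lit 12,
  [⟨V6_13088333952, [(nat_lit 60, nat_lit 14162346114), (nat_lit 42, nat_lit 15236087937), (nat_lit 88, nat_lit 15236083842), (nat_lit 4, nat_lit 15235825794), (nat_lit 36, nat_lit 16309829760), (nat_lit 42, nat_lit 16309825665), (nat_lit 112, nat_lit 16309821570), (nat_lit 117, nat_lit 16309567617), (nat_lit 22, nat_lit 16309563522), (nat_lit 101, nat_lit 17383567488), (nat_lit 89, nat_lit 17383563393), (nat_lit 73, nat_lit 17383309440), (nat_lit 26, nat_lit 17383305345), (nat_lit 18, nat_lit 17383301250), (nat_lit 115, nat_lit 18457305216), (nat_lit 51, nat_lit 18457047168), (nat_lit 73, nat_lit 18457043073), (nat_lit 57, nat_lit 19530784896)]⟩],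
  [W_14111748224, W_14111490176, W_13071040640]⟩
theorem C_14162346114 : chkRec R_14162346114 = true := by decide +kernel

noncomputable def R_14162346177 : Rec := ⟨nat_lit 14162346177, nat_lit 27,
  [⟨V6_14161293504, [(nat_lit 14, nat_lit 14162346177), (nat_lit 100, nat_lit 15236088000), (nat_lit 30, nat_lit 15236083905), (nat_lit 89, nat_lit 15235825857), (nat_lit 69, nat_lit 16309825728), (nat_lit 68, nat_lit 16309567680), (nat_lit 121, nat_lit 16309563585), (nat_lit 116, nat_lit 16309305537), (nat_lit 68, nat_lit 17383305408), (nat_lit 8, nat_lit 17383047360), (nat_lit 116, nat_lit 17383043265), (nat_lit 54, nat_lit 17382785217), (nat_lit 93, nat_lit 18456785088), (nat_lit 78, nat_lit 18456527040), (nat_lit 83, nat_lit 18456522945), (nat_lit 4, nat_lit 18456264897), (nat_lit 2, nat_lit 19530264768), (nat_lit 93, nat_lit 19530006720), (nat_lit 81, nat_lit 19530002625), (nat_lit 21, nat_lit 20603744448)]⟩,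
   ⟨V6_14161035456, [(nat_lit 16, nat_lit 14162346177), (nat_lit 11, nat_lit 15236088000), (nat_lit 39, nat_lit 15235825857), (nat_lit 57, nat_lit 16309567680), (nat_lit 17, nat_lit 16309305537), (nat_lit 122, nat_lit 17383047360), (nat_lit 13, nat_lit 17382785217), (nat_lit 5, nat_lit 18456527040), (nat_lit 72, nat_lit 18456264897), (nat_lit 70, nat_lit 19530006720), (nat_lit 84, nat_lit 19529744577), (nat_lit 116, nat_lit 20603486400)]⟩,
   ⟨V6_13087813824, [(nat_lit 45, nat_lit 14162346177), (nat_lit 46, nat_lit 15236088000), (nat_lit 26, nat_lit 15236083905), (nat_lit 62, nat_lit 15235825857), (nat_lit 110, nat_lit 16309825728), (nat_lit 64, nat_lit 16309567680), (nat_lit 92, nat_lit 16309563585), (nat_lit 58, nat_lit 16309305537), (nat_lit 88, nat_lit 17383305408), (nat_lit 63, nat_lit 17383047360), (nat_lit 48, nat_lit 17383043265), (nat_lit 115, nat_lit 17382785217), (nat_lit 120, nat_lit 18456785088), (nat_lit 108, nat_lit 18456527040), (nat_lit 84, nat_lit 18456522945), (nat_lit 38, nat_lit 19530264768)]⟩,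
   ⟨V6_13087555776, [(nat_lit 26, nat_lit 14162346177), (nat_lit 52, nat_lit 15236088000), (nat_lit 74, nat_lit 15235825857), (nat_lit 18, nat_lit 16309567680), (nat_lit 64, nat_lit 16309305537), (nat_lit 41, nat_lit 17383047360), (nat_lit 41, nat_lit 17382785217), (nat_lit 29, nat_lit 18456527040), (nat_lit 13, nat_lit 18456264897), (nat_lit 124, nat_lit 19530006720)]⟩],
  [W_14161555520, W_14161297472, W_14112010304, W_14111748224, W_13071560768, W_13055045696, W_13038272576]⟩
theorem C_14162346177 : chkRec R_14162346177 = true := by decide +kernel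

noncomputable def R_14162346240 : Rec := ⟨nat_lit 14162346240, nat_lit 24,
  [⟨V6_13088342016, [(nat_lit 53, nat_lit 14162346240), (nat_lit 49, nat_lit 15236088000), (nat_lit 39, nat_lit 15235825920), (nat_lit 3, nat_lit 16309829760), (nat_lit 10, nat_lit 16309567680), (nat_lit 69, nat_lit 17383571520), (nat_lit 59, nat_lit 17383309440), (nat_lit 47, nat_lit 18457313280), (nat_lit 23, nat_lit 18457051200), (nat_lit 65, nat_lit 19530792960)]⟩],
  [W_14161559552, W_14145044480, W_14111490176, W_13038272576, W_13037486336]⟩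
theorem C_14162346240 : chkRec R_14162346240 = true := by decide +kernel

noncomputable def R_14162350209 : Rec := ⟨nat_lit 14162350209, nat_lit 35,
  [⟨V6_13088333952, [(nat_lit 77, nat_lit 14162350209), (nat_lit 110, nat_lit 15236092032), (nat_lit 32, nat_lit 15236087937), (nat_lit 31, nat_lit 15235829889), (nat_lit 117, nat_lit 16309829760), (nat_lit 12, nat_lit 16309825665), (nat_lit 25, nat_lit 16309571712), (nat_lit 64, nat_lit 16309567617), (nat_lit 8, nat_lit 17383567488), (nat_lit 100, nat_lit 17383563393), (nat_lit 1, nat_lit 17383309440), (nat_lit 90, nat_lit 17383305345), (nat_lit 57, nat_lit 18457305216), (nat_lit 124, nat_lit 18457047168), (nat_lit 83, nat_lit 18457043073), (nat_lit 1, nat_lit 19530784896)]⟩,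
   ⟨V6_13088071809, [(nat_lit 103, nat_lit 14162350209), (nat_lit 36, nat_lit 15236087937), (nat_lit 73, nat_lit 15235829889), (nat_lit 9, nat_lit 16309825665), (nat_lit 5, nat_lit 16309567617), (nat_lit 91, nat_lit 16309309569), (nat_lit 50, nat_lit 17383563393), (nat_lit 92, nat_lit 17383305345), (nat_lit 60, nat_lit 17383047297), (nat_lit 2, nat_lit 18457043073), (nat_lit 7, nat_lit 18456785025), (nat_lit 62, nat_lit 19530522753)]⟩,
   ⟨V6_13087821888, [(nat_lit 110, nat_lit 14162350209), (nat_lit 35, nat_lit 15236092032), (nat_lit 126, nat_lit 15236091969), (nat_lit 59, nat_lit 15235829889), (nat_lit 65, nat_lit 16309833792), (nat_lit 120, nat_lit 16309571712), (nat_lit 15, nat_lit 16309571649), (nat_lit 52, nat_lit 16309309569), (nat_lit 17, nat_lit 17383313472), (nat_lit 78, nat_lit 17383051392), (nat_lit 4, nat_lit 17383051329), (nat_lit 78, nat_lit 17382789249), (nat_lit 8, nat_lit 18456793152), (nat_lit 101, nat_lit 18456531072), (nat_lit 22, nat_lit 18456531009), (nat_lit 89, nat_lit 19530272832)]⟩],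
  [W_14161555520, W_14161297472, W_14128783424, W_14128525376, W_14112010304, W_13071560768, W_13055045696, W_13038272576]⟩
theorem C_14162350209 : chkRec R_14162350209 = true := by decide +kernel

noncomputable def R_14162350272 : Rec := ⟨nat_lit 14162350272, nat_lit 55,
  [⟨V6_14161563648, [(nat_lit 15, nat_lit 14162350272), (nat_lit 69, nat_lit 15236092032), (nat_lit 15, nat_lit 15235829952), (nat_lit 68, nat_lit 16309833792), (nat_lit 58, nat_lit 16309571712), (nat_lit 13, nat_lit 16309309632), (nat_lit 2, nat_lit 17383575552), (nat_lit 1, nat_lit 17383313472), (nat_lit 94, nat_lit 17383051392), (nat_lit 93, nat_lit 17382789312), (nat_lit 73, nat_lit 18457055232), (nat_lit 121, nat_lit 18456793152), (nat_lit 55, nat_lit 18456531072), (nat_lit 55, nat_lit 19530534912), (nat_lit 79, nat_lit 19530272832), (nat_lit 68, nat_lit 20604014592)]⟩,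
   ⟨V6_13088342016, [(nat_lit 40, nat_lit 14162350272), (nat_lit 24, nat_lit 15236092032), (nat_lit 116, nat_lit 15236088000), (nat_lit 98, nat_lit 15235829952), (nat_lit 113, nat_lit 16309833792), (nat_lit 91, nat_lit 16309829760), (nat_lit 119, nat_lit 16309571712), (nat_lit 5, nat_lit 16309567680), (nat_lit 121, nat_lit 17383575552), (nat_lit 124, nat_lit 17383571520), (nat_lit 46, nat_lit 17383313472), (nat_lit 76, nat_lit 17383309440), (nat_lit 10, nat_lit 18457313280), (nat_lit 54, nat_lit 18457055232), (nat_lit 8, nat_lit 18457051200), (nat_lit 65, nat_lit 19530792960)]⟩,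
   ⟨V6_13088083968, [(nat_lit 29, nat_lit 14162350272), (nat_lit 26, nat_lit 15236092032), (nat_lit 2, nat_lit 15235829952), (nat_lit 7, nat_lit 16309833792), (nat_lit 42, nat_lit 16309571712), (nat_lit 8, nat_lit 16309309632), (nat_lit 88, nat_lit 17383575552), (nat_lit 4, nat_lit 17383313472), (nat_lit 108, nat_lit 17383051392), (nat_lit 77, nat_lit 18457055232), (nat_lit 26, nat_lit 18456793152), (nat_lit 44, nat_lit 19530534912)]⟩],
  [W_14161817600, W_14161555520, W_14145302528, W_14145044480, W_14144516288, W_14128787456, W_14128001216, W_14112014336, W_14112010304, W_13071036608, W_13054263488, W_13038268544]⟩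
theorem C_14162350272 : chkRec R_14162350272 = true := by decide +kernel

noncomputable def R_14162354241 : Rec := ⟨nat_lit 14162354241, nat_lit 24,
  [⟨V6_14128013376, [(nat_lit 46, nat_lit 14162354241), (nat_lit 69, nat_lit 15236096064), (nat_lit 13, nat_lit 15235833921), (nat_lit 100, nat_lit 15219318849), (nat_lit 53, nat_lit 16309575744), (nat_lit 116, nat_lit 16309313601), (nat_lit 18, nat_lit 16293060672), (nat_lit 78, nat_lit 16292798529), (nat_lit 92, nat_lit 16276283457), (nat_lit 22, nat_lit 17383055424), (nat_lit 116, nat_lit 17382793281), (nat_lit 28, nat_lit 17366540352), (nat_lit 90, nat_lit 17366278209), (nat_lit 5, nat_lit 17350025280), (nat_lit 82, nat_lit 17349763137), (nat_lit 108, nat_lit 18456535104), (nat_lit 80, nat_lit 18440020032), (nat_lit 20, nat_lit 18439757889), (nat_lit 104, nat_lit 18423504960), (nat_lit 13, nat_lit 18423242817), (nat_lit 18, nat_lit 19513499712), (nat_lit 69, nat_lit 19496984640), (nat_lit 23, nat_lit 19496722497), (nat_lit 38, nat_lit 20570464320)]⟩],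
  [W_14162071616, W_14161813568, W_14145556544, W_14128525376, W_14112010304, W_13088333888]⟩
theorem C_14162354241 : chkRec R_14162354241 = true := by decide +kernel

noncomputable def R_14162354304 : Rec := ⟨nat_lit 14162354304, nat_lit 65,
  [⟨V6_14161563648, [(nat_lit 88, nat_lit 14162354304), (nat_lit 39, nat_lit 15236096064), (nat_lit 99, nat_lit 15236092032), (nat_lit 126, nat_lit 15235833984), (nat_lit 64, nat_lit 16309837824), (nat_lit 8, nat_lit 16309833792), (nat_lit 28, nat_lit 16309575744), (nat_lit 75, nat_lit 16309571712), (nat_lit 102, nat_lit 16309313664), (nat_lit 59, nat_lit 17383575552), (nat_lit 15, nat_lit 17383317504), (nat_lit 35, nat_lit 17383313472), (nat_lit 62, nat_lit 17383055424), (nat_lit 125, nat_lit 17383051392), (nat_lit 105, nat_lit 17382793344), (nat_lit 110, nat_lit 18457055232), (nat_lit 41, nat_lit 18456797184), (nat_lit 111, nat_lit 18456793152), (nat_lit 112, nat_lit 18456535104), (nat_lit 62, nat_lit 18456531072), (nat_lit 116, nat_lit 19530534912), (nat_lit 98, nat_lit 19530276864), (nat_lit 83,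 nat_lit 19530272832), (nat_lit 62, nat_lit 20604014592)]⟩,
   ⟨V6_13088342016, [(nat_lit 57, nat_lit 14162354304), (nat_lit 23, nat_lit 15236096064), (nat_lit 51, nat_lit 15236092032), (nat_lit 7, nat_lit 15235833984), (nat_lit 35, nat_lit 16309837824), (nat_lit 88, nat_lit 16309833792), (nat_lit 38, nat_lit 16309829760), (nat_lit 88, nat_lit 16309575744), (nat_lit 86, nat_lit 16309571712), (nat_lit 77, nat_lit 17383575552), (nat_lit 97, nat_lit 17383571520), (nat_lit 96, nat_lit 17383317504), (nat_lit 86, nat_lit 17383313472), (nat_lit 24, nat_lit 17383309440), (nat_lit 56, nat_lit 18457313280), (nat_lit 17, nat_lit 18457055232), (nat_lit 51, nat_lit 18457051200), (nat_lit 86, nat_lit 19530792960)]⟩,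
   ⟨V6_13088083968, [(nat_lit 90, nat_lit 14162354304), (nat_lit 29, nat_lit 15236096064), (nat_lit 87, nat_lit 15236092032), (nat_lit 112, nat_lit 15235833984), (nat_lit 111, nat_lit 16309837824), (nat_lit 83, nat_lit 16309833792), (nat_lit 34, nat_lit 16309575744), (nat_lit 120, nat_lit 16309571712), (nat_lit 57, nat_lit 16309313664), (nat_lit 56, nat_lit 17383575552), (nat_lit 72, nat_lit 17383317504), (nat_lit 13, nat_lit 17383313472), (nat_lit 53, nat_lit 17383055424), (nat_lit 122, nat_lit 17383051392), (nat_lit 36, nat_lit 18457055232), (nat_lit 117, nat_lit 18456797184), (nat_lit 27, nat_lit 18456793152), (nat_lit 42, nat_lit 19530534912)]⟩,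
   ⟨V6_13087825920, [(nat_lit 27, nat_lit 14162354304), (nat_lit 32, nat_lit 15236096064), (nat_lit 20, nat_lit 15235833984), (nat_lit 20, nat_lit 16309837824), (nat_lit 24, nat_lit 16309575744), (nat_lit 13, nat_lit 16309313664), (nat_lit 19, nat_lit 17383317504), (nat_lit 86, nat_lit 17383055424), (nat_lit 38, nat_lit 17382793344), (nat_lit 86, nat_lit 18456797184), (nat_lit 36, nat_lit 18456535104), (nat_lit 91, nat_lit 19530276864)]⟩],
  [W_14161817600, W_14161813568, W_14145560576, W_14145302528, W_14128787456, W_14128783424, W_14128013312, W_14112010304, W_14111236160, W_13088071808, W_13071556736]⟩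
theorem C_14162354304 : chkRec R_14162354304 = true := by decide +kernel

noncomputable def R_14162358336 : Rec := ⟨nat_lit 14162358336, nat_lit 42,
  [⟨V6_13088342016, [(nat_lit 103, nat_lit 14162358336), (nat_lit 92, nat_lit 15236100096), (nat_lit 33, nat_lit 15236096064), (nat_lit 74, nat_lit 15235838016), (nat_lit 23, nat_lit 16309837824), (nat_lit 24, nat_lit 16309833792), (nat_lit 112, nat_lit 16309579776), (nat_lit 80, nat_lit 16309575744), (nat_lit 5, nat_lit 17383575552), (nat_lit 19, nat_lit 17383571520), (nat_lit 95, nat_lit 17383317504), (nat_lit 89, nat_lit 17383313472), (nat_lit 48, nat_lit 18457313280), (nat_lit 57, nat_lit 18457055232), (nat_lit 67, nat_lit 18457051200), (nat_lit 62, nat_lit 19530792960)]⟩,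
   ⟨V6_13055053824, [(nat_lit 105, nat_lit 14162358336), (nat_lit 50, nat_lit 15236100096), (nat_lit 8, nat_lit 15236096064), (nat_lit 85, nat_lit 15219322944), (nat_lit 18, nat_lit 16309837824), (nat_lit 26, nat_lit 16309833792), (nat_lit 32, nat_lit 16293064704), (nat_lit 56, nat_lit 16293060672), (nat_lit 103, nat_lit 16276287552), (nat_lit 13, nat_lit 17383575552), (nat_lit 27, nat_lit 17366802432), (nat_lit 72, nat_lit 17366798400), (nat_lit 59, nat_lit 17350029312), (nat_lit 120, nat_lit 17350025280), (nat_lit 44, nat_lit 18440540160), (nat_lit 19, nat_lit 18423767040), (nat_lit 94, nat_lit 18423763008), (nat_lit 32, nat_lit 19497504768)]⟩,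
   ⟨V6_13038280704, [(nat_lit 28, nat_lit 14162358336), (nat_lit 57, nat_lit 15236100096), (nat_lit 116, nat_lit 15236096064), (nat_lit 2, nat_lit 15219322944), (nat_lit 122, nat_lit 16309837824), (nat_lit 8, nat_lit 16293064704), (nat_lit 109, nat_lit 16293060672), (nat_lit 2, nat_lit 16276287552), (nat_lit 117, nat_lit 17366802432), (nat_lit 2, nat_lit 17350029312), (nat_lit 123, nat_lit 17350025280), (nat_lit 96, nat_lit 17333252160), (nat_lit 70, nat_lit 18423767040), (nat_lit 102, nat_lit 18406993920), (nat_lit 54, nat_lit 18406989888), (nat_lit 4, nat_lit 19480731648)]⟩],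
  [W_14162333696, W_14161813568, W_14145560576, W_14145556544, W_14145302528, W_14128783424, W_14112010304, W_13088333888]⟩
theorem C_14162358336 : chkRec R_14162358336 = true := by decide +kernel

noncomputable def R_14162362368 : Rec := ⟨nat_lit 14162362368, nat_lit 17,
  [⟨V6_13088342016, [(nat_lit 115, nat_lit 14162362368), (nat_lit 61, nat_lit 15236100096), (nat_lit 62, nat_lit 15235842048), (nat_lit 2, nat_lit 16309837824), (nat_lit 116, nat_lit 16309579776), (nat_lit 80, nat_lit 17383575552), (nat_lit 48, nat_lit 17383317504), (nat_lit 29, nat_lit 18457313280), (nat_lit 16, nat_lit 18457055232), (nat_lit 96, nat_lit 19530792960)]⟩],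
  [W_14162333696, W_14145560576, W_14128787456]⟩
theorem C_14162362368 : chkRec R_14162362368 = true := by decide +kernel

noncomputable def R_14162604162 : Rec := ⟨nat_lit 14162604162, nat_lit 6,
  [⟨V6_14161289346, [(nat_lit 121, nat_lit 14162604162), (nat_lit 86, nat_lit 15236341890), (nat_lit 44, nat_lit 15236083842), (nat_lit 38, nat_lit 16309821570), (nat_lit 103, nat_lit 16309563522), (nat_lit 51, nat_lit 17383301250), (nat_lit 88, nat_lit 17383043202), (nat_lit 29, nat_lit 18456780930), (nat_lit 97, nat_lit 18456522882), (nat_lit 125, nat_lit 19530260610), (nat_lit 102, nat_lit 19530002562), (nat_lit 97, nat_lit 20603740290)]⟩,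
   ⟨V6_13087809666, [(nat_lit 16, nat_lit 14162604162), (nat_lit 102, nat_lit 15236341890), (nat_lit 79, nat_lit 15236083842), (nat_lit 52, nat_lit 16309821570), (nat_lit 51, nat_lit 16309563522), (nat_lit 62, nat_lit 17383301250), (nat_lit 2, nat_lit 17383043202), (nat_lit 39, nat_lit 18456780930), (nat_lit 8, nat_lit 18456522882), (nat_lit 99, nat_lit 19530260610)]⟩],
  [W_14128521344, W_13087813760]⟩
theorem C_14162604162 : chkRec R_14162604162 = true := by decide +kernel

noncomputable def R_14162604225 : Rec := ⟨nat_lit 14162604225, nat_lit 10,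
  [⟨V6_14161293504, [(nat_lit 96, nat_lit 14162604225), (nat_lit 60, nat_lit 15236346048), (nat_lit 117, nat_lit 15236083905), (nat_lit 39, nat_lit 16309825728), (nat_lit 22, nat_lit 16309563585), (nat_lit 97, nat_lit 17383305408), (nat_lit 109, nat_lit 17383043265), (nat_lit 8, nat_lit 18456785088), (nat_lit 23, nat_lit 18456522945), (nat_lit 123, nat_lit 19530264768), (nat_lit 49, nat_lit 19530002625), (nat_lit 3, nat_lit 20603744448)]⟩,
   ⟨V6_13087813824, [(nat_lit 3, nat_lit 14162604225), (nat_lit 97, nat_lit 15236346048), (nat_lit 76, nat_lit 15236083905), (nat_lit 18, nat_lit 16309825728), (nat_lit 86, nat_lit 16309563585), (nat_lit 6, nat_lit 17383305408), (nat_lit 67, nat_lit 17383043265), (nat_lit 39, nat_lit 18456785088), (nat_lit 60, nat_lit 18456522945), (nat_lit 51, nat_lit 19530264768)]⟩],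
  [W_14128525376, W_13055045696]⟩
theorem C_14162604225 : chkRec R_14162604225 = true := by decide +kernel

noncomputable def R_14162608257 : Rec := ⟨nat_lit 14162608257, nat_lit 27,
  [⟨V6_14145298560, [(nat_lit 89, nat_lit 14162608257), (nat_lit 108, nat_lit 15236350080), (nat_lit 41, nat_lit 15236345985), (nat_lit 83, nat_lit 15236087937), (nat_lit 23, nat_lit 15219572865), (nat_lit 24, nat_lit 16310087808), (nat_lit 23, nat_lit 16310083713), (nat_lit 56, nat_lit 16309829760), (nat_lit 105, nat_lit 16309825665), (nat_lit 75, nat_lit 16309567617), (nat_lit 9, nat_lit 16293314688), (nat_lit 49, nat_lit 16293310593), (nat_lit 45, nat_lit 16293052545), (nat_lit 41, nat_lit 17383825536), (nat_lit 8, nat_lit 17383567488), (nat_lit 65, nat_lit 17383563393), (nat_lit 126, nat_lit 17383309440), (nat_lit 93, nat_lit 17383305345), (nat_lit 11, nat_lit 17367052416), (nat_lit 101, nat_lit 17367048321), (nat_lit 37, nat_lit 17366794368), (nat_lit 92, nat_lit 17366790273), (nat_lit 126, nat_lit 17366532225), (nat_lit 71, nat_lit 18457305216), (nat_lit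 4, nat_lit 18457047168), (nat_lit 72, nat_lit 18457043073), (nat_lit 66, nat_lit 18440790144), (nat_lit 20, nat_lit 18440532096), (nat_lit 54, nat_lit 18440528001), (nat_lit 38, nat_lit 18440274048), (nat_lit 77, nat_lit 18440269953), (nat_lit 109, nat_lit 19530784896), (nat_lit 7, nat_lit 19514269824), (nat_lit 53, nat_lit 19514011776), (nat_lit 47, nat_lit 19514007681), (nat_lit 104, nat_lit 20587749504)]⟩,
   ⟨V6_13088071809, [(nat_lit 58, nat_lit 14162608257), (nat_lit 43, nat_lit 15236345985), (nat_lit 123, nat_lit 15236087937), (nat_lit 86, nat_lit 16310083713), (nat_lit 30, nat_lit 16309825665), (nat_lit 28, nat_lit 16309567617), (nat_lit 67, nat_lit 17383563393), (nat_lit 38, nat_lit 17383305345), (nat_lit 41, nat_lit 17383047297), (nat_lit 60, nat_lit 18457043073), (nat_lit 47, nat_lit 18456785025), (nat_lit 41, nat_lit 19530522753)]⟩],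
  [W_14161555520, W_14144782400, W_14128525376, W_13055303744, W_13055045696]⟩
theorem C_14162608257 : chkRec R_14162608257 = true := by decide +kernel

noncomputable def R_14162608320 : Rec := ⟨nat_lit 14162608320, nat_lit 38,
  [⟨V6_14161035456, [(nat_lit 101, nat_lit 14162608320), (nat_lit 3, nat_lit 15236088000), (nat_lit 48, nat_lit 16309567680), (nat_lit 71, nat_lit 17383047360), (nat_lit 122, nat_lit 18456527040), (nat_lit 78, nat_lit 19530006720), (nat_lit 69, nat_lit 20603486400)]⟩,
   ⟨V6_13088342016, [(nat_lit 29, nat_lit 14162608320), (nat_lit 74, nat_lit 15236350080), (nat_lit 19, nat_lit 15236088000), (nat_lit 126, nat_lit 16310091840), (nat_lit 70, nat_lit 16309829760), (nat_lit 112, nat_lit 16309567680), (nat_lit 96, nat_lit 17383833600), (nat_lit 48, nat_lit 17383571520), (nat_lit 82, nat_lit 17383309440), (nat_lit 78, nat_lit 18457313280), (nat_lit 25, nat_lit 18457051200), (nat_lit 25, nat_lit 19530792960)]⟩,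
   ⟨V6_13087813824, [(nat_lit 85, nat_lit 14162608320), (nat_lit 25, nat_lit 15236346048), (nat_lit 1, nat_lit 15236088000), (nat_lit 21, nat_lit 16309825728), (nat_lit 94, nat_lit 16309567680), (nat_lit 100, nat_lit 17383305408), (nat_lit 96, nat_lit 17383047360), (nat_lit 1, nat_lit 18456785088), (nat_lit 19, nat_lit 18456527040), (nat_lit 75, nat_lit 19530264768)]⟩],
  [W_14161817600, W_14145302528, W_14128787456, W_13071822848, W_13055307776, W_13055045696]⟩
theorem C_14162608320 : chkRec R_14162608320 = true := by decide +kernel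

noncomputable def R_14162612289 : Rec := ⟨nat_lit 14162612289, nat_lit 20,
  [⟨V6_14129041473, [(nat_lit 4, nat_lit 14162612289), (nat_lit 125, nat_lit 15236350017), (nat_lit 124, nat_lit 15219576897), (nat_lit 96, nat_lit 16310087745), (nat_lit 42, nat_lit 16293314625), (nat_lit 89, nat_lit 16276541505), (nat_lit 19, nat_lit 17383825473), (nat_lit 88, nat_lit 17367052353), (nat_lit 103, nat_lit 17350279233), (nat_lit 21, nat_lit 18457563201), (nat_lit 24, nat_lit 18440790081), (nat_lit 116, nat_lit 18424016961), (nat_lit 85, nat_lit 19514527809), (nat_lit 47, nat_lit 19497754689), (nat_lit 120, nat_lit 20571492417)]⟩,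
   ⟨V6_13088854080, [(nat_lit 41, nat_lit 14162612289), (nat_lit 49, nat_lit 15236354112), (nat_lit 24, nat_lit 15236350017), (nat_lit 58, nat_lit 16310091840), (nat_lit 67, nat_lit 16310087745), (nat_lit 13, nat_lit 17383829568), (nat_lit 61, nat_lit 17383825473), (nat_lit 105, nat_lit 18457567296), (nat_lit 36, nat_lit 18457563201), (nat_lit 77, nat_lit 19531305024)]⟩,
   ⟨V6_13087821888, [(nat_lit 112, nat_lit 14162612289), (nat_lit 23, nat_lit 15236354112), (nat_lit 1, nat_lit 15236091969), (nat_lit 37, nat_lit 16309833792), (nat_lit 78, nat_lit 16309571649), (nat_lit 97, nat_lit 17383313472), (nat_lit 46, nat_lit 17383051329), (nat_lit 59, nat_lit 18456793152), (nat_lit 81, nat_lit 18456531009), (nat_lit 126, nat_lit 19530272832)]⟩,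
   ⟨V6_13072076865, [(nat_lit 41, nat_lit 14162612289), (nat_lit 109, nat_lit 15236350017), (nat_lit 32, nat_lit 15219576897), (nat_lit 2, nat_lit 16310087745), (nat_lit 31, nat_lit 16293314625), (nat_lit 27, nat_lit 17383825473), (nat_lit 101, nat_lit 17367052353), (nat_lit 101, nat_lit 18457563201), (nat_lit 62, nat_lit 18440790081), (nat_lit 13, nat_lit 19514527809)]⟩],
  [W_14161813568, W_14128783424, W_14128525376, W_13055303744]⟩
theorem C_14162612289 : chkRec R_14162612289 = true := by decide +kernel

noncomputable def R_14162612352 : Rec := ⟨nat_lit 14162612352, nat_lit 56,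
  [⟨V6_14161563648, [(nat_lit 43, nat_lit 14162612352), (nat_lit 31, nat_lit 15236354112), (nat_lit 82, nat_lit 15236092032), (nat_lit 115, nat_lit 16310095872), (nat_lit 80, nat_lit 16309833792), (nat_lit 107, nat_lit 16309571712), (nat_lit 63, nat_lit 17383575552), (nat_lit 36, nat_lit 17383313472), (nat_lit 4, nat_lit 17383051392), (nat_lit 121, nat_lit 18457055232), (nat_lit 58, nat_lit 18456793152), (nat_lit 17, nat_lit 18456531072), (nat_lit 68, nat_lit 19530534912), (nat_lit 36, nat_lit 19530272832), (nat_lit 41, nat_lit 20604014592)]⟩,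
   ⟨V6_13088858112, [(nat_lit 95, nat_lit 14162612352), (nat_lit 14, nat_lit 15236354112), (nat_lit 120, nat_lit 15236350080), (nat_lit 5, nat_lit 16310095872), (nat_lit 71, nat_lit 16310091840), (nat_lit 75, nat_lit 16310087808), (nat_lit 85, nat_lit 17383833600), (nat_lit 40, nat_lit 17383829568), (nat_lit 66, nat_lit 17383825536), (nat_lit 32, nat_lit 18457571328), (nat_lit 30, nat_lit 18457567296), (nat_lit 27, nat_lit 19531309056)]⟩,
   ⟨V6_13088333952, [(nat_lit 113, nat_lit 14162612352), (nat_lit 108, nat_lit 15236350080), (nat_lit 28, nat_lit 15236092032), (nat_lit 38, nat_lit 16310087808), (nat_lit 79, nat_lit 16309829760), (nat_lit 111, nat_lit 16309571712), (nat_lit 10, nat_lit 17383825536), (nat_lit 98, nat_lit 17383567488), (nat_lit 83, nat_lit 17383309440), (nat_lit 21, nat_lit 18457305216), (nat_lit 67, nat_lit 18457047168), (nat_lit 98, nat_lit 19530784896)]⟩,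
   ⟨V6_13088083968, [(nat_lit 54, nat_lit 14162612352), (nat_lit 118, nat_lit 15236354112), (nat_lit 99, nat_lit 15236092032), (nat_lit 9, nat_lit 16310095872), (nat_lit 68, nat_lit 16309833792), (nat_lit 95, nat_lit 16309571712), (nat_lit 105, nat_lit 17383575552), (nat_lit 17, nat_lit 17383313472), (nat_lit 10, nat_lit 17383051392), (nat_lit 65, nat_lit 18457055232), (nat_lit 45, nat_lit 18456793152), (nat_lit 29, nat_lit 19530534912)]⟩],
  [W_14161817600, W_14145302528, W_14145044480, W_14129045504, W_14128787456, W_14128783424, W_13071818816, W_13055307776, W_13055303744]⟩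
theorem C_14162612352 : chkRec R_14162612352 = true := by decide +kernel

noncomputable def R_14162616384 : Rec := ⟨nat_lit 14162616384, nat_lit 51,
  [⟨V6_13088858112, [(nat_lit 63, nat_lit 14162616384), (nat_lit 101, nat_lit 15236358144), (nat_lit 25, nat_lit 15236354112), (nat_lit 49, nat_lit 16310095872), (nat_lit 26, nat_lit 16310091840), (nat_lit 106, nat_lit 17383833600), (nat_lit 24, nat_lit 17383829568), (nat_lit 120, nat_lit 18457571328), (nat_lit 102, nat_lit 18457567296), (nat_lit 34, nat_lit 19531309056)]⟩,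
   ⟨V6_13088854080, [(nat_lit 14, nat_lit 14162616384), (nat_lit 12, nat_lit 15236354112), (nat_lit 107, nat_lit 16310091840), (nat_lit 56, nat_lit 17383829568), (nat_lit 103, nat_lit 18457567296), (nat_lit 121, nat_lit 19531305024)]⟩,
   ⟨V6_13088342016, [(nat_lit 75, nat_lit 14162616384), (nat_lit 78, nat_lit 15236358144), (nat_lit 18, nat_lit 15236354112), (nat_lit 32, nat_lit 15236096064), (nat_lit 121, nat_lit 16310095872), (nat_lit 121, nat_lit 16310091840), (nat_lit 104, nat_lit 16309837824), (nat_lit 8, nat_lit 16309833792), (nat_lit 90, nat_lit 16309575744), (nat_lit 55, nat_lit 17383833600), (nat_lit 34, nat_lit 17383575552), (nat_lit 117, nat_lit 17383571520), (nat_lit 53, nat_lit 17383317504), (nat_lit 24, nat_lit 17383313472), (nat_lit 6, nat_lit 18457313280), (nat_lit 53, nat_lit 18457055232), (nat_lit 64, nat_lit 18457051200), (nat_lit 119, nat_lit 19530792960)]⟩,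
   ⟨V6_13087825920, [(nat_lit 62, nat_lit 14162616384), (nat_lit 82, nat_lit 15236358144), (nat_lit 39, nat_lit 15236096064), (nat_lit 5, nat_lit 16309837824), (nat_lit 13, nat_lit 16309575744), (nat_lit 115, nat_lit 17383317504), (nat_lit 21, nat_lit 17383055424), (nat_lit 102, nat_lit 18456797184), (nat_lit 47, nat_lit 18456535104), (nat_lit 62, nat_lit 19530276864)]⟩],
  [W_14145556544, W_14145302528, W_14145044480, W_14129045504, W_14128787456, W_14128783424, W_14128013312, W_13055303744]⟩
theorem C_14162616384 : chkRec R_14162616384 = true := by decide +kernel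

noncomputable def R_14162620416 : Rec := ⟨nat_lit 14162620416, nat_lit 26,
  [⟨V6_13088858112, [(nat_lit 70, nat_lit 14162620416), (nat_lit 101, nat_lit 15236358144), (nat_lit 31, nat_lit 16310095872), (nat_lit 80, nat_lit 17383833600), (nat_lit 15, nat_lit 18457571328), (nat_lit 70, nat_lit 19531309056)]⟩,
   ⟨V6_13055311872, [(nat_lit 18, nat_lit 14162620416), (nat_lit 78, nat_lit 15236358144), (nat_lit 1, nat_lit 15219585024), (nat_lit 108, nat_lit 16310095872), (nat_lit 30, nat_lit 16293322752), (nat_lit 79, nat_lit 16276549632), (nat_lit 19, nat_lit 17383833600), (nat_lit 105, nat_lit 17367060480), (nat_lit 61, nat_lit 17350287360), (nat_lit 108, nat_lit 18440798208), (nat_lit 42, nat_lit 18424025088), (nat_lit 33, nat_lit 19497762816)]⟩],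
  [W_14162333696, W_14161817600, W_14145302528]⟩
theorem C_14162620416 : chkRec R_14162620416 = true := by decide +kernel

noncomputable def R_14162862210 : Rec := ⟨nat_lit 14162862210, nat_lit 1,
  [⟨V6_13087809666, [(nat_lit 80, nat_lit 14162862210), (nat_lit 14, nat_lit 15236341890), (nat_lit 66, nat_lit 16309821570), (nat_lit 98, nat_lit 17383301250), (nat_lit 122, nat_lit 18456780930), (nat_lit 29, nat_lit 19530260610)]⟩],
  [W_13088071808]⟩
theorem C_14162862210 : chkRec R_14162862210 = true := by decide +kernel

noncomputable def R_14162866305 : Rec := ⟨nat_lit 14162866305, nat_lit 12,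
  [⟨V6_13088333952, [(nat_lit 22, nat_lit 14162866305), (nat_lit 5, nat_lit 15236608128), (nat_lit 75, nat_lit 15236604033), (nat_lit 21, nat_lit 15236345985), (nat_lit 99, nat_lit 16310345856), (nat_lit 95, nat_lit 16310087808), (nat_lit 88, nat_lit 16310083713), (nat_lit 102, nat_lit 16309825665), (nat_lit 90, nat_lit 17383825536), (nat_lit 107, nat_lit 17383567488), (nat_lit 8, nat_lit 17383563393), (nat_lit 43, nat_lit 17383305345), (nat_lit 39, nat_lit 18457305216), (nat_lit 44, nat_lit 18457047168), (nat_lit 63, nat_lit 18457043073), (nat_lit 41, nat_lit 19530784896)]⟩],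
  [W_14161555520, W_13071560768]⟩
theorem C_14162866305 : chkRec R_14162866305 = true := by decide +kernel

noncomputable def R_14162866368 : Rec := ⟨nat_lit 14162866368, nat_lit 11,
  [⟨V6_14161293504, [(nat_lit 63, nat_lit 14162866368), (nat_lit 104, nat_lit 15236346048), (nat_lit 122, nat_lit 16309825728), (nat_lit 42, nat_lit 17383305408), (nat_lit 28, nat_lit 18456785088), (nat_lit 86, nat_lit 19530264768), (nat_lit 76, nat_lit 20603744448)]⟩,
   ⟨V6_13087813824, [(nat_lit 102, nat_lit 14162866368), (nat_lit 75, nat_lit 15236346048), (nat_lit 27, nat_lit 16309825728), (nat_lit 17, nat_lit 17383305408), (nat_lit 73, nat_lit 18456785088), (nat_lit 110, nat_lit 19530264768)]⟩],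
  [W_14161817600, W_13088337920]⟩
theorem C_14162866368 : chkRec R_14162866368 = true := by decide +kernel

noncomputable def R_14162870337 : Rec := ⟨nat_lit 14162870337, nat_lit 11,
  [⟨V6_14145556545, [(nat_lit 120, nat_lit 14162870337), (nat_lit 59, nat_lit 15236608065), (nat_lit 122, nat_lit 15236350017), (nat_lit 46, nat_lit 15219834945), (nat_lit 78, nat_lit 16310345793), (nat_lit 103, nat_lit 16310087745), (nat_lit 4, nat_lit 16309829697), (nat_lit 81, nat_lit 16293572673), (nat_lit 68, nat_lit 16293314625), (nat_lit 68, nat_lit 17384083521), (nat_lit 91, nat_lit 17383825473), (nat_lit 45, nat_lit 17383567425), (nat_lit 121, nat_lit 17367310401), (nat_lit 68, nat_lit 17367052353), (nat_lit 15, nat_lit 17366794305), (nat_lit 13, nat_lit 18457563201), (nat_lit 123, nat_lit 18457305153), (nat_lit 119, nat_lit 18441048129), (nat_lit 33, nat_lit 18440790081), (nat_lit 55, nat_lit 18440532033), (nat_lit 111, nat_lit 19531042881), (nat_lit 115, nat_lit 19514527809), (nat_lit 20, nat_lit 19514269761), (nat_lit 85, nat_lit 20588007489)]⟩,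
   ⟨V6_13088854080, [(nat_lit 17, nat_lit 14162870337), (nat_lit 111, nat_lit 15236612160), (nat_lit 5, nat_lit 15236608065), (nat_lit 44, nat_lit 15236350017), (nat_lit 20, nat_lit 16310349888), (nat_lit 92, nat_lit 16310345793), (nat_lit 27, nat_lit 16310091840), (nat_lit 2, nat_lit 16310087745), (nat_lit 20, nat_lit 17384087616), (nat_lit 46, nat_lit 17384083521), (nat_lit 2, nat_lit 17383829568), (nat_lit 116, nat_lit 17383825473), (nat_lit 43, nat_lit 18457825344), (nat_lit 56, nat_lit 18457567296), (nat_lit 65, nat_lit 18457563201), (nat_lit 78, nat_lit 19531305024)]⟩,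
   ⟨V6_13072339008, [(nat_lit 108, nat_lit 14162870337), (nat_lit 81, nat_lit 15236612160), (nat_lit 22, nat_lit 15236608065), (nat_lit 72, nat_lit 15219834945), (nat_lit 41, nat_lit 16310349888), (nat_lit 33, nat_lit 16310345793), (nat_lit 103, nat_lit 16293576768), (nat_lit 123, nat_lit 16293572673), (nat_lit 91, nat_lit 17384087616), (nat_lit 105, nat_lit 17384083521), (nat_lit 79, nat_lit 17367314496), (nat_lit 13, nat_lit 17367310401), (nat_lit 27, nat_lit 18457825344), (nat_lit 14, nat_lit 18441052224), (nat_lit 49, nat_lit 18441048129), (nat_lit 96, nat_lit 19514789952)]⟩],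
  [W_14161555520, W_14161297472]⟩
theorem C_14162870337 : chkRec R_14162870337 = true := by decide +kernel

noncomputable def R_14162870400 : Rec := ⟨nat_lit 14162870400, nat_lit 31,
  [⟨V6_13088858112, [(nat_lit 38, nat_lit 14162870400), (nat_lit 103, nat_lit 15236612160), (nat_lit 113, nat_lit 15236608128), (nat_lit 76, nat_lit 15236350080), (nat_lit 31, nat_lit 16310353920), (nat_lit 30, nat_lit 16310349888), (nat_lit 53, nat_lit 16310345856), (nat_lit 104, nat_lit 16310091840), (nat_lit 28, nat_lit 16310087808), (nat_lit 1, nat_lit 17384091648), (nat_lit 30, nat_lit 17384087616), (nat_lit 61, nat_lit 17383833600), (nat_lit 3, nat_lit 17383829568), (nat_lit 80, nat_lit 17383825536), (nat_lit 17, nat_lit 18457829376), (nat_lit 39, nat_lit 18457571328), (nat_lit 84, nat_lit 18457567296), (nat_lit 22, nat_lit 19531309056)]⟩,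
   ⟨V6_13088342016, [(nat_lit 121, nat_lit 14162870400), (nat_lit 100, nat_lit 15236612160), (nat_lit 22, nat_lit 15236350080), (nat_lit 8, nat_lit 16310353920), (nat_lit 103, nat_lit 16310091840), (nat_lit 84, nat_lit 16309829760), (nat_lit 64, nat_lit 17383833600), (nat_lit 4, nat_lit 17383571520), (nat_lit 32, nat_lit 17383309440), (nat_lit 9, nat_lit 18457313280), (nat_lit 85, nat_lit 18457051200), (nat_lit 20, nat_lit 19530792960)]⟩],
  [W_14161555520, W_14145302528, W_14145044480, W_14145036416]⟩
theorem C_14162870400 : chkRec R_14162870400 = true := by decide +kernel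

noncomputable def R_14162874432 : Rec := ⟨nat_lit 14162874432, nat_lit 33,
  [⟨V6_13088858112, [(nat_lit 70, nat_lit 14162874432), (nat_lit 67, nat_lit 15236616192), (nat_lit 74, nat_lit 15236612160), (nat_lit 62, nat_lit 15236354112), (nat_lit 70, nat_lit 16310353920), (nat_lit 75, nat_lit 16310349888), (nat_lit 66, nat_lit 16310095872), (nat_lit 123, nat_lit 16310091840), (nat_lit 110, nat_lit 17384091648), (nat_lit 25, nat_lit 17384087616), (nat_lit 14, nat_lit 17383833600), (nat_lit 83, nat_lit 17383829568), (nat_lit 73, nat_lit 18457829376), (nat_lit 105, nat_lit 18457571328), (nat_lit 55, nat_lit 18457567296), (nat_lit 23, nat_lit 19531309056)]⟩,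
   ⟨V6_13088854080, [(nat_lit 10, nat_lit 14162874432), (nat_lit 44, nat_lit 15236612160), (nat_lit 45, nat_lit 15236354112), (nat_lit 105, nat_lit 16310349888), (nat_lit 91, nat_lit 16310091840), (nat_lit 116, nat_lit 17384087616), (nat_lit 109, nat_lit 17383829568), (nat_lit 112, nat_lit 18457825344), (nat_lit 2, nat_lit 18457567296), (nat_lit 15, nat_lit 19531305024)]⟩,
   ⟨V6_13087821888, [(nat_lit 107, nat_lit 14162874432), (nat_lit 60, nat_lit 15236354112), (nat_lit 47, nat_lit 16309833792), (nat_lit 39, nat_lit 17383313472), (nat_lit 33, nat_lit 18456793152), (nat_lit 88, nat_lit 19530272832)]⟩,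
   ⟨V6_13072339008, [(nat_lit 47, nat_lit 14162874432), (nat_lit 63, nat_lit 15236612160), (nat_lit 15, nat_lit 15219839040), (nat_lit 120, nat_lit 16310349888), (nat_lit 82, nat_lit 16293576768), (nat_lit 96, nat_lit 17384087616), (nat_lit 91, nat_lit 17367314496), (nat_lit 91, nat_lit 18457825344), (nat_lit 37, nat_lit 18441052224), (nat_lit 18, nat_lit 19514789952)]⟩],
  [W_14161559552, W_14161301504, W_14145302528, W_14145044480]⟩
theorem C_14162874432 : chkRec R_14162874432 = true := by decide +kernel

noncomputable def R_14162878464 : Rec := ⟨nat_lit 14162878464, nat_lit 20,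
  [⟨V6_14162853888, [(nat_lit 101, nat_lit 14162878464), (nat_lit 61, nat_lit 15236616192), (nat_lit 56, nat_lit 16310353920), (nat_lit 19, nat_lit 17384091648), (nat_lit 48, nat_lit 18457829376), (nat_lit 104, nat_lit 19531567104), (nat_lit 79, nat_lit 20605304832)]⟩,
   ⟨V6_14146080768, [(nat_lit 124, nat_lit 14162878464), (nat_lit 61, nat_lit 15236616192), (nat_lit 35, nat_lit 15219843072), (nat_lit 37, nat_lit 16310353920), (nat_lit 119, nat_lit 16293580800), (nat_lit 65, nat_lit 17384091648), (nat_lit 64, nat_lit 17367318528), (nat_lit 74, nat_lit 18457829376), (nat_lit 28, nat_lit 18441056256), (nat_lit 107, nat_lit 19531567104), (nat_lit 41, nat_lit 19514793984), (nat_lit 41, nat_lit 20588531712)]⟩,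
   ⟨V6_13087825920, [(nat_lit 107, nat_lit 14162878464), (nat_lit 60, nat_lit 15236358144), (nat_lit 47, nat_lit 16309837824), (nat_lit 39, nat_lit 17383317504), (nat_lit 33, nat_lit 18456797184), (nat_lit 88, nat_lit 19530276864)]⟩,
   ⟨V6_13072343040, [(nat_lit 50, nat_lit 14162878464), (nat_lit 30, nat_lit 15236616192), (nat_lit 102, nat_lit 15219843072), (nat_lit 9, nat_lit 16310353920), (nat_lit 15, nat_lit 16293580800), (nat_lit 56, nat_lit 17384091648), (nat_lit 126, nat_lit 17367318528), (nat_lit 93, nat_lit 18457829376), (nat_lit 121, nat_lit 18441056256), (nat_lit 42, nat_lit 19514793984)]⟩],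
  [W_14145302528, W_13088854016, W_13071564800]⟩
theorem C_14162878464 : chkRec R_14162878464 = true := by decide +kernel

noncomputable def R_14163124353 : Rec := ⟨nat_lit 14163124353, nat_lit 3,
  [⟨V6_13088071809, [(nat_lit 31, nat_lit 14163124353), (nat_lit 113, nat_lit 15236604033), (nat_lit 93, nat_lit 16310083713), (nat_lit 65, nat_lit 17383563393), (nat_lit 4, nat_lit 18457043073), (nat_lit 101, nat_lit 19530522753)]⟩],
  [W_14161813568]⟩
theorem C_14163124353 : chkRec R_14163124353 = true := by decide +kernel

noncomputable def R_14163128385 : Rec := ⟨nat_lit 14163128385, nat_lit 3,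
  [⟨V6_13088854080, [(nat_lit 30, nat_lit 14163128385), (nat_lit 43, nat_lit 15236870208), (nat_lit 3, nat_lit 15236866113), (nat_lit 34, nat_lit 15236608065), (nat_lit 52, nat_lit 16310607936), (nat_lit 54, nat_lit 16310603841), (nat_lit 5, nat_lit 16310349888), (nat_lit 6, nat_lit 16310345793), (nat_lit 25, nat_lit 16310087745), (nat_lit 37, nat_lit 17384345664), (nat_lit 113, nat_lit 17384087616), (nat_lit 20, nat_lit 17384083521), (nat_lit 28, nat_lit 17383829568), (nat_lit 4, nat_lit 17383825473), (nat_lit 11, nat_lit 18457825344), (nat_lit 40, nat_lit 18457567296), (nat_lit 31, nat_lit 18457563201), (nat_lit 63, nat_lit 19531305024)]⟩,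
   ⟨V6_13088591937, [(nat_lit 12, nat_lit 14163128385), (nat_lit 11, nat_lit 15236866113), (nat_lit 80, nat_lit 15236608065), (nat_lit 5, nat_lit 16310603841), (nat_lit 107, nat_lit 16310345793), (nat_lit 26, nat_lit 16310087745), (nat_lit 12, nat_lit 17384083521), (nat_lit 72, nat_lit 17383825473), (nat_lit 21, nat_lit 17383567425), (nat_lit 118, nat_lit 18457563201), (nat_lit 20, nat_lit 18457305153), (nat_lit 57, nat_lit 19531042881)]⟩],
  [W_14161555520]⟩
theorem C_14163128385 : chkRec R_14163128385 = true := by decide +kernel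

noncomputable def R_14163128448 : Rec := ⟨nat_lit 14163128448, nat_lit 10,
  [⟨V6_13088333952, [(nat_lit 53, nat_lit 14163128448), (nat_lit 107, nat_lit 15236866176), (nat_lit 112, nat_lit 15236608128), (nat_lit 115, nat_lit 16310345856), (nat_lit 15, nat_lit 16310087808), (nat_lit 82, nat_lit 17383825536), (nat_lit 56, nat_lit 17383567488), (nat_lit 41, nat_lit 18457305216), (nat_lit 43, nat_lit 18457047168), (nat_lit 92, nat_lit 19530784896)]⟩],
  [W_14161817600]⟩
theorem C_14163128448 : chkRec R_14163128448 = true := by decide +kernel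

noncomputable def R_14163132480 : Rec := ⟨nat_lit 14163132480, nat_lit 14,
  [⟨V6_13088342016, [(nat_lit 54, nat_lit 14163132480), (nat_lit 117, nat_lit 15236874240), (nat_lit 40, nat_lit 15236612160), (nat_lit 64, nat_lit 16310353920), (nat_lit 88, nat_lit 16310091840), (nat_lit 48, nat_lit 17383833600), (nat_lit 42, nat_lit 17383571520), (nat_lit 112, nat_lit 18457313280), (nat_lit 87, nat_lit 18457051200), (nat_lit 6, nat_lit 19530792960)]⟩],
  [W_14162333696, W_14162071616, W_14161555520]⟩
theorem C_14163132480 : chkRec R_14163132480 = true := by decide +kernel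

noncomputable def R_14163136512 : Rec := ⟨nat_lit 14163136512, nat_lit 11,
  [⟨V6_13088083968, [(nat_lit 68, nat_lit 14163136512), (nat_lit 84, nat_lit 15236616192), (nat_lit 77, nat_lit 16310095872), (nat_lit 118, nat_lit 17383575552), (nat_lit 103, nat_lit 18457055232), (nat_lit 29, nat_lit 19530534912)]⟩],
  [W_14162591744, W_14161301504, W_13088854016, W_13088595968]⟩
theorem C_14163136512 : chkRec R_14163136512 = true := by decide +kernel

noncomputable def R_14178074883 : Rec := ⟨nat_lit 14178074883, nat_lit 1,
  [⟨V6_14127481089, [(nat_lit 23, nat_lit 14178074883), (nat_lit 50, nat_lit 15251816706), (nat_lit 69, nat_lit 15251554563), (nat_lit 59, nat_lit 15235039491), (nat_lit 64, nat_lit 16325558529), (nat_lit 61, nat_lit 16325296386), (nat_lit 104, nat_lit 16308781314), (nat_lit 3, nat_lit 16308519171), (nat_lit 10, nat_lit 16292004099), (nat_lit 115, nat_lit 17399038209), (nat_lit 43, nat_lit 17382523137), (nat_lit 83, nat_lit 17382260994), (nat_lit 41, nat_lit 17365745922), (nat_lit 49, nat_lit 17365483779), (nat_lit 39, nat_lit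 17348968707), (nat_lit 60, nat_lit 18456002817), (nat_lit 10, nat_lit 18439487745), (nat_lit 32, nat_lit 18439225602), (nat_lit 4, nat_lit 18422710530), (nat_lit 53, nat_lit 18422448387), (nat_lit 116, nat_lit 19512967425), (nat_lit 56, nat_lit 19496452353), (nat_lit 29, nat_lit 19496190210), (nat_lit 62, nat_lit 20569932033)]⟩],
  [W_14144258240]⟩
theorem C_14178074883 : chkRec R_14178074883 = true := by decide +kernel

noncomputable def R_14178078978 : Rec := ⟨nat_lit 14178078978, nat_lit 1,
  [⟨V6_14094192834, [(nat_lit 11, nat_lit 14178078978), (nat_lit 84, nat_lit 15251820738), (nat_lit 39, nat_lit 15235043586), (nat_lit 48, nat_lit 16308785346), (nat_lit 1, nat_lit 16292008194), (nat_lit 82, nat_lit 17365749954), (nat_lit 123, nat_lit 17348972802), (nat_lit 101, nat_lit 18422714562), (nat_lit 30, nat_lit 18405937410), (nat_lit 126, nat_lit 19479679170), (nat_lit 42, nat_lit 19462902018), (nat_lit 103, nat_lit 20536643778)]⟩],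
  [W_14127747200]⟩
theorem C_14178078978 : chkRec R_14178078978 = true := by decide +kernel

noncomputable def R_14178079041 : Rec := ⟨nat_lit 14178079041, nat_lit 1,
  [⟨V6_14094192897, [(nat_lit 91, nat_lit 14178079041), (nat_lit 35, nat_lit 15251820801), (nat_lit 52, nat_lit 15235043649), (nat_lit 126, nat_lit 16308785409), (nat_lit 110, nat_lit 16292008257), (nat_lit 25, nat_lit 17365750017), (nat_lit 120, nat_lit 17348972865), (nat_lit 94, nat_lit 18422714625), (nat_lit 73, nat_lit 18405937473), (nat_lit 55, nat_lit 19479679233), (nat_lit 101, nat_lit 19462902081), (nat_lit 14, nat_lit 20536643841)]⟩],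
  [W_14144524352]⟩
theorem C_14178079041 : chkRec R_14178079041 = true := by decide +kernel

noncomputable def R_14178336963 : Rec := ⟨nat_lit 14178336963, nat_lit 2,
  [⟨V6_14177808576, [(nat_lit 18, nat_lit 14178336963), (nat_lit 41, nat_lit 15252078786), (nat_lit 28, nat_lit 15252074691), (nat_lit 113, nat_lit 15251816643), (nat_lit 117, nat_lit 16325820609), (nat_lit 40, nat_lit 16325816514), (nat_lit 18, nat_lit 16325558466), (nat_lit 39, nat_lit 16325554371), (nat_lit 73, nat_lit 16325296323), (nat_lit 16, nat_lit 17399562432), (nat_lit 66, nat_lit 17399558337), (nat_lit 114, nat_lit 17399300289), (nat_lit 91, nat_lit 17399296194), (nat_lit 95, nat_lit 17399038146), (nat_lit 1, nat_lit 17399034051), (nat_lit 17, nat_lit 18473300160), (nat_lit 30, nat_lit 18473042112), (nat_lit 87, nat_lit 18473038017), (nat_lit 2, nat_lit 18472779969), (nat_lit 43, nat_lit 18472775874), (nat_lit 18, nat_lit 19546779840), (nat_lit 71, nat_lit 19546521792), (nat_lit 31, nat_lit 19546517697), (nat_lit 6, nat_lit 20620259520)]⟩],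
  [W_14128001216]⟩
theorem C_14178336963 : chkRec R_14178336963 = true := by decide +kernel

noncomputable def R_14178337026 : Rec := ⟨nat_lit 14178337026, nat_lit 3,
  [⟨V6_14177812608, [(nat_lit 9, nat_lit 14178337026), (nat_lit 60, nat_lit 15252078849), (nat_lit 104, nat_lit 15252078786), (nat_lit 25, nat_lit 15251816706), (nat_lit 37, nat_lit 16325820672), (nat_lit 18, nat_lit 16325820609), (nat_lit 84, nat_lit 16325820546), (nat_lit 89, nat_lit 16325558529), (nat_lit 120, nat_lit 16325558466), (nat_lit 53, nat_lit 16325296386), (nat_lit 22, nat_lit 17399562432), (nat_lit 78, nat_lit 17399562369), (nat_lit 70, nat_lit 17399300352), (nat_lit 125, nat_lit 17399300289), (nat_lit 57, nat_lit 17399300226), (nat_lit 117, nat_lit 17399038209), (nat_lit 83, nat_lit 17399038146), (nat_lit 12, nat_lit 18473304192), (nat_lit 73, nat_lit 18473042112), (nat_lit 58, nat_lit 18473042049), (nat_lit 72, nat_lit 18472780032), (nat_lit 98, nat_lit 18472779969), (nat_lit 81, nat_lit 18472779906), (nat_lit 79, nat_lit 19546783872), (nat_lit 50, nat_lit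 19546521792), (nat_lit 25, nat_lit 19546521729), (nat_lit 38, nat_lit 20620263552)]⟩],
  [W_14127481088, W_14094450944]⟩
theorem C_14178337026 : chkRec R_14178337026 = true := by decide +kernel

noncomputable def R_14178341058 : Rec := ⟨nat_lit 14178341058, nat_lit 7,
  [⟨V6_14161293504, [(nat_lit 81, nat_lit 14178341058), (nat_lit 32, nat_lit 15252082881), (nat_lit 29, nat_lit 15252078786), (nat_lit 36, nat_lit 15251820738), (nat_lit 39, nat_lit 15235305666), (nat_lit 57, nat_lit 16325824704), (nat_lit 25, nat_lit 16325820609), (nat_lit 50, nat_lit 16325816514), (nat_lit 118, nat_lit 16325562561), (nat_lit 36, nat_lit 16325558466), (nat_lit 82, nat_lit 16309047489), (nat_lit 18, nat_lit 16309043394), (nat_lit 25, nat_lit 16308785346), (nat_lit 39, nat_lit 17399562432), (nat_lit 27, nat_lit 17399558337), (nat_lit 20, nat_lit 17399304384), (nat_lit 70, nat_lit 17399300289), (nat_lit 118, nat_lit 17399296194), (nat_lit 54, nat_lit 17382789312), (nat_lit 15, nat_lit 17382785217), (nat_lit 51, nat_lit 17382781122), (nat_lit 31, nat_lit 17382527169),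 (nat_lit 74, nat_lit 17382523074), (nat_lit 28, nat_lit 18473300160), (nat_lit 94, nat_lit 18473042112), (nat_lit 66, nat_lit 18473038017), (nat_lit 123, nat_lit 18456527040), (nat_lit 3, nat_lit 18456522945), (nat_lit 88, nat_lit 18456268992), (nat_lit 85, nat_lit 18456264897), (nat_lit 93, nat_lit 18456260802), (nat_lit 115, nat_lit 19546779840), (nat_lit 105, nat_lit 19530264768), (nat_lit 65, nat_lit 19530006720), (nat_lit 35, nat_lit 19530002625), (nat_lit 45, nat_lit 20603744448)]⟩],
  [W_14144516288, W_14128001216, W_14110970048, W_14094454976]⟩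
theorem C_14178341058 : chkRec R_14178341058 = true := by decide +kernel

noncomputable def R_14178341121 : Rec := ⟨nat_lit 14178341121, nat_lit 7,
  [⟨V6_14178074688, [(nat_lit 48, nat_lit 14178341121), (nat_lit 57, nat_lit 15252082944), (nat_lit 87, nat_lit 15252082881), (nat_lit 84, nat_lit 15252078849), (nat_lit 28, nat_lit 15251820801), (nat_lit 34, nat_lit 16325824704), (nat_lit 67, nat_lit 16325824641), (nat_lit 1, nat_lit 16325820672), (nat_lit 76, nat_lit 16325820609), (nat_lit 62, nat_lit 16325562624), (nat_lit 88, nat_lit 16325562561), (nat_lit 23, nat_lit 16325558529), (nat_lit 105, nat_lit 17399566464), (nat_lit 91, nat_lit 17399566401), (nat_lit 107, nat_lit 17399562432), (nat_lit 33, nat_lit 17399562369), (nat_lit 24, nat_lit 17399304384), (nat_lit 74, nat_lit 17399304321), (nat_lit 98, nat_lit 17399300352), (nat_lit 48, nat_lit 17399300289), (nat_lit 84, nat_lit 18473308224), (nat_lit 93, nat_lit 18473304192), (nat_lit 77, nat_lit 18473304129), (nat_lit 66, nat_lit 18473046144), (nat_lit 103, nat_lit 18473046081), (nat_lit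 26, nat_lit 18473042112), (nat_lit 5, nat_lit 18473042049), (nat_lit 120, nat_lit 19547045952), (nat_lit 71, nat_lit 19546787904), (nat_lit 9, nat_lit 19546783872), (nat_lit 12, nat_lit 19546783809), (nat_lit 105, nat_lit 20620525632)]⟩],
  [W_14144782400]⟩
theorem C_14178341121 : chkRec R_14178341121 = true := by decide +kernel

noncomputable def R_14178341184 : Rec := ⟨nat_lit 14178341184, nat_lit 5,
  [⟨V6_14178078720, [(nat_lit 80, nat_lit 14178341184), (nat_lit 86, nat_lit 15252082944), (nat_lit 62, nat_lit 15251820864), (nat_lit 107, nat_lit 16325824704), (nat_lit 98, nat_lit 16325562624), (nat_lit 125, nat_lit 17399566464), (nat_lit 83, nat_lit 17399304384), (nat_lit 100, nat_lit 18473308224), (nat_lit 6, nat_lit 18473046144), (nat_lit 113, nat_lit 19547049984), (nat_lit 18, nat_lit 19546787904), (nat_lit 6, nat_lit 20620529664)]⟩],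
  [W_14161301504, W_14110970048, W_14094454976]⟩
theorem C_14178341184 : chkRec R_14178341184 = true := by decide +kernel

noncomputable def R_14178345090 : Rec := ⟨nat_lit 14178345090, nat_lit 2,
  [⟨V6_14144774274, [(nat_lit 8, nat_lit 14178345090), (nat_lit 80, nat_lit 15252082818), (nat_lit 59, nat_lit 15235309698), (nat_lit 39, nat_lit 16325820546), (nat_lit 10, nat_lit 16309047426), (nat_lit 34, nat_lit 16292274306), (nat_lit 15, nat_lit 17399558274), (nat_lit 3, nat_lit 17382785154), (nat_lit 5, nat_lit 17366012034), (nat_lit 64, nat_lit 18473296002), (nat_lit 61, nat_lit 18456522882), (nat_lit 42, nat_lit 18439749762), (nat_lit 31, nat_lit 19530260610), (nat_lit 125, nat_lit 19513487490), (nat_lit 14, nat_lit 20587225218)]⟩,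
   ⟨V6_14077681794, [(nat_lit 63, nat_lit 14178345090), (nat_lit 65, nat_lit 15235309698), (nat_lit 61, nat_lit 16292274306), (nat_lit 66, nat_lit 17349238914), (nat_lit 62, nat_lit 18406203522), (nat_lit 64, nat_lit 19463168130), (nat_lit 9, nat_lit 20520132738)]⟩],
  [W_14161551488]⟩
theorem C_14178345090 : chkRec R_14178345090 = true := by decide +kernel

noncomputable def R_14178345153 : Rec := ⟨nat_lit 14178345153, nat_lit 10,
  [⟨V6_14128013376, [(nat_lit 75, nat_lit 14178345153), (nat_lit 28, nat_lit 15252086976), (nat_lit 29, nat_lit 15252086913), (nat_lit 48, nat_lit 15235309761), (nat_lit 96, nat_lit 16325828736), (nat_lit 72, nat_lit 16325828673), (nat_lit 46, nat_lit 16309051584), (nat_lit 91, nat_lit 16309051521), (nat_lit 90, nat_lit 16292274369), (nat_lit 20, nat_lit 17399570496), (nat_lit 112, nat_lit 17382793344), (nat_lit 9, nat_lit 17382793281), (nat_lit 4, nat_lit 17366016192), (nat_lit 91, nat_lit 17366016129), (nat_lit 28, nat_lit 17349238977), (nat_lit 5, nat_lit 18456535104), (nat_lit 49, nat_lit 18439757952), (nat_lit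 34, nat_lit 18439757889), (nat_lit 68, nat_lit 18422980800), (nat_lit 92, nat_lit 18422980737), (nat_lit 70, nat_lit 19513499712), (nat_lit 79, nat_lit 19496722560), (nat_lit 107, nat_lit 19496722497), (nat_lit 36, nat_lit 20570464320)]⟩],
  [W_14161555520, W_14128001216, W_14077681856]⟩
theorem C_14178345153 : chkRec R_14178345153 = true := by decide +kernel

noncomputable def R_14178345216 : Rec := ⟨nat_lit 14178345216, nat_lit 10,
  [⟨V6_14144790528, [(nat_lit 4, nat_lit 14178345216), (nat_lit 36, nat_lit 15252086976), (nat_lit 37, nat_lit 15235309824), (nat_lit 57, nat_lit 16325828736), (nat_lit 76, nat_lit 16309051584), (nat_lit 64, nat_lit 16292274432), (nat_lit 101, nat_lit 17399570496), (nat_lit 83, nat_lit 17382793344), (nat_lit 71, nat_lit 17366016192), (nat_lit 82, nat_lit 18473312256), (nat_lit 53, nat_lit 18456535104), (nat_lit 118, nat_lit 18439757952), (nat_lit 96, nat_lit 19530276864), (nat_lit 116, nat_lit 19513499712), (nat_lit 6, nat_lit 20587241472)]⟩],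
  [W_14128013312, W_14111236160]⟩
theorem C_14178345216 : chkRec R_14178345216 = true := by decide +kernel

noncomputable def R_14178595011 : Rec := ⟨nat_lit 14178595011, nat_lit 2,
  [⟨V6_14177808576, [(nat_lit 81, nat_lit 14178595011), (nat_lit 83, nat_lit 15252336834), (nat_lit 18, nat_lit 15252074691), (nat_lit 123, nat_lit 16326078657), (nat_lit 30, nat_lit 16325816514), (nat_lit 90, nat_lit 16325554371), (nat_lit 120, nat_lit 17399820480), (nat_lit 55, nat_lit 17399558337), (nat_lit 118, nat_lit 17399296194), (nat_lit 118, nat_lit 17399034051), (nat_lit 28, nat_lit 18473300160), (nat_lit 3, nat_lit 18473038017), (nat_lit 120, nat_lit 18472775874), (nat_lit 107, nat_lit 19546779840), (nat_lit 104, nat_lit 19546517697), (nat_lit 26, nat_lit 20620259520)]⟩],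
  [W_14111486144]⟩
theorem C_14178595011 : chkRec R_14178595011 = true := by decide +kernel

noncomputable def R_14178599106 : Rec := ⟨nat_lit 14178599106, nat_lit 7,
  [⟨V6_14177808576, [(nat_lit 66, nat_lit 14178599106), (nat_lit 9, nat_lit 15252340929), (nat_lit 26, nat_lit 15252336834), (nat_lit 106, nat_lit 15252078786), (nat_lit 57, nat_lit 16326082752), (nat_lit 110, nat_lit 16326078657), (nat_lit 101, nat_lit 16325820609), (nat_lit 82, nat_lit 16325816514), (nat_lit 7, nat_lit 16325558466), (nat_lit 66, nat_lit 17399820480), (nat_lit 46, nat_lit 17399562432), (nat_lit 122, nat_lit 17399558337), (nat_lit 60, nat_lit 17399300289), (nat_lit 1, nat_lit 17399296194), (nat_lit 15, nat_lit 17399038146), (nat_lit 43, nat_lit 18473300160), (nat_lit 28, nat_lit 18473042112), (nat_lit 118, nat_lit 18473038017), (nat_lit 83, nat_lit 18472779969), (nat_lit 21, nat_lit 18472775874), (nat_lit 75, nat_lit 19546779840), (nat_lit 63, nat_lit 19546521792), (nat_lit 85, nat_lit 19546517697), (nat_lit 98, nat_lit 20620259520)]⟩,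
   ⟨V6_14127481026, [(nat_lit 124, nat_lit 14178599106), (nat_lit 59, nat_lit 15252078786), (nat_lit 79, nat_lit 15235563714), (nat_lit 70, nat_lit 16325558466), (nat_lit 117, nat_lit 16309043394), (nat_lit 48, nat_lit 16292528322), (nat_lit 50, nat_lit 17399038146), (nat_lit 42, nat_lit 17382523074), (nat_lit 101, nat_lit 17366008002), (nat_lit 57, nat_lit 17349492930), (nat_lit 78, nat_lit 18456002754), (nat_lit 121, nat_lit 18439487682), (nat_lit 32, nat_lit 18422972610), (nat_lit 120, nat_lit 19512967362), (nat_lit 57, nat_lit 19496452290), (nat_lit 11, nat_lit 20569931970)]⟩],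
  [W_14111490176, W_14111486144]⟩
theorem C_14178599106 : chkRec R_14178599106 = true := by decide +kernel

noncomputable def R_14178599169 : Rec := ⟨nat_lit 14178599169, nat_lit 9,
  [⟨V6_14177812608, [(nat_lit 41, nat_lit 14178599169), (nat_lit 60, nat_lit 15252340992), (nat_lit 98, nat_lit 15252340929), (nat_lit 51, nat_lit 15252078849), (nat_lit 122, nat_lit 16326082752), (nat_lit 57, nat_lit 16326082689), (nat_lit 2, nat_lit 16325820672), (nat_lit 72, nat_lit 16325820609), (nat_lit 17, nat_lit 16325558529), (nat_lit 97, nat_lit 17399824512), (nat_lit 6, nat_lit 17399562432), (nat_lit 43, nat_lit 17399562369), (nat_lit 84, nat_lit 17399300352), (nat_lit 51, nat_lit 17399300289), (nat_lit 1, nat_lit 17399038209), (nat_lit 8, nat_lit 18473304192), (nat_lit 91, nat_lit 18473042112), (nat_lit 110, nat_lit 18473042049), (nat_lit 48, nat_lit 18472780032), (nat_lit 51, nat_lit 18472779969), (nat_lit 77, nat_lit 19546783872), (nat_lit 122, nat_lit 19546521792), (nat_lit 75, nat_lit 19546521729), (nat_lit 2, nat_lit 20620263552)]⟩,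
   ⟨V6_14127481089, [(nat_lit 122, nat_lit 14178599169), (nat_lit 56, nat_lit 15252078849), (nat_lit 47, nat_lit 15235563777), (nat_lit 32, nat_lit 16325558529), (nat_lit 68, nat_lit 16309043457), (nat_lit 80, nat_lit 16292528385), (nat_lit 41, nat_lit 17399038209), (nat_lit 70, nat_lit 17382523137), (nat_lit 126, nat_lit 17366008065), (nat_lit 95, nat_lit 17349492993), (nat_lit 3, nat_lit 18456002817), (nat_lit 117, nat_lit 18439487745), (nat_lit 11, nat_lit 18422972673), (nat_lit 73, nat_lit 19512967425), (nat_lit 95, nat_lit 19496452353), (nat_lit 103, nat_lit 20569932033)]⟩],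
  [W_14144782400, W_14128267328]⟩
theorem C_14178599169 : chkRec R_14178599169 = true := by decide +kernel

noncomputable def R_14178603138 : Rec := ⟨nat_lit 14178603138, nat_lit 7,
  [⟨V6_14178066561, [(nat_lit 44, nat_lit 14178603138), (nat_lit 7, nat_lit 15252344961), (nat_lit 104, nat_lit 15252340866), (nat_lit 78, nat_lit 15252082818), (nat_lit 74, nat_lit 16326082689), (nat_lit 67, nat_lit 16326078594), (nat_lit 28, nat_lit 16325824641), (nat_lit 40, nat_lit 16325820546), (nat_lit 63, nat_lit 16325562498), (nat_lit 101, nat_lit 17399820417), (nat_lit 33, nat_lit 17399816322), (nat_lit 79, nat_lit 17399562369), (nat_lit 34, nat_lit 17399558274), (nat_lit 122, nat_lit 17399304321), (nat_lit 4, nat_lit 17399300226), (nat_lit 78, nat_lit 18473558145), (nat_lit 53, nat_lit 18473300097), (nat_lit 89, nat_lit 18473296002), (nat_lit 84, nat_lit 18473042049), (nat_lit 7, nat_lit 18473037954), (nat_lit 9, nat_lit 19547037825), (nat_lit 106, nat_lit 19546779777), (nat_lit 31, nat_lit 19546775682), (nat_lit 70, nat_lit 20620517505)]⟩,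
   ⟨V6_14161289346, [(nat_lit 51, nat_lit 14178603138), (nat_lit 50, nat_lit 15252340866), (nat_lit 26, nat_lit 15252082818), (nat_lit 49, nat_lit 15235567746), (nat_lit 3, nat_lit 16326078594), (nat_lit 10, nat_lit 16325820546), (nat_lit 26, nat_lit 16325562498), (nat_lit 65, nat_lit 16309305474), (nat_lit 31, nat_lit 16309047426), (nat_lit 58, nat_lit 17399816322), (nat_lit 87, nat_lit 17399558274), (nat_lit 98, nat_lit 17399300226), (nat_lit 36, nat_lit 17383043202), (nat_lit 90, nat_lit 17382785154), (nat_lit 96, nat_lit 17382527106), (nat_lit 27, nat_lit 18473296002), (nat_lit 67, nat_lit 18473037954), (nat_lit 41, nat_lit 18456780930), (nat_lit 18, nat_lit 18456522882), (nat_lit 7, nat_lit 18456264834), (nat_lit 94, nat_lit 19546775682), (nat_lit 24, nat_lit 19530260610), (nat_lit 100, nat_lit 19530002562), (nat_lit 114, nat_lit 20603740290)]⟩,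
   ⟨V6_14077939842, [(nat_lit 20, nat_lit 14178603138), (nat_lit 67, nat_lit 15235567746), (nat_lit 100, nat_lit 16292532354), (nat_lit 27, nat_lit 17349496962), (nat_lit 60, nat_lit 18406461570), (nat_lit 107, nat_lit 19463426178), (nat_lit 21, nat_lit 20520390786)]⟩],
  [W_14127747200, W_14111232128, W_14094717056]⟩
theorem C_14178603138 : chkRec R_14178603138 = true := by decide +kernel

noncomputable def R_14178603201 : Rec := ⟨nat_lit 14178603201, nat_lit 18,
  [⟨V6_14178074688, [(nat_lit 101, nat_lit 14178603201), (nat_lit 81, nat_lit 15252345024), (nat_lit 62, nat_lit 15252344961), (nat_lit 8, nat_lit 15252340929), (nat_lit 92, nat_lit 15252082881), (nat_lit 77, nat_lit 16326086784), (nat_lit 95, nat_lit 16326086721), (nat_lit 14, nat_lit 16326082752), (nat_lit 86, nat_lit 16326082689), (nat_lit 93, nat_lit 16325824704), (nat_lit 37, nat_lit 16325824641), (nat_lit 17, nat_lit 16325820609), (nat_lit 13, nat_lit 16325562561), (nat_lit 3, nat_lit 17399828544), (nat_lit 82, nat_lit 17399824512), (nat_lit 4, nat_lit 17399824449), (nat_lit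 74, nat_lit 17399566464), (nat_lit 72, nat_lit 17399566401), (nat_lit 71, nat_lit 17399562432), (nat_lit 90, nat_lit 17399562369), (nat_lit 118, nat_lit 17399304384), (nat_lit 121, nat_lit 17399304321), (nat_lit 121, nat_lit 17399300289), (nat_lit 74, nat_lit 18473566272), (nat_lit 65, nat_lit 18473308224), (nat_lit 40, nat_lit 18473304192), (nat_lit 101, nat_lit 18473304129), (nat_lit 12, nat_lit 18473046144), (nat_lit 18, nat_lit 18473046081), (nat_lit 40, nat_lit 18473042112), (nat_lit 8, nat_lit 18473042049), (nat_lit 121, nat_lit 19547045952), (nat_lit 79, nat_lit 19546787904), (nat_lit 67, nat_lit 19546783872), (nat_lit 76, nat_lit 19546783809), (nat_lit 2, nat_lit 20620525632)]⟩,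
   ⟨V6_14077939905, [(nat_lit 113, nat_lit 14178603201), (nat_lit 42, nat_lit 15235567809), (nat_lit 57, nat_lit 16292532417), (nat_lit 70, nat_lit 17349497025), (nat_lit 85, nat_lit 18406461633), (nat_lit 14, nat_lit 19463426241), (nat_lit 125, nat_lit 20520390849)]⟩],
  [W_14161555520, W_14144782400, W_14128001216, W_14111486144]⟩
theorem C_14178603201 : chkRec R_14178603201 = true := by decide +kernel

noncomputable def R_14178603264 : Rec := ⟨nat_lit 14178603264, nat_lit 19,
  [⟨V6_14178336768, [(nat_lit 85, nat_lit 14178603264), (nat_lit 37, nat_lit 15252345024), (nat_lit 77, nat_lit 15252340992), (nat_lit 115, nat_lit 15252082944), (nat_lit 70, nat_lit 16326086784), (nat_lit 93, nat_lit 16326082752), (nat_lit 73, nat_lit 16325824704), (nat_lit 120, nat_lit 16325820672), (nat_lit 83, nat_lit 17399828544), (nat_lit 125, nat_lit 17399824512), (nat_lit 94, nat_lit 17399566464), (nat_lit 85, nat_lit 17399562432), (nat_lit 70, nat_lit 18473570304), (nat_lit 19, nat_lit 18473566272), (nat_lit 18, nat_lit 18473308224), (nat_lit 114, nat_lit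 18473304192), (nat_lit 26, nat_lit 19547308032), (nat_lit 121, nat_lit 19547049984), (nat_lit 93, nat_lit 19547045952), (nat_lit 100, nat_lit 20620787712)]⟩,
   ⟨V6_14178078720, [(nat_lit 68, nat_lit 14178603264), (nat_lit 19, nat_lit 15252345024), (nat_lit 11, nat_lit 15252082944), (nat_lit 50, nat_lit 16326086784), (nat_lit 106, nat_lit 16325824704), (nat_lit 79, nat_lit 16325562624), (nat_lit 82, nat_lit 17399828544), (nat_lit 10, nat_lit 17399566464), (nat_lit 10, nat_lit 17399304384), (nat_lit 120, nat_lit 18473570304), (nat_lit 94, nat_lit 18473308224), (nat_lit 117, nat_lit 18473046144), (nat_lit 39, nat_lit 19547049984), (nat_lit 92, nat_lit 19546787904), (nat_lit 67, nat_lit 20620529664)]⟩],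
  [W_14161297472, W_14145044480, W_14127747200, W_14110970048, W_14094450944]⟩
theorem C_14178603264 : chkRec R_14178603264 = true := by decide +kernel

noncomputable def R_14178607233 : Rec := ⟨nat_lit 14178607233, nat_lit 16,
  [⟨V6_14128013376, [(nat_lit 115, nat_lit 14178607233), (nat_lit 77, nat_lit 15252349056), (nat_lit 24, nat_lit 15252348993), (nat_lit 71, nat_lit 15252086913), (nat_lit 61, nat_lit 15235571841), (nat_lit 91, nat_lit 16326090816), (nat_lit 113, nat_lit 16325828736), (nat_lit 72, nat_lit 16325828673), (nat_lit 85, nat_lit 16309313664), (nat_lit 119, nat_lit 16309313601), (nat_lit 56, nat_lit 16309051521), (nat_lit 67, nat_lit 16292536449), (nat_lit 24, nat_lit 17399570496), (nat_lit 24, nat_lit 17383055424), (nat_lit 28, nat_lit 17382793344), (nat_lit 39, nat_lit 17382793281), (nat_lit 67, nat_lit 17366278272), (nat_lit 79, nat_lit 17366278209), (nat_lit 87, nat_lit 17366016129), (nat_lit 98, nat_lit 17349501057), (nat_lit 26, nat_lit 18456535104), (nat_lit 63, nat_lit 18440020032), (nat_lit 23, nat_lit 18439757952),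 (nat_lit 52, nat_lit 18439757889), (nat_lit 21, nat_lit 18423242880), (nat_lit 96, nat_lit 18423242817), (nat_lit 61, nat_lit 18422980737), (nat_lit 121, nat_lit 19513499712), (nat_lit 100, nat_lit 19496984640), (nat_lit 112, nat_lit 19496722560), (nat_lit 61, nat_lit 19496722497), (nat_lit 107, nat_lit 20570464320)]⟩],
  [W_14161813568, W_14161555520, W_14111490176]⟩
theorem C_14178607233 : chkRec R_14178607233 = true := by decide +kernel

noncomputable def R_14178607296 : Rec := ⟨nat_lit 14178607296, nat_lit 28,
  [⟨V6_14178336768, [(nat_lit 81, nat_lit 14178607296), (nat_lit 96, nat_lit 15252349056), (nat_lit 27, nat_lit 15252345024), (nat_lit 38, nat_lit 15252086976), (nat_lit 117, nat_lit 16326090816), (nat_lit 68, nat_lit 16326086784), (nat_lit 47, nat_lit 16326082752), (nat_lit 56, nat_lit 16325828736), (nat_lit 31, nat_lit 16325824704), (nat_lit 1, nat_lit 17399832576), (nat_lit 1, nat_lit 17399828544), (nat_lit 112, nat_lit 17399824512), (nat_lit 28, nat_lit 17399570496), (nat_lit 67, nat_lit 17399566464), (nat_lit 66, nat_lit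 17399562432), (nat_lit 79, nat_lit 18473570304), (nat_lit 67, nat_lit 18473566272), (nat_lit 79, nat_lit 18473312256), (nat_lit 64, nat_lit 18473308224), (nat_lit 98, nat_lit 18473304192), (nat_lit 79, nat_lit 19547308032), (nat_lit 24, nat_lit 19547049984), (nat_lit 125, nat_lit 19547045952), (nat_lit 27, nat_lit 20620787712)]⟩,
   ⟨V6_14144790528, [(nat_lit 14, nat_lit 14178607296), (nat_lit 44, nat_lit 15252349056), (nat_lit 29, nat_lit 15252086976), (nat_lit 78, nat_lit 15235571904), (nat_lit 63, nat_lit 16326090816), (nat_lit 115, nat_lit 16325828736), (nat_lit 25, nat_lit 16309313664), (nat_lit 30, nat_lit 16309051584), (nat_lit 15, nat_lit 16292536512), (nat_lit 115, nat_lit 17399832576), (nat_lit 64, nat_lit 17399570496), (nat_lit 12, nat_lit 17383055424), (nat_lit 102, nat_lit 17382793344), (nat_lit 97, nat_lit 17366278272), (nat_lit 112, nat_lit 17366016192), (nat_lit 115, nat_lit 18473312256), (nat_lit 126, nat_lit 18456797184), (nat_lit 83, nat_lit 18456535104), (nat_lit 98, nat_lit 18440020032), (nat_lit 49, nat_lit 18439757952),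 (nat_lit 81, nat_lit 19530276864), (nat_lit 30, nat_lit 19513761792), (nat_lit 113, nat_lit 19513499712), (nat_lit 95, nat_lit 20587241472)]⟩],
  [W_14161817600, W_14145044480, W_14128001216, W_14111486144, W_14094721088]⟩
theorem C_14178607296 : chkRec R_14178607296 = true := by decide +kernel

noncomputable def R_14178611265 : Rec := ⟨nat_lit 14178611265, nat_lit 5,
  [⟨V6_14094725184, [(nat_lit 76, nat_lit 14178611265), (nat_lit 90, nat_lit 15252353088), (nat_lit 68, nat_lit 15235575873), (nat_lit 14, nat_lit 16309317696), (nat_lit 19, nat_lit 16292540481), (nat_lit 107, nat_lit 17366282304), (nat_lit 114, nat_lit 17349505089), (nat_lit 65, nat_lit 18423246912), (nat_lit 31, nat_lit 18406469697), (nat_lit 120, nat_lit 19480211520), (nat_lit 102, nat_lit 19463434305), (nat_lit 59, nat_lit 20537176128)]⟩],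
  [W_14178586688, W_14161813568]⟩
theorem C_14178611265 : chkRec R_14178611265 = true := by decide +kernel

noncomputable def R_14178611328 : Rec := ⟨nat_lit 14178611328, nat_lit 16,
  [⟨V6_14178590784, [(nat_lit 46, nat_lit 14178611328), (nat_lit 96, nat_lit 15252353088), (nat_lit 76, nat_lit 15252349056), (nat_lit 15, nat_lit 16326090816), (nat_lit 42, nat_lit 16326086784), (nat_lit 116, nat_lit 17399828544), (nat_lit 63, nat_lit 17399824512), (nat_lit 84, nat_lit 18473566272), (nat_lit 98, nat_lit 18473562240), (nat_lit 20, nat_lit 19547304000), (nat_lit 87, nat_lit 19547299968), (nat_lit 47, nat_lit 20621041728)]⟩],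
  [W_14161817600, W_14145044480]⟩
theorem C_14178611328 : chkRec R_14178611328 = true := by decide +kernel

noncomputable def R_14178857154 : Rec := ⟨nat_lit 14178857154, nat_lit 5,
  [⟨V6_14177808576, [(nat_lit 112, nat_lit 14178857154), (nat_lit 63, nat_lit 15252598977), (nat_lit 43, nat_lit 15252336834), (nat_lit 52, nat_lit 16326340800), (nat_lit 74, nat_lit 16326078657), (nat_lit 13, nat_lit 16325816514), (nat_lit 90, nat_lit 17399820480), (nat_lit 81, nat_lit 17399558337), (nat_lit 19, nat_lit 17399296194), (nat_lit 9, nat_lit 18473300160), (nat_lit 14, nat_lit 18473038017), (nat_lit 102, nat_lit 18472775874), (nat_lit 69, nat_lit 19546779840), (nat_lit 88, nat_lit 19546517697), (nat_lit 30, nat_lit 20620259520)]⟩,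
   ⟨V6_14177546370, [(nat_lit 64, nat_lit 14178857154), (nat_lit 93, nat_lit 15252598914), (nat_lit 61, nat_lit 15252336834), (nat_lit 73, nat_lit 16326078594), (nat_lit 24, nat_lit 16325816514), (nat_lit 39, nat_lit 17399558274), (nat_lit 96, nat_lit 17399296194), (nat_lit 99, nat_lit 18473037954), (nat_lit 84, nat_lit 18472775874), (nat_lit 67, nat_lit 19546517634), (nat_lit 98, nat_lit 19546255554), (nat_lit 80, nat_lit 20619997314)]⟩],
  [W_14177546432, W_14111748224]⟩
theorem C_14178857154 : chkRec R_14178857154 = true := by decide +kernel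

noncomputable def R_14178861186 : Rec := ⟨nat_lit 14178861186, nat_lit 6,
  [⟨V6_14177812608, [(nat_lit 66, nat_lit 14178861186), (nat_lit 53, nat_lit 15252603009), (nat_lit 14, nat_lit 15252340866), (nat_lit 76, nat_lit 16326344832), (nat_lit 30, nat_lit 16326082689), (nat_lit 19, nat_lit 16325820546), (nat_lit 112, nat_lit 17399824512), (nat_lit 50, nat_lit 17399562369), (nat_lit 18, nat_lit 17399300226), (nat_lit 62, nat_lit 18473304192), (nat_lit 40, nat_lit 18473042049), (nat_lit 110, nat_lit 18472779906), (nat_lit 52, nat_lit 19546783872), (nat_lit 70, nat_lit 19546521729), (nat_lit 122, nat_lit 20620263552)]⟩,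
   ⟨V6_14144258178, [(nat_lit 66, nat_lit 14178861186), (nat_lit 100, nat_lit 15252340866), (nat_lit 17, nat_lit 15235825794), (nat_lit 62, nat_lit 16325820546), (nat_lit 10, nat_lit 16309305474), (nat_lit 66, nat_lit 16292790402), (nat_lit 61, nat_lit 17399300226), (nat_lit 82, nat_lit 17382785154), (nat_lit 89, nat_lit 17366270082), (nat_lit 54, nat_lit 18472779906), (nat_lit 75, nat_lit 18456264834), (nat_lit 38, nat_lit 18439749762), (nat_lit 106, nat_lit 19529744514), (nat_lit 50, nat_lit 19513229442), (nat_lit 14, nat_lit 20586709122)]⟩],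
  [W_14128521344, W_14094975104]⟩
theorem C_14178861186 : chkRec R_14178861186 = true := by decide +kernel

noncomputable def R_14178861249 : Rec := ⟨nat_lit 14178861249, nat_lit 20,
  [⟨V6_14178074688, [(nat_lit 55, nat_lit 14178861249), (nat_lit 109, nat_lit 15252603072), (nat_lit 77, nat_lit 15252603009), (nat_lit 26, nat_lit 15252340929), (nat_lit 105, nat_lit 16326344832), (nat_lit 82, nat_lit 16326344769), (nat_lit 4, nat_lit 16326082752), (nat_lit 125, nat_lit 16326082689), (nat_lit 29, nat_lit 16325820609), (nat_lit 126, nat_lit 17400086592), (nat_lit 112, nat_lit 17399824512), (nat_lit 78, nat_lit 17399824449), (nat_lit 37, nat_lit 17399562432), (nat_lit 82, nat_lit 17399562369), (nat_lit 19, nat_lit 17399300289), (nat_lit 18, nat_lit 18473566272), (nat_lit 75, nat_lit 18473304192), (nat_lit 85, nat_lit 18473304129), (nat_lit 94, nat_lit 18473042112), (nat_lit 41, nat_lit 18473042049), (nat_lit 51, nat_lit 19547045952), (nat_lit 26, nat_lit 19546783872), (nat_lit 80, nat_lit 19546783809), (nat_lit 79, nat_lit 20620525632)]⟩,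
   ⟨V6_14177808576, [(nat_lit 125, nat_lit 14178861249), (nat_lit 28, nat_lit 15252603072), (nat_lit 70, nat_lit 15252598977), (nat_lit 121, nat_lit 15252340929), (nat_lit 101, nat_lit 16326340800), (nat_lit 81, nat_lit 16326082752), (nat_lit 60, nat_lit 16326078657), (nat_lit 124, nat_lit 16325820609), (nat_lit 77, nat_lit 17399820480), (nat_lit 118, nat_lit 17399562432), (nat_lit 32, nat_lit 17399558337), (nat_lit 117, nat_lit 17399300289), (nat_lit 100, nat_lit 18473300160), (nat_lit 30, nat_lit 18473042112), (nat_lit 120, nat_lit 18473038017), (nat_lit 121, nat_lit 18472779969), (nat_lit 6, nat_lit 19546779840), (nat_lit 66, nat_lit 19546521792), (nat_lit 96, nat_lit 19546517697), (nat_lit 43, nat_lit 20620259520)]⟩],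
  [W_14161555520, W_14128525376, W_14111748224, W_14111486144]⟩
theorem C_14178861249 : chkRec R_14178861249 = true := by decide +kernel

noncomputable def R_14178861312 : Rec := ⟨nat_lit 14178861312, nat_lit 14,
  [⟨V6_14178336768, [(nat_lit 84, nat_lit 14178861312), (nat_lit 46, nat_lit 15252603072), (nat_lit 9, nat_lit 15252340992), (nat_lit 81, nat_lit 16326344832), (nat_lit 116, nat_lit 16326082752), (nat_lit 69, nat_lit 16325820672), (nat_lit 93, nat_lit 17400086592), (nat_lit 125, nat_lit 17399824512), (nat_lit 115, nat_lit 17399562432), (nat_lit 105, nat_lit 18473828352), (nat_lit 7, nat_lit 18473566272), (nat_lit 38, nat_lit 18473304192), (nat_lit 82, nat_lit 19547308032), (nat_lit 105, nat_lit 19547045952), (nat_lit 40, nat_lit 20620787712)]⟩],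
  [W_14145044480, W_14127481088, W_14094450944]⟩
theorem C_14178861312 : chkRec R_14178861312 = true := by decide +kernel

noncomputable def R_14178865281 : Rec := ⟨nat_lit 14178865281, nat_lit 24,
  [⟨V6_14178074688, [(nat_lit 37, nat_lit 14178865281), (nat_lit 83, nat_lit 15252607104), (nat_lit 69, nat_lit 15252607041), (nat_lit 40, nat_lit 15252603009), (nat_lit 105, nat_lit 15252344961), (nat_lit 124, nat_lit 16326348864), (nat_lit 31, nat_lit 16326344832), (nat_lit 83, nat_lit 16326344769), (nat_lit 113, nat_lit 16326086784), (nat_lit 17, nat_lit 16326086721), (nat_lit 49, nat_lit 16326082689), (nat_lit 85, nat_lit 16325824641), (nat_lit 90, nat_lit 17400086592), (nat_lit 76, nat_lit 17399828544), (nat_lit 39, nat_lit 17399824512), (nat_lit 92, nat_lit 17399824449), (nat_lit 106, nat_lit 17399566464), (nat_lit 119, nat_lit 17399566401), (nat_lit 124, nat_lit 17399562369), (nat_lit 51, nat_lit 17399304321), (nat_lit 108, nat_lit 18473566272), (nat_lit 37, nat_lit 18473308224), (nat_lit 42, nat_lit 18473304192), (nat_lit 26, nat_lit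 18473304129), (nat_lit 38, nat_lit 18473046144), (nat_lit 109, nat_lit 18473046081), (nat_lit 23, nat_lit 18473042049), (nat_lit 65, nat_lit 19547045952), (nat_lit 12, nat_lit 19546787904), (nat_lit 68, nat_lit 19546783872), (nat_lit 78, nat_lit 19546783809), (nat_lit 59, nat_lit 20620525632)]⟩,
   ⟨V6_14094979137, [(nat_lit 100, nat_lit 14178865281), (nat_lit 69, nat_lit 15252607041), (nat_lit 95, nat_lit 15235829889), (nat_lit 78, nat_lit 16309571649), (nat_lit 72, nat_lit 16292794497), (nat_lit 99, nat_lit 17366536257), (nat_lit 5, nat_lit 17349759105), (nat_lit 46, nat_lit 18423500865), (nat_lit 44, nat_lit 18406723713), (nat_lit 122, nat_lit 19480465473), (nat_lit 102, nat_lit 19463688321), (nat_lit 95, nat_lit 20537430081)]⟩],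
  [W_14178070592, W_14161813568, W_14161555520, W_14111748224, W_14094979136]⟩
theorem C_14178865281 : chkRec R_14178865281 = true := by decide +kernel

noncomputable def R_14178865344 : Rec := ⟨nat_lit 14178865344, nat_lit 39,
  [⟨V6_14178336768, [(nat_lit 10, nat_lit 14178865344), (nat_lit 29, nat_lit 15252607104), (nat_lit 12, nat_lit 15252603072), (nat_lit 64, nat_lit 15252345024), (nat_lit 11, nat_lit 16326348864), (nat_lit 109, nat_lit 16326344832), (nat_lit 54, nat_lit 16326086784), (nat_lit 87, nat_lit 16326082752), (nat_lit 56, nat_lit 16325824704), (nat_lit 31, nat_lit 17400090624), (nat_lit 26, nat_lit 17400086592), (nat_lit 89, nat_lit 17399828544), (nat_lit 93, nat_lit 17399824512), (nat_lit 74, nat_lit 17399566464), (nat_lit 40, nat_lit 17399562432), (nat_lit 110, nat_lit 18473828352), (nat_lit 61, nat_lit 18473570304), (nat_lit 92, nat_lit 18473566272), (nat_lit 27, nat_lit 18473308224), (nat_lit 64, nat_lit 18473304192), (nat_lit 123, nat_lit 19547308032), (nat_lit 40, nat_lit 19547049984), (nat_lit 5, nat_lit 19547045952),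 (nat_lit 72, nat_lit 20620787712)]⟩,
   ⟨V6_14161563648, [(nat_lit 126, nat_lit 14178865344), (nat_lit 80, nat_lit 15252607104), (nat_lit 55, nat_lit 15252345024), (nat_lit 92, nat_lit 15235829952), (nat_lit 9, nat_lit 16326348864), (nat_lit 38, nat_lit 16326086784), (nat_lit 23, nat_lit 16325824704), (nat_lit 65, nat_lit 16309571712), (nat_lit 75, nat_lit 16309309632), (nat_lit 70, nat_lit 17400090624), (nat_lit 37, nat_lit 17399828544), (nat_lit 100, nat_lit 17399566464), (nat_lit 1, nat_lit 17383313472), (nat_lit 88, nat_lit 17383051392), (nat_lit 115, nat_lit 17382789312), (nat_lit 85, nat_lit 18473570304), (nat_lit 54, nat_lit 18473308224), (nat_lit 111, nat_lit 18457055232), (nat_lit 26, nat_lit 18456793152), (nat_lit 125, nat_lit 18456531072), (nat_lit 51, nat_lit 19547049984), (nat_lit 36, nat_lit 19530534912), (nat_lit 19, nat_lit 19530272832), (nat_lit 3, nat_lit 20604014592)]⟩],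
  [W_14178070592, W_14161817600, W_14145302528, W_14144516288, W_14128001216, W_14111748224, W_14111486144, W_14110970048]⟩
theorem C_14178865344 : chkRec R_14178865344 = true := by decide +kernel

noncomputable def R_14178869313 : Rec := ⟨nat_lit 14178869313, nat_lit 18,
  [⟨V6_14178848832, [(nat_lit 107, nat_lit 14178869313), (nat_lit 82, nat_lit 15252611136), (nat_lit 94, nat_lit 15252607041), (nat_lit 77, nat_lit 16326348864), (nat_lit 60, nat_lit 16326344769), (nat_lit 110, nat_lit 17400086592), (nat_lit 41, nat_lit 17400082497), (nat_lit 88, nat_lit 18473824320), (nat_lit 93, nat_lit 18473820225), (nat_lit 6, nat_lit 19547562048), (nat_lit 92, nat_lit 19547557953), (nat_lit 105, nat_lit 20621299776)]⟩,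
   ⟨V6_14094979137, [(nat_lit 36, nat_lit 14178869313), (nat_lit 124, nat_lit 15252607041), (nat_lit 27, nat_lit 15235833921), (nat_lit 64, nat_lit 16309571649), (nat_lit 23, nat_lit 16292798529), (nat_lit 96, nat_lit 17366536257), (nat_lit 71, nat_lit 17349763137), (nat_lit 43, nat_lit 18423500865), (nat_lit 60, nat_lit 18406727745), (nat_lit 20, nat_lit 19480465473), (nat_lit 115, nat_lit 19463692353), (nat_lit 17, nat_lit 20537430081)]⟩],
  [W_14161555520, W_14144782400, W_14111236160]⟩
theorem C_14178869313 : chkRec R_14178869313 = true := by decide +kernel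

noncomputable def R_14178869376 : Rec := ⟨nat_lit 14178869376, nat_lit 40,
  [⟨V6_14144790528, [(nat_lit 12, nat_lit 14178869376), (nat_lit 108, nat_lit 15252611136), (nat_lit 46, nat_lit 15252349056), (nat_lit 18, nat_lit 15235833984), (nat_lit 27, nat_lit 16326352896), (nat_lit 94, nat_lit 16326090816), (nat_lit 116, nat_lit 16325828736), (nat_lit 71, nat_lit 16309575744), (nat_lit 100, nat_lit 16309313664), (nat_lit 88, nat_lit 16292798592), (nat_lit 23, nat_lit 17399832576), (nat_lit 109, nat_lit 17399570496), (nat_lit 105, nat_lit 17383317504), (nat_lit 43, nat_lit 17383055424), (nat_lit 43, nat_lit 17382793344), (nat_lit 115, nat_lit 17366540352), (nat_lit 53, nat_lit 17366278272), (nat_lit 126, nat_lit 18473312256), (nat_lit 92, nat_lit 18456797184), (nat_lit 86, nat_lit 18456535104), (nat_lit 91, nat_lit 18440282112), (nat_lit 13, nat_lit 18440020032), (nat_lit 68, nat_lit 18439757952), (nat_lit 70, nat_lit 19530276864), (nat_lit 76, nat_lit 19513761792), (nat_lit 34, nat_lit 19513499712), (nat_lit 65, nat_lit 20587241472)]⟩,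
   ⟨V6_14128013376, [(nat_lit 84, nat_lit 14178869376), (nat_lit 29, nat_lit 15252611136), (nat_lit 84, nat_lit 15252349056), (nat_lit 74, nat_lit 15235833984), (nat_lit 98, nat_lit 16326090816), (nat_lit 24, nat_lit 16325828736), (nat_lit 45, nat_lit 16309575744), (nat_lit 87, nat_lit 16309313664), (nat_lit 93, nat_lit 16292798592), (nat_lit 18, nat_lit 17399570496), (nat_lit 117, nat_lit 17383055424), (nat_lit 73, nat_lit 17382793344), (nat_lit 18, nat_lit 17366540352), (nat_lit 18, nat_lit 17366278272), (nat_lit 117, nat_lit 17349763200), (nat_lit 14, nat_lit 18456535104), (nat_lit 17, nat_lit 18440020032), (nat_lit 107, nat_lit 18439757952), (nat_lit 85, nat_lit 18423504960), (nat_lit 43, nat_lit 18423242880), (nat_lit 6, nat_lit 19513499712), (nat_lit 48, nat_lit 19496984640), (nat_lit 69, nat_lit 19496722560), (nat_lit 55, nat_lit 20570464320)]⟩],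
  [W_14178590720, W_14178332672, W_14161817600, W_14161813568, W_14161559552, W_14094983168, W_14094721088]⟩
theorem C_14178869376 : chkRec R_14178869376 = true := by decide +kernel

noncomputable def R_14178873408 : Rec := ⟨nat_lit 14178873408, nat_lit 28,
  [⟨V6_14178848832, [(nat_lit 103, nat_lit 14178873408), (nat_lit 28, nat_lit 15252611136), (nat_lit 98, nat_lit 16326348864), (nat_lit 106, nat_lit 17400086592), (nat_lit 122, nat_lit 18473824320), (nat_lit 20, nat_lit 19547562048), (nat_lit 11, nat_lit 20621299776)]⟩,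
   ⟨V6_14111502336, [(nat_lit 39, nat_lit 14178873408), (nat_lit 37, nat_lit 15252615168), (nat_lit 5, nat_lit 15252353088), (nat_lit 13, nat_lit 15235838016), (nat_lit 97, nat_lit 16326094848), (nat_lit 98, nat_lit 16309579776), (nat_lit 38, nat_lit 16309317696), (nat_lit 74, nat_lit 16292802624), (nat_lit 59, nat_lit 17383059456), (nat_lit 100, nat_lit 17366544384), (nat_lit 126, nat_lit 17366282304), (nat_lit 43, nat_lit 17349767232), (nat_lit 72, nat_lit 18440024064), (nat_lit 54, nat_lit 18423508992), (nat_lit 17, nat_lit 18423246912), (nat_lit 92, nat_lit 18406731840), (nat_lit 75, nat_lit 19496988672), (nat_lit 12, nat_lit 19480473600), (nat_lit 4, nat_lit 19480211520), (nat_lit 114, nat_lit 20553953280)]⟩,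
   ⟨V6_14094987264, [(nat_lit 81, nat_lit 14178873408), (nat_lit 121, nat_lit 15252615168), (nat_lit 38, nat_lit 15235838016), (nat_lit 7, nat_lit 16309579776), (nat_lit 109, nat_lit 16292802624), (nat_lit 16, nat_lit 17366544384), (nat_lit 122, nat_lit 17349767232), (nat_lit 114, nat_lit 18423508992), (nat_lit 108, nat_lit 18406731840), (nat_lit 38, nat_lit 19480473600), (nat_lit 15, nat_lit 19463696448), (nat_lit 65, nat_lit 20537438208)]⟩,
   ⟨V6_14094725184, [(nat_lit 40, nat_lit 14178873408), (nat_lit 100, nat_lit 15252353088), (nat_lit 95, nat_lit 15235838016), (nat_lit 81, nat_lit 16309317696), (nat_lit 102, nat_lit 16292802624), (nat_lit 119, nat_lit 17366282304), (nat_lit 79, nat_lit 17349767232), (nat_lit 8, nat_lit 18423246912), (nat_lit 51, nat_lit 18406731840), (nat_lit 46, nat_lit 19480211520), (nat_lit 19, nat_lit 19463696448), (nat_lit 27, nat_lit 20537176128)]⟩],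
  [W_14178848768, W_14178586688, W_14161817600, W_14145302528]⟩
theorem C_14178873408 : chkRec R_14178873408 = true := by decide +kernel

noncomputable def R_14178877440 : Rec := ⟨nat_lit 14178877440, nat_lit 6,
  [⟨V6_14178852864, [(nat_lit 125, nat_lit 14178877440), (nat_lit 53, nat_lit 15252615168), (nat_lit 103, nat_lit 16326352896), (nat_lit 6, nat_lit 17400090624), (nat_lit 107, nat_lit 18473828352), (nat_lit 66, nat_lit 19547566080), (nat_lit 17, nat_lit 20621303808)]⟩],
  [W_14145302528]⟩
theorem C_14178877440 : chkRec R_14178877440 = true := by decide +kernel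

noncomputable def R_14179119234 : Rec := ⟨nat_lit 14179119234, nat_lit 5,
  [⟨V6_14178066561, [(nat_lit 68, nat_lit 14179119234), (nat_lit 76, nat_lit 15252861057), (nat_lit 65, nat_lit 15252856962), (nat_lit 20, nat_lit 15252598914), (nat_lit 92, nat_lit 16326598785), (nat_lit 108, nat_lit 16326340737), (nat_lit 95, nat_lit 16326336642), (nat_lit 33, nat_lit 16326078594), (nat_lit 85, nat_lit 17400078465), (nat_lit 62, nat_lit 17399820417), (nat_lit 56, nat_lit 17399816322), (nat_lit 126, nat_lit 17399558274), (nat_lit 26, nat_lit 18473558145), (nat_lit 75, nat_lit 18473300097), (nat_lit 38, nat_lit 18473296002), (nat_lit 23, nat_lit 18473037954), (nat_lit 64, nat_lit 19547037825), (nat_lit 25, nat_lit 19546779777), (nat_lit 16, nat_lit 19546775682), (nat_lit 3, nat_lit 20620517505)]⟩,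
   ⟨V6_14177546370, [(nat_lit 75, nat_lit 14179119234), (nat_lit 86, nat_lit 15252598914), (nat_lit 50, nat_lit 16326078594), (nat_lit 16, nat_lit 17399558274), (nat_lit 40, nat_lit 18473037954), (nat_lit 124, nat_lit 19546517634), (nat_lit 101, nat_lit 20619997314)]⟩],
  [W_14177808512, W_14111748224]⟩
theorem C_14179119234 : chkRec R_14179119234 = true := by decide +kernel

noncomputable def R_14179119297 : Rec := ⟨nat_lit 14179119297, nat_lit 10,
  [⟨V6_14177808576, [(nat_lit 3, nat_lit 14179119297), (nat_lit 10, nat_lit 15252861120), (nat_lit 47, nat_lit 15252598977), (nat_lit 98, nat_lit 16326340800), (nat_lit 27, nat_lit 16326078657), (nat_lit 7, nat_lit 17399820480), (nat_lit 58, nat_lit 17399558337), (nat_lit 120, nat_lit 18473300160), (nat_lit 77, nat_lit 18473038017), (nat_lit 29, nat_lit 19546779840), (nat_lit 111, nat_lit 19546517697), (nat_lit 117, nat_lit 20620259520)]⟩,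
   ⟨V6_14161293504, [(nat_lit 109, nat_lit 14179119297), (nat_lit 109, nat_lit 15252861120), (nat_lit 104, nat_lit 15252598977), (nat_lit 95, nat_lit 15236083905), (nat_lit 71, nat_lit 16326340800), (nat_lit 113, nat_lit 16326078657), (nat_lit 63, nat_lit 16309825728), (nat_lit 75, nat_lit 16309563585), (nat_lit 61, nat_lit 17399820480), (nat_lit 91, nat_lit 17399558337), (nat_lit 56, nat_lit 17383305408), (nat_lit 58, nat_lit 17383043265), (nat_lit 74, nat_lit 18473300160), (nat_lit 30, nat_lit 18473038017), (nat_lit 57, nat_lit 18456785088), (nat_lit 57, nat_lit 18456522945), (nat_lit 104, nat_lit 19546779840), (nat_lit 62, nat_lit 19530264768), (nat_lit 111, nat_lit 19530002625), (nat_lit 33, nat_lit 20603744448)]⟩],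
  [W_14128525376, W_14112010304]⟩
theorem C_14179119297 : chkRec R_14179119297 = true := by decide +kernel

noncomputable def R_14179123329 : Rec := ⟨nat_lit 14179123329, nat_lit 20,
  [⟨V6_14178074688, [(nat_lit 15, nat_lit 14179123329), (nat_lit 8, nat_lit 15252865152), (nat_lit 24, nat_lit 15252865089), (nat_lit 96, nat_lit 15252603009), (nat_lit 34, nat_lit 16326606912), (nat_lit 33, nat_lit 16326344832), (nat_lit 59, nat_lit 16326344769), (nat_lit 6, nat_lit 16326082689), (nat_lit 117, nat_lit 17400086592), (nat_lit 55, nat_lit 17399824512), (nat_lit 36, nat_lit 17399824449), (nat_lit 75, nat_lit 17399562369), (nat_lit 59, nat_lit 18473566272), (nat_lit 73, nat_lit 18473304192), (nat_lit 126, nat_lit 18473304129), (nat_lit 86, nat_lit 18473042049), (nat_lit 67, nat_lit 19547045952), (nat_lit 67, nat_lit 19546783872), (nat_lit 110, nat_lit 19546783809), (nat_lit 4, nat_lit 20620525632)]⟩,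
   ⟨V6_14112006273, [(nat_lit 99, nat_lit 14179123329), (nat_lit 40, nat_lit 15252861057), (nat_lit 20, nat_lit 15236087937), (nat_lit 36, nat_lit 16326598785), (nat_lit 74, nat_lit 16309825665), (nat_lit 103, nat_lit 16293052545), (nat_lit 66, nat_lit 17383563393), (nat_lit 45, nat_lit 17366790273), (nat_lit 57, nat_lit 17350017153), (nat_lit 4, nat_lit 18440528001), (nat_lit 119, nat_lit 18423754881), (nat_lit 81, nat_lit 18406981761), (nat_lit 61, nat_lit 19497492609), (nat_lit 125, nat_lit 19480719489), (nat_lit 46, nat_lit 20554457217)]⟩],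
  [W_14177808512, W_14161813568, W_14128783424, W_14128525376, W_14112010304]⟩
theorem C_14179123329 : chkRec R_14179123329 = true := by decide +kernel

noncomputable def R_14179123392 : Rec := ⟨nat_lit 14179123392, nat_lit 31,
  [⟨V6_14178336768, [(nat_lit 18, nat_lit 14179123392), (nat_lit 32, nat_lit 15252865152), (nat_lit 18, nat_lit 15252603072), (nat_lit 107, nat_lit 16326606912), (nat_lit 95, nat_lit 16326344832), (nat_lit 41, nat_lit 16326082752), (nat_lit 104, nat_lit 17400348672), (nat_lit 52, nat_lit 17400086592), (nat_lit 62, nat_lit 17399824512), (nat_lit 10, nat_lit 17399562432), (nat_lit 113, nat_lit 18473828352), (nat_lit 69, nat_lit 18473566272), (nat_lit 66, nat_lit 18473304192), (nat_lit 66, nat_lit 19547308032), (nat_lit 44, nat_lit 19547045952), (nat_lit 107, nat_lit 20620787712)]⟩,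
   ⟨V6_14177812608, [(nat_lit 29, nat_lit 14179123392), (nat_lit 47, nat_lit 15252865152), (nat_lit 28, nat_lit 15252603072), (nat_lit 86, nat_lit 16326344832), (nat_lit 71, nat_lit 16326082752), (nat_lit 89, nat_lit 17399824512), (nat_lit 91, nat_lit 17399562432), (nat_lit 49, nat_lit 18473304192), (nat_lit 55, nat_lit 18473042112), (nat_lit 28, nat_lit 19546783872), (nat_lit 51, nat_lit 19546521792), (nat_lit 24, nat_lit 20620263552)]⟩,
   ⟨V6_14177808576, [(nat_lit 36, nat_lit 14179123392), (nat_lit 14, nat_lit 15252861120), (nat_lit 74, nat_lit 15252603072), (nat_lit 55, nat_lit 16326340800), (nat_lit 124, nat_lit 16326082752), (nat_lit 94, nat_lit 17399820480), (nat_lit 88, nat_lit 17399562432), (nat_lit 25, nat_lit 18473300160), (nat_lit 125, nat_lit 18473042112), (nat_lit 126, nat_lit 19546779840), (nat_lit 116, nat_lit 19546521792), (nat_lit 35, nat_lit 20620259520)]⟩,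
   ⟨V6_14161035456, [(nat_lit 125, nat_lit 14179123392), (nat_lit 25, nat_lit 15252603072), (nat_lit 2, nat_lit 15236088000), (nat_lit 117, nat_lit 16326082752), (nat_lit 11, nat_lit 16309567680), (nat_lit 56, nat_lit 17399562432), (nat_lit 47, nat_lit 17383047360), (nat_lit 124, nat_lit 18473042112), (nat_lit 34, nat_lit 18456527040), (nat_lit 89, nat_lit 19546521792), (nat_lit 88, nat_lit 19530006720), (nat_lit 11, nat_lit 20603486400)]⟩],
  [W_14161817600, W_14145302528, W_14128787456, W_14112010304]⟩
theorem C_14179123392 : chkRec R_14179123392 = true := by decide +kernel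

noncomputable def R_14179127361 : Rec := ⟨nat_lit 14179127361, nat_lit 17,
  [⟨V6_14178074688, [(nat_lit 101, nat_lit 14179127361), (nat_lit 118, nat_lit 15252869184), (nat_lit 74, nat_lit 15252865089), (nat_lit 56, nat_lit 15252607041), (nat_lit 35, nat_lit 16326606912), (nat_lit 85, nat_lit 16326348864), (nat_lit 101, nat_lit 16326344769), (nat_lit 18, nat_lit 16326086721), (nat_lit 89, nat_lit 17400086592), (nat_lit 21, nat_lit 17399828544), (nat_lit 31, nat_lit 17399824449), (nat_lit 72, nat_lit 17399566401), (nat_lit 88, nat_lit 18473566272), (nat_lit 66, nat_lit 18473308224), (nat_lit 76, nat_lit 18473304129), (nat_lit 6, nat_lit 18473046081), (nat_lit 39, nat_lit 19547045952), (nat_lit 58, nat_lit 19546787904), (nat_lit 79, nat_lit 19546783809), (nat_lit 38, nat_lit 20620525632)]⟩],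
  [W_14178586688, W_14162071616, W_14145556544, W_14128783424, W_14112010304]⟩
theorem C_14179127361 : chkRec R_14179127361 = true := by decide +kernel

noncomputable def R_14179127424 : Rec := ⟨nat_lit 14179127424, nat_lit 44,
  [⟨V6_14178078720, [(nat_lit 82, nat_lit 14179127424), (nat_lit 31, nat_lit 15252869184), (nat_lit 116, nat_lit 15252607104), (nat_lit 54, nat_lit 16326610944), (nat_lit 88, nat_lit 16326348864), (nat_lit 24, nat_lit 16326086784), (nat_lit 77, nat_lit 17400090624), (nat_lit 65, nat_lit 17399828544), (nat_lit 18, nat_lit 17399566464), (nat_lit 5, nat_lit 18473570304), (nat_lit 20, nat_lit 18473308224), (nat_lit 20, nat_lit 18473046144), (nat_lit 18, nat_lit 19547049984), (nat_lit 41, nat_lit 19546787904), (nat_lit 21, nat_lit 20620529664)]⟩,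
   ⟨V6_14161563648, [(nat_lit 121, nat_lit 14179127424), (nat_lit 75, nat_lit 15252869184), (nat_lit 55, nat_lit 15252607104), (nat_lit 20, nat_lit 15236092032), (nat_lit 89, nat_lit 16326610944), (nat_lit 54, nat_lit 16326348864), (nat_lit 18, nat_lit 16326086784), (nat_lit 19, nat_lit 16309833792), (nat_lit 123, nat_lit 16309571712), (nat_lit 7, nat_lit 17400090624), (nat_lit 77, nat_lit 17399828544), (nat_lit 33, nat_lit 17399566464), (nat_lit 123, nat_lit 17383575552), (nat_lit 46, nat_lit 17383313472), (nat_lit 99, nat_lit 17383051392), (nat_lit 49, nat_lit 18473570304), (nat_lit 59, nat_lit 18473308224), (nat_lit 47, nat_lit 18457055232), (nat_lit 59, nat_lit 18456793152), (nat_lit 94, nat_lit 18456531072), (nat_lit 101, nat_lit 19547049984), (nat_lit 59, nat_lit 19530534912), (nat_lit 69, nat_lit 19530272832), (nat_lit 58, nat_lit 20604014592)]⟩,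
   ⟨V6_14112018432, [(nat_lit 24, nat_lit 14179127424), (nat_lit 113, nat_lit 15252869184), (nat_lit 54, nat_lit 15236092032), (nat_lit 89, nat_lit 16326610944), (nat_lit 25, nat_lit 16309833792), (nat_lit 94, nat_lit 16293056640), (nat_lit 117, nat_lit 17383575552), (nat_lit 5, nat_lit 17366798400), (nat_lit 51, nat_lit 17350021248), (nat_lit 54, nat_lit 18440540160), (nat_lit 69, nat_lit 18423763008), (nat_lit 78, nat_lit 18406985856), (nat_lit 72, nat_lit 19497504768), (nat_lit 115, nat_lit 19480727616), (nat_lit 64, nat_lit 20554469376)]⟩],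
  [W_14178590720, W_14178332672, W_14178070592, W_14161817600, W_14161813568, W_14145302528, W_14145036416]⟩
theorem C_14179127424 : chkRec R_14179127424 = true := by decide +kernel

noncomputable def R_14179131456 : Rec := ⟨nat_lit 14179131456, nat_lit 40,
  [⟨V6_14179110912, [(nat_lit 3, nat_lit 14179131456), (nat_lit 7, nat_lit 15252873216), (nat_lit 88, nat_lit 15252869184), (nat_lit 8, nat_lit 16326610944), (nat_lit 35, nat_lit 16326606912), (nat_lit 24, nat_lit 17400348672), (nat_lit 28, nat_lit 17400344640), (nat_lit 117, nat_lit 18474086400), (nat_lit 25, nat_lit 18474082368), (nat_lit 75, nat_lit 19547824128), (nat_lit 120, nat_lit 19547820096), (nat_lit 99, nat_lit 20621561856)]⟩,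
   ⟨V6_14178848832, [(nat_lit 35, nat_lit 14179131456), (nat_lit 25, nat_lit 15252869184), (nat_lit 123, nat_lit 15252611136), (nat_lit 48, nat_lit 16326606912), (nat_lit 3, nat_lit 16326348864), (nat_lit 51, nat_lit 17400344640), (nat_lit 6, nat_lit 17400086592), (nat_lit 108, nat_lit 18474082368), (nat_lit 12, nat_lit 18473824320), (nat_lit 23, nat_lit 19547820096), (nat_lit 11, nat_lit 19547562048), (nat_lit 20, nat_lit 20621299776)]⟩,
   ⟨V6_14128013376, [(nat_lit 101, nat_lit 14179131456), (nat_lit 34, nat_lit 15252611136), (nat_lit 37, nat_lit 15236096064), (nat_lit 1, nat_lit 16326090816), (nat_lit 42, nat_lit 16309575744), (nat_lit 105, nat_lit 16293060672), (nat_lit 106, nat_lit 17399570496), (nat_lit 70, nat_lit 17383055424), (nat_lit 7, nat_lit 17366540352), (nat_lit 11, nat_lit 17350025280), (nat_lit 71, nat_lit 18456535104), (nat_lit 88, nat_lit 18440020032), (nat_lit 4, nat_lit 18423504960), (nat_lit 117, nat_lit 19513499712), (nat_lit 125, nat_lit 19496984640), (nat_lit 38, nat_lit 20570464320)]⟩],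
  [W_14161817600, W_14161559552, W_14145302528, W_14128787456]⟩
theorem C_14179131456 : chkRec R_14179131456 = true := by decide +kernel

noncomputable def R_14179135488 : Rec := ⟨nat_lit 14179135488, nat_lit 20,
  [⟨V6_14112018432, [(nat_lit 41, nat_lit 14179135488), (nat_lit 52, nat_lit 15252873216), (nat_lit 88, nat_lit 15236100096), (nat_lit 119, nat_lit 16326610944), (nat_lit 3, nat_lit 16309837824), (nat_lit 32, nat_lit 16293064704), (nat_lit 75, nat_lit 17383575552), (nat_lit 4, nat_lit 17366802432), (nat_lit 21, nat_lit 17350029312), (nat_lit 27, nat_lit 18440540160), (nat_lit 117, nat_lit 18423767040), (nat_lit 50, nat_lit 18406993920), (nat_lit 70, nat_lit 19497504768), (nat_lit 77, nat_lit 19480731648), (nat_lit 106, nat_lit 20554469376)]⟩,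
   ⟨V6_14111502336, [(nat_lit 24, nat_lit 14179135488), (nat_lit 97, nat_lit 15252615168), (nat_lit 9, nat_lit 15236100096), (nat_lit 52, nat_lit 16326094848), (nat_lit 24, nat_lit 16309579776), (nat_lit 50, nat_lit 16293064704), (nat_lit 98, nat_lit 17383059456), (nat_lit 114, nat_lit 17366544384), (nat_lit 43, nat_lit 17350029312), (nat_lit 6, nat_lit 18440024064), (nat_lit 36, nat_lit 18423508992), (nat_lit 59, nat_lit 18406993920), (nat_lit 121, nat_lit 19496988672), (nat_lit 57, nat_lit 19480473600), (nat_lit 29, nat_lit 20553953280)]⟩],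
  [W_14178848768, W_14162333696, W_14161817600]⟩
theorem C_14179135488 : chkRec R_14179135488 = true := by decide +kernel

noncomputable def R_14179377282 : Rec := ⟨nat_lit 14179377282, nat_lit 1,
  [⟨V6_14161289346, [(nat_lit 53, nat_lit 14179377282), (nat_lit 9, nat_lit 15252856962), (nat_lit 115, nat_lit 15236341890), (nat_lit 82, nat_lit 16326336642), (nat_lit 40, nat_lit 16309821570), (nat_lit 9, nat_lit 17399816322), (nat_lit 88, nat_lit 17383301250), (nat_lit 51, nat_lit 18473296002), (nat_lit 61, nat_lit 18456780930), (nat_lit 125, nat_lit 19546775682), (nat_lit 68, nat_lit 19530260610), (nat_lit 45, nat_lit 20603740290)]⟩],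
  [W_14128521344]⟩
theorem C_14179377282 : chkRec R_14179377282 = true := by decide +kernel

noncomputable def R_14179381377 : Rec := ⟨nat_lit 14179381377, nat_lit 11,
  [⟨V6_14178590784, [(nat_lit 107, nat_lit 14179381377), (nat_lit 45, nat_lit 15253123200), (nat_lit 117, nat_lit 15253123137), (nat_lit 28, nat_lit 15253119105), (nat_lit 71, nat_lit 15252861057), (nat_lit 30, nat_lit 16326864960), (nat_lit 9, nat_lit 16326860928), (nat_lit 61, nat_lit 16326860865), (nat_lit 118, nat_lit 16326602880), (nat_lit 100, nat_lit 16326602817), (nat_lit 74, nat_lit 16326598785), (nat_lit 50, nat_lit 16326340737), (nat_lit 8, nat_lit 17400602688), (nat_lit 94, nat_lit 17400344640), (nat_lit 78, nat_lit 17400340608), (nat_lit 102, nat_lit 17400340545), (nat_lit 3, nat_lit 17400082560), (nat_lit 40, nat_lit 17400082497), (nat_lit 45, nat_lit 17400078465), (nat_lit 99, nat_lit 17399820417), (nat_lit 85, nat_lit 18474082368), (nat_lit 54, nat_lit 18473824320), (nat_lit 74, nat_lit 18473820288), (nat_lit 48, nat_lit 18473820225), (nat_lit 6, nat_lit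 18473562240), (nat_lit 124, nat_lit 18473562177), (nat_lit 96, nat_lit 18473558145), (nat_lit 125, nat_lit 19547562048), (nat_lit 19, nat_lit 19547304000), (nat_lit 47, nat_lit 19547299968), (nat_lit 50, nat_lit 19547299905), (nat_lit 15, nat_lit 20621041728)]⟩],
  [W_14128525376, W_14128521344]⟩
theorem C_14179381377 : chkRec R_14179381377 = true := by decide +kernel

noncomputable def R_14179381440 : Rec := ⟨nat_lit 14179381440, nat_lit 17,
  [⟨V6_14128787520, [(nat_lit 106, nat_lit 14179381440), (nat_lit 42, nat_lit 15253123200), (nat_lit 120, nat_lit 15252861120), (nat_lit 32, nat_lit 15236346048), (nat_lit 123, nat_lit 16326864960), (nat_lit 11, nat_lit 16326602880), (nat_lit 111, nat_lit 16310087808), (nat_lit 65, nat_lit 16309825728), (nat_lit 75, nat_lit 16293310656), (nat_lit 91, nat_lit 17400344640), (nat_lit 104, nat_lit 17383829568), (nat_lit 106, nat_lit 17383567488), (nat_lit 107, nat_lit 17367052416), (nat_lit 30, nat_lit 17366790336), (nat_lit 75, nat_lit 17350275264), (nat_lit 84, nat_lit 18457309248), (nat_lit 96, nat_lit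 18440794176), (nat_lit 30, nat_lit 18440532096), (nat_lit 1, nat_lit 18424017024), (nat_lit 40, nat_lit 18423754944), (nat_lit 97, nat_lit 19514273856), (nat_lit 33, nat_lit 19497758784), (nat_lit 125, nat_lit 19497496704), (nat_lit 18, nat_lit 20571238464)]⟩],
  [W_14178332672, W_14178070592, W_14177546432, W_14161817600]⟩
theorem C_14179381440 : chkRec R_14179381440 = true := by decide +kernel

noncomputable def R_14179385409 : Rec := ⟨nat_lit 14179385409, nat_lit 17,
  [⟨V6_14178074688, [(nat_lit 99, nat_lit 14179385409), (nat_lit 46, nat_lit 15253127232), (nat_lit 77, nat_lit 15252865089), (nat_lit 68, nat_lit 16326606912), (nat_lit 110, nat_lit 16326344769), (nat_lit 104, nat_lit 17400086592), (nat_lit 37, nat_lit 17399824449), (nat_lit 40, nat_lit 18473566272), (nat_lit 115, nat_lit 18473304129), (nat_lit 107, nat_lit 19547045952), (nat_lit 118, nat_lit 19546783809), (nat_lit 15, nat_lit 20620525632)]⟩],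
  [W_14178586688, W_14178070592, W_14128783424, W_14128525376]⟩
theorem C_14179385409 : chkRec R_14179385409 = true := by decide +kernel

noncomputable def R_14179385472 : Rec := ⟨nat_lit 14179385472, nat_lit 32,
  [⟨V6_14178336768, [(nat_lit 61, nat_lit 14179385472), (nat_lit 106, nat_lit 15253127232), (nat_lit 10, nat_lit 15252865152), (nat_lit 45, nat_lit 16326868992), (nat_lit 81, nat_lit 16326606912), (nat_lit 75, nat_lit 16326344832), (nat_lit 113, nat_lit 17400348672), (nat_lit 119, nat_lit 17400086592), (nat_lit 112, nat_lit 17399824512), (nat_lit 86, nat_lit 18473828352), (nat_lit 100, nat_lit 18473566272), (nat_lit 95, nat_lit 18473304192), (nat_lit 126, nat_lit 19547308032), (nat_lit 119, nat_lit 19547045952), (nat_lit 5, nat_lit 20620787712)]⟩,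
   ⟨V6_14145298560, [(nat_lit 28, nat_lit 14179385472), (nat_lit 111, nat_lit 15253123200), (nat_lit 97, nat_lit 15252865152), (nat_lit 112, nat_lit 15236350080), (nat_lit 50, nat_lit 16326860928), (nat_lit 81, nat_lit 16326602880), (nat_lit 101, nat_lit 16326344832), (nat_lit 54, nat_lit 16310087808), (nat_lit 126, nat_lit 16309829760), (nat_lit 10, nat_lit 16293314688), (nat_lit 15, nat_lit 17400340608), (nat_lit 41, nat_lit 17400082560), (nat_lit 37, nat_lit 17383825536), (nat_lit 64, nat_lit 17383567488), (nat_lit 82, nat_lit 17383309440), (nat_lit 56, nat_lit 17367052416), (nat_lit 96, nat_lit 17366794368), (nat_lit 20, nat_lit 18473820288), (nat_lit 22, nat_lit 18457305216), (nat_lit 5, nat_lit 18457047168), (nat_lit 47, nat_lit 18440790144), (nat_lit 117, nat_lit 18440532096), (nat_lit 36, nat_lit 18440274048), (nat_lit 87, nat_lit 19530784896), (nat_lit 22, nat_lit 19514269824), (nat_lit 105, nat_lit 19514011776), (nat_lit 42, nat_lit 20587749504)]⟩],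
  [W_14178590720, W_14178332672, W_14161817600, W_14129045504, W_14128787456]⟩
theorem C_14179385472 : chkRec R_14179385472 = true := by decide +kernel

noncomputable def R_14179389504 : Rec := ⟨nat_lit 14179389504, nat_lit 38,
  [⟨V6_14179110912, [(nat_lit 1, nat_lit 14179389504), (nat_lit 118, nat_lit 15253131264), (nat_lit 81, nat_lit 15253127232), (nat_lit 87, nat_lit 15252869184), (nat_lit 82, nat_lit 16326868992), (nat_lit 18, nat_lit 16326864960), (nat_lit 109, nat_lit 16326610944), (nat_lit 42, nat_lit 16326606912), (nat_lit 74, nat_lit 17400606720), (nat_lit 114, nat_lit 17400602688), (nat_lit 107, nat_lit 17400348672), (nat_lit 6, nat_lit 17400344640), (nat_lit 51, nat_lit 18474344448), (nat_lit 100, nat_lit 18474340416), (nat_lit 3, nat_lit 18474086400), (nat_lit 89, nat_lit 18474082368), (nat_lit 24, nat_lit 19548082176), (nat_lit 58, nat_lit 19547824128), (nat_lit 125, nat_lit 19547820096), (nat_lit 62, nat_lit 20621561856)]⟩,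
   ⟨V6_14178848832, [(nat_lit 108, nat_lit 14179389504), (nat_lit 117, nat_lit 15253127232), (nat_lit 81, nat_lit 15252869184), (nat_lit 102, nat_lit 16326864960), (nat_lit 83, nat_lit 16326606912), (nat_lit 50, nat_lit 16326348864), (nat_lit 125, nat_lit 17400602688), (nat_lit 20, nat_lit 17400344640), (nat_lit 117, nat_lit 17400086592), (nat_lit 22, nat_lit 18474340416), (nat_lit 100, nat_lit 18474082368), (nat_lit 69, nat_lit 18473824320), (nat_lit 61, nat_lit 19547820096), (nat_lit 122, nat_lit 19547562048), (nat_lit 111, nat_lit 20621299776)]⟩,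
   ⟨V6_14178336768, [(nat_lit 87, nat_lit 14179389504), (nat_lit 119, nat_lit 15253131264), (nat_lit 57, nat_lit 15253127232), (nat_lit 35, nat_lit 15252869184), (nat_lit 123, nat_lit 16326868992), (nat_lit 6, nat_lit 16326610944), (nat_lit 63, nat_lit 16326606912), (nat_lit 93, nat_lit 16326348864), (nat_lit 43, nat_lit 17400348672), (nat_lit 26, nat_lit 17400090624), (nat_lit 95, nat_lit 17400086592), (nat_lit 64, nat_lit 17399828544), (nat_lit 23, nat_lit 18473828352), (nat_lit 64, nat_lit 18473570304), (nat_lit 1, nat_lit 18473566272), (nat_lit 21, nat_lit 18473308224), (nat_lit 91, nat_lit 19547308032), (nat_lit 106, nat_lit 19547049984), (nat_lit 79, nat_lit 19547045952), (nat_lit 50, nat_lit 20620787712)]⟩,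
   ⟨V6_14178078720, [(nat_lit 6, nat_lit 14179389504), (nat_lit 92, nat_lit 15253131264), (nat_lit 42, nat_lit 15252869184), (nat_lit 44, nat_lit 16326610944), (nat_lit 124, nat_lit 16326348864), (nat_lit 19, nat_lit 17400090624), (nat_lit 77, nat_lit 17399828544), (nat_lit 19, nat_lit 18473570304), (nat_lit 25, nat_lit 18473308224), (nat_lit 73, nat_lit 19547049984), (nat_lit 13, nat_lit 19546787904), (nat_lit 85, nat_lit 20620529664)]⟩],
  [W_14145302528, W_14145044480, W_14129045504, W_14128787456, W_14128783424]⟩
theorem C_14179389504 : chkRec R_14179389504 = true := by decide +kernel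

noncomputable def R_14179393536 : Rec := ⟨nat_lit 14179393536, nat_lit 21,
  [⟨V6_14179110912, [(nat_lit 125, nat_lit 14179393536), (nat_lit 65, nat_lit 15253131264), (nat_lit 88, nat_lit 15252873216), (nat_lit 3, nat_lit 16326868992), (nat_lit 90, nat_lit 16326610944), (nat_lit 6, nat_lit 17400606720), (nat_lit 40, nat_lit 17400348672), (nat_lit 69, nat_lit 18474344448), (nat_lit 124, nat_lit 18474086400), (nat_lit 10, nat_lit 19548082176), (nat_lit 98, nat_lit 19547824128), (nat_lit 13, nat_lit 20621561856)]⟩,
   ⟨V6_14144790528, [(nat_lit 8, nat_lit 14179393536), (nat_lit 29, nat_lit 15252873216), (nat_lit 111, nat_lit 15236358144), (nat_lit 101, nat_lit 16326352896), (nat_lit 99, nat_lit 16309837824), (nat_lit 83, nat_lit 16293322752), (nat_lit 123, nat_lit 17399832576), (nat_lit 86, nat_lit 17383317504), (nat_lit 88, nat_lit 17366802432), (nat_lit 47, nat_lit 18473312256), (nat_lit 118, nat_lit 18456797184), (nat_lit 106, nat_lit 18440282112), (nat_lit 102, nat_lit 19530276864), (nat_lit 104, nat_lit 19513761792), (nat_lit 25, nat_lit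 20587241472)]⟩],
  [W_14162591744, W_14162333696, W_14129045504, W_14128787456]⟩
theorem C_14179393536 : chkRec R_14179393536 = true := by decide +kernel

noncomputable def R_14179639425 : Rec := ⟨nat_lit 14179639425, nat_lit 3,
  [⟨V6_14178066561, [(nat_lit 56, nat_lit 14179639425), (nat_lit 36, nat_lit 15253119105), (nat_lit 52, nat_lit 16326598785), (nat_lit 122, nat_lit 17400078465), (nat_lit 39, nat_lit 18473558145), (nat_lit 20, nat_lit 19547037825), (nat_lit 124, nat_lit 20620517505)]⟩],
  [W_14145298496]⟩
theorem C_14179639425 : chkRec R_14179639425 = true := by decide +kernel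

noncomputable def R_14179643457 : Rec := ⟨nat_lit 14179643457, nat_lit 8,
  [⟨V6_14178848832, [(nat_lit 55, nat_lit 14179643457), (nat_lit 75, nat_lit 15253385280), (nat_lit 57, nat_lit 15253381185), (nat_lit 77, nat_lit 15253123137), (nat_lit 106, nat_lit 16327123008), (nat_lit 70, nat_lit 16327118913), (nat_lit 58, nat_lit 16326864960), (nat_lit 50, nat_lit 16326860865), (nat_lit 82, nat_lit 16326602817), (nat_lit 103, nat_lit 17400860736), (nat_lit 99, nat_lit 17400602688), (nat_lit 106, nat_lit 17400598593), (nat_lit 38, nat_lit 17400344640), (nat_lit 82, nat_lit 17400340545), (nat_lit 121, nat_lit 17400082497), (nat_lit 78, nat_lit 18474340416), (nat_lit 49, nat_lit 18474082368), (nat_lit 72, nat_lit 18474078273), (nat_lit 37, nat_lit 18473824320), (nat_lit 105, nat_lit 18473820225), (nat_lit 115, nat_lit 19547820096), (nat_lit 29, nat_lit 19547562048), (nat_lit 41, nat_lit 19547557953), (nat_lit 103, nat_lit 20621299776)]⟩],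
  [W_14178070592, W_14161555520]⟩
theorem C_14179643457 : chkRec R_14179643457 = true := by decide +kernel

noncomputable def R_14179643520 : Rec := ⟨nat_lit 14179643520, nat_lit 17,
  [⟨V6_14145298560, [(nat_lit 98, nat_lit 14179643520), (nat_lit 20, nat_lit 15253381248), (nat_lit 54, nat_lit 15253123200), (nat_lit 84, nat_lit 15236608128), (nat_lit 109, nat_lit 16326860928), (nat_lit 62, nat_lit 16326602880), (nat_lit 118, nat_lit 16310345856), (nat_lit 43, nat_lit 16310087808), (nat_lit 16, nat_lit 16293572736), (nat_lit 63, nat_lit 17400340608), (nat_lit 119, nat_lit 17400082560), (nat_lit 125, nat_lit 17383825536), (nat_lit 42, nat_lit 17383567488), (nat_lit 40, nat_lit 17367310464), (nat_lit 21, nat_lit 17367052416), (nat_lit 89, nat_lit 18473820288), (nat_lit 126, nat_lit 18457305216), (nat_lit 64, nat_lit 18457047168), (nat_lit 73, nat_lit 18440790144), (nat_lit 12, nat_lit 18440532096), (nat_lit 69, nat_lit 19530784896), (nat_lit 49, nat_lit 19514269824), (nat_lit 57, nat_lit 19514011776), (nat_lit 102, nat_lit 20587749504)]⟩],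
  [W_14178332672, W_14161817600]⟩
theorem C_14179643520 : chkRec R_14179643520 = true := by decide +kernel

noncomputable def R_14179647552 : Rec := ⟨nat_lit 14179647552, nat_lit 25,
  [⟨V6_14178848832, [(nat_lit 93, nat_lit 14179647552), (nat_lit 10, nat_lit 15253385280), (nat_lit 36, nat_lit 15253127232), (nat_lit 18, nat_lit 16327123008), (nat_lit 33, nat_lit 16326864960), (nat_lit 66, nat_lit 16326606912), (nat_lit 118, nat_lit 17400860736), (nat_lit 63, nat_lit 17400602688), (nat_lit 116, nat_lit 17400344640), (nat_lit 8, nat_lit 17400086592), (nat_lit 49, nat_lit 18474340416), (nat_lit 21, nat_lit 18474082368), (nat_lit 122, nat_lit 18473824320), (nat_lit 34, nat_lit 19547820096), (nat_lit 35, nat_lit 19547562048), (nat_lit 28, nat_lit 20621299776)]⟩,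
   ⟨V6_14178336768, [(nat_lit 20, nat_lit 14179647552), (nat_lit 121, nat_lit 15253389312), (nat_lit 125, nat_lit 15253127232), (nat_lit 107, nat_lit 16326868992), (nat_lit 96, nat_lit 16326606912), (nat_lit 79, nat_lit 17400348672), (nat_lit 51, nat_lit 17400086592), (nat_lit 82, nat_lit 18473828352), (nat_lit 44, nat_lit 18473566272), (nat_lit 41, nat_lit 19547308032), (nat_lit 42, nat_lit 19547045952), (nat_lit 59, nat_lit 20620787712)]⟩],
  [W_14162333696, W_14145818624, W_14145556544, W_14145302528]⟩
theorem C_14179647552 : chkRec R_14179647552 = true := by decide +kernel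

noncomputable def R_14179651584 : Rec := ⟨nat_lit 14179651584, nat_lit 18,
  [⟨V6_14179110912, [(nat_lit 55, nat_lit 14179651584), (nat_lit 116, nat_lit 15253389312), (nat_lit 25, nat_lit 15253131264), (nat_lit 114, nat_lit 16327127040), (nat_lit 24, nat_lit 16326868992), (nat_lit 92, nat_lit 16326610944), (nat_lit 58, nat_lit 17400864768), (nat_lit 64, nat_lit 17400606720), (nat_lit 1, nat_lit 17400348672), (nat_lit 84, nat_lit 18474602496), (nat_lit 45, nat_lit 18474344448), (nat_lit 38, nat_lit 18474086400), (nat_lit 30, nat_lit 19548082176), (nat_lit 9, nat_lit 19547824128), (nat_lit 41, nat_lit 20621561856)]⟩,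
   ⟨V6_14178078720, [(nat_lit 65, nat_lit 14179651584), (nat_lit 69, nat_lit 15253131264), (nat_lit 15, nat_lit 16326610944), (nat_lit 1, nat_lit 17400090624), (nat_lit 43, nat_lit 18473570304), (nat_lit 123, nat_lit 19547049984), (nat_lit 26, nat_lit 20620529664)]⟩],
  [W_14162591744, W_14145818624, W_14145302528]⟩
theorem C_14179651584 : chkRec R_14179651584 = true := by decide +kernel

noncomputable def R_14179901505 : Rec := ⟨nat_lit 14179901505, nat_lit 3,
  [⟨V6_14178848832, [(nat_lit 96, nat_lit 14179901505), (nat_lit 106, nat_lit 15253643328), (nat_lit 91, nat_lit 15253639233), (nat_lit 112, nat_lit 15253381185), (nat_lit 118, nat_lit 16327381056), (nat_lit 90, nat_lit 16327123008), (nat_lit 91, nat_lit 16327118913), (nat_lit 35, nat_lit 16326860865), (nat_lit 116, nat_lit 17400860736), (nat_lit 11, nat_lit 17400602688), (nat_lit 81, nat_lit 17400598593), (nat_lit 61, nat_lit 17400340545), (nat_lit 30, nat_lit 18474340416), (nat_lit 2, nat_lit 18474082368), (nat_lit 92, nat_lit 18474078273), (nat_lit 99, nat_lit 18473820225), (nat_lit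 95, nat_lit 19547820096), (nat_lit 70, nat_lit 19547562048), (nat_lit 11, nat_lit 19547557953), (nat_lit 104, nat_lit 20621299776)]⟩],
  [W_14178328640]⟩
theorem C_14179901505 : chkRec R_14179901505 = true := by decide +kernel

noncomputable def R_14179901568 : Rec := ⟨nat_lit 14179901568, nat_lit 3,
  [⟨V6_14178852864, [(nat_lit 84, nat_lit 14179901568), (nat_lit 22, nat_lit 15253643328), (nat_lit 87, nat_lit 15253381248), (nat_lit 48, nat_lit 16327385088), (nat_lit 69, nat_lit 16327123008), (nat_lit 126, nat_lit 16326860928), (nat_lit 3, nat_lit 17400864768), (nat_lit 55, nat_lit 17400602688), (nat_lit 43, nat_lit 17400340608), (nat_lit 16, nat_lit 18474344448), (nat_lit 10, nat_lit 18474082368), (nat_lit 22, nat_lit 18473820288), (nat_lit 113, nat_lit 19547824128), (nat_lit 96, nat_lit 19547562048), (nat_lit 99, nat_lit 20621303808)]⟩],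
  [W_14178328640]⟩
theorem C_14179901568 : chkRec R_14179901568 = true := by decide +kernel

noncomputable def R_14179905600 : Rec := ⟨nat_lit 14179905600, nat_lit 13,
  [⟨V6_14179110912, [(nat_lit 80, nat_lit 14179905600), (nat_lit 69, nat_lit 15253647360), (nat_lit 73, nat_lit 15253643328), (nat_lit 80, nat_lit 15253385280), (nat_lit 75, nat_lit 16327385088), (nat_lit 106, nat_lit 16327381056), (nat_lit 49, nat_lit 16327127040), (nat_lit 84, nat_lit 16327123008), (nat_lit 94, nat_lit 16326864960), (nat_lit 53, nat_lit 17401122816), (nat_lit 119, nat_lit 17400864768), (nat_lit 28, nat_lit 17400860736), (nat_lit 7, nat_lit 17400606720), (nat_lit 122, nat_lit 17400602688), (nat_lit 76, nat_lit 17400344640), (nat_lit 67, nat_lit 18474602496), (nat_lit 95, nat_lit 18474344448), (nat_lit 12, nat_lit 18474340416), (nat_lit 67, nat_lit 18474086400), (nat_lit 77, nat_lit 18474082368), (nat_lit 77, nat_lit 19548082176), (nat_lit 16, nat_lit 19547824128), (nat_lit 58, nat_lit 19547820096), (nat_lit 65, nat_lit 20621561856)]⟩,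
   ⟨V6_14178848832, [(nat_lit 81, nat_lit 14179905600), (nat_lit 44, nat_lit 15253643328), (nat_lit 64, nat_lit 15253385280), (nat_lit 97, nat_lit 16327381056), (nat_lit 94, nat_lit 16327123008), (nat_lit 67, nat_lit 16326864960), (nat_lit 110, nat_lit 17400860736), (nat_lit 9, nat_lit 17400602688), (nat_lit 84, nat_lit 17400344640), (nat_lit 89, nat_lit 18474340416), (nat_lit 38, nat_lit 18474082368), (nat_lit 122, nat_lit 18473824320), (nat_lit 9, nat_lit 19547820096), (nat_lit 29, nat_lit 19547562048), (nat_lit 70, nat_lit 20621299776)]⟩],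
  [W_14178070592, W_14161817600]⟩
theorem C_14179905600 : chkRec R_14179905600 = true := by decide +kernel

noncomputable def R_14179909632 : Rec := ⟨nat_lit 14179909632, nat_lit 8,
  [⟨V6_14178336768, [(nat_lit 111, nat_lit 14179909632), (nat_lit 72, nat_lit 15253389312), (nat_lit 110, nat_lit 16326868992), (nat_lit 33, nat_lit 17400348672), (nat_lit 6, nat_lit 18473828352), (nat_lit 36, nat_lit 19547308032), (nat_lit 37, nat_lit 20620787712)]⟩],
  [W_14162591744, W_14162333696]⟩
theorem C_14179909632 : chkRec R_14179909632 = true := by decide +kernel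

noncomputable def R_14180159553 : Rec := ⟨nat_lit 14180159553, nat_lit 2,
  [⟨V6_14178848832, [(nat_lit 53, nat_lit 14180159553), (nat_lit 56, nat_lit 15253901376), (nat_lit 122, nat_lit 15253639233), (nat_lit 54, nat_lit 16327381056), (nat_lit 67, nat_lit 16327118913), (nat_lit 30, nat_lit 17400860736), (nat_lit 81, nat_lit 17400598593), (nat_lit 101, nat_lit 18474340416), (nat_lit 19, nat_lit 18474078273), (nat_lit 58, nat_lit 19547820096), (nat_lit 39, nat_lit 19547557953), (nat_lit 103, nat_lit 20621299776)]⟩],
  [W_14178586688]⟩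
theorem C_14180159553 : chkRec R_14180159553 = true := by decide +kernel

noncomputable def R_14180163648 : Rec := ⟨nat_lit 14180163648, nat_lit 2,
  [⟨V6_14178848832, [(nat_lit 6, nat_lit 14180163648), (nat_lit 56, nat_lit 15253901376), (nat_lit 63, nat_lit 15253643328), (nat_lit 85, nat_lit 16327381056), (nat_lit 47, nat_lit 16327123008), (nat_lit 82, nat_lit 17400860736), (nat_lit 45, nat_lit 17400602688), (nat_lit 40, nat_lit 18474340416), (nat_lit 85, nat_lit 18474082368), (nat_lit 13, nat_lit 19547820096), (nat_lit 97, nat_lit 19547562048), (nat_lit 27, nat_lit 20621299776)]⟩],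
  [W_14178590720]⟩
theorem C_14180163648 : chkRec R_14180163648 = true := by decide +kernel

noncomputable def R_14180167680 : Rec := ⟨nat_lit 14180167680, nat_lit 4,
  [⟨V6_14179110912, [(nat_lit 81, nat_lit 14180167680), (nat_lit 89, nat_lit 15253905408), (nat_lit 68, nat_lit 15253647360), (nat_lit 9, nat_lit 16327643136), (nat_lit 101, nat_lit 16327385088), (nat_lit 86, nat_lit 16327127040), (nat_lit 22, nat_lit 17401122816), (nat_lit 47, nat_lit 17400864768), (nat_lit 70, nat_lit 17400606720), (nat_lit 65, nat_lit 18474602496), (nat_lit 2, nat_lit 18474344448), (nat_lit 122, nat_lit 18474086400), (nat_lit 126, nat_lit 19548082176), (nat_lit 109, nat_lit 19547824128), (nat_lit 125, nat_lit 20621561856)]⟩],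
  [W_14178332672]⟩
theorem C_14180167680 : chkRec R_14180167680 = true := by decide +kernel

noncomputable def R_15134646660 : Rec := ⟨nat_lit 15134646660, nat_lit 1,
  [⟨V6_10839679236, [(nat_lit 26, nat_lit 15134646660), (nat_lit 95, nat_lit 16208388420), (nat_lit 101, nat_lit 17282130180)]⟩],
  [W_11913421184]⟩
theorem C_15134646660 : chkRec R_15134646660 = true := by decide +kernel

noncomputable def R_15151423875 : Rec := ⟨nat_lit 15151423875, nat_lit 1,
  [⟨V6_9765937539, [(nat_lit 8, nat_lit 15151423875), (nat_lit 82, nat_lit 16208388483)]⟩],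
  [W_15134646464]⟩
theorem C_15151423875 : chkRec R_15151423875 = true := by decide +kernel

noncomputable def R_15151685955 : Rec := ⟨nat_lit 15151685955, nat_lit 1,
  [⟨V6_10856456451, [(nat_lit 26, nat_lit 15151685955), (nat_lit 119, nat_lit 16225427715), (nat_lit 79, nat_lit 16225165635), (nat_lit 90, nat_lit 17298907395)]⟩],
  [W_14077939904]⟩
theorem C_15151685955 : chkRec R_15151685955 = true := by decide +kernel

noncomputable def R_15168200964 : Rec := ⟨nat_lit 15168200964, nat_lit 2,
  [⟨V6_12987154692, [(nat_lit 116, nat_lit 15168200964), (nat_lit 40, nat_lit 16241938692), (nat_lit 100, nat_lit 16225165572), (nat_lit 108, nat_lit 17315676420), (nat_lit 47, nat_lit 17298903300), (nat_lit 15, nat_lit 17282130180), (nat_lit 29, nat_lit 18372641028), (nat_lit 50, nat_lit 18355867908), (nat_lit 23, nat_lit 19429605636)]⟩,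
   ⟨V6_10856456451, [(nat_lit 40, nat_lit 15168200964), (nat_lit 95, nat_lit 16241942787), (nat_lit 126, nat_lit 16225165572), (nat_lit 50, nat_lit 17298907395)]⟩],
  [W_14094450944]⟩
theorem C_15168200964 : chkRec R_15168200964 = true := by decide +kernel

noncomputable def R_15168201027 : Rec := ⟨nat_lit 15168201027, nat_lit 2,
  [⟨V6_10873233729, [(nat_lit 6, nat_lit 15168201027), (nat_lit 126, nat_lit 16241942850), (nat_lit 18, nat_lit 17315684673)]⟩],
  [W_15151419584, W_15134646464]⟩
theorem C_15168201027 : chkRec R_15168201027 = true := by decide +kernel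

noncomputable def R_15168201090 : Rec := ⟨nat_lit 15168201090, nat_lit 4,
  [⟨V6_11913421122, [(nat_lit 10, nat_lit 15168201090), (nat_lit 74, nat_lit 16241942850), (nat_lit 115, nat_lit 16225165698), (nat_lit 98, nat_lit 17298907458), (nat_lit 110, nat_lit 17282130306), (nat_lit 86, nat_lit 18355872066)]⟩,
   ⟨V6_10873233792, [(nat_lit 73, nat_lit 15168201090), (nat_lit 78, nat_lit 16241942913), (nat_lit 125, nat_lit 17315684736)]⟩],
  [W_15151423616, W_15134646464, W_11913421184]⟩
theorem C_15168201090 : chkRec R_15168201090 = true := by decide +kernel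

noncomputable def R_15168459012 : Rec := ⟨nat_lit 15168459012, nat_lit 1,
  [⟨V6_10873225476, [(nat_lit 49, nat_lit 15168459012), (nat_lit 32, nat_lit 16242196740), (nat_lit 52, nat_lit 16241938692), (nat_lit 103, nat_lit 17315676420)]⟩],
  [W_15167930624]⟩
theorem C_15168459012 : chkRec R_15168459012 = true := by decide +kernel

noncomputable def R_15168459075 : Rec := ⟨nat_lit 15168459075, nat_lit 1,
  [⟨V6_11930194179, [(nat_lit 103, nat_lit 15168459075), (nat_lit 47, nat_lit 16242200835), (nat_lit 9, nat_lit 16241938755), (nat_lit 21, nat_lit 16225423683), (nat_lit 32, nat_lit 17315680515), (nat_lit 72, nat_lit 17299165443), (nat_lit 53, nat_lit 17298903363), (nat_lit 114, nat_lit 18372645123)]⟩],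
  [W_11947233536]⟩
theorem C_15168459075 : chkRec R_15168459075 = true := by decide +kernel

noncomputable def R_15168463107 : Rec := ⟨nat_lit 15168463107, nat_lit 4,
  [⟨V6_11930198274, [(nat_lit 63, nat_lit 15168463107), (nat_lit 38, nat_lit 16242204930), (nat_lit 80, nat_lit 16241942787), (nat_lit 11, nat_lit 16225427715), (nat_lit 101, nat_lit 17315684610), (nat_lit 87, nat_lit 17299169538), (nat_lit 24, nat_lit 17298907395), (nat_lit 61, nat_lit 18372649218)]⟩,
   ⟨V6_10856456451, [(nat_lit 69, nat_lit 15168463107), (nat_lit 78, nat_lit 16241942787), (nat_lit 112, nat_lit 16225427715), (nat_lit 5, nat_lit 17298907395)]⟩,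
   ⟨V6_9799753986, [(nat_lit 18, nat_lit 15168463107), (nat_lit 78, nat_lit 16242204930)]⟩],
  [W_15168192704, W_14094713024]⟩
theorem C_15168463107 : chkRec R_15168463107 = true := by decide +kernel

noncomputable def R_15168463170 : Rec := ⟨nat_lit 15168463170, nat_lit 4,
  [⟨V6_11930460480, [(nat_lit 101, nat_lit 15168463170), (nat_lit 11, nat_lit 16242204993), (nat_lit 41, nat_lit 16225427778), (nat_lit 103, nat_lit 17315946816), (nat_lit 78, nat_lit 17299169601), (nat_lit 57, nat_lit 18372911424)]⟩,
   ⟨V6_10873233729, [(nat_lit 124, nat_lit 15168463170), (nat_lit 31, nat_lit 16242204993), (nat_lit 89, nat_lit 16241942850), (nat_lit 73, nat_lit 17315684673)]⟩,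
   ⟨V6_9799753986, [(nat_lit 26, nat_lit 15168463170), (nat_lit 94, nat_lit 16242204930)]⟩],
  [W_15168196736, W_15151419584]⟩
theorem C_15168463170 : chkRec R_15168463170 = true := by decide +kernel

noncomputable def R_15168463233 : Rec := ⟨nat_lit 15168463233, nat_lit 4,
  [⟨V6_10873233792, [(nat_lit 4, nat_lit 15168463233), (nat_lit 36, nat_lit 16242205056), (nat_lit 26, nat_lit 16241942913), (nat_lit 75, nat_lit 17315684736)]⟩,
   ⟨V6_10873233729, [(nat_lit 15, nat_lit 15168463233), (nat_lit 72, nat_lit 16242204993), (nat_lit 117, nat_lit 16241942913), (nat_lit 73, nat_lit 17315684673)]⟩],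
  [W_15168200768]⟩
theorem C_15168463233 : chkRec R_15168463233 = true := by decide +kernel

noncomputable def R_15168467139 : Rec := ⟨nat_lit 15168467139, nat_lit 1,
  [⟨V6_10873499841, [(nat_lit 115, nat_lit 15168467139), (nat_lit 2, nat_lit 16242208962), (nat_lit 91, nat_lit 17315950785)]⟩],
  [W_15151677632]⟩
theorem C_15168467139 : chkRec R_15168467139 = true := by decide +kernel

noncomputable def R_15168467202 : Rec := ⟨nat_lit 15168467202, nat_lit 2,
  [⟨V6_10873499841, [(nat_lit 6, nat_lit 15168467202), (nat_lit 110, nat_lit 16242209025), (nat_lit 37, nat_lit 16242208962), (nat_lit 17, nat_lit 17315950785)]⟩,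
   ⟨V6_9799753986, [(nat_lit 57, nat_lit 15168467202), (nat_lit 78, nat_lit 16242204930)]⟩],
  [W_15151677632, W_14077939904]⟩
theorem C_15168467202 : chkRec R_15168467202 = true := by decide +kernel

noncomputable def R_15168467265 : Rec := ⟨nat_lit 15168467265, nat_lit 2,
  [⟨V6_13020983361, [(nat_lit 27, nat_lit 15168467265), (nat_lit 24, nat_lit 16242209025), (nat_lit 22, nat_lit 17315950785), (nat_lit 41, nat_lit 18389692545), (nat_lit 70, nat_lit 19463434305)]⟩],
  [W_15151685696, W_14077939904]⟩
theorem C_15168467265 : chkRec R_15168467265 = true := by decide +kernel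

noncomputable def R_15168467328 : Rec := ⟨nat_lit 15168467328, nat_lit 1,
  [⟨V6_11930460480, [(nat_lit 88, nat_lit 15168467328), (nat_lit 87, nat_lit 16242209088), (nat_lit 71, nat_lit 16242205056), (nat_lit 82, nat_lit 16225431936), (nat_lit 7, nat_lit 17315946816), (nat_lit 118, nat_lit 17299173696), (nat_lit 25, nat_lit 17299169664), (nat_lit 49, nat_lit 18372911424)]⟩],
  [W_14094725120]⟩
theorem C_15168467328 : chkRec R_15168467328 = true := by decide +kernel

noncomputable def R_15168717060 : Rec := ⟨nat_lit 15168717060, nat_lit 2,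
  [⟨V6_11947491585, [(nat_lit 44, nat_lit 15168717060), (nat_lit 28, nat_lit 16242458883), (nat_lit 1, nat_lit 17316200706), (nat_lit 75, nat_lit 18389942529)]⟩],
  [W_14094450944]⟩
theorem C_15168717060 : chkRec R_15168717060 = true := by decide +kernel

noncomputable def R_15168721155 : Rec := ⟨nat_lit 15168721155, nat_lit 3,
  [⟨V6_10873753857, [(nat_lit 93, nat_lit 15168721155), (nat_lit 48, nat_lit 16242462978), (nat_lit 25, nat_lit 17316204801)]⟩],
  [W_15167930624, W_14094450944]⟩
theorem C_15168721155 : chkRec R_15168721155 = true := by decide +kernel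

noncomputable def R_15168721218 : Rec := ⟨nat_lit 15168721218, nat_lit 2,
  [⟨V6_11947495554, [(nat_lit 62, nat_lit 15168721218), (nat_lit 103, nat_lit 16242462978), (nat_lit 43, nat_lit 17316204738), (nat_lit 21, nat_lit 18389946498)]⟩],
  [W_15168196736]⟩
theorem C_15168721218 : chkRec R_15168721218 = true := by decide +kernel

noncomputable def R_15168725187 : Rec := ⟨nat_lit 15168725187, nat_lit 2,
  [⟨V6_11947491522, [(nat_lit 30, nat_lit 15168725187), (nat_lit 46, nat_lit 16242467010), (nat_lit 79, nat_lit 16242462915), (nat_lit 8, nat_lit 17316204738), (nat_lit 11, nat_lit 17316200643), (nat_lit 94, nat_lit 18389942466)]⟩],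
  [W_15168450752, W_13020717248]⟩
theorem C_15168725187 : chkRec R_15168725187 = true := by decide +kernel

noncomputable def R_15168725250 : Rec := ⟨nat_lit 15168725250, nat_lit 11,
  [⟨V6_11947495554, [(nat_lit 121, nat_lit 15168725250), (nat_lit 99, nat_lit 16242467010), (nat_lit 49, nat_lit 16242462978), (nat_lit 119, nat_lit 17316208770), (nat_lit 35, nat_lit 17316204738), (nat_lit 53, nat_lit 18389946498)]⟩,
   ⟨V6_10873757952, [(nat_lit 120, nat_lit 15168725250), (nat_lit 123, nat_lit 16242467073), (nat_lit 75, nat_lit 17316208896)]⟩,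
   ⟨V6_10873753794, [(nat_lit 1, nat_lit 15168725250), (nat_lit 56, nat_lit 16242467010), (nat_lit 98, nat_lit 16242462978), (nat_lit 78, nat_lit 17316204738)]⟩,
   ⟨V6_9799753986, [(nat_lit 84, nat_lit 15168725250), (nat_lit 99, nat_lit 16242204930)]⟩],
  [W_15168454784, W_15168196736, W_14094459008, W_14094450944]⟩
theorem C_15168725250 : chkRec R_15168725250 = true := by decide +kernel

noncomputable def R_15168725313 : Rec := ⟨nat_lit 15168725313, nat_lit 9,
  [⟨V6_13021241409, [(nat_lit 122, nat_lit 15168725313), (nat_lit 52, nat_lit 16242467073), (nat_lit 90, nat_lit 17316208833), (nat_lit 110, nat_lit 18389950593), (nat_lit 67, nat_lit 19463692353)]⟩,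
   ⟨V6_10873757952, [(nat_lit 113, nat_lit 15168725313), (nat_lit 39, nat_lit 16242467136), (nat_lit 87, nat_lit 16242467073), (nat_lit 107, nat_lit 17316208896)]⟩],
  [W_15168458816, W_15168200768, W_15168196736]⟩
theorem C_15168725313 : chkRec R_15168725313 = true := by decide +kernel

noncomputable def R_15168725376 : Rec := ⟨nat_lit 15168725376, nat_lit 8,
  [⟨V6_15168724992, [(nat_lit 120, nat_lit 15168725376), (nat_lit 29, nat_lit 16242467136), (nat_lit 37, nat_lit 17316208896), (nat_lit 112, nat_lit 18389950656), (nat_lit 80, nat_lit 19463692416), (nat_lit 67, nat_lit 20537434176), (nat_lit 80, nat_lit 21611175936)]⟩],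
  [W_15168462848, W_15168200768, W_10873233728]⟩
theorem C_15168725376 : chkRec R_15168725376 = true := by decide +kernel

noncomputable def R_15168729282 : Rec := ⟨nat_lit 15168729282, nat_lit 5,
  [⟨V6_11947495554, [(nat_lit 71, nat_lit 15168729282), (nat_lit 76, nat_lit 16242471042), (nat_lit 104, nat_lit 16242467010), (nat_lit 110, nat_lit 17316208770), (nat_lit 126, nat_lit 17316204738), (nat_lit 64, nat_lit 18389946498)]⟩,
   ⟨V6_10873761984, [(nat_lit 77, nat_lit 15168729282), (nat_lit 44, nat_lit 16242471105), (nat_lit 64, nat_lit 17316212928)]⟩],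
  [W_15168454784]⟩
theorem C_15168729282 : chkRec R_15168729282 = true := by decide +kernel

noncomputable def R_15168729345 : Rec := ⟨nat_lit 15168729345, nat_lit 10,
  [⟨V6_11947491585, [(nat_lit 68, nat_lit 15168729345), (nat_lit 78, nat_lit 16242467073), (nat_lit 75, nat_lit 17316204801), (nat_lit 12, nat_lit 18389942529)]⟩,
   ⟨V6_10873757952, [(nat_lit 54, nat_lit 15168729345), (nat_lit 22, nat_lit 16242471168), (nat_lit 65, nat_lit 16242467073), (nat_lit 77, nat_lit 17316208896)]⟩],
  [W_15168716864, W_14094721088, W_13020971264, W_11947503680]⟩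
theorem C_15168729345 : chkRec R_15168729345 = true := by decide +kernel

noncomputable def R_15168729408 : Rec := ⟨nat_lit 15168729408, nat_lit 8,
  [⟨V6_14094987264, [(nat_lit 104, nat_lit 15168729408), (nat_lit 26, nat_lit 16242471168), (nat_lit 65, nat_lit 17316212928), (nat_lit 86, nat_lit 18389954688), (nat_lit 104, nat_lit 19463696448), (nat_lit 69, nat_lit 20537438208)]⟩,
   ⟨V6_10873757952, [(nat_lit 64, nat_lit 15168729408), (nat_lit 27, nat_lit 16242471168), (nat_lit 92, nat_lit 16242467136), (nat_lit 1, nat_lit 17316208896)]⟩],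
  [W_15168458816, W_14094721088]⟩
theorem C_15168729408 : chkRec R_15168729408 = true := by decide +kernel

noncomputable def R_15168733314 : Rec := ⟨nat_lit 15168733314, nat_lit 4,
  [⟨V6_15168708738, [(nat_lit 91, nat_lit 15168733314), (nat_lit 42, nat_lit 16242471042), (nat_lit 20, nat_lit 17316208770), (nat_lit 32, nat_lit 18389946498), (nat_lit 56, nat_lit 19463684226), (nat_lit 30, nat_lit 20537421954), (nat_lit 80, nat_lit 21611159682)]⟩],
  [W_13021237376, W_10873761920]⟩
theorem C_15168733314 : chkRec R_15168733314 = true := by decide +kernel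

noncomputable def R_15168733377 : Rec := ⟨nat_lit 15168733377, nat_lit 6,
  [⟨V6_15168712896, [(nat_lit 119, nat_lit 15168733377), (nat_lit 117, nat_lit 16242475200), (nat_lit 40, nat_lit 16242471105), (nat_lit 3, nat_lit 17316212928), (nat_lit 126, nat_lit 17316208833), (nat_lit 35, nat_lit 18389950656), (nat_lit 122, nat_lit 18389946561), (nat_lit 49, nat_lit 19463688384), (nat_lit 32, nat_lit 19463684289), (nat_lit 94, nat_lit 20537426112), (nat_lit 101, nat_lit 20537422017), (nat_lit 19, nat_lit 21611163840)]⟩,
   ⟨V6_10873761984, [(nat_lit 109, nat_lit 15168733377), (nat_lit 92, nat_lit 16242475200), (nat_lit 10, nat_lit 16242471105), (nat_lit 107, nat_lit 17316212928)]⟩,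
   ⟨V6_9800024256, [(nat_lit 60, nat_lit 15168733377), (nat_lit 106, nat_lit 16242475200)]⟩],
  [W_14094979136, W_10873765952, W_10873761920]⟩
theorem C_15168733377 : chkRec R_15168733377 = true := by decide +kernel

noncomputable def R_15168733440 : Rec := ⟨nat_lit 15168733440, nat_lit 11,
  [⟨V6_13021233408, [(nat_lit 49, nat_lit 15168733440), (nat_lit 66, nat_lit 16242471168), (nat_lit 55, nat_lit 17316208896), (nat_lit 36, nat_lit 18389946624), (nat_lit 81, nat_lit 19463684352)]⟩,
   ⟨V6_8726282496, [(nat_lit 27, nat_lit 15168733440)]⟩],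
  [W_15168720896, W_13021245440, W_11947507712, W_8726282432]⟩
theorem C_15168733440 : chkRec R_15168733440 = true := by decide +kernel

noncomputable def R_15184974084 : Rec := ⟨nat_lit 15184974084, nat_lit 1,
  [⟨V6_10873225476, [(nat_lit 29, nat_lit 15184974084), (nat_lit 47, nat_lit 16258711812), (nat_lit 75, nat_lit 16241938692), (nat_lit 100, nat_lit 17315676420)]⟩],
  [W_15167930624]⟩
theorem C_15184974084 : chkRec R_15184974084 = true := by decide +kernel

noncomputable def R_15184974147 : Rec := ⟨nat_lit 15184974147, nat_lit 1,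
  [⟨V6_10890006849, [(nat_lit 48, nat_lit 15184974147), (nat_lit 119, nat_lit 16258715970), (nat_lit 17, nat_lit 17332457793)]⟩],
  [W_14110970048]⟩
theorem C_15184974147 : chkRec R_15184974147 = true := by decide +kernel

noncomputable def R_15184978179 : Rec := ⟨nat_lit 15184978179, nat_lit 5,
  [⟨V6_12987162882, [(nat_lit 20, nat_lit 15184978179), (nat_lit 108, nat_lit 16258720002), (nat_lit 53, nat_lit 16241942787), (nat_lit 12, nat_lit 17315684610), (nat_lit 2, nat_lit 17298907395), (nat_lit 63, nat_lit 18372649218), (nat_lit 63, nat_lit 18355872003), (nat_lit 111, nat_lit 19429613826)]⟩,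
   ⟨V6_11930198274, [(nat_lit 54, nat_lit 15184978179), (nat_lit 85, nat_lit 16258720002), (nat_lit 116, nat_lit 16241942787), (nat_lit 40, nat_lit 17315684610), (nat_lit 123, nat_lit 17298907395), (nat_lit 84, nat_lit 18372649218)]⟩],
  [W_15168192704, W_14094450944, W_10890010880]⟩
theorem C_15184978179 : chkRec R_15184978179 = true := by decide +kernel

noncomputable def R_15184978242 : Rec := ⟨nat_lit 15184978242, nat_lit 6,
  [⟨V6_15134646402, [(nat_lit 51, nat_lit 15184978242), (nat_lit 51, nat_lit 16258720002), (nat_lit 20, nat_lit 16241942850), (nat_lit 2, nat_lit 17332461762), (nat_lit 31, nat_lit 17315684610), (nat_lit 69, nat_lit 17298907458), (nat_lit 116, nat_lit 18406203522), (nat_lit 71, nat_lit 18389426370), (nat_lit 28, nat_lit 18372649218), (nat_lit 83, nat_lit 18355872066), (nat_lit 115, nat_lit 19463168130), (nat_lit 74, nat_lit 19446390978), (nat_lit 63, nat_lit 19429613826), (nat_lit 93, nat_lit 20520132738), (nat_lit 37, nat_lit 20503355586), (nat_lit 107, nat_lit 21577097346)]⟩,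
   ⟨V6_10873233729, [(nat_lit 26, nat_lit 15184978242), (nat_lit 15, nat_lit 16258720065), (nat_lit 109, nat_lit 16241942850), (nat_lit 86, nat_lit 17315684673)]⟩],
  [W_15151423616, W_13037494400, W_11963748608]⟩
theorem C_15184978242 : chkRec R_15184978242 = true := by decide +kernel

noncomputable def R_15184978305 : Rec := ⟨nat_lit 15184978305, nat_lit 6,
  [⟨V6_11930198400, [(nat_lit 73, nat_lit 15184978305), (nat_lit 89, nat_lit 16258720128), (nat_lit 32, nat_lit 16241942913), (nat_lit 118, nat_lit 17315684736), (nat_lit 49, nat_lit 17298907521), (nat_lit 12, nat_lit 18372649344)]⟩,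
   ⟨V6_10873233792, [(nat_lit 52, nat_lit 15184978305), (nat_lit 54, nat_lit 16258720128), (nat_lit 123, nat_lit 16241942913), (nat_lit 31, nat_lit 17315684736)]⟩,
   ⟨V6_10873233729, [(nat_lit 54, nat_lit 15184978305), (nat_lit 70, nat_lit 16258720065), (nat_lit 109, nat_lit 16241942913), (nat_lit 103, nat_lit 17315684673)]⟩],
  [W_15168200768, W_15134646464]⟩
theorem C_15184978305 : chkRec R_15184978305 = true := by decide +kernel

noncomputable def R_15185232132 : Rec := ⟨nat_lit 15185232132, nat_lit 1,
  [⟨V6_10873225476, [(nat_lit 67, nat_lit 15185232132), (nat_lit 20, nat_lit 16258711812), (nat_lit 41, nat_lit 16242196740), (nat_lit 64, nat_lit 17315676420)]⟩],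
  [W_15184445696]⟩
theorem C_15185232132 : chkRec R_15185232132 = true := by decide +kernel

noncomputable def R_15185236227 : Rec := ⟨nat_lit 15185236227, nat_lit 5,
  [⟨V6_14077939968, [(nat_lit 25, nat_lit 15185236227), (nat_lit 89, nat_lit 16258978050), (nat_lit 8, nat_lit 16242200835), (nat_lit 120, nat_lit 17332719873), (nat_lit 116, nat_lit 17315942658), (nat_lit 123, nat_lit 17299165443), (nat_lit 115, nat_lit 18406461696), (nat_lit 25, nat_lit 18389684481), (nat_lit 27, nat_lit 18372907266), (nat_lit 41, nat_lit 19463426304), (nat_lit 107, nat_lit 19446649089), (nat_lit 88, nat_lit 20520390912)]⟩,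
   ⟨V6_13004198082, [(nat_lit 87, nat_lit 15185236227), (nat_lit 58, nat_lit 16258978050), (nat_lit 36, nat_lit 16258977987), (nat_lit 111, nat_lit 16242200835), (nat_lit 32, nat_lit 17332719810), (nat_lit 26, nat_lit 17315942658), (nat_lit 11, nat_lit 17315942595), (nat_lit 89, nat_lit 17299165443), (nat_lit 82, nat_lit 18389684418), (nat_lit 78, nat_lit 18372907266), (nat_lit 27, nat_lit 18372907203), (nat_lit 13, nat_lit 19446649026)]⟩],
  [W_15184707776, W_14110970048, W_14094450944]⟩
theorem C_15185236227 : chkRec R_15185236227 = true := by decide +kernel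

noncomputable def R_15185236290 : Rec := ⟨nat_lit 15185236290, nat_lit 5,
  [⟨V6_14077677888, [(nat_lit 77, nat_lit 15185236290), (nat_lit 29, nat_lit 16258978113), (nat_lit 59, nat_lit 16258715970), (nat_lit 123, nat_lit 16242200898), (nat_lit 30, nat_lit 17332719936), (nat_lit 52, nat_lit 17332457793), (nat_lit 39, nat_lit 17315942721), (nat_lit 65, nat_lit 17315680578), (nat_lit 117, nat_lit 17299165506), (nat_lit 26, nat_lit 18406199616), (nat_lit 4, nat_lit 18389684544), (nat_lit 94, nat_lit 18389422401), (nat_lit 60, nat_lit 18372907329), (nat_lit 5, nat_lit 18372645186), (nat_lit 42, nat_lit 19463164224), (nat_lit 29, nat_lit 19446649152), (nat_lit 30, nat_lit 19446387009), (nat_lit 25, nat_lit 20520128832)]⟩,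
   ⟨V6_13037228352, [(nat_lit 3, nat_lit 15185236290), (nat_lit 28, nat_lit 16258978113), (nat_lit 90, nat_lit 16258715970), (nat_lit 126, nat_lit 17332719936), (nat_lit 49, nat_lit 17332457793), (nat_lit 14, nat_lit 17332195650), (nat_lit 78, nat_lit 18406199616), (nat_lit 43, nat_lit 18405937473), (nat_lit 43, nat_lit 19479679296)]⟩,
   ⟨V6_13004198082, [(nat_lit 51, nat_lit 15185236290), (nat_lit 119, nat_lit 16258978050), (nat_lit 8, nat_lit 16242200898), (nat_lit 104, nat_lit 17332719810), (nat_lit 12, nat_lit 17315942658), (nat_lit 39, nat_lit 17299165506), (nat_lit 29, nat_lit 18389684418), (nat_lit 13, nat_lit 18372907266), (nat_lit 27, nat_lit 19446649026)]⟩],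
  [W_14111232128, W_9816527168]⟩
theorem C_15185236290 : chkRec R_15185236290 = true := by decide +kernel

noncomputable def R_15185240259 : Rec := ⟨nat_lit 15185240259, nat_lit 6,
  [⟨V6_14077944000, [(nat_lit 43, nat_lit 15185240259), (nat_lit 21, nat_lit 16258982082), (nat_lit 29, nat_lit 16242204867), (nat_lit 54, nat_lit 17332723905), (nat_lit 103, nat_lit 17315946690), (nat_lit 49, nat_lit 17299169475), (nat_lit 20, nat_lit 18406465728), (nat_lit 43, nat_lit 18389688513), (nat_lit 82, nat_lit 18372911298), (nat_lit 101, nat_lit 19463430336), (nat_lit 118, nat_lit 19446653121), (nat_lit 65, nat_lit 20520394944)]⟩],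
  [W_15184965824, W_15168450752, W_14111486144, W_10890272960]⟩
theorem C_15185240259 : chkRec R_15185240259 = true := by decide +kernel

noncomputable def R_15185240322 : Rec := ⟨nat_lit 15185240322, nat_lit 12,
  [⟨V6_14077944000, [(nat_lit 103, nat_lit 15185240322), (nat_lit 81, nat_lit 16258982145), (nat_lit 26, nat_lit 16258982082), (nat_lit 6, nat_lit 16242204930), (nat_lit 2, nat_lit 17332723968), (nat_lit 64, nat_lit 17332723905), (nat_lit 28, nat_lit 17315946753), (nat_lit 70, nat_lit 17315946690), (nat_lit 84, nat_lit 17299169538), (nat_lit 99, nat_lit 18406465728), (nat_lit 105, nat_lit 18389688576), (nat_lit 50, nat_lit 18389688513), (nat_lit 124, nat_lit 18372911361), (nat_lit 122, nat_lit 18372911298), (nat_lit 73, nat_lit 19463430336), (nat_lit 72, nat_lit 19446653184), (nat_lit 62, nat_lit 19446653121), (nat_lit 13, nat_lit 20520394944)]⟩,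
   ⟨V6_14077939842, [(nat_lit 123, nat_lit 15185240322), (nat_lit 122, nat_lit 16258982082), (nat_lit 88, nat_lit 16258978050), (nat_lit 63, nat_lit 16242204930), (nat_lit 121, nat_lit 17332723842), (nat_lit 92, nat_lit 17332719810), (nat_lit 80, nat_lit 17315946690), (nat_lit 112, nat_lit 17315942658), (nat_lit 93, nat_lit 17299169538), (nat_lit 6, nat_lit 18406461570), (nat_lit 21, nat_lit 18389688450), (nat_lit 33, nat_lit 18389684418), (nat_lit 50, nat_lit 18372911298), (nat_lit 55, nat_lit 18372907266), (nat_lit 121, nat_lit 19463426178), (nat_lit 98, nat_lit 19446653058), (nat_lit 22, nat_lit 19446649026), (nat_lit 4, nat_lit 20520390786)]⟩,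
   ⟨V6_14077681794, [(nat_lit 79, nat_lit 15185240322), (nat_lit 55, nat_lit 16258982082), (nat_lit 23, nat_lit 16258720002), (nat_lit 78, nat_lit 16242204930), (nat_lit 31, nat_lit 17332723842), (nat_lit 28, nat_lit 17332461762), (nat_lit 10, nat_lit 17315946690), (nat_lit 79, nat_lit 17315684610), (nat_lit 91, nat_lit 17299169538), (nat_lit 13, nat_lit 18406203522), (nat_lit 77, nat_lit 18389688450), (nat_lit 75, nat_lit 18389426370), (nat_lit 71, nat_lit 18372911298), (nat_lit 10, nat_lit 18372649218), (nat_lit 86, nat_lit 19463168130), (nat_lit 101, nat_lit 19446653058), (nat_lit 75, nat_lit 19446390978), (nat_lit 41, nat_lit 20520132738)]⟩,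
   ⟨V6_13004198082, [(nat_lit 36, nat_lit 15185240322), (nat_lit 11, nat_lit 16258982082), (nat_lit 80, nat_lit 16258978050), (nat_lit 115, nat_lit 16242204930), (nat_lit 91, nat_lit 17332719810), (nat_lit 46, nat_lit 17315946690), (nat_lit 71, nat_lit 17315942658), (nat_lit 87, nat_lit 17299169538), (nat_lit 51, nat_lit 18389684418), (nat_lit 26, nat_lit 18372911298), (nat_lit 69, nat_lit 18372907266), (nat_lit 44, nat_lit 19446649026)]⟩,
   ⟨V6_9799753986, [(nat_lit 73, nat_lit 15185240322), (nat_lit 44, nat_lit 16242204930)]⟩],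
  [W_15184969856, W_14094450944, W_13037494400, W_10890010880]⟩
theorem C_15185240322 : chkRec R_15185240322 = true := by decide +kernel

noncomputable def R_15185240385 : Rec := ⟨nat_lit 15185240385, nat_lit 14,
  [⟨V6_15151685697, [(nat_lit 60, nat_lit 15185240385), (nat_lit 100, nat_lit 16258982145), (nat_lit 82, nat_lit 16242204993), (nat_lit 22, nat_lit 17332723905), (nat_lit 106, nat_lit 17315946753), (nat_lit 9, nat_lit 17299169601), (nat_lit 14, nat_lit 18406465665), (nat_lit 124, nat_lit 18389688513), (nat_lit 111, nat_lit 18372911361), (nat_lit 90, nat_lit 19480207425), (nat_lit 62, nat_lit 19463430273), (nat_lit 40, nat_lit 19446653121), (nat_lit 15, nat_lit 20537172033), (nat_lit 107, nat_lit 20520394881), (nat_lit 12, nat_lit 21594136641)]⟩,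
   ⟨V6_15151681665, [(nat_lit 12, nat_lit 15185240385), (nat_lit 71, nat_lit 16258982145), (nat_lit 47, nat_lit 16258978113), (nat_lit 71, nat_lit 16242204993), (nat_lit 60, nat_lit 17332723905), (nat_lit 18, nat_lit 17332719873), (nat_lit 41, nat_lit 17315946753), (nat_lit 22, nat_lit 17315942721), (nat_lit 38, nat_lit 17299169601), (nat_lit 124, nat_lit 18406465665), (nat_lit 35, nat_lit 18406461633), (nat_lit 53, nat_lit 18389688513), (nat_lit 39, nat_lit 18389684481), (nat_lit 17, nat_lit 18372911361), (nat_lit 76, nat_lit 18372907329), (nat_lit 32, nat_lit 19480203393), (nat_lit 2, nat_lit 19463430273), (nat_lit 30, nat_lit 19463426241), (nat_lit 94, nat_lit 19446653121), (nat_lit 3, nat_lit 19446649089), (nat_lit 6, nat_lit 20537168001), (nat_lit 30, nat_lit 20520394881), (nat_lit 28, nat_lit 20520390849), (nat_lit 96, nat_lit 21594132609)]⟩,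
   ⟨V6_14077939905, [(nat_lit 47, nat_lit 15185240385), (nat_lit 106, nat_lit 16258982145), (nat_lit 80, nat_lit 16258978113), (nat_lit 26, nat_lit 16242204993), (nat_lit 49, nat_lit 17332723905), (nat_lit 28, nat_lit 17332719873), (nat_lit 79, nat_lit 17315946753), (nat_lit 47, nat_lit 17315942721), (nat_lit 79, nat_lit 17299169601), (nat_lit 117, nat_lit 18406461633), (nat_lit 15, nat_lit 18389688513), (nat_lit 109, nat_lit 18389684481), (nat_lit 49, nat_lit 18372911361), (nat_lit 11, nat_lit 18372907329), (nat_lit 48, nat_lit 19463426241), (nat_lit 10, nat_lit 19446653121), (nat_lit 45, nat_lit 19446649089), (nat_lit 68, nat_lit 20520390849)]⟩],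
  [W_15184973888, W_15168200768, W_10890010880, W_10873233728, W_9816527168]⟩
theorem C_15185240385 : chkRec R_15185240385 = true := by decide +kernel

noncomputable def R_15185240448 : Rec := ⟨nat_lit 15185240448, nat_lit 8,
  [⟨V6_14077944000, [(nat_lit 66, nat_lit 15185240448), (nat_lit 113, nat_lit 16258982208), (nat_lit 40, nat_lit 16242205056), (nat_lit 63, nat_lit 17332723968), (nat_lit 49, nat_lit 17315946816), (nat_lit 103, nat_lit 17299169664), (nat_lit 107, nat_lit 18406465728), (nat_lit 17, nat_lit 18389688576), (nat_lit 17, nat_lit 18372911424), (nat_lit 82, nat_lit 19463430336), (nat_lit 107, nat_lit 19446653184), (nat_lit 97, nat_lit 20520394944)]⟩,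
   ⟨V6_10873233792, [(nat_lit 73, nat_lit 15185240448), (nat_lit 18, nat_lit 16258720128), (nat_lit 75, nat_lit 16242205056), (nat_lit 83, nat_lit 17315684736)]⟩],
  [W_15168462848, W_15168200768]⟩
theorem C_15185240448 : chkRec R_15185240448 = true := by decide +kernel

noncomputable def R_15185244354 : Rec := ⟨nat_lit 15185244354, nat_lit 6,
  [⟨V6_14077948032, [(nat_lit 17, nat_lit 15185244354), (nat_lit 80, nat_lit 16258986177), (nat_lit 58, nat_lit 16258986114), (nat_lit 35, nat_lit 16242208962), (nat_lit 119, nat_lit 17332728000), (nat_lit 90, nat_lit 17332727937), (nat_lit 59, nat_lit 17315950785), (nat_lit 49, nat_lit 17315950722), (nat_lit 18, nat_lit 17299173570), (nat_lit 101, nat_lit 18406469760), (nat_lit 112, nat_lit 18389692608), (nat_lit 17, nat_lit 18389692545), (nat_lit 29, nat_lit 18372915393), (nat_lit 51, nat_lit 18372915330), (nat_lit 32, nat_lit 19463434368), (nat_lit 101, nat_lit 19446657216), (nat_lit 39, nat_lit 19446657153), (nat_lit 80, nat_lit 20520398976)]⟩,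
   ⟨V6_13004198082, [(nat_lit 56, nat_lit 15185244354), (nat_lit 17, nat_lit 16258982082), (nat_lit 31, nat_lit 16242208962), (nat_lit 120, nat_lit 17332719810), (nat_lit 56, nat_lit 17315946690), (nat_lit 50, nat_lit 17299173570), (nat_lit 98, nat_lit 18389684418), (nat_lit 118, nat_lit 18372911298), (nat_lit 34, nat_lit 19446649026)]⟩,
   ⟨V6_11947237506, [(nat_lit 19, nat_lit 15185244354), (nat_lit 83, nat_lit 16258986114), (nat_lit 48, nat_lit 16258982082), (nat_lit 28, nat_lit 16242208962), (nat_lit 58, nat_lit 17332723842), (nat_lit 56, nat_lit 17315950722), (nat_lit 30, nat_lit 17315946690), (nat_lit 126, nat_lit 18389688450)]⟩,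
   ⟨V6_10873499841, [(nat_lit 75, nat_lit 15185244354), (nat_lit 97, nat_lit 16258986177), (nat_lit 36, nat_lit 16242208962), (nat_lit 82, nat_lit 17315950785)]⟩],
  [W_15185227904, W_14111486144]⟩
theorem C_15185244354 : chkRec R_15185244354 = true := by decide +kernel

noncomputable def R_15185244417 : Rec := ⟨nat_lit 15185244417, nat_lit 8,
  [⟨V6_15151685697, [(nat_lit 65, nat_lit 15185244417), (nat_lit 104, nat_lit 16258986177), (nat_lit 32, nat_lit 16258982145), (nat_lit 33, nat_lit 16242209025), (nat_lit 24, nat_lit 17332727937), (nat_lit 58, nat_lit 17332723905), (nat_lit 125, nat_lit 17315950785), (nat_lit 99, nat_lit 17315946753), (nat_lit 36, nat_lit 17299173633), (nat_lit 117, nat_lit 18406469697), (nat_lit 75, nat_lit 18406465665), (nat_lit 75, nat_lit 18389692545), (nat_lit 19, nat_lit 18389688513), (nat_lit 119, nat_lit 18372915393), (nat_lit 58, nat_lit 18372911361), (nat_lit 113, nat_lit 19480207425), (nat_lit 98, nat_lit 19463434305), (nat_lit 123, nat_lit 19463430273), (nat_lit 81, nat_lit 19446657153), (nat_lit 22,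 nat_lit 19446653121), (nat_lit 82, nat_lit 20537172033), (nat_lit 73, nat_lit 20520398913), (nat_lit 18, nat_lit 20520394881), (nat_lit 82, nat_lit 21594136641)]⟩,
   ⟨V6_13020983361, [(nat_lit 63, nat_lit 15185244417), (nat_lit 109, nat_lit 16258986177), (nat_lit 14, nat_lit 16242209025), (nat_lit 13, nat_lit 17332727937), (nat_lit 4, nat_lit 17315950785), (nat_lit 70, nat_lit 18406469697), (nat_lit 32, nat_lit 18389692545), (nat_lit 88, nat_lit 19463434305)]⟩],
  [W_15185231936, W_13020971264, W_11964018752]⟩
theorem C_15185244417 : chkRec R_15185244417 = true := by decide +kernel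

noncomputable def R_15185244480 : Rec := ⟨nat_lit 15185244480, nat_lit 8,
  [⟨V6_14111502336, [(nat_lit 102, nat_lit 15185244480), (nat_lit 89, nat_lit 16258986240), (nat_lit 32, nat_lit 17332728000), (nat_lit 99, nat_lit 18406469760), (nat_lit 102, nat_lit 19480211520), (nat_lit 75, nat_lit 20553953280)]⟩],
  [W_15168458816, W_11947237568, W_11947233536, W_10890272960, W_9816527168]⟩
theorem C_15185244480 : chkRec R_15185244480 = true := by decide +kernel

noncomputable def R_15185494275 : Rec := ⟨nat_lit 15185494275, nat_lit 4,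
  [⟨V6_11947491522, [(nat_lit 68, nat_lit 15185494275), (nat_lit 2, nat_lit 16259236098), (nat_lit 106, nat_lit 16259236035), (nat_lit 61, nat_lit 16242458883), (nat_lit 44, nat_lit 17332977858), (nat_lit 8, nat_lit 17316200706), (nat_lit 73, nat_lit 17316200643), (nat_lit 78, nat_lit 18389942466)]⟩,
   ⟨V6_10890526977, [(nat_lit 42, nat_lit 15185494275), (nat_lit 120, nat_lit 16259236098), (nat_lit 126, nat_lit 17332977921)]⟩],
  [W_15184445696, W_15167930624, W_14094450944]⟩
theorem C_15185494275 : chkRec R_15185494275 = true := by decide +kernel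

noncomputable def R_15185498307 : Rec := ⟨nat_lit 15185498307, nat_lit 5,
  [⟨V6_13037482179, [(nat_lit 90, nat_lit 15185498307), (nat_lit 48, nat_lit 16259236035), (nat_lit 74, nat_lit 16258977987), (nat_lit 54, nat_lit 17332973763), (nat_lit 50, nat_lit 17332715715), (nat_lit 105, nat_lit 17332457667), (nat_lit 7, nat_lit 18406453443), (nat_lit 118, nat_lit 18406195395), (nat_lit 84, nat_lit 19479933123)]⟩,
   ⟨V6_11947491522, [(nat_lit 64, nat_lit 15185498307), (nat_lit 85, nat_lit 16259240130), (nat_lit 32, nat_lit 16259236035), (nat_lit 41, nat_lit 16242462915), (nat_lit 3, nat_lit 17332977858), (nat_lit 108, nat_lit 17316204738), (nat_lit 61, nat_lit 17316200643), (nat_lit 89, nat_lit 18389942466)]⟩,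
   ⟨V6_10873753794, [(nat_lit 85, nat_lit 15185498307), (nat_lit 73, nat_lit 16259240130), (nat_lit 64, nat_lit 16242462915), (nat_lit 126, nat_lit 17316204738)]⟩,
   ⟨V6_9816785091, [(nat_lit 49, nat_lit 15185498307), (nat_lit 42, nat_lit 16259236035)]⟩],
  [W_15184707776, W_14111486144]⟩
theorem C_15185498307 : chkRec R_15185498307 = true := by decide +kernel

noncomputable def R_15185498370 : Rec := ⟨nat_lit 15185498370, nat_lit 13,
  [⟨V6_11947495680, [(nat_lit 79, nat_lit 15185498370), (nat_lit 14, nat_lit 16259240193), (nat_lit 54, nat_lit 16242462978), (nat_lit 20, nat_lit 17332982016), (nat_lit 50, nat_lit 17316204801), (nat_lit 26, nat_lit 18389946624)]⟩,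
   ⟨V6_11947495554, [(nat_lit 122, nat_lit 15185498370), (nat_lit 17, nat_lit 16259240130), (nat_lit 107, nat_lit 16242462978), (nat_lit 79, nat_lit 17332981890), (nat_lit 59, nat_lit 17316204738), (nat_lit 42, nat_lit 18389946498)]⟩,
   ⟨V6_10873753857, [(nat_lit 26, nat_lit 15185498370), (nat_lit 15, nat_lit 16259240193), (nat_lit 109, nat_lit 16242462978), (nat_lit 86, nat_lit 17316204801)]⟩,
   ⟨V6_10873753794, [(nat_lit 68, nat_lit 15185498370), (nat_lit 45, nat_lit 16259240130), (nat_lit 87, nat_lit 16242462978), (nat_lit 19, nat_lit 17316204738)]⟩],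
  [W_15184969856, W_15184711808, W_15184707776, W_14111232128]⟩
theorem C_15185498370 : chkRec R_15185498370 = true := by decide +kernel

noncomputable def R_15185498433 : Rec := ⟨nat_lit 15185498433, nat_lit 10,
  [⟨V6_14094979137, [(nat_lit 113, nat_lit 15185498433), (nat_lit 23, nat_lit 16259240193), (nat_lit 52, nat_lit 16242463041), (nat_lit 4, nat_lit 17332981953), (nat_lit 98, nat_lit 17316204801), (nat_lit 92, nat_lit 18406723713), (nat_lit 121, nat_lit 18389946561), (nat_lit 105, nat_lit 19480465473), (nat_lit 73, nat_lit 19463688321), (nat_lit 2, nat_lit 20537430081)]⟩,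
   ⟨V6_10873753857, [(nat_lit 70, nat_lit 15185498433), (nat_lit 34, nat_lit 16259240193), (nat_lit 86, nat_lit 16242463041), (nat_lit 31, nat_lit 17316204801)]⟩],
  [W_15184973888, W_14094454976, W_9816527168]⟩
theorem C_15185498433 : chkRec R_15185498433 = true := by decide +kernel

noncomputable def R_15185502402 : Rec := ⟨nat_lit 15185502402, nat_lit 17,
  [⟨V6_14094975168, [(nat_lit 52, nat_lit 15185502402), (nat_lit 59, nat_lit 16259244225), (nat_lit 91, nat_lit 16259240130), (nat_lit 54, nat_lit 16242467010), (nat_lit 57, nat_lit 17332986048), (nat_lit 30, nat_lit 17332981953), (nat_lit 8, nat_lit 17332977858), (nat_lit 26, nat_lit 17316208833), (nat_lit 27, nat_lit 17316204738), (nat_lit 46, nat_lit 18406723776), (nat_lit 113, nat_lit 18406719681), (nat_lit 84, nat_lit 18389950656), (nat_lit 17, nat_lit 18389946561), (nat_lit 41, nat_lit 18389942466), (nat_lit 110, nat_lit 19480461504), (nat_lit 6, nat_lit 19463688384), (nat_lit 2, nat_lit 19463684289), (nat_lit 40, nat_lit 20537426112)]⟩,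
   ⟨V6_10873753794, [(nat_lit 83, nat_lit 15185502402), (nat_lit 29, nat_lit 16259240130), (nat_lit 55, nat_lit 16242467010), (nat_lit 35, nat_lit 17316204738)]⟩],
  [W_15184969856, W_14111748224, W_14111486144, W_13037494400]⟩
theorem C_15185502402 : chkRec R_15185502402 = true := by decide +kernel

noncomputable def R_15185502465 : Rec := ⟨nat_lit 15185502465, nat_lit 28,
  [⟨V6_13021233408, [(nat_lit 75, nat_lit 15185502465), (nat_lit 57, nat_lit 16259244288), (nat_lit 6, nat_lit 16259240193), (nat_lit 62, nat_lit 16242467073), (nat_lit 98, nat_lit 17332982016), (nat_lit 58, nat_lit 17332977921), (nat_lit 38, nat_lit 17316208896), (nat_lit 111, nat_lit 17316204801), (nat_lit 60, nat_lit 18406719744), (nat_lit 61, nat_lit 18389946624), (nat_lit 55, nat_lit 18389942529), (nat_lit 61, nat_lit 19463684352)]⟩,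
   ⟨V6_11947495680, [(nat_lit 92, nat_lit 15185502465), (nat_lit 5, nat_lit 16259244288), (nat_lit 106, nat_lit 16259240193), (nat_lit 83, nat_lit 16242467073), (nat_lit 11, nat_lit 17332982016), (nat_lit 111, nat_lit 17316208896), (nat_lit 36, nat_lit 17316204801), (nat_lit 48, nat_lit 18389946624)]⟩,
   ⟨V6_11947491585, [(nat_lit 63, nat_lit 15185502465), (nat_lit 9, nat_lit 16259240193), (nat_lit 13, nat_lit 16242467073), (nat_lit 78, nat_lit 17332977921), (nat_lit 42, nat_lit 17316204801), (nat_lit 95, nat_lit 18389942529)]⟩,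
   ⟨V6_10873757952, [(nat_lit 92, nat_lit 15185502465), (nat_lit 76, nat_lit 16259244288), (nat_lit 32, nat_lit 16242467073), (nat_lit 6, nat_lit 17316208896)]⟩,
   ⟨V6_10873753857, [(nat_lit 21, nat_lit 15185502465), (nat_lit 41, nat_lit 16259240193), (nat_lit 69, nat_lit 16242467073), (nat_lit 67, nat_lit 17316204801)]⟩],
  [W_15185231936, W_15184973888, W_15168716864, W_15168200768, W_14111236160, W_14094450944, W_13037494400]⟩
theorem C_15185502465 : chkRec R_15185502465 = true := by decide +kernel

noncomputable def R_15185502528 : Rec := ⟨nat_lit 15185502528, nat_lit 26,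
  [⟨V6_15168724992, [(nat_lit 110, nat_lit 15185502528), (nat_lit 21, nat_lit 16259244288), (nat_lit 82, nat_lit 16242467136), (nat_lit 80, nat_lit 17332986048), (nat_lit 32, nat_lit 17316208896), (nat_lit 18, nat_lit 18406727808), (nat_lit 120, nat_lit 18389950656), (nat_lit 88, nat_lit 19480469568), (nat_lit 121, nat_lit 19463692416), (nat_lit 126, nat_lit 20554211328), (nat_lit 8, nat_lit 20537434176), (nat_lit 56, nat_lit 21611175936)]⟩,
   ⟨V6_10873757952, [(nat_lit 115, nat_lit 15185502528), (nat_lit 74, nat_lit 16259244288), (nat_lit 105, nat_lit 16242467136), (nat_lit 60, nat_lit 17316208896)]⟩],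
  [W_15184973888, W_15168200768, W_14111494208, W_14111236160, W_14111232128]⟩
theorem C_15185502528 : chkRec R_15185502528 = true := by decide +kernel

noncomputable def R_15185506434 : Rec := ⟨nat_lit 15185506434, nat_lit 8,
  [⟨V6_15168708738, [(nat_lit 12, nat_lit 15185506434), (nat_lit 63, nat_lit 16259244162), (nat_lit 122, nat_lit 16242471042), (nat_lit 60, nat_lit 17332981890), (nat_lit 99, nat_lit 17316208770), (nat_lit 32, nat_lit 18406719618), (nat_lit 71, nat_lit 18389946498), (nat_lit 8, nat_lit 19480457346), (nat_lit 15, nat_lit 19463684226), (nat_lit 124, nat_lit 20554195074), (nat_lit 109, nat_lit 20537421954), (nat_lit 25, nat_lit 21611159682)]⟩,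
   ⟨V6_14111744130, [(nat_lit 107, nat_lit 15185506434), (nat_lit 1, nat_lit 16259244162), (nat_lit 83, nat_lit 17332981890), (nat_lit 47, nat_lit 18406719618), (nat_lit 125, nat_lit 19480457346), (nat_lit 63, nat_lit 20554195074)]⟩,
   ⟨V6_11947495554, [(nat_lit 99, nat_lit 15185506434), (nat_lit 96, nat_lit 16259244162), (nat_lit 18, nat_lit 16242471042), (nat_lit 76, nat_lit 17332981890), (nat_lit 14, nat_lit 17316208770), (nat_lit 109, nat_lit 18389946498)]⟩],
  [W_15168712832, W_15168454784, W_10873761920]⟩
theorem C_15185506434 : chkRec R_15185506434 = true := by decide +kernel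

noncomputable def R_15185506497 : Rec := ⟨nat_lit 15185506497, nat_lit 21,
  [⟨V6_15168712896, [(nat_lit 45, nat_lit 15185506497), (nat_lit 59, nat_lit 16259248320), (nat_lit 38, nat_lit 16259244225), (nat_lit 116, nat_lit 16242471105), (nat_lit 80, nat_lit 17332986048), (nat_lit 101, nat_lit 17332981953), (nat_lit 48, nat_lit 17316212928), (nat_lit 36, nat_lit 17316208833), (nat_lit 109, nat_lit 18406723776), (nat_lit 72, nat_lit 18406719681), (nat_lit 7, nat_lit 18389950656), (nat_lit 98, nat_lit 18389946561), (nat_lit 99, nat_lit 19480461504), (nat_lit 87, nat_lit 19480457409), (nat_lit 44, nat_lit 19463688384), (nat_lit 96, nat_lit 19463684289), (nat_lit 75, nat_lit 20554199232), (nat_lit 45, nat_lit 20537426112), (nat_lit 2, nat_lit 20537422017), (nat_lit 125, nat_lit 21611163840)]⟩,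
   ⟨V6_14094979137, [(nat_lit 46, nat_lit 15185506497), (nat_lit 101, nat_lit 16259248257), (nat_lit 108, nat_lit 16259244225), (nat_lit 97, nat_lit 16242471105), (nat_lit 104, nat_lit 17332990017), (nat_lit 22, nat_lit 17332985985), (nat_lit 73, nat_lit 17332981953), (nat_lit 22, nat_lit 17316212865), (nat_lit 85, nat_lit 17316208833), (nat_lit 51, nat_lit 18406727745), (nat_lit 56, nat_lit 18406723713), (nat_lit 24, nat_lit 18389954625), (nat_lit 85, nat_lit 18389950593), (nat_lit 6, nat_lit 18389946561), (nat_lit 14, nat_lit 19480465473), (nat_lit 36, nat_lit 19463692353), (nat_lit 108, nat_lit 19463688321), (nat_lit 85, nat_lit 20537430081)]⟩,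
   ⟨V6_13021241409, [(nat_lit 68, nat_lit 15185506497), (nat_lit 71, nat_lit 16259248257), (nat_lit 82, nat_lit 16259244225), (nat_lit 114, nat_lit 16242471105), (nat_lit 92, nat_lit 17332990017), (nat_lit 33, nat_lit 17332985985), (nat_lit 113, nat_lit 17316212865), (nat_lit 54, nat_lit 17316208833), (nat_lit 121, nat_lit 18406727745), (nat_lit 63, nat_lit 18389954625), (nat_lit 85, nat_lit 18389950593), (nat_lit 42, nat_lit 19463692353)]⟩,
   ⟨V6_10890539073, [(nat_lit 44, nat_lit 15185506497), (nat_lit 3, nat_lit 16259248257), (nat_lit 111, nat_lit 17332990017)]⟩,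
   ⟨V6_10873761984, [(nat_lit 4, nat_lit 15185506497), (nat_lit 53, nat_lit 16259248320), (nat_lit 29, nat_lit 16242471105), (nat_lit 61, nat_lit 17316212928)]⟩,
   ⟨V6_10873499841, [(nat_lit 14, nat_lit 15185506497), (nat_lit 11, nat_lit 16258986177), (nat_lit 121, nat_lit 16242471105), (nat_lit 30, nat_lit 17315950785)]⟩],
  [W_15185489984, W_15185231936, W_15168450752, W_14111486144, W_14094721088, W_11964018752]⟩
theorem C_15185506497 : chkRec R_15185506497 = true := by decide +kernel

noncomputable def R_15185506560 : Rec := ⟨nat_lit 15185506560, nat_lit 27,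
  [⟨V6_14094725184, [(nat_lit 125, nat_lit 15185506560), (nat_lit 62, nat_lit 16259248320), (nat_lit 107, nat_lit 16258986240), (nat_lit 105, nat_lit 16242471168), (nat_lit 1, nat_lit 17332990080), (nat_lit 39, nat_lit 17332728000), (nat_lit 80, nat_lit 17316212928), (nat_lit 3, nat_lit 17315950848), (nat_lit 60, nat_lit 18406731840), (nat_lit 74, nat_lit 18406469760), (nat_lit 73, nat_lit 18389954688), (nat_lit 63, nat_lit 18389692608), (nat_lit 5, nat_lit 19480211520), (nat_lit 87, nat_lit 19463696448), (nat_lit 6, nat_lit 19463434368), (nat_lit 52, nat_lit 20537176128)]⟩,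
   ⟨V6_13021233408, [(nat_lit 112, nat_lit 15185506560), (nat_lit 13, nat_lit 16259244288), (nat_lit 15, nat_lit 16242471168), (nat_lit 43, nat_lit 17332982016), (nat_lit 20, nat_lit 17316208896), (nat_lit 44, nat_lit 18406719744), (nat_lit 51, nat_lit 18389946624), (nat_lit 113, nat_lit 19463684352)]⟩,
   ⟨V6_11947495680, [(nat_lit 77, nat_lit 15185506560), (nat_lit 117, nat_lit 16259244288), (nat_lit 14, nat_lit 16242471168), (nat_lit 45, nat_lit 17332982016), (nat_lit 25, nat_lit 17316208896), (nat_lit 113, nat_lit 18389946624)]⟩,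
   ⟨V6_10873757952, [(nat_lit 47, nat_lit 15185506560), (nat_lit 102, nat_lit 16259244288), (nat_lit 83, nat_lit 16242471168), (nat_lit 70, nat_lit 17316208896)]⟩],
  [W_15185494016, W_15185231936, W_15168716864, W_14094983168, W_13021245440, W_11964280832]⟩
theorem C_15185506560 : chkRec R_15185506560 = true := by decide +kernel

noncomputable def R_15185510529 : Rec := ⟨nat_lit 15185510529, nat_lit 11,
  [⟨V6_14094979137, [(nat_lit 77, nat_lit 15185510529), (nat_lit 107, nat_lit 16259252289), (nat_lit 37, nat_lit 16259248257), (nat_lit 6, nat_lit 16242475137), (nat_lit 122, nat_lit 17332990017), (nat_lit 50, nat_lit 17332985985), (nat_lit 64, nat_lit 17316216897), (nat_lit 82, nat_lit 17316212865), (nat_lit 21, nat_lit 18406727745), (nat_lit 29, nat_lit 18406723713), (nat_lit 18, nat_lit 18389954625), (nat_lit 69, nat_lit 18389950593), (nat_lit 100, nat_lit 19480465473), (nat_lit 87, nat_lit 19463692353), (nat_lit 2, nat_lit 19463688321), (nat_lit 108, nat_lit 20537430081)]⟩,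
   ⟨V6_13021241409, [(nat_lit 1, nat_lit 15185510529), (nat_lit 119, nat_lit 16259252289), (nat_lit 109, nat_lit 16259248257), (nat_lit 5, nat_lit 16242475137), (nat_lit 20, nat_lit 17332990017), (nat_lit 75, nat_lit 17332985985), (nat_lit 34, nat_lit 17316216897), (nat_lit 121, nat_lit 17316212865), (nat_lit 5, nat_lit 18406727745), (nat_lit 79, nat_lit 18389954625), (nat_lit 69, nat_lit 18389950593), (nat_lit 38, nat_lit 19463692353)]⟩],
  [W_15185489984, W_15185485952, W_10873765952]⟩
theorem C_15185510529 : chkRec R_15185510529 = true := by decide +kernel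

noncomputable def R_15185510592 : Rec := ⟨nat_lit 15185510592, nat_lit 18,
  [⟨V6_14094975168, [(nat_lit 121, nat_lit 15185510592), (nat_lit 89, nat_lit 16259248320), (nat_lit 10, nat_lit 16242475200), (nat_lit 9, nat_lit 17332986048), (nat_lit 103, nat_lit 17316212928), (nat_lit 123, nat_lit 18406723776), (nat_lit 109, nat_lit 18389950656), (nat_lit 87, nat_lit 19480461504), (nat_lit 93, nat_lit 19463688384), (nat_lit 122, nat_lit 20537426112)]⟩,
   ⟨V6_13021249536, [(nat_lit 13, nat_lit 15185510592), (nat_lit 120, nat_lit 16259252352), (nat_lit 105, nat_lit 16242475200), (nat_lit 53, nat_lit 17332994112), (nat_lit 107, nat_lit 17316216960), (nat_lit 70, nat_lit 18406735872), (nat_lit 89, nat_lit 18389958720), (nat_lit 72, nat_lit 19463700480)]⟩],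
  [W_15185494016, W_15185489984, W_13021245440, W_11964280832]⟩
theorem C_15185510592 : chkRec R_15185510592 = true := by decide +kernel

noncomputable def R_15185756355 : Rec := ⟨nat_lit 15185756355, nat_lit 3,
  [⟨V6_13038268608, [(nat_lit 85, nat_lit 15185756355), (nat_lit 114, nat_lit 16259498178), (nat_lit 66, nat_lit 16259494083), (nat_lit 24, nat_lit 17333240001), (nat_lit 57, nat_lit 17333235906), (nat_lit 16, nat_lit 18406981824), (nat_lit 89, nat_lit 18406977729), (nat_lit 23, nat_lit 19480719552)]⟩],
  [W_14111486144]⟩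
theorem C_15185756355 : chkRec R_15185756355 = true := by decide +kernel

noncomputable def R_15185756418 : Rec := ⟨nat_lit 15185756418, nat_lit 2,
  [⟨V6_10890526977, [(nat_lit 87, nat_lit 15185756418), (nat_lit 26, nat_lit 16259498241), (nat_lit 80, nat_lit 16259236098), (nat_lit 95, nat_lit 17332977921)]⟩],
  [W_15184707776]⟩
theorem C_15185756418 : chkRec R_15185756418 = true := by decide +kernel

noncomputable def R_15185760450 : Rec := ⟨nat_lit 15185760450, nat_lit 10,
  [⟨V6_13038268608, [(nat_lit 108, nat_lit 15185760450), (nat_lit 19, nat_lit 16259502273), (nat_lit 80, nat_lit 16259498178), (nat_lit 37, nat_lit 17333244096), (nat_lit 86, nat_lit 17333240001), (nat_lit 98, nat_lit 17333235906), (nat_lit 110, nat_lit 18406981824), (nat_lit 4, nat_lit 18406977729), (nat_lit 58, nat_lit 19480719552)]⟩,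
   ⟨V6_9817051329, [(nat_lit 78, nat_lit 15185760450), (nat_lit 75, nat_lit 16259502273)]⟩],
  [W_15184969856, W_14111232128, W_14110970048]⟩
theorem C_15185760450 : chkRec R_15185760450 = true := by decide +kernel

noncomputable def R_15185760513 : Rec := ⟨nat_lit 15185760513, nat_lit 11,
  [⟨V6_15184707840, [(nat_lit 41, nat_lit 15185760513), (nat_lit 11, nat_lit 16259502336), (nat_lit 83, nat_lit 16259498241), (nat_lit 80, nat_lit 16259240193), (nat_lit 123, nat_lit 17333240064), (nat_lit 33, nat_lit 17332982016), (nat_lit 83, nat_lit 17332977921), (nat_lit 65, nat_lit 17332719873), (nat_lit 51, nat_lit 18406719744), (nat_lit 80, nat_lit 18406461696), (nat_lit 55, nat_lit 18406457601), (nat_lit 41, nat_lit 18406199553), (nat_lit 78, nat_lit 19480199424), (nat_lit 55, nat_lit 19479941376), (nat_lit 72, nat_lit 19479937281), (nat_lit 77, nat_lit 19479679233), (nat_lit 102, nat_lit 20553679104), (nat_lit 33, nat_lit 20553421056), (nat_lit 44, nat_lit 20553416961), (nat_lit 107, nat_lit 21627158784)]⟩,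
   ⟨V6_10890526977, [(nat_lit 64, nat_lit 15185760513), (nat_lit 74, nat_lit 16259498241), (nat_lit 22, nat_lit 16259240193), (nat_lit 5, nat_lit 17332977921)]⟩,
   ⟨V6_9817051329, [(nat_lit 57, nat_lit 15185760513), (nat_lit 42, nat_lit 16259502273)]⟩],
  [W_15185231936, W_15184973888, W_13038272576, W_11964534848]⟩
theorem C_15185760513 : chkRec R_15185760513 = true := by decide +kernel

noncomputable def R_15185760576 : Rec := ⟨nat_lit 15185760576, nat_lit 10,
  [⟨V6_14112018432, [(nat_lit 3, nat_lit 15185760576), (nat_lit 96, nat_lit 16259502336), (nat_lit 113, nat_lit 17333244096), (nat_lit 44, nat_lit 18406985856), (nat_lit 3, nat_lit 19480727616), (nat_lit 118, nat_lit 20554469376)]⟩,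
   ⟨V6_13037228352, [(nat_lit 119, nat_lit 15185760576), (nat_lit 20, nat_lit 16259240256), (nat_lit 107, nat_lit 17332719936), (nat_lit 94, nat_lit 18406199616), (nat_lit 6, nat_lit 19479679296)]⟩],
  [W_15184973888, W_14110970048, W_11963748608, W_10890531008, W_9816527168]⟩
theorem C_15185760576 : chkRec R_15185760576 = true := by decide +kernel

noncomputable def R_15185764482 : Rec := ⟨nat_lit 15185764482, nat_lit 5,
  [⟨V6_14112006273, [(nat_lit 107, nat_lit 15185764482), (nat_lit 100, nat_lit 16259506305), (nat_lit 106, nat_lit 16259502210), (nat_lit 108, nat_lit 17333244033), (nat_lit 116, nat_lit 17333239938), (nat_lit 68, nat_lit 18406981761), (nat_lit 26, nat_lit 18406977666), (nat_lit 51, nat_lit 19480719489), (nat_lit 32, nat_lit 19480715394), (nat_lit 12, nat_lit 20554457217)]⟩,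
   ⟨V6_14111744130, [(nat_lit 15, nat_lit 15185764482), (nat_lit 26, nat_lit 16259502210), (nat_lit 41, nat_lit 16259244162), (nat_lit 126, nat_lit 17333239938), (nat_lit 60, nat_lit 17332981890), (nat_lit 67, nat_lit 18406977666), (nat_lit 44, nat_lit 18406719618), (nat_lit 120, nat_lit 19480715394), (nat_lit 121, nat_lit 19480457346), (nat_lit 44, nat_lit 20554195074)]⟩],
  [W_13038268544, W_13037494400, W_11964014720, W_10890535040]⟩
theorem C_15185764482 : chkRec R_15185764482 = true := by decide +kernel

noncomputable def R_15185764545 : Rec := ⟨nat_lit 15185764545, nat_lit 19,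
  [⟨V6_15185752128, [(nat_lit 48, nat_lit 15185764545), (nat_lit 62, nat_lit 16259506368), (nat_lit 97, nat_lit 16259506305), (nat_lit 64, nat_lit 16259502273), (nat_lit 8, nat_lit 17333248128), (nat_lit 1, nat_lit 17333248065), (nat_lit 35, nat_lit 17333244096), (nat_lit 42, nat_lit 17333244033), (nat_lit 74, nat_lit 17333240001), (nat_lit 121, nat_lit 18406989888), (nat_lit 69, nat_lit 18406985856), (nat_lit 25, nat_lit 18406985793), (nat_lit 121, nat_lit 18406981824), (nat_lit 8, nat_lit 18406981761), (nat_lit 43, nat_lit 18406977729), (nat_lit 85, nat_lit 19480727616), (nat_lit 13, nat_lit 19480723584), (nat_lit 122, nat_lit 19480723521), (nat_lit 50, nat_lit 19480719552), (nat_lit 84, nat_lit 19480719489), (nat_lit 95, nat_lit 20554465344), (nat_lit 39, nat_lit 20554461312), (nat_lit 60, nat_lit 20554461249), (nat_lit 19, nat_lit 21628203072)]⟩],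
  [W_15184973888, W_14111236160, W_13037494400, W_11964010688, W_10890535040, W_10890531008, W_10890272960]⟩
theorem C_15185764545 : chkRec R_15185764545 = true := by decide +kernel

noncomputable def R_15185764608 : Rec := ⟨nat_lit 15185764608, nat_lit 19,
  [⟨V6_15185756160, [(nat_lit 20, nat_lit 15185764608), (nat_lit 88, nat_lit 16259506368), (nat_lit 112, nat_lit 16259502336), (nat_lit 81, nat_lit 17333248128), (nat_lit 21, nat_lit 17333244096), (nat_lit 11, nat_lit 17333240064), (nat_lit 98, nat_lit 18406989888), (nat_lit 16, nat_lit 18406985856), (nat_lit 98, nat_lit 18406981824), (nat_lit 81, nat_lit 19480731648), (nat_lit 51, nat_lit 19480727616), (nat_lit 84, nat_lit 19480723584), (nat_lit 126, nat_lit 20554469376), (nat_lit 57, nat_lit 20554465344), (nat_lit 100, nat_lit 21628207104)]⟩,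
   ⟨V6_13038280704, [(nat_lit 84, nat_lit 15185764608), (nat_lit 36, nat_lit 16259506368), (nat_lit 99, nat_lit 17333248128), (nat_lit 110, nat_lit 18406989888), (nat_lit 30, nat_lit 19480731648)]⟩],
  [W_15184969856, W_14111236160, W_14111232128, W_13037494400, W_11963748608, W_10890531008]⟩
theorem C_15185764608 : chkRec R_15185764608 = true := by decide +kernel

noncomputable def R_15185768577 : Rec := ⟨nat_lit 15185768577, nat_lit 11,
  [⟨V6_15185748033, [(nat_lit 70, nat_lit 15185768577), (nat_lit 121, nat_lit 16259510337), (nat_lit 106, nat_lit 16259506305), (nat_lit 102, nat_lit 17333248065), (nat_lit 97, nat_lit 17333244033), (nat_lit 52, nat_lit 18406985793), (nat_lit 103, nat_lit 18406981761), (nat_lit 63, nat_lit 19480723521), (nat_lit 33, nat_lit 19480719489), (nat_lit 99, nat_lit 20554461249), (nat_lit 6, nat_lit 20554457217), (nat_lit 24, nat_lit 21628198977)]⟩,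
   ⟨V6_14112006273, [(nat_lit 35, nat_lit 15185768577), (nat_lit 30, nat_lit 16259506305), (nat_lit 77, nat_lit 17333244033), (nat_lit 13, nat_lit 18406981761), (nat_lit 67, nat_lit 19480719489), (nat_lit 112, nat_lit 20554457217)]⟩],
  [W_15185231936, W_11964534848, W_11964018752, W_11964014720, W_10890535040]⟩
theorem C_15185768577 : chkRec R_15185768577 = true := by decide +kernel

noncomputable def R_15185768640 : Rec := ⟨nat_lit 15185768640, nat_lit 20,
  [⟨V6_15185756160, [(nat_lit 117, nat_lit 15185768640), (nat_lit 43, nat_lit 16259510400), (nat_lit 9, nat_lit 16259506368), (nat_lit 47, nat_lit 17333252160), (nat_lit 47, nat_lit 17333248128), (nat_lit 57, nat_lit 17333244096), (nat_lit 7, nat_lit 18406993920), (nat_lit 59, nat_lit 18406989888), (nat_lit 24, nat_lit 18406985856), (nat_lit 4, nat_lit 18406981824), (nat_lit 7, nat_lit 19480731648), (nat_lit 53, nat_lit 19480727616), (nat_lit 42, nat_lit 19480723584), (nat_lit 93, nat_lit 20554469376), (nat_lit 82, nat_lit 20554465344), (nat_lit 75, nat_lit 21628207104)]⟩,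
   ⟨V6_13038280704, [(nat_lit 103, nat_lit 15185768640), (nat_lit 123, nat_lit 16259510400), (nat_lit 21, nat_lit 16259506368), (nat_lit 65, nat_lit 17333252160), (nat_lit 1, nat_lit 17333248128), (nat_lit 45, nat_lit 18406993920), (nat_lit 74, nat_lit 18406989888), (nat_lit 12, nat_lit 19480731648)]⟩],
  [W_15185489984, W_15185231936, W_14111486144, W_11964526784, W_11964018752, W_10890531008]⟩
theorem C_15185768640 : chkRec R_15185768640 = true := by decide +kernel

noncomputable def R_15185772609 : Rec := ⟨nat_lit 15185772609, nat_lit 5,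
  [⟨V6_15185748033, [(nat_lit 77, nat_lit 15185772609), (nat_lit 16, nat_lit 16259510337), (nat_lit 56, nat_lit 17333248065), (nat_lit 115, nat_lit 18406985793), (nat_lit 106, nat_lit 19480723521), (nat_lit 84, nat_lit 20554461249), (nat_lit 97, nat_lit 21628198977)]⟩],
  [W_15185489984]⟩
theorem C_15185772609 : chkRec R_15185772609 = true := by decide +kernel

noncomputable def R_15185772672 : Rec := ⟨nat_lit 15185772672, nat_lit 10,
  [⟨V6_15185748096, [(nat_lit 95, nat_lit 15185772672), (nat_lit 122, nat_lit 16259510400), (nat_lit 46, nat_lit 17333248128), (nat_lit 99, nat_lit 18406985856), (nat_lit 78, nat_lit 19480723584), (nat_lit 69, nat_lit 20554461312), (nat_lit 57, nat_lit 21628199040)]⟩,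
   ⟨V6_13038280704, [(nat_lit 37, nat_lit 15185772672), (nat_lit 76, nat_lit 16259514432), (nat_lit 35, nat_lit 16259510400), (nat_lit 8, nat_lit 17333256192), (nat_lit 108, nat_lit 17333252160), (nat_lit 60, nat_lit 17333248128), (nat_lit 2, nat_lit 18406993920), (nat_lit 23, nat_lit 18406989888), (nat_lit 29, nat_lit 19480731648)]⟩],
  [W_15185494016, W_11964534848, W_11964280832]⟩
theorem C_15185772672 : chkRec R_15185772672 = true := by decide +kernel

noncomputable def R_15185776704 : Rec := ⟨nat_lit 15185776704, nat_lit 1,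
  [⟨V6_10890801216, [(nat_lit 94, nat_lit 15185776704), (nat_lit 114, nat_lit 16259514432), (nat_lit 35, nat_lit 17333252160)]⟩],
  [W_15185748032]⟩
theorem C_15185776704 : chkRec R_15185776704 = true := by decide +kernel

noncomputable def R_15201747204 : Rec := ⟨nat_lit 15201747204, nat_lit 2,
  [⟨V6_14060896515, [(nat_lit 34, nat_lit 15201747204), (nat_lit 52, nat_lit 16275489027), (nat_lit 95, nat_lit 16258711812), (nat_lit 67, nat_lit 17332453635), (nat_lit 26, nat_lit 17315676420), (nat_lit 95, nat_lit 18389418243), (nat_lit 33, nat_lit 18372641028), (nat_lit 109, nat_lit 19446382851), (nat_lit 35, nat_lit 19429605636), (nat_lit 57, nat_lit 20503347459)]⟩,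
   ⟨V6_12987154692, [(nat_lit 7, nat_lit 15201747204), (nat_lit 113, nat_lit 16258711812), (nat_lit 12, nat_lit 17315676420), (nat_lit 122, nat_lit 18372641028), (nat_lit 22, nat_lit 19429605636)]⟩],
  [W_15167930624, W_13054001408]⟩
theorem C_15201747204 : chkRec R_15201747204 = true := by decide +kernel

noncomputable def R_15201751299 : Rec := ⟨nat_lit 15201751299, nat_lit 5,
  [⟨V6_15134642433, [(nat_lit 26, nat_lit 15201751299), (nat_lit 13, nat_lit 16275493122), (nat_lit 90, nat_lit 16258715907), (nat_lit 50, nat_lit 17349234945), (nat_lit 93, nat_lit 17332457730), (nat_lit 97, nat_lit 17315680515), (nat_lit 54, nat_lit 18406199553), (nat_lit 20, nat_lit 18389422338), (nat_lit 99, nat_lit 18372645123), (nat_lit 24, nat_lit 19463164161), (nat_lit 57, nat_lit 19446386946), (nat_lit 36, nat_lit 19429609731), (nat_lit 46, nat_lit 20520128769), (nat_lit 37, nat_lit 20503351554), (nat_lit 5, nat_lit 21577093377)]⟩,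
   ⟨V6_15134638338, [(nat_lit 67, nat_lit 15201751299), (nat_lit 84, nat_lit 16275493122), (nat_lit 52, nat_lit 16275489027), (nat_lit 124, nat_lit 16258715907), (nat_lit 112, nat_lit 17349230850), (nat_lit 29, nat_lit 17332457730), (nat_lit 18, nat_lit 17332453635), (nat_lit 24, nat_lit 17315680515), (nat_lit 43, nat_lit 18406195458), (nat_lit 121, nat_lit 18389422338), (nat_lit 95, nat_lit 18389418243), (nat_lit 66, nat_lit 18372645123), (nat_lit 17, nat_lit 19463160066), (nat_lit 46, nat_lit 19446386946), (nat_lit 120, nat_lit 19446382851), (nat_lit 27, nat_lit 19429609731), (nat_lit 120, nat_lit 20520124674), (nat_lit 62, nat_lit 20503351554), (nat_lit 87, nat_lit 20503347459), (nat_lit 40, nat_lit 21577089282)]⟩],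
  [W_14110970048, W_13054263488, W_13054001408]⟩
theorem C_15201751299 : chkRec R_15201751299 = true := by decide +kernel

noncomputable def R_15201751362 : Rec := ⟨nat_lit 15201751362, nat_lit 2,
  [⟨V6_11963486466, [(nat_lit 39, nat_lit 15201751362), (nat_lit 79, nat_lit 16275493122), (nat_lit 119, nat_lit 16275231042), (nat_lit 65, nat_lit 16258715970), (nat_lit 99, nat_lit 17348972802), (nat_lit 80, nat_lit 17332457730), (nat_lit 99, nat_lit 17332195650), (nat_lit 98, nat_lit 18405937410)]⟩,
   ⟨V6_10890006849, [(nat_lit 62, nat_lit 15201751362), (nat_lit 113, nat_lit 16275493185), (nat_lit 77, nat_lit 16258715970), (nat_lit 118, nat_lit 17332457793)]⟩],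
  [W_15168196736, W_14127747200]⟩
theorem C_15201751362 : chkRec R_15201751362 = true := by decide +kernel

noncomputable def R_15201755331 : Rec := ⟨nat_lit 15201755331, nat_lit 3,
  [⟨V6_13003940034, [(nat_lit 62, nat_lit 15201755331), (nat_lit 79, nat_lit 16275497154), (nat_lit 14, nat_lit 16258719939), (nat_lit 3, nat_lit 17332461762), (nat_lit 42, nat_lit 17315684547), (nat_lit 113, nat_lit 18389426370), (nat_lit 82, nat_lit 18372649155), (nat_lit 39, nat_lit 19446390978)]⟩],
  [W_14128001216, W_10906788032]⟩
theorem C_15201755331 : chkRec R_15201755331 = true := by decide +kernel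

noncomputable def R_15201755394 : Rec := ⟨nat_lit 15201755394, nat_lit 14,
  [⟨V6_15134646528, [(nat_lit 103, nat_lit 15201755394), (nat_lit 2, nat_lit 16275497217), (nat_lit 51, nat_lit 16258720002), (nat_lit 5, nat_lit 17349239040), (nat_lit 57, nat_lit 17332461825), (nat_lit 66, nat_lit 17315684610), (nat_lit 115, nat_lit 18406203648), (nat_lit 12, nat_lit 18389426433), (nat_lit 30, nat_lit 18372649218), (nat_lit 4, nat_lit 19463168256), (nat_lit 30, nat_lit 19446391041), (nat_lit 53, nat_lit 19429613826), (nat_lit 63, nat_lit 20520132864), (nat_lit 87, nat_lit 20503355649), (nat_lit 46, nat_lit 21577097472)]⟩,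
   ⟨V6_15134646402, [(nat_lit 108, nat_lit 15201755394), (nat_lit 15, nat_lit 16275497154), (nat_lit 68, nat_lit 16258720002), (nat_lit 95, nat_lit 17349238914), (nat_lit 81, nat_lit 17332461762), (nat_lit 54, nat_lit 17315684610), (nat_lit 91, nat_lit 18406203522), (nat_lit 44, nat_lit 18389426370), (nat_lit 23, nat_lit 18372649218), (nat_lit 31, nat_lit 19463168130), (nat_lit 6, nat_lit 19446390978), (nat_lit 12, nat_lit 19429613826), (nat_lit 117, nat_lit 20520132738), (nat_lit 78, nat_lit 20503355586), (nat_lit 116, nat_lit 21577097346)]⟩,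
   ⟨V6_15134642370, [(nat_lit 17, nat_lit 15201755394), (nat_lit 49, nat_lit 16275497154), (nat_lit 26, nat_lit 16275493122), (nat_lit 41, nat_lit 16258720002), (nat_lit 4, nat_lit 17349234882), (nat_lit 119, nat_lit 17332461762), (nat_lit 82, nat_lit 17332457730), (nat_lit 64, nat_lit 17315684610), (nat_lit 109, nat_lit 18406199490), (nat_lit 124, nat_lit 18389426370), (nat_lit 91, nat_lit 18389422338), (nat_lit 116, nat_lit 18372649218), (nat_lit 116, nat_lit 19463164098), (nat_lit 115, nat_lit 19446390978), (nat_lit 32, nat_lit 19446386946), (nat_lit 43, nat_lit 19429613826), (nat_lit 97, nat_lit 20520128706), (nat_lit 72, nat_lit 20503355586), (nat_lit 44, nat_lit 20503351554), (nat_lit 12, nat_lit 21577093314)]⟩,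
   ⟨V6_14077681794, [(nat_lit 107, nat_lit 15201755394), (nat_lit 9, nat_lit 16275497154), (nat_lit 63, nat_lit 16258720002), (nat_lit 79, nat_lit 17349238914), (nat_lit 19, nat_lit 17332461762), (nat_lit 39, nat_lit 17315684610), (nat_lit 120, nat_lit 18406203522), (nat_lit 85, nat_lit 18389426370), (nat_lit 119, nat_lit 18372649218), (nat_lit 79, nat_lit 19463168130), (nat_lit 113, nat_lit 19446390978), (nat_lit 16, nat_lit 20520132738)]⟩,
   ⟨V6_14060900610, [(nat_lit 118, nat_lit 15201755394), (nat_lit 66, nat_lit 16275493122), (nat_lit 28, nat_lit 16258720002), (nat_lit 119, nat_lit 17332457730), (nat_lit 91, nat_lit 17315684610), (nat_lit 47, nat_lit 18389422338), (nat_lit 86, nat_lit 18372649218), (nat_lit 11, nat_lit 19446386946), (nat_lit 100, nat_lit 19429613826), (nat_lit 55, nat_lit 20503351554)]⟩],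
  [W_15184969856, W_13054267520, W_13054263488, W_10906788032]⟩
theorem C_15201755394 : chkRec R_15201755394 = true := by decide +kernel

noncomputable def R_15201755457 : Rec := ⟨nat_lit 15201755457, nat_lit 12,
  [⟨V6_15134646528, [(nat_lit 13, nat_lit 15201755457), (nat_lit 52, nat_lit 16275497280), (nat_lit 49, nat_lit 16275497217), (nat_lit 11, nat_lit 16258720065), (nat_lit 56, nat_lit 17349239040), (nat_lit 11, nat_lit 17332461888), (nat_lit 66, nat_lit 17332461825), (nat_lit 11, nat_lit 17315684673), (nat_lit 37, nat_lit 18406203648), (nat_lit 99, nat_lit 18389426496), (nat_lit 115, nat_lit 18389426433), (nat_lit 13, nat_lit 18372649281), (nat_lit 78, nat_lit 19463168256), (nat_lit 64, nat_lit 19446391104), (nat_lit 120, nat_lit 19446391041), (nat_lit 69, nat_lit 19429613889), (nat_lit 39, nat_lit 20520132864), (nat_lit 61, nat_lit 20503355712), (nat_lit 48, nat_lit 20503355649), (nat_lit 35, nat_lit 21577097472)]⟩,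
   ⟨V6_14060904768, [(nat_lit 83, nat_lit 15201755457), (nat_lit 18, nat_lit 16275497280), (nat_lit 71, nat_lit 16258720065), (nat_lit 75, nat_lit 17332461888), (nat_lit 65, nat_lit 17315684673), (nat_lit 8, nat_lit 18389426496), (nat_lit 80, nat_lit 18372649281), (nat_lit 21, nat_lit 19446391104), (nat_lit 124, nat_lit 19429613889), (nat_lit 106, nat_lit 20503355712)]⟩,
   ⟨V6_10873233729, [(nat_lit 70, nat_lit 15201755457), (nat_lit 19, nat_lit 16258720065), (nat_lit 88, nat_lit 17315684673)]⟩],
  [W_15184973888, W_14128009280, W_10906788032]⟩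
theorem C_15201755457 : chkRec R_15201755457 = true := by decide +kernel

noncomputable def R_15201755520 : Rec := ⟨nat_lit 15201755520, nat_lit 11,
  [⟨V6_15201755136, [(nat_lit 86, nat_lit 15201755520), (nat_lit 61, nat_lit 16275497280), (nat_lit 126, nat_lit 17349239040), (nat_lit 21, nat_lit 18422980800), (nat_lit 15, nat_lit 19496722560), (nat_lit 84, nat_lit 20570464320), (nat_lit 15, nat_lit 21644206080)]⟩,
   ⟨V6_11930198400, [(nat_lit 91, nat_lit 15201755520), (nat_lit 36, nat_lit 16258720128), (nat_lit 39, nat_lit 17315684736), (nat_lit 57, nat_lit 18372649344)]⟩],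
  [W_15151423616, W_15134646464, W_14060904704, W_13037494400, W_13003940096, W_10906788032, W_10890010880, W_10873233728]⟩
theorem C_15201755520 : chkRec R_15201755520 = true := by decide +kernel

noncomputable def R_15202009347 : Rec := ⟨nat_lit 15202009347, nat_lit 6,
  [⟨V6_14127481089, [(nat_lit 75, nat_lit 15202009347), (nat_lit 109, nat_lit 16275751170), (nat_lit 77, nat_lit 16275489027), (nat_lit 5, nat_lit 17349492993), (nat_lit 44, nat_lit 17349230850), (nat_lit 43, nat_lit 17348968707), (nat_lit 111, nat_lit 18422972673), (nat_lit 74, nat_lit 18422710530), (nat_lit 75, nat_lit 18422448387), (nat_lit 113, nat_lit 19496452353), (nat_lit 20, nat_lit 19496190210), (nat_lit 27, nat_lit 20569932033)]⟩,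
   ⟨V6_10907041986, [(nat_lit 82, nat_lit 15202009347), (nat_lit 113, nat_lit 16275751170), (nat_lit 45, nat_lit 16275751107), (nat_lit 61, nat_lit 17349492930)]⟩],
  [W_15201222848, W_15167930624, W_15151677632, W_15151415552, W_10907042048]⟩
theorem C_15202009347 : chkRec R_15202009347 = true := by decide +kernel

noncomputable def R_15202013379 : Rec := ⟨nat_lit 15202013379, nat_lit 7,
  [⟨V6_14077931715, [(nat_lit 63, nat_lit 15202013379), (nat_lit 27, nat_lit 16275751107), (nat_lit 92, nat_lit 16258977987), (nat_lit 54, nat_lit 17349488835), (nat_lit 72, nat_lit 17332715715), (nat_lit 118, nat_lit 17315942595), (nat_lit 110, nat_lit 18406453443), (nat_lit 15, nat_lit 18389680323), (nat_lit 73, nat_lit 18372907203), (nat_lit 17, nat_lit 19463418051), (nat_lit 62, nat_lit 19446644931), (nat_lit 73, nat_lit 20520382659)]⟩,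
   ⟨V6_13037482179, [(nat_lit 78, nat_lit 15202013379), (nat_lit 4, nat_lit 16275751107), (nat_lit 27, nat_lit 16275493059), (nat_lit 87, nat_lit 16258977987), (nat_lit 122, nat_lit 17349488835), (nat_lit 4, nat_lit 17349230787), (nat_lit 88, nat_lit 17332715715), (nat_lit 122, nat_lit 17332457667), (nat_lit 37, nat_lit 18422968515), (nat_lit 110, nat_lit 18406453443), (nat_lit 60, nat_lit 18406195395), (nat_lit 80, nat_lit 19479933123)]⟩,
   ⟨V6_13004198082, [(nat_lit 70, nat_lit 15202013379), (nat_lit 81, nat_lit 16275755202), (nat_lit 24, nat_lit 16258977987), (nat_lit 114, nat_lit 17332719810), (nat_lit 72, nat_lit 17315942595), (nat_lit 103, nat_lit 18389684418), (nat_lit 68, nat_lit 18372907203), (nat_lit 85, nat_lit 19446649026)]⟩,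
   ⟨V6_10907041986, [(nat_lit 111, nat_lit 15202013379), (nat_lit 1, nat_lit 16275755202), (nat_lit 110, nat_lit 16275751107), (nat_lit 35, nat_lit 17349492930)]⟩,
   ⟨V6_10907037891, [(nat_lit 84, nat_lit 15202013379), (nat_lit 92, nat_lit 16275751107), (nat_lit 43, nat_lit 17349488835)]⟩],
  [W_15184707776, W_14128001216, W_14111486144]⟩
theorem C_15202013379 : chkRec R_15202013379 = true := by decide +kernel

noncomputable def R_15202013442 : Rec := ⟨nat_lit 15202013442, nat_lit 15,
  [⟨V6_14077939968, [(nat_lit 2, nat_lit 15202013442), (nat_lit 82, nat_lit 16275755265), (nat_lit 80, nat_lit 16258978050), (nat_lit 16, nat_lit 17349497088), (nat_lit 56, nat_lit 17332719873), (nat_lit 104, nat_lit 17315942658), (nat_lit 43, nat_lit 18406461696), (nat_lit 37, nat_lit 18389684481), (nat_lit 45, nat_lit 18372907266), (nat_lit 72, nat_lit 19463426304), (nat_lit 85, nat_lit 19446649089), (nat_lit 105, nat_lit 20520390912)]⟩,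
   ⟨V6_14077939905, [(nat_lit 2, nat_lit 15202013442), (nat_lit 112, nat_lit 16275755265), (nat_lit 101, nat_lit 16275755202), (nat_lit 14, nat_lit 16258978050), (nat_lit 13, nat_lit 17349497025), (nat_lit 71, nat_lit 17332719873), (nat_lit 111, nat_lit 17332719810), (nat_lit 57, nat_lit 17315942658), (nat_lit 72, nat_lit 18406461633), (nat_lit 113, nat_lit 18389684481), (nat_lit 47, nat_lit 18389684418), (nat_lit 22, nat_lit 18372907266), (nat_lit 109, nat_lit 19463426241), (nat_lit 75, nat_lit 19446649089), (nat_lit 68, nat_lit 19446649026), (nat_lit 27, nat_lit 20520390849)]⟩,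
   ⟨V6_10907046018, [(nat_lit 53, nat_lit 15202013442), (nat_lit 14, nat_lit 16275755202), (nat_lit 19, nat_lit 17349496962)]⟩,
   ⟨V6_10907042049, [(nat_lit 50, nat_lit 15202013442), (nat_lit 84, nat_lit 16275755265), (nat_lit 51, nat_lit 16275751170), (nat_lit 121, nat_lit 17349492993)]⟩,
   ⟨V6_10907041986, [(nat_lit 118, nat_lit 15202013442), (nat_lit 3, nat_lit 16275755202), (nat_lit 106, nat_lit 16275751170), (nat_lit 94, nat_lit 17349492930)]⟩],
  [W_15201484928, W_15184969856, W_15167930624, W_13054267520, W_13054001408, W_10907042048]⟩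
theorem C_15202013442 : chkRec R_15202013442 = true := by decide +kernel

noncomputable def R_15202013505 : Rec := ⟨nat_lit 15202013505, nat_lit 9,
  [⟨V6_14077939968, [(nat_lit 16, nat_lit 15202013505), (nat_lit 75, nat_lit 16275755328), (nat_lit 26, nat_lit 16275755265), (nat_lit 98, nat_lit 16258978113), (nat_lit 121, nat_lit 17349497088), (nat_lit 95, nat_lit 17332719936), (nat_lit 63, nat_lit 17332719873), (nat_lit 125, nat_lit 17315942721), (nat_lit 33, nat_lit 18406461696), (nat_lit 94, nat_lit 18389684544), (nat_lit 86, nat_lit 18389684481), (nat_lit 93, nat_lit 18372907329), (nat_lit 97, nat_lit 19463426304), (nat_lit 9, nat_lit 19446649152), (nat_lit 85, nat_lit 19446649089), (nat_lit 48, nat_lit 20520390912)]⟩,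
   ⟨V6_14077939905, [(nat_lit 54, nat_lit 15202013505), (nat_lit 51, nat_lit 16275755265), (nat_lit 119, nat_lit 16258978113), (nat_lit 53, nat_lit 17349497025), (nat_lit 64, nat_lit 17332719873), (nat_lit 54, nat_lit 17315942721), (nat_lit 27, nat_lit 18406461633), (nat_lit 67, nat_lit 18389684481), (nat_lit 109, nat_lit 18372907329), (nat_lit 65, nat_lit 19463426241), (nat_lit 75, nat_lit 19446649089), (nat_lit 9, nat_lit 20520390849)]⟩],
  [W_15184973888, W_13054529600, W_11980787840]⟩
theorem C_15202013505 : chkRec R_15202013505 = true := by decide +kernel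

noncomputable def R_15202017474 : Rec := ⟨nat_lit 15202017474, nat_lit 20,
  [⟨V6_15151681728, [(nat_lit 43, nat_lit 15202017474), (nat_lit 78, nat_lit 16275759297), (nat_lit 9, nat_lit 16275755202), (nat_lit 53, nat_lit 16258982082), (nat_lit 95, nat_lit 17349501120), (nat_lit 107, nat_lit 17349497025), (nat_lit 56, nat_lit 17332723905), (nat_lit 32, nat_lit 17332719810), (nat_lit 22, nat_lit 17315946690), (nat_lit 29, nat_lit 18423238848), (nat_lit 118, nat_lit 18406465728), (nat_lit 122, nat_lit 18406461633), (nat_lit 99, nat_lit 18389688513), (nat_lit 37, nat_lit 18389684418), (nat_lit 38, nat_lit 18372911298), (nat_lit 105, nat_lit 19480203456), (nat_lit 104, nat_lit 19463430336), (nat_lit 37, nat_lit 19463426241), (nat_lit 115, nat_lit 19446653121), (nat_lit 42, nat_lit 19446649026), (nat_lit 119, nat_lit 20537168064), (nat_lit 103, nat_lit 20520394944), (nat_lit 104, nat_lit 20520390849), (nat_lit 43, nat_lit 21594132672)]⟩,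
   ⟨V6_14077944000, [(nat_lit 79, nat_lit 15202017474), (nat_lit 64, nat_lit 16275759297), (nat_lit 112, nat_lit 16258982082), (nat_lit 124, nat_lit 17349501120), (nat_lit 53, nat_lit 17332723905), (nat_lit 44, nat_lit 17315946690), (nat_lit 111, nat_lit 18406465728), (nat_lit 1, nat_lit 18389688513), (nat_lit 63, nat_lit 18372911298), (nat_lit 50, nat_lit 19463430336), (nat_lit 119, nat_lit 19446653121), (nat_lit 20, nat_lit 20520394944)]⟩,
   ⟨V6_10907046018, [(nat_lit 6, nat_lit 15202017474), (nat_lit 112, nat_lit 16275759234), (nat_lit 75, nat_lit 16275755202), (nat_lit 54, nat_lit 17349496962)]⟩,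
   ⟨V6_10907041986, [(nat_lit 121, nat_lit 15202017474), (nat_lit 7, nat_lit 16275755202), (nat_lit 76, nat_lit 17349492930)]⟩],
  [W_15184969856, W_14128263296, W_14128001216, W_14111486144, W_13037494400]⟩
theorem C_15202017474 : chkRec R_15202017474 = true := by decide +kernel

noncomputable def R_15202017537 : Rec := ⟨nat_lit 15202017537, nat_lit 32,
  [⟨V6_14128013376, [(nat_lit 40, nat_lit 15202017537), (nat_lit 73, nat_lit 16275759360), (nat_lit 23, nat_lit 16275759297), (nat_lit 56, nat_lit 16275497217), (nat_lit 38, nat_lit 17349501120), (nat_lit 87, nat_lit 17349501057), (nat_lit 93, nat_lit 17349239040), (nat_lit 60, nat_lit 17349238977), (nat_lit 14, nat_lit 18423242880), (nat_lit 29, nat_lit 18423242817), (nat_lit 70, nat_lit 18422980800), (nat_lit 67, nat_lit 18422980737), (nat_lit 105, nat_lit 19496984640), (nat_lit 80, nat_lit 19496722560), (nat_lit 96, nat_lit 19496722497), (nat_lit 41, nat_lit 20570464320)]⟩,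
   ⟨V6_14077939968, [(nat_lit 77, nat_lit 15202017537), (nat_lit 97, nat_lit 16275759360), (nat_lit 48, nat_lit 16275755265), (nat_lit 54, nat_lit 16258982145), (nat_lit 4, nat_lit 17349497088), (nat_lit 97, nat_lit 17332723968), (nat_lit 85, nat_lit 17332719873), (nat_lit 95, nat_lit 17315946753), (nat_lit 15, nat_lit 18406461696), (nat_lit 33, nat_lit 18389688576), (nat_lit 120, nat_lit 18389684481), (nat_lit 34, nat_lit 18372911361), (nat_lit 86, nat_lit 19463426304), (nat_lit 72, nat_lit 19446653184), (nat_lit 118, nat_lit 19446649089), (nat_lit 87, nat_lit 20520390912)]⟩],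
  [W_15201747008, W_15185231936, W_15184973888, W_15151415552, W_14094721088, W_14094450944, W_13020971264, W_11980521728, W_10907042048, W_10906788032]⟩
theorem C_15202017537 : chkRec R_15202017537 = true := by decide +kernel

noncomputable def R_15202017600 : Rec := ⟨nat_lit 15202017600, nat_lit 27,
  [⟨V6_15201755136, [(nat_lit 1, nat_lit 15202017600), (nat_lit 26, nat_lit 16275759360), (nat_lit 71, nat_lit 16275497280), (nat_lit 56, nat_lit 17349501120), (nat_lit 81, nat_lit 17349239040), (nat_lit 115, nat_lit 18423242880), (nat_lit 1, nat_lit 18422980800), (nat_lit 55, nat_lit 19496984640), (nat_lit 6, nat_lit 19496722560), (nat_lit 50, nat_lit 20570726400), (nat_lit 5, nat_lit 20570464320), (nat_lit 7, nat_lit 21644206080)]⟩,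
   ⟨V6_11930460480, [(nat_lit 107, nat_lit 15202017600), (nat_lit 20, nat_lit 16258982208), (nat_lit 64, nat_lit 17315946816), (nat_lit 74, nat_lit 18372911424)]⟩],
  [W_15168462848, W_15168458816, W_15151419584, W_14128009280, W_14094721088, W_13003940096, W_11980525760, W_11963748608, W_11947233536, W_10906788032, W_10890272960, W_10890010880, W_10873233728]⟩
theorem C_15202017600 : chkRec R_15202017600 = true := by decide +kernel

noncomputable def R_15202021506 : Rec := ⟨nat_lit 15202021506, nat_lit 5,
  [⟨V6_14077948032, [(nat_lit 84, nat_lit 15202021506), (nat_lit 15, nat_lit 16275763329), (nat_lit 58, nat_lit 16258986114), (nat_lit 37, nat_lit 17349505152), (nat_lit 66, nat_lit 17332727937), (nat_lit 50, nat_lit 17315950722), (nat_lit 28, nat_lit 18406469760), (nat_lit 30, nat_lit 18389692545), (nat_lit 112, nat_lit 18372915330), (nat_lit 103, nat_lit 19463434368), (nat_lit 14, nat_lit 19446657153), (nat_lit 92, nat_lit 20520398976)]⟩,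
   ⟨V6_14077939842, [(nat_lit 45, nat_lit 15202021506), (nat_lit 86, nat_lit 16275759234), (nat_lit 1, nat_lit 16258986114), (nat_lit 35, nat_lit 17349496962), (nat_lit 109, nat_lit 17332723842), (nat_lit 8, nat_lit 17315950722), (nat_lit 22, nat_lit 18406461570), (nat_lit 75, nat_lit 18389688450), (nat_lit 39, nat_lit 18372915330), (nat_lit 125, nat_lit 19463426178), (nat_lit 72, nat_lit 19446653058), (nat_lit 1, nat_lit 20520390786)]⟩,
   ⟨V6_11947237506, [(nat_lit 55, nat_lit 15202021506), (nat_lit 106, nat_lit 16275759234), (nat_lit 83, nat_lit 16258986114), (nat_lit 81, nat_lit 17332723842), (nat_lit 39, nat_lit 17315950722), (nat_lit 122, nat_lit 18389688450)]⟩,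
   ⟨V6_10907046018, [(nat_lit 61, nat_lit 15202021506), (nat_lit 72, nat_lit 16275759234), (nat_lit 106, nat_lit 17349496962)]⟩],
  [W_15202001024, W_11964014720, W_10907050112]⟩
theorem C_15202021506 : chkRec R_15202021506 = true := by decide +kernel

noncomputable def R_15202021569 : Rec := ⟨nat_lit 15202021569, nat_lit 17,
  [⟨V6_15151685697, [(nat_lit 96, nat_lit 15202021569), (nat_lit 77, nat_lit 16275763329), (nat_lit 122, nat_lit 16275759297), (nat_lit 10, nat_lit 16258986177), (nat_lit 115, nat_lit 17349505089), (nat_lit 65, nat_lit 17349501057), (nat_lit 101, nat_lit 17332727937), (nat_lit 114, nat_lit 17332723905), (nat_lit 126, nat_lit 17315950785), (nat_lit 122, nat_lit 18423242817), (nat_lit 44, nat_lit 18406469697), (nat_lit 104, nat_lit 18406465665), (nat_lit 22, nat_lit 18389692545), (nat_lit 125, nat_lit 18389688513), (nat_lit 34, nat_lit 18372915393), (nat_lit 102, nat_lit 19480207425), (nat_lit 59, nat_lit 19463434305), (nat_lit 67, nat_lit 19463430273), (nat_lit 113, nat_lit 19446657153), (nat_lit 13, nat_lit 19446653121),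 (nat_lit 72, nat_lit 20537172033), (nat_lit 34, nat_lit 20520398913), (nat_lit 118, nat_lit 20520394881), (nat_lit 23, nat_lit 21594136641)]⟩,
   ⟨V6_15151677633, [(nat_lit 105, nat_lit 15202021569), (nat_lit 24, nat_lit 16275759297), (nat_lit 88, nat_lit 16258986177), (nat_lit 116, nat_lit 17349497025), (nat_lit 27, nat_lit 17332723905), (nat_lit 122, nat_lit 17315950785), (nat_lit 108, nat_lit 18423234753), (nat_lit 29, nat_lit 18406461633), (nat_lit 33, nat_lit 18389688513), (nat_lit 77, nat_lit 18372915393), (nat_lit 99, nat_lit 19480199361), (nat_lit 121, nat_lit 19463426241), (nat_lit 22, nat_lit 19446653121), (nat_lit 48, nat_lit 20537163969), (nat_lit 55, nat_lit 20520390849), (nat_lit 92, nat_lit 21594128577)]⟩,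
   ⟨V6_14077939905, [(nat_lit 6, nat_lit 15202021569), (nat_lit 3, nat_lit 16275759297), (nat_lit 34, nat_lit 16258986177), (nat_lit 47, nat_lit 17349497025), (nat_lit 23, nat_lit 17332723905), (nat_lit 18, nat_lit 17315950785), (nat_lit 113, nat_lit 18406461633), (nat_lit 10, nat_lit 18389688513), (nat_lit 56, nat_lit 18372915393), (nat_lit 59, nat_lit 19463426241), (nat_lit 35, nat_lit 19446653121), (nat_lit 34, nat_lit 20520390849)]⟩],
  [W_14128267328, W_14128263296, W_11980791872, W_11964018752, W_10907050112]⟩
theorem C_15202021569 : chkRec R_15202021569 = true := by decide +kernel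

noncomputable def R_15202021632 : Rec := ⟨nat_lit 15202021632, nat_lit 19,
  [⟨V6_14094725184, [(nat_lit 49, nat_lit 15202021632), (nat_lit 90, nat_lit 16275763392), (nat_lit 54, nat_lit 16258986240), (nat_lit 64, nat_lit 17349505152), (nat_lit 92, nat_lit 17332728000), (nat_lit 71, nat_lit 17315950848), (nat_lit 79, nat_lit 18423246912), (nat_lit 103, nat_lit 18406469760), (nat_lit 86, nat_lit 18389692608), (nat_lit 88, nat_lit 19480211520), (nat_lit 51, nat_lit 19463434368), (nat_lit 51, nat_lit 20537176128)]⟩,
   ⟨V6_14077944000, [(nat_lit 103, nat_lit 15202021632), (nat_lit 112, nat_lit 16275763392), (nat_lit 56, nat_lit 16275759360), (nat_lit 64, nat_lit 16258986240), (nat_lit 122, nat_lit 17349501120), (nat_lit 104, nat_lit 17332728000), (nat_lit 42, nat_lit 17332723968), (nat_lit 99, nat_lit 17315950848), (nat_lit 22, nat_lit 18406465728), (nat_lit 109, nat_lit 18389692608), (nat_lit 82, nat_lit 18389688576), (nat_lit 53, nat_lit 18372915456), (nat_lit 78, nat_lit 19463430336), (nat_lit 7, nat_lit 19446657216), (nat_lit 110, nat_lit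 19446653184), (nat_lit 77, nat_lit 20520394944)]⟩,
   ⟨V6_14077939968, [(nat_lit 106, nat_lit 15202021632), (nat_lit 53, nat_lit 16275759360), (nat_lit 8, nat_lit 16258986240), (nat_lit 26, nat_lit 17349497088), (nat_lit 110, nat_lit 17332723968), (nat_lit 64, nat_lit 17315950848), (nat_lit 49, nat_lit 18406461696), (nat_lit 92, nat_lit 18389688576), (nat_lit 58, nat_lit 18372915456), (nat_lit 111, nat_lit 19463426304), (nat_lit 68, nat_lit 19446653184), (nat_lit 8, nat_lit 20520390912)]⟩,
   ⟨V6_13054537728, [(nat_lit 59, nat_lit 15202021632), (nat_lit 116, nat_lit 16275763392), (nat_lit 65, nat_lit 17349505152), (nat_lit 44, nat_lit 18423246912), (nat_lit 12, nat_lit 19496988672)]⟩],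
  [W_15202009088, W_15185231936, W_15168462848, W_10907050112, W_10907042048]⟩
theorem C_15202021632 : chkRec R_15202021632 = true := by decide +kernel

noncomputable def R_15202271427 : Rec := ⟨nat_lit 15202271427, nat_lit 5,
  [⟨V6_11947491522, [(nat_lit 51, nat_lit 15202271427), (nat_lit 72, nat_lit 16276013250), (nat_lit 113, nat_lit 16259236035), (nat_lit 125, nat_lit 17332977858), (nat_lit 16, nat_lit 17316200643), (nat_lit 67, nat_lit 18389942466)]⟩,
   ⟨V6_10907041986, [(nat_lit 78, nat_lit 15202271427), (nat_lit 34, nat_lit 16276013250), (nat_lit 88, nat_lit 16275751107), (nat_lit 17, nat_lit 17349492930)]⟩,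
   ⟨V6_10907037891, [(nat_lit 116, nat_lit 15202271427), (nat_lit 100, nat_lit 16276009155), (nat_lit 99, nat_lit 16275751107), (nat_lit 15, nat_lit 17349488835)]⟩],
  [W_15201480896, W_15201222848, W_14128001216]⟩
theorem C_15202271427 : chkRec R_15202271427 = true := by decide +kernel

noncomputable def R_15202271490 : Rec := ⟨nat_lit 15202271490, nat_lit 16,
  [⟨V6_11947491585, [(nat_lit 107, nat_lit 15202271490), (nat_lit 60, nat_lit 16276013313), (nat_lit 85, nat_lit 16259236098), (nat_lit 118, nat_lit 17332977921), (nat_lit 56, nat_lit 17316200706), (nat_lit 101, nat_lit 18389942529)]⟩,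
   ⟨V6_10907304192, [(nat_lit 96, nat_lit 15202271490), (nat_lit 73, nat_lit 16276013313), (nat_lit 60, nat_lit 17349755136)]⟩,
   ⟨V6_10907042049, [(nat_lit 11, nat_lit 15202271490), (nat_lit 29, nat_lit 16276013313), (nat_lit 120, nat_lit 16275751170), (nat_lit 49, nat_lit 17349492993)]⟩,
   ⟨V6_10907041986, [(nat_lit 43, nat_lit 15202271490), (nat_lit 89, nat_lit 16276013250), (nat_lit 100, nat_lit 16275751170), (nat_lit 88, nat_lit 17349492930)]⟩,
   ⟨V6_10890526977, [(nat_lit 85, nat_lit 15202271490), (nat_lit 116, nat_lit 16276013313), (nat_lit 124, nat_lit 16259236098), (nat_lit 2, nat_lit 17332977921)]⟩],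
  [W_15201484928, W_15201222848, W_15184969856, W_14094450944, W_13054001408]⟩
theorem C_15202271490 : chkRec R_15202271490 = true := by decide +kernel

noncomputable def R_15202275522 : Rec := ⟨nat_lit 15202275522, nat_lit 23,
  [⟨V6_15168712896, [(nat_lit 9, nat_lit 15202275522), (nat_lit 55, nat_lit 16276017345), (nat_lit 42, nat_lit 16276013250), (nat_lit 41, nat_lit 16259240130), (nat_lit 65, nat_lit 17349759168), (nat_lit 31, nat_lit 17349755073), (nat_lit 113, nat_lit 17349750978), (nat_lit 96, nat_lit 17332981953), (nat_lit 123, nat_lit 17332977858), (nat_lit 2, nat_lit 17316204738), (nat_lit 71, nat_lit 18423496896), (nat_lit 68, nat_lit 18423492801), (nat_lit 63, nat_lit 18406723776), (nat_lit 46, nat_lit 18406719681), (nat_lit 41, nat_lit 18406715586), (nat_lit 58, nat_lit 18389946561), (nat_lit 86, nat_lit 18389942466), (nat_lit 96, nat_lit 19497234624), (nat_lit 12, nat_lit 19480461504), (nat_lit 22, nat_lit 19480457409), (nat_lit 33, nat_lit 19463688384), (nat_lit 5, nat_lit 19463684289), (nat_lit 91, nat_lit 19463680194),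 (nat_lit 75, nat_lit 20554199232), (nat_lit 78, nat_lit 20537426112), (nat_lit 110, nat_lit 20537422017), (nat_lit 73, nat_lit 21611163840)]⟩,
   ⟨V6_11947495554, [(nat_lit 18, nat_lit 15202275522), (nat_lit 40, nat_lit 16276017282), (nat_lit 63, nat_lit 16259240130), (nat_lit 8, nat_lit 17332981890), (nat_lit 112, nat_lit 17316204738), (nat_lit 116, nat_lit 18389946498)]⟩,
   ⟨V6_11947491522, [(nat_lit 31, nat_lit 15202275522), (nat_lit 7, nat_lit 16276013250), (nat_lit 55, nat_lit 16259240130), (nat_lit 51, nat_lit 17332977858), (nat_lit 18, nat_lit 17316204738), (nat_lit 103, nat_lit 18389942466)]⟩,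
   ⟨V6_10907308161, [(nat_lit 48, nat_lit 15202275522), (nat_lit 25, nat_lit 16276017345), (nat_lit 14, nat_lit 16276017282), (nat_lit 45, nat_lit 17349759105)]⟩,
   ⟨V6_10907304066, [(nat_lit 97, nat_lit 15202275522), (nat_lit 109, nat_lit 16276017282), (nat_lit 93, nat_lit 16276013250), (nat_lit 85, nat_lit 17349755010)]⟩,
   ⟨V6_10907046018, [(nat_lit 59, nat_lit 15202275522), (nat_lit 31, nat_lit 16276017282), (nat_lit 93, nat_lit 16275755202), (nat_lit 78, nat_lit 17349496962)]⟩,
   ⟨V6_10907041986, [(nat_lit 24, nat_lit 15202275522), (nat_lit 28, nat_lit 16276013250), (nat_lit 29, nat_lit 16275755202), (nat_lit 101, nat_lit 17349492930)]⟩,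
   ⟨V6_10873753794, [(nat_lit 60, nat_lit 15202275522), (nat_lit 107, nat_lit 16259240130), (nat_lit 21, nat_lit 17316204738)]⟩],
  [W_15184969856, W_15168712832, W_14128001216, W_14111748224, W_14111486144, W_14110970048, W_13021237376]⟩
theorem C_15202275522 : chkRec R_15202275522 = true := by decide +kernel

noncomputable def R_15202275585 : Rec := ⟨nat_lit 15202275585, nat_lit 35,
  [⟨V6_15168720960, [(nat_lit 94, nat_lit 15202275585), (nat_lit 66, nat_lit 16276017408), (nat_lit 111, nat_lit 16276017345), (nat_lit 92, nat_lit 16259240193), (nat_lit 68, nat_lit 17349759168), (nat_lit 16, nat_lit 17349759105), (nat_lit 81, nat_lit 17332982016), (nat_lit 29, nat_lit 17332981953), (nat_lit 66, nat_lit 17316204801), (nat_lit 114, nat_lit 18423500928), (nat_lit 57, nat_lit 18423500865), (nat_lit 120, nat_lit 18406723776), (nat_lit 31, nat_lit 18406723713), (nat_lit 84, nat_lit 18389946624), (nat_lit 120, nat_lit 18389946561), (nat_lit 97, nat_lit 19497242688), (nat_lit 83, nat_lit 19480465536), (nat_lit 106, nat_lit 19480465473), (nat_lit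 59, nat_lit 19463688384), (nat_lit 62, nat_lit 19463688321), (nat_lit 93, nat_lit 20554207296), (nat_lit 97, nat_lit 20537430144), (nat_lit 23, nat_lit 20537430081), (nat_lit 63, nat_lit 21611171904)]⟩,
   ⟨V6_11947491585, [(nat_lit 72, nat_lit 15202275585), (nat_lit 90, nat_lit 16276013313), (nat_lit 54, nat_lit 16259240193), (nat_lit 57, nat_lit 17332977921), (nat_lit 50, nat_lit 17316204801), (nat_lit 18, nat_lit 18389942529)]⟩,
   ⟨V6_10907308161, [(nat_lit 24, nat_lit 15202275585), (nat_lit 95, nat_lit 16276017345), (nat_lit 11, nat_lit 17349759105)]⟩,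
   ⟨V6_10873753857, [(nat_lit 24, nat_lit 15202275585), (nat_lit 119, nat_lit 16259240193), (nat_lit 110, nat_lit 17316204801)]⟩],
  [W_15201747008, W_15185231936, W_15184973888, W_15184707776, W_15168716864, W_15167930624, W_14110970048, W_14094450944, W_13054001408, W_10907042048]⟩
theorem C_15202275585 : chkRec R_15202275585 = true := by decide +kernel

noncomputable def R_15202275648 : Rec := ⟨nat_lit 15202275648, nat_lit 19,
  [⟨V6_15168720960, [(nat_lit 23, nat_lit 15202275648), (nat_lit 72, nat_lit 16276017408), (nat_lit 6, nat_lit 16259240256), (nat_lit 74, nat_lit 17349759168), (nat_lit 53, nat_lit 17332982016), (nat_lit 110, nat_lit 17316204864), (nat_lit 90, nat_lit 18423500928), (nat_lit 100, nat_lit 18406723776), (nat_lit 35, nat_lit 18389946624), (nat_lit 73, nat_lit 19497242688), (nat_lit 106, nat_lit 19480465536), (nat_lit 37, nat_lit 19463688384), (nat_lit 87, nat_lit 20554207296), (nat_lit 72, nat_lit 20537430144), (nat_lit 83, nat_lit 21611171904)]⟩],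
  [W_15184973888, W_15168720896, W_14110970048, W_14094979136, W_10907308160]⟩
theorem C_15202275648 : chkRec R_15202275648 = true := by decide +kernel

end Crest.Agent.R187.SN.Top
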