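import Crest.Agent.R187.SN.Top
import Crest.Agent.R187.SN.TD.X6_0
import Crest.Agent.R187.SN.TD.X6_1
import Crest.Agent.R187.SN.TD.X6_2
import Crest.Agent.R187.SN.TD.W7_0
import Crest.Agent.R187.SN.TD.W7_1

/-!
# Row 187, PLAN S, generated certificate data (mod 127): rank records and checks, chunk 4

Written by a C++ program (helper824).  The tables are only data: every property is checked by
the kernel.
-/

set_option autoImplicit false
set_option maxRecDepth 100000
set_option Elab.async false

namespace Crest.Agent.R187.SN.Top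

noncomputable def R_15202279554 : Rec := ⟨nat_lit 15202279554, nat_lit 23,
  [⟨V6_15202263168, [(nat_lit 35, nat_lit 15202279554), (nat_lit 25, nat_lit 16276021377), (nat_lit 97, nat_lit 16276017282), (nat_lit 78, nat_lit 17349763200), (nat_lit 92, nat_lit 17349759105), (nat_lit 107, nat_lit 17349755010), (nat_lit 6, nat_lit 18423500928), (nat_lit 78, nat_lit 18423496833), (nat_lit 73, nat_lit 18423492738), (nat_lit 95, nat_lit 19497238656), (nat_lit 57, nat_lit 19497234561), (nat_lit 21, nat_lit 19497230466), (nat_lit 31, nat_lit 20570976384), (nat_lit 110, nat_lit 20570972289), (nat_lit 121, nat_lit 21644714112)]⟩],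
  [W_15168712832, W_15168454784, W_15168196736, W_14094459008, W_13037494400, W_13021237376, W_13020979328]⟩
theorem C_15202279554 : chkRec R_15202279554 = true := by decide +kernel

noncomputable def R_15202279617 : Rec := ⟨nat_lit 15202279617, nat_lit 50,
  [⟨V6_15202267200, [(nat_lit 36, nat_lit 15202279617), (nat_lit 110, nat_lit 16276021440), (nat_lit 41, nat_lit 16276021377), (nat_lit 48, nat_lit 16276017345), (nat_lit 6, nat_lit 17349763200), (nat_lit 96, nat_lit 17349763137), (nat_lit 58, nat_lit 17349759168), (nat_lit 95, nat_lit 17349759105), (nat_lit 119, nat_lit 17349755073), (nat_lit 59, nat_lit 18423504960), (nat_lit 20, nat_lit 18423500928), (nat_lit 114, nat_lit 18423500865), (nat_lit 59, nat_lit 18423496896), (nat_lit 6, nat_lit 18423496833), (nat_lit 64, nat_lit 18423492801), (nat_lit 32, nat_lit 19497242688), (nat_lit 105, nat_lit 19497238656), (nat_lit 28, nat_lit 19497238593), (nat_lit 101, nat_lit 19497234624), (nat_lit 63, nat_lit 19497234561), (nat_lit 103, nat_lit 20570980416), (nat_lit 61, nat_lit 20570976384),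 (nat_lit 45, nat_lit 20570976321), (nat_lit 46, nat_lit 21644718144)]⟩],
  [W_15201747008, W_15184973888, W_15168716864, W_15168200768, W_14111236160, W_14094721088, W_14094454976, W_13037494400, W_13021237376, W_13021233344, W_13020975296, W_13020717248]⟩
theorem C_15202279617 : chkRec R_15202279617 = true := by decide +kernel

noncomputable def R_15202279680 : Rec := ⟨nat_lit 15202279680, nat_lit 68,
  [⟨V6_15201755136, [(nat_lit 116, nat_lit 15202279680), (nat_lit 81, nat_lit 16276021440), (nat_lit 42, nat_lit 16275759360), (nat_lit 36, nat_lit 17349763200), (nat_lit 116, nat_lit 17349501120), (nat_lit 126, nat_lit 17349239040), (nat_lit 125, nat_lit 18423504960), (nat_lit 15, nat_lit 18423242880), (nat_lit 45, nat_lit 18422980800), (nat_lit 116, nat_lit 19497246720), (nat_lit 22, nat_lit 19496984640), (nat_lit 21, nat_lit 19496722560), (nat_lit 86, nat_lit 20570726400), (nat_lit 96, nat_lit 20570464320), (nat_lit 75, nat_lit 21644206080)]⟩,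
   ⟨V6_15168724992, [(nat_lit 56, nat_lit 15202279680), (nat_lit 50, nat_lit 16276021440), (nat_lit 11, nat_lit 16259244288), (nat_lit 39, nat_lit 17349763200), (nat_lit 21, nat_lit 17332986048), (nat_lit 2, nat_lit 17316208896), (nat_lit 90, nat_lit 18423504960), (nat_lit 5, nat_lit 18406727808), (nat_lit 77, nat_lit 18389950656), (nat_lit 104, nat_lit 19497246720), (nat_lit 102, nat_lit 19480469568), (nat_lit 90, nat_lit 19463692416), (nat_lit 121, nat_lit 20554211328), (nat_lit 65, nat_lit 20537434176), (nat_lit 17, nat_lit 21611175936)]⟩,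
   ⟨V6_10907312256, [(nat_lit 85, nat_lit 15202279680), (nat_lit 56, nat_lit 16276021440), (nat_lit 76, nat_lit 17349763200)]⟩,
   ⟨V6_10873757952, [(nat_lit 47, nat_lit 15202279680), (nat_lit 69, nat_lit 16259244288), (nat_lit 99, nat_lit 17316208896)]⟩],
  [W_15202009088, W_15201747008, W_15185494016, W_15185231936, W_15184973888, W_15184969856, W_15168720896, W_15168716864, W_14128013312, W_13054263488, W_10907042048]⟩
theorem C_15202279680 : chkRec R_15202279680 = true := by decide +kernel

noncomputable def R_15202283649 : Rec := ⟨nat_lit 15202283649, nat_lit 33,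
  [⟨V6_15202263168, [(nat_lit 47, nat_lit 15202283649), (nat_lit 122, nat_lit 16276025472), (nat_lit 5, nat_lit 16276021377), (nat_lit 87, nat_lit 17349763200), (nat_lit 50, nat_lit 17349759105), (nat_lit 15, nat_lit 18423500928), (nat_lit 122, nat_lit 18423496833), (nat_lit 42, nat_lit 19497238656), (nat_lit 30, nat_lit 19497234561), (nat_lit 55, nat_lit 20570976384), (nat_lit 120, nat_lit 20570972289), (nat_lit 23, nat_lit 21644714112)]⟩,
   ⟨V6_10907316288, [(nat_lit 39, nat_lit 15202283649), (nat_lit 126, nat_lit 16276025472), (nat_lit 11, nat_lit 16276025409), (nat_lit 106, nat_lit 17349767232)]⟩],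
  [W_15185231936, W_15168716864, W_14094979136, W_14094721088, W_13021241408, W_13021237376, W_13020979328, W_11980791872, W_11964018752]⟩
theorem C_15202283649 : chkRec R_15202283649 = true := by decide +kernel

noncomputable def R_15202283712 : Rec := ⟨nat_lit 15202283712, nat_lit 55,
  [⟨V6_15202267200, [(nat_lit 77, nat_lit 15202283712), (nat_lit 114, nat_lit 16276025472), (nat_lit 116, nat_lit 16276021440), (nat_lit 12, nat_lit 17349767232), (nat_lit 42, nat_lit 17349763200), (nat_lit 110, nat_lit 17349759168), (nat_lit 50, nat_lit 18423504960), (nat_lit 60, nat_lit 18423500928), (nat_lit 50, nat_lit 18423496896), (nat_lit 23, nat_lit 19497242688), (nat_lit 48, nat_lit 19497238656), (nat_lit 4, nat_lit 19497234624), (nat_lit 1, nat_lit 20570980416), (nat_lit 61, nat_lit 20570976384), (nat_lit 56, nat_lit 21644718144)]⟩,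
   ⟨V6_10907312256, [(nat_lit 115, nat_lit 15202283712), (nat_lit 32, nat_lit 16276025472), (nat_lit 121, nat_lit 16276021440), (nat_lit 59, nat_lit 17349763200)]⟩],
  [W_15202009088, W_15185494016, W_15168720896, W_15168716864, W_14094983168, W_14094725120, W_14094721088, W_13021245440, W_13021237376, W_11980795904, W_10907316224]⟩
theorem C_15202283712 : chkRec R_15202283712 = true := by decide +kernel

noncomputable def R_15202287681 : Rec := ⟨nat_lit 15202287681, nat_lit 10,
  [⟨V6_14094979137, [(nat_lit 99, nat_lit 15202287681), (nat_lit 59, nat_lit 16276025409), (nat_lit 23, nat_lit 16259252289), (nat_lit 38, nat_lit 17349763137), (nat_lit 62, nat_lit 17332990017), (nat_lit 38, nat_lit 17316216897), (nat_lit 40, nat_lit 18423500865), (nat_lit 52, nat_lit 18406727745), (nat_lit 118, nat_lit 18389954625), (nat_lit 105, nat_lit 19480465473), (nat_lit 28, nat_lit 19463692353), (nat_lit 65, nat_lit 20537430081)]⟩,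
   ⟨V6_10907316288, [(nat_lit 49, nat_lit 15202287681), (nat_lit 60, nat_lit 16276029504), (nat_lit 1, nat_lit 16276025409), (nat_lit 125, nat_lit 17349767232)]⟩],
  [W_15185489984, W_11947503680, W_10873765952]⟩
theorem C_15202287681 : chkRec R_15202287681 = true := by decide +kernel

noncomputable def R_15202287744 : Rec := ⟨nat_lit 15202287744, nat_lit 35,
  [⟨V6_15202263168, [(nat_lit 25, nat_lit 15202287744), (nat_lit 119, nat_lit 16276025472), (nat_lit 99, nat_lit 17349763200), (nat_lit 6, nat_lit 18423500928), (nat_lit 74, nat_lit 19497238656), (nat_lit 85, nat_lit 20570976384), (nat_lit 15, nat_lit 21644714112)]⟩,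
   ⟨V6_10907316288, [(nat_lit 79, nat_lit 15202287744), (nat_lit 76, nat_lit 16276029504), (nat_lit 100, nat_lit 16276025472), (nat_lit 125, nat_lit 17349767232)]⟩],
  [W_15185494016, W_15168720896, W_14094983168, W_14094979136, W_13021245440, W_13021241408, W_11964280832, W_10907316224, W_10873761920]⟩
theorem C_15202287744 : chkRec R_15202287744 = true := by decide +kernel

noncomputable def R_15202529475 : Rec := ⟨nat_lit 15202529475, nat_lit 2,
  [⟨V6_10907562177, [(nat_lit 91, nat_lit 15202529475), (nat_lit 6, nat_lit 16276271298), (nat_lit 19, nat_lit 17350013121)]⟩,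
   ⟨V6_10907037891, [(nat_lit 33, nat_lit 15202529475), (nat_lit 7, nat_lit 16276009155), (nat_lit 69, nat_lit 17349488835)]⟩],
  [W_15184965824]⟩
theorem C_15202529475 : chkRec R_15202529475 = true := by decide +kernel

noncomputable def R_15202533570 : Rec := ⟨nat_lit 15202533570, nat_lit 16,
  [⟨V6_14127481026, [(nat_lit 77, nat_lit 15202533570), (nat_lit 124, nat_lit 16276013250), (nat_lit 47, nat_lit 17349492930), (nat_lit 64, nat_lit 18422972610), (nat_lit 20, nat_lit 19496452290), (nat_lit 39, nat_lit 20569931970)]⟩,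
   ⟨V6_10907566272, [(nat_lit 67, nat_lit 15202533570), (nat_lit 2, nat_lit 16276275393), (nat_lit 26, nat_lit 17350017216)]⟩,
   ⟨V6_10907566209, [(nat_lit 82, nat_lit 15202533570), (nat_lit 48, nat_lit 16276275393), (nat_lit 98, nat_lit 16276275330), (nat_lit 61, nat_lit 17350017153)]⟩,
   ⟨V6_10907304066, [(nat_lit 84, nat_lit 15202533570), (nat_lit 9, nat_lit 16276275330), (nat_lit 36, nat_lit 16276013250), (nat_lit 105, nat_lit 17349755010)]⟩,
   ⟨V6_10907041986, [(nat_lit 47, nat_lit 15202533570), (nat_lit 60, nat_lit 16276013250), (nat_lit 29, nat_lit 17349492930)]⟩],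
  [W_15184969856, W_14128263296, W_14111748224, W_13038268544]⟩
theorem C_15202533570 : chkRec R_15202533570 = true := by decide +kernel

noncomputable def R_15202533633 : Rec := ⟨nat_lit 15202533633, nat_lit 18,
  [⟨V6_15201222912, [(nat_lit 104, nat_lit 15202533633), (nat_lit 21, nat_lit 16276275456), (nat_lit 104, nat_lit 16276013313), (nat_lit 18, nat_lit 17349755136), (nat_lit 124, nat_lit 17349492993), (nat_lit 35, nat_lit 18423234816), (nat_lit 3, nat_lit 18422972673), (nat_lit 36, nat_lit 19496714496), (nat_lit 23, nat_lit 19496452353), (nat_lit 105, nat_lit 20570194176), (nat_lit 23, nat_lit 20569932033), (nat_lit 4, nat_lit 21643673856)]⟩,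
   ⟨V6_14127481089, [(nat_lit 59, nat_lit 15202533633), (nat_lit 1, nat_lit 16276013313), (nat_lit 69, nat_lit 17349492993), (nat_lit 21, nat_lit 18422972673), (nat_lit 78, nat_lit 19496452353), (nat_lit 114, nat_lit 20569932033)]⟩,
   ⟨V6_10907566209, [(nat_lit 91, nat_lit 15202533633), (nat_lit 48, nat_lit 16276275393), (nat_lit 47, nat_lit 17350017153)]⟩],
  [W_14128267328, W_13054787648, W_10907566208, W_10907304128]⟩
theorem C_15202533633 : chkRec R_15202533633 = true := by decide +kernel

noncomputable def R_15202537602 : Rec := ⟨nat_lit 15202537602, nat_lit 14,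
  [⟨V6_14111744130, [(nat_lit 7, nat_lit 15202537602), (nat_lit 107, nat_lit 16276275330), (nat_lit 72, nat_lit 16276017282), (nat_lit 117, nat_lit 16259502210), (nat_lit 76, nat_lit 17350013058), (nat_lit 76, nat_lit 17349755010), (nat_lit 8, nat_lit 17333239938), (nat_lit 8, nat_lit 17332981890), (nat_lit 8, nat_lit 18423750786), (nat_lit 60, nat_lit 18423492738), (nat_lit 5, nat_lit 18406977666), (nat_lit 78, nat_lit 18406719618), (nat_lit 90, nat_lit 19497230466), (nat_lit 115, nat_lit 19480715394), (nat_lit 32, nat_lit 19480457346), (nat_lit 74, nat_lit 20554195074)]⟩,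
   ⟨V6_10907566209, [(nat_lit 115, nat_lit 15202537602), (nat_lit 117, nat_lit 16276279425), (nat_lit 3, nat_lit 16276275330), (nat_lit 37, nat_lit 17350017153)]⟩,
   ⟨V6_10907308161, [(nat_lit 8, nat_lit 15202537602), (nat_lit 71, nat_lit 16276279425), (nat_lit 111, nat_lit 16276017282), (nat_lit 108, nat_lit 17349759105)]⟩,
   ⟨V6_10907304066, [(nat_lit 45, nat_lit 15202537602), (nat_lit 56, nat_lit 16276275330), (nat_lit 75, nat_lit 16276017282), (nat_lit 69, nat_lit 17349755010)]⟩,
   ⟨V6_10907046018, [(nat_lit 17, nat_lit 15202537602), (nat_lit 19, nat_lit 16276017282), (nat_lit 24, nat_lit 17349496962)]⟩],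
  [W_15202001024, W_15201484928, W_15185485952, W_14127747200, W_13054267520]⟩
theorem C_15202537602 : chkRec R_15202537602 = true := by decide +kernel

noncomputable def R_15202537665 : Rec := ⟨nat_lit 15202537665, nat_lit 37,
  [⟨V6_15202267200, [(nat_lit 60, nat_lit 15202537665), (nat_lit 11, nat_lit 16276279488), (nat_lit 115, nat_lit 16276279425), (nat_lit 111, nat_lit 16276275393), (nat_lit 21, nat_lit 16276017345), (nat_lit 115, nat_lit 17350021248), (nat_lit 71, nat_lit 17350021185), (nat_lit 116, nat_lit 17350017216), (nat_lit 29, nat_lit 17350017153), (nat_lit 33, nat_lit 17350013121), (nat_lit 16, nat_lit 17349759168), (nat_lit 55, nat_lit 17349759105), (nat_lit 100, nat_lit 17349755073), (nat_lit 10, nat_lit 18423763008), (nat_lit 77, nat_lit 18423758976), (nat_lit 23, nat_lit 18423758913), (nat_lit 104, nat_lit 18423754944), (nat_lit 79, nat_lit 18423754881), (nat_lit 29, nat_lit 18423500928), (nat_lit 117, nat_lit 18423500865), (nat_lit 68, nat_lit 18423496896), (nat_lit 86, nat_lit 18423496833), (nat_lit 60, nat_lit 18423492801),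 (nat_lit 115, nat_lit 19497500736), (nat_lit 3, nat_lit 19497496704), (nat_lit 36, nat_lit 19497496641), (nat_lit 43, nat_lit 19497242688), (nat_lit 95, nat_lit 19497238656), (nat_lit 88, nat_lit 19497238593), (nat_lit 106, nat_lit 19497234624), (nat_lit 18, nat_lit 19497234561), (nat_lit 124, nat_lit 20571238464), (nat_lit 105, nat_lit 20570980416), (nat_lit 58, nat_lit 20570976384), (nat_lit 3, nat_lit 20570976321), (nat_lit 27, nat_lit 21644718144)]⟩],
  [W_15201747008, W_15185231936, W_15184973888, W_14112010304, W_14111486144, W_14110970048, W_11964526784, W_11964010688, W_10907566208]⟩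
theorem C_15202537665 : chkRec R_15202537665 = true := by decide +kernel

noncomputable def R_15202537728 : Rec := ⟨nat_lit 15202537728, nat_lit 42,
  [⟨V6_15185756160, [(nat_lit 42, nat_lit 15202537728), (nat_lit 94, nat_lit 16276279488), (nat_lit 125, nat_lit 16276275456), (nat_lit 41, nat_lit 16259502336), (nat_lit 8, nat_lit 17350021248), (nat_lit 117, nat_lit 17350017216), (nat_lit 114, nat_lit 17333244096), (nat_lit 13, nat_lit 17333240064), (nat_lit 74, nat_lit 18423763008), (nat_lit 72, nat_lit 18423758976), (nat_lit 102, nat_lit 18406985856), (nat_lit 42, nat_lit 18406981824), (nat_lit 10, nat_lit 19497504768), (nat_lit 50, nat_lit 19497500736), (nat_lit 83, nat_lit 19480727616), (nat_lit 64, nat_lit 19480723584), (nat_lit 100, nat_lit 20571242496), (nat_lit 22, nat_lit 20554469376), (nat_lit 26, nat_lit 20554465344), (nat_lit 87, nat_lit 21628207104)]⟩,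
   ⟨V6_14112018432, [(nat_lit 30, nat_lit 15202537728), (nat_lit 91, nat_lit 16276279488), (nat_lit 84, nat_lit 16259502336), (nat_lit 33, nat_lit 17350021248), (nat_lit 124, nat_lit 17333244096), (nat_lit 72, nat_lit 18423763008), (nat_lit 31, nat_lit 18406985856), (nat_lit 70, nat_lit 19497504768), (nat_lit 119, nat_lit 19480727616), (nat_lit 57, nat_lit 20554469376)]⟩,
   ⟨V6_13055053824, [(nat_lit 98, nat_lit 15202537728), (nat_lit 42, nat_lit 16276279488), (nat_lit 52, nat_lit 17350021248), (nat_lit 86, nat_lit 18423763008), (nat_lit 35, nat_lit 19497504768)]⟩],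
  [W_15202009088, W_15201747008, W_15184969856, W_14110970048, W_13054263488, W_13054001408, W_11980783808, W_11980525760, W_10907042048]⟩
theorem C_15202537728 : chkRec R_15202537728 = true := by decide +kernel

noncomputable def R_15202541697 : Rec := ⟨nat_lit 15202541697, nat_lit 40,
  [⟨V6_14128013376, [(nat_lit 58, nat_lit 15202541697), (nat_lit 82, nat_lit 16276283520), (nat_lit 31, nat_lit 16276283457), (nat_lit 15, nat_lit 16276021377), (nat_lit 38, nat_lit 17350025280), (nat_lit 92, nat_lit 17349763200), (nat_lit 115, nat_lit 17349763137), (nat_lit 57, nat_lit 17349501057), (nat_lit 122, nat_lit 18423504960), (nat_lit 94, nat_lit 18423242880), (nat_lit 71, nat_lit 18423242817), (nat_lit 19, nat_lit 18422980737), (nat_lit 41, nat_lit 19496984640), (nat_lit 73, nat_lit 19496722560), (nat_lit 115, nat_lit 19496722497), (nat_lit 119, nat_lit 20570464320)]⟩,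
   ⟨V6_10907312256, [(nat_lit 39, nat_lit 15202541697), (nat_lit 79, nat_lit 16276283520), (nat_lit 36, nat_lit 16276021377), (nat_lit 96, nat_lit 17349763200)]⟩],
  [W_15202001024, W_15201747008, W_15185489984, W_15185485952, W_15185231936, W_14112010304, W_13038268544, W_10907566208]⟩
theorem C_15202541697 : chkRec R_15202541697 = true := by decide +kernel

noncomputable def R_15202541760 : Rec := ⟨nat_lit 15202541760, nat_lit 66,
  [⟨V6_15201755136, [(nat_lit 87, nat_lit 15202541760), (nat_lit 110, nat_lit 16276283520), (nat_lit 65, nat_lit 16276021440), (nat_lit 53, nat_lit 17350025280), (nat_lit 20, nat_lit 17349763200), (nat_lit 113, nat_lit 17349501120), (nat_lit 45, nat_lit 18423767040), (nat_lit 62, nat_lit 18423504960), (nat_lit 7, nat_lit 18423242880), (nat_lit 19, nat_lit 18422980800), (nat_lit 117, nat_lit 19497246720), (nat_lit 118, nat_lit 19496984640), (nat_lit 12, nat_lit 19496722560), (nat_lit 98, nat_lit 20570726400), (nat_lit 16, nat_lit 20570464320), (nat_lit 19, nat_lit 21644206080)]⟩,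
   ⟨V6_14112018432, [(nat_lit 34, nat_lit 15202541760), (nat_lit 112, nat_lit 16276283520), (nat_lit 31, nat_lit 16276279488), (nat_lit 39, nat_lit 16259506368), (nat_lit 30, nat_lit 17350025280), (nat_lit 90, nat_lit 17350021248), (nat_lit 94, nat_lit 17333248128), (nat_lit 110, nat_lit 17333244096), (nat_lit 23, nat_lit 18423767040), (nat_lit 3, nat_lit 18423763008), (nat_lit 111, nat_lit 18406989888), (nat_lit 44, nat_lit 18406985856), (nat_lit 88, nat_lit 19497504768), (nat_lit 42, nat_lit 19480731648), (nat_lit 121, nat_lit 19480727616), (nat_lit 67, nat_lit 20554469376)]⟩,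
   ⟨V6_13055053824, [(nat_lit 84, nat_lit 15202541760), (nat_lit 29, nat_lit 16276283520), (nat_lit 112, nat_lit 16276279488), (nat_lit 81, nat_lit 17350025280), (nat_lit 61, nat_lit 17350021248), (nat_lit 13, nat_lit 18423767040), (nat_lit 120, nat_lit 18423763008), (nat_lit 44, nat_lit 19497504768)]⟩,
   ⟨V6_10907312256, [(nat_lit 62, nat_lit 15202541760), (nat_lit 52, nat_lit 16276283520), (nat_lit 81, nat_lit 16276021440), (nat_lit 14, nat_lit 17349763200)]⟩],
  [W_15202009088, W_15201747008, W_15185494016, W_15185489984, W_15185231936, W_15184969856, W_14128787456, W_14128001216, W_11964526784]⟩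
theorem C_15202541760 : chkRec R_15202541760 = true := by decide +kernel

noncomputable def R_15202545729 : Rec := ⟨nat_lit 15202545729, nat_lit 19,
  [⟨V6_14128787520, [(nat_lit 65, nat_lit 15202545729), (nat_lit 1, nat_lit 16276287552), (nat_lit 32, nat_lit 16276283457), (nat_lit 21, nat_lit 17350025280), (nat_lit 45, nat_lit 17350021185), (nat_lit 17, nat_lit 18423763008), (nat_lit 29, nat_lit 18423758913), (nat_lit 94, nat_lit 19497500736), (nat_lit 76, nat_lit 19497496641), (nat_lit 61, nat_lit 20571238464)]⟩],
  [W_15202521152, W_15185489984, W_15185231936, W_11964018752]⟩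
theorem C_15202545729 : chkRec R_15202545729 = true := by decide +kernel

noncomputable def R_15202545792 : Rec := ⟨nat_lit 15202545792, nat_lit 50,
  [⟨V6_15202263168, [(nat_lit 37, nat_lit 15202545792), (nat_lit 88, nat_lit 16276283520), (nat_lit 83, nat_lit 16276025472), (nat_lit 6, nat_lit 17350021248), (nat_lit 23, nat_lit 17349763200), (nat_lit 62, nat_lit 18423758976), (nat_lit 34, nat_lit 18423500928), (nat_lit 38, nat_lit 19497496704), (nat_lit 52, nat_lit 19497238656), (nat_lit 126, nat_lit 20571234432), (nat_lit 13, nat_lit 20570976384), (nat_lit 11, nat_lit 21644714112)]⟩,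
   ⟨V6_11981058048, [(nat_lit 26, nat_lit 15202545792), (nat_lit 46, nat_lit 16276287552), (nat_lit 97, nat_lit 16276025472), (nat_lit 22, nat_lit 17350029312), (nat_lit 116, nat_lit 17349767232), (nat_lit 18, nat_lit 18423508992)]⟩,
   ⟨V6_10907316288, [(nat_lit 77, nat_lit 15202545792), (nat_lit 126, nat_lit 16276287552), (nat_lit 42, nat_lit 16276025472), (nat_lit 54, nat_lit 17349767232)]⟩,
   ⟨V6_10907312256, [(nat_lit 24, nat_lit 15202545792), (nat_lit 49, nat_lit 16276283520), (nat_lit 115, nat_lit 16276025472), (nat_lit 28, nat_lit 17349763200)]⟩],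
  [W_15202009088, W_15185752064, W_15185494016, W_15185231936, W_14128787456, W_14112014336, W_11980795904, W_10907316224]⟩
theorem C_15202545792 : chkRec R_15202545792 = true := by decide +kernel

noncomputable def R_15202549824 : Rec := ⟨nat_lit 15202549824, nat_lit 28,
  [⟨V6_14128787520, [(nat_lit 111, nat_lit 15202549824), (nat_lit 64, nat_lit 16276287552), (nat_lit 80, nat_lit 17350025280), (nat_lit 18, nat_lit 18423763008), (nat_lit 51, nat_lit 19497500736), (nat_lit 111, nat_lit 20571238464)]⟩],
  [W_15202525184, W_15202521152, W_15185494016, W_14112014336, W_11964280832, W_10907574272, W_10907316224]⟩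
theorem C_15202549824 : chkRec R_15202549824 = true := by decide +kernel

noncomputable def R_15202553856 : Rec := ⟨nat_lit 15202553856, nat_lit 4,
  [⟨V6_13038280704, [(nat_lit 48, nat_lit 15202553856), (nat_lit 63, nat_lit 16276291584), (nat_lit 79, nat_lit 16259518464), (nat_lit 59, nat_lit 17350029312), (nat_lit 72, nat_lit 17333256192), (nat_lit 84, nat_lit 18423767040), (nat_lit 107, nat_lit 18406993920), (nat_lit 22, nat_lit 19480731648)]⟩],
  [W_15202525184]⟩
theorem C_15202553856 : chkRec R_15202553856 = true := by decide +kernel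

noncomputable def R_15202791618 : Rec := ⟨nat_lit 15202791618, nat_lit 2,
  [⟨V6_15201218754, [(nat_lit 47, nat_lit 15202791618), (nat_lit 103, nat_lit 16276271298), (nat_lit 116, nat_lit 17349750978), (nat_lit 93, nat_lit 18423230658), (nat_lit 42, nat_lit 19496710338), (nat_lit 54, nat_lit 20570190018), (nat_lit 87, nat_lit 21643669698)]⟩,
   ⟨V6_10907562177, [(nat_lit 100, nat_lit 15202791618), (nat_lit 87, nat_lit 16276533441), (nat_lit 48, nat_lit 16276271298), (nat_lit 67, nat_lit 17350013121)]⟩],
  [W_14128263296]⟩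
theorem C_15202791618 : chkRec R_15202791618 = true := by decide +kernel

noncomputable def R_15202795650 : Rec := ⟨nat_lit 15202795650, nat_lit 11,
  [⟨V6_15202263168, [(nat_lit 79, nat_lit 15202795650), (nat_lit 14, nat_lit 16276537473), (nat_lit 67, nat_lit 16276533378), (nat_lit 60, nat_lit 16276275330), (nat_lit 117, nat_lit 17350279296), (nat_lit 61, nat_lit 17350275201), (nat_lit 35, nat_lit 17350271106), (nat_lit 112, nat_lit 17350017153), (nat_lit 21, nat_lit 17350013058), (nat_lit 85, nat_lit 17349755010), (nat_lit 99, nat_lit 18424017024), (nat_lit 83, nat_lit 18424012929), (nat_lit 42, nat_lit 18423758976), (nat_lit 96, nat_lit 18423754881), (nat_lit 44, nat_lit 18423750786), (nat_lit 26, nat_lit 18423496833), (nat_lit 56, nat_lit 18423492738), (nat_lit 45, nat_lit 19497754752), (nat_lit 101, nat_lit 19497496704), (nat_lit 63, nat_lit 19497492609), (nat_lit 90, nat_lit 19497238656), (nat_lit 11, nat_lit 19497234561), (nat_lit 21, nat_lit 19497230466), (nat_lit 58, nat_lit 20571234432), (nat_lit 36, nat_lit 20570976384), (nat_lit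 86, nat_lit 20570972289), (nat_lit 67, nat_lit 21644714112)]⟩],
  [W_15202001024, W_15201484928, W_14128521344]⟩
theorem C_15202795650 : chkRec R_15202795650 = true := by decide +kernel

noncomputable def R_15202795713 : Rec := ⟨nat_lit 15202795713, nat_lit 18,
  [⟨V6_14128787520, [(nat_lit 8, nat_lit 15202795713), (nat_lit 44, nat_lit 16276537536), (nat_lit 114, nat_lit 16276537473), (nat_lit 3, nat_lit 16276533441), (nat_lit 7, nat_lit 16276275393), (nat_lit 118, nat_lit 17350279296), (nat_lit 78, nat_lit 17350279233), (nat_lit 41, nat_lit 17350275264), (nat_lit 57, nat_lit 17350275201), (nat_lit 29, nat_lit 17350017216), (nat_lit 126, nat_lit 17350017153), (nat_lit 89, nat_lit 17350013121), (nat_lit 72, nat_lit 18424021056), (nat_lit 35, nat_lit 18424017024), (nat_lit 28, nat_lit 18424016961), (nat_lit 111, nat_lit 18423758976), (nat_lit 33, nat_lit 18423758913), (nat_lit 25, nat_lit 18423754944), (nat_lit 104, nat_lit 18423754881), (nat_lit 66, nat_lit 19497758784), (nat_lit 69, nat_lit 19497500736), (nat_lit 40, nat_lit 19497496704),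 (nat_lit 76, nat_lit 19497496641), (nat_lit 52, nat_lit 20571238464)]⟩],
  [W_15201747008, W_15201222848, W_11981566016, W_10907828288, W_10907566208, W_10907304128]⟩
theorem C_15202795713 : chkRec R_15202795713 = true := by decide +kernel

noncomputable def R_15202795776 : Rec := ⟨nat_lit 15202795776, nat_lit 22,
  [⟨V6_15201222912, [(nat_lit 22, nat_lit 15202795776), (nat_lit 32, nat_lit 16276275456), (nat_lit 57, nat_lit 17349755136), (nat_lit 3, nat_lit 18423234816), (nat_lit 71, nat_lit 19496714496), (nat_lit 55, nat_lit 20570194176), (nat_lit 11, nat_lit 21643673856)]⟩,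
   ⟨V6_13055311872, [(nat_lit 118, nat_lit 15202795776), (nat_lit 105, nat_lit 16276537536), (nat_lit 3, nat_lit 17350279296), (nat_lit 88, nat_lit 18424021056), (nat_lit 24, nat_lit 19497762816)]⟩],
  [W_15202009088, W_11981570048, W_11980783808, W_10907828288, W_10907304128, W_10907042048]⟩
theorem C_15202795776 : chkRec R_15202795776 = true := by decide +kernel

noncomputable def R_15202799745 : Rec := ⟨nat_lit 15202799745, nat_lit 24,
  [⟨V6_15202263168, [(nat_lit 112, nat_lit 15202799745), (nat_lit 36, nat_lit 16276541568), (nat_lit 3, nat_lit 16276537473), (nat_lit 69, nat_lit 16276279425), (nat_lit 100, nat_lit 17350279296), (nat_lit 65, nat_lit 17350275201), (nat_lit 59, nat_lit 17350021248), (nat_lit 107, nat_lit 17350017153), (nat_lit 72, nat_lit 17349759105), (nat_lit 105, nat_lit 18424017024), (nat_lit 71, nat_lit 18424012929), (nat_lit 96, nat_lit 18423758976), (nat_lit 48, nat_lit 18423754881), (nat_lit 93, nat_lit 18423500928), (nat_lit 39, nat_lit 18423496833), (nat_lit 52, nat_lit 19497754752), (nat_lit 14, nat_lit 19497496704),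 (nat_lit 14, nat_lit 19497492609), (nat_lit 50, nat_lit 19497238656), (nat_lit 30, nat_lit 19497234561), (nat_lit 10, nat_lit 20571234432), (nat_lit 71, nat_lit 20570976384), (nat_lit 85, nat_lit 20570972289), (nat_lit 65, nat_lit 21644714112)]⟩],
  [W_15201747008, W_15201488960, W_14128525376, W_10907828288]⟩
theorem C_15202799745 : chkRec R_15202799745 = true := by decide +kernel

noncomputable def R_15202799808 : Rec := ⟨nat_lit 15202799808, nat_lit 36,
  [⟨V6_15202529280, [(nat_lit 123, nat_lit 15202799808), (nat_lit 88, nat_lit 16276541568), (nat_lit 110, nat_lit 16276537536), (nat_lit 121, nat_lit 16276279488), (nat_lit 21, nat_lit 17350283328), (nat_lit 8, nat_lit 17350279296), (nat_lit 37, nat_lit 17350275264), (nat_lit 13, nat_lit 17350021248), (nat_lit 79, nat_lit 17350017216), (nat_lit 108, nat_lit 18424025088), (nat_lit 69, nat_lit 18424021056), (nat_lit 49, nat_lit 18424017024), (nat_lit 25, nat_lit 18423763008), (nat_lit 117, nat_lit 18423758976), (nat_lit 17, nat_lit 18423754944), (nat_lit 34, nat_lit 19497762816), (nat_lit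 25, nat_lit 19497758784), (nat_lit 48, nat_lit 19497504768), (nat_lit 113, nat_lit 19497500736), (nat_lit 40, nat_lit 19497496704), (nat_lit 34, nat_lit 20571500544), (nat_lit 99, nat_lit 20571242496), (nat_lit 63, nat_lit 20571238464), (nat_lit 109, nat_lit 21644980224)]⟩],
  [W_15202009088, W_15201747008, W_15201484928, W_14128001216, W_10907304128]⟩
theorem C_15202799808 : chkRec R_15202799808 = true := by decide +kernel

noncomputable def R_15202803777 : Rec := ⟨nat_lit 15202803777, nat_lit 14,
  [⟨V6_14128013376, [(nat_lit 124, nat_lit 15202803777), (nat_lit 82, nat_lit 16276545600), (nat_lit 100, nat_lit 16276283457), (nat_lit 38, nat_lit 17350025280), (nat_lit 62, nat_lit 17349763137), (nat_lit 26, nat_lit 18423504960), (nat_lit 70, nat_lit 18423242817), (nat_lit 100, nat_lit 19496984640), (nat_lit 55, nat_lit 19496722497), (nat_lit 41, nat_lit 20570464320)]⟩],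
  [W_15201747008, W_13055303744, W_11981566016, W_10907828288]⟩
theorem C_15202803777 : chkRec R_15202803777 = true := by decide +kernel

noncomputable def R_15202803840 : Rec := ⟨nat_lit 15202803840, nat_lit 51,
  [⟨V6_15201755136, [(nat_lit 55, nat_lit 15202803840), (nat_lit 35, nat_lit 16276545600), (nat_lit 64, nat_lit 16276283520), (nat_lit 61, nat_lit 17350287360), (nat_lit 97, nat_lit 17350025280), (nat_lit 109, nat_lit 17349763200), (nat_lit 77, nat_lit 18423767040), (nat_lit 14, nat_lit 18423504960), (nat_lit 98, nat_lit 18423242880), (nat_lit 86, nat_lit 19497246720), (nat_lit 48, nat_lit 19496984640), (nat_lit 105, nat_lit 19496722560), (nat_lit 1, nat_lit 20570726400), (nat_lit 116, nat_lit 20570464320), (nat_lit 114, nat_lit 21644206080)]⟩,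
   ⟨V6_13055311872, [(nat_lit 105, nat_lit 15202803840), (nat_lit 83, nat_lit 16276545600), (nat_lit 97, nat_lit 16276541568), (nat_lit 111, nat_lit 17350287360), (nat_lit 1, nat_lit 17350283328), (nat_lit 115, nat_lit 17350279296), (nat_lit 36, nat_lit 18424025088), (nat_lit 58, nat_lit 18424021056), (nat_lit 16, nat_lit 19497762816)]⟩,
   ⟨V6_10907312256, [(nat_lit 111, nat_lit 15202803840), (nat_lit 118, nat_lit 16276283520), (nat_lit 89, nat_lit 17349763200)]⟩],
  [W_15202525184, W_15202009088, W_15202001024, W_15201747008, W_14129045504, W_13055303744]⟩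
theorem C_15202803840 : chkRec R_15202803840 = true := by decide +kernel

noncomputable def R_15202807872 : Rec := ⟨nat_lit 15202807872, nat_lit 32,
  [⟨V6_15202787328, [(nat_lit 33, nat_lit 15202807872), (nat_lit 106, nat_lit 16276549632), (nat_lit 10, nat_lit 16276545600), (nat_lit 19, nat_lit 17350287360), (nat_lit 28, nat_lit 17350283328), (nat_lit 9, nat_lit 18424025088), (nat_lit 53, nat_lit 18424021056), (nat_lit 58, nat_lit 19497762816), (nat_lit 18, nat_lit 19497758784), (nat_lit 79, nat_lit 20571500544), (nat_lit 26, nat_lit 20571496512), (nat_lit 49, nat_lit 21645238272)]⟩,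
   ⟨V6_15202783296, [(nat_lit 30, nat_lit 15202807872), (nat_lit 125, nat_lit 16276545600), (nat_lit 121, nat_lit 17350283328), (nat_lit 66, nat_lit 18424021056), (nat_lit 13, nat_lit 19497758784), (nat_lit 7, nat_lit 20571496512), (nat_lit 114, nat_lit 21645234240)]⟩,
   ⟨V6_10907316288, [(nat_lit 95, nat_lit 15202807872), (nat_lit 109, nat_lit 16276287552), (nat_lit 51, nat_lit 17349767232)]⟩],
  [W_15202009088, W_14128267328, W_11980795904, W_11980791872, W_10907832320, W_10907316224]⟩
theorem C_15202807872 : chkRec R_15202807872 = true := by decide +kernel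

noncomputable def R_15202811904 : Rec := ⟨nat_lit 15202811904, nat_lit 17,
  [⟨V6_13055311872, [(nat_lit 74, nat_lit 15202811904), (nat_lit 123, nat_lit 16276549632), (nat_lit 39, nat_lit 17350287360), (nat_lit 44, nat_lit 18424025088), (nat_lit 99, nat_lit 19497762816)]⟩,
   ⟨V6_10907320320, [(nat_lit 105, nat_lit 15202811904), (nat_lit 67, nat_lit 16276291584), (nat_lit 43, nat_lit 17349771264)]⟩],
  [W_15202525184, W_14129045504, W_10907574272, W_10907316224]⟩
theorem C_15202811904 : chkRec R_15202811904 = true := by decide +kernel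

noncomputable def R_15218262276 : Rec := ⟨nat_lit 15218262276, nat_lit 1,
  [⟨V6_15134114052, [(nat_lit 96, nat_lit 15218262276), (nat_lit 120, nat_lit 16291741956), (nat_lit 51, nat_lit 16275226884), (nat_lit 75, nat_lit 17348706564), (nat_lit 49, nat_lit 17332191492), (nat_lit 104, nat_lit 18405671172), (nat_lit 102, nat_lit 18389156100), (nat_lit 70, nat_lit 19462635780), (nat_lit 99, nat_lit 19446120708), (nat_lit 65, nat_lit 20519600388), (nat_lit 112, nat_lit 20503085316), (nat_lit 25, nat_lit 21576564996)]⟩],
  [W_15167930624]⟩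
theorem C_15218262276 : chkRec R_15218262276 = true := by decide +kernel

noncomputable def R_15218266371 : Rec := ⟨nat_lit 15218266371, nat_lit 1,
  [⟨V6_11963486466, [(nat_lit 95, nat_lit 15218266371), (nat_lit 120, nat_lit 16292008194), (nat_lit 107, nat_lit 16275230979), (nat_lit 40, nat_lit 17348972802), (nat_lit 96, nat_lit 17332195587), (nat_lit 35, nat_lit 18405937410)]⟩],
  [W_11997040832]⟩
theorem C_15218266371 : chkRec R_15218266371 = true := by decide +kernel

noncomputable def R_15218266434 : Rec := ⟨nat_lit 15218266434, nat_lit 1,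
  [⟨V6_11963486466, [(nat_lit 122, nat_lit 15218266434), (nat_lit 31, nat_lit 16292008194), (nat_lit 101, nat_lit 16275231042), (nat_lit 94, nat_lit 17348972802), (nat_lit 116, nat_lit 17332195650), (nat_lit 97, nat_lit 18405937410)]⟩],
  [W_13070782592]⟩
theorem C_15218266434 : chkRec R_15218266434 = true := by decide +kernel

noncomputable def R_15218524419 : Rec := ⟨nat_lit 15218524419, nat_lit 5,
  [⟨V6_15134638338, [(nat_lit 58, nat_lit 15218524419), (nat_lit 8, nat_lit 16292266242), (nat_lit 45, nat_lit 16275489027), (nat_lit 69, nat_lit 17349230850), (nat_lit 126, nat_lit 17332453635), (nat_lit 64, nat_lit 18406195458), (nat_lit 59, nat_lit 18389418243), (nat_lit 60, nat_lit 19463160066), (nat_lit 26, nat_lit 19446382851), (nat_lit 30, nat_lit 20520124674), (nat_lit 71, nat_lit 20503347459), (nat_lit 6, nat_lit 21577089282)]⟩,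
   ⟨V6_13070516418, [(nat_lit 71, nat_lit 15218524419), (nat_lit 110, nat_lit 16292266242), (nat_lit 59, nat_lit 16292266179), (nat_lit 88, nat_lit 16292004099), (nat_lit 39, nat_lit 17366008002), (nat_lit 14, nat_lit 17365745922), (nat_lit 91, nat_lit 17365745859), (nat_lit 125, nat_lit 17365483779), (nat_lit 27, nat_lit 18439487682), (nat_lit 23, nat_lit 18439225602), (nat_lit 37, nat_lit 18439225539), (nat_lit 110, nat_lit 19512967362)]⟩],
  [W_15201222848, W_14094450944, W_13054001408]⟩
theorem C_15218524419 : chkRec R_15218524419 = true := by decide +kernel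

noncomputable def R_15218528451 : Rec := ⟨nat_lit 15218528451, nat_lit 5,
  [⟨V6_15151157442, [(nat_lit 65, nat_lit 15218528451), (nat_lit 54, nat_lit 16292270274), (nat_lit 113, nat_lit 16292008131), (nat_lit 104, nat_lit 16275493059), (nat_lit 15, nat_lit 17365749954), (nat_lit 41, nat_lit 17349234882), (nat_lit 43, nat_lit 17348972739), (nat_lit 3, nat_lit 17332457667), (nat_lit 48, nat_lit 18422714562), (nat_lit 53, nat_lit 18406199490), (nat_lit 97, nat_lit 18405937347), (nat_lit 43, nat_lit 18389422275), (nat_lit 108, nat_lit 19479679170), (nat_lit 93, nat_lit 19463164098), (nat_lit 7, nat_lit 19462901955), (nat_lit 126, nat_lit 19446386883), (nat_lit 90, nat_lit 20536643778), (nat_lit 31, nat_lit 20520128706), (nat_lit 12, nat_lit 20519866563), (nat_lit 2, nat_lit 21593608386)]⟩,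
   ⟨V6_15134642370, [(nat_lit 42, nat_lit 15218528451), (nat_lit 89, nat_lit 16292270274), (nat_lit 72, nat_lit 16275493059), (nat_lit 85, nat_lit 17349234882), (nat_lit 100, nat_lit 17332457667), (nat_lit 77, nat_lit 18406199490), (nat_lit 69, nat_lit 18389422275), (nat_lit 96, nat_lit 19463164098), (nat_lit 67, nat_lit 19446386883), (nat_lit 48, nat_lit 20520128706), (nat_lit 12, nat_lit 20503351491), (nat_lit 35, nat_lit 21577093314)]⟩,
   ⟨V6_13070774466, [(nat_lit 91, nat_lit 15218528451), (nat_lit 102, nat_lit 16292270274), (nat_lit 103, nat_lit 16292266179), (nat_lit 38, nat_lit 16292008131), (nat_lit 81, nat_lit 17366008002), (nat_lit 87, nat_lit 17366003907), (nat_lit 9, nat_lit 17365749954), (nat_lit 62, nat_lit 17365745859), (nat_lit 9, nat_lit 18439745730), (nat_lit 17, nat_lit 18439487682), (nat_lit 21, nat_lit 18439483587), (nat_lit 18, nat_lit 19513225410)]⟩,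
   ⟨V6_13037482179, [(nat_lit 53, nat_lit 15218528451), (nat_lit 17, nat_lit 16292266179), (nat_lit 74, nat_lit 16275493059), (nat_lit 83, nat_lit 17366003907), (nat_lit 17, nat_lit 17349230787), (nat_lit 76, nat_lit 17332457667), (nat_lit 38, nat_lit 18422968515), (nat_lit 48, nat_lit 18406195395), (nat_lit 72, nat_lit 19479933123)]⟩,
   ⟨V6_11997040833, [(nat_lit 71, nat_lit 15218528451), (nat_lit 39, nat_lit 16292270274), (nat_lit 86, nat_lit 16292008131), (nat_lit 114, nat_lit 17366012097), (nat_lit 26, nat_lit 17365749954), (nat_lit 67, nat_lit 18439491777)]⟩],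
  [W_14144516288, W_14128001216, W_11997040832]⟩
theorem C_15218528451 : chkRec R_15218528451 = true := by decide +kernel

noncomputable def R_15218528514 : Rec := ⟨nat_lit 15218528514, nat_lit 12,
  [⟨V6_15151419522, [(nat_lit 54, nat_lit 15218528514), (nat_lit 97, nat_lit 16292270274), (nat_lit 6, nat_lit 16275493122), (nat_lit 14, nat_lit 17366012034), (nat_lit 24, nat_lit 17349234882), (nat_lit 12, nat_lit 17332457730), (nat_lit 92, nat_lit 18422976642), (nat_lit 74, nat_lit 18406199490), (nat_lit 64, nat_lit 18389422338), (nat_lit 15, nat_lit 19479941250), (nat_lit 71, nat_lit 19463164098), (nat_lit 109, nat_lit 19446386946), (nat_lit 46, nat_lit 20536905858), (nat_lit 26, nat_lit 20520128706), (nat_lit 103, nat_lit 21593870466)]⟩,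
   ⟨V6_15151157505, [(nat_lit 63, nat_lit 15218528514), (nat_lit 121, nat_lit 16292270337), (nat_lit 59, nat_lit 16292008194), (nat_lit 73, nat_lit 16275493122), (nat_lit 56, nat_lit 17365750017), (nat_lit 92, nat_lit 17349234945), (nat_lit 19, nat_lit 17348972802), (nat_lit 56, nat_lit 17332457730), (nat_lit 82, nat_lit 18422714625), (nat_lit 115, nat_lit 18406199553), (nat_lit 32, nat_lit 18405937410), (nat_lit 118, nat_lit 18389422338), (nat_lit 120, nat_lit 19479679233), (nat_lit 82, nat_lit 19463164161), (nat_lit 107, nat_lit 19462902018), (nat_lit 14, nat_lit 19446386946), (nat_lit 99, nat_lit 20536643841), (nat_lit 4, nat_lit 20520128769), (nat_lit 35, nat_lit 20519866626), (nat_lit 79, nat_lit 21593608449)]⟩,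
   ⟨V6_15151157442, [(nat_lit 11, nat_lit 15218528514), (nat_lit 3, nat_lit 16292270274), (nat_lit 17, nat_lit 16292008194), (nat_lit 114, nat_lit 16275493122), (nat_lit 95, nat_lit 17365749954), (nat_lit 44, nat_lit 17349234882), (nat_lit 43, nat_lit 17348972802), (nat_lit 64, nat_lit 17332457730), (nat_lit 18, nat_lit 18422714562), (nat_lit 21, nat_lit 18406199490), (nat_lit 40, nat_lit 18405937410), (nat_lit 3, nat_lit 18389422338), (nat_lit 14, nat_lit 19479679170), (nat_lit 1, nat_lit 19463164098), (nat_lit 2, nat_lit 19462902018), (nat_lit 126, nat_lit 19446386946), (nat_lit 12, nat_lit 20536643778), (nat_lit 27, nat_lit 20520128706), (nat_lit 31, nat_lit 20519866626), (nat_lit 47, nat_lit 21593608386)]⟩,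
   ⟨V6_15134642370, [(nat_lit 65, nat_lit 15218528514), (nat_lit 12, nat_lit 16292270274), (nat_lit 95, nat_lit 16275493122), (nat_lit 116, nat_lit 17349234882), (nat_lit 111, nat_lit 17332457730), (nat_lit 100, nat_lit 18406199490), (nat_lit 88, nat_lit 18389422338), (nat_lit 42, nat_lit 19463164098), (nat_lit 83, nat_lit 19446386946), (nat_lit 50, nat_lit 20520128706), (nat_lit 27, nat_lit 20503351554), (nat_lit 74, nat_lit 21577093314)]⟩,
   ⟨V6_15134638338, [(nat_lit 6, nat_lit 15218528514), (nat_lit 37, nat_lit 16292266242), (nat_lit 100, nat_lit 16275493122), (nat_lit 103, nat_lit 17349230850), (nat_lit 124, nat_lit 17332457730), (nat_lit 89, nat_lit 18406195458), (nat_lit 3, nat_lit 18389422338), (nat_lit 79, nat_lit 19463160066), (nat_lit 27, nat_lit 19446386946), (nat_lit 58, nat_lit 20520124674), (nat_lit 121, nat_lit 20503351554), (nat_lit 22, nat_lit 21577089282)]⟩,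
   ⟨V6_14060900610, [(nat_lit 115, nat_lit 15218528514), (nat_lit 36, nat_lit 16275493122), (nat_lit 79, nat_lit 17332457730), (nat_lit 125, nat_lit 18389422338), (nat_lit 96, nat_lit 19446386946), (nat_lit 2, nat_lit 20503351554)]⟩,
   ⟨V6_11997040833, [(nat_lit 49, nat_lit 15218528514), (nat_lit 77, nat_lit 16292270337), (nat_lit 108, nat_lit 16292270274), (nat_lit 94, nat_lit 16292008194), (nat_lit 73, nat_lit 17366012097), (nat_lit 82, nat_lit 17365750017), (nat_lit 80, nat_lit 17365749954), (nat_lit 65, nat_lit 18439491777)]⟩,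
   ⟨V6_11997036801, [(nat_lit 69, nat_lit 15218528514), (nat_lit 14, nat_lit 16292270337), (nat_lit 28, nat_lit 16292266242), (nat_lit 121, nat_lit 16292008194), (nat_lit 55, nat_lit 17366008065), (nat_lit 71, nat_lit 17365750017), (nat_lit 17, nat_lit 17365745922), (nat_lit 3, nat_lit 18439487745)]⟩],
  [W_15184969856, W_13071040640, W_13070782592, W_11997040832]⟩
theorem C_15218528514 : chkRec R_15218528514 = true := by decide +kernel

noncomputable def R_15218528577 : Rec := ⟨nat_lit 15218528577, nat_lit 7,
  [⟨V6_15151157505, [(nat_lit 63, nat_lit 15218528577), (nat_lit 63, nat_lit 16292270337), (nat_lit 90, nat_lit 16292008257), (nat_lit 35, nat_lit 16275493185), (nat_lit 6, nat_lit 17365750017), (nat_lit 91, nat_lit 17349234945), (nat_lit 124, nat_lit 17348972865), (nat_lit 60, nat_lit 17332457793), (nat_lit 96, nat_lit 18422714625), (nat_lit 98, nat_lit 18406199553), (nat_lit 40, nat_lit 18405937473), (nat_lit 21, nat_lit 18389422401), (nat_lit 10, nat_lit 19479679233), (nat_lit 3, nat_lit 19463164161), (nat_lit 125, nat_lit 19462902081),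 (nat_lit 59, nat_lit 19446387009), (nat_lit 104, nat_lit 20536643841), (nat_lit 18, nat_lit 20520128769), (nat_lit 98, nat_lit 20519866689), (nat_lit 67, nat_lit 21593608449)]⟩,
   ⟨V6_15134642433, [(nat_lit 69, nat_lit 15218528577), (nat_lit 32, nat_lit 16292270337), (nat_lit 32, nat_lit 16275493185), (nat_lit 110, nat_lit 17349234945), (nat_lit 67, nat_lit 17332457793), (nat_lit 111, nat_lit 18406199553), (nat_lit 51, nat_lit 18389422401), (nat_lit 16, nat_lit 19463164161), (nat_lit 97, nat_lit 19446387009), (nat_lit 17, nat_lit 20520128769), (nat_lit 108, nat_lit 20503351617), (nat_lit 95, nat_lit 21577093377)]⟩,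
   ⟨V6_14077677888, [(nat_lit 24, nat_lit 15218528577), (nat_lit 41, nat_lit 16292270400), (nat_lit 29, nat_lit 16275493185), (nat_lit 107, nat_lit 17349235008), (nat_lit 86, nat_lit 17332457793), (nat_lit 64, nat_lit 18406199616), (nat_lit 2, nat_lit 18389422401), (nat_lit 102, nat_lit 19463164224), (nat_lit 40, nat_lit 19446387009), (nat_lit 25, nat_lit 20520128832)]⟩,
   ⟨V6_13037228352, [(nat_lit 18, nat_lit 15218528577), (nat_lit 2, nat_lit 16292270400), (nat_lit 71, nat_lit 16292008257), (nat_lit 109, nat_lit 16275493185), (nat_lit 105, nat_lit 17365750080), (nat_lit 54, nat_lit 17349235008), (nat_lit 83, nat_lit 17348972865), (nat_lit 125, nat_lit 17332457793), (nat_lit 122, nat_lit 18422714688), (nat_lit 65, nat_lit 18406199616), (nat_lit 49, nat_lit 18405937473), (nat_lit 5, nat_lit 19479679296)]⟩,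
   ⟨V6_11997040833, [(nat_lit 52, nat_lit 15218528577), (nat_lit 17, nat_lit 16292270337), (nat_lit 68, nat_lit 16292008257), (nat_lit 62, nat_lit 17366012097), (nat_lit 36, nat_lit 17365750017), (nat_lit 25, nat_lit 18439491777)]⟩],
  [W_15184973888, W_11997302912, W_11997040832]⟩
theorem C_15218528577 : chkRec R_15218528577 = true := by decide +kernel

noncomputable def R_15218532546 : Rec := ⟨nat_lit 15218532546, nat_lit 14,
  [⟨V6_15151419522, [(nat_lit 108, nat_lit 15218532546), (nat_lit 26, nat_lit 16292274306), (nat_lit 15, nat_lit 16292270274), (nat_lit 57, nat_lit 16275497154), (nat_lit 65, nat_lit 17366012034), (nat_lit 42, nat_lit 17349238914), (nat_lit 89, nat_lit 17349234882), (nat_lit 107, nat_lit 17332461762), (nat_lit 4, nat_lit 18422976642), (nat_lit 66, nat_lit 18406203522), (nat_lit 50, nat_lit 18406199490), (nat_lit 112, nat_lit 18389426370), (nat_lit 78, nat_lit 19479941250), (nat_lit 116, nat_lit 19463168130), (nat_lit 47, nat_lit 19463164098), (nat_lit 35, nat_lit 19446390978), (nat_lit 87, nat_lit 20536905858), (nat_lit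 59, nat_lit 20520132738), (nat_lit 58, nat_lit 20520128706), (nat_lit 98, nat_lit 21593870466)]⟩,
   ⟨V6_15134646465, [(nat_lit 98, nat_lit 15218532546), (nat_lit 6, nat_lit 16292274369), (nat_lit 37, nat_lit 16275497154), (nat_lit 101, nat_lit 17349238977), (nat_lit 99, nat_lit 17332461762), (nat_lit 105, nat_lit 18406203585), (nat_lit 107, nat_lit 18389426370), (nat_lit 28, nat_lit 19463168193), (nat_lit 89, nat_lit 19446390978), (nat_lit 64, nat_lit 20520132801), (nat_lit 42, nat_lit 20503355586), (nat_lit 38, nat_lit 21577097409)]⟩,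
   ⟨V6_15134646402, [(nat_lit 54, nat_lit 15218532546), (nat_lit 33, nat_lit 16292274306), (nat_lit 53, nat_lit 16275497154), (nat_lit 58, nat_lit 17349238914), (nat_lit 51, nat_lit 17332461762), (nat_lit 29, nat_lit 18406203522), (nat_lit 24, nat_lit 18389426370), (nat_lit 31, nat_lit 19463168130), (nat_lit 12, nat_lit 19446390978), (nat_lit 48, nat_lit 20520132738), (nat_lit 104, nat_lit 20503355586), (nat_lit 86, nat_lit 21577097346)]⟩,
   ⟨V6_15134642370, [(nat_lit 46, nat_lit 15218532546), (nat_lit 121, nat_lit 16292270274), (nat_lit 80, nat_lit 16275497154), (nat_lit 28, nat_lit 17349234882), (nat_lit 42, nat_lit 17332461762), (nat_lit 71, nat_lit 18406199490), (nat_lit 33, nat_lit 18389426370), (nat_lit 60, nat_lit 19463164098), (nat_lit 103, nat_lit 19446390978), (nat_lit 92, nat_lit 20520128706), (nat_lit 96, nat_lit 20503355586), (nat_lit 94, nat_lit 21577093314)]⟩,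
   ⟨V6_14077681794, [(nat_lit 54, nat_lit 15218532546), (nat_lit 19, nat_lit 16292274306), (nat_lit 108, nat_lit 16275497154), (nat_lit 87, nat_lit 17349238914), (nat_lit 59, nat_lit 17332461762), (nat_lit 115, nat_lit 18406203522), (nat_lit 81, nat_lit 18389426370), (nat_lit 79, nat_lit 19463168130), (nat_lit 99, nat_lit 19446390978), (nat_lit 101, nat_lit 20520132738)]⟩,
   ⟨V6_14060904642, [(nat_lit 23, nat_lit 15218532546), (nat_lit 58, nat_lit 16275497154), (nat_lit 92, nat_lit 17332461762), (nat_lit 25, nat_lit 18389426370), (nat_lit 70, nat_lit 19446390978), (nat_lit 102, nat_lit 20503355586)]⟩],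
  [W_14144778368, W_14128001216, W_13071040640, W_13054263488, W_11997302912]⟩
theorem C_15218532546 : chkRec R_15218532546 = true := by decide +kernel

noncomputable def R_15218532609 : Rec := ⟨nat_lit 15218532609, nat_lit 22,
  [⟨V6_14128013376, [(nat_lit 49, nat_lit 15218532609), (nat_lit 121, nat_lit 16292274432), (nat_lit 44, nat_lit 16292274369), (nat_lit 67, nat_lit 16275497217), (nat_lit 100, nat_lit 17366016192), (nat_lit 38, nat_lit 17366016129), (nat_lit 66, nat_lit 17349239040), (nat_lit 108, nat_lit 17349238977), (nat_lit 25, nat_lit 18439757952), (nat_lit 50, nat_lit 18439757889), (nat_lit 46, nat_lit 18422980800), (nat_lit 75, nat_lit 18422980737), (nat_lit 55, nat_lit 19513499712), (nat_lit 28, nat_lit 19496722560), (nat_lit 66, nat_lit 19496722497), (nat_lit 21, nat_lit 20570464320)]⟩],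
  [W_15201747008, W_15151415552, W_14094450944, W_13071040640, W_11997298880, W_11980521728]⟩
theorem C_15218532609 : chkRec R_15218532609 = true := by decide +kernel

noncomputable def R_15218532672 : Rec := ⟨nat_lit 15218532672, nat_lit 18,
  [⟨V6_14144790528, [(nat_lit 73, nat_lit 15218532672), (nat_lit 50, nat_lit 16292274432), (nat_lit 125, nat_lit 17366016192), (nat_lit 97, nat_lit 18439757952), (nat_lit 73, nat_lit 19513499712), (nat_lit 35, nat_lit 20587241472)]⟩,
   ⟨V6_14060904768, [(nat_lit 62, nat_lit 15218532672), (nat_lit 68, nat_lit 16275497280), (nat_lit 121, nat_lit 17332461888), (nat_lit 95, nat_lit 18389426496), (nat_lit 12, nat_lit 19446391104), (nat_lit 32, nat_lit 20503355712)]⟩],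
  [W_15184973888, W_15168200768, W_14128009280]⟩
theorem C_15218532672 : chkRec R_15218532672 = true := by decide +kernel

noncomputable def R_15218786499 : Rec := ⟨nat_lit 15218786499, nat_lit 7,
  [⟨V6_14144258241, [(nat_lit 102, nat_lit 15218786499), (nat_lit 6, nat_lit 16292528322), (nat_lit 59, nat_lit 16292266179), (nat_lit 83, nat_lit 17366270145), (nat_lit 70, nat_lit 17366008002), (nat_lit 28, nat_lit 17365745859), (nat_lit 90, nat_lit 18439749825), (nat_lit 60, nat_lit 18439487682), (nat_lit 102, nat_lit 18439225539), (nat_lit 47, nat_lit 19513229505), (nat_lit 78, nat_lit 19512967362), (nat_lit 118, nat_lit 20586709185)]⟩],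
  [W_15168450752, W_15151677632, W_14111486144, W_11980783808]⟩
theorem C_15218786499 : chkRec R_15218786499 = true := by decide +kernel

noncomputable def R_15218786562 : Rec := ⟨nat_lit 15218786562, nat_lit 13,
  [⟨V6_14144258304, [(nat_lit 122, nat_lit 15218786562), (nat_lit 62, nat_lit 16292528385), (nat_lit 15, nat_lit 16292266242), (nat_lit 84, nat_lit 17366270208), (nat_lit 59, nat_lit 17366008065), (nat_lit 37, nat_lit 17365745922), (nat_lit 71, nat_lit 18439749888), (nat_lit 99, nat_lit 18439487745), (nat_lit 118, nat_lit 18439225602), (nat_lit 38, nat_lit 19513229568), (nat_lit 53, nat_lit 19512967425), (nat_lit 84, nat_lit 20586709248)]⟩,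
   ⟨V6_14144258178, [(nat_lit 106, nat_lit 15218786562), (nat_lit 106, nat_lit 16292528322), (nat_lit 35, nat_lit 16292266242), (nat_lit 80, nat_lit 17366270082), (nat_lit 10, nat_lit 17366008002), (nat_lit 9, nat_lit 17365745922), (nat_lit 93, nat_lit 18439749762), (nat_lit 10, nat_lit 18439487682), (nat_lit 17, nat_lit 18439225602), (nat_lit 81, nat_lit 19513229442), (nat_lit 53, nat_lit 19512967362), (nat_lit 82, nat_lit 20586709122)]⟩,
   ⟨V6_14127481089, [(nat_lit 69, nat_lit 15218786562), (nat_lit 33, nat_lit 16292528385), (nat_lit 44, nat_lit 16292266242), (nat_lit 33, nat_lit 16275751170), (nat_lit 117, nat_lit 17366008065), (nat_lit 2, nat_lit 17365745922), (nat_lit 113, nat_lit 17349492993), (nat_lit 21, nat_lit 17349230850), (nat_lit 83, nat_lit 18439487745), (nat_lit 70, nat_lit 18439225602), (nat_lit 32, nat_lit 18422972673), (nat_lit 31, nat_lit 18422710530), (nat_lit 67, nat_lit 19512967425), (nat_lit 20, nat_lit 19496452353), (nat_lit 126, nat_lit 19496190210), (nat_lit 100, nat_lit 20569932033)]⟩,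
   ⟨V6_11997036801, [(nat_lit 89, nat_lit 15218786562), (nat_lit 1, nat_lit 16292528385), (nat_lit 64, nat_lit 16292266242), (nat_lit 122, nat_lit 17366008065), (nat_lit 46, nat_lit 17365745922), (nat_lit 49, nat_lit 18439487745)]⟩],
  [W_15184969856, W_15168454784, W_13071040640]⟩
theorem C_15218786562 : chkRec R_15218786562 = true := by decide +kernel

noncomputable def R_15218790594 : Rec := ⟨nat_lit 15218790594, nat_lit 23,
  [⟨V6_15151681728, [(nat_lit 83, nat_lit 15218790594), (nat_lit 38, nat_lit 16292532417), (nat_lit 55, nat_lit 16275755202), (nat_lit 96, nat_lit 17366274240), (nat_lit 4, nat_lit 17349497025), (nat_lit 105, nat_lit 17332719810), (nat_lit 48, nat_lit 18423238848), (nat_lit 11, nat_lit 18406461633), (nat_lit 33, nat_lit 18389684418), (nat_lit 33, nat_lit 19480203456), (nat_lit 4, nat_lit 19463426241), (nat_lit 85, nat_lit 19446649026), (nat_lit 108, nat_lit 20537168064), (nat_lit 99, nat_lit 20520390849), (nat_lit 114, nat_lit 21594132672)]⟩,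
   ⟨V6_15151677633, [(nat_lit 29, nat_lit 15218790594), (nat_lit 20, nat_lit 16292532417), (nat_lit 66, nat_lit 16292528322), (nat_lit 81, nat_lit 16275755202), (nat_lit 8, nat_lit 17366270145), (nat_lit 49, nat_lit 17349497025), (nat_lit 39, nat_lit 17349492930), (nat_lit 47, nat_lit 17332719810), (nat_lit 82, nat_lit 18423234753), (nat_lit 16, nat_lit 18406461633), (nat_lit 72, nat_lit 18406457538), (nat_lit 12, nat_lit 18389684418), (nat_lit 112, nat_lit 19480199361), (nat_lit 56, nat_lit 19463426241), (nat_lit 23, nat_lit 19463422146), (nat_lit 34, nat_lit 19446649026), (nat_lit 73, nat_lit 20537163969), (nat_lit 26, nat_lit 20520390849), (nat_lit 67, nat_lit 20520386754), (nat_lit 68, nat_lit 21594128577)]⟩,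
   ⟨V6_14077939905, [(nat_lit 38, nat_lit 15218790594), (nat_lit 45, nat_lit 16292532417), (nat_lit 62, nat_lit 16275755202), (nat_lit 10, nat_lit 17349497025), (nat_lit 81, nat_lit 17332719810), (nat_lit 93, nat_lit 18406461633), (nat_lit 14, nat_lit 18389684418), (nat_lit 42, nat_lit 19463426241), (nat_lit 113, nat_lit 19446649026), (nat_lit 23, nat_lit 20520390849)]⟩,
   ⟨V6_14077939842, [(nat_lit 61, nat_lit 15218790594), (nat_lit 5, nat_lit 16292532354), (nat_lit 122, nat_lit 16275755202), (nat_lit 63, nat_lit 17349496962), (nat_lit 69, nat_lit 17332719810), (nat_lit 57, nat_lit 18406461570), (nat_lit 28, nat_lit 18389684418), (nat_lit 101, nat_lit 19463426178), (nat_lit 6, nat_lit 19446649026), (nat_lit 60, nat_lit 20520390786)]⟩],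
  [W_14144778368, W_14144516288, W_14128263296, W_13071298688, W_13071040640, W_13070782592, W_11997560960, W_11997556928, W_11997302912, W_11997040832]⟩
theorem C_15218790594 : chkRec R_15218790594 = true := by decide +kernel

noncomputable def R_15218790657 : Rec := ⟨nat_lit 15218790657, nat_lit 33,
  [⟨V6_15151681728, [(nat_lit 105, nat_lit 15218790657), (nat_lit 57, nat_lit 16292532480), (nat_lit 117, nat_lit 16292532417), (nat_lit 112, nat_lit 16275755265), (nat_lit 120, nat_lit 17366274240), (nat_lit 111, nat_lit 17349497088), (nat_lit 26, nat_lit 17349497025), (nat_lit 55, nat_lit 17332719873), (nat_lit 42, nat_lit 18423238848), (nat_lit 57, nat_lit 18406461696), (nat_lit 40, nat_lit 18406461633), (nat_lit 32, nat_lit 18389684481), (nat_lit 65, nat_lit 19480203456), (nat_lit 26, nat_lit 19463426304), (nat_lit 46, nat_lit 19463426241), (nat_lit 49, nat_lit 19446649089), (nat_lit 6, nat_lit 20537168064), (nat_lit 50, nat_lit 20520390912), (nat_lit 81, nat_lit 20520390849), (nat_lit 13, nat_lit 21594132672)]⟩,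
   ⟨V6_15151681665, [(nat_lit 78, nat_lit 15218790657), (nat_lit 126, nat_lit 16292532417), (nat_lit 51, nat_lit 16275755265), (nat_lit 119, nat_lit 17366274177), (nat_lit 77, nat_lit 17349497025), (nat_lit 102, nat_lit 17332719873), (nat_lit 20, nat_lit 18423238785), (nat_lit 121, nat_lit 18406461633), (nat_lit 36, nat_lit 18389684481), (nat_lit 64, nat_lit 19480203393), (nat_lit 32, nat_lit 19463426241), (nat_lit 101, nat_lit 19446649089), (nat_lit 10, nat_lit 20537168001), (nat_lit 94, nat_lit 20520390849), (nat_lit 50, nat_lit 21594132609)]⟩,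
   ⟨V6_15151677633, [(nat_lit 78, nat_lit 15218790657), (nat_lit 95, nat_lit 16292532417), (nat_lit 73, nat_lit 16292528385), (nat_lit 1, nat_lit 16275755265), (nat_lit 10, nat_lit 17366270145), (nat_lit 1, nat_lit 17349497025), (nat_lit 30, nat_lit 17349492993), (nat_lit 73, nat_lit 17332719873), (nat_lit 40, nat_lit 18423234753), (nat_lit 12, nat_lit 18406461633), (nat_lit 29, nat_lit 18406457601), (nat_lit 104, nat_lit 18389684481), (nat_lit 109, nat_lit 19480199361), (nat_lit 9, nat_lit 19463426241), (nat_lit 101, nat_lit 19463422209), (nat_lit 45, nat_lit 19446649089), (nat_lit 124, nat_lit 20537163969), (nat_lit 79, nat_lit 20520390849), (nat_lit 24, nat_lit 20520386817), (nat_lit 59, nat_lit 21594128577)]⟩,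
   ⟨V6_15151157505, [(nat_lit 98, nat_lit 15218790657), (nat_lit 46, nat_lit 16292270337), (nat_lit 8, nat_lit 16275755265), (nat_lit 70, nat_lit 17365750017), (nat_lit 124, nat_lit 17349234945), (nat_lit 112, nat_lit 17332719873), (nat_lit 45, nat_lit 18422714625), (nat_lit 6, nat_lit 18406199553), (nat_lit 105, nat_lit 18389684481), (nat_lit 65, nat_lit 19479679233), (nat_lit 48, nat_lit 19463164161), (nat_lit 89, nat_lit 19446649089), (nat_lit 89, nat_lit 20536643841), (nat_lit 99, nat_lit 20520128769), (nat_lit 17, nat_lit 21593608449)]⟩,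
   ⟨V6_14077939968, [(nat_lit 65, nat_lit 15218790657), (nat_lit 74, nat_lit 16292532480), (nat_lit 105, nat_lit 16275755265), (nat_lit 94, nat_lit 17349497088), (nat_lit 53, nat_lit 17332719873), (nat_lit 4, nat_lit 18406461696), (nat_lit 16, nat_lit 18389684481), (nat_lit 54, nat_lit 19463426304), (nat_lit 66, nat_lit 19446649089), (nat_lit 73, nat_lit 20520390912)]⟩,
   ⟨V6_14077939905, [(nat_lit 31, nat_lit 15218790657), (nat_lit 55, nat_lit 16292532417), (nat_lit 35, nat_lit 16275755265), (nat_lit 65, nat_lit 17349497025), (nat_lit 74, nat_lit 17332719873), (nat_lit 38, nat_lit 18406461633), (nat_lit 42, nat_lit 18389684481), (nat_lit 102, nat_lit 19463426241), (nat_lit 118, nat_lit 19446649089), (nat_lit 65, nat_lit 20520390849)]⟩],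
  [W_15201747008, W_14144782400, W_14144524352, W_13071044672, W_13071040640, W_11997564992, W_11997040832]⟩
theorem C_15218790657 : chkRec R_15218790657 = true := by decide +kernel

noncomputable def R_15218790720 : Rec := ⟨nat_lit 15218790720, nat_lit 20,
  [⟨V6_15218528256, [(nat_lit 120, nat_lit 15218790720), (nat_lit 72, nat_lit 16292532480), (nat_lit 11, nat_lit 16292270400), (nat_lit 116, nat_lit 17366274240), (nat_lit 68, nat_lit 17366012160), (nat_lit 84, nat_lit 18440016000), (nat_lit 120, nat_lit 18439753920), (nat_lit 123, nat_lit 19513757760), (nat_lit 85, nat_lit 19513495680), (nat_lit 31, nat_lit 20587499520), (nat_lit 92, nat_lit 20587237440), (nat_lit 78, nat_lit 21660979200)]⟩,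
   ⟨V6_14077939968, [(nat_lit 15, nat_lit 15218790720), (nat_lit 11, nat_lit 16292532480), (nat_lit 87, nat_lit 16275755328), (nat_lit 110, nat_lit 17349497088), (nat_lit 45, nat_lit 17332719936), (nat_lit 92, nat_lit 18406461696), (nat_lit 74, nat_lit 18389684544), (nat_lit 90, nat_lit 19463426304), (nat_lit 87, nat_lit 19446649152), (nat_lit 75, nat_lit 20520390912)]⟩],
  [W_15218266112, W_14127747200, W_14110970048, W_13070782592, W_13020713216, W_11997564992, W_11997302912, W_11997040832, W_11980787840, W_11980525760, W_11964010688, W_11963748608, W_11947233536]⟩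
theorem C_15218790720 : chkRec R_15218790720 = true := by decide +kernel

noncomputable def R_15218794626 : Rec := ⟨nat_lit 15218794626, nat_lit 16,
  [⟨V6_15151685760, [(nat_lit 29, nat_lit 15218794626), (nat_lit 50, nat_lit 16292536449), (nat_lit 59, nat_lit 16275759234), (nat_lit 6, nat_lit 17366278272), (nat_lit 32, nat_lit 17349501057), (nat_lit 78, nat_lit 17332723842), (nat_lit 3, nat_lit 18423242880), (nat_lit 88, nat_lit 18406465665), (nat_lit 10, nat_lit 18389688450), (nat_lit 10, nat_lit 19480207488), (nat_lit 32, nat_lit 19463430273), (nat_lit 45, nat_lit 19446653058), (nat_lit 102, nat_lit 20537172096), (nat_lit 30, nat_lit 20520394881), (nat_lit 23, nat_lit 21594136704)]⟩,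
   ⟨V6_15151681665, [(nat_lit 54, nat_lit 15218794626), (nat_lit 122, nat_lit 16292536449), (nat_lit 7, nat_lit 16292532354), (nat_lit 55, nat_lit 16275759234), (nat_lit 84, nat_lit 17366274177), (nat_lit 44, nat_lit 17349501057), (nat_lit 121, nat_lit 17349496962), (nat_lit 82, nat_lit 17332723842), (nat_lit 109, nat_lit 18423238785), (nat_lit 57, nat_lit 18406465665), (nat_lit 105, nat_lit 18406461570), (nat_lit 65, nat_lit 18389688450), (nat_lit 41, nat_lit 19480203393), (nat_lit 2, nat_lit 19463430273), (nat_lit 126, nat_lit 19463426178), (nat_lit 101, nat_lit 19446653058), (nat_lit 122, nat_lit 20537168001), (nat_lit 21, nat_lit 20520394881), (nat_lit 58, nat_lit 20520390786), (nat_lit 71, nat_lit 21594132609)]⟩,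
   ⟨V6_14077939842, [(nat_lit 22, nat_lit 15218794626), (nat_lit 101, nat_lit 16292532354), (nat_lit 34, nat_lit 16275759234), (nat_lit 22, nat_lit 17349496962), (nat_lit 45, nat_lit 17332723842), (nat_lit 126, nat_lit 18406461570), (nat_lit 65, nat_lit 18389688450), (nat_lit 52, nat_lit 19463426178), (nat_lit 82, nat_lit 19446653058), (nat_lit 114, nat_lit 20520390786)]⟩,
   ⟨V6_14077681794, [(nat_lit 73, nat_lit 15218794626), (nat_lit 95, nat_lit 16292274306), (nat_lit 59, nat_lit 16275759234), (nat_lit 96, nat_lit 17349238914), (nat_lit 85, nat_lit 17332723842), (nat_lit 126, nat_lit 18406203522), (nat_lit 69, nat_lit 18389688450), (nat_lit 37, nat_lit 19463168130), (nat_lit 56, nat_lit 19446653058), (nat_lit 2, nat_lit 20520132738)]⟩,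
   ⟨V6_13071294594, [(nat_lit 116, nat_lit 15218794626), (nat_lit 33, nat_lit 16292532354), (nat_lit 1, nat_lit 17366270082), (nat_lit 66, nat_lit 18440007810), (nat_lit 63, nat_lit 19513745538)]⟩],
  [W_15218516096, W_15202001024, W_13071298688, W_13071040640, W_11997560960]⟩
theorem C_15218794626 : chkRec R_15218794626 = true := by decide +kernel

noncomputable def R_15218794689 : Rec := ⟨nat_lit 15218794689, nat_lit 45,
  [⟨V6_15151685760, [(nat_lit 75, nat_lit 15218794689), (nat_lit 12, nat_lit 16292536512), (nat_lit 76, nat_lit 16292536449), (nat_lit 51, nat_lit 16275759297), (nat_lit 34, nat_lit 17366278272), (nat_lit 54, nat_lit 17349501120), (nat_lit 98, nat_lit 17349501057), (nat_lit 93, nat_lit 17332723905), (nat_lit 113, nat_lit 18423242880), (nat_lit 118, nat_lit 18406465728), (nat_lit 64, nat_lit 18406465665), (nat_lit 59, nat_lit 18389688513), (nat_lit 34, nat_lit 19480207488), (nat_lit 92, nat_lit 19463430336), (nat_lit 28, nat_lit 19463430273), (nat_lit 120, nat_lit 19446653121), (nat_lit 118, nat_lit 20537172096), (nat_lit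 38, nat_lit 20520394944), (nat_lit 27, nat_lit 20520394881), (nat_lit 12, nat_lit 21594136704)]⟩,
   ⟨V6_15151685697, [(nat_lit 73, nat_lit 15218794689), (nat_lit 50, nat_lit 16292536449), (nat_lit 98, nat_lit 16275759297), (nat_lit 64, nat_lit 17366278209), (nat_lit 21, nat_lit 17349501057), (nat_lit 107, nat_lit 17332723905), (nat_lit 120, nat_lit 18423242817), (nat_lit 49, nat_lit 18406465665), (nat_lit 18, nat_lit 18389688513), (nat_lit 113, nat_lit 19480207425), (nat_lit 86, nat_lit 19463430273), (nat_lit 5, nat_lit 19446653121), (nat_lit 10, nat_lit 20537172033), (nat_lit 89, nat_lit 20520394881), (nat_lit 21, nat_lit 21594136641)]⟩,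
   ⟨V6_15151681728, [(nat_lit 87, nat_lit 15218794689), (nat_lit 97, nat_lit 16292536512), (nat_lit 5, nat_lit 16292532417), (nat_lit 9, nat_lit 16275759297), (nat_lit 109, nat_lit 17366274240), (nat_lit 40, nat_lit 17349501120), (nat_lit 107, nat_lit 17349497025), (nat_lit 86, nat_lit 17332723905), (nat_lit 88, nat_lit 18423238848), (nat_lit 25, nat_lit 18406465728), (nat_lit 3, nat_lit 18406461633), (nat_lit 74, nat_lit 18389688513), (nat_lit 111, nat_lit 19480203456), (nat_lit 105, nat_lit 19463430336), (nat_lit 102, nat_lit 19463426241), (nat_lit 84, nat_lit 19446653121), (nat_lit 57, nat_lit 20537168064), (nat_lit 85, nat_lit 20520394944), (nat_lit 83, nat_lit 20520390849), (nat_lit 123, nat_lit 21594132672)]⟩,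
   ⟨V6_15151681665, [(nat_lit 29, nat_lit 15218794689), (nat_lit 94, nat_lit 16292536449), (nat_lit 64, nat_lit 16292532417), (nat_lit 40, nat_lit 16275759297), (nat_lit 108, nat_lit 17366274177), (nat_lit 103, nat_lit 17349501057), (nat_lit 58, nat_lit 17349497025), (nat_lit 84, nat_lit 17332723905), (nat_lit 34, nat_lit 18423238785), (nat_lit 53, nat_lit 18406465665), (nat_lit 44, nat_lit 18406461633), (nat_lit 63, nat_lit 18389688513), (nat_lit 28, nat_lit 19480203393), (nat_lit 97, nat_lit 19463430273), (nat_lit 82, nat_lit 19463426241), (nat_lit 107, nat_lit 19446653121), (nat_lit 41, nat_lit 20537168001), (nat_lit 57, nat_lit 20520394881), (nat_lit 112, nat_lit 20520390849), (nat_lit 71, nat_lit 21594132609)]⟩,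
   ⟨V6_15151677633, [(nat_lit 72, nat_lit 15218794689), (nat_lit 16, nat_lit 16292532417), (nat_lit 63, nat_lit 16275759297), (nat_lit 94, nat_lit 17366270145), (nat_lit 9, nat_lit 17349497025), (nat_lit 22, nat_lit 17332723905), (nat_lit 90, nat_lit 18423234753), (nat_lit 39, nat_lit 18406461633), (nat_lit 84, nat_lit 18389688513), (nat_lit 33, nat_lit 19480199361), (nat_lit 31, nat_lit 19463426241), (nat_lit 28, nat_lit 19446653121), (nat_lit 8, nat_lit 20537163969), (nat_lit 59, nat_lit 20520390849), (nat_lit 50, nat_lit 21594128577)]⟩,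
   ⟨V6_14077944000, [(nat_lit 59, nat_lit 15218794689), (nat_lit 32, nat_lit 16292536512), (nat_lit 66, nat_lit 16275759297), (nat_lit 99, nat_lit 17349501120), (nat_lit 95, nat_lit 17332723905), (nat_lit 115, nat_lit 18406465728), (nat_lit 79, nat_lit 18389688513), (nat_lit 92, nat_lit 19463430336), (nat_lit 56, nat_lit 19446653121), (nat_lit 35, nat_lit 20520394944)]⟩,
   ⟨V6_14077939905, [(nat_lit 77, nat_lit 15218794689), (nat_lit 36, nat_lit 16292532417), (nat_lit 119, nat_lit 16275759297), (nat_lit 77, nat_lit 17349497025), (nat_lit 94, nat_lit 17332723905), (nat_lit 60, nat_lit 18406461633), (nat_lit 37, nat_lit 18389688513), (nat_lit 55, nat_lit 19463426241), (nat_lit 33, nat_lit 19446653121), (nat_lit 18, nat_lit 20520390849)]⟩],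
  [W_15201747008, W_14144782400, W_14144778368, W_13071302720, W_13071298688, W_13071044672, W_13071040640, W_11997564992, W_11997556928]⟩
theorem C_15218794689 : chkRec R_15218794689 = true := by decide +kernel

noncomputable def R_15218794752 : Rec := ⟨nat_lit 15218794752, nat_lit 55,
  [⟨V6_15201755136, [(nat_lit 71, nat_lit 15218794752), (nat_lit 117, nat_lit 16292536512), (nat_lit 36, nat_lit 16292274432), (nat_lit 122, nat_lit 16275759360), (nat_lit 59, nat_lit 17366278272), (nat_lit 77, nat_lit 17366016192), (nat_lit 79, nat_lit 17349501120), (nat_lit 102, nat_lit 17349239040), (nat_lit 94, nat_lit 18440020032), (nat_lit 122, nat_lit 18439757952), (nat_lit 123, nat_lit 18423242880), (nat_lit 4, nat_lit 18422980800), (nat_lit 24, nat_lit 19513761792), (nat_lit 49, nat_lit 19513499712), (nat_lit 117, nat_lit 19496984640), (nat_lit 33, nat_lit 19496722560), (nat_lit 1, nat_lit 20587241472), (nat_lit 48, nat_lit 20570726400), (nat_lit 112, nat_lit 20570464320), (nat_lit 55, nat_lit 21644206080)]⟩,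
   ⟨V6_14144790528, [(nat_lit 46, nat_lit 15218794752), (nat_lit 57, nat_lit 16292536512), (nat_lit 76, nat_lit 16292274432), (nat_lit 21, nat_lit 17366278272), (nat_lit 105, nat_lit 17366016192), (nat_lit 94, nat_lit 18440020032), (nat_lit 120, nat_lit 18439757952), (nat_lit 17, nat_lit 19513761792), (nat_lit 125, nat_lit 19513499712), (nat_lit 49, nat_lit 20587241472)]⟩,
   ⟨V6_13071310848, [(nat_lit 26, nat_lit 15218794752), (nat_lit 120, nat_lit 16292536512), (nat_lit 76, nat_lit 17366278272), (nat_lit 28, nat_lit 18440020032), (nat_lit 100, nat_lit 19513761792)]⟩],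
  [W_15202009088, W_15201747008, W_15185231936, W_15184969856, W_14145044480, W_11997564992, W_11980783808]⟩
theorem C_15218794752 : chkRec R_15218794752 = true := by decide +kernel

noncomputable def R_15218798721 : Rec := ⟨nat_lit 15218798721, nat_lit 20,
  [⟨V6_15151685697, [(nat_lit 77, nat_lit 15218798721), (nat_lit 105, nat_lit 16292540481), (nat_lit 1, nat_lit 16292536449), (nat_lit 47, nat_lit 16275763329), (nat_lit 8, nat_lit 17366278209), (nat_lit 115, nat_lit 17349505089), (nat_lit 6, nat_lit 17349501057), (nat_lit 27, nat_lit 17332727937), (nat_lit 51, nat_lit 18423242817), (nat_lit 96, nat_lit 18406469697), (nat_lit 111, nat_lit 18406465665), (nat_lit 6, nat_lit 18389692545), (nat_lit 83, nat_lit 19480207425), (nat_lit 75, nat_lit 19463434305), (nat_lit 63, nat_lit 19463430273), (nat_lit 118, nat_lit 19446657153), (nat_lit 48, nat_lit 20537172033), (nat_lit 25, nat_lit 20520398913), (nat_lit 108, nat_lit 20520394881), (nat_lit 18, nat_lit 21594136641)]⟩,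
   ⟨V6_15151681665, [(nat_lit 51, nat_lit 15218798721), (nat_lit 73, nat_lit 16292536449), (nat_lit 11, nat_lit 16275763329), (nat_lit 124, nat_lit 17366274177), (nat_lit 102, nat_lit 17349501057), (nat_lit 76, nat_lit 17332727937), (nat_lit 49, nat_lit 18423238785), (nat_lit 76, nat_lit 18406465665), (nat_lit 80, nat_lit 18389692545), (nat_lit 51, nat_lit 19480203393), (nat_lit 43, nat_lit 19463430273), (nat_lit 119, nat_lit 19446657153), (nat_lit 24, nat_lit 20537168001), (nat_lit 92, nat_lit 20520394881), (nat_lit 53, nat_lit 21594132609)]⟩,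
   ⟨V6_11997569088, [(nat_lit 120, nat_lit 15218798721), (nat_lit 2, nat_lit 16292540544), (nat_lit 87, nat_lit 16292540481), (nat_lit 21, nat_lit 16292536449), (nat_lit 112, nat_lit 17366282304), (nat_lit 6, nat_lit 17366278272), (nat_lit 69, nat_lit 17366278209), (nat_lit 117, nat_lit 18440020032)]⟩],
  [W_15202001024, W_15185231936, W_14145036416, W_11997564992, W_11964018752]⟩
theorem C_15218798721 : chkRec R_15218798721 = true := by decide +kernel

noncomputable def R_15218798784 : Rec := ⟨nat_lit 15218798784, nat_lit 34,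
  [⟨V6_13071310848, [(nat_lit 119, nat_lit 15218798784), (nat_lit 41, nat_lit 16292540544), (nat_lit 7, nat_lit 16292536512), (nat_lit 64, nat_lit 17366282304), (nat_lit 85, nat_lit 17366278272), (nat_lit 15, nat_lit 18440024064), (nat_lit 67, nat_lit 18440020032), (nat_lit 4, nat_lit 19513761792)]⟩,
   ⟨V6_13054537728, [(nat_lit 80, nat_lit 15218798784), (nat_lit 19, nat_lit 16292540544), (nat_lit 17, nat_lit 16275763392), (nat_lit 89, nat_lit 17366282304), (nat_lit 91, nat_lit 17349505152), (nat_lit 13, nat_lit 18440024064), (nat_lit 13, nat_lit 18423246912), (nat_lit 105, nat_lit 19496988672)]⟩,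
   ⟨V6_11997573120, [(nat_lit 71, nat_lit 15218798784), (nat_lit 126, nat_lit 16292540544), (nat_lit 68, nat_lit 17366282304), (nat_lit 20, nat_lit 18440024064)]⟩,
   ⟨V6_11997569088, [(nat_lit 124, nat_lit 15218798784), (nat_lit 29, nat_lit 16292540544), (nat_lit 35, nat_lit 16292536512), (nat_lit 25, nat_lit 17366282304), (nat_lit 115, nat_lit 17366278272), (nat_lit 5, nat_lit 18440020032)]⟩],
  [W_15202009088, W_15185231936, W_15168462848, W_15168450752, W_15151677632, W_14111486144, W_11997556928]⟩
theorem C_15218798784 : chkRec R_15218798784 = true := by decide +kernel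

noncomputable def R_15219044547 : Rec := ⟨nat_lit 15219044547, nat_lit 3,
  [⟨V6_11997819072, [(nat_lit 35, nat_lit 15219044547), (nat_lit 99, nat_lit 16292786370), (nat_lit 50, nat_lit 17366528193), (nat_lit 47, nat_lit 18440270016)]⟩],
  [W_15168450752, W_14144516288]⟩
theorem C_15219044547 : chkRec R_15219044547 = true := by decide +kernel

noncomputable def R_15219048642 : Rec := ⟨nat_lit 15219048642, nat_lit 23,
  [⟨V6_15218000064, [(nat_lit 96, nat_lit 15219048642), (nat_lit 78, nat_lit 16292790465), (nat_lit 72, nat_lit 16292528322), (nat_lit 42, nat_lit 17366532288), (nat_lit 114, nat_lit 17366270145), (nat_lit 69, nat_lit 17366008002), (nat_lit 25, nat_lit 18440011968), (nat_lit 113, nat_lit 18439749825), (nat_lit 32, nat_lit 18439487682), (nat_lit 70, nat_lit 19513491648), (nat_lit 40, nat_lit 19513229505), (nat_lit 89, nat_lit 19512967362), (nat_lit 73, nat_lit 20586971328), (nat_lit 60, nat_lit 20586709185), (nat_lit 84, nat_lit 21660451008)]⟩,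
   ⟨V6_15168712896, [(nat_lit 31, nat_lit 15219048642), (nat_lit 46, nat_lit 16292790465), (nat_lit 71, nat_lit 16292786370), (nat_lit 100, nat_lit 16276013250), (nat_lit 52, nat_lit 17366532288), (nat_lit 102, nat_lit 17366528193), (nat_lit 33, nat_lit 17349755073), (nat_lit 67, nat_lit 17349750978), (nat_lit 97, nat_lit 17332977858), (nat_lit 29, nat_lit 18440270016), (nat_lit 64, nat_lit 18423496896), (nat_lit 50, nat_lit 18423492801), (nat_lit 76, nat_lit 18406719681), (nat_lit 109, nat_lit 18406715586), (nat_lit 62, nat_lit 18389942466), (nat_lit 42, nat_lit 19497234624), (nat_lit 33, nat_lit 19480461504), (nat_lit 8, nat_lit 19480457409), (nat_lit 123, nat_lit 19463684289), (nat_lit 111, nat_lit 19463680194), (nat_lit 22, nat_lit 20554199232), (nat_lit 98, nat_lit 20537426112), (nat_lit 121, nat_lit 20537422017), (nat_lit 42, nat_lit 21611163840)]⟩,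
   ⟨V6_11947491522, [(nat_lit 71, nat_lit 15219048642), (nat_lit 59, nat_lit 16276013250), (nat_lit 65, nat_lit 17332977858), (nat_lit 27, nat_lit 18389942466)]⟩],
  [W_15168712832, W_14128001216, W_14111748224, W_14111490176, W_14111486144, W_13071040640, W_11997819008, W_11997560960, W_11997556928]⟩
theorem C_15219048642 : chkRec R_15219048642 = true := by decide +kernel

noncomputable def R_15219048705 : Rec := ⟨nat_lit 15219048705, nat_lit 29,
  [⟨V6_15218000064, [(nat_lit 14, nat_lit 15219048705), (nat_lit 109, nat_lit 16292790528), (nat_lit 51, nat_lit 16292790465), (nat_lit 65, nat_lit 16292528385), (nat_lit 126, nat_lit 17366532288), (nat_lit 3, nat_lit 17366270208), (nat_lit 101, nat_lit 17366270145), (nat_lit 10, nat_lit 17366008065), (nat_lit 80, nat_lit 18440011968), (nat_lit 52, nat_lit 18439749888), (nat_lit 17, nat_lit 18439749825), (nat_lit 29, nat_lit 18439487745), (nat_lit 118, nat_lit 19513491648), (nat_lit 27, nat_lit 19513229568), (nat_lit 100, nat_lit 19513229505), (nat_lit 6, nat_lit 19512967425), (nat_lit 38, nat_lit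 20586971328), (nat_lit 38, nat_lit 20586709248), (nat_lit 124, nat_lit 20586709185), (nat_lit 39, nat_lit 21660451008)]⟩,
   ⟨V6_13021233408, [(nat_lit 17, nat_lit 15219048705), (nat_lit 47, nat_lit 16292790528), (nat_lit 87, nat_lit 16276013313), (nat_lit 35, nat_lit 17349755136), (nat_lit 2, nat_lit 17332977921), (nat_lit 71, nat_lit 18406719744), (nat_lit 52, nat_lit 18389942529), (nat_lit 104, nat_lit 19463684352)]⟩,
   ⟨V6_11947491585, [(nat_lit 66, nat_lit 15219048705), (nat_lit 62, nat_lit 16276013313), (nat_lit 64, nat_lit 17332977921), (nat_lit 9, nat_lit 18389942529)]⟩],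
  [W_15201747008, W_15185231936, W_15168716864, W_14128267328, W_11997823040]⟩
theorem C_15219048705 : chkRec R_15219048705 = true := by decide +kernel

noncomputable def R_15219052674 : Rec := ⟨nat_lit 15219052674, nat_lit 24,
  [⟨V6_14145298560, [(nat_lit 94, nat_lit 15219052674), (nat_lit 15, nat_lit 16292794497), (nat_lit 2, nat_lit 16292790402), (nat_lit 5, nat_lit 17366536320), (nat_lit 102, nat_lit 17366532225), (nat_lit 70, nat_lit 17366528130), (nat_lit 64, nat_lit 18440274048), (nat_lit 125, nat_lit 18440269953), (nat_lit 98, nat_lit 18440265858), (nat_lit 90, nat_lit 19514011776), (nat_lit 54, nat_lit 19514007681), (nat_lit 75, nat_lit 20587749504)]⟩],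
  [W_15168712832, W_15168454784, W_15168196736, W_14127747200, W_13071040640, W_13054267520, W_13021237376, W_11997302912]⟩
theorem C_15219052674 : chkRec R_15219052674 = true := by decide +kernel

noncomputable def R_15219052737 : Rec := ⟨nat_lit 15219052737, nat_lit 58,
  [⟨V6_15202267200, [(nat_lit 12, nat_lit 15219052737), (nat_lit 75, nat_lit 16292794560), (nat_lit 14, nat_lit 16292794497), (nat_lit 60, nat_lit 16292790465), (nat_lit 125, nat_lit 16276017345), (nat_lit 27, nat_lit 17366536320), (nat_lit 115, nat_lit 17366536257), (nat_lit 41, nat_lit 17366532288), (nat_lit 47, nat_lit 17366532225), (nat_lit 122, nat_lit 17366528193), (nat_lit 20, nat_lit 17349759168), (nat_lit 125, nat_lit 17349759105), (nat_lit 10, nat_lit 17349755073), (nat_lit 78, nat_lit 18440278080), (nat_lit 2, nat_lit 18440274048), (nat_lit 55, nat_lit 18440273985), (nat_lit 123, nat_lit 18440270016), (nat_lit 23, nat_lit 18440269953), (nat_lit 86, nat_lit 18423500928), (nat_lit 88, nat_lit 18423500865), (nat_lit 6, nat_lit 18423496896), (nat_lit 43, nat_lit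 18423496833), (nat_lit 19, nat_lit 18423492801), (nat_lit 104, nat_lit 19514015808), (nat_lit 8, nat_lit 19514011776), (nat_lit 9, nat_lit 19514011713), (nat_lit 77, nat_lit 19497242688), (nat_lit 83, nat_lit 19497238656), (nat_lit 107, nat_lit 19497238593), (nat_lit 123, nat_lit 19497234624), (nat_lit 92, nat_lit 19497234561), (nat_lit 87, nat_lit 20587753536), (nat_lit 109, nat_lit 20570980416), (nat_lit 25, nat_lit 20570976384), (nat_lit 70, nat_lit 20570976321), (nat_lit 18, nat_lit 21644718144)]⟩],
  [W_15218262080, W_15201747008, W_15185231936, W_15184973888, W_15168716864, W_14110970048, W_14094454976, W_13021237376, W_13021233344, W_13020975296, W_11997564992, W_11997302912, W_11997298880, W_11997040832, W_11964010688]⟩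
theorem C_15219052737 : chkRec R_15219052737 = true := by decide +kernel

noncomputable def R_15219052800 : Rec := ⟨nat_lit 15219052800, nat_lit 66,
  [⟨V6_15218528256, [(nat_lit 90, nat_lit 15219052800), (nat_lit 30, nat_lit 16292794560), (nat_lit 72, nat_lit 16292532480), (nat_lit 98, nat_lit 17366536320), (nat_lit 90, nat_lit 17366274240), (nat_lit 89, nat_lit 17366012160), (nat_lit 51, nat_lit 18440278080), (nat_lit 62, nat_lit 18440016000), (nat_lit 59, nat_lit 18439753920), (nat_lit 90, nat_lit 19514019840), (nat_lit 74, nat_lit 19513757760), (nat_lit 36, nat_lit 19513495680), (nat_lit 93, nat_lit 20587499520), (nat_lit 92, nat_lit 20587237440), (nat_lit 56, nat_lit 21660979200)]⟩,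
   ⟨V6_13071568896, [(nat_lit 12, nat_lit 15219052800), (nat_lit 114, nat_lit 16292794560), (nat_lit 123, nat_lit 17366536320), (nat_lit 52, nat_lit 18440278080), (nat_lit 95, nat_lit 19514019840)]⟩],
  [W_15218262080, W_15202009088, W_15201747008, W_15185494016, W_15184969856, W_15168720896, W_15168716864, W_15167930624, W_13054001408, W_11997040832, W_11980783808, W_11947491584]⟩
theorem C_15219052800 : chkRec R_15219052800 = true := by decide +kernel

noncomputable def R_15219056769 : Rec := ⟨nat_lit 15219056769, nat_lit 61,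
  [⟨V6_15202263168, [(nat_lit 59, nat_lit 15219056769), (nat_lit 24, nat_lit 16292798592), (nat_lit 68, nat_lit 16292794497), (nat_lit 89, nat_lit 16276021377), (nat_lit 39, nat_lit 17366536320), (nat_lit 26, nat_lit 17366532225), (nat_lit 116, nat_lit 17349763200), (nat_lit 97, nat_lit 17349759105), (nat_lit 83, nat_lit 18440274048), (nat_lit 55, nat_lit 18440269953), (nat_lit 35, nat_lit 18423500928), (nat_lit 4, nat_lit 18423496833), (nat_lit 39, nat_lit 19514011776), (nat_lit 57, nat_lit 19514007681), (nat_lit 46, nat_lit 19497238656), (nat_lit 22, nat_lit 19497234561), (nat_lit 111, nat_lit 20587749504), (nat_lit 36, nat_lit 20570976384), (nat_lit 100, nat_lit 20570972289), (nat_lit 36, nat_lit 21644714112)]⟩,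
   ⟨V6_14145298560, [(nat_lit 86, nat_lit 15219056769), (nat_lit 31, nat_lit 16292798592), (nat_lit 5, nat_lit 16292794497), (nat_lit 77, nat_lit 17366536320), (nat_lit 39, nat_lit 17366532225), (nat_lit 125, nat_lit 18440274048), (nat_lit 93, nat_lit 18440269953), (nat_lit 74, nat_lit 19514011776), (nat_lit 78, nat_lit 19514007681), (nat_lit 52, nat_lit 20587749504)]⟩],
  [W_15201747008, W_15185231936, W_15184973888, W_15168716864, W_15168200768, W_14111236160, W_14094979136, W_14094721088, W_14094459008, W_13071044672, W_11997564992]⟩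
theorem C_15219056769 : chkRec R_15219056769 = true := by decide +kernel

noncomputable def R_15219056832 : Rec := ⟨nat_lit 15219056832, nat_lit 99,
  [⟨V6_15201755136, [(nat_lit 85, nat_lit 15219056832), (nat_lit 120, nat_lit 16292798592), (nat_lit 80, nat_lit 16292536512), (nat_lit 78, nat_lit 16276021440), (nat_lit 12, nat_lit 17366540352), (nat_lit 63, nat_lit 17366278272), (nat_lit 33, nat_lit 17366016192), (nat_lit 120, nat_lit 17349763200), (nat_lit 29, nat_lit 17349501120), (nat_lit 91, nat_lit 18440282112), (nat_lit 108, nat_lit 18440020032), (nat_lit 28, nat_lit 18439757952), (nat_lit 108, nat_lit 18423504960), (nat_lit 118, nat_lit 18423242880), (nat_lit 71, nat_lit 18422980800), (nat_lit 72, nat_lit 19513761792), (nat_lit 49, nat_lit 19513499712), (nat_lit 46, nat_lit 19497246720), (nat_lit 97, nat_lit 19496984640), (nat_lit 17, nat_lit 19496722560), (nat_lit 52, nat_lit 20587241472), (nat_lit 122, nat_lit 20570726400), (nat_lit 109, nat_lit 20570464320), (nat_lit 3, nat_lit 21644206080)]⟩,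
   ⟨V6_15168724992, [(nat_lit 67, nat_lit 15219056832), (nat_lit 65, nat_lit 16292798592), (nat_lit 114, nat_lit 16276021440), (nat_lit 111, nat_lit 17366540352), (nat_lit 3, nat_lit 17349763200), (nat_lit 67, nat_lit 17332986048), (nat_lit 124, nat_lit 18440282112), (nat_lit 93, nat_lit 18423504960), (nat_lit 125, nat_lit 18406727808), (nat_lit 41, nat_lit 18389950656), (nat_lit 50, nat_lit 19497246720), (nat_lit 92, nat_lit 19480469568), (nat_lit 106, nat_lit 19463692416), (nat_lit 15, nat_lit 20554211328), (nat_lit 106, nat_lit 20537434176), (nat_lit 44, nat_lit 21611175936)]⟩,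
   ⟨V6_14144790528, [(nat_lit 2, nat_lit 15219056832), (nat_lit 28, nat_lit 16292798592), (nat_lit 52, nat_lit 16292536512), (nat_lit 101, nat_lit 17366540352), (nat_lit 87, nat_lit 17366278272), (nat_lit 45, nat_lit 17366016192), (nat_lit 87, nat_lit 18440282112), (nat_lit 108, nat_lit 18440020032), (nat_lit 90, nat_lit 18439757952), (nat_lit 51, nat_lit 19513761792), (nat_lit 125, nat_lit 19513499712), (nat_lit 8, nat_lit 20587241472)]⟩,
   ⟨V6_13071568896, [(nat_lit 116, nat_lit 15219056832), (nat_lit 34, nat_lit 16292798592), (nat_lit 70, nat_lit 16292794560), (nat_lit 3, nat_lit 17366540352), (nat_lit 54, nat_lit 17366536320), (nat_lit 24, nat_lit 18440282112), (nat_lit 75, nat_lit 18440278080), (nat_lit 91, nat_lit 19514019840)]⟩,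
   ⟨V6_13071310848, [(nat_lit 119, nat_lit 15219056832), (nat_lit 53, nat_lit 16292798592), (nat_lit 56, nat_lit 16292536512), (nat_lit 72, nat_lit 17366540352), (nat_lit 79, nat_lit 17366278272), (nat_lit 81, nat_lit 18440282112), (nat_lit 70, nat_lit 18440020032), (nat_lit 46, nat_lit 19513761792)]⟩],
  [W_15218524160, W_15202009088, W_15201747008, W_15185494016, W_15185489984, W_15185231936, W_15184969856, W_15168720896, W_15168716864, W_14145044480, W_11997556928, W_11997298880]⟩
theorem C_15219056832 : chkRec R_15219056832 = true := by decide +kernel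

noncomputable def R_15219060801 : Rec := ⟨nat_lit 15219060801, nat_lit 28,
  [⟨V6_15168720960, [(nat_lit 70, nat_lit 15219060801), (nat_lit 118, nat_lit 16292802624), (nat_lit 15, nat_lit 16292798529), (nat_lit 14, nat_lit 16276025409), (nat_lit 11, nat_lit 17366540352), (nat_lit 94, nat_lit 17366536257), (nat_lit 74, nat_lit 17349767232), (nat_lit 43, nat_lit 17349763137), (nat_lit 28, nat_lit 17332990017), (nat_lit 106, nat_lit 18440278080), (nat_lit 63, nat_lit 18423504960), (nat_lit 68, nat_lit 18423500865), (nat_lit 37, nat_lit 18406731840), (nat_lit 79, nat_lit 18406727745), (nat_lit 114, nat_lit 18389954625), (nat_lit 67, nat_lit 19497242688), (nat_lit 9, nat_lit 19480469568), (nat_lit 55, nat_lit 19480465473), (nat_lit 113, nat_lit 19463696448), (nat_lit 2, nat_lit 19463692353), (nat_lit 113, nat_lit 20554207296), (nat_lit 76, nat_lit 20537434176), (nat_lit 19, nat_lit 20537430081), (nat_lit 65, nat_lit 21611171904)]⟩,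
   ⟨V6_11997569088, [(nat_lit 44, nat_lit 15219060801), (nat_lit 108, nat_lit 16292802624), (nat_lit 16, nat_lit 16292798529), (nat_lit 2, nat_lit 16292540481), (nat_lit 30, nat_lit 17366540352), (nat_lit 27, nat_lit 17366282304), (nat_lit 51, nat_lit 17366278209), (nat_lit 10, nat_lit 18440020032)]⟩],
  [W_15219036224, W_15185489984, W_14128267328, W_13071560768]⟩
theorem C_15219060801 : chkRec R_15219060801 = true := by decide +kernel

noncomputable def R_15219060864 : Rec := ⟨nat_lit 15219060864, nat_lit 74,
  [⟨V6_15168724992, [(nat_lit 15, nat_lit 15219060864), (nat_lit 72, nat_lit 16292802624), (nat_lit 14, nat_lit 16292798592), (nat_lit 78, nat_lit 16276025472), (nat_lit 99, nat_lit 17366544384), (nat_lit 125, nat_lit 17366540352), (nat_lit 93, nat_lit 17349767232), (nat_lit 19, nat_lit 17349763200), (nat_lit 81, nat_lit 17332990080), (nat_lit 64, nat_lit 18440282112), (nat_lit 28, nat_lit 18423508992), (nat_lit 30, nat_lit 18423504960), (nat_lit 13, nat_lit 18406731840), (nat_lit 81, nat_lit 18406727808), (nat_lit 56, nat_lit 18389954688),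 (nat_lit 14, nat_lit 19497246720), (nat_lit 68, nat_lit 19480473600), (nat_lit 17, nat_lit 19480469568), (nat_lit 51, nat_lit 19463696448), (nat_lit 119, nat_lit 19463692416), (nat_lit 46, nat_lit 20554211328), (nat_lit 57, nat_lit 20537438208), (nat_lit 77, nat_lit 20537434176), (nat_lit 74, nat_lit 21611175936)]⟩,
   ⟨V6_14094987264, [(nat_lit 17, nat_lit 15219060864), (nat_lit 41, nat_lit 16292802624), (nat_lit 104, nat_lit 16276025472), (nat_lit 37, nat_lit 17366544384), (nat_lit 76, nat_lit 17349767232), (nat_lit 72, nat_lit 17332990080), (nat_lit 76, nat_lit 18423508992), (nat_lit 13, nat_lit 18406731840), (nat_lit 52, nat_lit 18389954688), (nat_lit 117, nat_lit 19480473600), (nat_lit 34, nat_lit 19463696448), (nat_lit 99, nat_lit 20537438208)]⟩,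
   ⟨V6_13071568896, [(nat_lit 11, nat_lit 15219060864), (nat_lit 95, nat_lit 16292802624), (nat_lit 21, nat_lit 16292798592), (nat_lit 70, nat_lit 17366544384), (nat_lit 48, nat_lit 17366540352), (nat_lit 62, nat_lit 17366536320), (nat_lit 123, nat_lit 18440282112), (nat_lit 69, nat_lit 18440278080), (nat_lit 34, nat_lit 19514019840)]⟩,
   ⟨V6_13071310848, [(nat_lit 91, nat_lit 15219060864), (nat_lit 103, nat_lit 16292802624), (nat_lit 29, nat_lit 16292798592), (nat_lit 45, nat_lit 16292540544), (nat_lit 56, nat_lit 17366544384), (nat_lit 9, nat_lit 17366540352), (nat_lit 97, nat_lit 17366282304), (nat_lit 121, nat_lit 17366278272), (nat_lit 50, nat_lit 18440282112), (nat_lit 55, nat_lit 18440024064), (nat_lit 15, nat_lit 18440020032), (nat_lit 5, nat_lit 19513761792)]⟩,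
   ⟨V6_11997573120, [(nat_lit 53, nat_lit 15219060864), (nat_lit 43, nat_lit 16292802624), (nat_lit 2, nat_lit 16292540544), (nat_lit 109, nat_lit 17366544384), (nat_lit 111, nat_lit 17366282304), (nat_lit 31, nat_lit 18440024064)]⟩,
   ⟨V6_11981058048, [(nat_lit 42, nat_lit 15219060864), (nat_lit 98, nat_lit 16292802624), (nat_lit 41, nat_lit 16276025472), (nat_lit 56, nat_lit 17366544384), (nat_lit 99, nat_lit 17349767232), (nat_lit 123, nat_lit 18423508992)]⟩],
  [W_15202009088, W_15202001024, W_15185494016, W_15185489984, W_15185485952, W_15185231936, W_15168716864, W_15168712832, W_14145044480]⟩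
theorem C_15219060864 : chkRec R_15219060864 = true := by decide +kernel

noncomputable def R_15219064896 : Rec := ⟨nat_lit 15219064896, nat_lit 34,
  [⟨V6_13071568896, [(nat_lit 107, nat_lit 15219064896), (nat_lit 21, nat_lit 16292806656), (nat_lit 79, nat_lit 16292802624), (nat_lit 102, nat_lit 17366544384), (nat_lit 30, nat_lit 17366540352), (nat_lit 52, nat_lit 18440282112), (nat_lit 23, nat_lit 18440278080), (nat_lit 86, nat_lit 19514019840)]⟩,
   ⟨V6_13021249536, [(nat_lit 77, nat_lit 15219064896), (nat_lit 6, nat_lit 16292806656), (nat_lit 6, nat_lit 16276029504), (nat_lit 43, nat_lit 17349771264), (nat_lit 92, nat_lit 17332994112), (nat_lit 92, nat_lit 18406735872), (nat_lit 65, nat_lit 18389958720), (nat_lit 92, nat_lit 19463700480)]⟩,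
   ⟨V6_11981058048, [(nat_lit 10, nat_lit 15219064896), (nat_lit 10, nat_lit 16292806656), (nat_lit 20, nat_lit 16292802624), (nat_lit 15, nat_lit 16276029504), (nat_lit 107, nat_lit 17366544384), (nat_lit 99, nat_lit 17349771264), (nat_lit 63, nat_lit 17349767232), (nat_lit 16, nat_lit 18423508992)]⟩],
  [W_15185494016, W_15185489984, W_15168720896, W_15168716864, W_13021245440]⟩
theorem C_15219064896 : chkRec R_15219064896 = true := by decide +kernel

noncomputable def R_15219306690 : Rec := ⟨nat_lit 15219306690, nat_lit 10,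
  [⟨V6_14144254146, [(nat_lit 45, nat_lit 15219306690), (nat_lit 117, nat_lit 16292786370), (nat_lit 72, nat_lit 17366266050), (nat_lit 44, nat_lit 18439745730), (nat_lit 109, nat_lit 19513225410), (nat_lit 3, nat_lit 20586705090)]⟩,
   ⟨V6_13070774466, [(nat_lit 100, nat_lit 15219306690), (nat_lit 4, nat_lit 16292786370), (nat_lit 123, nat_lit 17366266050), (nat_lit 95, nat_lit 18439745730), (nat_lit 52, nat_lit 19513225410)]⟩,
   ⟨V6_11997819072, [(nat_lit 4, nat_lit 15219306690), (nat_lit 96, nat_lit 16293048513), (nat_lit 23, nat_lit 16292786370), (nat_lit 33, nat_lit 17366790336), (nat_lit 115, nat_lit 17366528193), (nat_lit 1, nat_lit 18440270016)]⟩],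
  [W_14111748224, W_14111486144, W_13038268544, W_11997556928, W_11964526784]⟩
theorem C_15219306690 : chkRec R_15219306690 = true := by decide +kernel

noncomputable def R_15219310722 : Rec := ⟨nat_lit 15219310722, nat_lit 16,
  [⟨V6_14145298560, [(nat_lit 97, nat_lit 15219310722), (nat_lit 24, nat_lit 16293052545), (nat_lit 28, nat_lit 16293048450), (nat_lit 36, nat_lit 16292790402), (nat_lit 78, nat_lit 17366794368), (nat_lit 54, nat_lit 17366790273), (nat_lit 25, nat_lit 17366786178), (nat_lit 121, nat_lit 17366532225), (nat_lit 1, nat_lit 17366528130), (nat_lit 32, nat_lit 18440532096), (nat_lit 103, nat_lit 18440528001), (nat_lit 74, nat_lit 18440274048), (nat_lit 124, nat_lit 18440269953), (nat_lit 32, nat_lit 18440265858), (nat_lit 125, nat_lit 19514269824), (nat_lit 65, nat_lit 19514011776), (nat_lit 19, nat_lit 19514007681), (nat_lit 83, nat_lit 20587749504)]⟩],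
  [W_15218000000, W_15201484928, W_15185485952, W_13071040640, W_13038268544, W_11981303936]⟩
theorem C_15219310722 : chkRec R_15219310722 = true := by decide +kernel

noncomputable def R_15219310785 : Rec := ⟨nat_lit 15219310785, nat_lit 43,
  [⟨V6_15202267200, [(nat_lit 67, nat_lit 15219310785), (nat_lit 122, nat_lit 16293052608), (nat_lit 51, nat_lit 16293052545), (nat_lit 93, nat_lit 16293048513), (nat_lit 73, nat_lit 16292790465), (nat_lit 73, nat_lit 16276275393), (nat_lit 104, nat_lit 17366794368), (nat_lit 51, nat_lit 17366794305), (nat_lit 102, nat_lit 17366790336), (nat_lit 47, nat_lit 17366790273), (nat_lit 105, nat_lit 17366532288), (nat_lit 43, nat_lit 17366532225), (nat_lit 44, nat_lit 17366528193), (nat_lit 58, nat_lit 17350017216), (nat_lit 72, nat_lit 17350017153), (nat_lit 83, nat_lit 17350013121), (nat_lit 12, nat_lit 17349755073), (nat_lit 54, nat_lit 18440536128), (nat_lit 16, nat_lit 18440532096), (nat_lit 37, nat_lit 18440532033), (nat_lit 25, nat_lit 18440274048), (nat_lit 61, nat_lit 18440273985), (nat_lit 32, nat_lit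 18440270016), (nat_lit 16, nat_lit 18440269953), (nat_lit 40, nat_lit 18423758976), (nat_lit 13, nat_lit 18423758913), (nat_lit 119, nat_lit 18423754944), (nat_lit 50, nat_lit 18423754881), (nat_lit 122, nat_lit 18423496896), (nat_lit 16, nat_lit 18423496833), (nat_lit 79, nat_lit 18423492801), (nat_lit 24, nat_lit 19514273856), (nat_lit 2, nat_lit 19514015808), (nat_lit 117, nat_lit 19514011776), (nat_lit 123, nat_lit 19514011713), (nat_lit 99, nat_lit 19497500736), (nat_lit 16, nat_lit 19497496704), (nat_lit 30, nat_lit 19497496641), (nat_lit 56, nat_lit 19497238656), (nat_lit 95, nat_lit 19497238593), (nat_lit 42, nat_lit 19497234624), (nat_lit 84, nat_lit 19497234561), (nat_lit 88, nat_lit 20587753536), (nat_lit 89, nat_lit 20571238464), (nat_lit 20, nat_lit 20570980416), (nat_lit 84, nat_lit 20570976384), (nat_lit 65, nat_lit 20570976321), (nat_lit 2, nat_lit 21644718144)]⟩],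
  [W_15218262080, W_15201747008, W_15201222848, W_15185231936, W_14111490176, W_14111486144, W_11998081088, W_11997298880, W_11964526784, W_11964268736]⟩
theorem C_15219310785 : chkRec R_15219310785 = true := by decide +kernel

noncomputable def R_15219310848 : Rec := ⟨nat_lit 15219310848, nat_lit 36,
  [⟨V6_15218000064, [(nat_lit 55, nat_lit 15219310848), (nat_lit 70, nat_lit 16293052608), (nat_lit 106, nat_lit 16292790528), (nat_lit 29, nat_lit 17366532288), (nat_lit 100, nat_lit 17366270208), (nat_lit 99, nat_lit 18440011968), (nat_lit 19, nat_lit 18439749888), (nat_lit 95, nat_lit 19513491648), (nat_lit 96, nat_lit 19513229568), (nat_lit 4, nat_lit 20586971328), (nat_lit 112, nat_lit 20586709248), (nat_lit 37, nat_lit 21660451008)]⟩,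
   ⟨V6_15185756160, [(nat_lit 104, nat_lit 15219310848), (nat_lit 67, nat_lit 16293052608), (nat_lit 82, nat_lit 16276275456), (nat_lit 108, nat_lit 17366794368), (nat_lit 28, nat_lit 17350017216), (nat_lit 80, nat_lit 17333240064), (nat_lit 78, nat_lit 18440536128), (nat_lit 33, nat_lit 18423758976), (nat_lit 102, nat_lit 18406981824), (nat_lit 122, nat_lit 19514277888), (nat_lit 24, nat_lit 19497500736), (nat_lit 67, nat_lit 19480723584), (nat_lit 68, nat_lit 20571242496), (nat_lit 83, nat_lit 20554465344), (nat_lit 21, nat_lit 21628207104)]⟩,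
   ⟨V6_14144258304, [(nat_lit 71, nat_lit 15219310848), (nat_lit 83, nat_lit 16292790528), (nat_lit 12, nat_lit 17366270208), (nat_lit 92, nat_lit 18439749888), (nat_lit 124, nat_lit 19513229568), (nat_lit 64, nat_lit 20586709248)]⟩],
  [W_15218524160, W_15202009088, W_14145044480, W_13071040640]⟩
theorem C_15219310848 : chkRec R_15219310848 = true := by decide +kernel

noncomputable def R_15219314817 : Rec := ⟨nat_lit 15219314817, nat_lit 55,
  [⟨V6_15202263168, [(nat_lit 70, nat_lit 15219314817), (nat_lit 3, nat_lit 16293056640), (nat_lit 125, nat_lit 16293052545), (nat_lit 125, nat_lit 16292794497), (nat_lit 17, nat_lit 16276279425), (nat_lit 104, nat_lit 17366794368), (nat_lit 46, nat_lit 17366790273), (nat_lit 2, nat_lit 17366536320), (nat_lit 56, nat_lit 17366532225), (nat_lit 91, nat_lit 17350021248), (nat_lit 15, nat_lit 17350017153), (nat_lit 126, nat_lit 17349759105), (nat_lit 6, nat_lit 18440532096), (nat_lit 37, nat_lit 18440528001), (nat_lit 44, nat_lit 18440274048), (nat_lit 123, nat_lit 18440269953), (nat_lit 105, nat_lit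 18423758976), (nat_lit 119, nat_lit 18423754881), (nat_lit 100, nat_lit 18423500928), (nat_lit 99, nat_lit 18423496833), (nat_lit 120, nat_lit 19514269824), (nat_lit 95, nat_lit 19514011776), (nat_lit 106, nat_lit 19514007681), (nat_lit 111, nat_lit 19497496704), (nat_lit 64, nat_lit 19497492609), (nat_lit 86, nat_lit 19497238656), (nat_lit 56, nat_lit 19497234561), (nat_lit 24, nat_lit 20587749504), (nat_lit 18, nat_lit 20571234432), (nat_lit 96, nat_lit 20570976384), (nat_lit 93, nat_lit 20570972289), (nat_lit 112, nat_lit 21644714112)]⟩,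
   ⟨V6_14145298560, [(nat_lit 26, nat_lit 15219314817), (nat_lit 35, nat_lit 16293056640), (nat_lit 40, nat_lit 16293052545), (nat_lit 26, nat_lit 16292794497), (nat_lit 114, nat_lit 17366794368), (nat_lit 2, nat_lit 17366790273), (nat_lit 30, nat_lit 17366536320), (nat_lit 84, nat_lit 17366532225), (nat_lit 125, nat_lit 18440532096), (nat_lit 78, nat_lit 18440528001), (nat_lit 2, nat_lit 18440274048), (nat_lit 111, nat_lit 18440269953), (nat_lit 120, nat_lit 19514269824), (nat_lit 50, nat_lit 19514011776), (nat_lit 125, nat_lit 19514007681), (nat_lit 49, nat_lit 20587749504)]⟩],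
  [W_15218262080, W_15201747008, W_15185231936, W_15184973888, W_14144782400, W_14144524352, W_13071044672, W_11997564992, W_11997302912]⟩
theorem C_15219314817 : chkRec R_15219314817 = true := by decide +kernel

noncomputable def R_15219314880 : Rec := ⟨nat_lit 15219314880, nat_lit 88,
  [⟨V6_15202529280, [(nat_lit 101, nat_lit 15219314880), (nat_lit 77, nat_lit 16293056640), (nat_lit 84, nat_lit 16293052608), (nat_lit 10, nat_lit 16276279488), (nat_lit 39, nat_lit 17366798400), (nat_lit 1, nat_lit 17366794368), (nat_lit 125, nat_lit 17366790336), (nat_lit 43, nat_lit 17350021248), (nat_lit 3, nat_lit 17350017216), (nat_lit 44, nat_lit 18440540160), (nat_lit 52, nat_lit 18440536128), (nat_lit 4, nat_lit 18440532096), (nat_lit 102, nat_lit 18423763008), (nat_lit 105, nat_lit 18423758976), (nat_lit 125, nat_lit 18423754944), (nat_lit 47, nat_lit 19514277888), (nat_lit 107, nat_lit 19514273856), (nat_lit 19, nat_lit 19497504768), (nat_lit 118, nat_lit 19497500736), (nat_lit 76, nat_lit 19497496704), (nat_lit 124, nat_lit 20588015616), (nat_lit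 23, nat_lit 20571242496), (nat_lit 9, nat_lit 20571238464), (nat_lit 94, nat_lit 21644980224)]⟩,
   ⟨V6_14112018432, [(nat_lit 75, nat_lit 15219314880), (nat_lit 2, nat_lit 16293056640), (nat_lit 24, nat_lit 16276279488), (nat_lit 6, nat_lit 17366798400), (nat_lit 2, nat_lit 17350021248), (nat_lit 15, nat_lit 17333244096), (nat_lit 43, nat_lit 18440540160), (nat_lit 54, nat_lit 18423763008), (nat_lit 118, nat_lit 18406985856), (nat_lit 65, nat_lit 19497504768), (nat_lit 82, nat_lit 19480727616), (nat_lit 84, nat_lit 20554469376)]⟩,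
   ⟨V6_13071568896, [(nat_lit 103, nat_lit 15219314880), (nat_lit 75, nat_lit 16293056640), (nat_lit 100, nat_lit 16292794560), (nat_lit 97, nat_lit 17366798400), (nat_lit 122, nat_lit 17366536320), (nat_lit 71, nat_lit 18440540160), (nat_lit 56, nat_lit 18440278080), (nat_lit 50, nat_lit 19514019840)]⟩,
   ⟨V6_13055053824, [(nat_lit 55, nat_lit 15219314880), (nat_lit 21, nat_lit 16293056640), (nat_lit 99, nat_lit 16276279488), (nat_lit 85, nat_lit 17366798400), (nat_lit 7, nat_lit 17350021248), (nat_lit 1, nat_lit 18440540160), (nat_lit 1, nat_lit 18423763008), (nat_lit 96, nat_lit 19497504768)]⟩],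
  [W_15218524160, W_15218266112, W_15218262080, W_15202009088, W_15201747008, W_15185231936, W_15184973888, W_15184969856, W_14144516288, W_14110970048, W_13071036608, W_13054263488, W_11997556928, W_11997298880, W_11997040832, W_11964526784]⟩
theorem C_15219314880 : chkRec R_15219314880 = true := by decide +kernel

noncomputable def R_15219318849 : Rec := ⟨nat_lit 15219318849, nat_lit 39,
  [⟨V6_14128013376, [(nat_lit 57, nat_lit 15219318849), (nat_lit 114, nat_lit 16293060672), (nat_lit 103, nat_lit 16292798529), (nat_lit 90, nat_lit 16276283457), (nat_lit 104, nat_lit 17366540352), (nat_lit 117, nat_lit 17366278209), (nat_lit 93, nat_lit 17350025280), (nat_lit 71, nat_lit 17349763137), (nat_lit 69, nat_lit 18440020032), (nat_lit 40, nat_lit 18439757889), (nat_lit 52, nat_lit 18423504960), (nat_lit 88, nat_lit 18423242817), (nat_lit 19, nat_lit 19513499712), (nat_lit 113, nat_lit 19496984640), (nat_lit 99, nat_lit 19496722497), (nat_lit 67, nat_lit 20570464320)]⟩,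
   ⟨V6_11997569088, [(nat_lit 86, nat_lit 15219318849), (nat_lit 4, nat_lit 16293060672), (nat_lit 114, nat_lit 16292798529), (nat_lit 21, nat_lit 17366540352), (nat_lit 71, nat_lit 17366278209), (nat_lit 97, nat_lit 18440020032)]⟩],
  [W_15202521152, W_15201747008, W_15185748032, W_15185489984, W_15185231936, W_14145556544]⟩
theorem C_15219318849 : chkRec R_15219318849 = true := by decide +kernel

noncomputable def R_15219318912 : Rec := ⟨nat_lit 15219318912, nat_lit 98,
  [⟨V6_15219302400, [(nat_lit 41, nat_lit 15219318912), (nat_lit 1, nat_lit 16293060672), (nat_lit 52, nat_lit 16293056640), (nat_lit 41, nat_lit 17366802432), (nat_lit 7, nat_lit 17366798400), (nat_lit 19, nat_lit 17366794368), (nat_lit 92, nat_lit 18440540160), (nat_lit 90, nat_lit 18440536128), (nat_lit 57, nat_lit 18440532096), (nat_lit 71, nat_lit 19514277888), (nat_lit 18, nat_lit 19514273856), (nat_lit 75, nat_lit 19514269824), (nat_lit 27, nat_lit 20588015616), (nat_lit 65, nat_lit 20588011584), (nat_lit 70, nat_lit 21661753344)]⟩,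
   ⟨V6_15201755136, [(nat_lit 43, nat_lit 15219318912), (nat_lit 2, nat_lit 16293060672), (nat_lit 95, nat_lit 16292798592), (nat_lit 106, nat_lit 16276283520), (nat_lit 30, nat_lit 17366802432), (nat_lit 106, nat_lit 17366540352), (nat_lit 69, nat_lit 17366278272), (nat_lit 68, nat_lit 17350025280), (nat_lit 118, nat_lit 17349763200), (nat_lit 109, nat_lit 18440282112), (nat_lit 46, nat_lit 18440020032), (nat_lit 97, nat_lit 18439757952), (nat_lit 1, nat_lit 18423767040), (nat_lit 54, nat_lit 18423504960), (nat_lit 8, nat_lit 18423242880), (nat_lit 88, nat_lit 19513761792), (nat_lit 96, nat_lit 19513499712), (nat_lit 66, nat_lit 19497246720), (nat_lit 48, nat_lit 19496984640), (nat_lit 70, nat_lit 19496722560), (nat_lit 109, nat_lit 20587241472), (nat_lit 34, nat_lit 20570726400), (nat_lit 16, nat_lit 20570464320), (nat_lit 31, nat_lit 21644206080)]⟩,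
   ⟨V6_14144790528, [(nat_lit 92, nat_lit 15219318912), (nat_lit 86, nat_lit 16293060672), (nat_lit 1, nat_lit 16292798592), (nat_lit 120, nat_lit 17366802432), (nat_lit 109, nat_lit 17366540352), (nat_lit 59, nat_lit 17366278272), (nat_lit 107, nat_lit 18440282112), (nat_lit 46, nat_lit 18440020032), (nat_lit 85, nat_lit 18439757952), (nat_lit 20, nat_lit 19513761792), (nat_lit 22, nat_lit 19513499712), (nat_lit 7, nat_lit 20587241472)]⟩,
   ⟨V6_13071310848, [(nat_lit 103, nat_lit 15219318912), (nat_lit 93, nat_lit 16293060672), (nat_lit 79, nat_lit 16292798592), (nat_lit 96, nat_lit 17366802432), (nat_lit 1, nat_lit 17366540352), (nat_lit 20, nat_lit 17366278272), (nat_lit 104, nat_lit 18440282112), (nat_lit 11, nat_lit 18440020032), (nat_lit 28, nat_lit 19513761792)]⟩],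
  [W_15218524160, W_15202009088, W_15202001024, W_15201747008, W_15185752064, W_15185494016, W_15185489984, W_15185485952, W_15185231936, W_15184969856, W_14112010304, W_13071040640]⟩
theorem C_15219318912 : chkRec R_15219318912 = true := by decide +kernel

noncomputable def R_15219322944 : Rec := ⟨nat_lit 15219322944, nat_lit 67,
  [⟨V6_15219302400, [(nat_lit 107, nat_lit 15219322944), (nat_lit 82, nat_lit 16293064704), (nat_lit 94, nat_lit 16293060672), (nat_lit 77, nat_lit 17366802432), (nat_lit 60, nat_lit 17366798400), (nat_lit 110, nat_lit 18440540160), (nat_lit 41, nat_lit 18440536128), (nat_lit 88, nat_lit 19514277888), (nat_lit 93, nat_lit 19514273856), (nat_lit 6, nat_lit 20588015616), (nat_lit 92, nat_lit 20588011584), (nat_lit 105, nat_lit 21661753344)]⟩,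
   ⟨V6_13071568896, [(nat_lit 22, nat_lit 15219322944), (nat_lit 88, nat_lit 16293064704), (nat_lit 24, nat_lit 16293060672), (nat_lit 33, nat_lit 16292802624), (nat_lit 98, nat_lit 17366802432), (nat_lit 8, nat_lit 17366798400), (nat_lit 91, nat_lit 17366544384), (nat_lit 104, nat_lit 17366540352), (nat_lit 59, nat_lit 18440540160), (nat_lit 92, nat_lit 18440282112), (nat_lit 116, nat_lit 18440278080), (nat_lit 38, nat_lit 19514019840)]⟩,
   ⟨V6_11981058048, [(nat_lit 101, nat_lit 15219322944), (nat_lit 93, nat_lit 16293064704), (nat_lit 18, nat_lit 16292802624), (nat_lit 126, nat_lit 16276287552), (nat_lit 22, nat_lit 17366544384), (nat_lit 7, nat_lit 17350029312), (nat_lit 2, nat_lit 17349767232), (nat_lit 50, nat_lit 18423508992)]⟩],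
  [W_15219298304, W_15202525184, W_15202521152, W_15202009088, W_15185494016, W_15185489984, W_15185231936, W_14112010304]⟩
theorem C_15219322944 : chkRec R_15219322944 = true := by decide +kernel

noncomputable def R_15219326976 : Rec := ⟨nat_lit 15219326976, nat_lit 24,
  [⟨V6_15219302400, [(nat_lit 107, nat_lit 15219326976), (nat_lit 108, nat_lit 16293064704), (nat_lit 124, nat_lit 17366802432), (nat_lit 46, nat_lit 18440540160), (nat_lit 17, nat_lit 19514277888), (nat_lit 59, nat_lit 20588015616), (nat_lit 115, nat_lit 21661753344)]⟩],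
  [W_15185494016, W_14128787456, W_11997827072, W_11981053952]⟩
theorem C_15219326976 : chkRec R_15219326976 = true := by decide +kernel

noncomputable def R_15219568770 : Rec := ⟨nat_lit 15219568770, nat_lit 8,
  [⟨V6_14145298560, [(nat_lit 36, nat_lit 15219568770), (nat_lit 69, nat_lit 16293310593), (nat_lit 88, nat_lit 16293306498), (nat_lit 118, nat_lit 16293048450), (nat_lit 124, nat_lit 17367052416), (nat_lit 31, nat_lit 17367048321), (nat_lit 85, nat_lit 17366790273), (nat_lit 22, nat_lit 17366786178), (nat_lit 1, nat_lit 17366528130), (nat_lit 42, nat_lit 18440790144), (nat_lit 33, nat_lit 18440532096), (nat_lit 52, nat_lit 18440528001), (nat_lit 68, nat_lit 18440269953), (nat_lit 71, nat_lit 18440265858), (nat_lit 81, nat_lit 19514269824), (nat_lit 19, nat_lit 19514011776), (nat_lit 34, nat_lit 19514007681), (nat_lit 44, nat_lit 20587749504)]⟩],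
  [W_15202001024, W_11997819008, W_11981561984, W_11981303936]⟩
theorem C_15219568770 : chkRec R_15219568770 = true := by decide +kernel

noncomputable def R_15219568833 : Rec := ⟨nat_lit 15219568833, nat_lit 15,
  [⟨V6_14128787520, [(nat_lit 93, nat_lit 15219568833), (nat_lit 12, nat_lit 16293310656), (nat_lit 112, nat_lit 16293310593), (nat_lit 112, nat_lit 16293048513), (nat_lit 94, nat_lit 16276533441), (nat_lit 90, nat_lit 17367052416), (nat_lit 92, nat_lit 17367052353), (nat_lit 85, nat_lit 17366790336), (nat_lit 121, nat_lit 17366790273), (nat_lit 74, nat_lit 17350275264), (nat_lit 11, nat_lit 17350275201), (nat_lit 3, nat_lit 17350013121), (nat_lit 26, nat_lit 18440794176), (nat_lit 70, nat_lit 18440532096), (nat_lit 50, nat_lit 18440532033), (nat_lit 4, nat_lit 18424017024), (nat_lit 104, nat_lit 18424016961), (nat_lit 78, nat_lit 18423754944), (nat_lit 99, nat_lit 18423754881), (nat_lit 83, nat_lit 19514273856), (nat_lit 112, nat_lit 19497758784), (nat_lit 70, nat_lit 19497496704), (nat_lit 68, nat_lit 19497496641), (nat_lit 112,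 nat_lit 20571238464)]⟩],
  [W_15217995968, W_14128525376, W_13071560768, W_13071036608, W_11997556928]⟩
theorem C_15219568833 : chkRec R_15219568833 = true := by decide +kernel

noncomputable def R_15219572865 : Rec := ⟨nat_lit 15219572865, nat_lit 38,
  [⟨V6_15202263168, [(nat_lit 66, nat_lit 15219572865), (nat_lit 55, nat_lit 16293314688), (nat_lit 101, nat_lit 16293310593), (nat_lit 113, nat_lit 16293052545), (nat_lit 25, nat_lit 16276537473), (nat_lit 18, nat_lit 17367052416), (nat_lit 15, nat_lit 17367048321), (nat_lit 22, nat_lit 17366794368), (nat_lit 119, nat_lit 17366790273), (nat_lit 106, nat_lit 17366532225), (nat_lit 9, nat_lit 17350279296), (nat_lit 86, nat_lit 17350275201), (nat_lit 25, nat_lit 17350017153), (nat_lit 28, nat_lit 18440790144), (nat_lit 1, nat_lit 18440532096), (nat_lit 54, nat_lit 18440528001), (nat_lit 119, nat_lit 18440274048), (nat_lit 82, nat_lit 18440269953), (nat_lit 64, nat_lit 18424017024), (nat_lit 113, nat_lit 18424012929), (nat_lit 81, nat_lit 18423758976), (nat_lit 19, nat_lit 18423754881), (nat_lit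 66, nat_lit 18423496833), (nat_lit 69, nat_lit 19514269824), (nat_lit 91, nat_lit 19514011776), (nat_lit 66, nat_lit 19514007681), (nat_lit 96, nat_lit 19497754752), (nat_lit 80, nat_lit 19497496704), (nat_lit 9, nat_lit 19497492609), (nat_lit 65, nat_lit 19497238656), (nat_lit 23, nat_lit 19497234561), (nat_lit 36, nat_lit 20587749504), (nat_lit 7, nat_lit 20571234432), (nat_lit 62, nat_lit 20570976384), (nat_lit 60, nat_lit 20570972289), (nat_lit 40, nat_lit 21644714112)]⟩],
  [W_15218262080, W_15201747008, W_14144782400, W_14128525376, W_11981566016]⟩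
theorem C_15219572865 : chkRec R_15219572865 = true := by decide +kernel

noncomputable def R_15219572928 : Rec := ⟨nat_lit 15219572928, nat_lit 55,
  [⟨V6_15202529280, [(nat_lit 18, nat_lit 15219572928), (nat_lit 95, nat_lit 16293314688), (nat_lit 20, nat_lit 16293310656), (nat_lit 66, nat_lit 16293052608), (nat_lit 108, nat_lit 16276537536), (nat_lit 33, nat_lit 17367056448), (nat_lit 89, nat_lit 17367052416), (nat_lit 59, nat_lit 17366794368), (nat_lit 29, nat_lit 17366790336), (nat_lit 35, nat_lit 17350279296), (nat_lit 58, nat_lit 17350275264), (nat_lit 20, nat_lit 17350017216), (nat_lit 13, nat_lit 18440798208), (nat_lit 55, nat_lit 18440794176), (nat_lit 92, nat_lit 18440536128), (nat_lit 32, nat_lit 18440532096), (nat_lit 76, nat_lit 18424021056), (nat_lit 116, nat_lit 18424017024), (nat_lit 78, nat_lit 18423758976), (nat_lit 19, nat_lit 18423754944), (nat_lit 9, nat_lit 19514535936), (nat_lit 69, nat_lit 19514277888), (nat_lit 26, nat_lit 19514273856), (nat_lit 96, nat_lit 19497762816), (nat_lit 33, nat_lit 19497758784), (nat_lit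 126, nat_lit 19497500736), (nat_lit 48, nat_lit 19497496704), (nat_lit 97, nat_lit 20588015616), (nat_lit 122, nat_lit 20571500544), (nat_lit 103, nat_lit 20571242496), (nat_lit 97, nat_lit 20571238464), (nat_lit 121, nat_lit 21644980224)]⟩,
   ⟨V6_13055311872, [(nat_lit 113, nat_lit 15219572928), (nat_lit 57, nat_lit 16293314688), (nat_lit 51, nat_lit 16276537536), (nat_lit 13, nat_lit 17367056448), (nat_lit 19, nat_lit 17350279296), (nat_lit 39, nat_lit 18440798208), (nat_lit 39, nat_lit 18424021056), (nat_lit 61, nat_lit 19497762816)]⟩,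
   ⟨V6_11998347264, [(nat_lit 38, nat_lit 15219572928), (nat_lit 105, nat_lit 16293314688), (nat_lit 99, nat_lit 17367056448), (nat_lit 59, nat_lit 18440798208)]⟩],
  [W_15218524160, W_15218262080, W_15202009088, W_15201747008, W_13054263488]⟩
theorem C_15219572928 : chkRec R_15219572928 = true := by decide +kernel

noncomputable def R_15219576897 : Rec := ⟨nat_lit 15219576897, nat_lit 31,
  [⟨V6_14128787520, [(nat_lit 80, nat_lit 15219576897), (nat_lit 78, nat_lit 16293318720), (nat_lit 14, nat_lit 16293314625), (nat_lit 120, nat_lit 16293056577), (nat_lit 85, nat_lit 16276541505), (nat_lit 75, nat_lit 17367056448), (nat_lit 107, nat_lit 17367052353), (nat_lit 37, nat_lit 17366798400), (nat_lit 47, nat_lit 17366794305), (nat_lit 96, nat_lit 17350283328), (nat_lit 1, nat_lit 17350279233), (nat_lit 43, nat_lit 17350021185), (nat_lit 29, nat_lit 18440794176), (nat_lit 98, nat_lit 18440536128), (nat_lit 32, nat_lit 18440532033), (nat_lit 64, nat_lit 18424021056), (nat_lit 87, nat_lit 18424016961), (nat_lit 77, nat_lit 18423763008), (nat_lit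 71, nat_lit 18423758913), (nat_lit 65, nat_lit 19514273856), (nat_lit 85, nat_lit 19497758784), (nat_lit 2, nat_lit 19497500736), (nat_lit 43, nat_lit 19497496641), (nat_lit 19, nat_lit 20571238464)]⟩],
  [W_15218262080, W_15201747008, W_14145556544, W_13072076864, W_13071818816, W_11997564992]⟩
theorem C_15219576897 : chkRec R_15219576897 = true := by decide +kernel

noncomputable def R_15219576960 : Rec := ⟨nat_lit 15219576960, nat_lit 80,
  [⟨V6_15219302400, [(nat_lit 97, nat_lit 15219576960), (nat_lit 65, nat_lit 16293318720), (nat_lit 55, nat_lit 16293314688), (nat_lit 10, nat_lit 16293056640), (nat_lit 44, nat_lit 17367060480), (nat_lit 14, nat_lit 17367056448), (nat_lit 67, nat_lit 17367052416), (nat_lit 29, nat_lit 17366798400), (nat_lit 90, nat_lit 17366794368), (nat_lit 75, nat_lit 18440798208), (nat_lit 29, nat_lit 18440794176), (nat_lit 75, nat_lit 18440790144), (nat_lit 76, nat_lit 18440540160), (nat_lit 126, nat_lit 18440536128), (nat_lit 21, nat_lit 18440532096), (nat_lit 75, nat_lit 19514535936), (nat_lit 121, nat_lit 19514531904),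 (nat_lit 125, nat_lit 19514277888), (nat_lit 68, nat_lit 19514273856), (nat_lit 58, nat_lit 19514269824), (nat_lit 34, nat_lit 20588273664), (nat_lit 35, nat_lit 20588015616), (nat_lit 71, nat_lit 20588011584), (nat_lit 18, nat_lit 21661753344)]⟩,
   ⟨V6_15202787328, [(nat_lit 112, nat_lit 15219576960), (nat_lit 126, nat_lit 16293318720), (nat_lit 13, nat_lit 16293314688), (nat_lit 51, nat_lit 16276541568), (nat_lit 64, nat_lit 17367060480), (nat_lit 41, nat_lit 17367056448), (nat_lit 52, nat_lit 17367052416), (nat_lit 56, nat_lit 17350283328), (nat_lit 95, nat_lit 17350279296), (nat_lit 103, nat_lit 18440798208), (nat_lit 121, nat_lit 18440794176), (nat_lit 42, nat_lit 18440790144), (nat_lit 120, nat_lit 18424025088), (nat_lit 10, nat_lit 18424021056), (nat_lit 99, nat_lit 18424017024), (nat_lit 88, nat_lit 19514535936), (nat_lit 101, nat_lit 19514531904), (nat_lit 45, nat_lit 19497762816), (nat_lit 117, nat_lit 19497758784), (nat_lit 71, nat_lit 19497754752), (nat_lit 48, nat_lit 20588273664), (nat_lit 79, nat_lit 20571500544), (nat_lit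 58, nat_lit 20571496512), (nat_lit 110, nat_lit 21645238272)]⟩,
   ⟨V6_13071568896, [(nat_lit 87, nat_lit 15219576960), (nat_lit 105, nat_lit 16293318720), (nat_lit 73, nat_lit 16293056640), (nat_lit 71, nat_lit 17367060480), (nat_lit 97, nat_lit 17366798400), (nat_lit 100, nat_lit 17366536320), (nat_lit 50, nat_lit 18440540160), (nat_lit 88, nat_lit 18440278080), (nat_lit 40, nat_lit 19514019840)]⟩],
  [W_15218524160, W_15218266112, W_15218262080, W_15202009088, W_15202001024, W_15201747008, W_15201484928, W_14145044480, W_13071298688]⟩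
theorem C_15219576960 : chkRec R_15219576960 = true := by decide +kernel

noncomputable def R_15219580992 : Rec := ⟨nat_lit 15219580992, nat_lit 73,
  [⟨V6_15202787328, [(nat_lit 27, nat_lit 15219580992), (nat_lit 41, nat_lit 16293322752), (nat_lit 28, nat_lit 16293318720), (nat_lit 67, nat_lit 16276545600), (nat_lit 103, nat_lit 17367060480), (nat_lit 14, nat_lit 17367056448), (nat_lit 76, nat_lit 17350287360), (nat_lit 87, nat_lit 17350283328), (nat_lit 51, nat_lit 18440798208), (nat_lit 28, nat_lit 18440794176), (nat_lit 63, nat_lit 18424025088), (nat_lit 20, nat_lit 18424021056), (nat_lit 58, nat_lit 19514535936), (nat_lit 109, nat_lit 19514531904), (nat_lit 118, nat_lit 19497762816), (nat_lit 104, nat_lit 19497758784), (nat_lit 110, nat_lit 20588273664), (nat_lit 72, nat_lit 20571500544), (nat_lit 104, nat_lit 20571496512), (nat_lit 81, nat_lit 21645238272)]⟩,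
   ⟨V6_15201755136, [(nat_lit 126, nat_lit 15219580992), (nat_lit 42, nat_lit 16293322752), (nat_lit 53, nat_lit 16293060672), (nat_lit 112, nat_lit 16276545600), (nat_lit 124, nat_lit 17366802432), (nat_lit 49, nat_lit 17366540352), (nat_lit 94, nat_lit 17350287360), (nat_lit 44, nat_lit 17350025280), (nat_lit 77, nat_lit 18440282112), (nat_lit 15, nat_lit 18440020032), (nat_lit 112, nat_lit 18423767040), (nat_lit 23, nat_lit 18423504960), (nat_lit 25, nat_lit 19513761792), (nat_lit 43, nat_lit 19513499712), (nat_lit 68, nat_lit 19497246720), (nat_lit 106, nat_lit 19496984640), (nat_lit 13, nat_lit 20587241472), (nat_lit 23, nat_lit 20570726400), (nat_lit 59, nat_lit 20570464320), (nat_lit 113, nat_lit 21644206080)]⟩,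
   ⟨V6_14144790528, [(nat_lit 25, nat_lit 15219580992), (nat_lit 50, nat_lit 16293322752), (nat_lit 120, nat_lit 16293060672), (nat_lit 115, nat_lit 17366802432), (nat_lit 42, nat_lit 17366540352), (nat_lit 15, nat_lit 18440282112), (nat_lit 15, nat_lit 18440020032), (nat_lit 23, nat_lit 19513761792), (nat_lit 76, nat_lit 19513499712), (nat_lit 2, nat_lit 20587241472)]⟩,
   ⟨V6_11998347264, [(nat_lit 37, nat_lit 15219580992), (nat_lit 89, nat_lit 16293322752), (nat_lit 13, nat_lit 16293318720), (nat_lit 10, nat_lit 17367060480), (nat_lit 20, nat_lit 17367056448), (nat_lit 3, nat_lit 18440798208)]⟩],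
  [W_15219298304, W_15218524160, W_15202009088, W_15201747008, W_14145556544, W_14145302528, W_11998081088]⟩
theorem C_15219580992 : chkRec R_15219580992 = true := by decide +kernel

noncomputable def R_15219585024 : Rec := ⟨nat_lit 15219585024, nat_lit 36,
  [⟨V6_15202787328, [(nat_lit 65, nat_lit 15219585024), (nat_lit 104, nat_lit 16293322752), (nat_lit 74, nat_lit 16276549632), (nat_lit 18, nat_lit 17367060480), (nat_lit 63, nat_lit 17350287360), (nat_lit 5, nat_lit 18440798208), (nat_lit 18, nat_lit 18424025088), (nat_lit 6, nat_lit 19514535936), (nat_lit 122, nat_lit 19497762816), (nat_lit 63, nat_lit 20588273664), (nat_lit 86, nat_lit 20571500544), (nat_lit 77, nat_lit 21645238272)]⟩,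
   ⟨V6_11998347264, [(nat_lit 44, nat_lit 15219585024), (nat_lit 43, nat_lit 16293322752), (nat_lit 56, nat_lit 17367060480), (nat_lit 75, nat_lit 18440798208)]⟩,
   ⟨V6_11997573120, [(nat_lit 82, nat_lit 15219585024), (nat_lit 76, nat_lit 16293064704), (nat_lit 89, nat_lit 17366544384), (nat_lit 87, nat_lit 18440024064)]⟩,
   ⟨V6_11981058048, [(nat_lit 117, nat_lit 15219585024), (nat_lit 95, nat_lit 16293064704), (nat_lit 4, nat_lit 16276549632), (nat_lit 90, nat_lit 17366544384), (nat_lit 34, nat_lit 17350029312), (nat_lit 73, nat_lit 18423508992)]⟩],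
  [W_15219556352, W_15219298304, W_15202009088, W_14145818624, W_13072080896]⟩
theorem C_15219585024 : chkRec R_15219585024 = true := by decide +kernel

noncomputable def R_15219826818 : Rec := ⟨nat_lit 15219826818, nat_lit 1,
  [⟨V6_11998077057, [(nat_lit 12, nat_lit 15219826818), (nat_lit 91, nat_lit 16293568641), (nat_lit 76, nat_lit 16293306498), (nat_lit 107, nat_lit 17367048321), (nat_lit 68, nat_lit 17366786178), (nat_lit 41, nat_lit 18440528001)]⟩],
  [W_15218516096]⟩
theorem C_15219826818 : chkRec R_15219826818 = true := by decide +kernel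

noncomputable def R_15219830913 : Rec := ⟨nat_lit 15219830913, nat_lit 11,
  [⟨V6_11998343232, [(nat_lit 43, nat_lit 15219830913), (nat_lit 63, nat_lit 16293572736), (nat_lit 19, nat_lit 16293572673), (nat_lit 40, nat_lit 16293310593), (nat_lit 108, nat_lit 17367314496), (nat_lit 56, nat_lit 17367052416), (nat_lit 70, nat_lit 17367052353), (nat_lit 46, nat_lit 18440794176)]⟩,
   ⟨V6_11998339137, [(nat_lit 41, nat_lit 15219830913), (nat_lit 72, nat_lit 16293572673), (nat_lit 22, nat_lit 16293568641), (nat_lit 113, nat_lit 16293310593), (nat_lit 67, nat_lit 17367310401), (nat_lit 13, nat_lit 17367052353), (nat_lit 118, nat_lit 17367048321), (nat_lit 120, nat_lit 18440790081)]⟩,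
   ⟨V6_11998077057, [(nat_lit 42, nat_lit 15219830913), (nat_lit 72, nat_lit 16293568641), (nat_lit 110, nat_lit 16293310593), (nat_lit 73, nat_lit 17367048321), (nat_lit 71, nat_lit 17366790273), (nat_lit 21, nat_lit 18440528001)]⟩],
  [W_15218516096, W_15218258048, W_13071556736]⟩
theorem C_15219830913 : chkRec R_15219830913 = true := by decide +kernel

noncomputable def R_15219830976 : Rec := ⟨nat_lit 15219830976, nat_lit 16,
  [⟨V6_13072084992, [(nat_lit 3, nat_lit 15219830976), (nat_lit 72, nat_lit 16293572736), (nat_lit 106, nat_lit 16293310656), (nat_lit 86, nat_lit 17367314496), (nat_lit 22, nat_lit 17367052416), (nat_lit 71, nat_lit 18441056256), (nat_lit 83, nat_lit 18440794176), (nat_lit 122, nat_lit 19514535936)]⟩,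
   ⟨V6_11998343232, [(nat_lit 60, nat_lit 15219830976), (nat_lit 46, nat_lit 16293572736), (nat_lit 103, nat_lit 16293310656), (nat_lit 56, nat_lit 17367314496), (nat_lit 102, nat_lit 17367052416), (nat_lit 123, nat_lit 18440794176)]⟩],
  [W_15217995968, W_14145302528, W_14144516288, W_13071036608, W_11997556928]⟩
theorem C_15219830976 : chkRec R_15219830976 = true := by decide +kernel

noncomputable def R_15219834945 : Rec := ⟨nat_lit 15219834945, nat_lit 17,
  [⟨V6_14145556545, [(nat_lit 78, nat_lit 15219834945), (nat_lit 31, nat_lit 16293572673), (nat_lit 111, nat_lit 16293314625), (nat_lit 76, nat_lit 17367310401), (nat_lit 78, nat_lit 17367052353), (nat_lit 60, nat_lit 17366794305), (nat_lit 50, nat_lit 18441048129), (nat_lit 49, nat_lit 18440790081), (nat_lit 7, nat_lit 18440532033), (nat_lit 62, nat_lit 19514527809), (nat_lit 7, nat_lit 19514269761), (nat_lit 121, nat_lit 20588007489)]⟩,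
   ⟨V6_13072339008, [(nat_lit 100, nat_lit 15219834945), (nat_lit 100, nat_lit 16293576768), (nat_lit 80, nat_lit 16293572673), (nat_lit 41, nat_lit 17367314496), (nat_lit 47, nat_lit 17367310401), (nat_lit 24, nat_lit 18441052224), (nat_lit 43, nat_lit 18441048129), (nat_lit 22, nat_lit 19514789952)]⟩,
   ⟨V6_13072076865, [(nat_lit 83, nat_lit 15219834945), (nat_lit 59, nat_lit 16293572673), (nat_lit 62, nat_lit 16293314625), (nat_lit 54, nat_lit 17367310401), (nat_lit 112, nat_lit 17367052353), (nat_lit 17, nat_lit 18441048129), (nat_lit 87, nat_lit 18440790081), (nat_lit 6, nat_lit 19514527809)]⟩,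
   ⟨V6_11998597185, [(nat_lit 67, nat_lit 15219834945), (nat_lit 56, nat_lit 16293572673), (nat_lit 69, nat_lit 17367310401), (nat_lit 78, nat_lit 18441048129)]⟩,
   ⟨V6_11998339137, [(nat_lit 62, nat_lit 15219834945), (nat_lit 113, nat_lit 16293572673), (nat_lit 80, nat_lit 16293314625), (nat_lit 77, nat_lit 17367310401), (nat_lit 100, nat_lit 17367052353), (nat_lit 94, nat_lit 18440790081)]⟩,
   ⟨V6_11998081089, [(nat_lit 64, nat_lit 15219834945), (nat_lit 2, nat_lit 16293572673), (nat_lit 79, nat_lit 16293314625), (nat_lit 65, nat_lit 17367052353), (nat_lit 61, nat_lit 17366794305), (nat_lit 79, nat_lit 18440532033)]⟩],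
  [W_15218262080, W_14145556544, W_14144782400]⟩
theorem C_15219834945 : chkRec R_15219834945 = true := by decide +kernel

noncomputable def R_15219835008 : Rec := ⟨nat_lit 15219835008, nat_lit 30,
  [⟨V6_14145298560, [(nat_lit 59, nat_lit 15219835008), (nat_lit 91, nat_lit 16293572736), (nat_lit 43, nat_lit 16293314688), (nat_lit 112, nat_lit 17367310464), (nat_lit 37, nat_lit 17367052416), (nat_lit 59, nat_lit 17366794368), (nat_lit 93, nat_lit 18440790144), (nat_lit 5, nat_lit 18440532096), (nat_lit 65, nat_lit 18440274048), (nat_lit 111, nat_lit 19514269824), (nat_lit 89, nat_lit 19514011776), (nat_lit 31, nat_lit 20587749504)]⟩,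
   ⟨V6_13072343040, [(nat_lit 53, nat_lit 15219835008), (nat_lit 73, nat_lit 16293576768), (nat_lit 91, nat_lit 16293572736), (nat_lit 43, nat_lit 17367318528), (nat_lit 82, nat_lit 17367314496), (nat_lit 105, nat_lit 17367310464), (nat_lit 10, nat_lit 18441056256), (nat_lit 48, nat_lit 18441052224), (nat_lit 115, nat_lit 19514793984)]⟩,
   ⟨V6_11998605312, [(nat_lit 1, nat_lit 15219835008), (nat_lit 121, nat_lit 16293576768), (nat_lit 23, nat_lit 16293572736), (nat_lit 97, nat_lit 17367318528), (nat_lit 67, nat_lit 17367314496), (nat_lit 61, nat_lit 18441056256)]⟩,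
   ⟨V6_11998347264, [(nat_lit 33, nat_lit 15219835008), (nat_lit 111, nat_lit 16293576768), (nat_lit 114, nat_lit 16293314688), (nat_lit 1, nat_lit 17367318528), (nat_lit 12, nat_lit 17367056448), (nat_lit 25, nat_lit 18440798208)]⟩],
  [W_15218524160, W_15218262080, W_14145560576, W_11998343168]⟩
theorem C_15219835008 : chkRec R_15219835008 = true := by decide +kernel

noncomputable def R_15219839040 : Rec := ⟨nat_lit 15219839040, nat_lit 37,
  [⟨V6_15218528256, [(nat_lit 86, nat_lit 15219839040), (nat_lit 22, nat_lit 16293580800), (nat_lit 81, nat_lit 16293318720), (nat_lit 27, nat_lit 17367060480), (nat_lit 25, nat_lit 17366798400), (nat_lit 116, nat_lit 18440540160), (nat_lit 95, nat_lit 18440278080), (nat_lit 113, nat_lit 19514019840), (nat_lit 55, nat_lit 19513757760), (nat_lit 7, nat_lit 20587499520), (nat_lit 73, nat_lit 20587237440), (nat_lit 90, nat_lit 21660979200)]⟩,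
   ⟨V6_13072339008, [(nat_lit 72, nat_lit 15219839040), (nat_lit 52, nat_lit 16293576768), (nat_lit 102, nat_lit 17367314496), (nat_lit 98, nat_lit 18441052224), (nat_lit 119, nat_lit 19514789952)]⟩],
  [W_15219298304, W_14145818624, W_14145556544, W_14145302528, W_13072080896, W_13072076864, W_11998597184, W_11998343168, W_11998081088]⟩
theorem C_15219839040 : chkRec R_15219839040 = true := by decide +kernel

noncomputable def R_15219843072 : Rec := ⟨nat_lit 15219843072, nat_lit 19,
  [⟨V6_14146080768, [(nat_lit 20, nat_lit 15219843072), (nat_lit 86, nat_lit 16293580800), (nat_lit 1, nat_lit 17367318528), (nat_lit 108, nat_lit 18441056256), (nat_lit 4, nat_lit 19514793984), (nat_lit 12, nat_lit 20588531712)]⟩,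
   ⟨V6_14144790528, [(nat_lit 113, nat_lit 15219843072), (nat_lit 89, nat_lit 16293322752), (nat_lit 18, nat_lit 17366802432), (nat_lit 50, nat_lit 18440282112), (nat_lit 37, nat_lit 19513761792), (nat_lit 116, nat_lit 20587241472)]⟩,
   ⟨V6_11998605312, [(nat_lit 65, nat_lit 15219843072), (nat_lit 124, nat_lit 16293580800), (nat_lit 90, nat_lit 17367318528), (nat_lit 33, nat_lit 18441056256)]⟩],
  [W_15219556352, W_15219298304, W_14145818624, W_13072080896]⟩
theorem C_15219843072 : chkRec R_15219843072 = true := by decide +kernel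

noncomputable def R_15234777348 : Rec := ⟨nat_lit 15234777348, nat_lit 1,
  [⟨V6_15134114052, [(nat_lit 82, nat_lit 15234777348), (nat_lit 12, nat_lit 16291741956), (nat_lit 103, nat_lit 17348706564), (nat_lit 69, nat_lit 18405671172), (nat_lit 1, nat_lit 19462635780), (nat_lit 6, nat_lit 20519600388), (nat_lit 112, nat_lit 21576564996)]⟩],
  [W_14127481088]⟩
theorem C_15234777348 : chkRec R_15234777348 = true := by decide +kernel

noncomputable def R_15235039491 : Rec := ⟨nat_lit 15235039491, nat_lit 2,
  [⟨V6_13087555776, [(nat_lit 3, nat_lit 15235039491), (nat_lit 71, nat_lit 16308781314), (nat_lit 121, nat_lit 16308781251), (nat_lit 17, nat_lit 17382523137), (nat_lit 107, nat_lit 17382523074), (nat_lit 90, nat_lit 18456264960), (nat_lit 76, nat_lit 18456264897), (nat_lit 93, nat_lit 19530006720)]⟩],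
  [W_15201222848]⟩
theorem C_15235039491 : chkRec R_15235039491 = true := by decide +kernel

noncomputable def R_15235043523 : Rec := ⟨nat_lit 15235043523, nat_lit 2,
  [⟨V6_13087555776, [(nat_lit 96, nat_lit 15235043523), (nat_lit 106, nat_lit 16308785346), (nat_lit 115, nat_lit 16308781251), (nat_lit 14, nat_lit 17382527169), (nat_lit 79, nat_lit 17382523074), (nat_lit 45, nat_lit 18456268992), (nat_lit 118, nat_lit 18456264897), (nat_lit 48, nat_lit 19530006720)]⟩],
  [W_14144516288]⟩
theorem C_15235043523 : chkRec R_15235043523 = true := by decide +kernel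

noncomputable def R_15235043586 : Rec := ⟨nat_lit 15235043586, nat_lit 2,
  [⟨V6_13087559808, [(nat_lit 65, nat_lit 15235043586), (nat_lit 105, nat_lit 16308785409), (nat_lit 123, nat_lit 16308785346), (nat_lit 18, nat_lit 17382527232), (nat_lit 66, nat_lit 17382527169), (nat_lit 35, nat_lit 17382527106), (nat_lit 44, nat_lit 18456268992), (nat_lit 119, nat_lit 18456268929), (nat_lit 121, nat_lit 19530010752)]⟩],
  [W_15167930624, W_13054001408]⟩
theorem C_15235043586 : chkRec R_15235043586 = true := by decide +kernel

noncomputable def R_15235043649 : Rec := ⟨nat_lit 15235043649, nat_lit 1,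
  [⟨V6_13037228352, [(nat_lit 109, nat_lit 15235043649), (nat_lit 91, nat_lit 16308785472), (nat_lit 116, nat_lit 16292008257), (nat_lit 38, nat_lit 17365750080), (nat_lit 41, nat_lit 17348972865), (nat_lit 95, nat_lit 18422714688), (nat_lit 48, nat_lit 18405937473), (nat_lit 34, nat_lit 19479679296)]⟩],
  [W_14127747200]⟩
theorem C_15235043649 : chkRec R_15235043649 = true := by decide +kernel

noncomputable def R_15235301571 : Rec := ⟨nat_lit 15235301571, nat_lit 4,
  [⟨V6_13087813824, [(nat_lit 9, nat_lit 15235301571), (nat_lit 30, nat_lit 16309043394), (nat_lit 4, nat_lit 16309039299), (nat_lit 13, nat_lit 17382785217), (nat_lit 15, nat_lit 17382781122), (nat_lit 51, nat_lit 18456527040), (nat_lit 117, nat_lit 18456522945), (nat_lit 113, nat_lit 19530264768)]⟩],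
  [W_15201222848, W_14144516288]⟩
theorem C_15235301571 : chkRec R_15235301571 = true := by decide +kernel

noncomputable def R_15235301634 : Rec := ⟨nat_lit 15235301634, nat_lit 12,
  [⟨V6_15134638338, [(nat_lit 32, nat_lit 15235301634), (nat_lit 110, nat_lit 16292266242), (nat_lit 34, nat_lit 17349230850), (nat_lit 61, nat_lit 18406195458), (nat_lit 115, nat_lit 19463160066), (nat_lit 55, nat_lit 20520124674), (nat_lit 53, nat_lit 21577089282)]⟩,
   ⟨V6_13087555776, [(nat_lit 25, nat_lit 15235301634), (nat_lit 79, nat_lit 16309043457), (nat_lit 102, nat_lit 16309043394), (nat_lit 45, nat_lit 16308781314), (nat_lit 40, nat_lit 17382785280), (nat_lit 54, nat_lit 17382785217), (nat_lit 115, nat_lit 17382523137), (nat_lit 79, nat_lit 17382523074), (nat_lit 79, nat_lit 18456527040), (nat_lit 117, nat_lit 18456264960), (nat_lit 116, nat_lit 18456264897), (nat_lit 89, nat_lit 19530006720)]⟩,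
   ⟨V6_13070516418, [(nat_lit 101, nat_lit 15235301634), (nat_lit 21, nat_lit 16309043394), (nat_lit 90, nat_lit 16308781314), (nat_lit 52, nat_lit 16292266242), (nat_lit 69, nat_lit 17382523074), (nat_lit 40, nat_lit 17382260994), (nat_lit 91, nat_lit 17366008002), (nat_lit 102, nat_lit 17365745922), (nat_lit 98, nat_lit 18456002754), (nat_lit 38, nat_lit 18439487682), (nat_lit 124, nat_lit 18439225602), (nat_lit 108, nat_lit 19512967362)]⟩],
  [W_15184969856, W_14094450944, W_13071040640]⟩
theorem C_15235301634 : chkRec R_15235301634 = true := by decide +kernel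

noncomputable def R_15235305666 : Rec := ⟨nat_lit 15235305666, nat_lit 14,
  [⟨V6_15134642370, [(nat_lit 9, nat_lit 15235305666), (nat_lit 23, nat_lit 16292270274), (nat_lit 81, nat_lit 17349234882), (nat_lit 37, nat_lit 18406199490), (nat_lit 76, nat_lit 19463164098), (nat_lit 75, nat_lit 20520128706), (nat_lit 3, nat_lit 21577093314)]⟩,
   ⟨V6_13087813824, [(nat_lit 3, nat_lit 15235305666), (nat_lit 124, nat_lit 16309047489), (nat_lit 101, nat_lit 16309043394), (nat_lit 61, nat_lit 17382789312), (nat_lit 80, nat_lit 17382785217), (nat_lit 38, nat_lit 17382781122), (nat_lit 123, nat_lit 18456527040), (nat_lit 113, nat_lit 18456522945), (nat_lit 51, nat_lit 19530264768)]⟩,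
   ⟨V6_13087555776, [(nat_lit 107, nat_lit 15235305666), (nat_lit 41, nat_lit 16309047489), (nat_lit 1, nat_lit 16309043394), (nat_lit 33, nat_lit 16308785346), (nat_lit 42, nat_lit 17382789312), (nat_lit 23, nat_lit 17382785217), (nat_lit 25, nat_lit 17382527169), (nat_lit 74, nat_lit 17382523074), (nat_lit 93, nat_lit 18456527040), (nat_lit 89, nat_lit 18456268992), (nat_lit 60, nat_lit 18456264897), (nat_lit 39, nat_lit 19530006720)]⟩,
   ⟨V6_13070774466, [(nat_lit 106, nat_lit 15235305666), (nat_lit 86, nat_lit 16309043394), (nat_lit 107, nat_lit 16308785346), (nat_lit 92, nat_lit 16292270274), (nat_lit 65, nat_lit 17382781122), (nat_lit 83, nat_lit 17382523074), (nat_lit 34, nat_lit 17366008002), (nat_lit 33, nat_lit 17365749954), (nat_lit 111, nat_lit 18456260802), (nat_lit 4, nat_lit 18439745730), (nat_lit 77, nat_lit 18439487682), (nat_lit 27, nat_lit 19513225410)]⟩],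
  [W_15184969856, W_14128001216, W_14110970048, W_13071040640]⟩
theorem C_15235305666 : chkRec R_15235305666 = true := by decide +kernel

noncomputable def R_15235305729 : Rec := ⟨nat_lit 15235305729, nat_lit 21,
  [⟨V6_13087821888, [(nat_lit 59, nat_lit 15235305729), (nat_lit 21, nat_lit 16309047552), (nat_lit 77, nat_lit 16309047489), (nat_lit 9, nat_lit 17382789312), (nat_lit 33, nat_lit 17382789249), (nat_lit 120, nat_lit 18456531072), (nat_lit 91, nat_lit 18456531009), (nat_lit 91, nat_lit 19530272832)]⟩,
   ⟨V6_13087555776, [(nat_lit 99, nat_lit 15235305729), (nat_lit 53, nat_lit 16309047552), (nat_lit 74, nat_lit 16309047489), (nat_lit 97, nat_lit 16309043457), (nat_lit 118, nat_lit 16308785409), (nat_lit 55, nat_lit 17382789312), (nat_lit 61, nat_lit 17382785280), (nat_lit 15, nat_lit 17382785217), (nat_lit 51, nat_lit 17382527232), (nat_lit 29, nat_lit 17382527169), (nat_lit 96, nat_lit 17382523137), (nat_lit 86, nat_lit 18456527040), (nat_lit 90, nat_lit 18456268992), (nat_lit 119, nat_lit 18456264960), (nat_lit 25, nat_lit 18456264897),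 (nat_lit 26, nat_lit 19530006720)]⟩],
  [W_15201747008, W_15184973888, W_15151415552, W_14094450944, W_13054001408]⟩
theorem C_15235305729 : chkRec R_15235305729 = true := by decide +kernel

noncomputable def R_15235305792 : Rec := ⟨nat_lit 15235305792, nat_lit 10,
  [⟨V6_13087821888, [(nat_lit 27, nat_lit 15235305792), (nat_lit 24, nat_lit 16309047552), (nat_lit 22, nat_lit 17382789312), (nat_lit 41, nat_lit 18456531072), (nat_lit 70, nat_lit 19530272832)]⟩],
  [W_15218266112, W_15184973888]⟩
theorem C_15235305792 : chkRec R_15235305792 = true := by decide +kernel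

noncomputable def R_15235309698 : Rec := ⟨nat_lit 15235309698, nat_lit 13,
  [⟨V6_15235293312, [(nat_lit 97, nat_lit 15235309698), (nat_lit 33, nat_lit 16309051521), (nat_lit 62, nat_lit 16309047426), (nat_lit 42, nat_lit 17382793344), (nat_lit 30, nat_lit 17382789249), (nat_lit 126, nat_lit 17382785154), (nat_lit 13, nat_lit 18456531072), (nat_lit 42, nat_lit 18456526977), (nat_lit 10, nat_lit 18456522882), (nat_lit 100, nat_lit 19530268800), (nat_lit 60, nat_lit 19530264705), (nat_lit 109, nat_lit 19530260610), (nat_lit 46, nat_lit 20604006528), (nat_lit 69, nat_lit 20604002433), (nat_lit 114, nat_lit 21677744256)]⟩],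
  [W_15184969856, W_13054267520, W_13037494400]⟩
theorem C_15235309698 : chkRec R_15235309698 = true := by decide +kernel

noncomputable def R_15235309761 : Rec := ⟨nat_lit 15235309761, nat_lit 25,
  [⟨V6_14128013376, [(nat_lit 45, nat_lit 15235309761), (nat_lit 102, nat_lit 16309051584), (nat_lit 103, nat_lit 16309051521), (nat_lit 71, nat_lit 16292274369), (nat_lit 15, nat_lit 17382793344), (nat_lit 37, nat_lit 17382793281), (nat_lit 63, nat_lit 17366016192), (nat_lit 91, nat_lit 17366016129), (nat_lit 79, nat_lit 17349238977), (nat_lit 75, nat_lit 18456535104), (nat_lit 117, nat_lit 18439757952), (nat_lit 125, nat_lit 18439757889), (nat_lit 66, nat_lit 18422980800), (nat_lit 85, nat_lit 18422980737), (nat_lit 51, nat_lit 19513499712), (nat_lit 61, nat_lit 19496722560), (nat_lit 106, nat_lit 19496722497), (nat_lit 83, nat_lit 20570464320)]⟩],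
  [W_15201747008, W_15168200768, W_14161555520]⟩
theorem C_15235309761 : chkRec R_15235309761 = true := by decide +kernel

noncomputable def R_15235309824 : Rec := ⟨nat_lit 15235309824, nat_lit 35,
  [⟨V6_14161563648, [(nat_lit 1, nat_lit 15235309824), (nat_lit 88, nat_lit 16309051584), (nat_lit 118, nat_lit 16309047552), (nat_lit 88, nat_lit 17382793344), (nat_lit 125, nat_lit 17382789312), (nat_lit 108, nat_lit 18456535104), (nat_lit 91, nat_lit 18456531072), (nat_lit 107, nat_lit 19530276864), (nat_lit 55, nat_lit 19530272832), (nat_lit 50, nat_lit 20604014592)]⟩,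
   ⟨V6_13087825920, [(nat_lit 75, nat_lit 15235309824), (nat_lit 14, nat_lit 16309051584), (nat_lit 102, nat_lit 17382793344), (nat_lit 71, nat_lit 18456535104), (nat_lit 54, nat_lit 19530276864)]⟩],
  [W_15218524160, W_15201747008, W_15151423616, W_15151415552, W_15134646464, W_13054263488, W_13037486336]⟩
theorem C_15235309824 : chkRec R_15235309824 = true := by decide +kernel

noncomputable def R_15235559619 : Rec := ⟨nat_lit 15235559619, nat_lit 2,
  [⟨V6_15234511041, [(nat_lit 92, nat_lit 15235559619), (nat_lit 88, nat_lit 16309301442), (nat_lit 35, nat_lit 16309039299), (nat_lit 78, nat_lit 17383043265), (nat_lit 16, nat_lit 17382781122), (nat_lit 98, nat_lit 17382518979), (nat_lit 32, nat_lit 18456522945), (nat_lit 41, nat_lit 18456260802), (nat_lit 125, nat_lit 18455998659), (nat_lit 89, nat_lit 19530002625), (nat_lit 69, nat_lit 19529740482), (nat_lit 30, nat_lit 19529478339), (nat_lit 56, nat_lit 20603482305), (nat_lit 39, nat_lit 20603220162), (nat_lit 125, nat_lit 21676961985)]⟩,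
   ⟨V6_13037482179, [(nat_lit 113, nat_lit 15235559619), (nat_lit 43, nat_lit 16309039299), (nat_lit 44, nat_lit 16292524227), (nat_lit 101, nat_lit 17366003907), (nat_lit 50, nat_lit 17349488835), (nat_lit 13, nat_lit 18422968515), (nat_lit 106, nat_lit 18406453443), (nat_lit 110, nat_lit 19479933123)]⟩],
  [W_14144516288]⟩
theorem C_15235559619 : chkRec R_15235559619 = true := by decide +kernel

noncomputable def R_15235563714 : Rec := ⟨nat_lit 15235563714, nat_lit 20,
  [⟨V6_15151677633, [(nat_lit 122, nat_lit 15235563714), (nat_lit 62, nat_lit 16309305537), (nat_lit 104, nat_lit 16292528322), (nat_lit 72, nat_lit 17366270145), (nat_lit 24, nat_lit 17349492930), (nat_lit 53, nat_lit 18423234753), (nat_lit 63, nat_lit 18406457538), (nat_lit 125, nat_lit 19480199361), (nat_lit 86, nat_lit 19463422146), (nat_lit 59, nat_lit 20537163969), (nat_lit 106, nat_lit 20520386754), (nat_lit 112, nat_lit 21594128577)]⟩,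
   ⟨V6_14161035456, [(nat_lit 119, nat_lit 15235563714), (nat_lit 23, nat_lit 16309305537), (nat_lit 24, nat_lit 16309043394), (nat_lit 109, nat_lit 17383047360), (nat_lit 69, nat_lit 17382785217), (nat_lit 110, nat_lit 17382523074), (nat_lit 12, nat_lit 18456527040), (nat_lit 6, nat_lit 18456264897), (nat_lit 11, nat_lit 18456002754), (nat_lit 10, nat_lit 19530006720), (nat_lit 34, nat_lit 19529744577), (nat_lit 109, nat_lit 20603486400)]⟩,
   ⟨V6_13087555776, [(nat_lit 116, nat_lit 15235563714), (nat_lit 109, nat_lit 16309305537), (nat_lit 51, nat_lit 16309043394), (nat_lit 46, nat_lit 17383047360), (nat_lit 32, nat_lit 17382785217), (nat_lit 118, nat_lit 17382523074), (nat_lit 95, nat_lit 18456527040), (nat_lit 54, nat_lit 18456264897), (nat_lit 54, nat_lit 19530006720)]⟩],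
  [W_15234773120, W_14128263296, W_14128001216, W_14111486144, W_13071298688, W_13071040640]⟩
theorem C_15235563714 : chkRec R_15235563714 = true := by decide +kernel

noncomputable def R_15235563777 : Rec := ⟨nat_lit 15235563777, nat_lit 25,
  [⟨V6_15234777216, [(nat_lit 107, nat_lit 15235563777), (nat_lit 13, nat_lit 16309305600), (nat_lit 61, nat_lit 16309305537), (nat_lit 84, nat_lit 16309043457), (nat_lit 61, nat_lit 17383047360), (nat_lit 100, nat_lit 17383047297), (nat_lit 46, nat_lit 17382785280), (nat_lit 3, nat_lit 17382785217), (nat_lit 27, nat_lit 17382523137), (nat_lit 49, nat_lit 18456789120), (nat_lit 84, nat_lit 18456527040), (nat_lit 58, nat_lit 18456526977), (nat_lit 85, nat_lit 18456264960), (nat_lit 99, nat_lit 18456264897), (nat_lit 75, nat_lit 18456002817), (nat_lit 49, nat_lit 19530268800), (nat_lit 22, nat_lit 19530006720), (nat_lit 57, nat_lit 19530006657), (nat_lit 52, nat_lit 19529744640), (nat_lit 103, nat_lit 19529744577), (nat_lit 46, nat_lit 20603748480), (nat_lit 51, nat_lit 20603486400), (nat_lit 63, nat_lit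 20603486337), (nat_lit 26, nat_lit 21677228160)]⟩],
  [W_15185231936, W_14128267328, W_13071302720, W_13054525568, W_13020971264]⟩
theorem C_15235563777 : chkRec R_15235563777 = true := by decide +kernel

noncomputable def R_15235567746 : Rec := ⟨nat_lit 15235567746, nat_lit 18,
  [⟨V6_15235031169, [(nat_lit 32, nat_lit 15235567746), (nat_lit 101, nat_lit 16309309569), (nat_lit 115, nat_lit 16309305474), (nat_lit 99, nat_lit 16309047426), (nat_lit 30, nat_lit 17383047297), (nat_lit 75, nat_lit 17383043202), (nat_lit 9, nat_lit 17382789249), (nat_lit 115, nat_lit 17382785154), (nat_lit 71, nat_lit 17382527106), (nat_lit 54, nat_lit 18456785025), (nat_lit 66, nat_lit 18456780930), (nat_lit 97, nat_lit 18456526977), (nat_lit 80, nat_lit 18456522882), (nat_lit 66, nat_lit 18456268929), (nat_lit 95, nat_lit 18456264834), (nat_lit 56, nat_lit 19530522753), (nat_lit 44, nat_lit 19530264705), (nat_lit 31, nat_lit 19530260610), (nat_lit 3, nat_lit 19530006657), (nat_lit 113, nat_lit 19530002562), (nat_lit 93, nat_lit 20604002433), (nat_lit 103,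 nat_lit 20603744385), (nat_lit 23, nat_lit 20603740290), (nat_lit 126, nat_lit 21677482113)]⟩,
   ⟨V6_13088071809, [(nat_lit 103, nat_lit 15235567746), (nat_lit 8, nat_lit 16309309569), (nat_lit 86, nat_lit 16309305474), (nat_lit 16, nat_lit 17383047297), (nat_lit 38, nat_lit 17383043202), (nat_lit 80, nat_lit 18456785025), (nat_lit 26, nat_lit 18456780930), (nat_lit 95, nat_lit 19530522753)]⟩,
   ⟨V6_13087559808, [(nat_lit 29, nat_lit 15235567746), (nat_lit 59, nat_lit 16309309569), (nat_lit 108, nat_lit 16309047426), (nat_lit 75, nat_lit 17383051392), (nat_lit 8, nat_lit 17382789249), (nat_lit 93, nat_lit 17382527106), (nat_lit 119, nat_lit 18456531072), (nat_lit 77, nat_lit 18456268929), (nat_lit 77, nat_lit 19530010752)]⟩],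
  [W_15202001024, W_15201484928, W_13088071808, W_13071298688, W_13071040640]⟩
theorem C_15235567746 : chkRec R_15235567746 = true := by decide +kernel

noncomputable def R_15235567809 : Rec := ⟨nat_lit 15235567809, nat_lit 46,
  [⟨V6_15151681728, [(nat_lit 40, nat_lit 15235567809), (nat_lit 75, nat_lit 16309309632), (nat_lit 94, nat_lit 16292532417), (nat_lit 91, nat_lit 17366274240), (nat_lit 111, nat_lit 17349497025), (nat_lit 21, nat_lit 18423238848), (nat_lit 86, nat_lit 18406461633), (nat_lit 71, nat_lit 19480203456), (nat_lit 78, nat_lit 19463426241), (nat_lit 107, nat_lit 20537168064), (nat_lit 59, nat_lit 20520390849), (nat_lit 61, nat_lit 21594132672)]⟩,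
   ⟨V6_15151681665, [(nat_lit 86, nat_lit 15235567809), (nat_lit 76, nat_lit 16309309569), (nat_lit 111, nat_lit 16292532417), (nat_lit 47, nat_lit 17366274177), (nat_lit 21, nat_lit 17349497025), (nat_lit 90, nat_lit 18423238785), (nat_lit 76, nat_lit 18406461633), (nat_lit 86, nat_lit 19480203393), (nat_lit 115, nat_lit 19463426241), (nat_lit 81, nat_lit 20537168001), (nat_lit 23, nat_lit 20520390849), (nat_lit 60, nat_lit 21594132609)]⟩,
   ⟨V6_15151677633, [(nat_lit 67, nat_lit 15235567809), (nat_lit 93, nat_lit 16309305537), (nat_lit 123, nat_lit 16292532417), (nat_lit 72, nat_lit 17366270145), (nat_lit 58, nat_lit 17349497025), (nat_lit 28, nat_lit 18423234753), (nat_lit 102, nat_lit 18406461633), (nat_lit 1, nat_lit 19480199361), (nat_lit 76, nat_lit 19463426241), (nat_lit 14, nat_lit 20537163969), (nat_lit 45, nat_lit 20520390849), (nat_lit 116, nat_lit 21594128577)]⟩,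
   ⟨V6_14077939905, [(nat_lit 29, nat_lit 15235567809), (nat_lit 118, nat_lit 16292532417), (nat_lit 87, nat_lit 17349497025), (nat_lit 69, nat_lit 18406461633), (nat_lit 57, nat_lit 19463426241), (nat_lit 74, nat_lit 20520390849)]⟩,
   ⟨V6_13087821888, [(nat_lit 32, nat_lit 15235567809), (nat_lit 19, nat_lit 16309309632), (nat_lit 41, nat_lit 16309309569), (nat_lit 75, nat_lit 16309047489), (nat_lit 13, nat_lit 17383051392), (nat_lit 53, nat_lit 17383051329), (nat_lit 88, nat_lit 17382789312), (nat_lit 24, nat_lit 17382789249), (nat_lit 73, nat_lit 18456793152), (nat_lit 52, nat_lit 18456531072), (nat_lit 58, nat_lit 18456531009), (nat_lit 97, nat_lit 19530272832)]⟩,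
   ⟨V6_13087559808, [(nat_lit 80, nat_lit 15235567809), (nat_lit 99, nat_lit 16309309632), (nat_lit 41, nat_lit 16309309569), (nat_lit 90, nat_lit 16309047489), (nat_lit 118, nat_lit 17383051392), (nat_lit 7, nat_lit 17382789312), (nat_lit 42, nat_lit 17382789249), (nat_lit 2, nat_lit 17382527169), (nat_lit 64, nat_lit 18456531072), (nat_lit 45, nat_lit 18456268992), (nat_lit 68, nat_lit 18456268929), (nat_lit 102, nat_lit 19530010752)]⟩],
  [W_15218262080, W_15201747008, W_15201480896, W_15185231936, W_14161555520, W_14161297472, W_14144516288, W_14128001216, W_13088075840]⟩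
theorem C_15235567809 : chkRec R_15235567809 = true := by decide +kernel

noncomputable def R_15235567872 : Rec := ⟨nat_lit 15235567872, nat_lit 50,
  [⟨V6_15235043328, [(nat_lit 44, nat_lit 15235567872), (nat_lit 64, nat_lit 16309309632), (nat_lit 20, nat_lit 16309047552), (nat_lit 67, nat_lit 17383051392), (nat_lit 38, nat_lit 17382789312), (nat_lit 28, nat_lit 17382527232), (nat_lit 108, nat_lit 18456793152), (nat_lit 45, nat_lit 18456531072), (nat_lit 94, nat_lit 18456268992), (nat_lit 92, nat_lit 19530534912), (nat_lit 84, nat_lit 19530272832), (nat_lit 70, nat_lit 19530010752), (nat_lit 126, nat_lit 20604014592), (nat_lit 109, nat_lit 20603752512), (nat_lit 28, nat_lit 21677494272)]⟩,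
   ⟨V6_14161563648, [(nat_lit 46, nat_lit 15235567872), (nat_lit 57, nat_lit 16309309632), (nat_lit 76, nat_lit 16309047552), (nat_lit 21, nat_lit 17383051392), (nat_lit 105, nat_lit 17382789312), (nat_lit 94, nat_lit 18456793152), (nat_lit 120, nat_lit 18456531072), (nat_lit 17, nat_lit 19530534912), (nat_lit 125, nat_lit 19530272832), (nat_lit 49, nat_lit 20604014592)]⟩,
   ⟨V6_13088083968, [(nat_lit 33, nat_lit 15235567872), (nat_lit 123, nat_lit 16309309632), (nat_lit 116, nat_lit 17383051392), (nat_lit 16, nat_lit 18456793152), (nat_lit 39, nat_lit 19530534912)]⟩],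
  [W_15218524160, W_15202009088, W_15201747008, W_15184969856, W_15151677632, W_13020971264]⟩
theorem C_15235567872 : chkRec R_15235567872 = true := by decide +kernel

noncomputable def R_15235571841 : Rec := ⟨nat_lit 15235571841, nat_lit 46,
  [⟨V6_15235293312, [(nat_lit 30, nat_lit 15235571841), (nat_lit 14, nat_lit 16309313664), (nat_lit 46, nat_lit 16309309569), (nat_lit 37, nat_lit 16309051521), (nat_lit 90, nat_lit 17383051392), (nat_lit 97, nat_lit 17383047297), (nat_lit 94, nat_lit 17382793344), (nat_lit 70, nat_lit 17382789249), (nat_lit 125, nat_lit 18456789120), (nat_lit 53, nat_lit 18456785025), (nat_lit 80, nat_lit 18456531072), (nat_lit 8, nat_lit 18456526977), (nat_lit 76, nat_lit 19530526848), (nat_lit 85, nat_lit 19530522753), (nat_lit 125, nat_lit 19530268800), (nat_lit 25, nat_lit 19530264705), (nat_lit 11, nat_lit 20604264576), (nat_lit 98, nat_lit 20604006528), (nat_lit 83, nat_lit 20604002433), (nat_lit 111, nat_lit 21677744256)]⟩,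
   ⟨V6_15151685697, [(nat_lit 112, nat_lit 15235571841), (nat_lit 115, nat_lit 16309313601), (nat_lit 85, nat_lit 16292536449), (nat_lit 17, nat_lit 17366278209), (nat_lit 22, nat_lit 17349501057), (nat_lit 65, nat_lit 18423242817), (nat_lit 107, nat_lit 18406465665), (nat_lit 78, nat_lit 19480207425), (nat_lit 82, nat_lit 19463430273), (nat_lit 108, nat_lit 20537172033), (nat_lit 104, nat_lit 20520394881), (nat_lit 47, nat_lit 21594136641)]⟩,
   ⟨V6_13088071809, [(nat_lit 1, nat_lit 15235571841), (nat_lit 124, nat_lit 16309309569), (nat_lit 23, nat_lit 17383047297), (nat_lit 121, nat_lit 18456785025), (nat_lit 52, nat_lit 19530522753)]⟩],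
  [W_15201747008, W_15185231936, W_14161555520, W_14144782400, W_13071044672, W_13054271552, W_13054267520]⟩
theorem C_15235571841 : chkRec R_15235571841 = true := by decide +kernel

noncomputable def R_15235571904 : Rec := ⟨nat_lit 15235571904, nat_lit 74,
  [⟨V6_14161563648, [(nat_lit 87, nat_lit 15235571904), (nat_lit 18, nat_lit 16309313664), (nat_lit 8, nat_lit 16309309632), (nat_lit 72, nat_lit 16309051584), (nat_lit 35, nat_lit 17383055424), (nat_lit 113, nat_lit 17383051392), (nat_lit 69, nat_lit 17382793344), (nat_lit 57, nat_lit 17382789312), (nat_lit 92, nat_lit 18456797184), (nat_lit 91, nat_lit 18456793152), (nat_lit 118, nat_lit 18456535104), (nat_lit 126, nat_lit 18456531072), (nat_lit 8, nat_lit 19530534912), (nat_lit 118, nat_lit 19530276864), (nat_lit 45, nat_lit 19530272832), (nat_lit 10, nat_lit 20604014592)]⟩,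
   ⟨V6_14144790528, [(nat_lit 3, nat_lit 15235571904), (nat_lit 119, nat_lit 16309313664), (nat_lit 124, nat_lit 16309051584), (nat_lit 101, nat_lit 16292536512), (nat_lit 83, nat_lit 17383055424), (nat_lit 30, nat_lit 17382793344), (nat_lit 116, nat_lit 17366278272), (nat_lit 34, nat_lit 17366016192), (nat_lit 20, nat_lit 18456797184), (nat_lit 97, nat_lit 18456535104), (nat_lit 96, nat_lit 18440020032), (nat_lit 115, nat_lit 18439757952), (nat_lit 21, nat_lit 19530276864), (nat_lit 116, nat_lit 19513761792), (nat_lit 3, nat_lit 19513499712), (nat_lit 44, nat_lit 20587241472)]⟩,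
   ⟨V6_13088083968, [(nat_lit 33, nat_lit 15235571904), (nat_lit 25, nat_lit 16309313664), (nat_lit 44, nat_lit 16309309632), (nat_lit 118, nat_lit 17383055424), (nat_lit 92, nat_lit 17383051392), (nat_lit 55, nat_lit 18456797184), (nat_lit 29, nat_lit 18456793152), (nat_lit 108, nat_lit 19530534912)]⟩,
   ⟨V6_13087825920, [(nat_lit 93, nat_lit 15235571904), (nat_lit 77, nat_lit 16309313664), (nat_lit 23, nat_lit 16309051584), (nat_lit 110, nat_lit 17383055424), (nat_lit 54, nat_lit 17382793344), (nat_lit 35, nat_lit 18456797184), (nat_lit 47, nat_lit 18456535104), (nat_lit 37, nat_lit 19530276864)]⟩,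
   ⟨V6_13071310848, [(nat_lit 115, nat_lit 15235571904), (nat_lit 3, nat_lit 16309313664), (nat_lit 99, nat_lit 16292536512), (nat_lit 73, nat_lit 17383055424), (nat_lit 63, nat_lit 17366278272), (nat_lit 23, nat_lit 18456797184), (nat_lit 34, nat_lit 18440020032), (nat_lit 10, nat_lit 19513761792)]⟩],
  [W_15235297280, W_15218524160, W_15202009088, W_15201747008, W_15185231936, W_15184969856, W_15168462848, W_15151677632, W_13071036608, W_13054521536]⟩
theorem C_15235571904 : chkRec R_15235571904 = true := by decide +kernel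

noncomputable def R_15235575873 : Rec := ⟨nat_lit 15235575873, nat_lit 16,
  [⟨V6_15151689792, [(nat_lit 115, nat_lit 15235575873), (nat_lit 41, nat_lit 16309317696), (nat_lit 48, nat_lit 16292540481), (nat_lit 87, nat_lit 17366282304), (nat_lit 81, nat_lit 17349505089), (nat_lit 108, nat_lit 18423246912), (nat_lit 25, nat_lit 18406469697), (nat_lit 93, nat_lit 19480211520), (nat_lit 2, nat_lit 19463434305), (nat_lit 6, nat_lit 20537176128), (nat_lit 122, nat_lit 20520398913), (nat_lit 96, nat_lit 21594140736)]⟩,
   ⟨V6_15151685697, [(nat_lit 3, nat_lit 15235575873), (nat_lit 52, nat_lit 16309313601), (nat_lit 96, nat_lit 16292540481), (nat_lit 90, nat_lit 17366278209), (nat_lit 24, nat_lit 17349505089), (nat_lit 5, nat_lit 18423242817), (nat_lit 103, nat_lit 18406469697), (nat_lit 53, nat_lit 19480207425), (nat_lit 31, nat_lit 19463434305), (nat_lit 6, nat_lit 20537172033), (nat_lit 124, nat_lit 20520398913), (nat_lit 27, nat_lit 21594136641)]⟩,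
   ⟨V6_14094725184, [(nat_lit 110, nat_lit 15235575873), (nat_lit 37, nat_lit 16309317696), (nat_lit 104, nat_lit 16292540481), (nat_lit 84, nat_lit 17366282304), (nat_lit 63, nat_lit 17349505089), (nat_lit 28, nat_lit 18423246912), (nat_lit 48, nat_lit 18406469697), (nat_lit 90, nat_lit 19480211520), (nat_lit 27, nat_lit 19463434305), (nat_lit 27, nat_lit 20537176128)]⟩,
   ⟨V6_13020983361, [(nat_lit 49, nat_lit 15235575873), (nat_lit 78, nat_lit 16292540481), (nat_lit 4, nat_lit 17349505089), (nat_lit 41, nat_lit 18406469697), (nat_lit 103, nat_lit 19463434305)]⟩],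
  [W_15235551296, W_14128267328, W_13088075840]⟩
theorem C_15235575873 : chkRec R_15235575873 = true := by decide +kernel

noncomputable def R_15235575936 : Rec := ⟨nat_lit 15235575936, nat_lit 37,
  [⟨V6_15151685760, [(nat_lit 5, nat_lit 15235575936), (nat_lit 2, nat_lit 16309313664), (nat_lit 33, nat_lit 16292540544), (nat_lit 23, nat_lit 17366278272), (nat_lit 40, nat_lit 17349505152), (nat_lit 93, nat_lit 18423242880), (nat_lit 87, nat_lit 18406469760), (nat_lit 46, nat_lit 19480207488), (nat_lit 94, nat_lit 19463434368), (nat_lit 10, nat_lit 20537172096), (nat_lit 122, nat_lit 20520398976), (nat_lit 45, nat_lit 21594136704)]⟩,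
   ⟨V6_14077948032, [(nat_lit 48, nat_lit 15235575936), (nat_lit 7, nat_lit 16292540544), (nat_lit 17, nat_lit 17349505152), (nat_lit 31, nat_lit 18406469760), (nat_lit 125, nat_lit 19463434368), (nat_lit 13, nat_lit 20520398976)]⟩,
   ⟨V6_13088083968, [(nat_lit 47, nat_lit 15235575936), (nat_lit 48, nat_lit 16309317696), (nat_lit 32, nat_lit 16309313664), (nat_lit 22, nat_lit 17383059456), (nat_lit 55, nat_lit 17383055424), (nat_lit 34, nat_lit 17383051392), (nat_lit 6, nat_lit 18456797184), (nat_lit 87, nat_lit 18456793152), (nat_lit 76, nat_lit 19530534912)]⟩,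
   ⟨V6_13071310848, [(nat_lit 3, nat_lit 15235575936), (nat_lit 37, nat_lit 16309317696), (nat_lit 14, nat_lit 16309313664), (nat_lit 66, nat_lit 16292540544), (nat_lit 13, nat_lit 17383059456), (nat_lit 76, nat_lit 17383055424), (nat_lit 13, nat_lit 17366282304), (nat_lit 71, nat_lit 17366278272), (nat_lit 51, nat_lit 18456797184), (nat_lit 38, nat_lit 18440024064), (nat_lit 51, nat_lit 18440020032), (nat_lit 107, nat_lit 19513761792)]⟩,
   ⟨V6_13054537728, [(nat_lit 30, nat_lit 15235575936), (nat_lit 26, nat_lit 16309317696), (nat_lit 12, nat_lit 16292540544), (nat_lit 27, nat_lit 17383059456), (nat_lit 28, nat_lit 17366282304), (nat_lit 48, nat_lit 17349505152), (nat_lit 16, nat_lit 18440024064), (nat_lit 119, nat_lit 18423246912), (nat_lit 17, nat_lit 19496988672)]⟩],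
  [W_15202009088, W_15202001024, W_14161817600, W_14145036416, W_13088071808]⟩
theorem C_15235575936 : chkRec R_15235575936 = true := by decide +kernel

noncomputable def R_15235821762 : Rec := ⟨nat_lit 15235821762, nat_lit 9,
  [⟨V6_14161293504, [(nat_lit 7, nat_lit 15235821762), (nat_lit 114, nat_lit 16309563585), (nat_lit 60, nat_lit 16309301442), (nat_lit 104, nat_lit 17383305408), (nat_lit 55, nat_lit 17383043265), (nat_lit 67, nat_lit 17382781122), (nat_lit 120, nat_lit 18456785088), (nat_lit 55, nat_lit 18456522945), (nat_lit 120, nat_lit 18456260802), (nat_lit 58, nat_lit 19530264768), (nat_lit 20, nat_lit 19530002625), (nat_lit 2, nat_lit 20603744448)]⟩],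
  [W_15168712832, W_14111748224, W_13071298688]⟩
theorem C_15235821762 : chkRec R_15235821762 = true := by decide +kernel

noncomputable def R_15235825794 : Rec := ⟨nat_lit 15235825794, nat_lit 25,
  [⟨V6_15234777216, [(nat_lit 40, nat_lit 15235825794), (nat_lit 96, nat_lit 16309567617), (nat_lit 30, nat_lit 16309305474), (nat_lit 81, nat_lit 17383309440), (nat_lit 111, nat_lit 17383047297), (nat_lit 124, nat_lit 17382785154), (nat_lit 21, nat_lit 18456789120), (nat_lit 100, nat_lit 18456526977), (nat_lit 98, nat_lit 18456264834), (nat_lit 8, nat_lit 19530268800), (nat_lit 59, nat_lit 19530006657), (nat_lit 90, nat_lit 19529744514), (nat_lit 41, nat_lit 20603748480), (nat_lit 25, nat_lit 20603486337), (nat_lit 35, nat_lit 21677228160)]⟩],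
  [W_15202001024, W_15185485952, W_15168712832, W_15168454784, W_14111748224, W_13071298688, W_13071040640]⟩
theorem C_15235825794 : chkRec R_15235825794 = true := by decide +kernel

noncomputable def R_15235825857 : Rec := ⟨nat_lit 15235825857, nat_lit 48,
  [⟨V6_15202267200, [(nat_lit 50, nat_lit 15235825857), (nat_lit 96, nat_lit 16309567680), (nat_lit 22, nat_lit 16309567617), (nat_lit 56, nat_lit 16309563585), (nat_lit 109, nat_lit 16292790465), (nat_lit 78, nat_lit 17383309440), (nat_lit 101, nat_lit 17383309377), (nat_lit 112, nat_lit 17383305408), (nat_lit 21, nat_lit 17383305345), (nat_lit 56, nat_lit 17366532288), (nat_lit 10, nat_lit 17366532225), (nat_lit 72, nat_lit 17366528193), (nat_lit 86, nat_lit 17349755073), (nat_lit 108, nat_lit 18457051200), (nat_lit 79, nat_lit 18457047168), (nat_lit 63, nat_lit 18457047105), (nat_lit 92, nat_lit 18440274048), (nat_lit 49, nat_lit 18440273985), (nat_lit 63, nat_lit 18440270016), (nat_lit 116, nat_lit 18440269953), (nat_lit 112, nat_lit 18423496896), (nat_lit 80, nat_lit 18423496833),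 (nat_lit 20, nat_lit 18423492801), (nat_lit 62, nat_lit 19530788928), (nat_lit 110, nat_lit 19514015808), (nat_lit 11, nat_lit 19514011776), (nat_lit 87, nat_lit 19514011713), (nat_lit 67, nat_lit 19497238656), (nat_lit 99, nat_lit 19497238593), (nat_lit 99, nat_lit 19497234624), (nat_lit 76, nat_lit 19497234561), (nat_lit 11, nat_lit 20587753536), (nat_lit 28, nat_lit 20570980416), (nat_lit 20, nat_lit 20570976384), (nat_lit 5, nat_lit 20570976321), (nat_lit 53, nat_lit 21644718144)]⟩],
  [W_15234777152, W_15218262080, W_15201747008, W_15185231936, W_15168716864, W_15168450752, W_14161555520, W_13021233344]⟩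
theorem C_15235825857 : chkRec R_15235825857 = true := by decide +kernel

noncomputable def R_15235825920 : Rec := ⟨nat_lit 15235825920, nat_lit 51,
  [⟨V6_15234777216, [(nat_lit 5, nat_lit 15235825920), (nat_lit 11, nat_lit 16309567680), (nat_lit 108, nat_lit 16309305600), (nat_lit 80, nat_lit 17383309440), (nat_lit 2, nat_lit 17383047360), (nat_lit 121, nat_lit 17382785280), (nat_lit 11, nat_lit 18456789120), (nat_lit 4, nat_lit 18456527040), (nat_lit 17, nat_lit 18456264960), (nat_lit 19, nat_lit 19530268800), (nat_lit 50, nat_lit 19530006720), (nat_lit 72, nat_lit 19529744640), (nat_lit 86, nat_lit 20603748480), (nat_lit 44, nat_lit 20603486400), (nat_lit 77, nat_lit 21677228160)]⟩,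
   ⟨V6_14144258304, [(nat_lit 63, nat_lit 15235825920), (nat_lit 21, nat_lit 16309305600), (nat_lit 83, nat_lit 16292790528), (nat_lit 106, nat_lit 17382785280), (nat_lit 20, nat_lit 17366270208), (nat_lit 56, nat_lit 18456264960), (nat_lit 52, nat_lit 18439749888), (nat_lit 48, nat_lit 19529744640), (nat_lit 56, nat_lit 19513229568), (nat_lit 79, nat_lit 20586709248)]⟩,
   ⟨V6_13088342016, [(nat_lit 66, nat_lit 15235825920), (nat_lit 119, nat_lit 16309567680), (nat_lit 105, nat_lit 17383309440), (nat_lit 32, nat_lit 18457051200), (nat_lit 78, nat_lit 19530792960)]⟩],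
  [W_15218524160, W_15202009088, W_15185494016, W_15168716864, W_14145044480, W_13021233344, W_13020971264]⟩
theorem C_15235825920 : chkRec R_15235825920 = true := by decide +kernel

noncomputable def R_15235829889 : Rec := ⟨nat_lit 15235829889, nat_lit 65,
  [⟨V6_15235293312, [(nat_lit 39, nat_lit 15235829889), (nat_lit 28, nat_lit 16309571712), (nat_lit 64, nat_lit 16309567617), (nat_lit 2, nat_lit 16309309569), (nat_lit 16, nat_lit 17383309440), (nat_lit 98, nat_lit 17383305345), (nat_lit 60, nat_lit 17383051392), (nat_lit 20, nat_lit 17383047297), (nat_lit 125, nat_lit 17382789249), (nat_lit 7, nat_lit 18457047168), (nat_lit 111, nat_lit 18457043073), (nat_lit 91, nat_lit 18456789120), (nat_lit 104, nat_lit 18456785025), (nat_lit 98, nat_lit 18456531072), (nat_lit 41, nat_lit 18456526977), (nat_lit 52, nat_lit 19530784896), (nat_lit 59, nat_lit 19530526848), (nat_lit 40, nat_lit 19530522753), (nat_lit 118, nat_lit 19530268800), (nat_lit 53, nat_lit 19530264705), (nat_lit 47, nat_lit 20604264576), (nat_lit 75, nat_lit 20604006528), (nat_lit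 77, nat_lit 20604002433), (nat_lit 6, nat_lit 21677744256)]⟩,
   ⟨V6_15235031169, [(nat_lit 57, nat_lit 15235829889), (nat_lit 68, nat_lit 16309567617), (nat_lit 115, nat_lit 16309309569), (nat_lit 109, nat_lit 17383305345), (nat_lit 3, nat_lit 17383047297), (nat_lit 47, nat_lit 17382789249), (nat_lit 79, nat_lit 18457043073), (nat_lit 51, nat_lit 18456785025), (nat_lit 86, nat_lit 18456526977), (nat_lit 76, nat_lit 18456268929), (nat_lit 2, nat_lit 19530522753), (nat_lit 27, nat_lit 19530264705), (nat_lit 35, nat_lit 19530006657), (nat_lit 59, nat_lit 20604002433), (nat_lit 79, nat_lit 20603744385), (nat_lit 17, nat_lit 21677482113)]⟩,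
   ⟨V6_13088333952, [(nat_lit 113, nat_lit 15235829889), (nat_lit 46, nat_lit 16309571712), (nat_lit 67, nat_lit 16309567617), (nat_lit 68, nat_lit 17383309440), (nat_lit 111, nat_lit 17383305345), (nat_lit 33, nat_lit 18457047168), (nat_lit 90, nat_lit 18457043073), (nat_lit 56, nat_lit 19530784896)]⟩],
  [W_15201747008, W_15185489984, W_15185231936, W_15168716864, W_14144782400, W_14144524352, W_14128525376, W_14094979136, W_13071044672, W_13021237376]⟩
theorem C_15235829889 : chkRec R_15235829889 = true := by decide +kernel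

noncomputable def R_15235829952 : Rec := ⟨nat_lit 15235829952, nat_lit 98,
  [⟨V6_15235043328, [(nat_lit 38, nat_lit 15235829952), (nat_lit 75, nat_lit 16309571712), (nat_lit 79, nat_lit 16309309632), (nat_lit 53, nat_lit 17383313472), (nat_lit 47, nat_lit 17383051392), (nat_lit 14, nat_lit 17382789312), (nat_lit 61, nat_lit 18457055232), (nat_lit 65, nat_lit 18456793152), (nat_lit 24, nat_lit 18456531072), (nat_lit 24, nat_lit 18456268992), (nat_lit 10, nat_lit 19530534912), (nat_lit 119, nat_lit 19530272832), (nat_lit 61, nat_lit 19530010752), (nat_lit 11, nat_lit 20604014592), (nat_lit 19, nat_lit 20603752512), (nat_lit 100, nat_lit 21677494272)]⟩,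
   ⟨V6_14161563648, [(nat_lit 24, nat_lit 15235829952), (nat_lit 82, nat_lit 16309571712), (nat_lit 116, nat_lit 16309309632), (nat_lit 69, nat_lit 17383313472), (nat_lit 28, nat_lit 17383051392), (nat_lit 32, nat_lit 17382789312), (nat_lit 28, nat_lit 18457055232), (nat_lit 26, nat_lit 18456793152), (nat_lit 64, nat_lit 18456531072), (nat_lit 104, nat_lit 19530534912), (nat_lit 103, nat_lit 19530272832), (nat_lit 96, nat_lit 20604014592)]⟩,
   ⟨V6_13088342016, [(nat_lit 106, nat_lit 15235829952), (nat_lit 50, nat_lit 16309571712), (nat_lit 3, nat_lit 16309567680), (nat_lit 126, nat_lit 17383313472), (nat_lit 60, nat_lit 17383309440), (nat_lit 99, nat_lit 18457055232), (nat_lit 80, nat_lit 18457051200), (nat_lit 5, nat_lit 19530792960)]⟩,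
   ⟨V6_13088083968, [(nat_lit 54, nat_lit 15235829952), (nat_lit 55, nat_lit 16309571712), (nat_lit 3, nat_lit 16309309632), (nat_lit 22, nat_lit 17383313472), (nat_lit 70, nat_lit 17383051392), (nat_lit 120, nat_lit 18457055232), (nat_lit 99, nat_lit 18456793152), (nat_lit 7, nat_lit 19530534912)]⟩,
   ⟨V6_13071568896, [(nat_lit 64, nat_lit 15235829952), (nat_lit 111, nat_lit 16309571712), (nat_lit 107, nat_lit 16292794560), (nat_lit 34, nat_lit 17383313472), (nat_lit 45, nat_lit 17366536320), (nat_lit 89, nat_lit 18457055232), (nat_lit 115, nat_lit 18440278080), (nat_lit 116, nat_lit 19514019840)]⟩],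
  [W_15235297280, W_15202009088, W_15201747008, W_15185494016, W_15185489984, W_15185231936, W_15184969856, W_15168720896, W_15168716864, W_15168712832, W_14144516288, W_13071036608]⟩
theorem C_15235829952 : chkRec R_15235829952 = true := by decide +kernel

noncomputable def R_15235833921 : Rec := ⟨nat_lit 15235833921, nat_lit 40,
  [⟨V6_14128013376, [(nat_lit 103, nat_lit 15235833921), (nat_lit 32, nat_lit 16309575744), (nat_lit 111, nat_lit 16309313601), (nat_lit 46, nat_lit 16292798529), (nat_lit 75, nat_lit 17383055424), (nat_lit 80, nat_lit 17382793281), (nat_lit 79, nat_lit 17366540352), (nat_lit 39, nat_lit 17366278209), (nat_lit 64, nat_lit 17349763137), (nat_lit 41, nat_lit 18456535104), (nat_lit 113, nat_lit 18440020032), (nat_lit 126, nat_lit 18439757889), (nat_lit 119, nat_lit 18423504960), (nat_lit 38, nat_lit 18423242817), (nat_lit 111, nat_lit 19513499712), (nat_lit 85, nat_lit 19496984640), (nat_lit 123, nat_lit 19496722497), (nat_lit 77, nat_lit 20570464320)]⟩,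
   ⟨V6_13087821888, [(nat_lit 28, nat_lit 15235833921), (nat_lit 48, nat_lit 16309575744), (nat_lit 119, nat_lit 16309571649), (nat_lit 92, nat_lit 16309313601), (nat_lit 113, nat_lit 17383313472), (nat_lit 51, nat_lit 17383055424), (nat_lit 43, nat_lit 17383051329), (nat_lit 31, nat_lit 17382793281), (nat_lit 17, nat_lit 18456793152), (nat_lit 56, nat_lit 18456535104), (nat_lit 23, nat_lit 18456531009), (nat_lit 39, nat_lit 19530272832)]⟩],
  [W_15201747008, W_15185489984, W_15185231936, W_15168716864, W_14162071616, W_13088333888]⟩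
theorem C_15235833921 : chkRec R_15235833921 = true := by decide +kernel

noncomputable def R_15235833984 : Rec := ⟨nat_lit 15235833984, nat_lit 123,
  [⟨V6_15235817472, [(nat_lit 67, nat_lit 15235833984), (nat_lit 45, nat_lit 16309575744), (nat_lit 54, nat_lit 16309571712), (nat_lit 67, nat_lit 17383317504), (nat_lit 61, nat_lit 17383313472), (nat_lit 93, nat_lit 17383309440), (nat_lit 76, nat_lit 18457055232), (nat_lit 113, nat_lit 18457051200), (nat_lit 25, nat_lit 18457047168), (nat_lit 20, nat_lit 19530792960), (nat_lit 48, nat_lit 19530788928), (nat_lit 73, nat_lit 19530784896), (nat_lit 72, nat_lit 20604530688), (nat_lit 4, nat_lit 20604526656), (nat_lit 102, nat_lit 21678268416)]⟩,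
   ⟨V6_15168724992, [(nat_lit 18, nat_lit 15235833984), (nat_lit 7, nat_lit 16309575744), (nat_lit 94, nat_lit 16292798592), (nat_lit 107, nat_lit 17383317504), (nat_lit 55, nat_lit 17366540352), (nat_lit 97, nat_lit 17349763200), (nat_lit 70, nat_lit 18440282112), (nat_lit 69, nat_lit 18423504960), (nat_lit 12, nat_lit 18406727808), (nat_lit 97, nat_lit 19497246720), (nat_lit 9, nat_lit 19480469568), (nat_lit 84, nat_lit 19463692416), (nat_lit 20, nat_lit 20554211328), (nat_lit 29, nat_lit 20537434176), (nat_lit 25, nat_lit 21611175936)]⟩,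
   ⟨V6_13088083968, [(nat_lit 50, nat_lit 15235833984), (nat_lit 32, nat_lit 16309575744), (nat_lit 92, nat_lit 16309571712), (nat_lit 15, nat_lit 16309313664), (nat_lit 45, nat_lit 17383317504), (nat_lit 19, nat_lit 17383313472), (nat_lit 92, nat_lit 17383055424), (nat_lit 12, nat_lit 17383051392), (nat_lit 125, nat_lit 18457055232), (nat_lit 3, nat_lit 18456797184), (nat_lit 119, nat_lit 18456793152), (nat_lit 57, nat_lit 19530534912)]⟩,
   ⟨V6_13087825920, [(nat_lit 18, nat_lit 15235833984), (nat_lit 45, nat_lit 16309575744), (nat_lit 97, nat_lit 16309313664), (nat_lit 123, nat_lit 17383317504), (nat_lit 75, nat_lit 17383055424), (nat_lit 77, nat_lit 17382793344), (nat_lit 25, nat_lit 18456797184), (nat_lit 35, nat_lit 18456535104), (nat_lit 73, nat_lit 19530276864)]⟩,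
   ⟨V6_13071568896, [(nat_lit 34, nat_lit 15235833984), (nat_lit 113, nat_lit 16309575744), (nat_lit 91, nat_lit 16309571712), (nat_lit 14, nat_lit 16292798592), (nat_lit 98, nat_lit 17383317504), (nat_lit 64, nat_lit 17383313472), (nat_lit 77, nat_lit 17366540352), (nat_lit 97, nat_lit 17366536320), (nat_lit 98, nat_lit 18457055232), (nat_lit 75, nat_lit 18440282112), (nat_lit 98, nat_lit 18440278080), (nat_lit 52, nat_lit 19514019840)]⟩],
  [W_15235297280, W_15218524160, W_15202009088, W_15202001024, W_15201747008, W_15185489984, W_15185231936, W_15184973888, W_15184969856, W_15168720896, W_15168716864, W_15168712832, W_14128013312, W_13088071808]⟩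
theorem C_15235833984 : chkRec R_15235833984 = true := by decide +kernel

noncomputable def R_15235838016 : Rec := ⟨nat_lit 15235838016, nat_lit 70,
  [⟨V6_15235817472, [(nat_lit 96, nat_lit 15235838016), (nat_lit 89, nat_lit 16309579776), (nat_lit 6, nat_lit 16309575744), (nat_lit 113, nat_lit 17383317504), (nat_lit 93, nat_lit 17383313472), (nat_lit 107, nat_lit 18457055232), (nat_lit 108, nat_lit 18457051200), (nat_lit 111, nat_lit 19530792960), (nat_lit 87, nat_lit 19530788928), (nat_lit 22, nat_lit 20604530688), (nat_lit 41, nat_lit 20604526656), (nat_lit 4, nat_lit 21678268416)]⟩,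
   ⟨V6_15235813440, [(nat_lit 85, nat_lit 15235838016), (nat_lit 79, nat_lit 16309575744), (nat_lit 110, nat_lit 17383313472), (nat_lit 60, nat_lit 18457051200), (nat_lit 58, nat_lit 19530788928), (nat_lit 41, nat_lit 20604526656), (nat_lit 69, nat_lit 21678264384)]⟩],
  [W_15202009088, W_15168720896, W_15168716864, W_15168462848, W_15168458816, W_14111494208, W_14094983168, W_14094979136, W_14094721088, W_13071560768, W_13071306752, W_13037756480, W_13021245440, W_13021241408]⟩
theorem C_15235838016 : chkRec R_15235838016 = true := by decide +kernel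

noncomputable def R_15235842048 : Rec := ⟨nat_lit 15235842048, nat_lit 28,
  [⟨V6_13088342016, [(nat_lit 70, nat_lit 15235842048), (nat_lit 58, nat_lit 16309579776), (nat_lit 6, nat_lit 17383317504), (nat_lit 124, nat_lit 18457055232), (nat_lit 25, nat_lit 19530792960)]⟩,
   ⟨V6_13021249536, [(nat_lit 47, nat_lit 15235842048), (nat_lit 80, nat_lit 16292806656), (nat_lit 79, nat_lit 17349771264), (nat_lit 16, nat_lit 18406735872), (nat_lit 34, nat_lit 19463700480)]⟩],
  [W_15185494016, W_15168720896, W_14145302528]⟩
theorem C_15235842048 : chkRec R_15235842048 = true := by decide +kernel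

noncomputable def R_15236083842 : Rec := ⟨nat_lit 15236083842, nat_lit 13,
  [⟨V6_13088333952, [(nat_lit 1, nat_lit 15236083842), (nat_lit 126, nat_lit 16309825665), (nat_lit 17, nat_lit 16309821570), (nat_lit 108, nat_lit 16309563522), (nat_lit 41, nat_lit 17383567488), (nat_lit 92, nat_lit 17383563393), (nat_lit 41, nat_lit 17383305345), (nat_lit 1, nat_lit 17383301250), (nat_lit 49, nat_lit 18457305216), (nat_lit 65, nat_lit 18457047168), (nat_lit 97, nat_lit 18457043073), (nat_lit 36, nat_lit 19530784896)]⟩],
  [W_15202001024, W_15185485952, W_14111748224, W_13038268544]⟩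
theorem C_15236083842 : chkRec R_15236083842 = true := by decide +kernel

noncomputable def R_15236083905 : Rec := ⟨nat_lit 15236083905, nat_lit 22,
  [⟨V6_14128787520, [(nat_lit 95, nat_lit 15236083905), (nat_lit 46, nat_lit 16309825728), (nat_lit 34, nat_lit 16309825665), (nat_lit 37, nat_lit 16293048513), (nat_lit 74, nat_lit 17383567488), (nat_lit 64, nat_lit 17383567425), (nat_lit 6, nat_lit 17366790336), (nat_lit 51, nat_lit 17366790273), (nat_lit 68, nat_lit 17350013121), (nat_lit 116, nat_lit 18457309248), (nat_lit 120, nat_lit 18440532096), (nat_lit 24, nat_lit 18440532033), (nat_lit 97, nat_lit 18423754944), (nat_lit 123, nat_lit 18423754881), (nat_lit 23, nat_lit 19514273856), (nat_lit 30, nat_lit 19497496704), (nat_lit 125, nat_lit 19497496641), (nat_lit 20, nat_lit 20571238464)]⟩],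
  [W_15185489984, W_14161555520, W_14111486144, W_13071560768]⟩
theorem C_15236083905 : chkRec R_15236083905 = true := by decide +kernel

noncomputable def R_15236087937 : Rec := ⟨nat_lit 15236087937, nat_lit 56,
  [⟨V6_15235031169, [(nat_lit 28, nat_lit 15236087937), (nat_lit 25, nat_lit 16309825665), (nat_lit 81, nat_lit 16309567617), (nat_lit 122, nat_lit 17383563393), (nat_lit 7, nat_lit 17383305345), (nat_lit 52, nat_lit 17383047297), (nat_lit 88, nat_lit 18457043073), (nat_lit 64, nat_lit 18456785025), (nat_lit 4, nat_lit 18456526977), (nat_lit 78, nat_lit 19530522753), (nat_lit 30, nat_lit 19530264705), (nat_lit 87, nat_lit 19530006657), (nat_lit 49, nat_lit 20604002433), (nat_lit 107, nat_lit 20603744385), (nat_lit 47, nat_lit 21677482113)]⟩,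
   ⟨V6_15234777216, [(nat_lit 8, nat_lit 15236087937), (nat_lit 70, nat_lit 16309829760), (nat_lit 8, nat_lit 16309567617), (nat_lit 60, nat_lit 17383309440), (nat_lit 117, nat_lit 17383047297), (nat_lit 32, nat_lit 18456789120), (nat_lit 10, nat_lit 18456526977), (nat_lit 120, nat_lit 19530268800), (nat_lit 119, nat_lit 19530006657), (nat_lit 96, nat_lit 20603748480), (nat_lit 119, nat_lit 20603486337), (nat_lit 98, nat_lit 21677228160)]⟩,
   ⟨V6_13088333952, [(nat_lit 45, nat_lit 15236087937), (nat_lit 96, nat_lit 16309829760), (nat_lit 20, nat_lit 16309825665), (nat_lit 63, nat_lit 16309567617), (nat_lit 115, nat_lit 17383567488), (nat_lit 64, nat_lit 17383563393), (nat_lit 39, nat_lit 17383309440), (nat_lit 105, nat_lit 17383305345), (nat_lit 20, nat_lit 18457305216), (nat_lit 73, nat_lit 18457047168), (nat_lit 89, nat_lit 18457043073), (nat_lit 76, nat_lit 19530784896)]⟩,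
   ⟨V6_13088071809, [(nat_lit 3, nat_lit 15236087937), (nat_lit 15, nat_lit 16309825665), (nat_lit 122, nat_lit 16309567617), (nat_lit 32, nat_lit 17383563393), (nat_lit 65, nat_lit 17383305345), (nat_lit 87, nat_lit 17383047297), (nat_lit 71, nat_lit 18457043073), (nat_lit 76, nat_lit 18456785025), (nat_lit 28, nat_lit 19530522753)]⟩],
  [W_15201747008, W_15185748032, W_15185489984, W_15185231936, W_14144782400, W_14128783424, W_14128525376, W_14112010304, W_13038272576]⟩
theorem C_15236087937 : chkRec R_15236087937 = true := by decide +kernel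

noncomputable def R_15236088000 : Rec := ⟨nat_lit 15236088000, nat_lit 80,
  [⟨V6_15234777216, [(nat_lit 82, nat_lit 15236088000), (nat_lit 120, nat_lit 16309829760), (nat_lit 29, nat_lit 16309567680), (nat_lit 35, nat_lit 17383309440), (nat_lit 58, nat_lit 17383047360), (nat_lit 45, nat_lit 18456789120), (nat_lit 28, nat_lit 18456527040), (nat_lit 53, nat_lit 19530268800), (nat_lit 54, nat_lit 19530006720), (nat_lit 94, nat_lit 20603748480), (nat_lit 67, nat_lit 20603486400), (nat_lit 25, nat_lit 21677228160)]⟩,
   ⟨V6_15202529280, [(nat_lit 114, nat_lit 15236088000), (nat_lit 45, nat_lit 16309829760), (nat_lit 6, nat_lit 16309825728), (nat_lit 3, nat_lit 16293052608), (nat_lit 33, nat_lit 17383571520), (nat_lit 70, nat_lit 17383567488), (nat_lit 14, nat_lit 17366794368), (nat_lit 51, nat_lit 17366790336), (nat_lit 6, nat_lit 17350017216), (nat_lit 16, nat_lit 18457313280), (nat_lit 26, nat_lit 18457309248), (nat_lit 83, nat_lit 18440536128), (nat_lit 21, nat_lit 18440532096), (nat_lit 24, nat_lit 18423758976), (nat_lit 62, nat_lit 18423754944),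 (nat_lit 123, nat_lit 19531051008), (nat_lit 68, nat_lit 19514277888), (nat_lit 21, nat_lit 19514273856), (nat_lit 65, nat_lit 19497500736), (nat_lit 119, nat_lit 19497496704), (nat_lit 97, nat_lit 20588015616), (nat_lit 99, nat_lit 20571242496), (nat_lit 55, nat_lit 20571238464), (nat_lit 62, nat_lit 21644980224)]⟩,
   ⟨V6_13088342016, [(nat_lit 30, nat_lit 15236088000), (nat_lit 65, nat_lit 16309829760), (nat_lit 2, nat_lit 16309567680), (nat_lit 101, nat_lit 17383571520), (nat_lit 38, nat_lit 17383309440), (nat_lit 70, nat_lit 18457313280), (nat_lit 57, nat_lit 18457051200), (nat_lit 1, nat_lit 19530792960)]⟩],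
  [W_15235297280, W_15235039232, W_15218524160, W_15202009088, W_15185494016, W_15185489984, W_14161817600, W_14112010304, W_13088337920]⟩
theorem C_15236088000 : chkRec R_15236088000 = true := by decide +kernel

noncomputable def R_15236091969 : Rec := ⟨nat_lit 15236091969, nat_lit 44,
  [⟨V6_15235813440, [(nat_lit 122, nat_lit 15236091969), (nat_lit 78, nat_lit 16309833792), (nat_lit 27, nat_lit 16309829697), (nat_lit 49, nat_lit 16309571649), (nat_lit 8, nat_lit 17383571520), (nat_lit 103, nat_lit 17383567425), (nat_lit 56, nat_lit 17383313472), (nat_lit 26, nat_lit 17383309377), (nat_lit 2, nat_lit 18457309248), (nat_lit 16, nat_lit 18457305153), (nat_lit 57, nat_lit 18457051200), (nat_lit 125, nat_lit 18457047105), (nat_lit 103, nat_lit 19531046976), (nat_lit 75, nat_lit 19531042881), (nat_lit 109, nat_lit 19530788928), (nat_lit 19, nat_lit 19530784833), (nat_lit 56, nat_lit 20604784704), (nat_lit 30, nat_lit 20604526656), (nat_lit 30, nat_lit 20604522561), (nat_lit 70, nat_lit 21678264384)]⟩,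
   ⟨V6_15185748033, [(nat_lit 9, nat_lit 15236091969), (nat_lit 42, nat_lit 16309829697), (nat_lit 100, nat_lit 16293056577), (nat_lit 87, nat_lit 17383567425), (nat_lit 28, nat_lit 17366794305), (nat_lit 17, nat_lit 17350021185), (nat_lit 95, nat_lit 18457305153), (nat_lit 65, nat_lit 18440532033), (nat_lit 107, nat_lit 18423758913), (nat_lit 88, nat_lit 18406985793), (nat_lit 99, nat_lit 19514269761), (nat_lit 97, nat_lit 19497496641), (nat_lit 101, nat_lit 19480723521), (nat_lit 32, nat_lit 20571234369), (nat_lit 39, nat_lit 20554461249), (nat_lit 29, nat_lit 21628198977)]⟩,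
   ⟨V6_13087821888, [(nat_lit 13, nat_lit 15236091969), (nat_lit 116, nat_lit 16309833792), (nat_lit 60, nat_lit 16309571649), (nat_lit 110, nat_lit 17383313472), (nat_lit 83, nat_lit 17383051329), (nat_lit 22, nat_lit 18456793152), (nat_lit 2, nat_lit 18456531009), (nat_lit 99, nat_lit 19530272832)]⟩],
  [W_15218262080, W_15201747008, W_15185489984, W_15185231936, W_15184973888]⟩
theorem C_15236091969 : chkRec R_15236091969 = true := by decide +kernel

noncomputable def R_15236092032 : Rec := ⟨nat_lit 15236092032, nat_lit 115,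
  [⟨V6_15235817472, [(nat_lit 111, nat_lit 15236092032), (nat_lit 98, nat_lit 16309833792), (nat_lit 18, nat_lit 16309829760), (nat_lit 81, nat_lit 16309571712), (nat_lit 57, nat_lit 17383575552), (nat_lit 111, nat_lit 17383571520), (nat_lit 4, nat_lit 17383567488), (nat_lit 15, nat_lit 17383313472), (nat_lit 42, nat_lit 17383309440), (nat_lit 24, nat_lit 18457313280), (nat_lit 123, nat_lit 18457309248), (nat_lit 91, nat_lit 18457305216), (nat_lit 59, nat_lit 18457055232), (nat_lit 13, nat_lit 18457051200), (nat_lit 35, nat_lit 18457047168), (nat_lit 108, nat_lit 19531051008), (nat_lit 48, nat_lit 19531046976), (nat_lit 115, nat_lit 19530792960), (nat_lit 36, nat_lit 19530788928), (nat_lit 115, nat_lit 19530784896), (nat_lit 66, nat_lit 20604788736), (nat_lit 115, nat_lit 20604530688), (nat_lit 67, nat_lit 20604526656), (nat_lit 86, nat_lit 21678268416)]⟩,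
   ⟨V6_15219302400, [(nat_lit 110, nat_lit 15236092032), (nat_lit 66, nat_lit 16309833792), (nat_lit 53, nat_lit 16309829760), (nat_lit 88, nat_lit 16293056640), (nat_lit 87, nat_lit 17383575552), (nat_lit 39, nat_lit 17383571520), (nat_lit 94, nat_lit 17383567488), (nat_lit 64, nat_lit 17366798400), (nat_lit 95, nat_lit 17366794368), (nat_lit 112, nat_lit 18457313280), (nat_lit 88, nat_lit 18457309248), (nat_lit 61, nat_lit 18457305216), (nat_lit 89, nat_lit 18440540160), (nat_lit 66, nat_lit 18440536128), (nat_lit 100, nat_lit 18440532096), (nat_lit 16, nat_lit 19531051008), (nat_lit 23, nat_lit 19531046976), (nat_lit 109, nat_lit 19514277888), (nat_lit 18, nat_lit 19514273856), (nat_lit 117, nat_lit 19514269824), (nat_lit 48, nat_lit 20604788736), (nat_lit 4, nat_lit 20588015616), (nat_lit 23, nat_lit 20588011584), (nat_lit 101, nat_lit 21661753344)]⟩,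
   ⟨V6_13071568896, [(nat_lit 55, nat_lit 15236092032), (nat_lit 18, nat_lit 16309833792), (nat_lit 73, nat_lit 16309571712), (nat_lit 109, nat_lit 16293056640), (nat_lit 123, nat_lit 17383575552), (nat_lit 124, nat_lit 17383313472), (nat_lit 17, nat_lit 17366798400), (nat_lit 11, nat_lit 17366536320), (nat_lit 46, nat_lit 18457055232), (nat_lit 102, nat_lit 18440540160), (nat_lit 76, nat_lit 18440278080), (nat_lit 95, nat_lit 19514019840)]⟩],
  [W_15235039232, W_15218524160, W_15218262080, W_15202009088, W_15201747008, W_15201484928, W_15185494016, W_15185489984, W_15185485952, W_15185231936, W_15184973888, W_15184969856, W_13088071808]⟩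
theorem C_15236092032 : chkRec R_15236092032 = true := by decide +kernel

noncomputable def R_15236096064 : Rec := ⟨nat_lit 15236096064, nat_lit 105,
  [⟨V6_15235817472, [(nat_lit 97, nat_lit 15236096064), (nat_lit 72, nat_lit 16309837824), (nat_lit 1, nat_lit 16309833792), (nat_lit 26, nat_lit 16309575744), (nat_lit 118, nat_lit 17383575552), (nat_lit 44, nat_lit 17383571520), (nat_lit 114, nat_lit 17383317504), (nat_lit 86, nat_lit 17383313472), (nat_lit 32, nat_lit 18457313280), (nat_lit 19, nat_lit 18457309248), (nat_lit 61, nat_lit 18457055232), (nat_lit 47, nat_lit 18457051200), (nat_lit 64, nat_lit 19531051008), (nat_lit 105, nat_lit 19531046976), (nat_lit 61, nat_lit 19530792960), (nat_lit 9, nat_lit 19530788928), (nat_lit 57, nat_lit 20604788736), (nat_lit 13, nat_lit 20604530688), (nat_lit 42, nat_lit 20604526656), (nat_lit 100, nat_lit 21678268416)]⟩,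
   ⟨V6_14161563648, [(nat_lit 77, nat_lit 15236096064), (nat_lit 120, nat_lit 16309837824), (nat_lit 88, nat_lit 16309833792), (nat_lit 115, nat_lit 16309575744), (nat_lit 97, nat_lit 17383575552), (nat_lit 6, nat_lit 17383317504), (nat_lit 116, nat_lit 17383313472), (nat_lit 64, nat_lit 17383055424), (nat_lit 100, nat_lit 18457055232), (nat_lit 120, nat_lit 18456797184), (nat_lit 66, nat_lit 18456793152), (nat_lit 22, nat_lit 18456535104), (nat_lit 91, nat_lit 19530534912), (nat_lit 54, nat_lit 19530276864), (nat_lit 62, nat_lit 19530272832), (nat_lit 80, nat_lit 20604014592)]⟩,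
   ⟨V6_13088083968, [(nat_lit 54, nat_lit 15236096064), (nat_lit 97, nat_lit 16309837824), (nat_lit 24, nat_lit 16309833792), (nat_lit 58, nat_lit 16309575744), (nat_lit 77, nat_lit 17383575552), (nat_lit 105, nat_lit 17383317504), (nat_lit 83, nat_lit 17383313472), (nat_lit 67, nat_lit 17383055424), (nat_lit 102, nat_lit 18457055232), (nat_lit 11, nat_lit 18456797184), (nat_lit 95, nat_lit 18456793152), (nat_lit 22, nat_lit 19530534912)]⟩,
   ⟨V6_13087825920, [(nat_lit 99, nat_lit 15236096064), (nat_lit 101, nat_lit 16309837824), (nat_lit 26, nat_lit 16309575744), (nat_lit 33, nat_lit 17383317504), (nat_lit 56, nat_lit 17383055424), (nat_lit 7, nat_lit 18456797184), (nat_lit 125, nat_lit 18456535104), (nat_lit 32, nat_lit 19530276864)]⟩],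
  [W_15218524160, W_15202525184, W_15202009088, W_15201747008, W_15185494016, W_15185489984, W_15185231936, W_15184973888, W_14128013312, W_14112010304, W_14111236160]⟩
theorem C_15236096064 : chkRec R_15236096064 = true := by decide +kernel

noncomputable def R_15236100096 : Rec := ⟨nat_lit 15236100096, nat_lit 48,
  [⟨V6_13088342016, [(nat_lit 118, nat_lit 15236100096), (nat_lit 117, nat_lit 16309837824), (nat_lit 43, nat_lit 16309579776), (nat_lit 85, nat_lit 17383575552), (nat_lit 22, nat_lit 17383317504), (nat_lit 77, nat_lit 18457313280), (nat_lit 63, nat_lit 18457055232), (nat_lit 94, nat_lit 19530792960)]⟩,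
   ⟨V6_13088083968, [(nat_lit 45, nat_lit 15236100096), (nat_lit 59, nat_lit 16309837824), (nat_lit 65, nat_lit 16309579776), (nat_lit 108, nat_lit 17383575552), (nat_lit 80, nat_lit 17383317504), (nat_lit 126, nat_lit 17383059456), (nat_lit 111, nat_lit 18457055232), (nat_lit 70, nat_lit 18456797184), (nat_lit 16, nat_lit 19530534912)]⟩,
   ⟨V6_13055053824, [(nat_lit 31, nat_lit 15236100096), (nat_lit 75, nat_lit 16309837824), (nat_lit 98, nat_lit 16293064704), (nat_lit 94, nat_lit 17383575552), (nat_lit 50, nat_lit 17366802432), (nat_lit 67, nat_lit 17350029312), (nat_lit 22, nat_lit 18440540160), (nat_lit 77, nat_lit 18423767040), (nat_lit 4, nat_lit 19497504768)]⟩],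
  [W_15219298304, W_15202525184, W_15202009088, W_15185494016]⟩
theorem C_15236100096 : chkRec R_15236100096 = true := by decide +kernel

noncomputable def R_15236341890 : Rec := ⟨nat_lit 15236341890, nat_lit 7,
  [⟨V6_13087809666, [(nat_lit 56, nat_lit 15236341890), (nat_lit 126, nat_lit 16309821570), (nat_lit 120, nat_lit 17383301250), (nat_lit 116, nat_lit 18456780930), (nat_lit 94, nat_lit 19530260610)]⟩,
   ⟨V6_13054779522, [(nat_lit 71, nat_lit 15236341890), (nat_lit 106, nat_lit 16309821570), (nat_lit 89, nat_lit 16293306498), (nat_lit 39, nat_lit 17383301250), (nat_lit 107, nat_lit 17366786178), (nat_lit 66, nat_lit 17350271106), (nat_lit 88, nat_lit 18440265858), (nat_lit 53, nat_lit 18423750786), (nat_lit 125, nat_lit 19497230466)]⟩],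
  [W_15218516096, W_13088071808]⟩
theorem C_15236341890 : chkRec R_15236341890 = true := by decide +kernel

noncomputable def R_15236345985 : Rec := ⟨nat_lit 15236345985, nat_lit 31,
  [⟨V6_15235031169, [(nat_lit 44, nat_lit 15236345985), (nat_lit 10, nat_lit 16310083713), (nat_lit 60, nat_lit 16309825665), (nat_lit 21, nat_lit 17383563393), (nat_lit 7, nat_lit 17383305345), (nat_lit 100, nat_lit 18457043073), (nat_lit 68, nat_lit 18456785025), (nat_lit 105, nat_lit 19530522753), (nat_lit 9, nat_lit 19530264705), (nat_lit 60, nat_lit 20604002433), (nat_lit 73, nat_lit 20603744385), (nat_lit 124, nat_lit 21677482113)]⟩,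
   ⟨V6_13088333952, [(nat_lit 73, nat_lit 15236345985), (nat_lit 122, nat_lit 16310087808), (nat_lit 104, nat_lit 16310083713), (nat_lit 48, nat_lit 16309825665), (nat_lit 4, nat_lit 17383825536), (nat_lit 40, nat_lit 17383567488), (nat_lit 36, nat_lit 17383563393), (nat_lit 105, nat_lit 17383305345), (nat_lit 32, nat_lit 18457305216), (nat_lit 75, nat_lit 18457047168), (nat_lit 3, nat_lit 18457043073), (nat_lit 93, nat_lit 19530784896)]⟩,
   ⟨V6_13088071809, [(nat_lit 66, nat_lit 15236345985), (nat_lit 94, nat_lit 16310083713), (nat_lit 36, nat_lit 16309825665), (nat_lit 18, nat_lit 17383563393), (nat_lit 65, nat_lit 17383305345), (nat_lit 98, nat_lit 18457043073), (nat_lit 49, nat_lit 18456785025), (nat_lit 67, nat_lit 19530522753)]⟩],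
  [W_14161555520, W_14128783424, W_14128525376, W_13071818816, W_13071560768, W_13055303744, W_13055045696]⟩
theorem C_15236345985 : chkRec R_15236345985 = true := by decide +kernel

noncomputable def R_15236346048 : Rec := ⟨nat_lit 15236346048, nat_lit 30,
  [⟨V6_15202529280, [(nat_lit 120, nat_lit 15236346048), (nat_lit 4, nat_lit 16310087808), (nat_lit 45, nat_lit 16309825728), (nat_lit 81, nat_lit 16293310656), (nat_lit 70, nat_lit 17383829568), (nat_lit 42, nat_lit 17383567488), (nat_lit 37, nat_lit 17367052416), (nat_lit 56, nat_lit 17366790336), (nat_lit 79, nat_lit 17350275264), (nat_lit 97, nat_lit 18457571328), (nat_lit 42, nat_lit 18457309248), (nat_lit 19, nat_lit 18440794176), (nat_lit 64, nat_lit 18440532096), (nat_lit 82, nat_lit 18424017024), (nat_lit 100, nat_lit 18423754944), (nat_lit 39, nat_lit 19531051008), (nat_lit 111, nat_lit 19514535936), (nat_lit 16, nat_lit 19514273856), (nat_lit 22, nat_lit 19497758784), (nat_lit 85, nat_lit 19497496704), (nat_lit 125, nat_lit 20588015616), (nat_lit 109, nat_lit 20571500544),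 (nat_lit 96, nat_lit 20571238464), (nat_lit 124, nat_lit 21644980224)]⟩],
  [W_15235297280, W_14161817600, W_13088337920, W_13088075840, W_13055307776]⟩
theorem C_15236346048 : chkRec R_15236346048 = true := by decide +kernel

noncomputable def R_15236350017 : Rec := ⟨nat_lit 15236350017, nat_lit 32,
  [⟨V6_15235813440, [(nat_lit 88, nat_lit 15236350017), (nat_lit 19, nat_lit 16310091840), (nat_lit 5, nat_lit 16310087745), (nat_lit 62, nat_lit 16309829697), (nat_lit 117, nat_lit 17383829568), (nat_lit 75, nat_lit 17383825473), (nat_lit 31, nat_lit 17383571520), (nat_lit 87, nat_lit 17383567425), (nat_lit 22, nat_lit 17383309377), (nat_lit 94, nat_lit 18457567296), (nat_lit 78, nat_lit 18457563201), (nat_lit 85, nat_lit 18457309248), (nat_lit 92, nat_lit 18457305153), (nat_lit 82, nat_lit 18457051200), (nat_lit 41, nat_lit 18457047105), (nat_lit 16, nat_lit 19531305024), (nat_lit 37, nat_lit 19531046976), (nat_lit 73, nat_lit 19531042881), (nat_lit 75, nat_lit 19530788928), (nat_lit 31, nat_lit 19530784833), (nat_lit 125, nat_lit 20604784704),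 (nat_lit 45, nat_lit 20604526656), (nat_lit 32, nat_lit 20604522561), (nat_lit 126, nat_lit 21678264384)]⟩,
   ⟨V6_15202783296, [(nat_lit 3, nat_lit 15236350017), (nat_lit 95, nat_lit 16310091840), (nat_lit 66, nat_lit 16310087745), (nat_lit 9, nat_lit 16293314625), (nat_lit 71, nat_lit 17383829568), (nat_lit 64, nat_lit 17383825473), (nat_lit 85, nat_lit 17367056448), (nat_lit 73, nat_lit 17367052353), (nat_lit 13, nat_lit 17350279233), (nat_lit 27, nat_lit 18457567296), (nat_lit 6, nat_lit 18457563201), (nat_lit 72, nat_lit 18440794176), (nat_lit 125, nat_lit 18440790081), (nat_lit 114, nat_lit 18424021056), (nat_lit 102, nat_lit 18424016961), (nat_lit 47, nat_lit 19531305024), (nat_lit 48, nat_lit 19514531904), (nat_lit 38, nat_lit 19514527809), (nat_lit 116, nat_lit 19497758784), (nat_lit 49, nat_lit 19497754689), (nat_lit 117, nat_lit 20588269632), (nat_lit 2, nat_lit 20571496512), (nat_lit 91, nat_lit 20571492417), (nat_lit 45, nat_lit 21645234240)]⟩,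
   ⟨V6_14129041473, [(nat_lit 5, nat_lit 15236350017), (nat_lit 26, nat_lit 16310087745), (nat_lit 57, nat_lit 16293314625), (nat_lit 67, nat_lit 17383825473), (nat_lit 30, nat_lit 17367052353), (nat_lit 28, nat_lit 17350279233), (nat_lit 4, nat_lit 18457563201), (nat_lit 23, nat_lit 18440790081), (nat_lit 45, nat_lit 18424016961), (nat_lit 37, nat_lit 19514527809), (nat_lit 31, nat_lit 19497754689), (nat_lit 53, nat_lit 20571492417)]⟩,
   ⟨V6_13088854080, [(nat_lit 67, nat_lit 15236350017), (nat_lit 67, nat_lit 16310091840), (nat_lit 79, nat_lit 16310087745), (nat_lit 77, nat_lit 17383829568), (nat_lit 48, nat_lit 17383825473), (nat_lit 11, nat_lit 18457567296), (nat_lit 25, nat_lit 18457563201), (nat_lit 63, nat_lit 19531305024)]⟩,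
   ⟨V6_13072076865, [(nat_lit 45, nat_lit 15236350017), (nat_lit 27, nat_lit 16310087745), (nat_lit 33, nat_lit 16293314625), (nat_lit 15, nat_lit 17383825473), (nat_lit 20, nat_lit 17367052353), (nat_lit 116, nat_lit 18457563201), (nat_lit 70, nat_lit 18440790081), (nat_lit 46, nat_lit 19514527809)]⟩],
  [W_15234777152, W_15218262080, W_15201747008, W_14161297472, W_13087817792, W_13054787648]⟩
theorem C_15236350017 : chkRec R_15236350017 = true := by decide +kernel

noncomputable def R_15236350080 : Rec := ⟨nat_lit 15236350080, nat_lit 96,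
  [⟨V6_15235817472, [(nat_lit 36, nat_lit 15236350080), (nat_lit 91, nat_lit 16310091840), (nat_lit 50, nat_lit 16310087808), (nat_lit 52, nat_lit 16309829760), (nat_lit 82, nat_lit 17383833600), (nat_lit 39, nat_lit 17383829568), (nat_lit 92, nat_lit 17383825536), (nat_lit 95, nat_lit 17383571520), (nat_lit 119, nat_lit 17383567488), (nat_lit 57, nat_lit 17383309440), (nat_lit 52, nat_lit 18457571328), (nat_lit 116, nat_lit 18457567296), (nat_lit 2, nat_lit 18457313280), (nat_lit 113, nat_lit 18457309248), (nat_lit 96, nat_lit 18457305216), (nat_lit 112, nat_lit 18457051200), (nat_lit 99, nat_lit 18457047168), (nat_lit 47, nat_lit 19531309056), (nat_lit 111, nat_lit 19531051008), (nat_lit 97, nat_lit 19531046976), (nat_lit 25, nat_lit 19530792960), (nat_lit 25, nat_lit 19530788928), (nat_lit 89, nat_lit 19530784896), (nat_lit 34, nat_lit 20604788736), (nat_lit 12, nat_lit 20604530688), (nat_lit 15, nat_lit 20604526656), (nat_lit 97, nat_lit 21678268416)]⟩,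
   ⟨V6_15202787328, [(nat_lit 124, nat_lit 15236350080), (nat_lit 74, nat_lit 16310091840), (nat_lit 80, nat_lit 16310087808), (nat_lit 16, nat_lit 16293314688), (nat_lit 109, nat_lit 17383833600), (nat_lit 66, nat_lit 17383829568), (nat_lit 89, nat_lit 17383825536), (nat_lit 113, nat_lit 17367056448), (nat_lit 24, nat_lit 17367052416), (nat_lit 100, nat_lit 17350279296), (nat_lit 68, nat_lit 18457571328), (nat_lit 9, nat_lit 18457567296), (nat_lit 114, nat_lit 18440798208), (nat_lit 24, nat_lit 18440794176), (nat_lit 12, nat_lit 18440790144), (nat_lit 38, nat_lit 18424021056), (nat_lit 9, nat_lit 18424017024), (nat_lit 123, nat_lit 19531309056), (nat_lit 2, nat_lit 19514535936), (nat_lit 16, nat_lit 19514531904), (nat_lit 95, nat_lit 19497762816), (nat_lit 81, nat_lit 19497758784), (nat_lit 120, nat_lit 19497754752), (nat_lit 65, nat_lit 20588273664), (nat_lit 89, nat_lit 20571500544), (nat_lit 43, nat_lit 20571496512), (nat_lit 2, nat_lit 21645238272)]⟩,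
   ⟨V6_13088342016, [(nat_lit 75, nat_lit 15236350080), (nat_lit 73, nat_lit 16310091840), (nat_lit 6, nat_lit 16309829760), (nat_lit 105, nat_lit 17383833600), (nat_lit 88, nat_lit 17383571520), (nat_lit 3, nat_lit 17383309440), (nat_lit 65, nat_lit 18457313280), (nat_lit 89, nat_lit 18457051200), (nat_lit 52, nat_lit 19530792960)]⟩],
  [W_15235297280, W_15235039232, W_15234777152, W_15218524160, W_15218262080, W_15202009088, W_15201747008, W_15201484928, W_13088071808, W_13071298688]⟩
theorem C_15236350080 : chkRec R_15236350080 = true := by decide +kernel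

noncomputable def R_15236354112 : Rec := ⟨nat_lit 15236354112, nat_lit 95,
  [⟨V6_15235813440, [(nat_lit 49, nat_lit 15236354112), (nat_lit 65, nat_lit 16310091840), (nat_lit 114, nat_lit 16309833792), (nat_lit 120, nat_lit 17383829568), (nat_lit 120, nat_lit 17383571520), (nat_lit 15, nat_lit 17383313472), (nat_lit 71, nat_lit 18457567296), (nat_lit 21, nat_lit 18457309248), (nat_lit 100, nat_lit 18457051200), (nat_lit 79, nat_lit 19531305024), (nat_lit 86, nat_lit 19531046976), (nat_lit 18, nat_lit 19530788928), (nat_lit 32, nat_lit 20604784704), (nat_lit 107, nat_lit 20604526656), (nat_lit 99, nat_lit 21678264384)]⟩,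
   ⟨V6_14161563648, [(nat_lit 84, nat_lit 15236354112), (nat_lit 41, nat_lit 16310095872), (nat_lit 73, nat_lit 16309833792), (nat_lit 107, nat_lit 17383575552), (nat_lit 70, nat_lit 17383313472), (nat_lit 25, nat_lit 18457055232), (nat_lit 25, nat_lit 18456793152), (nat_lit 123, nat_lit 19530534912), (nat_lit 42, nat_lit 19530272832), (nat_lit 88, nat_lit 20604014592)]⟩,
   ⟨V6_13088858112, [(nat_lit 83, nat_lit 15236354112), (nat_lit 57, nat_lit 16310095872), (nat_lit 73, nat_lit 16310091840), (nat_lit 114, nat_lit 17383833600), (nat_lit 112, nat_lit 17383829568), (nat_lit 62, nat_lit 18457571328), (nat_lit 90, nat_lit 18457567296), (nat_lit 26, nat_lit 19531309056)]⟩,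
   ⟨V6_13088342016, [(nat_lit 75, nat_lit 15236354112), (nat_lit 63, nat_lit 16310095872), (nat_lit 32, nat_lit 16310091840), (nat_lit 41, nat_lit 16309833792), (nat_lit 28, nat_lit 17383833600), (nat_lit 60, nat_lit 17383575552), (nat_lit 91, nat_lit 17383571520), (nat_lit 45, nat_lit 17383313472), (nat_lit 100, nat_lit 18457313280), (nat_lit 102, nat_lit 18457055232), (nat_lit 75, nat_lit 18457051200), (nat_lit 103, nat_lit 19530792960)]⟩,
   ⟨V6_13088083968, [(nat_lit 119, nat_lit 15236354112), (nat_lit 1, nat_lit 16310095872), (nat_lit 43, nat_lit 16309833792), (nat_lit 9, nat_lit 17383575552), (nat_lit 26, nat_lit 17383313472), (nat_lit 89, nat_lit 18457055232), (nat_lit 61, nat_lit 18456793152), (nat_lit 73, nat_lit 19530534912)]⟩],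
  [W_15235297280, W_15219298304, W_15218524160, W_15202783232, W_15202525184, W_15202009088, W_15201747008, W_14129045504, W_13072076864, W_13055303744]⟩
theorem C_15236354112 : chkRec R_15236354112 = true := by decide +kernel

noncomputable def R_15236358144 : Rec := ⟨nat_lit 15236358144, nat_lit 66,
  [⟨V6_15236333568, [(nat_lit 75, nat_lit 15236358144), (nat_lit 32, nat_lit 16310095872), (nat_lit 102, nat_lit 17383833600), (nat_lit 37, nat_lit 18457571328), (nat_lit 63, nat_lit 19531309056), (nat_lit 24, nat_lit 20605046784), (nat_lit 56, nat_lit 21678784512)]⟩,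
   ⟨V6_15201755136, [(nat_lit 83, nat_lit 15236358144), (nat_lit 14, nat_lit 16309837824), (nat_lit 27, nat_lit 16293322752), (nat_lit 94, nat_lit 17383317504), (nat_lit 56, nat_lit 17366802432), (nat_lit 120, nat_lit 17350287360), (nat_lit 71, nat_lit 18456797184), (nat_lit 37, nat_lit 18440282112), (nat_lit 12, nat_lit 18423767040), (nat_lit 110, nat_lit 19530276864), (nat_lit 118, nat_lit 19513761792), (nat_lit 35, nat_lit 19497246720), (nat_lit 13, nat_lit 20587241472), (nat_lit 63, nat_lit 20570726400), (nat_lit 101, nat_lit 21644206080)]⟩,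
   ⟨V6_13088858112, [(nat_lit 44, nat_lit 15236358144), (nat_lit 122, nat_lit 16310095872), (nat_lit 123, nat_lit 17383833600), (nat_lit 117, nat_lit 18457571328), (nat_lit 2, nat_lit 19531309056)]⟩,
   ⟨V6_13087825920, [(nat_lit 125, nat_lit 15236358144), (nat_lit 59, nat_lit 16309837824), (nat_lit 32, nat_lit 17383317504), (nat_lit 14, nat_lit 18456797184), (nat_lit 42, nat_lit 19530276864)]⟩],
  [W_15219298304, W_15202783232, W_15202525184, W_15202009088, W_14162591744, W_14162333696, W_14145302528, W_14129045504]⟩
theorem C_15236358144 : chkRec R_15236358144 = true := by decide +kernel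

noncomputable def R_15236604033 : Rec := ⟨nat_lit 15236604033, nat_lit 10,
  [⟨V6_15235031169, [(nat_lit 41, nat_lit 15236604033), (nat_lit 49, nat_lit 16310083713), (nat_lit 22, nat_lit 17383563393), (nat_lit 59, nat_lit 18457043073), (nat_lit 3, nat_lit 19530522753), (nat_lit 4, nat_lit 20604002433), (nat_lit 111, nat_lit 21677482113)]⟩],
  [W_14161813568, W_13088333888, W_13071818816]⟩
theorem C_15236604033 : chkRec R_15236604033 = true := by decide +kernel

noncomputable def R_15236608065 : Rec := ⟨nat_lit 15236608065, nat_lit 17,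
  [⟨V6_15235813440, [(nat_lit 12, nat_lit 15236608065), (nat_lit 118, nat_lit 16310349888), (nat_lit 66, nat_lit 16310345793), (nat_lit 81, nat_lit 16310087745), (nat_lit 125, nat_lit 17384087616), (nat_lit 114, nat_lit 17384083521), (nat_lit 88, nat_lit 17383829568), (nat_lit 28, nat_lit 17383825473), (nat_lit 67, nat_lit 17383567425), (nat_lit 126, nat_lit 18457825344), (nat_lit 96, nat_lit 18457567296), (nat_lit 12, nat_lit 18457563201), (nat_lit 6, nat_lit 18457309248), (nat_lit 96, nat_lit 18457305153), (nat_lit 13, nat_lit 18457047105), (nat_lit 10, nat_lit 19531305024), (nat_lit 5, nat_lit 19531046976), (nat_lit 9, nat_lit 19531042881), (nat_lit 115, nat_lit 19530788928), (nat_lit 110, nat_lit 19530784833), (nat_lit 4, nat_lit 20604784704), (nat_lit 48, nat_lit 20604526656), (nat_lit 77, nat_lit 20604522561), (nat_lit 114, nat_lit 21678264384)]⟩],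
  [W_15235035200, W_14161555520, W_13071560768]⟩
theorem C_15236608065 : chkRec R_15236608065 = true := by decide +kernel

noncomputable def R_15236608128 : Rec := ⟨nat_lit 15236608128, nat_lit 41,
  [⟨V6_15235293312, [(nat_lit 104, nat_lit 15236608128), (nat_lit 34, nat_lit 16310345856), (nat_lit 3, nat_lit 16310087808), (nat_lit 47, nat_lit 17383825536), (nat_lit 94, nat_lit 17383567488), (nat_lit 9, nat_lit 18457305216), (nat_lit 33, nat_lit 18457047168), (nat_lit 94, nat_lit 19530784896), (nat_lit 124, nat_lit 19530526848), (nat_lit 43, nat_lit 20604264576), (nat_lit 23, nat_lit 20604006528), (nat_lit 57, nat_lit 21677744256)]⟩,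
   ⟨V6_13072343040, [(nat_lit 97, nat_lit 15236608128), (nat_lit 32, nat_lit 16310349888), (nat_lit 9, nat_lit 16310345856), (nat_lit 5, nat_lit 16293572736), (nat_lit 24, nat_lit 17384091648), (nat_lit 38, nat_lit 17384087616), (nat_lit 41, nat_lit 17367314496), (nat_lit 35, nat_lit 17367310464), (nat_lit 40, nat_lit 18457829376), (nat_lit 27, nat_lit 18441056256), (nat_lit 44, nat_lit 18441052224), (nat_lit 93, nat_lit 19514793984)]⟩],
  [W_15235297280, W_14161817600, W_14145302528, W_13088595968]⟩
theorem C_15236608128 : chkRec R_15236608128 = true := by decide +kernel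

noncomputable def R_15236612160 : Rec := ⟨nat_lit 15236612160, nat_lit 59,
  [⟨V6_15235813440, [(nat_lit 52, nat_lit 15236612160), (nat_lit 41, nat_lit 16310349888), (nat_lit 107, nat_lit 16310091840), (nat_lit 14, nat_lit 17384087616), (nat_lit 6, nat_lit 17383829568), (nat_lit 53, nat_lit 17383571520), (nat_lit 116, nat_lit 18457825344), (nat_lit 14, nat_lit 18457567296), (nat_lit 56, nat_lit 18457309248), (nat_lit 80, nat_lit 18457051200), (nat_lit 3, nat_lit 19531305024), (nat_lit 81, nat_lit 19531046976), (nat_lit 51, nat_lit 19530788928), (nat_lit 105, nat_lit 20604784704), (nat_lit 114, nat_lit 20604526656), (nat_lit 78, nat_lit 21678264384)]⟩,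
   ⟨V6_13088858112, [(nat_lit 21, nat_lit 15236612160), (nat_lit 74, nat_lit 16310353920), (nat_lit 79, nat_lit 16310349888), (nat_lit 85, nat_lit 16310091840), (nat_lit 76, nat_lit 17384091648), (nat_lit 3, nat_lit 17384087616), (nat_lit 65, nat_lit 17383833600), (nat_lit 31, nat_lit 17383829568), (nat_lit 78, nat_lit 18457829376), (nat_lit 98, nat_lit 18457571328), (nat_lit 41, nat_lit 18457567296), (nat_lit 69, nat_lit 19531309056)]⟩,
   ⟨V6_13088342016, [(nat_lit 103, nat_lit 15236612160), (nat_lit 15, nat_lit 16310353920), (nat_lit 39, nat_lit 16310091840), (nat_lit 114, nat_lit 17383833600), (nat_lit 73, nat_lit 17383571520), (nat_lit 88, nat_lit 18457313280), (nat_lit 60, nat_lit 18457051200), (nat_lit 69, nat_lit 19530792960)]⟩,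
   ⟨V6_13072343040, [(nat_lit 108, nat_lit 15236612160), (nat_lit 58, nat_lit 16310353920), (nat_lit 54, nat_lit 16310349888), (nat_lit 56, nat_lit 16293576768), (nat_lit 14, nat_lit 17384091648), (nat_lit 20, nat_lit 17384087616), (nat_lit 77, nat_lit 17367318528), (nat_lit 27, nat_lit 17367314496), (nat_lit 27, nat_lit 18457829376), (nat_lit 65, nat_lit 18441056256), (nat_lit 63, nat_lit 18441052224), (nat_lit 123, nat_lit 19514793984)]⟩],
  [W_15235297280, W_15235039232, W_15234777152, W_15218524160, W_15218262080, W_14145818624, W_13088854016]⟩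
theorem C_15236612160 : chkRec R_15236612160 = true := by decide +kernel

noncomputable def R_15236616192 : Rec := ⟨nat_lit 15236616192, nat_lit 41,
  [⟨V6_15235043328, [(nat_lit 68, nat_lit 15236616192), (nat_lit 41, nat_lit 16310095872), (nat_lit 21, nat_lit 17383575552), (nat_lit 39, nat_lit 18457055232), (nat_lit 101, nat_lit 19530534912), (nat_lit 50, nat_lit 20604014592), (nat_lit 54, nat_lit 21677494272)]⟩,
   ⟨V6_14161563648, [(nat_lit 103, nat_lit 15236616192), (nat_lit 80, nat_lit 16310095872), (nat_lit 49, nat_lit 17383575552), (nat_lit 122, nat_lit 18457055232), (nat_lit 9, nat_lit 19530534912), (nat_lit 90, nat_lit 20604014592)]⟩,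
   ⟨V6_13089116160, [(nat_lit 8, nat_lit 15236616192), (nat_lit 34, nat_lit 16310353920), (nat_lit 96, nat_lit 17384091648), (nat_lit 25, nat_lit 18457829376), (nat_lit 112, nat_lit 19531567104)]⟩],
  [W_15219556352, W_15219298304, W_14162591744, W_14162333696, W_14145818624, W_14145302528, W_13089112064, W_13072080896]⟩
theorem C_15236616192 : chkRec R_15236616192 = true := by decide +kernel

noncomputable def R_15236866113 : Rec := ⟨nat_lit 15236866113, nat_lit 3,
  [⟨V6_15235813440, [(nat_lit 56, nat_lit 15236866113), (nat_lit 75, nat_lit 16310607936), (nat_lit 94, nat_lit 16310603841), (nat_lit 33, nat_lit 16310345793), (nat_lit 22, nat_lit 17384345664), (nat_lit 20, nat_lit 17384087616), (nat_lit 41, nat_lit 17384083521), (nat_lit 105, nat_lit 17383825473), (nat_lit 103, nat_lit 18457825344), (nat_lit 39, nat_lit 18457567296), (nat_lit 19, nat_lit 18457563201), (nat_lit 83, nat_lit 18457305153), (nat_lit 22, nat_lit 19531305024), (nat_lit 67, nat_lit 19531046976), (nat_lit 48, nat_lit 19531042881), (nat_lit 115, nat_lit 19530784833),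 (nat_lit 39, nat_lit 20604784704), (nat_lit 47, nat_lit 20604526656), (nat_lit 10, nat_lit 20604522561), (nat_lit 75, nat_lit 21678264384)]⟩],
  [W_13088333888]⟩
theorem C_15236866113 : chkRec R_15236866113 = true := by decide +kernel

noncomputable def R_15236866176 : Rec := ⟨nat_lit 15236866176, nat_lit 14,
  [⟨V6_13088858112, [(nat_lit 77, nat_lit 15236866176), (nat_lit 101, nat_lit 16310607936), (nat_lit 89, nat_lit 16310345856), (nat_lit 115, nat_lit 17384349696), (nat_lit 66, nat_lit 17384087616), (nat_lit 17, nat_lit 17383825536), (nat_lit 76, nat_lit 18457829376), (nat_lit 74, nat_lit 18457567296), (nat_lit 28, nat_lit 19531309056)]⟩,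
   ⟨V6_13088333952, [(nat_lit 99, nat_lit 15236866176), (nat_lit 121, nat_lit 16310345856), (nat_lit 68, nat_lit 17383825536), (nat_lit 89, nat_lit 18457305216), (nat_lit 125, nat_lit 19530784896)]⟩],
  [W_14161813568, W_13088595968, W_13088333888, W_13088071808]⟩
theorem C_15236866176 : chkRec R_15236866176 = true := by decide +kernel

noncomputable def R_15236870208 : Rec := ⟨nat_lit 15236870208, nat_lit 20,
  [⟨V6_15235813440, [(nat_lit 93, nat_lit 15236870208), (nat_lit 33, nat_lit 16310607936), (nat_lit 95, nat_lit 16310349888), (nat_lit 10, nat_lit 17384345664), (nat_lit 126, nat_lit 17384087616), (nat_lit 63, nat_lit 17383829568), (nat_lit 102, nat_lit 18457825344), (nat_lit 71, nat_lit 18457567296), (nat_lit 82, nat_lit 18457309248), (nat_lit 47, nat_lit 19531305024), (nat_lit 87, nat_lit 19531046976), (nat_lit 96, nat_lit 19530788928), (nat_lit 51, nat_lit 20604784704), (nat_lit 73, nat_lit 20604526656), (nat_lit 1, nat_lit 21678264384)]⟩],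
  [W_15235297280, W_13088595968]⟩
theorem C_15236870208 : chkRec R_15236870208 = true := by decide +kernel

noncomputable def R_15236874240 : Rec := ⟨nat_lit 15236874240, nat_lit 25,
  [⟨V6_13089374208, [(nat_lit 45, nat_lit 15236874240), (nat_lit 40, nat_lit 16310611968), (nat_lit 79, nat_lit 17384349696), (nat_lit 26, nat_lit 18458087424), (nat_lit 32, nat_lit 19531825152)]⟩,
   ⟨V6_13088342016, [(nat_lit 46, nat_lit 15236874240), (nat_lit 28, nat_lit 16310353920), (nat_lit 106, nat_lit 17383833600), (nat_lit 8, nat_lit 18457313280), (nat_lit 94, nat_lit 19530792960)]⟩],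
  [W_15236071424, W_15235297280, W_13089112064]⟩
theorem C_15236874240 : chkRec R_15236874240 = true := by decide +kernel

noncomputable def R_15251554563 : Rec := ⟨nat_lit 15251554563, nat_lit 1,
  [⟨V6_14127481089, [(nat_lit 18, nat_lit 15251554563), (nat_lit 22, nat_lit 16325296386), (nat_lit 52, nat_lit 16308519171), (nat_lit 122, nat_lit 17399038209), (nat_lit 62, nat_lit 17382260994), (nat_lit 97, nat_lit 17365483779), (nat_lit 123, nat_lit 18456002817), (nat_lit 57, nat_lit 18439225602), (nat_lit 7, nat_lit 18422448387), (nat_lit 87, nat_lit 19512967425), (nat_lit 20, nat_lit 19496190210), (nat_lit 21, nat_lit 20569932033)]⟩],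
  [W_14144258240]⟩
theorem C_15251554563 : chkRec R_15251554563 = true := by decide +kernel

noncomputable def R_15251816643 : Rec := ⟨nat_lit 15251816643, nat_lit 2,
  [⟨V6_14177808576, [(nat_lit 99, nat_lit 15251816643), (nat_lit 47, nat_lit 16325558466), (nat_lit 24, nat_lit 16325554371), (nat_lit 56, nat_lit 16325296323), (nat_lit 115, nat_lit 17399300289), (nat_lit 59, nat_lit 17399296194), (nat_lit 82, nat_lit 17399038146), (nat_lit 63, nat_lit 17399034051), (nat_lit 29, nat_lit 18473042112), (nat_lit 45, nat_lit 18473038017), (nat_lit 62, nat_lit 18472779969), (nat_lit 76, nat_lit 18472775874), (nat_lit 105, nat_lit 19546779840), (nat_lit 8, nat_lit 19546521792), (nat_lit 71, nat_lit 19546517697), (nat_lit 43, nat_lit 20620259520)]⟩],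
  [W_15201222848]⟩
theorem C_15251816643 : chkRec R_15251816643 = true := by decide +kernel

noncomputable def R_15251816706 : Rec := ⟨nat_lit 15251816706, nat_lit 4,
  [⟨V6_14177812608, [(nat_lit 32, nat_lit 15251816706), (nat_lit 72, nat_lit 16325558529), (nat_lit 103, nat_lit 16325558466), (nat_lit 16, nat_lit 16325296386), (nat_lit 75, nat_lit 17399300352), (nat_lit 98, nat_lit 17399300289), (nat_lit 111, nat_lit 17399300226), (nat_lit 8, nat_lit 17399038209), (nat_lit 50, nat_lit 17399038146), (nat_lit 123, nat_lit 18473042112), (nat_lit 73, nat_lit 18473042049), (nat_lit 87, nat_lit 18472780032), (nat_lit 44, nat_lit 18472779969), (nat_lit 92, nat_lit 18472779906), (nat_lit 123, nat_lit 19546783872), (nat_lit 104, nat_lit 19546521792), (nat_lit 69, nat_lit 19546521729), (nat_lit 94, nat_lit 20620263552)]⟩],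
  [W_15201222848, W_15184445696, W_15167930624]⟩
theorem C_15251816706 : chkRec R_15251816706 = true := by decide +kernel

noncomputable def R_15251820738 : Rec := ⟨nat_lit 15251820738, nat_lit 4,
  [⟨V6_14161293504, [(nat_lit 125, nat_lit 15251820738), (nat_lit 59, nat_lit 16325562561), (nat_lit 7, nat_lit 16325558466), (nat_lit 28, nat_lit 16308785346), (nat_lit 14, nat_lit 17399304384), (nat_lit 68, nat_lit 17399300289), (nat_lit 19, nat_lit 17399296194), (nat_lit 99, nat_lit 17382527169), (nat_lit 96, nat_lit 17382523074), (nat_lit 11, nat_lit 18473042112), (nat_lit 111, nat_lit 18473038017), (nat_lit 19, nat_lit 18456268992), (nat_lit 27, nat_lit 18456264897), (nat_lit 16, nat_lit 18456260802), (nat_lit 11, nat_lit 19546779840), (nat_lit 5, nat_lit 19530006720), (nat_lit 81, nat_lit 19530002625), (nat_lit 95, nat_lit 20603744448)]⟩],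
  [W_15201484928]⟩
theorem C_15251820738 : chkRec R_15251820738 = true := by decide +kernel

noncomputable def R_15251820801 : Rec := ⟨nat_lit 15251820801, nat_lit 5,
  [⟨V6_14178074688, [(nat_lit 52, nat_lit 15251820801), (nat_lit 85, nat_lit 16325562624), (nat_lit 106, nat_lit 16325562561), (nat_lit 41, nat_lit 16325558529), (nat_lit 22, nat_lit 17399304384), (nat_lit 101, nat_lit 17399304321), (nat_lit 48, nat_lit 17399300352), (nat_lit 17, nat_lit 17399300289), (nat_lit 76, nat_lit 18473046144), (nat_lit 3, nat_lit 18473046081), (nat_lit 33, nat_lit 18473042112), (nat_lit 1, nat_lit 18473042049), (nat_lit 86, nat_lit 19546787904), (nat_lit 33, nat_lit 19546783872), (nat_lit 37, nat_lit 19546783809), (nat_lit 104, nat_lit 20620525632)]⟩],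
  [W_15218262080]⟩
theorem C_15251820801 : chkRec R_15251820801 = true := by decide +kernel

noncomputable def R_15251820864 : Rec := ⟨nat_lit 15251820864, nat_lit 1,
  [⟨V6_14178078720, [(nat_lit 68, nat_lit 15251820864), (nat_lit 17, nat_lit 16325562624), (nat_lit 106, nat_lit 17399304384), (nat_lit 66, nat_lit 18473046144), (nat_lit 68, nat_lit 19546787904), (nat_lit 50, nat_lit 20620529664)]⟩],
  [W_14110970048]⟩
theorem C_15251820864 : chkRec R_15251820864 = true := by decide +kernel

noncomputable def R_15252074691 : Rec := ⟨nat_lit 15252074691, nat_lit 1,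
  [⟨V6_15251288256, [(nat_lit 75, nat_lit 15252074691), (nat_lit 51, nat_lit 16325816514), (nat_lit 28, nat_lit 16325554371), (nat_lit 39, nat_lit 17399558337), (nat_lit 46, nat_lit 17399296194), (nat_lit 69, nat_lit 17399034051), (nat_lit 4, nat_lit 18473300160), (nat_lit 124, nat_lit 18473038017), (nat_lit 92, nat_lit 18472775874), (nat_lit 41, nat_lit 18472513731), (nat_lit 98, nat_lit 19546779840), (nat_lit 41, nat_lit 19546517697), (nat_lit 95, nat_lit 19546255554), (nat_lit 28, nat_lit 20620259520), (nat_lit 33, nat_lit 20619997377), (nat_lit 100, nat_lit 21693739200)]⟩],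
  [W_14128001216]⟩
theorem C_15252074691 : chkRec R_15252074691 = true := by decide +kernel

noncomputable def R_15252078786 : Rec := ⟨nat_lit 15252078786, nat_lit 12,
  [⟨V6_14161035456, [(nat_lit 92, nat_lit 15252078786), (nat_lit 65, nat_lit 16325820609), (nat_lit 50, nat_lit 16325558466), (nat_lit 13, nat_lit 16309043394), (nat_lit 90, nat_lit 17399562432), (nat_lit 101, nat_lit 17399300289), (nat_lit 49, nat_lit 17399038146), (nat_lit 45, nat_lit 17382785217), (nat_lit 73, nat_lit 17382523074), (nat_lit 36, nat_lit 18473042112), (nat_lit 114, nat_lit 18472779969), (nat_lit 66, nat_lit 18456527040), (nat_lit 18, nat_lit 18456264897), (nat_lit 27, nat_lit 18456002754), (nat_lit 66, nat_lit 19546521792), (nat_lit 126, nat_lit 19530006720), (nat_lit 125, nat_lit 19529744577), (nat_lit 118, nat_lit 20603486400)]⟩,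
   ⟨V6_14127481026, [(nat_lit 86, nat_lit 15252078786), (nat_lit 91, nat_lit 16325558466), (nat_lit 83, nat_lit 16309043394), (nat_lit 10, nat_lit 17399038146), (nat_lit 82, nat_lit 17382523074), (nat_lit 119, nat_lit 17366008002), (nat_lit 96, nat_lit 18456002754), (nat_lit 97, nat_lit 18439487682), (nat_lit 36, nat_lit 18422972610), (nat_lit 63, nat_lit 19512967362), (nat_lit 30, nat_lit 19496452290), (nat_lit 23, nat_lit 20569931970)]⟩],
  [W_15234773120, W_15184969856, W_14128001216]⟩
theorem C_15252078786 : chkRec R_15252078786 = true := by decide +kernel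

noncomputable def R_15252078849 : Rec := ⟨nat_lit 15252078849, nat_lit 15,
  [⟨V6_14178074688, [(nat_lit 15, nat_lit 15252078849), (nat_lit 52, nat_lit 16325820672), (nat_lit 19, nat_lit 16325820609), (nat_lit 13, nat_lit 16325558529), (nat_lit 68, nat_lit 17399562432), (nat_lit 50, nat_lit 17399562369), (nat_lit 65, nat_lit 17399300352), (nat_lit 17, nat_lit 17399300289), (nat_lit 81, nat_lit 18473304192), (nat_lit 75, nat_lit 18473304129), (nat_lit 6, nat_lit 18473042112), (nat_lit 114, nat_lit 18473042049), (nat_lit 35, nat_lit 19547045952), (nat_lit 49, nat_lit 19546783872), (nat_lit 38, nat_lit 19546783809), (nat_lit 50, nat_lit 20620525632)]⟩],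
  [W_15201747008, W_15184445696, W_15151415552]⟩
theorem C_15252078849 : chkRec R_15252078849 = true := by decide +kernel

noncomputable def R_15252082818 : Rec := ⟨nat_lit 15252082818, nat_lit 10,
  [⟨V6_15235031169, [(nat_lit 114, nat_lit 15252082818), (nat_lit 79, nat_lit 16325824641), (nat_lit 55, nat_lit 16325820546), (nat_lit 18, nat_lit 16325562498), (nat_lit 44, nat_lit 16309047426), (nat_lit 65, nat_lit 17399562369), (nat_lit 49, nat_lit 17399558274), (nat_lit 19, nat_lit 17399304321), (nat_lit 45, nat_lit 17399300226), (nat_lit 32, nat_lit 17382789249), (nat_lit 41, nat_lit 17382785154), (nat_lit 100, nat_lit 17382527106), (nat_lit 61, nat_lit 18473300097), (nat_lit 42, nat_lit 18473296002), (nat_lit 68, nat_lit 18473042049), (nat_lit 35, nat_lit 18473037954), (nat_lit 58, nat_lit 18456526977), (nat_lit 29, nat_lit 18456522882), (nat_lit 55, nat_lit 18456268929), (nat_lit 105, nat_lit 18456264834), (nat_lit 18, nat_lit 19547037825), (nat_lit 63, nat_lit 19546779777), (nat_lit 32, nat_lit 19546775682), (nat_lit 26, nat_lit 19530264705),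 (nat_lit 6, nat_lit 19530260610), (nat_lit 80, nat_lit 19530006657), (nat_lit 70, nat_lit 19530002562), (nat_lit 14, nat_lit 20620517505), (nat_lit 17, nat_lit 20604002433), (nat_lit 71, nat_lit 20603744385), (nat_lit 68, nat_lit 20603740290), (nat_lit 15, nat_lit 21677482113)]⟩],
  [W_15201484928, W_15184969856]⟩
theorem C_15252082818 : chkRec R_15252082818 = true := by decide +kernel

noncomputable def R_15252082881 : Rec := ⟨nat_lit 15252082881, nat_lit 25,
  [⟨V6_14178074688, [(nat_lit 88, nat_lit 15252082881), (nat_lit 5, nat_lit 16325824704), (nat_lit 57, nat_lit 16325824641), (nat_lit 85, nat_lit 16325820609), (nat_lit 122, nat_lit 16325562561), (nat_lit 120, nat_lit 17399566464), (nat_lit 120, nat_lit 17399566401), (nat_lit 113, nat_lit 17399562432), (nat_lit 8, nat_lit 17399562369), (nat_lit 71, nat_lit 17399304384), (nat_lit 30, nat_lit 17399304321), (nat_lit 84, nat_lit 17399300289), (nat_lit 16, nat_lit 18473308224), (nat_lit 3, nat_lit 18473304192), (nat_lit 116, nat_lit 18473304129), (nat_lit 124, nat_lit 18473046144), (nat_lit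 43, nat_lit 18473046081), (nat_lit 99, nat_lit 18473042112), (nat_lit 68, nat_lit 18473042049), (nat_lit 58, nat_lit 19547045952), (nat_lit 62, nat_lit 19546787904), (nat_lit 38, nat_lit 19546783872), (nat_lit 78, nat_lit 19546783809), (nat_lit 88, nat_lit 20620525632)]⟩,
   ⟨V6_14161293504, [(nat_lit 66, nat_lit 15252082881), (nat_lit 64, nat_lit 16325824704), (nat_lit 126, nat_lit 16325820609), (nat_lit 108, nat_lit 16325562561), (nat_lit 101, nat_lit 16309047489), (nat_lit 31, nat_lit 17399562432), (nat_lit 30, nat_lit 17399558337), (nat_lit 80, nat_lit 17399304384), (nat_lit 44, nat_lit 17399300289), (nat_lit 15, nat_lit 17382789312), (nat_lit 108, nat_lit 17382785217), (nat_lit 31, nat_lit 17382527169), (nat_lit 79, nat_lit 18473300160), (nat_lit 94, nat_lit 18473042112), (nat_lit 39, nat_lit 18473038017), (nat_lit 35, nat_lit 18456527040), (nat_lit 35, nat_lit 18456522945), (nat_lit 13, nat_lit 18456268992), (nat_lit 53, nat_lit 18456264897), (nat_lit 37, nat_lit 19546779840), (nat_lit 15, nat_lit 19530264768), (nat_lit 111, nat_lit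 19530006720), (nat_lit 18, nat_lit 19530002625), (nat_lit 83, nat_lit 20603744448)]⟩],
  [W_15201747008, W_15184973888, W_15151419584, W_14178070592, W_14128001216]⟩
theorem C_15252082881 : chkRec R_15252082881 = true := by decide +kernel

noncomputable def R_15252082944 : Rec := ⟨nat_lit 15252082944, nat_lit 28,
  [⟨V6_14178078720, [(nat_lit 29, nat_lit 15252082944), (nat_lit 77, nat_lit 16325824704), (nat_lit 68, nat_lit 16325562624), (nat_lit 116, nat_lit 17399566464), (nat_lit 18, nat_lit 17399304384), (nat_lit 105, nat_lit 18473308224), (nat_lit 20, nat_lit 18473046144), (nat_lit 107, nat_lit 19547049984), (nat_lit 23, nat_lit 19546787904), (nat_lit 119, nat_lit 20620529664)]⟩,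
   ⟨V6_14161563648, [(nat_lit 25, nat_lit 15252082944), (nat_lit 104, nat_lit 16325824704), (nat_lit 3, nat_lit 16309047552), (nat_lit 1, nat_lit 17399566464), (nat_lit 92, nat_lit 17382789312), (nat_lit 24, nat_lit 18473308224), (nat_lit 126, nat_lit 18456531072), (nat_lit 43, nat_lit 19547049984), (nat_lit 13, nat_lit 19530272832), (nat_lit 119, nat_lit 20604014592)]⟩],
  [W_15235039232, W_15218524160, W_15184969856]⟩
theorem C_15252082944 : chkRec R_15252082944 = true := by decide +kernel

noncomputable def R_15252086913 : Rec := ⟨nat_lit 15252086913, nat_lit 22,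
  [⟨V6_14128013376, [(nat_lit 91, nat_lit 15252086913), (nat_lit 44, nat_lit 16325828736), (nat_lit 94, nat_lit 16325828673), (nat_lit 75, nat_lit 16309051521), (nat_lit 82, nat_lit 17399570496), (nat_lit 113, nat_lit 17382793344), (nat_lit 17, nat_lit 17382793281), (nat_lit 123, nat_lit 17366016129), (nat_lit 81, nat_lit 18456535104), (nat_lit 96, nat_lit 18439757952), (nat_lit 120, nat_lit 18439757889), (nat_lit 10, nat_lit 18422980737), (nat_lit 97, nat_lit 19513499712), (nat_lit 3, nat_lit 19496722560), (nat_lit 94, nat_lit 19496722497), (nat_lit 63, nat_lit 20570464320)]⟩],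
  [W_15201747008, W_14178328640, W_14161555520]⟩
theorem C_15252086913 : chkRec R_15252086913 = true := by decide +kernel

noncomputable def R_15252086976 : Rec := ⟨nat_lit 15252086976, nat_lit 34,
  [⟨V6_15201755136, [(nat_lit 54, nat_lit 15252086976), (nat_lit 81, nat_lit 16325828736), (nat_lit 82, nat_lit 16309051584), (nat_lit 2, nat_lit 17399570496), (nat_lit 126, nat_lit 17382793344), (nat_lit 66, nat_lit 17366016192), (nat_lit 55, nat_lit 18473312256), (nat_lit 43, nat_lit 18456535104), (nat_lit 64, nat_lit 18439757952), (nat_lit 3, nat_lit 18422980800), (nat_lit 53, nat_lit 19530276864), (nat_lit 74, nat_lit 19513499712), (nat_lit 113, nat_lit 19496722560), (nat_lit 36, nat_lit 20587241472), (nat_lit 21, nat_lit 20570464320), (nat_lit 18, nat_lit 21644206080)]⟩,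
   ⟨V6_14178336768, [(nat_lit 22, nat_lit 15252086976), (nat_lit 114, nat_lit 16325828736), (nat_lit 84, nat_lit 16325824704), (nat_lit 104, nat_lit 17399570496), (nat_lit 111, nat_lit 17399566464), (nat_lit 95, nat_lit 17399562432), (nat_lit 119, nat_lit 18473312256), (nat_lit 91, nat_lit 18473308224), (nat_lit 25, nat_lit 18473304192), (nat_lit 69, nat_lit 19547049984), (nat_lit 60, nat_lit 19547045952), (nat_lit 76, nat_lit 20620787712)]⟩],
  [W_15235297280, W_15218524160, W_15151419584, W_15134646464, W_14178332672, W_14128001216]⟩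
theorem C_15252086976 : chkRec R_15252086976 = true := by decide +kernel

noncomputable def R_15252336834 : Rec := ⟨nat_lit 15252336834, nat_lit 8,
  [⟨V6_15251288256, [(nat_lit 31, nat_lit 15252336834), (nat_lit 6, nat_lit 16326078657), (nat_lit 51, nat_lit 16325816514), (nat_lit 92, nat_lit 17399820480), (nat_lit 27, nat_lit 17399558337), (nat_lit 125, nat_lit 17399296194), (nat_lit 35, nat_lit 18473300160), (nat_lit 26, nat_lit 18473038017), (nat_lit 91, nat_lit 18472775874), (nat_lit 98, nat_lit 19546779840), (nat_lit 104, nat_lit 19546517697), (nat_lit 123, nat_lit 19546255554), (nat_lit 125, nat_lit 20620259520), (nat_lit 92, nat_lit 20619997377), (nat_lit 30, nat_lit 21693739200)]⟩,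
   ⟨V6_15234511041, [(nat_lit 6, nat_lit 15252336834), (nat_lit 3, nat_lit 16326078657), (nat_lit 59, nat_lit 16325816514), (nat_lit 32, nat_lit 16309301442), (nat_lit 34, nat_lit 17399558337), (nat_lit 35, nat_lit 17399296194), (nat_lit 7, nat_lit 17383043265), (nat_lit 39, nat_lit 17382781122), (nat_lit 84, nat_lit 18473038017), (nat_lit 109, nat_lit 18472775874), (nat_lit 51, nat_lit 18456522945), (nat_lit 7, nat_lit 18456260802), (nat_lit 92, nat_lit 19546517697), (nat_lit 42, nat_lit 19546255554), (nat_lit 1, nat_lit 19530002625), (nat_lit 77, nat_lit 19529740482), (nat_lit 108, nat_lit 20619997377), (nat_lit 73, nat_lit 20603482305), (nat_lit 49, nat_lit 20603220162), (nat_lit 71, nat_lit 21676961985)]⟩,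
   ⟨V6_14177808576, [(nat_lit 46, nat_lit 15252336834), (nat_lit 90, nat_lit 16326078657), (nat_lit 116, nat_lit 16325816514), (nat_lit 40, nat_lit 17399820480), (nat_lit 16, nat_lit 17399558337), (nat_lit 66, nat_lit 17399296194), (nat_lit 58, nat_lit 18473300160), (nat_lit 29, nat_lit 18473038017), (nat_lit 32, nat_lit 18472775874), (nat_lit 6, nat_lit 19546779840), (nat_lit 122, nat_lit 19546517697), (nat_lit 40, nat_lit 20620259520)]⟩,
   ⟨V6_14177546370, [(nat_lit 18, nat_lit 15252336834), (nat_lit 90, nat_lit 16326078594), (nat_lit 9, nat_lit 16325816514), (nat_lit 10, nat_lit 17399558274), (nat_lit 26, nat_lit 17399296194), (nat_lit 103, nat_lit 18473037954), (nat_lit 116, nat_lit 18472775874), (nat_lit 46, nat_lit 19546517634), (nat_lit 78, nat_lit 19546255554), (nat_lit 66, nat_lit 20619997314)]⟩,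
   ⟨V6_14144254146, [(nat_lit 75, nat_lit 15252336834), (nat_lit 71, nat_lit 16325816514), (nat_lit 110, nat_lit 16309301442), (nat_lit 69, nat_lit 17399296194), (nat_lit 125, nat_lit 17382781122), (nat_lit 54, nat_lit 17366266050), (nat_lit 58, nat_lit 18472775874), (nat_lit 120, nat_lit 18456260802), (nat_lit 106, nat_lit 18439745730), (nat_lit 69, nat_lit 19529740482), (nat_lit 48, nat_lit 19513225410), (nat_lit 74, nat_lit 20586705090)]⟩],
  [W_15185227904, W_14111486144]⟩
theorem C_15252336834 : chkRec R_15252336834 = true := by decide +kernel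

noncomputable def R_15252340866 : Rec := ⟨nat_lit 15252340866, nat_lit 15,
  [⟨V6_15234777216, [(nat_lit 29, nat_lit 15252340866), (nat_lit 68, nat_lit 16326082689), (nat_lit 93, nat_lit 16325820546), (nat_lit 7, nat_lit 16309305474), (nat_lit 30, nat_lit 17399824512), (nat_lit 106, nat_lit 17399562369), (nat_lit 29, nat_lit 17399300226), (nat_lit 109, nat_lit 17383047297), (nat_lit 21, nat_lit 17382785154), (nat_lit 17, nat_lit 18473304192), (nat_lit 47, nat_lit 18473042049), (nat_lit 105, nat_lit 18472779906), (nat_lit 14, nat_lit 18456789120), (nat_lit 54, nat_lit 18456526977), (nat_lit 59, nat_lit 18456264834), (nat_lit 32, nat_lit 19546783872), (nat_lit 13, nat_lit 19546521729), (nat_lit 94, nat_lit 19530268800), (nat_lit 12, nat_lit 19530006657), (nat_lit 8, nat_lit 19529744514), (nat_lit 91, nat_lit 20620263552), (nat_lit 92, nat_lit 20603748480), (nat_lit 47, nat_lit 20603486337), (nat_lit 23, nat_lit 21677228160)]⟩],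
  [W_15202001024, W_15168454784, W_14128263296]⟩
theorem C_15252340866 : chkRec R_15252340866 = true := by decide +kernel

noncomputable def R_15252340929 : Rec := ⟨nat_lit 15252340929, nat_lit 35,
  [⟨V6_15218000064, [(nat_lit 100, nat_lit 15252340929), (nat_lit 45, nat_lit 16326082752), (nat_lit 76, nat_lit 16325820609), (nat_lit 100, nat_lit 16309305537), (nat_lit 94, nat_lit 17399562432), (nat_lit 112, nat_lit 17399300289), (nat_lit 90, nat_lit 17383047360), (nat_lit 67, nat_lit 17382785217), (nat_lit 67, nat_lit 17366270145), (nat_lit 62, nat_lit 18473042112), (nat_lit 37, nat_lit 18472779969), (nat_lit 12, nat_lit 18456527040), (nat_lit 55, nat_lit 18456264897), (nat_lit 24, nat_lit 18440011968), (nat_lit 8, nat_lit 18439749825), (nat_lit 94, nat_lit 19546521792), (nat_lit 11, nat_lit 19530006720), (nat_lit 96, nat_lit 19529744577), (nat_lit 12, nat_lit 19513491648), (nat_lit 86, nat_lit 19513229505), (nat_lit 45, nat_lit 20603486400), (nat_lit 125, nat_lit 20586971328), (nat_lit 30, nat_lit 20586709185), (nat_lit 89, nat_lit 21660451008)]⟩,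
   ⟨V6_15151677633, [(nat_lit 96, nat_lit 15252340929), (nat_lit 124, nat_lit 16309305537), (nat_lit 85, nat_lit 17366270145), (nat_lit 121, nat_lit 18423234753), (nat_lit 99, nat_lit 19480199361), (nat_lit 35, nat_lit 20537163969), (nat_lit 24, nat_lit 21594128577)]⟩,
   ⟨V6_14177808576, [(nat_lit 25, nat_lit 15252340929), (nat_lit 46, nat_lit 16326082752), (nat_lit 48, nat_lit 16326078657), (nat_lit 86, nat_lit 16325820609), (nat_lit 92, nat_lit 17399820480), (nat_lit 67, nat_lit 17399562432), (nat_lit 41, nat_lit 17399558337), (nat_lit 33, nat_lit 17399300289), (nat_lit 126, nat_lit 18473300160), (nat_lit 88, nat_lit 18473042112), (nat_lit 74, nat_lit 18473038017), (nat_lit 75, nat_lit 18472779969), (nat_lit 8, nat_lit 19546779840), (nat_lit 56, nat_lit 19546521792), (nat_lit 78, nat_lit 19546517697), (nat_lit 103, nat_lit 20620259520)]⟩,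
   ⟨V6_14161035456, [(nat_lit 57, nat_lit 15252340929), (nat_lit 111, nat_lit 16326082752), (nat_lit 33, nat_lit 16325820609), (nat_lit 46, nat_lit 16309305537), (nat_lit 8, nat_lit 17399562432), (nat_lit 27, nat_lit 17399300289), (nat_lit 119, nat_lit 17383047360), (nat_lit 62, nat_lit 17382785217), (nat_lit 5, nat_lit 18473042112), (nat_lit 71, nat_lit 18472779969), (nat_lit 57, nat_lit 18456527040), (nat_lit 7, nat_lit 18456264897), (nat_lit 78, nat_lit 19546521792), (nat_lit 12, nat_lit 19530006720), (nat_lit 125, nat_lit 19529744577), (nat_lit 60, nat_lit 20603486400)]⟩],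
  [W_15185231936, W_14178070592, W_14161555520, W_14145040448, W_14128263296]⟩
theorem C_15252340929 : chkRec R_15252340929 = true := by decide +kernel

noncomputable def R_15252340992 : Rec := ⟨nat_lit 15252340992, nat_lit 32,
  [⟨V6_15251816448, [(nat_lit 68, nat_lit 15252340992), (nat_lit 122, nat_lit 16326082752), (nat_lit 54, nat_lit 16325820672), (nat_lit 92, nat_lit 17399824512), (nat_lit 1, nat_lit 17399562432), (nat_lit 101, nat_lit 17399300352), (nat_lit 63, nat_lit 18473566272), (nat_lit 58, nat_lit 18473304192), (nat_lit 76, nat_lit 18473042112), (nat_lit 96, nat_lit 19547308032), (nat_lit 49, nat_lit 19547045952), (nat_lit 62, nat_lit 19546783872), (nat_lit 10, nat_lit 20620787712), (nat_lit 53, nat_lit 20620525632), (nat_lit 101, nat_lit 21694267392)]⟩,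
   ⟨V6_14177812608, [(nat_lit 117, nat_lit 15252340992), (nat_lit 117, nat_lit 16326082752), (nat_lit 59, nat_lit 16325820672), (nat_lit 26, nat_lit 17399824512), (nat_lit 35, nat_lit 17399562432), (nat_lit 95, nat_lit 17399300352), (nat_lit 8, nat_lit 18473304192), (nat_lit 35, nat_lit 18473042112), (nat_lit 123, nat_lit 18472780032), (nat_lit 93, nat_lit 19546783872), (nat_lit 122, nat_lit 19546521792), (nat_lit 33, nat_lit 20620263552)]⟩],
  [W_15202009088, W_15185231936, W_15151677632, W_14145044480]⟩
theorem C_15252340992 : chkRec R_15252340992 = true := by decide +kernel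

noncomputable def R_15252344961 : Rec := ⟨nat_lit 15252344961, nat_lit 42,
  [⟨V6_15235293312, [(nat_lit 94, nat_lit 15252344961), (nat_lit 3, nat_lit 16326086784), (nat_lit 105, nat_lit 16326082689), (nat_lit 111, nat_lit 16325824641), (nat_lit 120, nat_lit 16309309569), (nat_lit 71, nat_lit 17399824512), (nat_lit 53, nat_lit 17399820417), (nat_lit 110, nat_lit 17399566464), (nat_lit 115, nat_lit 17399562369), (nat_lit 59, nat_lit 17383051392), (nat_lit 59, nat_lit 17383047297), (nat_lit 44, nat_lit 17382789249), (nat_lit 27, nat_lit 18473562240), (nat_lit 118, nat_lit 18473558145), (nat_lit 103, nat_lit 18473304192), (nat_lit 47, nat_lit 18473300097), (nat_lit 81, nat_lit 18456789120), (nat_lit 53, nat_lit 18456785025), (nat_lit 30, nat_lit 18456531072), (nat_lit 118, nat_lit 18456526977), (nat_lit 90, nat_lit 19547299968), (nat_lit 45, nat_lit 19547041920), (nat_lit 110, nat_lit 19547037825), (nat_lit 54, nat_lit 19530526848), (nat_lit 46, nat_lit 19530522753), (nat_lit 91, nat_lit 19530268800), (nat_lit 3, nat_lit 19530264705), (nat_lit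 61, nat_lit 20620779648), (nat_lit 96, nat_lit 20604264576), (nat_lit 76, nat_lit 20604006528), (nat_lit 74, nat_lit 20604002433), (nat_lit 89, nat_lit 21677744256)]⟩,
   ⟨V6_15151681665, [(nat_lit 12, nat_lit 15252344961), (nat_lit 79, nat_lit 16309309569), (nat_lit 90, nat_lit 17366274177), (nat_lit 31, nat_lit 18423238785), (nat_lit 60, nat_lit 19480203393), (nat_lit 52, nat_lit 20537168001), (nat_lit 3, nat_lit 21594132609)]⟩],
  [W_15218262080, W_15201747008, W_15185231936, W_14178070592, W_14144782400]⟩
theorem C_15252344961 : chkRec R_15252344961 = true := by decide +kernel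

noncomputable def R_15252345024 : Rec := ⟨nat_lit 15252345024, nat_lit 67,
  [⟨V6_15251816448, [(nat_lit 94, nat_lit 15252345024), (nat_lit 73, nat_lit 16326086784), (nat_lit 118, nat_lit 16326082752), (nat_lit 68, nat_lit 16325824704), (nat_lit 103, nat_lit 17399828544), (nat_lit 96, nat_lit 17399824512), (nat_lit 94, nat_lit 17399566464), (nat_lit 119, nat_lit 17399562432), (nat_lit 99, nat_lit 17399304384), (nat_lit 13, nat_lit 18473570304), (nat_lit 6, nat_lit 18473566272), (nat_lit 45, nat_lit 18473308224), (nat_lit 66, nat_lit 18473304192), (nat_lit 101, nat_lit 18473046144), (nat_lit 104, nat_lit 18473042112), (nat_lit 117, nat_lit 19547308032), (nat_lit 72, nat_lit 19547049984), (nat_lit 31, nat_lit 19547045952), (nat_lit 81, nat_lit 19546787904), (nat_lit 27, nat_lit 19546783872), (nat_lit 94, nat_lit 20620787712), (nat_lit 18, nat_lit 20620529664), (nat_lit 49, nat_lit 20620525632), (nat_lit 116, nat_lit 21694267392)]⟩,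
   ⟨V6_15235043328, [(nat_lit 53, nat_lit 15252345024), (nat_lit 89, nat_lit 16326086784), (nat_lit 37, nat_lit 16325824704), (nat_lit 99, nat_lit 16309309632), (nat_lit 10, nat_lit 17399828544), (nat_lit 103, nat_lit 17399566464), (nat_lit 115, nat_lit 17399304384), (nat_lit 17, nat_lit 17383051392), (nat_lit 9, nat_lit 17382789312), (nat_lit 66, nat_lit 18473570304), (nat_lit 90, nat_lit 18473308224), (nat_lit 39, nat_lit 18473046144), (nat_lit 74, nat_lit 18456793152), (nat_lit 26, nat_lit 18456531072), (nat_lit 75, nat_lit 18456268992), (nat_lit 41, nat_lit 19547049984), (nat_lit 31, nat_lit 19546787904), (nat_lit 20, nat_lit 19530534912), (nat_lit 29, nat_lit 19530272832), (nat_lit 74, nat_lit 19530010752), (nat_lit 88, nat_lit 20620529664), (nat_lit 102, nat_lit 20604014592), (nat_lit 14, nat_lit 20603752512), (nat_lit 1, nat_lit 21677494272)]⟩,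
   ⟨V6_14161563648, [(nat_lit 69, nat_lit 15252345024), (nat_lit 122, nat_lit 16326086784), (nat_lit 27, nat_lit 16325824704), (nat_lit 110, nat_lit 16309309632), (nat_lit 9, nat_lit 17399828544), (nat_lit 110, nat_lit 17399566464), (nat_lit 102, nat_lit 17383051392), (nat_lit 75, nat_lit 17382789312), (nat_lit 122, nat_lit 18473570304), (nat_lit 36, nat_lit 18473308224), (nat_lit 55, nat_lit 18456793152), (nat_lit 27, nat_lit 18456531072), (nat_lit 20, nat_lit 19547049984), (nat_lit 81, nat_lit 19530534912), (nat_lit 87, nat_lit 19530272832), (nat_lit 82, nat_lit 20604014592)]⟩],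
  [W_15235297280, W_15202009088, W_15185231936, W_15151677632, W_14161817600, W_14145044480, W_14144516288]⟩
theorem C_15252345024 : chkRec R_15252345024 = true := by decide +kernel

noncomputable def R_15252348993 : Rec := ⟨nat_lit 15252348993, nat_lit 28,
  [⟨V6_14128013376, [(nat_lit 38, nat_lit 15252348993), (nat_lit 46, nat_lit 16326090816), (nat_lit 19, nat_lit 16325828673), (nat_lit 99, nat_lit 16309313601), (nat_lit 9, nat_lit 17399570496), (nat_lit 106, nat_lit 17383055424), (nat_lit 118, nat_lit 17382793281), (nat_lit 40, nat_lit 17366278209), (nat_lit 65, nat_lit 18456535104), (nat_lit 29, nat_lit 18440020032), (nat_lit 21, nat_lit 18439757889), (nat_lit 26, nat_lit 18423242817), (nat_lit 58, nat_lit 19513499712), (nat_lit 107, nat_lit 19496984640), (nat_lit 42, nat_lit 19496722497), (nat_lit 43, nat_lit 20570464320)]⟩],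
  [W_15201747008, W_14178586688, W_14161813568, W_14161555520]⟩
theorem C_15252348993 : chkRec R_15252348993 = true := by decide +kernel

noncomputable def R_15252349056 : Rec := ⟨nat_lit 15252349056, nat_lit 70,
  [⟨V6_15252332544, [(nat_lit 10, nat_lit 15252349056), (nat_lit 56, nat_lit 16326090816), (nat_lit 118, nat_lit 16326086784), (nat_lit 10, nat_lit 17399832576), (nat_lit 11, nat_lit 17399828544), (nat_lit 48, nat_lit 17399824512), (nat_lit 72, nat_lit 18473570304), (nat_lit 87, nat_lit 18473566272), (nat_lit 17, nat_lit 18473562240), (nat_lit 39, nat_lit 19547308032), (nat_lit 119, nat_lit 19547304000), (nat_lit 9, nat_lit 19547299968), (nat_lit 115, nat_lit 20621045760), (nat_lit 84, nat_lit 20621041728), (nat_lit 110, nat_lit 21694783488)]⟩,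
   ⟨V6_15201755136, [(nat_lit 38, nat_lit 15252349056), (nat_lit 9, nat_lit 16326090816), (nat_lit 49, nat_lit 16325828736), (nat_lit 7, nat_lit 16309313664), (nat_lit 51, nat_lit 17399832576), (nat_lit 86, nat_lit 17399570496), (nat_lit 119, nat_lit 17383055424), (nat_lit 81, nat_lit 17382793344), (nat_lit 43, nat_lit 17366278272), (nat_lit 63, nat_lit 18473312256), (nat_lit 86, nat_lit 18456797184), (nat_lit 96, nat_lit 18456535104), (nat_lit 24, nat_lit 18440020032), (nat_lit 38, nat_lit 18439757952), (nat_lit 72, nat_lit 18423242880), (nat_lit 16, nat_lit 19530276864), (nat_lit 108, nat_lit 19513761792), (nat_lit 63, nat_lit 19513499712), (nat_lit 87, nat_lit 19496984640), (nat_lit 84, nat_lit 19496722560), (nat_lit 34, nat_lit 20587241472), (nat_lit 82, nat_lit 20570726400), (nat_lit 97, nat_lit 20570464320), (nat_lit 2, nat_lit 21644206080)]⟩],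
  [W_15235297280, W_15202009088, W_14178328640, W_14161817600, W_14161559552, W_14145044480, W_14094721088]⟩
theorem C_15252349056 : chkRec R_15252349056 = true := by decide +kernel

noncomputable def R_15252353088 : Rec := ⟨nat_lit 15252353088, nat_lit 32,
  [⟨V6_15252332544, [(nat_lit 20, nat_lit 15252353088), (nat_lit 45, nat_lit 16326094848), (nat_lit 33, nat_lit 16326090816), (nat_lit 50, nat_lit 17399832576), (nat_lit 67, nat_lit 17399828544), (nat_lit 17, nat_lit 18473570304), (nat_lit 86, nat_lit 18473566272), (nat_lit 39, nat_lit 19547308032), (nat_lit 34, nat_lit 19547304000), (nat_lit 121, nat_lit 20621045760), (nat_lit 35, nat_lit 20621041728), (nat_lit 22, nat_lit 21694783488)]⟩,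
   ⟨V6_15252328512, [(nat_lit 31, nat_lit 15252353088), (nat_lit 108, nat_lit 16326090816), (nat_lit 70, nat_lit 17399828544), (nat_lit 119, nat_lit 18473566272), (nat_lit 60, nat_lit 19547304000), (nat_lit 3, nat_lit 20621041728), (nat_lit 67, nat_lit 21694779456)]⟩],
  [W_15151685696, W_14145044480, W_14128267328, W_14111494208, W_14094725120, W_14094721088]⟩
theorem C_15252353088 : chkRec R_15252353088 = true := by decide +kernel

noncomputable def R_15252598914 : Rec := ⟨nat_lit 15252598914, nat_lit 11,
  [⟨V6_14145298560, [(nat_lit 106, nat_lit 15252598914), (nat_lit 110, nat_lit 16326340737), (nat_lit 117, nat_lit 16326336642), (nat_lit 44, nat_lit 16309563522), (nat_lit 64, nat_lit 17400082560), (nat_lit 68, nat_lit 17400078465), (nat_lit 5, nat_lit 17383305345), (nat_lit 116, nat_lit 17383301250), (nat_lit 77, nat_lit 17366528130), (nat_lit 91, nat_lit 18473820288), (nat_lit 52, nat_lit 18457047168), (nat_lit 74, nat_lit 18457043073), (nat_lit 113, nat_lit 18440269953), (nat_lit 47, nat_lit 18440265858), (nat_lit 86, nat_lit 19530784896),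 (nat_lit 76, nat_lit 19514011776), (nat_lit 51, nat_lit 19514007681), (nat_lit 24, nat_lit 20587749504)]⟩],
  [W_15251546240, W_15202001024, W_14111748224]⟩
theorem C_15252598914 : chkRec R_15252598914 = true := by decide +kernel

noncomputable def R_15252598977 : Rec := ⟨nat_lit 15252598977, nat_lit 20,
  [⟨V6_15251288256, [(nat_lit 12, nat_lit 15252598977), (nat_lit 1, nat_lit 16326340800), (nat_lit 26, nat_lit 16326078657), (nat_lit 86, nat_lit 17399820480), (nat_lit 75, nat_lit 17399558337), (nat_lit 10, nat_lit 18473300160), (nat_lit 7, nat_lit 18473038017), (nat_lit 16, nat_lit 19546779840), (nat_lit 81, nat_lit 19546517697), (nat_lit 62, nat_lit 20620259520), (nat_lit 6, nat_lit 20619997377), (nat_lit 116, nat_lit 21693739200)]⟩,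
   ⟨V6_15168712896, [(nat_lit 88, nat_lit 15252598977), (nat_lit 63, nat_lit 16326340800), (nat_lit 27, nat_lit 16309563585), (nat_lit 30, nat_lit 17383305408), (nat_lit 33, nat_lit 17366528193), (nat_lit 106, nat_lit 18440270016), (nat_lit 8, nat_lit 18423492801), (nat_lit 22, nat_lit 19497234624), (nat_lit 42, nat_lit 19480457409), (nat_lit 13, nat_lit 20554199232), (nat_lit 43, nat_lit 20537422017), (nat_lit 20, nat_lit 21611163840)]⟩,
   ⟨V6_14177808576, [(nat_lit 112, nat_lit 15252598977), (nat_lit 115, nat_lit 16326340800), (nat_lit 9, nat_lit 16326078657), (nat_lit 65, nat_lit 17399820480), (nat_lit 115, nat_lit 17399558337), (nat_lit 71, nat_lit 18473300160), (nat_lit 42, nat_lit 18473038017), (nat_lit 58, nat_lit 19546779840), (nat_lit 117, nat_lit 19546517697), (nat_lit 30, nat_lit 20620259520)]⟩,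
   ⟨V6_14161293504, [(nat_lit 83, nat_lit 15252598977), (nat_lit 25, nat_lit 16326340800), (nat_lit 80, nat_lit 16326078657), (nat_lit 71, nat_lit 16309563585), (nat_lit 4, nat_lit 17399820480), (nat_lit 60, nat_lit 17399558337), (nat_lit 29, nat_lit 17383305408), (nat_lit 47, nat_lit 17383043265), (nat_lit 84, nat_lit 18473300160), (nat_lit 51, nat_lit 18473038017), (nat_lit 119, nat_lit 18456785088), (nat_lit 34, nat_lit 18456522945), (nat_lit 81, nat_lit 19546779840), (nat_lit 19, nat_lit 19530264768), (nat_lit 60, nat_lit 19530002625), (nat_lit 86, nat_lit 20603744448)]⟩],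
  [W_15251550272, W_15185489984, W_14177546432, W_14161555520]⟩
theorem C_15252598977 : chkRec R_15252598977 = true := by decide +kernel

noncomputable def R_15252603009 : Rec := ⟨nat_lit 15252603009, nat_lit 51,
  [⟨V6_15234777216, [(nat_lit 37, nat_lit 15252603009), (nat_lit 63, nat_lit 16326344832), (nat_lit 124, nat_lit 16326082689), (nat_lit 11, nat_lit 16309567617), (nat_lit 56, nat_lit 17399824512), (nat_lit 22, nat_lit 17399562369), (nat_lit 10, nat_lit 17383309440), (nat_lit 49, nat_lit 17383047297), (nat_lit 16, nat_lit 18473304192), (nat_lit 98, nat_lit 18473042049), (nat_lit 118, nat_lit 18456789120), (nat_lit 23, nat_lit 18456526977), (nat_lit 125, nat_lit 19546783872), (nat_lit 123, nat_lit 19546521729), (nat_lit 45, nat_lit 19530268800), (nat_lit 13, nat_lit 19530006657), (nat_lit 53, nat_lit 20620263552), (nat_lit 85, nat_lit 20603748480), (nat_lit 94, nat_lit 20603486337), (nat_lit 49, nat_lit 21677228160)]⟩,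
   ⟨V6_14177812608, [(nat_lit 105, nat_lit 15252603009), (nat_lit 84, nat_lit 16326344832), (nat_lit 64, nat_lit 16326082689), (nat_lit 53, nat_lit 17399824512), (nat_lit 84, nat_lit 17399562369), (nat_lit 11, nat_lit 18473304192), (nat_lit 87, nat_lit 18473042049), (nat_lit 102, nat_lit 19546783872), (nat_lit 70, nat_lit 19546521729), (nat_lit 44, nat_lit 20620263552)]⟩,
   ⟨V6_14145298560, [(nat_lit 84, nat_lit 15252603009), (nat_lit 8, nat_lit 16326344832), (nat_lit 108, nat_lit 16326340737), (nat_lit 74, nat_lit 16309567617), (nat_lit 47, nat_lit 17400082560), (nat_lit 110, nat_lit 17400078465), (nat_lit 2, nat_lit 17383309440), (nat_lit 66, nat_lit 17383305345), (nat_lit 83, nat_lit 17366532225), (nat_lit 15, nat_lit 18473820288), (nat_lit 1, nat_lit 18457047168), (nat_lit 97, nat_lit 18457043073), (nat_lit 81, nat_lit 18440274048), (nat_lit 21, nat_lit 18440269953), (nat_lit 38, nat_lit 19530784896), (nat_lit 64, nat_lit 19514011776), (nat_lit 38, nat_lit 19514007681), (nat_lit 107, nat_lit 20587749504)]⟩],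
  [W_15201747008, W_15185489984, W_15185231936, W_15168716864, W_14178328640, W_14178070592, W_14128525376]⟩
theorem C_15252603009 : chkRec R_15252603009 = true := by decide +kernel

noncomputable def R_15252603072 : Rec := ⟨nat_lit 15252603072, nat_lit 73,
  [⟨V6_15251816448, [(nat_lit 5, nat_lit 15252603072), (nat_lit 60, nat_lit 16326344832), (nat_lit 114, nat_lit 16326082752), (nat_lit 17, nat_lit 17400086592), (nat_lit 63, nat_lit 17399824512), (nat_lit 62, nat_lit 17399562432), (nat_lit 125, nat_lit 18473828352), (nat_lit 52, nat_lit 18473566272), (nat_lit 70, nat_lit 18473304192), (nat_lit 70, nat_lit 18473042112), (nat_lit 8, nat_lit 19547308032), (nat_lit 19, nat_lit 19547045952), (nat_lit 125, nat_lit 19546783872), (nat_lit 85, nat_lit 20620787712), (nat_lit 66, nat_lit 20620525632), (nat_lit 80, nat_lit 21694267392)]⟩,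
   ⟨V6_15234777216, [(nat_lit 24, nat_lit 15252603072), (nat_lit 86, nat_lit 16326344832), (nat_lit 80, nat_lit 16326082752), (nat_lit 82, nat_lit 16309567680), (nat_lit 21, nat_lit 17399824512), (nat_lit 19, nat_lit 17399562432), (nat_lit 47, nat_lit 17383309440), (nat_lit 9, nat_lit 17383047360), (nat_lit 108, nat_lit 18473304192), (nat_lit 11, nat_lit 18473042112), (nat_lit 101, nat_lit 18456789120), (nat_lit 38, nat_lit 18456527040), (nat_lit 15, nat_lit 19546783872), (nat_lit 46, nat_lit 19546521792), (nat_lit 54, nat_lit 19530268800), (nat_lit 105, nat_lit 19530006720), (nat_lit 90, nat_lit 20620263552), (nat_lit 56, nat_lit 20603748480), (nat_lit 91, nat_lit 20603486400), (nat_lit 10, nat_lit 21677228160)]⟩,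
   ⟨V6_14177812608, [(nat_lit 47, nat_lit 15252603072), (nat_lit 30, nat_lit 16326344832), (nat_lit 101, nat_lit 16326082752), (nat_lit 4, nat_lit 17399824512), (nat_lit 11, nat_lit 17399562432), (nat_lit 106, nat_lit 18473304192), (nat_lit 69, nat_lit 18473042112), (nat_lit 124, nat_lit 19546783872), (nat_lit 113, nat_lit 19546521792), (nat_lit 22, nat_lit 20620263552)]⟩,
   ⟨V6_14177808576, [(nat_lit 97, nat_lit 15252603072), (nat_lit 114, nat_lit 16326340800), (nat_lit 112, nat_lit 16326082752), (nat_lit 107, nat_lit 17399820480), (nat_lit 86, nat_lit 17399562432), (nat_lit 32, nat_lit 18473300160), (nat_lit 76, nat_lit 18473042112), (nat_lit 20, nat_lit 19546779840), (nat_lit 8, nat_lit 19546521792), (nat_lit 34, nat_lit 20620259520)]⟩,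
   ⟨V6_14161035456, [(nat_lit 110, nat_lit 15252603072), (nat_lit 77, nat_lit 16326082752), (nat_lit 80, nat_lit 16309567680), (nat_lit 124, nat_lit 17399562432), (nat_lit 83, nat_lit 17383047360), (nat_lit 114, nat_lit 18473042112), (nat_lit 97, nat_lit 18456527040), (nat_lit 120, nat_lit 19546521792), (nat_lit 3, nat_lit 19530006720), (nat_lit 55, nat_lit 20603486400)]⟩],
  [W_15202009088, W_15185494016, W_15185489984, W_15168716864, W_15168712832, W_14178332672, W_14161817600, W_14145302528]⟩
theorem C_15252603072 : chkRec R_15252603072 = true := by decide +kernel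

noncomputable def R_15252607041 : Rec := ⟨nat_lit 15252607041, nat_lit 40,
  [⟨V6_15252328512, [(nat_lit 74, nat_lit 15252607041), (nat_lit 118, nat_lit 16326348864), (nat_lit 54, nat_lit 16326344769), (nat_lit 98, nat_lit 16326086721), (nat_lit 26, nat_lit 17400086592), (nat_lit 86, nat_lit 17400082497), (nat_lit 46, nat_lit 17399828544), (nat_lit 55, nat_lit 17399824449), (nat_lit 118, nat_lit 18473824320), (nat_lit 123, nat_lit 18473820225), (nat_lit 21, nat_lit 18473566272), (nat_lit 64, nat_lit 18473562177), (nat_lit 105, nat_lit 19547562048), (nat_lit 119, nat_lit 19547557953), (nat_lit 37, nat_lit 19547304000), (nat_lit 42, nat_lit 19547299905), (nat_lit 14, nat_lit 20621299776), (nat_lit 64, nat_lit 20621041728), (nat_lit 54, nat_lit 20621037633), (nat_lit 20, nat_lit 21694779456)]⟩,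
   ⟨V6_15235813440, [(nat_lit 105, nat_lit 15252607041), (nat_lit 65, nat_lit 16326348864), (nat_lit 13, nat_lit 16326344769), (nat_lit 7, nat_lit 16309571649), (nat_lit 71, nat_lit 17400086592), (nat_lit 99, nat_lit 17400082497), (nat_lit 51, nat_lit 17383313472), (nat_lit 9, nat_lit 17383309377), (nat_lit 54, nat_lit 18473824320), (nat_lit 67, nat_lit 18473820225), (nat_lit 69, nat_lit 18457051200), (nat_lit 42, nat_lit 18457047105), (nat_lit 69, nat_lit 19547562048), (nat_lit 115, nat_lit 19547557953), (nat_lit 92, nat_lit 19530788928), (nat_lit 48, nat_lit 19530784833), (nat_lit 6, nat_lit 20621299776), (nat_lit 42, nat_lit 20604526656), (nat_lit 104, nat_lit 20604522561), (nat_lit 23, nat_lit 21678264384)]⟩,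
   ⟨V6_14178848832, [(nat_lit 23, nat_lit 15252607041), (nat_lit 109, nat_lit 16326348864), (nat_lit 72, nat_lit 16326344769), (nat_lit 120, nat_lit 17400086592), (nat_lit 103, nat_lit 17400082497), (nat_lit 43, nat_lit 18473824320), (nat_lit 102, nat_lit 18473820225), (nat_lit 76, nat_lit 19547562048), (nat_lit 2, nat_lit 19547557953), (nat_lit 110, nat_lit 20621299776)]⟩],
  [W_15201488960, W_15184973888, W_15168716864, W_14161297472, W_14144524352, W_14128267328, W_14111494208, W_14094979136]⟩
theorem C_15252607041 : chkRec R_15252607041 = true := by decide +kernel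

noncomputable def R_15252607104 : Rec := ⟨nat_lit 15252607104, nat_lit 105,
  [⟨V6_15252332544, [(nat_lit 116, nat_lit 15252607104), (nat_lit 12, nat_lit 16326348864), (nat_lit 88, nat_lit 16326344832), (nat_lit 99, nat_lit 16326086784), (nat_lit 93, nat_lit 17400090624), (nat_lit 50, nat_lit 17400086592), (nat_lit 12, nat_lit 17400082560), (nat_lit 108, nat_lit 17399828544), (nat_lit 95, nat_lit 17399824512), (nat_lit 20, nat_lit 18473828352), (nat_lit 12, nat_lit 18473824320), (nat_lit 22, nat_lit 18473820288), (nat_lit 68, nat_lit 18473570304), (nat_lit 99, nat_lit 18473566272), (nat_lit 7, nat_lit 18473562240), (nat_lit 61, nat_lit 19547566080), (nat_lit 114, nat_lit 19547562048), (nat_lit 42, nat_lit 19547308032), (nat_lit 120, nat_lit 19547304000), (nat_lit 64, nat_lit 19547299968), (nat_lit 9, nat_lit 20621303808), (nat_lit 62, nat_lit 20621045760), (nat_lit 84, nat_lit 20621041728), (nat_lit 52, nat_lit 21694783488)]⟩,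
   ⟨V6_15235817472, [(nat_lit 29, nat_lit 15252607104), (nat_lit 125, nat_lit 16326348864), (nat_lit 1, nat_lit 16326344832), (nat_lit 114, nat_lit 16309571712), (nat_lit 25, nat_lit 17400090624), (nat_lit 117, nat_lit 17400086592), (nat_lit 108, nat_lit 17400082560), (nat_lit 59, nat_lit 17383313472), (nat_lit 26, nat_lit 17383309440), (nat_lit 72, nat_lit 18473828352), (nat_lit 55, nat_lit 18473824320), (nat_lit 40, nat_lit 18473820288), (nat_lit 102, nat_lit 18457055232), (nat_lit 35, nat_lit 18457051200), (nat_lit 12, nat_lit 18457047168), (nat_lit 111, nat_lit 19547566080), (nat_lit 35, nat_lit 19547562048), (nat_lit 112, nat_lit 19530792960), (nat_lit 89, nat_lit 19530788928), (nat_lit 40, nat_lit 19530784896), (nat_lit 104, nat_lit 20621303808), (nat_lit 21, nat_lit 20604530688), (nat_lit 71, nat_lit 20604526656), (nat_lit 105, nat_lit 21678268416)]⟩,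
   ⟨V6_14178078720, [(nat_lit 22, nat_lit 15252607104), (nat_lit 99, nat_lit 16326348864), (nat_lit 84, nat_lit 16326086784), (nat_lit 13, nat_lit 17400090624), (nat_lit 3, nat_lit 17399828544), (nat_lit 66, nat_lit 17399566464), (nat_lit 88, nat_lit 18473570304), (nat_lit 54, nat_lit 18473308224), (nat_lit 103, nat_lit 18473046144), (nat_lit 67, nat_lit 19547049984), (nat_lit 88, nat_lit 19546787904), (nat_lit 46, nat_lit 20620529664)]⟩],
  [W_15218524160, W_15202009088, W_15201747008, W_15185494016, W_15185231936, W_15184973888, W_15184969856, W_15168720896, W_15168716864, W_15168712832, W_15168454784, W_14094979136]⟩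
theorem C_15252607104 : chkRec R_15252607104 = true := by decide +kernel

noncomputable def R_15252611136 : Rec := ⟨nat_lit 15252611136, nat_lit 93,
  [⟨V6_15252332544, [(nat_lit 73, nat_lit 15252611136), (nat_lit 1, nat_lit 16326352896), (nat_lit 27, nat_lit 16326348864), (nat_lit 68, nat_lit 16326090816), (nat_lit 14, nat_lit 17400090624), (nat_lit 66, nat_lit 17400086592), (nat_lit 40, nat_lit 17399832576), (nat_lit 57, nat_lit 17399828544), (nat_lit 38, nat_lit 18473828352), (nat_lit 68, nat_lit 18473824320), (nat_lit 122, nat_lit 18473570304), (nat_lit 95, nat_lit 18473566272), (nat_lit 12, nat_lit 19547566080), (nat_lit 20, nat_lit 19547562048), (nat_lit 46, nat_lit 19547308032), (nat_lit 67, nat_lit 19547304000), (nat_lit 60, nat_lit 20621303808), (nat_lit 92, nat_lit 20621045760), (nat_lit 16, nat_lit 20621041728), (nat_lit 74, nat_lit 21694783488)]⟩,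
   ⟨V6_15252328512, [(nat_lit 36, nat_lit 15252611136), (nat_lit 17, nat_lit 16326348864), (nat_lit 84, nat_lit 16326090816), (nat_lit 123, nat_lit 17400086592), (nat_lit 124, nat_lit 17399828544), (nat_lit 32, nat_lit 18473824320), (nat_lit 65, nat_lit 18473566272), (nat_lit 44, nat_lit 19547562048), (nat_lit 51, nat_lit 19547304000), (nat_lit 2, nat_lit 20621299776), (nat_lit 5, nat_lit 20621041728), (nat_lit 22, nat_lit 21694779456)]⟩,
   ⟨V6_15235813440, [(nat_lit 59, nat_lit 15252611136), (nat_lit 103, nat_lit 16326348864), (nat_lit 47, nat_lit 16309575744), (nat_lit 77, nat_lit 17400086592), (nat_lit 76, nat_lit 17383313472), (nat_lit 62, nat_lit 18473824320), (nat_lit 3, nat_lit 18457051200), (nat_lit 116, nat_lit 19547562048), (nat_lit 36, nat_lit 19530788928), (nat_lit 19, nat_lit 20621299776), (nat_lit 90, nat_lit 20604526656), (nat_lit 117, nat_lit 21678264384)]⟩,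
   ⟨V6_15168724992, [(nat_lit 71, nat_lit 15252611136), (nat_lit 87, nat_lit 16326352896), (nat_lit 58, nat_lit 16309575744), (nat_lit 34, nat_lit 17383317504), (nat_lit 61, nat_lit 17366540352), (nat_lit 33, nat_lit 18440282112), (nat_lit 51, nat_lit 18423504960), (nat_lit 73, nat_lit 19497246720), (nat_lit 59, nat_lit 19480469568), (nat_lit 13, nat_lit 20554211328), (nat_lit 81, nat_lit 20537434176), (nat_lit 126, nat_lit 21611175936)]⟩],
  [W_15218524160, W_15202009088, W_15201747008, W_14161559552, W_14145302528, W_14145044480, W_14128013312, W_14111236160, W_14094983168]⟩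
theorem C_15252611136 : chkRec R_15252611136 = true := by decide +kernel

noncomputable def R_15252615168 : Rec := ⟨nat_lit 15252615168, nat_lit 41,
  [⟨V6_15252332544, [(nat_lit 80, nat_lit 15252615168), (nat_lit 26, nat_lit 16326352896), (nat_lit 118, nat_lit 16326094848), (nat_lit 67, nat_lit 17400090624), (nat_lit 85, nat_lit 17399832576), (nat_lit 22, nat_lit 18473828352), (nat_lit 26, nat_lit 18473570304), (nat_lit 39, nat_lit 19547566080), (nat_lit 57, nat_lit 19547308032), (nat_lit 104, nat_lit 20621303808), (nat_lit 80, nat_lit 20621045760), (nat_lit 38, nat_lit 21694783488)]⟩,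
   ⟨V6_14094987264, [(nat_lit 116, nat_lit 15252615168), (nat_lit 103, nat_lit 16309579776), (nat_lit 24, nat_lit 17366544384), (nat_lit 11, nat_lit 18423508992), (nat_lit 81, nat_lit 19480473600), (nat_lit 61, nat_lit 20537438208)]⟩],
  [W_15202009088, W_14145302528, W_14145044480, W_14094725120]⟩
theorem C_15252615168 : chkRec R_15252615168 = true := by decide +kernel

noncomputable def R_15252856962 : Rec := ⟨nat_lit 15252856962, nat_lit 3,
  [⟨V6_14112006273, [(nat_lit 118, nat_lit 15252856962), (nat_lit 99, nat_lit 16326598785), (nat_lit 89, nat_lit 16309821570), (nat_lit 40, nat_lit 17383563393), (nat_lit 26, nat_lit 17366786178), (nat_lit 124, nat_lit 18440528001), (nat_lit 65, nat_lit 18423750786), (nat_lit 14, nat_lit 19497492609), (nat_lit 50, nat_lit 19480715394), (nat_lit 9, nat_lit 20554457217)]⟩],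
  [W_15202001024]⟩
theorem C_15252856962 : chkRec R_15252856962 = true := by decide +kernel

noncomputable def R_15252861057 : Rec := ⟨nat_lit 15252861057, nat_lit 33,
  [⟨V6_14128787520, [(nat_lit 2, nat_lit 15252861057), (nat_lit 54, nat_lit 16326602880), (nat_lit 23, nat_lit 16326602817), (nat_lit 17, nat_lit 16309825665), (nat_lit 66, nat_lit 17400344640), (nat_lit 29, nat_lit 17383567488), (nat_lit 119, nat_lit 17383567425), (nat_lit 99, nat_lit 17366790273), (nat_lit 59, nat_lit 18457309248), (nat_lit 37, nat_lit 18440532096), (nat_lit 78, nat_lit 18440532033), (nat_lit 70, nat_lit 18423754881), (nat_lit 44, nat_lit 19514273856), (nat_lit 21, nat_lit 19497496704), (nat_lit 23, nat_lit 19497496641), (nat_lit 60, nat_lit 20571238464)]⟩],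
  [W_15251808320, W_15251550272, W_15251546240, W_15202001024, W_15185489984, W_15185485952, W_14178070592, W_14177808512]⟩
theorem C_15252861057 : chkRec R_15252861057 = true := by decide +kernel

noncomputable def R_15252861120 : Rec := ⟨nat_lit 15252861120, nat_lit 37,
  [⟨V6_15202529280, [(nat_lit 48, nat_lit 15252861120), (nat_lit 72, nat_lit 16326602880), (nat_lit 87, nat_lit 16309825728), (nat_lit 30, nat_lit 17400344640), (nat_lit 112, nat_lit 17383567488), (nat_lit 101, nat_lit 17366790336), (nat_lit 63, nat_lit 18474086400), (nat_lit 10, nat_lit 18457309248), (nat_lit 71, nat_lit 18440532096), (nat_lit 45, nat_lit 18423754944), (nat_lit 33, nat_lit 19531051008), (nat_lit 94, nat_lit 19514273856), (nat_lit 44, nat_lit 19497496704), (nat_lit 32, nat_lit 20588015616), (nat_lit 61, nat_lit 20571238464), (nat_lit 16, nat_lit 21644980224)]⟩,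
   ⟨V6_14177808576, [(nat_lit 65, nat_lit 15252861120), (nat_lit 42, nat_lit 16326340800), (nat_lit 104, nat_lit 17399820480), (nat_lit 120, nat_lit 18473300160), (nat_lit 101, nat_lit 19546779840), (nat_lit 89, nat_lit 20620259520)]⟩],
  [W_15251812352, W_15235297280, W_14178332672, W_14178070592, W_14177808512, W_14177546432, W_14111486144]⟩
theorem C_15252861120 : chkRec R_15252861120 = true := by decide +kernel

noncomputable def R_15252865089 : Rec := ⟨nat_lit 15252865089, nat_lit 38,
  [⟨V6_15252328512, [(nat_lit 109, nat_lit 15252865089), (nat_lit 96, nat_lit 16326606912), (nat_lit 51, nat_lit 16326602817), (nat_lit 40, nat_lit 16326344769), (nat_lit 13, nat_lit 17400344640), (nat_lit 21, nat_lit 17400340545), (nat_lit 53, nat_lit 17400086592), (nat_lit 83, nat_lit 17400082497), (nat_lit 107, nat_lit 17399824449), (nat_lit 59, nat_lit 18474082368), (nat_lit 49, nat_lit 18474078273), (nat_lit 16, nat_lit 18473824320), (nat_lit 78, nat_lit 18473820225), (nat_lit 13, nat_lit 18473566272), (nat_lit 97, nat_lit 18473562177), (nat_lit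 12, nat_lit 19547820096), (nat_lit 9, nat_lit 19547562048), (nat_lit 72, nat_lit 19547557953), (nat_lit 60, nat_lit 19547304000), (nat_lit 58, nat_lit 19547299905), (nat_lit 24, nat_lit 20621299776), (nat_lit 71, nat_lit 20621041728), (nat_lit 40, nat_lit 20621037633), (nat_lit 31, nat_lit 21694779456)]⟩,
   ⟨V6_15185748033, [(nat_lit 78, nat_lit 15252865089), (nat_lit 81, nat_lit 16326602817), (nat_lit 89, nat_lit 16309829697), (nat_lit 51, nat_lit 17400340545), (nat_lit 22, nat_lit 17383567425), (nat_lit 64, nat_lit 17366794305), (nat_lit 40, nat_lit 18457305153), (nat_lit 97, nat_lit 18440532033), (nat_lit 58, nat_lit 18423758913), (nat_lit 72, nat_lit 19514269761), (nat_lit 96, nat_lit 19497496641), (nat_lit 14, nat_lit 19480723521), (nat_lit 79, nat_lit 20571234369), (nat_lit 25, nat_lit 20554461249), (nat_lit 31, nat_lit 21628198977)]⟩,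
   ⟨V6_14178848832, [(nat_lit 71, nat_lit 15252865089), (nat_lit 96, nat_lit 16326606912), (nat_lit 17, nat_lit 16326602817), (nat_lit 11, nat_lit 16326344769), (nat_lit 15, nat_lit 17400344640), (nat_lit 84, nat_lit 17400340545), (nat_lit 59, nat_lit 17400086592), (nat_lit 30, nat_lit 17400082497), (nat_lit 94, nat_lit 18474082368), (nat_lit 109, nat_lit 18474078273), (nat_lit 107, nat_lit 18473824320), (nat_lit 43, nat_lit 18473820225), (nat_lit 93, nat_lit 19547820096), (nat_lit 119, nat_lit 19547562048), (nat_lit 109, nat_lit 19547557953), (nat_lit 116, nat_lit 20621299776)]⟩],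
  [W_15234777152, W_15218262080, W_15201747008, W_14178070592, W_14161297472, W_14144782400]⟩
theorem C_15252865089 : chkRec R_15252865089 = true := by decide +kernel

noncomputable def R_15252865152 : Rec := ⟨nat_lit 15252865152, nat_lit 95,
  [⟨V6_15252332544, [(nat_lit 7, nat_lit 15252865152), (nat_lit 32, nat_lit 16326606912), (nat_lit 42, nat_lit 16326602880), (nat_lit 60, nat_lit 16326344832), (nat_lit 25, nat_lit 17400348672), (nat_lit 89, nat_lit 17400344640), (nat_lit 99, nat_lit 17400340608), (nat_lit 60, nat_lit 17400086592), (nat_lit 80, nat_lit 17400082560), (nat_lit 38, nat_lit 17399824512), (nat_lit 53, nat_lit 18474086400), (nat_lit 62, nat_lit 18474082368), (nat_lit 107, nat_lit 18473828352), (nat_lit 90, nat_lit 18473824320), (nat_lit 2, nat_lit 18473820288), (nat_lit 89, nat_lit 18473566272), (nat_lit 81, nat_lit 18473562240), (nat_lit 74, nat_lit 19547824128), (nat_lit 95, nat_lit 19547566080), (nat_lit 3, nat_lit 19547562048), (nat_lit 16, nat_lit 19547308032), (nat_lit 20, nat_lit 19547304000), (nat_lit 83, nat_lit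 19547299968), (nat_lit 75, nat_lit 20621303808), (nat_lit 69, nat_lit 20621045760), (nat_lit 66, nat_lit 20621041728), (nat_lit 99, nat_lit 21694783488)]⟩,
   ⟨V6_15235817472, [(nat_lit 37, nat_lit 15252865152), (nat_lit 111, nat_lit 16326606912), (nat_lit 56, nat_lit 16326602880), (nat_lit 18, nat_lit 16326344832), (nat_lit 89, nat_lit 16309829760), (nat_lit 98, nat_lit 17400348672), (nat_lit 62, nat_lit 17400344640), (nat_lit 69, nat_lit 17400340608), (nat_lit 115, nat_lit 17400086592), (nat_lit 85, nat_lit 17400082560), (nat_lit 30, nat_lit 17383571520), (nat_lit 88, nat_lit 17383567488), (nat_lit 82, nat_lit 17383309440), (nat_lit 86, nat_lit 18474086400), (nat_lit 120, nat_lit 18474082368), (nat_lit 55, nat_lit 18473828352), (nat_lit 95, nat_lit 18473824320), (nat_lit 96, nat_lit 18473820288), (nat_lit 124, nat_lit 18457313280), (nat_lit 109, nat_lit 18457309248), (nat_lit 105, nat_lit 18457305216), (nat_lit 79, nat_lit 18457051200), (nat_lit 90, nat_lit 18457047168), (nat_lit 7, nat_lit 19547824128), (nat_lit 100, nat_lit 19547566080),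 (nat_lit 31, nat_lit 19547562048), (nat_lit 7, nat_lit 19531051008), (nat_lit 6, nat_lit 19531046976), (nat_lit 1, nat_lit 19530792960), (nat_lit 108, nat_lit 19530788928), (nat_lit 108, nat_lit 19530784896), (nat_lit 20, nat_lit 20621303808), (nat_lit 45, nat_lit 20604788736), (nat_lit 23, nat_lit 20604530688), (nat_lit 122, nat_lit 20604526656), (nat_lit 16, nat_lit 21678268416)]⟩],
  [W_15234777152, W_15218262080, W_15202009088, W_15201747008, W_15201484928, W_15185231936, W_15184969856, W_14178070592, W_14144782400, W_14128267328, W_14128263296, W_14112010304, W_14111748224]⟩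
theorem C_15252865152 : chkRec R_15252865152 = true := by decide +kernel

noncomputable def R_15252869184 : Rec := ⟨nat_lit 15252869184, nat_lit 102,
  [⟨V6_15252332544, [(nat_lit 42, nat_lit 15252869184), (nat_lit 116, nat_lit 16326610944), (nat_lit 105, nat_lit 16326606912), (nat_lit 84, nat_lit 16326348864), (nat_lit 101, nat_lit 17400348672), (nat_lit 14, nat_lit 17400344640), (nat_lit 6, nat_lit 17400090624), (nat_lit 60, nat_lit 17400086592), (nat_lit 45, nat_lit 17399828544), (nat_lit 90, nat_lit 18474086400), (nat_lit 57, nat_lit 18474082368), (nat_lit 9, nat_lit 18473828352), (nat_lit 30, nat_lit 18473824320), (nat_lit 90, nat_lit 18473570304), (nat_lit 125, nat_lit 18473566272), (nat_lit 97, nat_lit 19547824128), (nat_lit 81, nat_lit 19547566080), (nat_lit 85, nat_lit 19547562048), (nat_lit 17, nat_lit 19547308032), (nat_lit 36, nat_lit 19547304000), (nat_lit 28, nat_lit 20621303808), (nat_lit 80, nat_lit 20621045760), (nat_lit 65, nat_lit 20621041728), (nat_lit 99, nat_lit 21694783488)]⟩,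
   ⟨V6_15235813440, [(nat_lit 111, nat_lit 15252869184), (nat_lit 116, nat_lit 16326606912), (nat_lit 10, nat_lit 16326348864), (nat_lit 23, nat_lit 16309833792), (nat_lit 125, nat_lit 17400344640), (nat_lit 70, nat_lit 17400086592), (nat_lit 83, nat_lit 17383571520), (nat_lit 73, nat_lit 17383313472), (nat_lit 80, nat_lit 18474082368), (nat_lit 117, nat_lit 18473824320), (nat_lit 102, nat_lit 18457309248), (nat_lit 80, nat_lit 18457051200), (nat_lit 74, nat_lit 19547820096), (nat_lit 112, nat_lit 19547562048), (nat_lit 110, nat_lit 19531046976), (nat_lit 55, nat_lit 19530788928), (nat_lit 125, nat_lit 20621299776), (nat_lit 81, nat_lit 20604784704), (nat_lit 44, nat_lit 20604526656), (nat_lit 120, nat_lit 21678264384)]⟩,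
   ⟨V6_14178848832, [(nat_lit 103, nat_lit 15252869184), (nat_lit 22, nat_lit 16326606912), (nat_lit 7, nat_lit 16326348864), (nat_lit 49, nat_lit 17400344640), (nat_lit 104, nat_lit 17400086592), (nat_lit 35, nat_lit 18474082368), (nat_lit 72, nat_lit 18473824320), (nat_lit 95, nat_lit 19547820096), (nat_lit 116, nat_lit 19547562048), (nat_lit 48, nat_lit 20621299776)]⟩,
   ⟨V6_14178078720, [(nat_lit 44, nat_lit 15252869184), (nat_lit 112, nat_lit 16326610944), (nat_lit 58, nat_lit 16326348864), (nat_lit 50, nat_lit 17400090624), (nat_lit 33, nat_lit 17399828544), (nat_lit 109, nat_lit 18473570304), (nat_lit 31, nat_lit 18473308224), (nat_lit 40, nat_lit 19547049984), (nat_lit 1, nat_lit 19546787904), (nat_lit 2, nat_lit 20620529664)]⟩,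
   ⟨V6_14161563648, [(nat_lit 45, nat_lit 15252869184), (nat_lit 67, nat_lit 16326610944), (nat_lit 76, nat_lit 16326348864), (nat_lit 76, nat_lit 16309833792), (nat_lit 120, nat_lit 17400090624), (nat_lit 43, nat_lit 17399828544), (nat_lit 125, nat_lit 17383575552), (nat_lit 2, nat_lit 17383313472), (nat_lit 103, nat_lit 18473570304), (nat_lit 47, nat_lit 18473308224), (nat_lit 110, nat_lit 18457055232), (nat_lit 102, nat_lit 18456793152), (nat_lit 41, nat_lit 19547049984), (nat_lit 108, nat_lit 19530534912), (nat_lit 78, nat_lit 19530272832), (nat_lit 22, nat_lit 20604014592)]⟩],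
  [W_15235297280, W_15218524160, W_15202525184, W_15202009088, W_15201747008, W_15185494016, W_15184973888, W_14128787456, W_14112014336]⟩
theorem C_15252869184 : chkRec R_15252869184 = true := by decide +kernel

noncomputable def R_15252873216 : Rec := ⟨nat_lit 15252873216, nat_lit 61,
  [⟨V6_15201755136, [(nat_lit 21, nat_lit 15252873216), (nat_lit 124, nat_lit 16326352896), (nat_lit 9, nat_lit 16309837824), (nat_lit 86, nat_lit 17399832576), (nat_lit 10, nat_lit 17383317504), (nat_lit 12, nat_lit 17366802432), (nat_lit 105, nat_lit 18473312256), (nat_lit 68, nat_lit 18456797184), (nat_lit 113, nat_lit 18440282112), (nat_lit 19, nat_lit 18423767040), (nat_lit 77, nat_lit 19530276864), (nat_lit 49, nat_lit 19513761792), (nat_lit 110, nat_lit 19497246720), (nat_lit 75, nat_lit 20587241472), (nat_lit 55, nat_lit 20570726400), (nat_lit 77, nat_lit 21644206080)]⟩,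
   ⟨V6_14179110912, [(nat_lit 65, nat_lit 15252873216), (nat_lit 89, nat_lit 16326610944), (nat_lit 35, nat_lit 17400348672), (nat_lit 97, nat_lit 18474086400), (nat_lit 13, nat_lit 19547824128), (nat_lit 39, nat_lit 20621561856)]⟩,
   ⟨V6_14144790528, [(nat_lit 121, nat_lit 15252873216), (nat_lit 97, nat_lit 16326352896), (nat_lit 108, nat_lit 16309837824), (nat_lit 72, nat_lit 17399832576), (nat_lit 118, nat_lit 17383317504), (nat_lit 48, nat_lit 17366802432), (nat_lit 77, nat_lit 18473312256), (nat_lit 81, nat_lit 18456797184), (nat_lit 55, nat_lit 18440282112), (nat_lit 16, nat_lit 19530276864), (nat_lit 40, nat_lit 19513761792), (nat_lit 119, nat_lit 20587241472)]⟩,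
   ⟨V6_14112018432, [(nat_lit 122, nat_lit 15252873216), (nat_lit 47, nat_lit 16326610944), (nat_lit 125, nat_lit 16309837824), (nat_lit 120, nat_lit 17383575552), (nat_lit 89, nat_lit 17366802432), (nat_lit 6, nat_lit 18440540160), (nat_lit 21, nat_lit 18423767040), (nat_lit 48, nat_lit 19497504768), (nat_lit 70, nat_lit 19480731648), (nat_lit 92, nat_lit 20554469376)]⟩],
  [W_15252586496, W_15235297280, W_15219298304, W_15202525184, W_14178848768, W_14162333696, W_14161817600]⟩
theorem C_15252873216 : chkRec R_15252873216 = true := by decide +kernel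

noncomputable def R_15253119105 : Rec := ⟨nat_lit 15253119105, nat_lit 14,
  [⟨V6_14178590784, [(nat_lit 75, nat_lit 15253119105), (nat_lit 101, nat_lit 16326860928), (nat_lit 93, nat_lit 16326860865), (nat_lit 33, nat_lit 16326598785), (nat_lit 62, nat_lit 17400602688), (nat_lit 85, nat_lit 17400340608), (nat_lit 126, nat_lit 17400340545), (nat_lit 97, nat_lit 17400078465), (nat_lit 121, nat_lit 18474082368), (nat_lit 102, nat_lit 18473820288), (nat_lit 37, nat_lit 18473820225), (nat_lit 89, nat_lit 18473558145), (nat_lit 27, nat_lit 19547562048), (nat_lit 101, nat_lit 19547299968), (nat_lit 114, nat_lit 19547299905), (nat_lit 104, nat_lit 20621041728)]⟩],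
  [W_15202001024, W_14161813568, W_14128783424]⟩
theorem C_15253119105 : chkRec R_15253119105 = true := by decide +kernel

noncomputable def R_15253123137 : Rec := ⟨nat_lit 15253123137, nat_lit 25,
  [⟨V6_15252328512, [(nat_lit 45, nat_lit 15253123137), (nat_lit 106, nat_lit 16326864960), (nat_lit 109, nat_lit 16326860865), (nat_lit 27, nat_lit 16326602817), (nat_lit 75, nat_lit 17400602688), (nat_lit 71, nat_lit 17400598593), (nat_lit 39, nat_lit 17400344640), (nat_lit 87, nat_lit 17400340545), (nat_lit 65, nat_lit 17400082497), (nat_lit 72, nat_lit 18474340416), (nat_lit 103, nat_lit 18474082368), (nat_lit 1, nat_lit 18474078273), (nat_lit 20, nat_lit 18473824320), (nat_lit 53, nat_lit 18473820225), (nat_lit 116, nat_lit 18473562177), (nat_lit 61, nat_lit 19547820096), (nat_lit 20, nat_lit 19547562048), (nat_lit 68, nat_lit 19547557953), (nat_lit 40, nat_lit 19547304000), (nat_lit 3, nat_lit 19547299905), (nat_lit 72, nat_lit 20621299776), (nat_lit 23, nat_lit 20621041728), (nat_lit 86, nat_lit 20621037633), (nat_lit 75, nat_lit 21694779456)]⟩,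
   ⟨V6_14178848832, [(nat_lit 27, nat_lit 15253123137), (nat_lit 15, nat_lit 16326864960), (nat_lit 99, nat_lit 16326860865), (nat_lit 9, nat_lit 16326602817), (nat_lit 101, nat_lit 17400602688), (nat_lit 8, nat_lit 17400598593), (nat_lit 45, nat_lit 17400344640), (nat_lit 94, nat_lit 17400340545), (nat_lit 100, nat_lit 17400082497), (nat_lit 90, nat_lit 18474340416), (nat_lit 78, nat_lit 18474082368), (nat_lit 10, nat_lit 18474078273), (nat_lit 102, nat_lit 18473824320), (nat_lit 109, nat_lit 18473820225), (nat_lit 60, nat_lit 19547820096), (nat_lit 81, nat_lit 19547562048), (nat_lit 110, nat_lit 19547557953), (nat_lit 94, nat_lit 20621299776)]⟩],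
  [W_15251550272, W_14178070592, W_14161555520, W_14128783424, W_14128525376]⟩
theorem C_15253123137 : chkRec R_15253123137 = true := by decide +kernel

noncomputable def R_15253123200 : Rec := ⟨nat_lit 15253123200, nat_lit 59,
  [⟨V6_15252332544, [(nat_lit 18, nat_lit 15253123200), (nat_lit 24, nat_lit 16326864960), (nat_lit 106, nat_lit 16326860928), (nat_lit 50, nat_lit 16326602880), (nat_lit 92, nat_lit 17400606720), (nat_lit 5, nat_lit 17400602688), (nat_lit 28, nat_lit 17400344640), (nat_lit 16, nat_lit 17400340608), (nat_lit 80, nat_lit 17400082560), (nat_lit 93, nat_lit 18474344448), (nat_lit 92, nat_lit 18474086400), (nat_lit 100, nat_lit 18474082368), (nat_lit 86, nat_lit 18473824320), (nat_lit 60, nat_lit 18473820288), (nat_lit 94, nat_lit 18473562240), (nat_lit 34, nat_lit 19547824128), (nat_lit 12, nat_lit 19547566080), (nat_lit 86, nat_lit 19547562048), (nat_lit 45, nat_lit 19547304000), (nat_lit 58, nat_lit 19547299968), (nat_lit 77, nat_lit 20621303808), (nat_lit 37, nat_lit 20621045760), (nat_lit 10, nat_lit 20621041728),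 (nat_lit 41, nat_lit 21694783488)]⟩,
   ⟨V6_15202787328, [(nat_lit 13, nat_lit 15253123200), (nat_lit 16, nat_lit 16326864960), (nat_lit 58, nat_lit 16326860928), (nat_lit 119, nat_lit 16310087808), (nat_lit 59, nat_lit 17400606720), (nat_lit 4, nat_lit 17400602688), (nat_lit 90, nat_lit 17383829568), (nat_lit 50, nat_lit 17383825536), (nat_lit 4, nat_lit 17367052416), (nat_lit 92, nat_lit 18474344448), (nat_lit 43, nat_lit 18457571328), (nat_lit 12, nat_lit 18457567296), (nat_lit 84, nat_lit 18440794176), (nat_lit 33, nat_lit 18440790144), (nat_lit 15, nat_lit 18424017024), (nat_lit 89, nat_lit 19531309056), (nat_lit 34, nat_lit 19514535936), (nat_lit 35, nat_lit 19514531904), (nat_lit 41, nat_lit 19497758784), (nat_lit 125, nat_lit 19497754752), (nat_lit 8, nat_lit 20588273664), (nat_lit 17, nat_lit 20571500544), (nat_lit 4, nat_lit 20571496512), (nat_lit 22, nat_lit 21645238272)]⟩],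
  [W_15235297280, W_14161817600, W_14161555520, W_14145302528, W_14128525376, W_14128263296]⟩
theorem C_15253123200 : chkRec R_15253123200 = true := by decide +kernel

noncomputable def R_15253127232 : Rec := ⟨nat_lit 15253127232, nat_lit 88,
  [⟨V6_15252328512, [(nat_lit 124, nat_lit 15253127232), (nat_lit 124, nat_lit 16326864960), (nat_lit 81, nat_lit 16326606912), (nat_lit 97, nat_lit 17400602688), (nat_lit 43, nat_lit 17400344640), (nat_lit 108, nat_lit 17400086592), (nat_lit 38, nat_lit 18474340416), (nat_lit 78, nat_lit 18474082368), (nat_lit 88, nat_lit 18473824320), (nat_lit 25, nat_lit 18473566272), (nat_lit 53, nat_lit 19547820096), (nat_lit 33, nat_lit 19547562048), (nat_lit 71, nat_lit 19547304000), (nat_lit 2, nat_lit 20621299776), (nat_lit 80, nat_lit 20621041728), (nat_lit 46, nat_lit 21694779456)]⟩,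
   ⟨V6_15235813440, [(nat_lit 3, nat_lit 15253127232), (nat_lit 90, nat_lit 16326864960), (nat_lit 23, nat_lit 16326606912), (nat_lit 77, nat_lit 16310091840), (nat_lit 101, nat_lit 17400602688), (nat_lit 117, nat_lit 17400344640), (nat_lit 80, nat_lit 17400086592), (nat_lit 75, nat_lit 17383829568), (nat_lit 85, nat_lit 17383571520), (nat_lit 27, nat_lit 18474340416), (nat_lit 110, nat_lit 18474082368), (nat_lit 107, nat_lit 18473824320), (nat_lit 59, nat_lit 18457567296), (nat_lit 104, nat_lit 18457309248), (nat_lit 19, nat_lit 18457051200), (nat_lit 84, nat_lit 19547820096), (nat_lit 87, nat_lit 19547562048), (nat_lit 3, nat_lit 19531305024), (nat_lit 118, nat_lit 19531046976), (nat_lit 5, nat_lit 19530788928), (nat_lit 19, nat_lit 20621299776), (nat_lit 41, nat_lit 20604784704), (nat_lit 90, nat_lit 20604526656), (nat_lit 29, nat_lit 21678264384)]⟩,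
   ⟨V6_15202787328, [(nat_lit 10, nat_lit 15253127232), (nat_lit 95, nat_lit 16326868992), (nat_lit 26, nat_lit 16326864960), (nat_lit 71, nat_lit 16310091840), (nat_lit 1, nat_lit 17400606720), (nat_lit 81, nat_lit 17400602688), (nat_lit 53, nat_lit 17383833600), (nat_lit 53, nat_lit 17383829568), (nat_lit 54, nat_lit 17367056448), (nat_lit 9, nat_lit 18474344448), (nat_lit 36, nat_lit 18457571328), (nat_lit 6, nat_lit 18457567296), (nat_lit 60, nat_lit 18440798208), (nat_lit 16, nat_lit 18440794176), (nat_lit 110, nat_lit 18424021056), (nat_lit 122, nat_lit 19531309056), (nat_lit 66, nat_lit 19514535936), (nat_lit 44, nat_lit 19514531904), (nat_lit 87, nat_lit 19497762816), (nat_lit 33, nat_lit 19497758784), (nat_lit 101, nat_lit 20588273664), (nat_lit 38, nat_lit 20571500544), (nat_lit 7, nat_lit 20571496512), (nat_lit 87, nat_lit 21645238272)]⟩,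
   ⟨V6_15202783296, [(nat_lit 71, nat_lit 15253127232), (nat_lit 125, nat_lit 16326864960), (nat_lit 4, nat_lit 16310091840), (nat_lit 103, nat_lit 17400602688), (nat_lit 39, nat_lit 17383829568), (nat_lit 85, nat_lit 17367056448), (nat_lit 123, nat_lit 18474340416), (nat_lit 21, nat_lit 18457567296), (nat_lit 2, nat_lit 18440794176), (nat_lit 125, nat_lit 18424021056), (nat_lit 112, nat_lit 19531305024), (nat_lit 40, nat_lit 19514531904), (nat_lit 45, nat_lit 19497758784), (nat_lit 15, nat_lit 20588269632), (nat_lit 124, nat_lit 20571496512), (nat_lit 58, nat_lit 21645234240)]⟩,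
   ⟨V6_14179110912, [(nat_lit 92, nat_lit 15253127232), (nat_lit 102, nat_lit 16326868992), (nat_lit 42, nat_lit 16326864960), (nat_lit 67, nat_lit 16326606912), (nat_lit 32, nat_lit 17400606720), (nat_lit 93, nat_lit 17400602688), (nat_lit 111, nat_lit 17400348672), (nat_lit 10, nat_lit 17400344640), (nat_lit 116, nat_lit 18474344448), (nat_lit 112, nat_lit 18474340416), (nat_lit 48, nat_lit 18474086400), (nat_lit 123, nat_lit 18474082368), (nat_lit 1, nat_lit 19548082176), (nat_lit 80, nat_lit 19547824128), (nat_lit 100, nat_lit 19547820096), (nat_lit 85, nat_lit 20621561856)]⟩,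
   ⟨V6_14178848832, [(nat_lit 20, nat_lit 15253127232), (nat_lit 111, nat_lit 16326864960), (nat_lit 81, nat_lit 16326606912), (nat_lit 112, nat_lit 17400602688), (nat_lit 118, nat_lit 17400344640), (nat_lit 10, nat_lit 17400086592), (nat_lit 111, nat_lit 18474340416), (nat_lit 64, nat_lit 18474082368), (nat_lit 17, nat_lit 18473824320), (nat_lit 125, nat_lit 19547820096), (nat_lit 13, nat_lit 19547562048), (nat_lit 52, nat_lit 20621299776)]⟩],
  [W_15235297280, W_15235039232, W_15234777152, W_15218524160, W_15202009088, W_14161559552, W_14145044480]⟩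
theorem C_15253127232 : chkRec R_15253127232 = true := by decide +kernel

noncomputable def R_15253131264 : Rec := ⟨nat_lit 15253131264, nat_lit 62,
  [⟨V6_15251816448, [(nat_lit 120, nat_lit 15253131264), (nat_lit 89, nat_lit 16326868992), (nat_lit 35, nat_lit 16326610944), (nat_lit 14, nat_lit 17400348672), (nat_lit 117, nat_lit 17400090624), (nat_lit 17, nat_lit 18473828352), (nat_lit 124, nat_lit 18473570304), (nat_lit 41, nat_lit 19547308032), (nat_lit 78, nat_lit 19547049984), (nat_lit 39, nat_lit 20620787712), (nat_lit 48, nat_lit 20620529664), (nat_lit 32, nat_lit 21694267392)]⟩,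
   ⟨V6_15235043328, [(nat_lit 71, nat_lit 15253131264), (nat_lit 53, nat_lit 16326610944), (nat_lit 84, nat_lit 16310095872), (nat_lit 2, nat_lit 17400090624), (nat_lit 93, nat_lit 17383575552), (nat_lit 102, nat_lit 18473570304), (nat_lit 39, nat_lit 18457055232), (nat_lit 55, nat_lit 19547049984), (nat_lit 61, nat_lit 19530534912), (nat_lit 23, nat_lit 20620529664), (nat_lit 126, nat_lit 20604014592), (nat_lit 72, nat_lit 21677494272)]⟩,
   ⟨V6_14179110912, [(nat_lit 63, nat_lit 15253131264), (nat_lit 47, nat_lit 16326868992), (nat_lit 52, nat_lit 16326610944), (nat_lit 13, nat_lit 17400606720), (nat_lit 85, nat_lit 17400348672), (nat_lit 28, nat_lit 18474344448), (nat_lit 79, nat_lit 18474086400), (nat_lit 51, nat_lit 19548082176), (nat_lit 35, nat_lit 19547824128), (nat_lit 7, nat_lit 20621561856)]⟩,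
   ⟨V6_14178078720, [(nat_lit 118, nat_lit 15253131264), (nat_lit 14, nat_lit 16326610944), (nat_lit 106, nat_lit 17400090624), (nat_lit 101, nat_lit 18473570304), (nat_lit 112, nat_lit 19547049984), (nat_lit 14, nat_lit 20620529664)]⟩],
  [W_15219556352, W_15202783232, W_15202525184, W_15202009088, W_14145818624, W_14145302528, W_14129045504, W_14128787456]⟩
theorem C_15253131264 : chkRec R_15253131264 = true := by decide +kernel

noncomputable def R_15253381185 : Rec := ⟨nat_lit 15253381185, nat_lit 13,
  [⟨V6_14178848832, [(nat_lit 111, nat_lit 15253381185), (nat_lit 1, nat_lit 16327123008), (nat_lit 30, nat_lit 16327118913), (nat_lit 34, nat_lit 16326860865), (nat_lit 111, nat_lit 17400860736), (nat_lit 59, nat_lit 17400602688), (nat_lit 78, nat_lit 17400598593), (nat_lit 85, nat_lit 17400340545), (nat_lit 15, nat_lit 18474340416), (nat_lit 121, nat_lit 18474082368), (nat_lit 126, nat_lit 18474078273), (nat_lit 10, nat_lit 18473820225), (nat_lit 52, nat_lit 19547820096), (nat_lit 9, nat_lit 19547562048), (nat_lit 30, nat_lit 19547557953),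 (nat_lit 78, nat_lit 20621299776)]⟩,
   ⟨V6_14145556545, [(nat_lit 26, nat_lit 15253381185), (nat_lit 10, nat_lit 16327118913), (nat_lit 103, nat_lit 16326860865), (nat_lit 110, nat_lit 16310345793), (nat_lit 86, nat_lit 17400598593), (nat_lit 35, nat_lit 17400340545), (nat_lit 35, nat_lit 17384083521), (nat_lit 3, nat_lit 17383825473), (nat_lit 78, nat_lit 17367310401), (nat_lit 2, nat_lit 18474078273), (nat_lit 37, nat_lit 18457563201), (nat_lit 80, nat_lit 18457305153), (nat_lit 4, nat_lit 18441048129), (nat_lit 19, nat_lit 18440790081), (nat_lit 110, nat_lit 19531042881), (nat_lit 77, nat_lit 19514527809), (nat_lit 62, nat_lit 19514269761), (nat_lit 37, nat_lit 20588007489)]⟩],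
  [W_15235551296, W_14178328640, W_14161813568]⟩
theorem C_15253381185 : chkRec R_15253381185 = true := by decide +kernel

noncomputable def R_15253381248 : Rec := ⟨nat_lit 15253381248, nat_lit 20,
  [⟨V6_14145298560, [(nat_lit 76, nat_lit 15253381248), (nat_lit 34, nat_lit 16326860928), (nat_lit 68, nat_lit 16310345856), (nat_lit 6, nat_lit 17400340608), (nat_lit 76, nat_lit 17383825536), (nat_lit 21, nat_lit 17367310464), (nat_lit 88, nat_lit 18473820288), (nat_lit 92, nat_lit 18457305216), (nat_lit 106, nat_lit 18440790144), (nat_lit 65, nat_lit 19530784896), (nat_lit 9, nat_lit 19514269824), (nat_lit 62, nat_lit 20587749504)]⟩],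
  [W_15251808320, W_14178590720, W_14178328640, W_14145560576]⟩
theorem C_15253381248 : chkRec R_15253381248 = true := by decide +kernel

noncomputable def R_15253385280 : Rec := ⟨nat_lit 15253385280, nat_lit 51,
  [⟨V6_15252332544, [(nat_lit 63, nat_lit 15253385280), (nat_lit 30, nat_lit 16327127040), (nat_lit 27, nat_lit 16327123008), (nat_lit 100, nat_lit 16326864960), (nat_lit 19, nat_lit 17400864768), (nat_lit 102, nat_lit 17400606720), (nat_lit 57, nat_lit 17400602688), (nat_lit 116, nat_lit 17400344640), (nat_lit 107, nat_lit 18474344448), (nat_lit 84, nat_lit 18474086400), (nat_lit 5, nat_lit 18474082368), (nat_lit 25, nat_lit 18473824320), (nat_lit 9, nat_lit 19547824128), (nat_lit 93, nat_lit 19547566080), (nat_lit 43, nat_lit 19547562048), (nat_lit 9, nat_lit 19547304000), (nat_lit 32, nat_lit 20621303808), (nat_lit 84, nat_lit 20621045760), (nat_lit 39, nat_lit 20621041728), (nat_lit 92, nat_lit 21694783488)]⟩,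
   ⟨V6_14178848832, [(nat_lit 23, nat_lit 15253385280), (nat_lit 123, nat_lit 16327123008), (nat_lit 99, nat_lit 16326864960), (nat_lit 106, nat_lit 17400860736), (nat_lit 48, nat_lit 17400602688), (nat_lit 25, nat_lit 17400344640), (nat_lit 116, nat_lit 18474340416), (nat_lit 61, nat_lit 18474082368), (nat_lit 60, nat_lit 18473824320), (nat_lit 106, nat_lit 19547820096), (nat_lit 105, nat_lit 19547562048), (nat_lit 7, nat_lit 20621299776)]⟩],
  [W_15235297280, W_14162333696, W_14161817600, W_14145818624, W_14145556544, W_14145302528]⟩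
theorem C_15253385280 : chkRec R_15253385280 = true := by decide +kernel

noncomputable def R_15253389312 : Rec := ⟨nat_lit 15253389312, nat_lit 43,
  [⟨V6_15251816448, [(nat_lit 100, nat_lit 15253389312), (nat_lit 8, nat_lit 16326868992), (nat_lit 1, nat_lit 17400348672), (nat_lit 20, nat_lit 18473828352), (nat_lit 29, nat_lit 19547308032), (nat_lit 81, nat_lit 20620787712), (nat_lit 57, nat_lit 21694267392)]⟩,
   ⟨V6_15236333568, [(nat_lit 78, nat_lit 15253389312), (nat_lit 12, nat_lit 16327127040), (nat_lit 62, nat_lit 16326868992), (nat_lit 44, nat_lit 16310353920), (nat_lit 23, nat_lit 17400864768), (nat_lit 10, nat_lit 17400606720), (nat_lit 70, nat_lit 17384091648), (nat_lit 54, nat_lit 17383833600), (nat_lit 54, nat_lit 18474602496), (nat_lit 71, nat_lit 18474344448), (nat_lit 1, nat_lit 18457829376), (nat_lit 18, nat_lit 18457571328), (nat_lit 21, nat_lit 19548340224), (nat_lit 72, nat_lit 19548082176), (nat_lit 42, nat_lit 19531567104), (nat_lit 58, nat_lit 19531309056), (nat_lit 24, nat_lit 20621819904), (nat_lit 67, nat_lit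 20605304832), (nat_lit 63, nat_lit 20605046784), (nat_lit 68, nat_lit 21678784512)]⟩,
   ⟨V6_14146080768, [(nat_lit 52, nat_lit 15253389312), (nat_lit 11, nat_lit 16327127040), (nat_lit 29, nat_lit 16310353920), (nat_lit 112, nat_lit 17400864768), (nat_lit 119, nat_lit 17384091648), (nat_lit 89, nat_lit 17367318528), (nat_lit 44, nat_lit 18474602496), (nat_lit 52, nat_lit 18457829376), (nat_lit 27, nat_lit 18441056256), (nat_lit 55, nat_lit 19531567104), (nat_lit 31, nat_lit 19514793984), (nat_lit 24, nat_lit 20588531712)]⟩],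
  [W_15251554304, W_15218524160, W_14178848768, W_14145302528, W_14145044480]⟩
theorem C_15253389312 : chkRec R_15253389312 = true := by decide +kernel

noncomputable def R_15253639233 : Rec := ⟨nat_lit 15253639233, nat_lit 2,
  [⟨V6_14178848832, [(nat_lit 111, nat_lit 15253639233), (nat_lit 15, nat_lit 16327381056), (nat_lit 23, nat_lit 16327118913), (nat_lit 98, nat_lit 17400860736), (nat_lit 112, nat_lit 17400598593), (nat_lit 42, nat_lit 18474340416), (nat_lit 41, nat_lit 18474078273), (nat_lit 59, nat_lit 19547820096), (nat_lit 58, nat_lit 19547557953), (nat_lit 68, nat_lit 20621299776)]⟩],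
  [W_15235551296]⟩
theorem C_15253639233 : chkRec R_15253639233 = true := by decide +kernel

noncomputable def R_15253643328 : Rec := ⟨nat_lit 15253643328, nat_lit 22,
  [⟨V6_15252328512, [(nat_lit 10, nat_lit 15253643328), (nat_lit 119, nat_lit 16327381056), (nat_lit 118, nat_lit 16327123008), (nat_lit 86, nat_lit 17400860736), (nat_lit 80, nat_lit 17400602688), (nat_lit 43, nat_lit 18474340416), (nat_lit 75, nat_lit 18474082368), (nat_lit 81, nat_lit 19547820096), (nat_lit 101, nat_lit 19547562048), (nat_lit 23, nat_lit 20621299776), (nat_lit 71, nat_lit 20621041728), (nat_lit 110, nat_lit 21694779456)]⟩,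
   ⟨V6_14178848832, [(nat_lit 28, nat_lit 15253643328), (nat_lit 71, nat_lit 16327381056), (nat_lit 56, nat_lit 16327123008), (nat_lit 31, nat_lit 17400860736), (nat_lit 40, nat_lit 17400602688), (nat_lit 22, nat_lit 18474340416), (nat_lit 42, nat_lit 18474082368), (nat_lit 88, nat_lit 19547820096), (nat_lit 9, nat_lit 19547562048), (nat_lit 90, nat_lit 20621299776)]⟩],
  [W_14178848768, W_14178590720, W_14162333696, W_14161813568]⟩
theorem C_15253643328 : chkRec R_15253643328 = true := by decide +kernel

noncomputable def R_15253647360 : Rec := ⟨nat_lit 15253647360, nat_lit 23,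
  [⟨V6_15252332544, [(nat_lit 3, nat_lit 15253647360), (nat_lit 24, nat_lit 16327385088), (nat_lit 63, nat_lit 16327127040), (nat_lit 105, nat_lit 17400864768), (nat_lit 95, nat_lit 17400606720), (nat_lit 73, nat_lit 18474344448), (nat_lit 49, nat_lit 18474086400), (nat_lit 84, nat_lit 19547824128), (nat_lit 39, nat_lit 19547566080), (nat_lit 100, nat_lit 20621303808), (nat_lit 54, nat_lit 20621045760), (nat_lit 21, nat_lit 21694783488)]⟩],
  [W_15236071424, W_14162333696, W_14161817600]⟩
theorem C_15253647360 : chkRec R_15253647360 = true := by decide +kernel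

noncomputable def R_15253901376 : Rec := ⟨nat_lit 15253901376, nat_lit 5,
  [⟨V6_14178848832, [(nat_lit 62, nat_lit 15253901376), (nat_lit 99, nat_lit 16327381056), (nat_lit 59, nat_lit 17400860736), (nat_lit 3, nat_lit 18474340416), (nat_lit 8, nat_lit 19547820096), (nat_lit 75, nat_lit 20621299776)]⟩],
  [W_14178848768]⟩
theorem C_15253901376 : chkRec R_15253901376 = true := by decide +kernel

noncomputable def R_15253905408 : Rec := ⟨nat_lit 15253905408, nat_lit 5,
  [⟨V6_14178852864, [(nat_lit 87, nat_lit 15253905408), (nat_lit 100, nat_lit 16327385088), (nat_lit 7, nat_lit 17400864768), (nat_lit 80, nat_lit 18474344448), (nat_lit 44, nat_lit 19547824128), (nat_lit 95, nat_lit 20621303808)]⟩],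
  [W_15252586496]⟩
theorem C_15253905408 : chkRec R_15253905408 = true := by decide +kernel

noncomputable def R_15268331778 : Rec := ⟨nat_lit 15268331778, nat_lit 2,
  [⟨V6_15201222912, [(nat_lit 38, nat_lit 15268331778), (nat_lit 52, nat_lit 16342073601), (nat_lit 105, nat_lit 16325296386), (nat_lit 83, nat_lit 17415815424), (nat_lit 20, nat_lit 17399038209), (nat_lit 8, nat_lit 17382260994), (nat_lit 32, nat_lit 18472780032), (nat_lit 43, nat_lit 18456002817), (nat_lit 68, nat_lit 18439225602), (nat_lit 36, nat_lit 19529744640), (nat_lit 101, nat_lit 19512967425), (nat_lit 82, nat_lit 19496190210), (nat_lit 116, nat_lit 20586709248), (nat_lit 65, nat_lit 20569932033), (nat_lit 83, nat_lit 21643673856)]⟩],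
  [W_15218000000]⟩
theorem C_15268331778 : chkRec R_15268331778 = true := by decide +kernel

noncomputable def R_15268589763 : Rec := ⟨nat_lit 15268589763, nat_lit 1,
  [⟨V6_15234511041, [(nat_lit 65, nat_lit 15268589763), (nat_lit 32, nat_lit 16342331586), (nat_lit 2, nat_lit 16342069443), (nat_lit 64, nat_lit 16325554371), (nat_lit 10, nat_lit 17416073409), (nat_lit 115, nat_lit 17415811266), (nat_lit 101, nat_lit 17415549123), (nat_lit 47, nat_lit 17399296194), (nat_lit 46, nat_lit 17399034051), (nat_lit 114, nat_lit 17382518979), (nat_lit 105, nat_lit 18489553089), (nat_lit 14, nat_lit 18489290946), (nat_lit 77, nat_lit 18473038017), (nat_lit 38, nat_lit 18472775874), (nat_lit 68, nat_lit 18472513731), (nat_lit 101, nat_lit 18456260802), (nat_lit 40, nat_lit 18455998659), (nat_lit 92, nat_lit 19563032769), (nat_lit 97, nat_lit 19546517697), (nat_lit 89, nat_lit 19546255554), (nat_lit 106, nat_lit 19530002625), (nat_lit 41, nat_lit 19529740482), (nat_lit 16, nat_lit 19529478339), (nat_lit 63, nat_lit 20619997377), (nat_lit 79, nat_lit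 20603482305), (nat_lit 92, nat_lit 20603220162), (nat_lit 21, nat_lit 21676961985)]⟩],
  [W_15201480896]⟩
theorem C_15268589763 : chkRec R_15268589763 = true := by decide +kernel

noncomputable def R_15268593858 : Rec := ⟨nat_lit 15268593858, nat_lit 3,
  [⟨V6_15234773184, [(nat_lit 51, nat_lit 15268593858), (nat_lit 30, nat_lit 16342335681), (nat_lit 94, nat_lit 16342331586), (nat_lit 103, nat_lit 16342073538), (nat_lit 113, nat_lit 16325558466), (nat_lit 41, nat_lit 17416077504), (nat_lit 54, nat_lit 17416073409), (nat_lit 89, nat_lit 17415815361), (nat_lit 73, nat_lit 17415811266), (nat_lit 118, nat_lit 17399300289), (nat_lit 89, nat_lit 17399296194), (nat_lit 96, nat_lit 17399038146), (nat_lit 62, nat_lit 17382523074), (nat_lit 61, nat_lit 18489815232), (nat_lit 41, nat_lit 18489557184), (nat_lit 112, nat_lit 18489553089), (nat_lit 105, nat_lit 18473042112), (nat_lit 32, nat_lit 18473038017), (nat_lit 50, nat_lit 18472779969), (nat_lit 39, nat_lit 18472775874), (nat_lit 73, nat_lit 18456264897), (nat_lit 95, nat_lit 18456260802), (nat_lit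 34, nat_lit 18456002754), (nat_lit 39, nat_lit 19563294912), (nat_lit 105, nat_lit 19546779840), (nat_lit 6, nat_lit 19546521792), (nat_lit 64, nat_lit 19546517697), (nat_lit 117, nat_lit 19530006720), (nat_lit 92, nat_lit 19530002625), (nat_lit 18, nat_lit 19529744577), (nat_lit 64, nat_lit 19529740482), (nat_lit 8, nat_lit 20620259520), (nat_lit 64, nat_lit 20603744448), (nat_lit 111, nat_lit 20603486400), (nat_lit 72, nat_lit 20603482305), (nat_lit 18, nat_lit 21677224128)]⟩],
  [W_15201484928]⟩
theorem C_15268593858 : chkRec R_15268593858 = true := by decide +kernel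

noncomputable def R_15268593921 : Rec := ⟨nat_lit 15268593921, nat_lit 5,
  [⟨V6_15184707840, [(nat_lit 22, nat_lit 15268593921), (nat_lit 25, nat_lit 16342335744), (nat_lit 9, nat_lit 16325558529), (nat_lit 9, nat_lit 17399300352), (nat_lit 19, nat_lit 17382523137), (nat_lit 38, nat_lit 18456264960), (nat_lit 61, nat_lit 18439487745), (nat_lit 101, nat_lit 19513229568), (nat_lit 119, nat_lit 19496452353), (nat_lit 62, nat_lit 20570194176), (nat_lit 34, nat_lit 20553416961), (nat_lit 77, nat_lit 21627158784)]⟩],
  [W_15234777152]⟩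
theorem C_15268593921 : chkRec R_15268593921 = true := by decide +kernel

noncomputable def R_15268597890 : Rec := ⟨nat_lit 15268597890, nat_lit 1,
  [⟨V6_15235031169, [(nat_lit 36, nat_lit 15268597890), (nat_lit 77, nat_lit 16342339713), (nat_lit 65, nat_lit 16342335618), (nat_lit 61, nat_lit 16325562498), (nat_lit 75, nat_lit 17416077441), (nat_lit 32, nat_lit 17416073346), (nat_lit 14, nat_lit 17399304321), (nat_lit 43, nat_lit 17399300226), (nat_lit 83, nat_lit 17382527106), (nat_lit 98, nat_lit 18489815169), (nat_lit 84, nat_lit 18489811074), (nat_lit 109, nat_lit 18473042049), (nat_lit 1, nat_lit 18473037954), (nat_lit 57, nat_lit 18456268929), (nat_lit 73, nat_lit 18456264834), (nat_lit 87, nat_lit 19563552897), (nat_lit 22, nat_lit 19546779777), (nat_lit 84, nat_lit 19546775682), (nat_lit 114, nat_lit 19530006657), (nat_lit 112, nat_lit 19530002562), (nat_lit 47, nat_lit 20620517505), (nat_lit 62, nat_lit 20603744385), (nat_lit 90, nat_lit 20603740290), (nat_lit 26, nat_lit 21677482113)]⟩],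
  [W_15201484928]⟩
theorem C_15268597890 : chkRec R_15268597890 = true := by decide +kernel

noncomputable def R_15268597953 : Rec := ⟨nat_lit 15268597953, nat_lit 5,
  [⟨V6_15218258112, [(nat_lit 2, nat_lit 15268597953), (nat_lit 89, nat_lit 16342339776), (nat_lit 99, nat_lit 16342335681), (nat_lit 1, nat_lit 16325562561), (nat_lit 90, nat_lit 17416077504), (nat_lit 126, nat_lit 17416073409), (nat_lit 29, nat_lit 17399304384), (nat_lit 115, nat_lit 17399300289), (nat_lit 69, nat_lit 17382527169), (nat_lit 102, nat_lit 18489815232), (nat_lit 92, nat_lit 18473042112), (nat_lit 105, nat_lit 18473038017), (nat_lit 65, nat_lit 18456268992), (nat_lit 18, nat_lit 18456264897), (nat_lit 65, nat_lit 18439491777), (nat_lit 24, nat_lit 19546779840), (nat_lit 105, nat_lit 19530006720), (nat_lit 119, nat_lit 19530002625), (nat_lit 46, nat_lit 19513233600), (nat_lit 22, nat_lit 19513229505), (nat_lit 29, nat_lit 20603744448), (nat_lit 117, nat_lit 20586971328), (nat_lit 45, nat_lit 20586967233), (nat_lit 9, nat_lit 21660709056)]⟩],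
  [W_15218262080]⟩
theorem C_15268597953 : chkRec R_15268597953 = true := by decide +kernel

end Crest.Agent.R187.SN.Top
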