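import Crest.Agent.R187.SN.FwdDef
import Crest.Agent.R187.SN.TD.Ks
import Crest.Agent.R187.SN.TD.W6_0
import Crest.Agent.R187.SN.TD.W6_1
import Crest.Agent.R187.SN.TD.X5_0
import Crest.Agent.R187.SN.TD.X5_1
import Crest.Agent.R187.SN.TD.X6_10
import Crest.Agent.R187.SN.TD.X6_11
import Crest.Agent.R187.SN.TD.X6_12

/-!
# Row 187, PLAN S, certificate E3: forward records of level `(6, 6)`, part 0

`F6_<key> : Fwd` = sources (table of level `(6, 5)`, number of rows, quadrature record) and
`W` tables of the table `V6_<key>`; each record is checked by the kernel.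
-/

set_option autoImplicit false
set_option Elab.async false
set_option maxRecDepth 100000

namespace Crest.Agent.R187.SN.Fwd

open Crest.Agent.R187.SN.Top

noncomputable def F6_38654705664 : Fwd := ⟨V6_38654705664, [
  ⟨V5_32212254720, nat_lit 1, [(nat_lit 89, nat_lit 38654705664)]⟩], [
  W6_32212254720]⟩

theorem F6_38654705664_chk : fwdChk 6 ks6 F6_38654705664 = true := by decide +kernel

noncomputable def F6_36540776448 : Fwd := ⟨V6_36540776448, [
  ⟨V5_32212254720, nat_lit 1, [(nat_lit 12, nat_lit 36540776448),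
  (nat_lit 114, nat_lit 37597741056), (nat_lit 60, nat_lit 38654705664)]⟩], [
  W6_32212254720, W6_30098325504]⟩

theorem F6_36540776448_chk : fwdChk 6 ks6 F6_36540776448 = true := by decide +kernel

noncomputable def F6_34393817088 : Fwd := ⟨V6_34393817088, [
  ⟨V5_27951366144, nat_lit 1, [(nat_lit 29, nat_lit 34393817088)]⟩], [
  W6_30098325504, W6_27951366144]⟩

theorem F6_34393817088_chk : fwdChk 6 ks6 F6_34393817088 = true := by decide +kernel

noncomputable def F6_33369882624 : Fwd := ⟨V6_33369882624, [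
  ⟨V5_26927431680, nat_lit 2, [(nat_lit 17, nat_lit 33369882624)]⟩], [
  W6_32212254720, W6_30098325504, W6_29041360896, W6_27984396288, W6_26927431680]⟩

theorem F6_33369882624_chk : fwdChk 6 ks6 F6_33369882624 = true := by decide +kernel

noncomputable def F6_33336852480 : Fwd := ⟨V6_33336852480, [
  ⟨V5_27951366144, nat_lit 1, [(nat_lit 64, nat_lit 33336852480),
  (nat_lit 25, nat_lit 34393817088)]⟩], [
  W6_30098325504, W6_29041360896, W6_27951366144, W6_26894401536]⟩

theorem F6_33336852480_chk : fwdChk 6 ks6 F6_33336852480 = true := by decide +kernel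

noncomputable def F6_32246341632 : Fwd := ⟨V6_32246341632, [
  ⟨V5_25803890688, nat_lit 1, [(nat_lit 29, nat_lit 32246341632)]⟩], [
  W6_27951366144, W6_25803890688]⟩

theorem F6_32246341632_chk : fwdChk 6 ks6 F6_32246341632 = true := by decide +kernel

noncomputable def F6_31255953408 : Fwd := ⟨V6_31255953408, [
  ⟨V5_25870467072, nat_lit 3, [(nat_lit 106, nat_lit 31255953408),
  (nat_lit 111, nat_lit 32312918016)]⟩], [
  W6_30098325504, W6_29041360896, W6_27984396288, W6_26927431680, W6_25870467072, W6_24813502464]⟩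

theorem F6_31255953408_chk : fwdChk 6 ks6 F6_31255953408 = true := by decide +kernel

noncomputable def F6_31206408192 : Fwd := ⟨V6_31206408192, [
  ⟨V5_24763957248, nat_lit 2, [(nat_lit 19, nat_lit 31206408192)]⟩], [
  W6_29041360896, W6_27984396288, W6_26910916608, W6_26894401536, W6_25837436928, W6_24763957248]⟩

theorem F6_31206408192_chk : fwdChk 6 ks6 F6_31206408192 = true := by decide +kernel

noncomputable def F6_31189377024 : Fwd := ⟨V6_31189377024, [
  ⟨V5_25803890688, nat_lit 1, [(nat_lit 22, nat_lit 31189377024),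
  (nat_lit 19, nat_lit 32246341632)]⟩], [
  W6_27951366144, W6_26894401536, W6_25803890688, W6_24746926080]⟩

theorem F6_31189377024_chk : fwdChk 6 ks6 F6_31189377024 = true := by decide +kernel

noncomputable def F6_30198988800 : Fwd := ⟨V6_30198988800, [
  ⟨V5_23756537856, nat_lit 5, [(nat_lit 75, nat_lit 30198988800)]⟩,
  ⟨V5_25870467072, nat_lit 3, [(nat_lit 18, nat_lit 30198988800),
  (nat_lit 53, nat_lit 31255953408), (nat_lit 40, nat_lit 32312918016)]⟩], [
  W6_30098325504, W6_29041360896, W6_27984396288, W6_26927431680, W6_25870467072, W6_24813502464,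
  W6_23756537856]⟩

theorem F6_30198988800_chk : fwdChk 6 ks6 F6_30198988800 = true := by decide +kernel

noncomputable def F6_30182473728 : Fwd := ⟨V6_30182473728, [
  ⟨V5_23740022784, nat_lit 3, [(nat_lit 92, nat_lit 30182473728)]⟩,
  ⟨V5_26910916608, nat_lit 1, [(nat_lit 92, nat_lit 30182473728),
  (nat_lit 26, nat_lit 31239438336), (nat_lit 63, nat_lit 32296402944),
  (nat_lit 23, nat_lit 33353367552)]⟩], [
  W6_30098325504, W6_29041360896, W6_27984396288, W6_26927431680, W6_26910916608, W6_25870467072,
  W6_25853952000, W6_24813502464, W6_24796987392, W6_23740022784]⟩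

theorem F6_30182473728_chk : fwdChk 6 ks6 F6_30182473728 = true := by decide +kernel

noncomputable def F6_30165958656 : Fwd := ⟨V6_30165958656, [
  ⟨V5_25870467072, nat_lit 3, [(nat_lit 62, nat_lit 30165958656),
  (nat_lit 20, nat_lit 31239438336), (nat_lit 34, nat_lit 32312918016)]⟩,
  ⟨V5_23723507712, nat_lit 7, [(nat_lit 103, nat_lit 30165958656)]⟩], [
  W6_30098325504, W6_29041360896, W6_27984396288, W6_27951366144, W6_26927431680, W6_26910916608,
  W6_26894401536, W6_25870467072, W6_25853952000, W6_25837436928, W6_24796987392, W6_24780472320,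
  W6_23723507712]⟩

theorem F6_30165958656_chk : fwdChk 6 ks6 F6_30165958656 = true := by decide +kernel

noncomputable def F6_30149443584 : Fwd := ⟨V6_30149443584, [
  ⟨V5_24763957248, nat_lit 2, [(nat_lit 61, nat_lit 30149443584),
  (nat_lit 40, nat_lit 31206408192)]⟩,
  ⟨V5_26927431680, nat_lit 1, [(nat_lit 45, nat_lit 30149443584),
  (nat_lit 102, nat_lit 31222923264), (nat_lit 96, nat_lit 32296402944),
  (nat_lit 40, nat_lit 33369882624)]⟩], [
  W6_29041360896, W6_27984396288, W6_26927431680, W6_26910916608, W6_26894401536, W6_25853952000,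
  W6_25837436928, W6_24780472320, W6_24763957248, W6_23706992640]⟩

theorem F6_30149443584_chk : fwdChk 6 ks6 F6_30149443584 = true := by decide +kernel

noncomputable def F6_30149185536 : Fwd := ⟨V6_30149185536, [
  ⟨V5_23706734592, nat_lit 2, [(nat_lit 22, nat_lit 30149185536)]⟩], [
  W6_27951366144, W6_26910916608, W6_26894401536, W6_25853952000, W6_25837436928, W6_24780472320,
  W6_24763699200, W6_23706734592]⟩

theorem F6_30149185536_chk : fwdChk 6 ks6 F6_30149185536 = true := by decide +kernel

noncomputable def F6_30132928512 : Fwd := ⟨V6_30132928512, [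
  ⟨V5_23690477568, nat_lit 3, [(nat_lit 9, nat_lit 30132928512)]⟩,
  ⟨V5_24763957248, nat_lit 2, [(nat_lit 88, nat_lit 30132928512),
  (nat_lit 115, nat_lit 31206408192)]⟩], [
  W6_27984396288, W6_26910916608, W6_25837436928, W6_24763957248, W6_23690477568]⟩

theorem F6_30132928512_chk : fwdChk 6 ks6 F6_30132928512 = true := by decide +kernel

noncomputable def F6_30132670464 : Fwd := ⟨V6_30132670464, [
  ⟨V5_24763699200, nat_lit 1, [(nat_lit 26, nat_lit 30132670464),
  (nat_lit 34, nat_lit 31206150144)]⟩], [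
  W6_26910916608, W6_26894401536, W6_25837436928, W6_24763957248, W6_24763699200, W6_23690219520]⟩

theorem F6_30132670464_chk : fwdChk 6 ks6 F6_30132670464 = true := by decide +kernel

noncomputable def F6_30098858112 : Fwd := ⟨V6_30098858112, [
  ⟨V5_23656407168, nat_lit 1, [(nat_lit 114, nat_lit 30098858112)]⟩], [
  W6_25803890688, W6_23656407168]⟩

theorem F6_30098858112_chk : fwdChk 6 ks6 F6_30098858112 = true := by decide +kernel

noncomputable def F6_29125509120 : Fwd := ⟨V6_29125509120, [
  ⟨V5_23756537856, nat_lit 5, [(nat_lit 22, nat_lit 29125509120),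
  (nat_lit 57, nat_lit 30198988800)]⟩,
  ⟨V5_23740022784, nat_lit 1, [(nat_lit 47, nat_lit 29125509120),
  (nat_lit 39, nat_lit 30182473728)]⟩], [
  W6_29041360896, W6_27984396288, W6_26927431680, W6_26910916608, W6_25870467072, W6_25853952000,
  W6_24813502464, W6_24796987392, W6_23756537856, W6_23740022784, W6_22683058176]⟩

theorem F6_29125509120_chk : fwdChk 6 ks6 F6_29125509120 = true := by decide +kernel

noncomputable def F6_29108736000 : Fwd := ⟨V6_29108736000, [
  ⟨V5_22666285056, nat_lit 1, [(nat_lit 90, nat_lit 29108736000)]⟩], [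
  W6_26910916608, W6_25853952000, W6_24796987392, W6_23740022784, W6_22666285056]⟩

theorem F6_29108736000_chk : fwdChk 6 ks6 F6_29108736000 = true := by decide +kernel

noncomputable def F6_29059190784 : Fwd := ⟨V6_29059190784, [
  ⟨V5_23690477568, nat_lit 3, [(nat_lit 68, nat_lit 29059190784),
  (nat_lit 98, nat_lit 30132928512)]⟩], [
  W6_26910916608, W6_25837436928, W6_24763957248, W6_24763699200, W6_23690477568, W6_23690219520,
  W6_22616739840]⟩

theorem F6_29059190784_chk : fwdChk 6 ks6 F6_29059190784 = true := by decide +kernel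

noncomputable def F6_29058932736 : Fwd := ⟨V6_29058932736, [
  ⟨V5_23689961472, nat_lit 2, [(nat_lit 42, nat_lit 29058932736),
  (nat_lit 52, nat_lit 30132412416)]⟩], [
  W6_26894401536, W6_25837436928, W6_24763957248, W6_24763699200, W6_24746926080, W6_23690219520,
  W6_23689961472, W6_22616481792]⟩

theorem F6_29058932736_chk : fwdChk 6 ks6 F6_29058932736 = true := by decide +kernel

noncomputable def F6_29058670656 : Fwd := ⟨V6_29058670656, [
  ⟨V5_25803890688, nat_lit 1, [(nat_lit 13, nat_lit 29058670656),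
  (nat_lit 58, nat_lit 30132412416), (nat_lit 5, nat_lit 30115635264),
  (nat_lit 69, nat_lit 31189377024), (nat_lit 17, nat_lit 31172599872),
  (nat_lit 38, nat_lit 32246341632)]⟩], [
  W6_25803890688, W6_24763699200, W6_24746926080, W6_23689961472, W6_22616219712]⟩

theorem F6_29058670656_chk : fwdChk 6 ks6 F6_29058670656 = true := by decide +kernel

noncomputable def F6_29041893504 : Fwd := ⟨V6_29041893504, [
  ⟨V5_23656407168, nat_lit 1, [(nat_lit 16, nat_lit 29041893504),
  (nat_lit 17, nat_lit 30098858112)]⟩], [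
  W6_25803890688, W6_24746926080, W6_23656407168]⟩

theorem F6_29041893504_chk : fwdChk 6 ks6 F6_29041893504 = true := by decide +kernel

noncomputable def F6_28068544512 : Fwd := ⟨V6_28068544512, [
  ⟨V5_22699573248, nat_lit 3, [(nat_lit 7, nat_lit 28068544512),
  (nat_lit 58, nat_lit 29142024192)]⟩,
  ⟨V5_23756537856, nat_lit 3, [(nat_lit 27, nat_lit 28068544512),
  (nat_lit 71, nat_lit 29142024192), (nat_lit 18, nat_lit 29125509120),
  (nat_lit 13, nat_lit 30198988800)]⟩], [
  W6_27984396288, W6_26927431680, W6_26910916608, W6_25870467072, W6_25853952000, W6_24813502464,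
  W6_24796987392, W6_23756537856, W6_23740022784, W6_22699573248, W6_22683058176, W6_21626093568]⟩

theorem F6_28068544512_chk : fwdChk 6 ks6 F6_28068544512 = true := by decide +kernel

noncomputable def F6_28052029440 : Fwd := ⟨V6_28052029440, [
  ⟨V5_21609578496, nat_lit 9, [(nat_lit 19, nat_lit 28052029440)]⟩,
  ⟨V5_23756537856, nat_lit 5, [(nat_lit 46, nat_lit 28052029440),
  (nat_lit 5, nat_lit 29125509120), (nat_lit 100, nat_lit 30198988800)]⟩,
  ⟨V5_27951366144, nat_lit 1, [(nat_lit 10, nat_lit 28052029440),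
  (nat_lit 70, nat_lit 29108994048), (nat_lit 45, nat_lit 30165958656),
  (nat_lit 12, nat_lit 31222923264), (nat_lit 19, nat_lit 32279887872),
  (nat_lit 16, nat_lit 33336852480), (nat_lit 33, nat_lit 34393817088)]⟩], [
  W6_27984396288, W6_27951366144, W6_26927431680, W6_26910916608, W6_26894401536, W6_25870467072,
  W6_25853952000, W6_25837436928, W6_24813502464, W6_24796987392, W6_24780472320, W6_23756537856,
  W6_23740022784, W6_23723507712, W6_22683058176, W6_22666543104, W6_21609578496]⟩

theorem F6_28052029440_chk : fwdChk 6 ks6 F6_28052029440 = true := by decide +kernel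

noncomputable def F6_28051771392 : Fwd := ⟨V6_28051771392, [
  ⟨V5_21609320448, nat_lit 1, [(nat_lit 71, nat_lit 28051771392)]⟩], [
  W6_26910916608, W6_25853952000, W6_24796987392, W6_23740022784, W6_22683058176, W6_22666285056,
  W6_21609320448]⟩

theorem F6_28051771392_chk : fwdChk 6 ks6 F6_28051771392 = true := by decide +kernel

noncomputable def F6_28035256320 : Fwd := ⟨V6_28035256320, [
  ⟨V5_21592805376, nat_lit 5, [(nat_lit 5, nat_lit 28035256320)]⟩,
  ⟨V5_22649769984, nat_lit 4, [(nat_lit 60, nat_lit 28035256320),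
  (nat_lit 66, nat_lit 29092220928)]⟩], [
  W6_27951366144, W6_26910916608, W6_26894401536, W6_25853952000, W6_25837436928, W6_24796987392,
  W6_24780472320, W6_24763699200, W6_23740022784, W6_23723507712, W6_23706734592, W6_22666543104,
  W6_22666285056, W6_22649769984, W6_21592805376]⟩

theorem F6_28035256320_chk : fwdChk 6 ks6 F6_28035256320 = true := by decide +kernel

noncomputable def F6_28018483200 : Fwd := ⟨V6_28018483200, [
  ⟨V5_21576032256, nat_lit 5, [(nat_lit 68, nat_lit 28018483200)]⟩,
  ⟨V5_22632996864, nat_lit 3, [(nat_lit 62, nat_lit 28018483200),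
  (nat_lit 105, nat_lit 29075447808)]⟩,
  ⟨V5_25803890688, nat_lit 1, [(nat_lit 92, nat_lit 28018483200),
  (nat_lit 17, nat_lit 29075447808), (nat_lit 22, nat_lit 30132412416),
  (nat_lit 93, nat_lit 31189377024), (nat_lit 104, nat_lit 32246341632)]⟩], [
  W6_27951366144, W6_26894401536, W6_25837436928, W6_25803890688, W6_24780472320, W6_24763699200,
  W6_24746926080, W6_23723507712, W6_23706734592, W6_23689961472, W6_22649769984, W6_22632996864,
  W6_21576032256]⟩

theorem F6_28018483200_chk : fwdChk 6 ks6 F6_28018483200 = true := by decide +kernel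

noncomputable def F6_28001964096 : Fwd := ⟨V6_28001964096, [
  ⟨V5_21559513152, nat_lit 1, [(nat_lit 97, nat_lit 28001964096)]⟩], [
  W6_24763699200, W6_23706734592, W6_23690219520, W6_22633254912, W6_21559513152]⟩

theorem F6_28001964096_chk : fwdChk 6 ks6 F6_28001964096 = true := by decide +kernel

noncomputable def F6_27985190976 : Fwd := ⟨V6_27985190976, [
  ⟨V5_22616219712, nat_lit 1, [(nat_lit 2, nat_lit 27985190976),
  (nat_lit 18, nat_lit 29058670656)]⟩], [
  W6_24763699200, W6_24746926080, W6_23690219520, W6_23689961472, W6_22616481792, W6_22616219712]⟩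

theorem F6_27985190976_chk : fwdChk 6 ks6 F6_27985190976 = true := by decide +kernel

noncomputable def F6_27028094976 : Fwd := ⟨V6_27028094976, [
  ⟨V5_21642608640, nat_lit 5, [(nat_lit 49, nat_lit 27028094976),
  (nat_lit 17, nat_lit 28085059584)]⟩], [
  W6_26927431680, W6_25870467072, W6_24813502464, W6_23756537856, W6_22699573248, W6_21642608640,
  W6_20585644032]⟩

theorem F6_27028094976_chk : fwdChk 6 ks6 F6_27028094976 = true := by decide +kernel

noncomputable def F6_27011579904 : Fwd := ⟨V6_27011579904, [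
  ⟨V5_21642608640, nat_lit 5, [(nat_lit 109, nat_lit 27011579904),
  (nat_lit 14, nat_lit 28085059584)]⟩,
  ⟨V5_20569128960, nat_lit 5, [(nat_lit 26, nat_lit 27011579904)]⟩,
  ⟨V5_26910916608, nat_lit 1, [(nat_lit 40, nat_lit 27011579904),
  (nat_lit 58, nat_lit 28068544512), (nat_lit 110, nat_lit 29125509120),
  (nat_lit 95, nat_lit 30182473728), (nat_lit 99, nat_lit 31239438336),
  (nat_lit 53, nat_lit 32296402944), (nat_lit 6, nat_lit 33353367552)]⟩], [
  W6_26927431680, W6_26910916608, W6_25870467072, W6_25853952000, W6_24813502464, W6_24796987392,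
  W6_23756537856, W6_23740022784, W6_22699573248, W6_22683058176, W6_21642608640, W6_21626093568,
  W6_20569128960]⟩

theorem F6_27011579904_chk : fwdChk 6 ks6 F6_27011579904 = true := by decide +kernel

noncomputable def F6_26994806784 : Fwd := ⟨V6_26994806784, [
  ⟨V5_20552355840, nat_lit 2, [(nat_lit 98, nat_lit 26994806784)]⟩,
  ⟨V5_21609320448, nat_lit 1, [(nat_lit 77, nat_lit 26994806784),
  (nat_lit 118, nat_lit 28051771392)]⟩], [
  W6_26910916608, W6_25853952000, W6_24796987392, W6_23740022784, W6_22683058176, W6_22666285056,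
  W6_21626093568, W6_21609320448, W6_20552355840]⟩

theorem F6_26994806784_chk : fwdChk 6 ks6 F6_26994806784 = true := by decide +kernel

noncomputable def F6_26961518592 : Fwd := ⟨V6_26961518592, [
  ⟨V5_21576032256, nat_lit 5, [(nat_lit 90, nat_lit 26961518592),
  (nat_lit 64, nat_lit 28018483200)]⟩,
  ⟨V5_20519067648, nat_lit 5, [(nat_lit 98, nat_lit 26961518592)]⟩,
  ⟨V5_25803890688, nat_lit 1, [(nat_lit 4, nat_lit 26961518592),
  (nat_lit 109, nat_lit 28018483200), (nat_lit 87, nat_lit 29075447808),
  (nat_lit 71, nat_lit 30132412416), (nat_lit 9, nat_lit 31189377024),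
  (nat_lit 119, nat_lit 32246341632)]⟩], [
  W6_26894401536, W6_25837436928, W6_25803890688, W6_24780472320, W6_24763699200, W6_24746926080,
  W6_23723507712, W6_23706734592, W6_23689961472, W6_22666543104, W6_22649769984, W6_22632996864,
  W6_21592805376, W6_21576032256, W6_20519067648]⟩

theorem F6_26961518592_chk : fwdChk 6 ks6 F6_26961518592 = true := by decide +kernel

noncomputable def F6_26961514560 : Fwd := ⟨V6_26961514560, [
  ⟨V5_20519063616, nat_lit 1, [(nat_lit 32, nat_lit 26961514560)]⟩], [
  W6_24763699200, W6_23706734592, W6_22666285056, W6_22649769984, W6_21592805376, W6_20519063616]⟩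

theorem F6_26961514560_chk : fwdChk 6 ks6 F6_26961514560 = true := by decide +kernel

noncomputable def F6_26944999488 : Fwd := ⟨V6_26944999488, [
  ⟨V5_21559513152, nat_lit 1, [(nat_lit 102, nat_lit 26944999488),
  (nat_lit 36, nat_lit 28001964096)]⟩], [
  W6_24763699200, W6_23706734592, W6_23690219520, W6_22649769984, W6_22633254912, W6_21576290304,
  W6_21559513152]⟩

theorem F6_26944999488_chk : fwdChk 6 ks6 F6_26944999488 = true := by decide +kernel

noncomputable def F6_26944741440 : Fwd := ⟨V6_26944741440, [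
  ⟨V5_21576032256, nat_lit 4, [(nat_lit 125, nat_lit 26944741440),
  (nat_lit 41, nat_lit 28018483200)]⟩], [
  W6_25803890688, W6_24763699200, W6_24746926080, W6_23706734592, W6_23689961472, W6_22649769984,
  W6_22632996864, W6_22616219712, W6_21576032256, W6_21559255104, W6_20502290496]⟩

theorem F6_26944741440_chk : fwdChk 6 ks6 F6_26944741440 = true := by decide +kernel

noncomputable def F6_26928746496 : Fwd := ⟨V6_26928746496, [
  ⟨V5_20486295552, nat_lit 1, [(nat_lit 10, nat_lit 26928746496)]⟩], [
  W6_25853952000, W6_24780472320, W6_23706992640, W6_23706734592, W6_22633512960, W6_22633254912,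
  W6_21559775232, W6_20486295552]⟩

theorem F6_26928746496_chk : fwdChk 6 ks6 F6_26928746496 = true := by decide +kernel

noncomputable def F6_26928488448 : Fwd := ⟨V6_26928488448, [
  ⟨V5_20486037504, nat_lit 4, [(nat_lit 21, nat_lit 26928488448)]⟩,
  ⟨V5_22632996864, nat_lit 3, [(nat_lit 62, nat_lit 26928488448),
  (nat_lit 50, nat_lit 28001968128), (nat_lit 107, nat_lit 29075447808)]⟩,
  ⟨V5_21543002112, nat_lit 2, [(nat_lit 108, nat_lit 26928488448),
  (nat_lit 60, nat_lit 27985453056)]⟩], [
  W6_25837436928, W6_24780472320, W6_24763957248, W6_24763699200, W6_23706992640, W6_23706734592,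
  W6_23690477568, W6_23690219520, W6_23689961472, W6_22633512960, W6_22633254912, W6_22632996864,
  W6_22616739840, W6_22616481792, W6_21559775232, W6_21559517184, W6_21543002112, W6_20486037504]⟩

theorem F6_26928488448_chk : fwdChk 6 ks6 F6_26928488448 = true := by decide +kernel

noncomputable def F6_26928484416 : Fwd := ⟨V6_26928484416, [
  ⟨V5_20486033472, nat_lit 1, [(nat_lit 25, nat_lit 26928484416)]⟩,
  ⟨V5_21559513152, nat_lit 1, [(nat_lit 98, nat_lit 26928484416),
  (nat_lit 117, nat_lit 28001964096)]⟩], [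
  W6_24763699200, W6_23706734592, W6_23690219520, W6_22633254912, W6_22616739840, W6_21559775232,
  W6_21559513152, W6_20486033472]⟩

theorem F6_26928484416_chk : fwdChk 6 ks6 F6_26928484416 = true := by decide +kernel

noncomputable def F6_26928230400 : Fwd := ⟨V6_26928230400, [
  ⟨V5_22616481792, nat_lit 1, [(nat_lit 102, nat_lit 26928230400),
  (nat_lit 53, nat_lit 28001968128), (nat_lit 66, nat_lit 27985195008),
  (nat_lit 57, nat_lit 29058932736)]⟩], [
  W6_24763957248, W6_23706992640, W6_23690219520, W6_22633254912, W6_22616481792, W6_21559517184]⟩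

theorem F6_26928230400_chk : fwdChk 6 ks6 F6_26928230400 = true := by decide +kernel

noncomputable def F6_26911715328 : Fwd := ⟨V6_26911715328, [
  ⟨V5_23690477568, nat_lit 3, [(nat_lit 120, nat_lit 26911715328),
  (nat_lit 8, nat_lit 27985453056), (nat_lit 12, nat_lit 29059190784),
  (nat_lit 51, nat_lit 30132928512)]⟩], [
  W6_24763957248, W6_23690477568, W6_23690219520, W6_22616739840, W6_22616481792, W6_21543002112,
  W6_20469264384]⟩

theorem F6_26911715328_chk : fwdChk 6 ks6 F6_26911715328 = true := by decide +kernel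

noncomputable def F6_26911449216 : Fwd := ⟨V6_26911449216, [
  ⟨V5_21542477952, nat_lit 1, [(nat_lit 108, nat_lit 26911449216),
  (nat_lit 50, nat_lit 27984928896)]⟩], [
  W6_24746926080, W6_23689961472, W6_22616481792, W6_22616219712, W6_21542477952]⟩

theorem F6_26911449216_chk : fwdChk 6 ks6 F6_26911449216 = true := by decide +kernel

noncomputable def F6_26911187073 : Fwd := ⟨V6_26911187073, [
  ⟨V5_23656407168, nat_lit 1, [(nat_lit 82, nat_lit 26911187073),
  (nat_lit 46, nat_lit 27984928896), (nat_lit 111, nat_lit 27968151681),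
  (nat_lit 123, nat_lit 29041893504), (nat_lit 36, nat_lit 29025116289),
  (nat_lit 2, nat_lit 30098858112)]⟩], [
  W6_23656407168, W6_22616219712, W6_21542477952]⟩

theorem F6_26911187073_chk : fwdChk 6 ks6 F6_26911187073 = true := by decide +kernel

noncomputable def F6_25971130368 : Fwd := ⟨V6_25971130368, [
  ⟨V5_19528679424, nat_lit 4, [(nat_lit 18, nat_lit 25971130368)]⟩,
  ⟨V5_21642608640, nat_lit 5, [(nat_lit 83, nat_lit 25971130368),
  (nat_lit 111, nat_lit 27028094976), (nat_lit 90, nat_lit 28085059584)]⟩], [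
  W6_25870467072, W6_24813502464, W6_23756537856, W6_22699573248, W6_21642608640, W6_20585644032,
  W6_19528679424]⟩

theorem F6_25971130368_chk : fwdChk 6 ks6 F6_25971130368 = true := by decide +kernel

noncomputable def F6_25954615296 : Fwd := ⟨V6_25954615296, [
  ⟨V5_19512164352, nat_lit 4, [(nat_lit 58, nat_lit 25954615296)]⟩,
  ⟨V5_21642608640, nat_lit 3, [(nat_lit 105, nat_lit 25954615296),
  (nat_lit 65, nat_lit 27028094976), (nat_lit 16, nat_lit 27011579904),
  (nat_lit 37, nat_lit 28085059584)]⟩], [
  W6_25870467072, W6_25853952000, W6_24813502464, W6_24796987392, W6_23756537856, W6_23740022784,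
  W6_22699573248, W6_22683058176, W6_21642608640, W6_21626093568, W6_20585644032, W6_20569128960,
  W6_19512164352]⟩

theorem F6_25954615296_chk : fwdChk 6 ks6 F6_25954615296 = true := by decide +kernel

noncomputable def F6_25938100224 : Fwd := ⟨V6_25938100224, [
  ⟨V5_19495649280, nat_lit 10, [(nat_lit 20, nat_lit 25938100224)]⟩,
  ⟨V5_20552613888, nat_lit 9, [(nat_lit 37, nat_lit 25938100224),
  (nat_lit 88, nat_lit 26995064832)]⟩,
  ⟨V5_21642608640, nat_lit 5, [(nat_lit 47, nat_lit 25938100224),
  (nat_lit 1, nat_lit 27011579904), (nat_lit 46, nat_lit 28085059584)]⟩], [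
  W6_25870467072, W6_25853952000, W6_25837436928, W6_24813502464, W6_24796987392, W6_24780472320,
  W6_23756537856, W6_23740022784, W6_23723507712, W6_22699573248, W6_22683058176, W6_22666543104,
  W6_21642608640, W6_21626093568, W6_21609578496, W6_20569128960, W6_20552613888, W6_19495649280]⟩

theorem F6_25938100224_chk : fwdChk 6 ks6 F6_25938100224 = true := by decide +kernel

noncomputable def F6_25937842176 : Fwd := ⟨V6_25937842176, [
  ⟨V5_19495391232, nat_lit 2, [(nat_lit 83, nat_lit 25937842176)]⟩,
  ⟨V5_20552355840, nat_lit 2, [(nat_lit 73, nat_lit 25937842176),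
  (nat_lit 2, nat_lit 26994806784)]⟩], [
  W6_25853952000, W6_24796987392, W6_23740022784, W6_22683058176, W6_22666285056, W6_21626093568,
  W6_21609320448, W6_20569128960, W6_20552355840, W6_19495391232]⟩

theorem F6_25937842176_chk : fwdChk 6 ks6 F6_25937842176 = true := by decide +kernel

noncomputable def F6_25921585152 : Fwd := ⟨V6_25921585152, [
  ⟨V5_20552613888, nat_lit 9, [(nat_lit 76, nat_lit 25921585152),
  (nat_lit 70, nat_lit 26995064832)]⟩,
  ⟨V5_19479134208, nat_lit 9, [(nat_lit 76, nat_lit 25921585152)]⟩,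
  ⟨V5_22699573248, nat_lit 3, [(nat_lit 77, nat_lit 25921585152),
  (nat_lit 125, nat_lit 26995064832), (nat_lit 22, nat_lit 28068544512),
  (nat_lit 98, nat_lit 29142024192)]⟩,
  ⟨V5_24763957248, nat_lit 1, [(nat_lit 37, nat_lit 25921585152),
  (nat_lit 31, nat_lit 26978549760), (nat_lit 86, nat_lit 28035514368),
  (nat_lit 30, nat_lit 29092478976), (nat_lit 50, nat_lit 30149443584),
  (nat_lit 124, nat_lit 31206408192)]⟩], [
  W6_25870467072, W6_25853952000, W6_25837436928, W6_24813502464, W6_24796987392, W6_24780472320,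
  W6_24763957248, W6_23756537856, W6_23740022784, W6_23723507712, W6_23706992640, W6_22699573248,
  W6_22683058176, W6_22666543104, W6_22650028032, W6_21626093568, W6_21609578496, W6_21593063424,
  W6_20552613888, W6_20536098816, W6_19479134208]⟩

theorem F6_25921585152_chk : fwdChk 6 ks6 F6_25921585152 = true := by decide +kernel

noncomputable def F6_25921327104 : Fwd := ⟨V6_25921327104, [
  ⟨V5_20552613888, nat_lit 9, [(nat_lit 97, nat_lit 25921327104),
  (nat_lit 108, nat_lit 26995064832)]⟩,
  ⟨V5_19478876160, nat_lit 6, [(nat_lit 41, nat_lit 25921327104)]⟩,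
  ⟨V5_24763699200, nat_lit 1, [(nat_lit 73, nat_lit 25921327104),
  (nat_lit 44, nat_lit 26978291712), (nat_lit 77, nat_lit 28035256320),
  (nat_lit 18, nat_lit 29092220928), (nat_lit 30, nat_lit 30149185536),
  (nat_lit 49, nat_lit 31206150144)]⟩], [
  W6_25853952000, W6_25837436928, W6_24796987392, W6_24780472320, W6_24763699200, W6_23740022784,
  W6_23723507712, W6_23706734592, W6_22683058176, W6_22666543104, W6_22666285056, W6_22649769984,
  W6_21626093568, W6_21609578496, W6_21609320448, W6_21592805376, W6_20552613888, W6_20552355840,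
  W6_20535840768, W6_19478876160]⟩

theorem F6_25921327104_chk : fwdChk 6 ks6 F6_25921327104 = true := by decide +kernel

noncomputable def F6_25904553984 : Fwd := ⟨V6_25904553984, [
  ⟨V5_21609578496, nat_lit 9, [(nat_lit 59, nat_lit 25904553984),
  (nat_lit 61, nat_lit 26978291712), (nat_lit 41, nat_lit 28052029440)]⟩,
  ⟨V5_19462103040, nat_lit 9, [(nat_lit 78, nat_lit 25904553984)]⟩,
  ⟨V5_25803890688, nat_lit 1, [(nat_lit 120, nat_lit 25904553984),
  (nat_lit 82, nat_lit 26961518592), (nat_lit 13, nat_lit 28018483200),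
  (nat_lit 119, nat_lit 29075447808), (nat_lit 42, nat_lit 30132412416),
  (nat_lit 44, nat_lit 31189377024), (nat_lit 39, nat_lit 32246341632)]⟩], [
  W6_25837436928, W6_25803890688, W6_24780472320, W6_24763699200, W6_24746926080, W6_23723507712,
  W6_23706734592, W6_23689961472, W6_22666543104, W6_22649769984, W6_22632996864, W6_21609578496,
  W6_21592805376, W6_21576032256, W6_20535840768, W6_20519067648, W6_19462103040]⟩

theorem F6_25904553984_chk : fwdChk 6 ks6 F6_25904553984 = true := by decide +kernel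

noncomputable def F6_25904549952 : Fwd := ⟨V6_25904549952, [
  ⟨V5_20519063616, nat_lit 1, [(nat_lit 82, nat_lit 25904549952),
  (nat_lit 30, nat_lit 26961514560)]⟩,
  ⟨V5_19462099008, nat_lit 2, [(nat_lit 8, nat_lit 25904549952)]⟩], [
  W6_24763699200, W6_23706734592, W6_22666285056, W6_22649769984, W6_21609320448, W6_21592805376,
  W6_20535840768, W6_20519063616, W6_19462099008]⟩

theorem F6_25904549952_chk : fwdChk 6 ks6 F6_25904549952 = true := by decide +kernel

noncomputable def F6_25872039936 : Fwd := ⟨V6_25872039936, [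
  ⟨V5_19429588992, nat_lit 7, [(nat_lit 113, nat_lit 25872039936)]⟩,
  ⟨V5_25870467072, nat_lit 3, [(nat_lit 91, nat_lit 25872039936),
  (nat_lit 115, nat_lit 26945519616), (nat_lit 121, nat_lit 28018999296),
  (nat_lit 96, nat_lit 29092478976), (nat_lit 58, nat_lit 30165958656),
  (nat_lit 122, nat_lit 31239438336), (nat_lit 70, nat_lit 32312918016)]⟩], [
  W6_25870467072, W6_24796987392, W6_23723507712, W6_22650028032, W6_21576548352, W6_20503068672,
  W6_19429588992]⟩

theorem F6_25872039936_chk : fwdChk 6 ks6 F6_25872039936 = true := by decide +kernel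

noncomputable def F6_25855004736 : Fwd := ⟨V6_25855004736, [
  ⟨V5_19412553792, nat_lit 1, [(nat_lit 17, nat_lit 25855004736)]⟩,
  ⟨V5_21559513152, nat_lit 1, [(nat_lit 51, nat_lit 25855004736),
  (nat_lit 2, nat_lit 26928484416), (nat_lit 71, nat_lit 28001964096)]⟩], [
  W6_23706734592, W6_22633254912, W6_21559775232, W6_21559513152, W6_20486295552, W6_20486033472,
  W6_19412553792]⟩

theorem F6_25855004736_chk : fwdChk 6 ks6 F6_25855004736 = true := by decide +kernel

noncomputable def F6_25854222465 : Fwd := ⟨V6_25854222465, [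
  ⟨V5_23656407168, nat_lit 1, [(nat_lit 16, nat_lit 25854222465),
  (nat_lit 83, nat_lit 26927964288), (nat_lit 117, nat_lit 26911187073),
  (nat_lit 36, nat_lit 27984928896), (nat_lit 61, nat_lit 27968151681),
  (nat_lit 33, nat_lit 29041893504), (nat_lit 26, nat_lit 29025116289),
  (nat_lit 110, nat_lit 30098858112)]⟩], [
  W6_23656407168, W6_22616219712, W6_21559255104, W6_21542477952, W6_20485513344]⟩

theorem F6_25854222465_chk : fwdChk 6 ks6 F6_25854222465 = true := by decide +kernel

noncomputable def F6_24914165760 : Fwd := ⟨V6_24914165760, [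
  ⟨V5_19528679424, nat_lit 4, [(nat_lit 117, nat_lit 24914165760),
  (nat_lit 5, nat_lit 25971130368)]⟩,
  ⟨V5_18471714816, nat_lit 1, [(nat_lit 88, nat_lit 24914165760)]⟩], [
  W6_24813502464, W6_23756537856, W6_22699573248, W6_21642608640, W6_20585644032, W6_19528679424,
  W6_18471714816]⟩

theorem F6_24914165760_chk : fwdChk 6 ks6 F6_24914165760 = true := by decide +kernel

noncomputable def F6_24897650688 : Fwd := ⟨V6_24897650688, [
  ⟨V5_19512164352, nat_lit 4, [(nat_lit 35, nat_lit 24897650688),
  (nat_lit 30, nat_lit 25954615296)]⟩,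
  ⟨V5_18455199744, nat_lit 4, [(nat_lit 11, nat_lit 24897650688)]⟩,
  ⟨V5_19528679424, nat_lit 3, [(nat_lit 114, nat_lit 24897650688),
  (nat_lit 81, nat_lit 25971130368)]⟩], [
  W6_24813502464, W6_24796987392, W6_23756537856, W6_23740022784, W6_22699573248, W6_22683058176,
  W6_21642608640, W6_21626093568, W6_20585644032, W6_20569128960, W6_19528679424, W6_19512164352,
  W6_18455199744]⟩

theorem F6_24897650688_chk : fwdChk 6 ks6 F6_24897650688 = true := by decide +kernel

noncomputable def F6_24881135616 : Fwd := ⟨V6_24881135616, [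
  ⟨V5_19495649280, nat_lit 10, [(nat_lit 76, nat_lit 24881135616),
  (nat_lit 11, nat_lit 25938100224)]⟩,
  ⟨V5_18438684672, nat_lit 7, [(nat_lit 56, nat_lit 24881135616)]⟩,
  ⟨V5_19512164352, nat_lit 4, [(nat_lit 68, nat_lit 24881135616),
  (nat_lit 76, nat_lit 25954615296)]⟩,
  ⟨V5_21642608640, nat_lit 5, [(nat_lit 9, nat_lit 24881135616),
  (nat_lit 50, nat_lit 25954615296), (nat_lit 83, nat_lit 25938100224),
  (nat_lit 4, nat_lit 27028094976), (nat_lit 109, nat_lit 27011579904),
  (nat_lit 59, nat_lit 28085059584)]⟩], [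
  W6_24813502464, W6_24796987392, W6_24780472320, W6_23756537856, W6_23740022784, W6_23723507712,
  W6_22699573248, W6_22683058176, W6_22666543104, W6_21642608640, W6_21626093568, W6_21609578496,
  W6_20585644032, W6_20569128960, W6_20552613888, W6_19512164352, W6_19495649280, W6_18438684672]⟩

theorem F6_24881135616_chk : fwdChk 6 ks6 F6_24881135616 = true := by decide +kernel

noncomputable def F6_24880877568 : Fwd := ⟨V6_24880877568, [
  ⟨V5_19512164352, nat_lit 4, [(nat_lit 42, nat_lit 24880877568),
  (nat_lit 124, nat_lit 25954615296)]⟩,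
  ⟨V5_18438426624, nat_lit 1, [(nat_lit 44, nat_lit 24880877568)]⟩], [
  W6_24796987392, W6_23740022784, W6_22683058176, W6_22666285056, W6_21626093568, W6_21609320448,
  W6_20569128960, W6_20552355840, W6_19512164352, W6_19495391232, W6_18438426624]⟩

theorem F6_24880877568_chk : fwdChk 6 ks6 F6_24880877568 = true := by decide +kernel

noncomputable def F6_24864362496 : Fwd := ⟨V6_24864362496, [
  ⟨V5_18421911552, nat_lit 8, [(nat_lit 124, nat_lit 24864362496)]⟩,
  ⟨V5_19495649280, nat_lit 10, [(nat_lit 85, nat_lit 24864362496),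
  (nat_lit 3, nat_lit 25938100224)]⟩,
  ⟨V5_20552355840, nat_lit 2, [(nat_lit 59, nat_lit 24864362496),
  (nat_lit 109, nat_lit 25937842176), (nat_lit 88, nat_lit 25921327104),
  (nat_lit 77, nat_lit 26994806784)]⟩,
  ⟨V5_24763699200, nat_lit 1, [(nat_lit 10, nat_lit 24864362496),
  (nat_lit 71, nat_lit 25921327104), (nat_lit 36, nat_lit 26978291712),
  (nat_lit 37, nat_lit 28035256320), (nat_lit 32, nat_lit 29092220928),
  (nat_lit 36, nat_lit 30149185536), (nat_lit 7, nat_lit 31206150144)]⟩], [
  W6_24796987392, W6_24780472320, W6_24763699200, W6_23740022784, W6_23723507712, W6_23706734592,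
  W6_22683058176, W6_22666543104, W6_22666285056, W6_22649769984, W6_21626093568, W6_21609578496,
  W6_21609320448, W6_21592805376, W6_20569128960, W6_20552613888, W6_20552355840, W6_20535840768,
  W6_19495649280, W6_19495391232, W6_19478876160, W6_18421911552]⟩

theorem F6_24864362496_chk : fwdChk 6 ks6 F6_24864362496 = true := by decide +kernel

noncomputable def F6_24847589376 : Fwd := ⟨V6_24847589376, [
  ⟨V5_18405138432, nat_lit 6, [(nat_lit 34, nat_lit 24847589376)]⟩,
  ⟨V5_20552613888, nat_lit 9, [(nat_lit 48, nat_lit 24847589376),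
  (nat_lit 101, nat_lit 25921327104), (nat_lit 74, nat_lit 26995064832)]⟩,
  ⟨V5_23689961472, nat_lit 2, [(nat_lit 122, nat_lit 24847589376),
  (nat_lit 6, nat_lit 25904553984), (nat_lit 94, nat_lit 26961518592),
  (nat_lit 114, nat_lit 28018483200), (nat_lit 76, nat_lit 29075447808),
  (nat_lit 93, nat_lit 30132412416)]⟩], [
  W6_24780472320, W6_24763699200, W6_24746926080, W6_23723507712, W6_23706734592, W6_23689961472,
  W6_22666543104, W6_22649769984, W6_22632996864, W6_21609578496, W6_21592805376, W6_21576032256,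
  W6_20552613888, W6_20535840768, W6_20519067648, W6_19478876160, W6_19462103040, W6_18405138432]⟩

theorem F6_24847589376_chk : fwdChk 6 ks6 F6_24847589376 = true := by decide +kernel

noncomputable def F6_24847585344 : Fwd := ⟨V6_24847585344, [
  ⟨V5_18405134400, nat_lit 2, [(nat_lit 103, nat_lit 24847585344)]⟩,
  ⟨V5_20552355840, nat_lit 2, [(nat_lit 66, nat_lit 24847585344),
  (nat_lit 30, nat_lit 25921327104), (nat_lit 15, nat_lit 25921065024),
  (nat_lit 12, nat_lit 26994806784)]⟩,
  ⟨V5_20519063616, nat_lit 1, [(nat_lit 50, nat_lit 24847585344),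
  (nat_lit 90, nat_lit 25904549952), (nat_lit 28, nat_lit 26961514560)]⟩], [
  W6_24763699200, W6_23706734592, W6_22666285056, W6_22649769984, W6_21609320448, W6_21592805376,
  W6_20552355840, W6_20535840768, W6_20519063616, W6_19478876160, W6_19462099008, W6_18405134400]⟩

theorem F6_24847585344_chk : fwdChk 6 ks6 F6_24847585344 = true := by decide +kernel

noncomputable def F6_24831590400 : Fwd := ⟨V6_24831590400, [
  ⟨V5_19462619136, nat_lit 13, [(nat_lit 47, nat_lit 24831590400),
  (nat_lit 39, nat_lit 25905070080)]⟩,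
  ⟨V5_18389139456, nat_lit 10, [(nat_lit 89, nat_lit 24831590400)]⟩,
  ⟨V5_19446104064, nat_lit 7, [(nat_lit 27, nat_lit 24831590400),
  (nat_lit 117, nat_lit 25888555008)]⟩,
  ⟨V5_23756537856, nat_lit 3, [(nat_lit 74, nat_lit 24831590400),
  (nat_lit 16, nat_lit 25905070080), (nat_lit 121, nat_lit 26978549760),
  (nat_lit 11, nat_lit 28052029440), (nat_lit 32, nat_lit 29125509120),
  (nat_lit 114, nat_lit 30198988800)]⟩], [
  W6_24813502464, W6_24796987392, W6_24780472320, W6_23756537856, W6_23740022784, W6_23723507712,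
  W6_23706992640, W6_22683058176, W6_22666543104, W6_22650028032, W6_22633512960, W6_21609578496,
  W6_21593063424, W6_21576548352, W6_20536098816, W6_20519583744, W6_20503068672, W6_19462619136,
  W6_19446104064, W6_18389139456]⟩

theorem F6_24831590400_chk : fwdChk 6 ks6 F6_24831590400 = true := by decide +kernel

noncomputable def F6_24831074304 : Fwd := ⟨V6_24831074304, [
  ⟨V5_19462103040, nat_lit 9, [(nat_lit 65, nat_lit 24831074304),
  (nat_lit 90, nat_lit 25904553984)]⟩,
  ⟨V5_18388623360, nat_lit 10, [(nat_lit 9, nat_lit 24831074304)]⟩,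
  ⟨V5_19462361088, nat_lit 10, [(nat_lit 121, nat_lit 24831074304),
  (nat_lit 96, nat_lit 25904812032)]⟩,
  ⟨V5_20519067648, nat_lit 4, [(nat_lit 22, nat_lit 24831074304),
  (nat_lit 74, nat_lit 25904553984), (nat_lit 79, nat_lit 25888038912),
  (nat_lit 18, nat_lit 26961518592)]⟩], [
  W6_24780472320, W6_24763957248, W6_24763699200, W6_24746926080, W6_23723507712, W6_23706992640,
  W6_23706734592, W6_23690219520, W6_23689961472, W6_22666543104, W6_22650028032, W6_22649769984,
  W6_22633254912, W6_22632996864, W6_22616481792, W6_21609578496, W6_21593063424, W6_21592805376,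
  W6_21576290304, W6_21576032256, W6_21559517184, W6_20536098816, W6_20535840768, W6_20519325696,
  W6_20519067648, W6_20502552576, W6_19462361088, W6_19462103040, W6_19445587968, W6_18388623360]⟩

theorem F6_24831074304_chk : fwdChk 6 ks6 F6_24831074304 = true := by decide +kernel

noncomputable def F6_24831070272 : Fwd := ⟨V6_24831070272, [
  ⟨V5_19462361088, nat_lit 10, [(nat_lit 24, nat_lit 24831070272),
  (nat_lit 66, nat_lit 25904812032)]⟩,
  ⟨V5_21559513152, nat_lit 1, [(nat_lit 113, nat_lit 24831070272),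
  (nat_lit 62, nat_lit 25888034880), (nat_lit 107, nat_lit 26944999488),
  (nat_lit 32, nat_lit 28001964096)]⟩], [
  W6_24763699200, W6_23706734592, W6_23690219520, W6_22666285056, W6_22649769984, W6_22633254912,
  W6_21609320448, W6_21592805376, W6_21576290304, W6_21559513152, W6_20535840768, W6_20519325696,
  W6_20519063616, W6_19462361088, W6_19462099008, W6_19445583936, W6_18388619328]⟩

theorem F6_24831070272_chk : fwdChk 6 ks6 F6_24831070272 = true := by decide +kernel

noncomputable def F6_24814035072 : Fwd := ⟨V6_24814035072, [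
  ⟨V5_20519067648, nat_lit 5, [(nat_lit 61, nat_lit 24814035072),
  (nat_lit 48, nat_lit 25887776832), (nat_lit 51, nat_lit 26961518592)]⟩,
  ⟨V5_23656407168, nat_lit 1, [(nat_lit 10, nat_lit 24814035072),
  (nat_lit 12, nat_lit 25870999680), (nat_lit 32, nat_lit 26927964288),
  (nat_lit 22, nat_lit 27984928896), (nat_lit 111, nat_lit 29041893504),
  (nat_lit 26, nat_lit 30098858112)]⟩], [
  W6_24746926080, W6_23689961472, W6_23656407168, W6_22632996864, W6_22616219712, W6_21576032256,
  W6_21559255104, W6_21542477952, W6_20519067648, W6_20502290496, W6_20485513344, W6_19445325888,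
  W6_19428548736, W6_18371584128]⟩

theorem F6_24814035072_chk : fwdChk 6 ks6 F6_24814035072 = true := by decide +kernel

noncomputable def F6_24814035009 : Fwd := ⟨V6_24814035009, [
  ⟨V5_20519063616, nat_lit 1, [(nat_lit 2, nat_lit 24814035009),
  (nat_lit 11, nat_lit 25887776832), (nat_lit 91, nat_lit 25887772737),
  (nat_lit 63, nat_lit 26961514560)]⟩], [
  W6_22616219712, W6_21559255104, W6_20519063616, W6_20502290496, W6_19445325888]⟩

theorem F6_24814035009_chk : fwdChk 6 ks6 F6_24814035009 = true := by decide +kernel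

noncomputable def F6_24798302208 : Fwd := ⟨V6_24798302208, [
  ⟨V5_19429588992, nat_lit 7, [(nat_lit 14, nat_lit 24798302208),
  (nat_lit 126, nat_lit 25872039936)]⟩,
  ⟨V5_18355851264, nat_lit 5, [(nat_lit 18, nat_lit 24798302208)]⟩,
  ⟨V5_22649769984, nat_lit 3, [(nat_lit 46, nat_lit 24798302208),
  (nat_lit 123, nat_lit 25871781888), (nat_lit 114, nat_lit 26945261568),
  (nat_lit 96, nat_lit 28018741248), (nat_lit 73, nat_lit 29092220928)]⟩], [
  W6_24796987392, W6_23723507712, W6_22650028032, W6_22649769984, W6_21576548352, W6_21576290304,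
  W6_20503068672, W6_20502810624, W6_19429588992, W6_19429330944, W6_18355851264]⟩

theorem F6_24798302208_chk : fwdChk 6 ks6 F6_24798302208 = true := by decide +kernel

noncomputable def F6_24798044160 : Fwd := ⟨V6_24798044160, [
  ⟨V5_18355593216, nat_lit 7, [(nat_lit 110, nat_lit 24798044160)]⟩,
  ⟨V5_19429072896, nat_lit 9, [(nat_lit 33, nat_lit 24798044160),
  (nat_lit 49, nat_lit 25871523840)]⟩,
  ⟨V5_21576032256, nat_lit 5, [(nat_lit 63, nat_lit 24798044160),
  (nat_lit 101, nat_lit 25871523840), (nat_lit 79, nat_lit 26945003520),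
  (nat_lit 85, nat_lit 28018483200)]⟩], [
  W6_24780472320, W6_23723507712, W6_23706992640, W6_23706734592, W6_22650028032, W6_22649769984,
  W6_22633512960, W6_22633254912, W6_22632996864, W6_21576548352, W6_21576290304, W6_21576032256,
  W6_21559775232, W6_21559517184, W6_20503068672, W6_20502810624, W6_20502552576, W6_20486295552,
  W6_20486037504, W6_19429330944, W6_19429072896, W6_19412557824, W6_18355593216]⟩

theorem F6_24798044160_chk : fwdChk 6 ks6 F6_24798044160 = true := by decide +kernel

noncomputable def F6_24781271040 : Fwd := ⟨V6_24781271040, [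
  ⟨V5_19412299776, nat_lit 2, [(nat_lit 50, nat_lit 24781271040),
  (nat_lit 55, nat_lit 25854750720)]⟩], [
  W6_23706992640, W6_22633512960, W6_22633254912, W6_21559775232, W6_21559517184, W6_20486295552,
  W6_20486037504, W6_19412557824, W6_19412299776]⟩

theorem F6_24781271040_chk : fwdChk 6 ks6 F6_24781271040 = true := by decide +kernel

noncomputable def F6_24781262913 : Fwd := ⟨V6_24781262913, [
  ⟨V5_19412553792, nat_lit 1, [(nat_lit 91, nat_lit 24781262913),
  (nat_lit 119, nat_lit 25855004736)]⟩], [
  W6_21559513152, W6_20486033472, W6_19412553792]⟩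

theorem F6_24781262913_chk : fwdChk 6 ks6 F6_24781262913 = true := by decide +kernel

noncomputable def F6_24764235840 : Fwd := ⟨V6_24764235840, [
  ⟨V5_19395526656, nat_lit 2, [(nat_lit 48, nat_lit 24764235840),
  (nat_lit 5, nat_lit 25837977600)]⟩], [
  W6_22616739840, W6_21543002112, W6_20469264384, W6_20469260352, W6_19395526656, W6_18321784896]⟩

theorem F6_24764235840_chk : fwdChk 6 ks6 F6_24764235840 = true := by decide +kernel

noncomputable def F6_24764231808 : Fwd := ⟨V6_24764231808, [
  ⟨V5_19395518592, nat_lit 1, [(nat_lit 106, nat_lit 24764231808),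
  (nat_lit 111, nat_lit 25837969536)]⟩], [
  W6_22616481792, W6_21543002112, W6_20469264384, W6_20469260352, W6_19395518592]⟩

theorem F6_24764231808_chk : fwdChk 6 ks6 F6_24764231808 = true := by decide +kernel

noncomputable def F6_23857201152 : Fwd := ⟨V6_23857201152, [
  ⟨V5_17414750208, nat_lit 2, [(nat_lit 101, nat_lit 23857201152)]⟩,
  ⟨V5_19528679424, nat_lit 4, [(nat_lit 50, nat_lit 23857201152),
  (nat_lit 77, nat_lit 24914165760), (nat_lit 106, nat_lit 25971130368)]⟩], [
  W6_23756537856, W6_22699573248, W6_21642608640, W6_20585644032, W6_19528679424, W6_18471714816,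
  W6_17414750208]⟩

theorem F6_23857201152_chk : fwdChk 6 ks6 F6_23857201152 = true := by decide +kernel

noncomputable def F6_23823912960 : Fwd := ⟨V6_23823912960, [
  ⟨V5_18438426624, nat_lit 2, [(nat_lit 68, nat_lit 23823912960),
  (nat_lit 93, nat_lit 24880877568)]⟩,
  ⟨V5_17381462016, nat_lit 1, [(nat_lit 14, nat_lit 23823912960)]⟩,
  ⟨V5_19495391232, nat_lit 1, [(nat_lit 82, nat_lit 23823912960),
  (nat_lit 116, nat_lit 24880877568), (nat_lit 62, nat_lit 25937842176)]⟩], [
  W6_23740022784, W6_22683058176, W6_22666285056, W6_21626093568, W6_21609320448, W6_20569128960,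
  W6_20552355840, W6_19512164352, W6_19495391232, W6_18455199744, W6_18438426624, W6_17381462016]⟩

theorem F6_23823912960_chk : fwdChk 6 ks6 F6_23823912960 = true := by decide +kernel

noncomputable def F6_23807135808 : Fwd := ⟨V6_23807135808, [
  ⟨V5_17364684864, nat_lit 1, [(nat_lit 74, nat_lit 23807135808)]⟩], [
  W6_22666285056, W6_21609320448, W6_20552355840, W6_19495391232, W6_18438426624, W6_17364684864]⟩

theorem F6_23807135808_chk : fwdChk 6 ks6 F6_23807135808 = true := by decide +kernel

noncomputable def F6_23790624768 : Fwd := ⟨V6_23790624768, [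
  ⟨V5_17348173824, nat_lit 8, [(nat_lit 33, nat_lit 23790624768)]⟩,
  ⟨V5_18421911552, nat_lit 8, [(nat_lit 105, nat_lit 23790624768),
  (nat_lit 80, nat_lit 24864362496)]⟩,
  ⟨V5_18405138432, nat_lit 5, [(nat_lit 57, nat_lit 23790624768),
  (nat_lit 40, nat_lit 24847589376)]⟩,
  ⟨V5_23689961472, nat_lit 2, [(nat_lit 25, nat_lit 23790624768),
  (nat_lit 24, nat_lit 24847589376), (nat_lit 71, nat_lit 25904553984),
  (nat_lit 70, nat_lit 26961518592), (nat_lit 100, nat_lit 28018483200),
  (nat_lit 61, nat_lit 29075447808), (nat_lit 104, nat_lit 30132412416)]⟩,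
  ⟨V5_22632996864, nat_lit 1, [(nat_lit 95, nat_lit 23790624768),
  (nat_lit 119, nat_lit 24847589376), (nat_lit 107, nat_lit 25904553984),
  (nat_lit 81, nat_lit 26961518592), (nat_lit 95, nat_lit 28018483200),
  (nat_lit 96, nat_lit 29075447808)]⟩], [
  W6_23723507712, W6_23706734592, W6_23689961472, W6_22666543104, W6_22649769984, W6_22632996864,
  W6_21609578496, W6_21592805376, W6_21576032256, W6_20552613888, W6_20535840768, W6_20519067648,
  W6_19495649280, W6_19478876160, W6_19462103040, W6_18421911552, W6_18405138432, W6_17348173824]⟩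

theorem F6_23790624768_chk : fwdChk 6 ks6 F6_23790624768 = true := by decide +kernel

noncomputable def F6_23790620736 : Fwd := ⟨V6_23790620736, [
  ⟨V5_18421911552, nat_lit 8, [(nat_lit 118, nat_lit 23790620736),
  (nat_lit 46, nat_lit 24864362496)]⟩], [
  W6_23706734592, W6_22666285056, W6_22649769984, W6_21609320448, W6_21592805376, W6_20552355840,
  W6_20535840768, W6_20519063616, W6_19495391232, W6_19478876160, W6_19462099008, W6_18421911552,
  W6_18405134400, W6_17348169792]⟩

theorem F6_23790620736_chk : fwdChk 6 ks6 F6_23790620736 = true := by decide +kernel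

noncomputable def F6_23774105664 : Fwd := ⟨V6_23774105664, [
  ⟨V5_18405396480, nat_lit 10, [(nat_lit 108, nat_lit 23774105664),
  (nat_lit 83, nat_lit 24847847424)]⟩,
  ⟨V5_18405134400, nat_lit 2, [(nat_lit 54, nat_lit 23774105664),
  (nat_lit 30, nat_lit 24847585344)]⟩,
  ⟨V5_21559513152, nat_lit 1, [(nat_lit 120, nat_lit 23774105664),
  (nat_lit 124, nat_lit 24831070272), (nat_lit 87, nat_lit 25888034880),
  (nat_lit 12, nat_lit 26944999488), (nat_lit 61, nat_lit 28001964096)]⟩], [
  W6_23706734592, W6_23690219520, W6_22666285056, W6_22649769984, W6_22633254912, W6_21609320448,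
  W6_21592805376, W6_21576290304, W6_21559513152, W6_20552355840, W6_20535840768, W6_20519325696,
  W6_20519063616, W6_19478876160, W6_19462361088, W6_19462099008, W6_19445583936, W6_18405396480,
  W6_18405134400, W6_18388619328, W6_17331654720]⟩

theorem F6_23774105664_chk : fwdChk 6 ks6 F6_23774105664 = true := by decide +kernel

noncomputable def F6_23757328449 : Fwd := ⟨V6_23757328449, [
  ⟨V5_21559513152, nat_lit 1, [(nat_lit 67, nat_lit 23757328449),
  (nat_lit 8, nat_lit 24831070272), (nat_lit 21, nat_lit 24814293057),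
  (nat_lit 23, nat_lit 25888034880), (nat_lit 102, nat_lit 25871257665),
  (nat_lit 52, nat_lit 26944999488), (nat_lit 72, nat_lit 26928222273),
  (nat_lit 79, nat_lit 28001964096)]⟩], [
  W6_21559513152, W6_20519063616, W6_19462099008, W6_19445583936, W6_18388619328]⟩

theorem F6_23757328449_chk : fwdChk 6 ks6 F6_23757328449 = true := by decide +kernel

noncomputable def F6_23741595648 : Fwd := ⟨V6_23741595648, [
  ⟨V5_18372624384, nat_lit 7, [(nat_lit 108, nat_lit 23741595648),
  (nat_lit 55, nat_lit 24815075328)]⟩], [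
  W6_23740022784, W6_22666543104, W6_21593063424, W6_20519583744, W6_19446104064, W6_18372624384,
  W6_17299144704]⟩

theorem F6_23741595648_chk : fwdChk 6 ks6 F6_23741595648 = true := by decide +kernel

noncomputable def F6_23741337600 : Fwd := ⟨V6_23741337600, [
  ⟨V5_17298886656, nat_lit 9, [(nat_lit 46, nat_lit 23741337600)]⟩,
  ⟨V5_19429588992, nat_lit 7, [(nat_lit 6, nat_lit 23741337600),
  (nat_lit 72, nat_lit 24815075328), (nat_lit 55, nat_lit 24798302208),
  (nat_lit 102, nat_lit 25872039936)]⟩,
  ⟨V5_18355851264, nat_lit 5, [(nat_lit 54, nat_lit 23741337600),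
  (nat_lit 107, nat_lit 24798302208)]⟩,
  ⟨V5_18372624384, nat_lit 7, [(nat_lit 16, nat_lit 23741337600),
  (nat_lit 125, nat_lit 24815075328)]⟩,
  ⟨V5_23740022784, nat_lit 3, [(nat_lit 69, nat_lit 23741337600),
  (nat_lit 55, nat_lit 24815075328), (nat_lit 120, nat_lit 24814817280),
  (nat_lit 55, nat_lit 25888555008), (nat_lit 82, nat_lit 25888296960),
  (nat_lit 44, nat_lit 26962034688), (nat_lit 108, nat_lit 26961776640),
  (nat_lit 55, nat_lit 28035514368), (nat_lit 116, nat_lit 28035256320),
  (nat_lit 40, nat_lit 29108994048), (nat_lit 65, nat_lit 29108736000),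
  (nat_lit 62, nat_lit 30182473728)]⟩], [
  W6_23740022784, W6_23723507712, W6_22666543104, W6_22666285056, W6_22650028032, W6_22649769984,
  W6_21593063424, W6_21592805376, W6_21576548352, W6_21576290304, W6_20519583744, W6_20519325696,
  W6_20503068672, W6_20502810624, W6_19446104064, W6_19445846016, W6_19429588992, W6_19429330944,
  W6_18372624384, W6_18372366336, W6_18355851264, W6_17298886656]⟩

theorem F6_23741337600_chk : fwdChk 6 ks6 F6_23741337600 = true := by decide +kernel

noncomputable def F6_23740821504 : Fwd := ⟨V6_23740821504, [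
  ⟨V5_17298370560, nat_lit 7, [(nat_lit 91, nat_lit 23740821504)]⟩,
  ⟨V5_20519583744, nat_lit 11, [(nat_lit 114, nat_lit 23740821504),
  (nat_lit 104, nat_lit 24814559232), (nat_lit 125, nat_lit 25888296960),
  (nat_lit 92, nat_lit 26962034688)]⟩,
  ⟨V5_18355335168, nat_lit 4, [(nat_lit 69, nat_lit 23740821504),
  (nat_lit 45, nat_lit 24797786112)]⟩,
  ⟨V5_18371850240, nat_lit 2, [(nat_lit 14, nat_lit 23740821504),
  (nat_lit 117, nat_lit 24814301184)]⟩,
  ⟨V5_19412299776, nat_lit 2, [(nat_lit 27, nat_lit 23740821504),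
  (nat_lit 59, nat_lit 24797786112), (nat_lit 81, nat_lit 25854750720)]⟩], [
  W6_23706992640, W6_23690477568, W6_23690219520, W6_22650028032, W6_22633512960, W6_22633254912,
  W6_22616739840, W6_22616481792, W6_21593063424, W6_21576548352, W6_21576290304, W6_21559775232,
  W6_21559517184, W6_21543002112, W6_20519583744, W6_20519325696, W6_20502810624, W6_20502552576,
  W6_20486037504, W6_20469264384, W6_19445846016, W6_19445587968, W6_19429072896, W6_19428814848,
  W6_19412299776, W6_18372108288, W6_18371850240, W6_18355335168, W6_17298370560]⟩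

theorem F6_23740821504_chk : fwdChk 6 ks6 F6_23740821504 = true := by decide +kernel

noncomputable def F6_23740813377 : Fwd := ⟨V6_23740813377, [
  ⟨V5_20519063616, nat_lit 1, [(nat_lit 55, nat_lit 23740813377),
  (nat_lit 55, nat_lit 24814555200), (nat_lit 9, nat_lit 24814293057),
  (nat_lit 2, nat_lit 25888034880), (nat_lit 51, nat_lit 25887772737),
  (nat_lit 100, nat_lit 26961514560)]⟩], [
  W6_21559513152, W6_20519063616, W6_20486033472, W6_19445583936, W6_19429068864, W6_18372104256]⟩

theorem F6_23740813377_chk : fwdChk 6 ks6 F6_23740813377 = true := by decide +kernel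

noncomputable def F6_23724564480 : Fwd := ⟨V6_23724564480, [
  ⟨V5_17282113536, nat_lit 8, [(nat_lit 108, nat_lit 23724564480)]⟩,
  ⟨V5_19429588992, nat_lit 7, [(nat_lit 18, nat_lit 23724564480),
  (nat_lit 35, nat_lit 24798302208), (nat_lit 113, nat_lit 25872039936)]⟩,
  ⟨V5_18355851264, nat_lit 5, [(nat_lit 67, nat_lit 23724564480),
  (nat_lit 45, nat_lit 24798302208)]⟩,
  ⟨V5_21576032256, nat_lit 5, [(nat_lit 9, nat_lit 23724564480),
  (nat_lit 90, nat_lit 24798044160), (nat_lit 44, nat_lit 25871523840),
  (nat_lit 120, nat_lit 26945003520), (nat_lit 78, nat_lit 28018483200)]⟩], [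
  W6_23723507712, W6_22650028032, W6_22649769984, W6_21576548352, W6_21576290304, W6_21576032256,
  W6_20503068672, W6_20502810624, W6_20502552576, W6_19429588992, W6_19429330944, W6_19429072896,
  W6_18355851264, W6_18355593216, W6_17282113536]⟩

theorem F6_23724564480_chk : fwdChk 6 ks6 F6_23724564480 = true := by decide +kernel

noncomputable def F6_23724048384 : Fwd := ⟨V6_23724048384, [
  ⟨V5_17281597440, nat_lit 5, [(nat_lit 32, nat_lit 23724048384)]⟩,
  ⟨V5_21576548352, nat_lit 9, [(nat_lit 79, nat_lit 23724048384),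
  (nat_lit 85, nat_lit 24797786112), (nat_lit 110, nat_lit 25871523840),
  (nat_lit 84, nat_lit 26945261568), (nat_lit 12, nat_lit 28018999296)]⟩,
  ⟨V5_19395526656, nat_lit 2, [(nat_lit 106, nat_lit 23724048384),
  (nat_lit 115, nat_lit 24781012992), (nat_lit 98, nat_lit 25837977600)]⟩], [
  W6_23690477568, W6_22633512960, W6_22616739840, W6_21576548352, W6_21559775232, W6_21543002112,
  W6_20502810624, W6_20486037504, W6_20469264384, W6_19429072896, W6_19412299776, W6_19395526656,
  W6_18355335168, W6_18338562048, W6_17281597440]⟩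

theorem F6_23724048384_chk : fwdChk 6 ks6 F6_23724048384 = true := by decide +kernel

noncomputable def F6_23723778177 : Fwd := ⟨V6_23723778177, [
  ⟨V5_19428548736, nat_lit 2, [(nat_lit 58, nat_lit 23723778177),
  (nat_lit 124, nat_lit 24797520000), (nat_lit 94, nat_lit 24797257857),
  (nat_lit 13, nat_lit 25870999680)]⟩], [
  W6_22616219712, W6_21559255104, W6_21542477952, W6_20502290496, W6_20485775424, W6_20485513344,
  W6_19428810816, W6_19428548736, W6_18355069056]⟩

theorem F6_23723778177_chk : fwdChk 6 ks6 F6_23723778177 = true := by decide +kernel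

noncomputable def F6_23723516034 : Fwd := ⟨V6_23723516034, [
  ⟨V5_19428548736, nat_lit 2, [(nat_lit 79, nat_lit 23723516034),
  (nat_lit 58, nat_lit 24797257857), (nat_lit 14, nat_lit 25870999680)]⟩], [
  W6_23656407168, W6_21542477952, W6_20485513344, W6_19428548736]⟩

theorem F6_23723516034_chk : fwdChk 6 ks6 F6_23723516034 = true := by decide +kernel

noncomputable def F6_23690494080 : Fwd := ⟨V6_23690494080, [
  ⟨V5_19395526656, nat_lit 2, [(nat_lit 77, nat_lit 23690494080),
  (nat_lit 80, nat_lit 24764235840), (nat_lit 124, nat_lit 25837977600)]⟩,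
  ⟨V5_17248043136, nat_lit 1, [(nat_lit 124, nat_lit 23690494080)]⟩], [
  W6_21543002112, W6_20469264384, W6_20469260352, W6_19395526656, W6_19395518592, W6_18321784896,
  W6_17248043136]⟩

theorem F6_23690494080_chk : fwdChk 6 ks6 F6_23690494080 = true := by decide +kernel

noncomputable def F6_23690485890 : Fwd := ⟨V6_23690485890, [
  ⟨V5_19395518592, nat_lit 1, [(nat_lit 48, nat_lit 23690485890),
  (nat_lit 69, nat_lit 24764227713), (nat_lit 113, nat_lit 25837969536)]⟩], [
  W6_21542477952, W6_19395518592]⟩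

theorem F6_23690485890_chk : fwdChk 6 ks6 F6_23690485890 = true := by decide +kernel

noncomputable def F6_22800236544 : Fwd := ⟨V6_22800236544, [
  ⟨V5_19528679424, nat_lit 4, [(nat_lit 65, nat_lit 22800236544),
  (nat_lit 93, nat_lit 23857201152), (nat_lit 33, nat_lit 24914165760),
  (nat_lit 95, nat_lit 25971130368)]⟩,
  ⟨V5_18471714816, nat_lit 1, [(nat_lit 61, nat_lit 22800236544),
  (nat_lit 113, nat_lit 23857201152), (nat_lit 116, nat_lit 24914165760)]⟩], [
  W6_22699573248, W6_21642608640, W6_20585644032, W6_19528679424, W6_18471714816, W6_17414750208]⟩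

theorem F6_22800236544_chk : fwdChk 6 ks6 F6_22800236544 = true := by decide +kernel

noncomputable def F6_22783721472 : Fwd := ⟨V6_22783721472, [
  ⟨V5_17398235136, nat_lit 3, [(nat_lit 122, nat_lit 22783721472),
  (nat_lit 44, nat_lit 23840686080)]⟩,
  ⟨V5_18455199744, nat_lit 4, [(nat_lit 55, nat_lit 22783721472),
  (nat_lit 64, nat_lit 23840686080), (nat_lit 111, nat_lit 24897650688)]⟩], [
  W6_22699573248, W6_22683058176, W6_21642608640, W6_21626093568, W6_20585644032, W6_20569128960,
  W6_19528679424, W6_19512164352, W6_18471714816, W6_18455199744, W6_17414750208, W6_17398235136,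
  W6_16341270528]⟩

theorem F6_22783721472_chk : fwdChk 6 ks6 F6_22783721472 = true := by decide +kernel

noncomputable def F6_22766948352 : Fwd := ⟨V6_22766948352, [
  ⟨V5_16324497408, nat_lit 2, [(nat_lit 48, nat_lit 22766948352)]⟩,
  ⟨V5_17398235136, nat_lit 3, [(nat_lit 94, nat_lit 22766948352),
  (nat_lit 120, nat_lit 23840686080)]⟩,
  ⟨V5_17381462016, nat_lit 1, [(nat_lit 3, nat_lit 22766948352),
  (nat_lit 75, nat_lit 23823912960)]⟩], [
  W6_22683058176, W6_22666285056, W6_21626093568, W6_21609320448, W6_20569128960, W6_20552355840,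
  W6_19512164352, W6_19495391232, W6_18455199744, W6_18438426624, W6_17398235136, W6_17381462016,
  W6_16324497408]⟩

theorem F6_22766948352_chk : fwdChk 6 ks6 F6_22766948352 = true := by decide +kernel

noncomputable def F6_22717661184 : Fwd := ⟨V6_22717661184, [
  ⟨V5_17348689920, nat_lit 14, [(nat_lit 51, nat_lit 22717661184),
  (nat_lit 52, nat_lit 23791140864)]⟩,
  ⟨V5_16275210240, nat_lit 11, [(nat_lit 18, nat_lit 22717661184)]⟩,
  ⟨V5_17332174848, nat_lit 8, [(nat_lit 37, nat_lit 22717661184),
  (nat_lit 68, nat_lit 23774625792)]⟩,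
  ⟨V5_21642608640, nat_lit 5, [(nat_lit 1, nat_lit 22717661184),
  (nat_lit 49, nat_lit 23791140864), (nat_lit 115, nat_lit 24864620544),
  (nat_lit 29, nat_lit 25938100224), (nat_lit 33, nat_lit 27011579904),
  (nat_lit 26, nat_lit 28085059584)]⟩,
  ⟨V5_22699573248, nat_lit 1, [(nat_lit 90, nat_lit 22717661184),
  (nat_lit 126, nat_lit 23791140864), (nat_lit 4, nat_lit 23774625792),
  (nat_lit 125, nat_lit 24864620544), (nat_lit 21, nat_lit 24848105472),
  (nat_lit 44, nat_lit 25938100224), (nat_lit 27, nat_lit 25921585152),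
  (nat_lit 66, nat_lit 27011579904), (nat_lit 86, nat_lit 26995064832),
  (nat_lit 20, nat_lit 28085059584), (nat_lit 56, nat_lit 28068544512),
  (nat_lit 51, nat_lit 29142024192)]⟩], [
  W6_22699573248, W6_22683058176, W6_22666543104, W6_22650028032, W6_22633512960, W6_21642608640,
  W6_21626093568, W6_21609578496, W6_21593063424, W6_21576548352, W6_20569128960, W6_20552613888,
  W6_20536098816, W6_20519583744, W6_20503068672, W6_19495649280, W6_19479134208, W6_19462619136,
  W6_19446104064, W6_18422169600, W6_18405654528, W6_18389139456, W6_17348689920, W6_17332174848,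
  W6_16275210240]⟩

theorem F6_22717661184_chk : fwdChk 6 ks6 F6_22717661184 = true := by decide +kernel

noncomputable def F6_22717141056 : Fwd := ⟨V6_22717141056, [
  ⟨V5_17348431872, nat_lit 10, [(nat_lit 110, nat_lit 22717141056),
  (nat_lit 18, nat_lit 23790882816)]⟩,
  ⟨V5_16274690112, nat_lit 2, [(nat_lit 27, nat_lit 22717141056)]⟩,
  ⟨V5_18405134400, nat_lit 2, [(nat_lit 74, nat_lit 22717141056),
  (nat_lit 120, nat_lit 23790620736), (nat_lit 66, nat_lit 23774105664),
  (nat_lit 44, nat_lit 24847585344)]⟩,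
  ⟨V5_21559513152, nat_lit 1, [(nat_lit 50, nat_lit 22717141056),
  (nat_lit 62, nat_lit 23774105664), (nat_lit 57, nat_lit 24831070272),
  (nat_lit 103, nat_lit 25888034880), (nat_lit 74, nat_lit 26944999488),
  (nat_lit 99, nat_lit 28001964096)]⟩], [
  W6_22666285056, W6_22649769984, W6_22633254912, W6_21609320448, W6_21592805376, W6_21576290304,
  W6_21559513152, W6_20552355840, W6_20535840768, W6_20519325696, W6_20519063616, W6_19495391232,
  W6_19478876160, W6_19462361088, W6_19462099008, W6_19445583936, W6_18421911552, W6_18405396480,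
  W6_18405134400, W6_18388619328, W6_17348431872, W6_17348169792, W6_17331654720, W6_16274690112]⟩

theorem F6_22717141056_chk : fwdChk 6 ks6 F6_22717141056 = true := by decide +kernel

noncomputable def F6_22700371968 : Fwd := ⟨V6_22700371968, [
  ⟨V5_16257921024, nat_lit 4, [(nat_lit 31, nat_lit 22700371968)]⟩,
  ⟨V5_18405396480, nat_lit 10, [(nat_lit 88, nat_lit 22700371968),
  (nat_lit 118, nat_lit 23774109696), (nat_lit 125, nat_lit 24847847424)]⟩,
  ⟨V5_17314885632, nat_lit 3, [(nat_lit 90, nat_lit 22700371968),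
  (nat_lit 3, nat_lit 23757336576)]⟩,
  ⟨V5_18371850240, nat_lit 2, [(nat_lit 18, nat_lit 22700371968),
  (nat_lit 122, nat_lit 23757336576), (nat_lit 44, nat_lit 24814301184)]⟩], [
  W6_22650028032, W6_22633254912, W6_22616481792, W6_21593063424, W6_21576290304, W6_21559517184,
  W6_20536098816, W6_20519325696, W6_20502552576, W6_19479134208, W6_19462361088, W6_19445587968,
  W6_19428814848, W6_18405396480, W6_18388623360, W6_18371850240, W6_17331658752, W6_17314885632,
  W6_16257921024]⟩

theorem F6_22700371968_chk : fwdChk 6 ks6 F6_22700371968 = true := by decide +kernel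

noncomputable def F6_22700105793 : Fwd := ⟨V6_22700105793, [
  ⟨V5_17331396672, nat_lit 3, [(nat_lit 4, nat_lit 22700105793),
  (nat_lit 36, nat_lit 23773847616)]⟩], [
  W6_22616219712, W6_21559255104, W6_20519063616, W6_20502290496, W6_19462099008, W6_19445325888,
  W6_18405134400, W6_18388361280, W6_17331396672]⟩

theorem F6_22700105793_chk : fwdChk 6 ks6 F6_22700105793 = true := by decide +kernel

noncomputable def F6_22683856896 : Fwd := ⟨V6_22683856896, [
  ⟨V5_19462619136, nat_lit 13, [(nat_lit 72, nat_lit 22683856896),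
  (nat_lit 8, nat_lit 23757594624), (nat_lit 21, nat_lit 24831332352),
  (nat_lit 100, nat_lit 25905070080)]⟩,
  ⟨V5_16241405952, nat_lit 9, [(nat_lit 77, nat_lit 22683856896)]⟩,
  ⟨V5_17315143680, nat_lit 16, [(nat_lit 89, nat_lit 22683856896),
  (nat_lit 120, nat_lit 23757594624)]⟩,
  ⟨V5_18355335168, nat_lit 4, [(nat_lit 6, nat_lit 22683856896),
  (nat_lit 119, nat_lit 23740821504), (nat_lit 98, nat_lit 24797786112)]⟩,
  ⟨V5_20469264384, nat_lit 1, [(nat_lit 71, nat_lit 22683856896),
  (nat_lit 103, nat_lit 23740821504), (nat_lit 61, nat_lit 24797786112),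
  (nat_lit 96, nat_lit 25854750720), (nat_lit 107, nat_lit 26911715328)]⟩], [
  W6_22650028032, W6_22633512960, W6_22633254912, W6_22616739840, W6_22616481792, W6_21593063424,
  W6_21576548352, W6_21576290304, W6_21559775232, W6_21559517184, W6_21543002112, W6_20536098816,
  W6_20519583744, W6_20519325696, W6_20502810624, W6_20502552576, W6_20486037504, W6_20469264384,
  W6_19462619136, W6_19462361088, W6_19445846016, W6_19445587968, W6_19429072896, W6_19428814848,
  W6_19412299776, W6_18388881408, W6_18388623360, W6_18372108288, W6_18371850240, W6_18355335168,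
  W6_17315143680, W6_17314885632, W6_17298370560, W6_16241405952]⟩

theorem F6_22683856896_chk : fwdChk 6 ks6 F6_22683856896 = true := by decide +kernel

noncomputable def F6_22667857920 : Fwd := ⟨V6_22667857920, [
  ⟨V5_16225406976, nat_lit 4, [(nat_lit 32, nat_lit 22667857920)]⟩,
  ⟨V5_17298886656, nat_lit 9, [(nat_lit 28, nat_lit 22667857920),
  (nat_lit 79, nat_lit 23741337600)]⟩,
  ⟨V5_18372624384, nat_lit 7, [(nat_lit 98, nat_lit 22667857920),
  (nat_lit 124, nat_lit 23741595648), (nat_lit 33, nat_lit 23741337600),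
  (nat_lit 122, nat_lit 24815075328)]⟩], [
  W6_22666543104, W6_22666285056, W6_21593063424, W6_21592805376, W6_20519583744, W6_20519325696,
  W6_19446104064, W6_19445846016, W6_18372624384, W6_18372366336, W6_17299144704, W6_17298886656,
  W6_16225406976]⟩

theorem F6_22667857920_chk : fwdChk 6 ks6 F6_22667857920 = true := by decide +kernel

noncomputable def F6_22667595840 : Fwd := ⟨V6_22667595840, [
  ⟨V5_17298886656, nat_lit 9, [(nat_lit 15, nat_lit 22667595840),
  (nat_lit 14, nat_lit 23741337600)]⟩,
  ⟨V5_18355851264, nat_lit 5, [(nat_lit 29, nat_lit 22667595840),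
  (nat_lit 33, nat_lit 23741337600), (nat_lit 29, nat_lit 23724560448),
  (nat_lit 35, nat_lit 24798302208)]⟩,
  ⟨V5_16225144896, nat_lit 2, [(nat_lit 69, nat_lit 22667595840)]⟩,
  ⟨V5_22666285056, nat_lit 1, [(nat_lit 117, nat_lit 22667595840),
  (nat_lit 10, nat_lit 23741337600), (nat_lit 58, nat_lit 23741075520),
  (nat_lit 126, nat_lit 24814817280), (nat_lit 79, nat_lit 24814555200),
  (nat_lit 25, nat_lit 25888296960), (nat_lit 9, nat_lit 25888034880),
  (nat_lit 10, nat_lit 26961776640), (nat_lit 40, nat_lit 26961514560),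
  (nat_lit 38, nat_lit 28035256320), (nat_lit 36, nat_lit 28034994240),
  (nat_lit 48, nat_lit 29108736000)]⟩], [
  W6_22666285056, W6_22649769984, W6_21592805376, W6_21576290304, W6_20519325696, W6_20519063616,
  W6_20502810624, W6_19445846016, W6_19445583936, W6_19429330944, W6_19429068864, W6_18372366336,
  W6_18372104256, W6_18355851264, W6_18355589184, W6_17298886656, W6_17298624576, W6_16225144896]⟩

theorem F6_22667595840_chk : fwdChk 6 ks6 F6_22667595840 = true := by decide +kernel

noncomputable def F6_22667333697 : Fwd := ⟨V6_22667333697, [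
  ⟨V5_19445583936, nat_lit 2, [(nat_lit 122, nat_lit 22667333697),
  (nat_lit 10, nat_lit 23741075520), (nat_lit 73, nat_lit 23740813377),
  (nat_lit 15, nat_lit 24814555200), (nat_lit 76, nat_lit 24814293057),
  (nat_lit 69, nat_lit 25888034880)]⟩], [
  W6_21559513152, W6_20519063616, W6_20486033472, W6_19445583936, W6_19429068864, W6_19412553792,
  W6_18372104256, W6_18355589184, W6_17298624576]⟩

theorem F6_22667333697_chk : fwdChk 6 ks6 F6_22667333697 = true := by decide +kernel

noncomputable def F6_22667083776 : Fwd := ⟨V6_22667083776, [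
  ⟨V5_16224632832, nat_lit 5, [(nat_lit 81, nat_lit 22667083776)]⟩,
  ⟨V5_17281597440, nat_lit 5, [(nat_lit 53, nat_lit 22667083776),
  (nat_lit 78, nat_lit 23724048384)]⟩,
  ⟨V5_20519583744, nat_lit 11, [(nat_lit 53, nat_lit 22667083776),
  (nat_lit 36, nat_lit 23740821504), (nat_lit 115, nat_lit 24814559232),
  (nat_lit 18, nat_lit 25888296960), (nat_lit 4, nat_lit 26962034688)]⟩,
  ⟨V5_19395526656, nat_lit 2, [(nat_lit 118, nat_lit 22667083776),
  (nat_lit 52, nat_lit 23724048384), (nat_lit 20, nat_lit 24781012992),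
  (nat_lit 103, nat_lit 25837977600)]⟩], [
  W6_22633512960, W6_22616739840, W6_21576548352, W6_21559775232, W6_21543002112, W6_20519583744,
  W6_20502810624, W6_20486037504, W6_20469264384, W6_19445846016, W6_19429072896, W6_19412299776,
  W6_19395526656, W6_18372108288, W6_18355335168, W6_18338562048, W6_17298370560, W6_17281597440,
  W6_16224632832]⟩

theorem F6_22667083776_chk : fwdChk 6 ks6 F6_22667083776 = true := by decide +kernel

noncomputable def F6_22666817601 : Fwd := ⟨V6_22666817601, [
  ⟨V5_17298108480, nat_lit 1, [(nat_lit 83, nat_lit 22666817601),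
  (nat_lit 112, nat_lit 23740559424)]⟩], [
  W6_21559513152, W6_20485775424, W6_19445583936, W6_19428810816, W6_18371846208, W6_17298108480]⟩

theorem F6_22666817601_chk : fwdChk 6 ks6 F6_22666817601 = true := by decide +kernel

noncomputable def F6_22666551426 : Fwd := ⟨V6_22666551426, [
  ⟨V5_18371584128, nat_lit 2, [(nat_lit 52, nat_lit 22666551426),
  (nat_lit 120, nat_lit 23740293249), (nat_lit 59, nat_lit 24814035072)]⟩], [
  W6_21542477952, W6_20485513344, W6_19428548736, W6_18371584128]⟩

theorem F6_22666551426_chk : fwdChk 6 ks6 F6_22666551426 = true := by decide +kernel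

noncomputable def F6_22650826752 : Fwd := ⟨V6_22650826752, [
  ⟨V5_19429588992, nat_lit 7, [(nat_lit 75, nat_lit 22650826752),
  (nat_lit 93, nat_lit 23724564480), (nat_lit 6, nat_lit 24798302208),
  (nat_lit 83, nat_lit 25872039936)]⟩,
  ⟨V5_16208375808, nat_lit 7, [(nat_lit 112, nat_lit 22650826752)]⟩,
  ⟨V5_17282113536, nat_lit 8, [(nat_lit 90, nat_lit 22650826752),
  (nat_lit 50, nat_lit 23724564480)]⟩,
  ⟨V5_18355851264, nat_lit 5, [(nat_lit 96, nat_lit 22650826752),
  (nat_lit 71, nat_lit 23724564480), (nat_lit 44, nat_lit 24798302208)]⟩], [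
  W6_22650028032, W6_21576548352, W6_21576290304, W6_20503068672, W6_20502810624, W6_20502552576,
  W6_19429588992, W6_19429330944, W6_19429072896, W6_19428814848, W6_18355851264, W6_18355593216,
  W6_18355335168, W6_17282113536, W6_17281855488, W6_16208375808]⟩

theorem F6_22650826752_chk : fwdChk 6 ks6 F6_22650826752 = true := by decide +kernel

noncomputable def F6_22650568704 : Fwd := ⟨V6_22650568704, [
  ⟨V5_17281597440, nat_lit 5, [(nat_lit 44, nat_lit 22650568704),
  (nat_lit 10, nat_lit 23724048384)]⟩,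
  ⟨V5_18355593216, nat_lit 7, [(nat_lit 59, nat_lit 22650568704),
  (nat_lit 25, nat_lit 23724306432), (nat_lit 126, nat_lit 24798044160)]⟩], [
  W6_22633512960, W6_21576548352, W6_21559775232, W6_20503068672, W6_20502810624, W6_20486295552,
  W6_20486037504, W6_19429330944, W6_19429072896, W6_19412557824, W6_19412299776, W6_18355593216,
  W6_18355335168, W6_18338562048, W6_17281855488, W6_17281597440, W6_16208117760]⟩

theorem F6_22650568704_chk : fwdChk 6 ks6 F6_22650568704 = true := by decide +kernel

noncomputable def F6_22650298497 : Fwd := ⟨V6_22650298497, [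
  ⟨V5_17281589376, nat_lit 3, [(nat_lit 24, nat_lit 22650298497),
  (nat_lit 89, nat_lit 23724040320)]⟩,
  ⟨V5_19428548736, nat_lit 2, [(nat_lit 92, nat_lit 22650298497),
  (nat_lit 23, nat_lit 23724040320), (nat_lit 23, nat_lit 23723778177),
  (nat_lit 93, nat_lit 24797520000), (nat_lit 36, nat_lit 24797257857),
  (nat_lit 55, nat_lit 25870999680)]⟩], [
  W6_22616219712, W6_21559255104, W6_21542477952, W6_20502290496, W6_20485775424, W6_20485513344,
  W6_20469260352, W6_19428810816, W6_19428548736, W6_19412295744, W6_19395518592, W6_18355331136,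
  W6_18355069056, W6_18338553984, W6_17281589376]⟩

theorem F6_22650298497_chk : fwdChk 6 ks6 F6_22650298497 = true := by decide +kernel

noncomputable def F6_22633529409 : Fwd := ⟨V6_22633529409, [
  ⟨V5_18321784896, nat_lit 1, [(nat_lit 52, nat_lit 22633529409),
  (nat_lit 122, nat_lit 23707271232), (nat_lit 53, nat_lit 23690494017),
  (nat_lit 115, nat_lit 24764235840)]⟩], [
  W6_20486033472, W6_20469260352, W6_19412295744, W6_18338558016, W6_18321784896, W6_17264820288]⟩

theorem F6_22633529409_chk : fwdChk 6 ks6 F6_22633529409 = true := by decide +kernel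

noncomputable def F6_22633525377 : Fwd := ⟨V6_22633525377, [
  ⟨V5_19395518592, nat_lit 1, [(nat_lit 19, nat_lit 22633525377),
  (nat_lit 27, nat_lit 23707267200), (nat_lit 28, nat_lit 23707263105),
  (nat_lit 7, nat_lit 23690489985), (nat_lit 1, nat_lit 24781004928),
  (nat_lit 97, nat_lit 24764231808), (nat_lit 52, nat_lit 24764227713),
  (nat_lit 107, nat_lit 25837969536)]⟩], [
  W6_20485775424, W6_20469260352, W6_19412295744, W6_19395518592, W6_18338558016, W6_18338553984]⟩

theorem F6_22633525377_chk : fwdChk 6 ks6 F6_22633525377 = true := by decide +kernel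

noncomputable def F6_21726756864 : Fwd := ⟨V6_21726756864, [
  ⟨V5_17398235136, nat_lit 3, [(nat_lit 31, nat_lit 21726756864),
  (nat_lit 73, nat_lit 22783721472), (nat_lit 26, nat_lit 23840686080)]⟩,
  ⟨V5_17414750208, nat_lit 2, [(nat_lit 35, nat_lit 21726756864),
  (nat_lit 121, nat_lit 22800236544), (nat_lit 74, nat_lit 22783721472),
  (nat_lit 77, nat_lit 23857201152)]⟩,
  ⟨V5_16341270528, nat_lit 1, [(nat_lit 73, nat_lit 21726756864),
  (nat_lit 44, nat_lit 22783721472)]⟩], [
  W6_21642608640, W6_21626093568, W6_20585644032, W6_20569128960, W6_19528679424, W6_19512164352,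
  W6_18471714816, W6_18455199744, W6_17414750208, W6_17398235136, W6_16341270528]⟩

theorem F6_21726756864_chk : fwdChk 6 ks6 F6_21726756864 = true := by decide +kernel

noncomputable def F6_21709983744 : Fwd := ⟨V6_21709983744, [
  ⟨V5_16324497408, nat_lit 2, [(nat_lit 108, nat_lit 21709983744),
  (nat_lit 100, nat_lit 22766948352)]⟩,
  ⟨V5_16341270528, nat_lit 1, [(nat_lit 99, nat_lit 21709983744),
  (nat_lit 98, nat_lit 22783721472)]⟩], [
  W6_21626093568, W6_21609320448, W6_20569128960, W6_20552355840, W6_19512164352, W6_19495391232,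
  W6_18455199744, W6_18438426624, W6_17398235136, W6_17381462016, W6_16341270528, W6_16324497408]⟩

theorem F6_21709983744_chk : fwdChk 6 ks6 F6_21709983744 = true := by decide +kernel

noncomputable def F6_21693726720 : Fwd := ⟨V6_21693726720, [
  ⟨V5_16308240384, nat_lit 7, [(nat_lit 106, nat_lit 21693726720),
  (nat_lit 7, nat_lit 22750691328)]⟩,
  ⟨V5_17381720064, nat_lit 8, [(nat_lit 3, nat_lit 21693726720),
  (nat_lit 73, nat_lit 22767206400), (nat_lit 114, nat_lit 22750691328),
  (nat_lit 1, nat_lit 23824171008)]⟩,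
  ⟨V5_15251275776, nat_lit 3, [(nat_lit 37, nat_lit 21693726720)]⟩,
  ⟨V5_16324755456, nat_lit 4, [(nat_lit 91, nat_lit 21693726720),
  (nat_lit 76, nat_lit 22767206400)]⟩,
  ⟨V5_18471714816, nat_lit 1, [(nat_lit 75, nat_lit 21693726720),
  (nat_lit 74, nat_lit 22767206400), (nat_lit 55, nat_lit 23840686080),
  (nat_lit 112, nat_lit 24914165760)]⟩], [
  W6_21642608640, W6_21626093568, W6_21609578496, W6_21593063424, W6_20585644032, W6_20569128960,
  W6_20552613888, W6_20536098816, W6_19528679424, W6_19512164352, W6_19495649280, W6_19479134208,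
  W6_18471714816, W6_18455199744, W6_18438684672, W6_18422169600, W6_17398235136, W6_17381720064,
  W6_17365204992, W6_16324755456, W6_16308240384, W6_15251275776]⟩

theorem F6_21693726720_chk : fwdChk 6 ks6 F6_21693726720 = true := by decide +kernel

noncomputable def F6_21693468672 : Fwd := ⟨V6_21693468672, [
  ⟨V5_15251017728, nat_lit 3, [(nat_lit 44, nat_lit 21693468672)]⟩,
  ⟨V5_17381720064, nat_lit 8, [(nat_lit 38, nat_lit 21693468672),
  (nat_lit 56, nat_lit 22767206400), (nat_lit 121, nat_lit 22750433280),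
  (nat_lit 85, nat_lit 23824171008)]⟩,
  ⟨V5_16307982336, nat_lit 5, [(nat_lit 124, nat_lit 21693468672),
  (nat_lit 1, nat_lit 22750433280)]⟩,
  ⟨V5_16324497408, nat_lit 2, [(nat_lit 25, nat_lit 21693468672),
  (nat_lit 91, nat_lit 22766948352)]⟩,
  ⟨V5_16324755456, nat_lit 3, [(nat_lit 126, nat_lit 21693468672),
  (nat_lit 67, nat_lit 22767206400)]⟩], [
  W6_21626093568, W6_21609578496, W6_21609320448, W6_21592805376, W6_20569128960, W6_20552613888,
  W6_20552355840, W6_20535840768, W6_19512164352, W6_19495649280, W6_19495391232, W6_19478876160,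
  W6_18455199744, W6_18438684672, W6_18438426624, W6_18421911552, W6_17398235136, W6_17381720064,
  W6_17381462016, W6_17364946944, W6_16324755456, W6_16324497408, W6_16307982336, W6_15251017728]⟩

theorem F6_21693468672_chk : fwdChk 6 ks6 F6_21693468672 = true := by decide +kernel

noncomputable def F6_21676695552 : Fwd := ⟨V6_21676695552, [
  ⟨V5_15234244608, nat_lit 5, [(nat_lit 117, nat_lit 21676695552)]⟩,
  ⟨V5_17381720064, nat_lit 8, [(nat_lit 17, nat_lit 21676695552),
  (nat_lit 43, nat_lit 22750433280), (nat_lit 66, nat_lit 23824171008)]⟩,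
  ⟨V5_16307982336, nat_lit 5, [(nat_lit 76, nat_lit 21676695552),
  (nat_lit 14, nat_lit 22750433280)]⟩,
  ⟨V5_16291209216, nat_lit 5, [(nat_lit 24, nat_lit 21676695552),
  (nat_lit 92, nat_lit 22733660160)]⟩,
  ⟨V5_21576032256, nat_lit 3, [(nat_lit 55, nat_lit 21676695552),
  (nat_lit 84, nat_lit 22733660160), (nat_lit 40, nat_lit 23790624768),
  (nat_lit 64, nat_lit 24847589376), (nat_lit 112, nat_lit 25904553984),
  (nat_lit 60, nat_lit 26961518592), (nat_lit 33, nat_lit 28018483200)]⟩], [
  W6_21609578496, W6_21592805376, W6_21576032256, W6_20552613888, W6_20535840768, W6_20519067648,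
  W6_19495649280, W6_19478876160, W6_19462103040, W6_18438684672, W6_18421911552, W6_18405138432,
  W6_17381720064, W6_17364946944, W6_17348173824, W6_16307982336, W6_16291209216, W6_15234244608]⟩

theorem F6_21676695552_chk : fwdChk 6 ks6 F6_21676695552 = true := by decide +kernel

noncomputable def F6_21660176448 : Fwd := ⟨V6_21660176448, [
  ⟨V5_16291467264, nat_lit 9, [(nat_lit 124, nat_lit 21660176448),
  (nat_lit 34, nat_lit 22733918208)]⟩,
  ⟨V5_17364946944, nat_lit 6, [(nat_lit 34, nat_lit 21660176448),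
  (nat_lit 83, nat_lit 22733918208), (nat_lit 111, nat_lit 22733656128),
  (nat_lit 44, nat_lit 23807397888)]⟩,
  ⟨V5_15217725504, nat_lit 1, [(nat_lit 22, nat_lit 21660176448)]⟩,
  ⟨V5_21559513152, nat_lit 1, [(nat_lit 123, nat_lit 21660176448),
  (nat_lit 68, nat_lit 22717141056), (nat_lit 77, nat_lit 23774105664),
  (nat_lit 42, nat_lit 24831070272), (nat_lit 66, nat_lit 25888034880),
  (nat_lit 16, nat_lit 26944999488), (nat_lit 61, nat_lit 28001964096)]⟩], [
  W6_21609320448, W6_21592805376, W6_21576290304, W6_21559513152, W6_20552355840, W6_20535840768,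
  W6_20519325696, W6_20519063616, W6_19495391232, W6_19478876160, W6_19462361088, W6_19462099008,
  W6_19445583936, W6_18438426624, W6_18421911552, W6_18405396480, W6_18405134400, W6_18388619328,
  W6_17364946944, W6_17364684864, W6_17348431872, W6_17348169792, W6_17331654720, W6_16291467264,
  W6_16291205184, W6_16274690112, W6_15217725504]⟩

theorem F6_21660176448_chk : fwdChk 6 ks6 F6_21660176448 = true := by decide +kernel

noncomputable def F6_21643407360 : Fwd := ⟨V6_21643407360, [
  ⟨V5_17348431872, nat_lit 10, [(nat_lit 91, nat_lit 21643407360),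
  (nat_lit 73, nat_lit 22717145088), (nat_lit 119, nat_lit 23790882816)]⟩,
  ⟨V5_16257921024, nat_lit 4, [(nat_lit 28, nat_lit 21643407360),
  (nat_lit 113, nat_lit 22700371968)]⟩,
  ⟨V5_15200956416, nat_lit 1, [(nat_lit 87, nat_lit 21643407360)]⟩,
  ⟨V5_17314885632, nat_lit 3, [(nat_lit 84, nat_lit 21643407360),
  (nat_lit 29, nat_lit 22700371968), (nat_lit 79, nat_lit 23757336576)]⟩], [
  W6_21593063424, W6_21576290304, W6_21559517184, W6_20536098816, W6_20519325696, W6_20502552576,
  W6_19479134208, W6_19462361088, W6_19445587968, W6_19428814848, W6_18422169600, W6_18405396480,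
  W6_18388623360, W6_18371850240, W6_17348431872, W6_17331658752, W6_17314885632, W6_16274694144,
  W6_16257921024, W6_15200956416]⟩

theorem F6_21643407360_chk : fwdChk 6 ks6 F6_21643407360 = true := by decide +kernel

noncomputable def F6_21643399233 : Fwd := ⟨V6_21643399233, [
  ⟨V5_16274690112, nat_lit 2, [(nat_lit 54, nat_lit 21643399233),
  (nat_lit 25, nat_lit 22717141056)]⟩], [
  W6_21559513152, W6_20519063616, W6_19462099008, W6_19445583936, W6_18405134400, W6_18388619328,
  W6_17348169792, W6_17331654720, W6_16274690112]⟩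

theorem F6_21643399233_chk : fwdChk 6 ks6 F6_21643399233 = true := by decide +kernel

noncomputable def F6_21643141185 : Fwd := ⟨V6_21643141185, [
  ⟨V5_16274432064, nat_lit 3, [(nat_lit 110, nat_lit 21643141185),
  (nat_lit 18, nat_lit 22716883008)]⟩], [
  W6_21559255104, W6_20519063616, W6_20502290496, W6_19462099008, W6_19445325888, W6_18405134400,
  W6_18388361280, W6_17348169792, W6_17331396672, W6_16274432064]⟩

theorem F6_21643141185_chk : fwdChk 6 ks6 F6_21643141185 = true := by decide +kernel

noncomputable def F6_21627408384 : Fwd := ⟨V6_21627408384, [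
  ⟨V5_15184957440, nat_lit 13, [(nat_lit 45, nat_lit 21627408384)]⟩,
  ⟨V5_16241922048, nat_lit 13, [(nat_lit 34, nat_lit 21627408384),
  (nat_lit 11, nat_lit 22684372992)]⟩,
  ⟨V5_16258695168, nat_lit 10, [(nat_lit 43, nat_lit 21627408384),
  (nat_lit 40, nat_lit 22701146112)]⟩,
  ⟨V5_17315659776, nat_lit 11, [(nat_lit 35, nat_lit 21627408384),
  (nat_lit 14, nat_lit 22701146112), (nat_lit 74, nat_lit 22684372992),
  (nat_lit 112, nat_lit 23758110720)]⟩,
  ⟨V5_16258437120, nat_lit 12, [(nat_lit 121, nat_lit 21627408384),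
  (nat_lit 101, nat_lit 22700888064)]⟩,
  ⟨V5_19429588992, nat_lit 7, [(nat_lit 120, nat_lit 21627408384),
  (nat_lit 65, nat_lit 22701146112), (nat_lit 8, nat_lit 22684372992),
  (nat_lit 45, nat_lit 23758110720), (nat_lit 118, nat_lit 23741337600),
  (nat_lit 43, nat_lit 24815075328), (nat_lit 117, nat_lit 24798302208),
  (nat_lit 51, nat_lit 25872039936)]⟩,
  ⟨V5_20552355840, nat_lit 2, [(nat_lit 33, nat_lit 21627408384),
  (nat_lit 86, nat_lit 22700888064), (nat_lit 87, nat_lit 23774367744),
  (nat_lit 116, nat_lit 24847847424), (nat_lit 24, nat_lit 25921327104),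
  (nat_lit 90, nat_lit 26994806784)]⟩,
  ⟨V5_18355851264, nat_lit 5, [(nat_lit 47, nat_lit 21627408384),
  (nat_lit 88, nat_lit 22684372992), (nat_lit 46, nat_lit 23741337600),
  (nat_lit 96, nat_lit 24798302208)]⟩], [
  W6_21626093568, W6_21609578496, W6_21609320448, W6_21593063424, W6_21592805376, W6_21576548352,
  W6_21576290304, W6_20552613888, W6_20552355840, W6_20536098816, W6_20535840768, W6_20519583744,
  W6_20519325696, W6_20503068672, W6_20502810624, W6_19479134208, W6_19478876160, W6_19462619136,
  W6_19462361088, W6_19446104064, W6_19445846016, W6_19429588992, W6_19429330944, W6_18405654528,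
  W6_18405396480, W6_18389139456, W6_18388881408, W6_18372624384, W6_18372366336, W6_18355851264,
  W6_17332174848, W6_17331916800, W6_17315659776, W6_17315401728, W6_17298886656, W6_16258695168,
  W6_16258437120, W6_16241922048, W6_15184957440]⟩

theorem F6_21627408384_chk : fwdChk 6 ks6 F6_21627408384 = true := by decide +kernel

noncomputable def F6_21626884161 : Fwd := ⟨V6_21626884161, [
  ⟨V5_16258175040, nat_lit 5, [(nat_lit 102, nat_lit 21626884161),
  (nat_lit 19, nat_lit 22700625984)]⟩], [
  W6_21559513152, W6_20519063616, W6_20486033472, W6_19462099008, W6_19445583936, W6_19429068864,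
  W6_18405134400, W6_18388619328, W6_18372104256, W6_17331654720, W6_17315139648, W6_16258175040]⟩

theorem F6_21626884161_chk : fwdChk 6 ks6 F6_21626884161 = true := by decide +kernel

noncomputable def F6_21611151360 : Fwd := ⟨V6_21611151360, [
  ⟨V5_15168700416, nat_lit 5, [(nat_lit 117, nat_lit 21611151360)]⟩,
  ⟨V5_16242180096, nat_lit 5, [(nat_lit 25, nat_lit 21611151360),
  (nat_lit 112, nat_lit 22684631040)]⟩,
  ⟨V5_21609578496, nat_lit 6, [(nat_lit 78, nat_lit 21611151360),
  (nat_lit 122, nat_lit 22684631040), (nat_lit 103, nat_lit 23758110720),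
  (nat_lit 60, nat_lit 24831590400), (nat_lit 21, nat_lit 25905070080),
  (nat_lit 103, nat_lit 26978549760), (nat_lit 80, nat_lit 28052029440)]⟩], [
  W6_21609578496, W6_20536098816, W6_19462619136, W6_18389139456, W6_17315659776, W6_16242180096,
  W6_15168700416]⟩

theorem F6_21611151360_chk : fwdChk 6 ks6 F6_21611151360 = true := by decide +kernel

noncomputable def F6_21610893312 : Fwd := ⟨V6_21610893312, [
  ⟨V5_15168442368, nat_lit 7, [(nat_lit 101, nat_lit 21610893312)]⟩,
  ⟨V5_16241922048, nat_lit 13, [(nat_lit 69, nat_lit 21610893312),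
  (nat_lit 68, nat_lit 22684372992)]⟩,
  ⟨V5_16242180096, nat_lit 5, [(nat_lit 38, nat_lit 21610893312),
  (nat_lit 121, nat_lit 22684631040)]⟩,
  ⟨V5_16225406976, nat_lit 4, [(nat_lit 30, nat_lit 21610893312),
  (nat_lit 1, nat_lit 22667857920)]⟩,
  ⟨V5_17298886656, nat_lit 9, [(nat_lit 72, nat_lit 21610893312),
  (nat_lit 7, nat_lit 22684372992), (nat_lit 112, nat_lit 22667857920),
  (nat_lit 118, nat_lit 23741337600)]⟩,
  ⟨V5_21609320448, nat_lit 1, [(nat_lit 31, nat_lit 21610893312),
  (nat_lit 32, nat_lit 22684372992), (nat_lit 104, nat_lit 23757852672),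
  (nat_lit 76, nat_lit 24831332352), (nat_lit 73, nat_lit 25904812032),
  (nat_lit 51, nat_lit 26978291712), (nat_lit 4, nat_lit 28051771392)]⟩,
  ⟨V5_18372624384, nat_lit 6, [(nat_lit 6, nat_lit 21610893312),
  (nat_lit 12, nat_lit 22684631040), (nat_lit 70, nat_lit 22684372992),
  (nat_lit 11, nat_lit 22667857920), (nat_lit 90, nat_lit 23758110720),
  (nat_lit 108, nat_lit 23741595648), (nat_lit 30, nat_lit 23741337600),
  (nat_lit 64, nat_lit 24815075328)]⟩], [
  W6_21609578496, W6_21609320448, W6_21593063424, W6_21592805376, W6_20536098816, W6_20535840768,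
  W6_20519583744, W6_20519325696, W6_19462619136, W6_19462361088, W6_19446104064, W6_19445846016,
  W6_18389139456, W6_18388881408, W6_18372624384, W6_18372366336, W6_17315659776, W6_17315401728,
  W6_17299144704, W6_17298886656, W6_16242180096, W6_16241922048, W6_16225406976, W6_15168442368]⟩

theorem F6_21610893312_chk : fwdChk 6 ks6 F6_21610893312 = true := by decide +kernel

noncomputable def F6_21610631232 : Fwd := ⟨V6_21610631232, [
  ⟨V5_16241922048, nat_lit 13, [(nat_lit 98, nat_lit 21610631232),
  (nat_lit 117, nat_lit 22684372992)]⟩,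
  ⟨V5_17298886656, nat_lit 9, [(nat_lit 81, nat_lit 21610631232),
  (nat_lit 55, nat_lit 22684372992), (nat_lit 67, nat_lit 22667595840),
  (nat_lit 124, nat_lit 23741337600)]⟩,
  ⟨V5_18355851264, nat_lit 5, [(nat_lit 120, nat_lit 21610631232),
  (nat_lit 47, nat_lit 22684372992), (nat_lit 11, nat_lit 22667595840),
  (nat_lit 2, nat_lit 23741337600), (nat_lit 99, nat_lit 23724560448),
  (nat_lit 123, nat_lit 24798302208)]⟩,
  ⟨V5_15168180288, nat_lit 3, [(nat_lit 79, nat_lit 21610631232)]⟩,
  ⟨V5_21609320448, nat_lit 1, [(nat_lit 37, nat_lit 21610631232),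
  (nat_lit 70, nat_lit 22684372992), (nat_lit 39, nat_lit 22684110912),
  (nat_lit 44, nat_lit 23757852672), (nat_lit 34, nat_lit 23757590592),
  (nat_lit 95, nat_lit 24831332352), (nat_lit 83, nat_lit 24831070272),
  (nat_lit 78, nat_lit 25904812032), (nat_lit 42, nat_lit 25904549952),
  (nat_lit 103, nat_lit 26978291712), (nat_lit 74, nat_lit 26978029632),
  (nat_lit 25, nat_lit 28051771392)]⟩], [
  W6_21609320448, W6_21592805376, W6_21576290304, W6_20535840768, W6_20519325696, W6_20519063616,
  W6_20502810624, W6_19462361088, W6_19462099008, W6_19445846016, W6_19445583936, W6_19429330944,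
  W6_19429068864, W6_18388881408, W6_18388619328, W6_18372366336, W6_18372104256, W6_18355851264,
  W6_18355589184, W6_17315401728, W6_17315139648, W6_17298886656, W6_17298624576, W6_16241922048,
  W6_16241659968, W6_16225144896, W6_15168180288]⟩

theorem F6_21610631232_chk : fwdChk 6 ks6 F6_21610631232 = true := by decide +kernel

noncomputable def F6_21610369089 : Fwd := ⟨V6_21610369089, [
  ⟨V5_16241659968, nat_lit 4, [(nat_lit 18, nat_lit 21610369089),
  (nat_lit 93, nat_lit 22684110912)]⟩,
  ⟨V5_19412553792, nat_lit 1, [(nat_lit 100, nat_lit 21610369089),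
  (nat_lit 63, nat_lit 22684110912), (nat_lit 15, nat_lit 22667333697),
  (nat_lit 97, nat_lit 23741075520), (nat_lit 63, nat_lit 23724298305),
  (nat_lit 69, nat_lit 24798040128), (nat_lit 71, nat_lit 24781262913),
  (nat_lit 103, nat_lit 25855004736)]⟩], [
  W6_21559513152, W6_20519063616, W6_20486033472, W6_19462099008, W6_19445583936, W6_19429068864,
  W6_19412553792, W6_18388619328, W6_18372104256, W6_18355589184, W6_17315139648, W6_17298624576,
  W6_16241659968]⟩

theorem F6_21610369089_chk : fwdChk 6 ks6 F6_21610369089 = true := by decide +kernel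

noncomputable def F6_21610119168 : Fwd := ⟨V6_21610119168, [
  ⟨V5_15167668224, nat_lit 8, [(nat_lit 60, nat_lit 21610119168)]⟩,
  ⟨V5_19462619136, nat_lit 13, [(nat_lit 40, nat_lit 21610119168),
  (nat_lit 118, nat_lit 22683856896), (nat_lit 66, nat_lit 23757594624),
  (nat_lit 89, nat_lit 24831332352), (nat_lit 69, nat_lit 25905070080)]⟩,
  ⟨V5_16224632832, nat_lit 5, [(nat_lit 97, nat_lit 21610119168),
  (nat_lit 126, nat_lit 22667083776)]⟩,
  ⟨V5_17281597440, nat_lit 5, [(nat_lit 8, nat_lit 21610119168),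
  (nat_lit 26, nat_lit 22667083776), (nat_lit 76, nat_lit 23724048384)]⟩,
  ⟨V5_19395526656, nat_lit 2, [(nat_lit 16, nat_lit 21610119168),
  (nat_lit 113, nat_lit 22667083776), (nat_lit 93, nat_lit 23724048384),
  (nat_lit 29, nat_lit 24781012992), (nat_lit 65, nat_lit 25837977600)]⟩,
  ⟨V5_18338562048, nat_lit 2, [(nat_lit 53, nat_lit 21610119168),
  (nat_lit 86, nat_lit 22667083776), (nat_lit 47, nat_lit 23724048384),
  (nat_lit 20, nat_lit 24781012992)]⟩], [
  W6_21576548352, W6_21559775232, W6_21543002112, W6_20519583744, W6_20502810624, W6_20486037504,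
  W6_20469264384, W6_19462619136, W6_19445846016, W6_19429072896, W6_19412299776, W6_19395526656,
  W6_18388881408, W6_18372108288, W6_18355335168, W6_18338562048, W6_17315143680, W6_17298370560,
  W6_17281597440, W6_16241405952, W6_16224632832, W6_15167668224]⟩

theorem F6_21610119168_chk : fwdChk 6 ks6 F6_21610119168 = true := by decide +kernel

noncomputable def F6_21594120192 : Fwd := ⟨V6_21594120192, [
  ⟨V5_16225406976, nat_lit 4, [(nat_lit 83, nat_lit 21594120192),
  (nat_lit 32, nat_lit 22667857920)]⟩,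
  ⟨V5_17298886656, nat_lit 9, [(nat_lit 88, nat_lit 21594120192),
  (nat_lit 28, nat_lit 22667857920), (nat_lit 67, nat_lit 22667599872),
  (nat_lit 15, nat_lit 23741337600)]⟩,
  ⟨V5_15151669248, nat_lit 2, [(nat_lit 82, nat_lit 21594120192)]⟩,
  ⟨V5_18372624384, nat_lit 6, [(nat_lit 89, nat_lit 21594120192),
  (nat_lit 98, nat_lit 22667857920), (nat_lit 38, nat_lit 22667599872),
  (nat_lit 15, nat_lit 23741595648), (nat_lit 77, nat_lit 23741337600),
  (nat_lit 16, nat_lit 24815075328)]⟩], [
  W6_21593063424, W6_21592805376, W6_20519583744, W6_20519325696, W6_20519067648, W6_19446104064,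
  W6_19445846016, W6_19445587968, W6_18372624384, W6_18372366336, W6_18372108288, W6_17299144704,
  W6_17298886656, W6_17298628608, W6_16225406976, W6_16225148928, W6_15151669248]⟩

theorem F6_21594120192_chk : fwdChk 6 ks6 F6_21594120192 = true := by decide +kernel

noncomputable def F6_21593862144 : Fwd := ⟨V6_21593862144, [
  ⟨V5_15151411200, nat_lit 9, [(nat_lit 34, nat_lit 21593862144)]⟩,
  ⟨V5_16208375808, nat_lit 7, [(nat_lit 66, nat_lit 21593862144),
  (nat_lit 62, nat_lit 22650826752)]⟩,
  ⟨V5_16225148928, nat_lit 10, [(nat_lit 107, nat_lit 21593862144),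
  (nat_lit 105, nat_lit 22667599872)]⟩,
  ⟨V5_19429588992, nat_lit 7, [(nat_lit 89, nat_lit 21593862144),
  (nat_lit 27, nat_lit 22667599872), (nat_lit 71, nat_lit 22650826752),
  (nat_lit 13, nat_lit 23741337600), (nat_lit 69, nat_lit 23724564480),
  (nat_lit 51, nat_lit 24815075328), (nat_lit 103, nat_lit 24798302208),
  (nat_lit 16, nat_lit 25872039936)]⟩,
  ⟨V5_17298886656, nat_lit 9, [(nat_lit 4, nat_lit 21593862144), (nat_lit 6, nat_lit 22667599872),
  (nat_lit 15, nat_lit 23741337600)]⟩,
  ⟨V5_18372624384, nat_lit 7, [(nat_lit 18, nat_lit 21593862144),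
  (nat_lit 47, nat_lit 22667599872), (nat_lit 77, nat_lit 23741337600),
  (nat_lit 115, nat_lit 24815075328)]⟩,
  ⟨V5_18371850240, nat_lit 2, [(nat_lit 40, nat_lit 21593862144),
  (nat_lit 95, nat_lit 22667341824), (nat_lit 39, nat_lit 23740821504),
  (nat_lit 90, nat_lit 24814301184)]⟩], [
  W6_21593063424, W6_21576548352, W6_21576290304, W6_20519583744, W6_20519325696, W6_20503068672,
  W6_20502810624, W6_20502552576, W6_19446104064, W6_19445846016, W6_19445587968, W6_19429588992,
  W6_19429330944, W6_19429072896, W6_19428814848, W6_18372624384, W6_18372366336, W6_18372108288,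
  W6_18371850240, W6_18355851264, W6_18355593216, W6_18355335168, W6_17298886656, W6_17298628608,
  W6_17298370560, W6_17282113536, W6_17281855488, W6_16225148928, W6_16224890880, W6_16208375808,
  W6_15151411200]⟩

theorem F6_21593862144_chk : fwdChk 6 ks6 F6_21593862144 = true := by decide +kernel

noncomputable def F6_21593075841 : Fwd := ⟨V6_21593075841, [
  ⟨V5_17298108480, nat_lit 1, [(nat_lit 97, nat_lit 21593075841),
  (nat_lit 12, nat_lit 22666817664), (nat_lit 107, nat_lit 22666817601),
  (nat_lit 53, nat_lit 23740559424)]⟩], [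
  W6_20485775424, W6_19428810816, W6_18371846208, W6_18355069056, W6_17298108480, W6_17298104448]⟩

theorem F6_21593075841_chk : fwdChk 6 ks6 F6_21593075841 = true := by decide +kernel

noncomputable def F6_21577089024 : Fwd := ⟨V6_21577089024, [
  ⟨V5_19429588992, nat_lit 7, [(nat_lit 31, nat_lit 21577089024),
  (nat_lit 47, nat_lit 22650826752), (nat_lit 121, nat_lit 23724564480),
  (nat_lit 15, nat_lit 24798302208), (nat_lit 63, nat_lit 25872039936)]⟩,
  ⟨V5_17282113536, nat_lit 8, [(nat_lit 64, nat_lit 21577089024),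
  (nat_lit 31, nat_lit 22650826752), (nat_lit 91, nat_lit 23724564480)]⟩,
  ⟨V5_17281597440, nat_lit 5, [(nat_lit 114, nat_lit 21577089024),
  (nat_lit 108, nat_lit 22650568704), (nat_lit 88, nat_lit 23724048384)]⟩], [
  W6_21576548352, W6_20503068672, W6_20502810624, W6_19429588992, W6_19429330944, W6_19429072896,
  W6_18355851264, W6_18355593216, W6_18355335168, W6_17282113536, W6_17281855488, W6_17281597440,
  W6_16208375808, W6_16208117760, W6_15134638080]⟩

theorem F6_21577089024_chk : fwdChk 6 ks6 F6_21577089024 = true := by decide +kernel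

noncomputable def F6_21577080960 : Fwd := ⟨V6_21577080960, [
  ⟨V5_17282113536, nat_lit 8, [(nat_lit 51, nat_lit 21577080960),
  (nat_lit 3, nat_lit 22650822720), (nat_lit 102, nat_lit 23724564480)]⟩,
  ⟨V5_15134630016, nat_lit 3, [(nat_lit 38, nat_lit 21577080960)]⟩,
  ⟨V5_16208371776, nat_lit 3, [(nat_lit 98, nat_lit 21577080960),
  (nat_lit 38, nat_lit 22650822720)]⟩,
  ⟨V5_17281589376, nat_lit 3, [(nat_lit 56, nat_lit 21577080960),
  (nat_lit 33, nat_lit 22650560640), (nat_lit 41, nat_lit 23724040320)]⟩,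
  ⟨V5_19428548736, nat_lit 1, [(nat_lit 113, nat_lit 21577080960),
  (nat_lit 76, nat_lit 22650560640), (nat_lit 32, nat_lit 23724040320),
  (nat_lit 11, nat_lit 24797520000), (nat_lit 31, nat_lit 25870999680)]⟩], [
  W6_21576032256, W6_20502552576, W6_20502290496, W6_19429072896, W6_19428810816, W6_19428548736,
  W6_18355593216, W6_18355331136, W6_18355069056, W6_17282113536, W6_17281851456, W6_17281589376,
  W6_16208371776, W6_16208109696, W6_15134630016]⟩

theorem F6_21577080960_chk : fwdChk 6 ks6 F6_21577080960 = true := by decide +kernel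

noncomputable def F6_21577080897 : Fwd := ⟨V6_21577080897, [
  ⟨V5_16208371776, nat_lit 3, [(nat_lit 21, nat_lit 21577080897),
  (nat_lit 45, nat_lit 22650822720)]⟩], [
  W6_20502290496, W6_19429068864, W6_19428810816, W6_18355589184, W6_18355331136, W6_17281851456,
  W6_16208371776]⟩

theorem F6_21577080897_chk : fwdChk 6 ks6 F6_21577080897 = true := by decide +kernel

noncomputable def F6_21576818817 : Fwd := ⟨V6_21576818817, [
  ⟨V5_16208109696, nat_lit 3, [(nat_lit 53, nat_lit 21576818817),
  (nat_lit 41, nat_lit 22650560640)]⟩,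
  ⟨V5_17281589376, nat_lit 3, [(nat_lit 37, nat_lit 21576818817),
  (nat_lit 98, nat_lit 22650560640), (nat_lit 38, nat_lit 22650298497),
  (nat_lit 75, nat_lit 23724040320)]⟩], [
  W6_21559255104, W6_20502290496, W6_20485775424, W6_20485513344, W6_19428810816, W6_19428548736,
  W6_19412295744, W6_18355331136, W6_18355069056, W6_18338816064, W6_18338553984, W6_17281851456,
  W6_17281589376, W6_16208109696]⟩

theorem F6_21576818817_chk : fwdChk 6 ks6 F6_21576818817 = true := by decide +kernel

noncomputable def F6_21576564801 : Fwd := ⟨V6_21576564801, [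
  ⟨V5_16207855680, nat_lit 3, [(nat_lit 3, nat_lit 21576564801),
  (nat_lit 79, nat_lit 22650306624)]⟩], [
  W6_20486033472, W6_20469260352, W6_19429068864, W6_19412295744, W6_18355331136, W6_18338558016,
  W6_18321784896, W6_17281593408, W6_17264820288, W6_16207855680]⟩

theorem F6_21576564801_chk : fwdChk 6 ks6 F6_21576564801 = true := by decide +kernel

noncomputable def F6_21576560769 : Fwd := ⟨V6_21576560769, [
  ⟨V5_17281589376, nat_lit 3, [(nat_lit 19, nat_lit 21576560769),
  (nat_lit 14, nat_lit 22650302592), (nat_lit 121, nat_lit 22650298497),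
  (nat_lit 14, nat_lit 23724040320)]⟩], [
  W6_20485775424, W6_20469260352, W6_19428810816, W6_19412295744, W6_19395518592, W6_18355331136,
  W6_18355069056, W6_18338558016, W6_18338553984, W6_17281593408, W6_17281589376, W6_16207851648]⟩

theorem F6_21576560769_chk : fwdChk 6 ks6 F6_21576560769 = true := by decide +kernel

noncomputable def F6_21576556674 : Fwd := ⟨V6_21576556674, [
  ⟨V5_17281589376, nat_lit 3, [(nat_lit 76, nat_lit 21576556674),
  (nat_lit 49, nat_lit 22650298497), (nat_lit 82, nat_lit 23724040320)]⟩], [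
  W6_21542477952, W6_20485513344, W6_19428548736, W6_19395518592, W6_18355069056, W6_18338553984,
  W6_17281589376]⟩

theorem F6_21576556674_chk : fwdChk 6 ks6 F6_21576556674 = true := by decide +kernel

noncomputable def F6_21560049792 : Fwd := ⟨V6_21560049792, [
  ⟨V5_18338562048, nat_lit 2, [(nat_lit 85, nat_lit 21560049792),
  (nat_lit 103, nat_lit 22633791552), (nat_lit 105, nat_lit 22633529472),
  (nat_lit 93, nat_lit 23707533312), (nat_lit 126, nat_lit 23707271232),
  (nat_lit 82, nat_lit 24781012992)]⟩], [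
  W6_20486037504, W6_19412557824, W6_19412299776, W6_19412295744, W6_18338816064, W6_18338562048,
  W6_18338558016, W6_18338553984, W6_17265078336, W6_17264820288, W6_16191078528]⟩

theorem F6_21560049792_chk : fwdChk 6 ks6 F6_21560049792 = true := by decide +kernel

noncomputable def F6_21559787649 : Fwd := ⟨V6_21559787649, [
  ⟨V5_17248043136, nat_lit 1, [(nat_lit 88, nat_lit 21559787649),
  (nat_lit 40, nat_lit 22633529472), (nat_lit 87, nat_lit 22616752257),
  (nat_lit 99, nat_lit 23690494080)]⟩,
  ⟨V5_16191078528, nat_lit 1, [(nat_lit 122, nat_lit 21559787649),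
  (nat_lit 80, nat_lit 22633529472)]⟩], [
  W6_20469260352, W6_19412295744, W6_19395518592, W6_18338558016, W6_18338553984, W6_18321784896,
  W6_17264820288, W6_17248043136, W6_16191078528]⟩

theorem F6_21559787649_chk : fwdChk 6 ks6 F6_21559787649 = true := by decide +kernel

noncomputable def F6_20653277184 : Fwd := ⟨V6_20653277184, [
  ⟨V5_17381720064, nat_lit 7, [(nat_lit 102, nat_lit 20653277184),
  (nat_lit 25, nat_lit 21710241792), (nat_lit 80, nat_lit 22767206400),
  (nat_lit 29, nat_lit 23824171008)]⟩,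
  ⟨V5_16324755456, nat_lit 4, [(nat_lit 105, nat_lit 20653277184),
  (nat_lit 92, nat_lit 21710241792), (nat_lit 5, nat_lit 22767206400)]⟩], [
  W6_20585644032, W6_20569128960, W6_20552613888, W6_19528679424, W6_19512164352, W6_19495649280,
  W6_18471714816, W6_18455199744, W6_18438684672, W6_17414750208, W6_17398235136, W6_17381720064,
  W6_16341270528, W6_16324755456]⟩

theorem F6_20653277184_chk : fwdChk 6 ks6 F6_20653277184 = true := by decide +kernel

noncomputable def F6_20653019136 : Fwd := ⟨V6_20653019136, [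
  ⟨V5_16324497408, nat_lit 2, [(nat_lit 72, nat_lit 20653019136),
  (nat_lit 103, nat_lit 21709983744), (nat_lit 76, nat_lit 22766948352)]⟩,
  ⟨V5_17398235136, nat_lit 3, [(nat_lit 34, nat_lit 20653019136),
  (nat_lit 94, nat_lit 21726756864), (nat_lit 50, nat_lit 21709983744),
  (nat_lit 15, nat_lit 22783721472), (nat_lit 43, nat_lit 22766948352),
  (nat_lit 62, nat_lit 23840686080)]⟩], [
  W6_20569128960, W6_20552355840, W6_19512164352, W6_19495391232, W6_18455199744, W6_18438426624,
  W6_17398235136, W6_17381462016, W6_16341270528, W6_16324497408]⟩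

theorem F6_20653019136_chk : fwdChk 6 ks6 F6_20653019136 = true := by decide +kernel

noncomputable def F6_20636762112 : Fwd := ⟨V6_20636762112, [
  ⟨V5_15267790848, nat_lit 3, [(nat_lit 84, nat_lit 20636762112),
  (nat_lit 123, nat_lit 21710241792)]⟩,
  ⟨V5_16308240384, nat_lit 7, [(nat_lit 49, nat_lit 20636762112),
  (nat_lit 99, nat_lit 21693726720), (nat_lit 37, nat_lit 22750691328)]⟩,
  ⟨V5_15251275776, nat_lit 3, [(nat_lit 78, nat_lit 20636762112),
  (nat_lit 7, nat_lit 21693726720)]⟩,
  ⟨V5_17414750208, nat_lit 2, [(nat_lit 68, nat_lit 20636762112),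
  (nat_lit 113, nat_lit 21710241792), (nat_lit 62, nat_lit 22783721472),
  (nat_lit 76, nat_lit 23857201152)]⟩,
  ⟨V5_16324755456, nat_lit 4, [(nat_lit 116, nat_lit 20636762112),
  (nat_lit 13, nat_lit 21710241792), (nat_lit 79, nat_lit 21693726720),
  (nat_lit 118, nat_lit 22767206400)]⟩,
  ⟨V5_16341270528, nat_lit 1, [(nat_lit 18, nat_lit 20636762112),
  (nat_lit 47, nat_lit 21710241792), (nat_lit 30, nat_lit 22783721472)]⟩,
  ⟨V5_18471714816, nat_lit 1, [(nat_lit 114, nat_lit 20636762112),
  (nat_lit 117, nat_lit 21710241792), (nat_lit 100, nat_lit 21693726720),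
  (nat_lit 86, nat_lit 22783721472), (nat_lit 28, nat_lit 22767206400),
  (nat_lit 99, nat_lit 23857201152), (nat_lit 16, nat_lit 23840686080),
  (nat_lit 55, nat_lit 24914165760)]⟩], [
  W6_20585644032, W6_20569128960, W6_20552613888, W6_20536098816, W6_19528679424, W6_19512164352,
  W6_19495649280, W6_19479134208, W6_18471714816, W6_18455199744, W6_18438684672, W6_18422169600,
  W6_17414750208, W6_17398235136, W6_17381720064, W6_17365204992, W6_16341270528, W6_16324755456,
  W6_16308240384, W6_15267790848, W6_15251275776]⟩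

theorem F6_20636762112_chk : fwdChk 6 ks6 F6_20636762112 = true := by decide +kernel

noncomputable def F6_20620247040 : Fwd := ⟨V6_20620247040, [
  ⟨V5_15234760704, nat_lit 9, [(nat_lit 38, nat_lit 20620247040),
  (nat_lit 54, nat_lit 21677211648)]⟩,
  ⟨V5_17348689920, nat_lit 13, [(nat_lit 60, nat_lit 20620247040),
  (nat_lit 37, nat_lit 21677211648), (nat_lit 50, nat_lit 22734176256),
  (nat_lit 117, nat_lit 23791140864)]⟩,
  ⟨V5_20519583744, nat_lit 11, [(nat_lit 58, nat_lit 20620247040),
  (nat_lit 13, nat_lit 21677211648), (nat_lit 84, nat_lit 22734176256),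
  (nat_lit 77, nat_lit 23791140864), (nat_lit 11, nat_lit 24848105472),
  (nat_lit 51, nat_lit 25905070080), (nat_lit 41, nat_lit 26962034688)]⟩,
  ⟨V5_15251275776, nat_lit 3, [(nat_lit 30, nat_lit 20620247040),
  (nat_lit 107, nat_lit 21693726720)]⟩], [
  W6_20585644032, W6_20569128960, W6_20552613888, W6_20536098816, W6_20519583744, W6_19528679424,
  W6_19512164352, W6_19495649280, W6_19479134208, W6_19462619136, W6_18471714816, W6_18455199744,
  W6_18438684672, W6_18422169600, W6_18405654528, W6_17398235136, W6_17381720064, W6_17365204992,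
  W6_17348689920, W6_16324755456, W6_16308240384, W6_16291725312, W6_15251275776, W6_15234760704,
  W6_14177796096]⟩

theorem F6_20620247040_chk : fwdChk 6 ks6 F6_20620247040 = true := by decide +kernel

noncomputable def F6_20603473920 : Fwd := ⟨V6_20603473920, [
  ⟨V5_15234760704, nat_lit 9, [(nat_lit 30, nat_lit 20603473920),
  (nat_lit 59, nat_lit 21677211648)]⟩,
  ⟨V5_14161022976, nat_lit 6, [(nat_lit 101, nat_lit 20603473920)]⟩,
  ⟨V5_15217987584, nat_lit 11, [(nat_lit 69, nat_lit 20603473920),
  (nat_lit 104, nat_lit 21660438528)]⟩,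
  ⟨V5_17348689920, nat_lit 14, [(nat_lit 95, nat_lit 20603473920),
  (nat_lit 71, nat_lit 21677211648), (nat_lit 60, nat_lit 21660438528),
  (nat_lit 58, nat_lit 22734176256), (nat_lit 44, nat_lit 22717403136),
  (nat_lit 78, nat_lit 23791140864)]⟩,
  ⟨V5_16274952192, nat_lit 11, [(nat_lit 7, nat_lit 20603473920),
  (nat_lit 22, nat_lit 21660438528), (nat_lit 58, nat_lit 22717403136)]⟩,
  ⟨V5_15234502656, nat_lit 5, [(nat_lit 80, nat_lit 20603473920),
  (nat_lit 116, nat_lit 21676953600)]⟩,
  ⟨V5_17381462016, nat_lit 1, [(nat_lit 11, nat_lit 20603473920),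
  (nat_lit 59, nat_lit 21676953600), (nat_lit 47, nat_lit 22750433280),
  (nat_lit 106, nat_lit 23823912960)]⟩], [
  W6_20569128960, W6_20552613888, W6_20552355840, W6_20536098816, W6_20535840768, W6_20519583744,
  W6_20519325696, W6_20502810624, W6_19512164352, W6_19495649280, W6_19495391232, W6_19479134208,
  W6_19478876160, W6_19462619136, W6_19462361088, W6_19445846016, W6_18455199744, W6_18438684672,
  W6_18438426624, W6_18422169600, W6_18421911552, W6_18405654528, W6_18405396480, W6_18388881408,
  W6_17381720064, W6_17381462016, W6_17365204992, W6_17364946944, W6_17348689920, W6_17348431872,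
  W6_17331916800, W6_16308240384, W6_16307982336, W6_16291725312, W6_16291467264, W6_16274952192,
  W6_15234760704, W6_15234502656, W6_15217987584, W6_14161022976]⟩

theorem F6_20603473920_chk : fwdChk 6 ks6 F6_20603473920 = true := by decide +kernel

noncomputable def F6_20603211840 : Fwd := ⟨V6_20603211840, [
  ⟨V5_15234502656, nat_lit 5, [(nat_lit 119, nat_lit 20603211840),
  (nat_lit 28, nat_lit 21676953600)]⟩,
  ⟨V5_16291467264, nat_lit 9, [(nat_lit 22, nat_lit 20603211840),
  (nat_lit 126, nat_lit 21676953600), (nat_lit 50, nat_lit 21660176448),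
  (nat_lit 96, nat_lit 22733918208)]⟩,
  ⟨V5_14160760896, nat_lit 1, [(nat_lit 102, nat_lit 20603211840)]⟩,
  ⟨V5_15234240576, nat_lit 1, [(nat_lit 31, nat_lit 20603211840),
  (nat_lit 59, nat_lit 21676691520)]⟩], [
  W6_20552355840, W6_20535840768, W6_20519325696, W6_20519063616, W6_19495391232, W6_19478876160,
  W6_19462361088, W6_19462099008, W6_19445583936, W6_18438426624, W6_18421911552, W6_18405396480,
  W6_18405134400, W6_18388619328, W6_17381462016, W6_17364946944, W6_17364684864, W6_17348431872,
  W6_17348169792, W6_17331654720, W6_16307982336, W6_16291467264, W6_16291205184, W6_16274690112,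
  W6_15234502656, W6_15234240576, W6_15217725504, W6_14160760896]⟩

theorem F6_20603211840_chk : fwdChk 6 ks6 F6_20603211840 = true := by decide +kernel

noncomputable def F6_20586700800 : Fwd := ⟨V6_20586700800, [
  ⟨V5_14144249856, nat_lit 8, [(nat_lit 27, nat_lit 20586700800)]⟩,
  ⟨V5_15201214464, nat_lit 15, [(nat_lit 116, nat_lit 20586700800),
  (nat_lit 106, nat_lit 21643665408)]⟩,
  ⟨V5_15217987584, nat_lit 11, [(nat_lit 2, nat_lit 20586700800),
  (nat_lit 53, nat_lit 21660438528)]⟩,
  ⟨V5_17348689920, nat_lit 14, [(nat_lit 28, nat_lit 20586700800),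
  (nat_lit 55, nat_lit 21660438528), (nat_lit 121, nat_lit 21643665408),
  (nat_lit 27, nat_lit 22734176256), (nat_lit 21, nat_lit 22717403136),
  (nat_lit 72, nat_lit 23791140864)]⟩,
  ⟨V5_16258179072, nat_lit 13, [(nat_lit 24, nat_lit 20586700800),
  (nat_lit 103, nat_lit 21643665408), (nat_lit 122, nat_lit 22700630016)]⟩,
  ⟨V5_15217729536, nat_lit 7, [(nat_lit 109, nat_lit 20586700800),
  (nat_lit 12, nat_lit 21660180480)]⟩,
  ⟨V5_16291209216, nat_lit 5, [(nat_lit 19, nat_lit 20586700800),
  (nat_lit 29, nat_lit 21660180480), (nat_lit 123, nat_lit 22733660160)]⟩,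
  ⟨V5_20486037504, nat_lit 1, [(nat_lit 110, nat_lit 20586700800),
  (nat_lit 41, nat_lit 21643665408), (nat_lit 80, nat_lit 22700630016),
  (nat_lit 1, nat_lit 23757594624), (nat_lit 97, nat_lit 24814559232),
  (nat_lit 120, nat_lit 25871523840), (nat_lit 66, nat_lit 26928488448)]⟩], [
  W6_20552613888, W6_20536098816, W6_20535840768, W6_20519583744, W6_20519325696, W6_20519067648,
  W6_20502810624, W6_20502552576, W6_20486037504, W6_19495649280, W6_19479134208, W6_19478876160,
  W6_19462619136, W6_19462361088, W6_19462103040, W6_19445846016, W6_19445587968, W6_19429072896,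
  W6_18438684672, W6_18422169600, W6_18421911552, W6_18405654528, W6_18405396480, W6_18405138432,
  W6_18388881408, W6_18388623360, W6_18372108288, W6_17365204992, W6_17364946944, W6_17348689920,
  W6_17348431872, W6_17348173824, W6_17331916800, W6_17331658752, W6_17315143680, W6_16291725312,
  W6_16291467264, W6_16291209216, W6_16274952192, W6_16274694144, W6_16258179072, W6_15217987584,
  W6_15217729536, W6_15201214464, W6_14144249856]⟩

theorem F6_20586700800_chk : fwdChk 6 ks6 F6_20586700800 = true := by decide +kernel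

noncomputable def F6_20586696768 : Fwd := ⟨V6_20586696768, [
  ⟨V5_15217987584, nat_lit 11, [(nat_lit 113, nat_lit 20586696768),
  (nat_lit 49, nat_lit 21660438528)]⟩,
  ⟨V5_14144245824, nat_lit 4, [(nat_lit 126, nat_lit 20586696768)]⟩,
  ⟨V5_16274952192, nat_lit 12, [(nat_lit 59, nat_lit 20586696768),
  (nat_lit 47, nat_lit 21660438528), (nat_lit 105, nat_lit 21643661376),
  (nat_lit 1, nat_lit 22717403136)]⟩,
  ⟨V5_15217725504, nat_lit 2, [(nat_lit 34, nat_lit 20586696768),
  (nat_lit 62, nat_lit 21660176448)]⟩,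
  ⟨V5_20486033472, nat_lit 1, [(nat_lit 111, nat_lit 20586696768),
  (nat_lit 61, nat_lit 21643661376), (nat_lit 23, nat_lit 22700625984),
  (nat_lit 113, nat_lit 23757590592), (nat_lit 39, nat_lit 24814555200),
  (nat_lit 98, nat_lit 25871519808), (nat_lit 92, nat_lit 26928484416)]⟩], [
  W6_20552355840, W6_20535840768, W6_20519325696, W6_20519063616, W6_20502810624, W6_20486033472,
  W6_19495391232, W6_19478876160, W6_19462361088, W6_19462099008, W6_19445846016, W6_19445583936,
  W6_19429068864, W6_18438426624, W6_18421911552, W6_18405396480, W6_18405134400, W6_18388881408,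
  W6_18388619328, W6_18372104256, W6_17364946944, W6_17364684864, W6_17348431872, W6_17348169792,
  W6_17331916800, W6_17331654720, W6_17315139648, W6_16291467264, W6_16291205184, W6_16274952192,
  W6_16274690112, W6_16258175040, W6_15217987584, W6_15217725504, W6_15201210432, W6_14144245824]⟩

theorem F6_20586696768_chk : fwdChk 6 ks6 F6_20586696768 = true := by decide +kernel

noncomputable def F6_20570443776 : Fwd := ⟨V6_20570443776, [
  ⟨V5_14127992832, nat_lit 12, [(nat_lit 93, nat_lit 20570443776)]⟩,
  ⟨V5_15201730560, nat_lit 12, [(nat_lit 113, nat_lit 20570443776),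
  (nat_lit 91, nat_lit 21644181504)]⟩,
  ⟨V5_15184957440, nat_lit 13, [(nat_lit 26, nat_lit 20570443776),
  (nat_lit 69, nat_lit 21627408384)]⟩,
  ⟨V5_15201472512, nat_lit 12, [(nat_lit 103, nat_lit 20570443776),
  (nat_lit 15, nat_lit 21643923456)]⟩,
  ⟨V5_16241922048, nat_lit 11, [(nat_lit 27, nat_lit 20570443776),
  (nat_lit 86, nat_lit 21627408384), (nat_lit 49, nat_lit 22684372992)]⟩,
  ⟨V5_16274952192, nat_lit 12, [(nat_lit 54, nat_lit 20570443776),
  (nat_lit 21, nat_lit 21643923456), (nat_lit 15, nat_lit 22717403136)]⟩,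
  ⟨V5_18355851264, nat_lit 5, [(nat_lit 21, nat_lit 20570443776),
  (nat_lit 89, nat_lit 21627408384), (nat_lit 11, nat_lit 22684372992),
  (nat_lit 66, nat_lit 23741337600), (nat_lit 46, nat_lit 24798302208)]⟩,
  ⟨V5_19495391232, nat_lit 1, [(nat_lit 120, nat_lit 20570443776),
  (nat_lit 110, nat_lit 21643923456), (nat_lit 30, nat_lit 22717403136),
  (nat_lit 58, nat_lit 23790882816), (nat_lit 81, nat_lit 24864362496),
  (nat_lit 54, nat_lit 25937842176)]⟩], [
  W6_20569128960, W6_20552613888, W6_20552355840, W6_20536098816, W6_20535840768, W6_20519583744,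
  W6_20519325696, W6_20503068672, W6_20502810624, W6_19495649280, W6_19495391232, W6_19479134208,
  W6_19478876160, W6_19462619136, W6_19462361088, W6_19446104064, W6_19445846016, W6_19429588992,
  W6_19429330944, W6_18422169600, W6_18421911552, W6_18405654528, W6_18405396480, W6_18389139456,
  W6_18388881408, W6_18372624384, W6_18372366336, W6_18355851264, W6_17348689920, W6_17348431872,
  W6_17332174848, W6_17331916800, W6_17315659776, W6_17315401728, W6_17298886656, W6_16275210240,
  W6_16274952192, W6_16258695168, W6_16258437120, W6_16241922048, W6_15201730560, W6_15201472512,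
  W6_15184957440, W6_14127992832]⟩

theorem F6_20570443776_chk : fwdChk 6 ks6 F6_20570443776 = true := by decide +kernel

noncomputable def F6_20569927680 : Fwd := ⟨V6_20569927680, [
  ⟨V5_14127476736, nat_lit 8, [(nat_lit 62, nat_lit 20569927680)]⟩,
  ⟨V5_15201214464, nat_lit 15, [(nat_lit 107, nat_lit 20569927680),
  (nat_lit 14, nat_lit 21643665408)]⟩,
  ⟨V5_17348689920, nat_lit 14, [(nat_lit 83, nat_lit 20569927680),
  (nat_lit 4, nat_lit 21643665408), (nat_lit 27, nat_lit 22717403136),
  (nat_lit 85, nat_lit 23791140864)]⟩,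
  ⟨V5_16274952192, nat_lit 14, [(nat_lit 6, nat_lit 20569927680),
  (nat_lit 118, nat_lit 21643665408), (nat_lit 76, nat_lit 22717403136)]⟩,
  ⟨V5_15184441344, nat_lit 4, [(nat_lit 43, nat_lit 20569927680),
  (nat_lit 119, nat_lit 21626892288)]⟩,
  ⟨V5_16257921024, nat_lit 4, [(nat_lit 36, nat_lit 20569927680),
  (nat_lit 14, nat_lit 21643407360), (nat_lit 126, nat_lit 21626892288),
  (nat_lit 95, nat_lit 22700371968)]⟩,
  ⟨V5_18355335168, nat_lit 4, [(nat_lit 109, nat_lit 20569927680),
  (nat_lit 87, nat_lit 21626892288), (nat_lit 45, nat_lit 22683856896),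
  (nat_lit 16, nat_lit 23740821504), (nat_lit 15, nat_lit 24797786112)]⟩], [
  W6_20536098816, W6_20519583744, W6_20519325696, W6_20502810624, W6_20502552576, W6_20486037504,
  W6_20469264384, W6_19479134208, W6_19462619136, W6_19462361088, W6_19445846016, W6_19445587968,
  W6_19429072896, W6_19428814848, W6_19412299776, W6_18422169600, W6_18405654528, W6_18405396480,
  W6_18388881408, W6_18388623360, W6_18372108288, W6_18371850240, W6_18355335168, W6_17348689920,
  W6_17348431872, W6_17331916800, W6_17331658752, W6_17315143680, W6_17314885632, W6_17298370560,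
  W6_16274952192, W6_16274694144, W6_16258179072, W6_16257921024, W6_16241405952, W6_15201214464,
  W6_15200956416, W6_15184441344, W6_14127476736]⟩

theorem F6_20569927680_chk : fwdChk 6 ks6 F6_20569927680 = true := by decide +kernel

noncomputable def F6_20569919553 : Fwd := ⟨V6_20569919553, [
  ⟨V5_15201210432, nat_lit 3, [(nat_lit 123, nat_lit 20569919553),
  (nat_lit 3, nat_lit 21643661376)]⟩,
  ⟨V5_20486033472, nat_lit 1, [(nat_lit 124, nat_lit 20569919553),
  (nat_lit 119, nat_lit 21643661376), (nat_lit 36, nat_lit 21626884161),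
  (nat_lit 24, nat_lit 22700625984), (nat_lit 119, nat_lit 22683848769),
  (nat_lit 79, nat_lit 23757590592), (nat_lit 72, nat_lit 23740813377),
  (nat_lit 80, nat_lit 24814555200), (nat_lit 112, nat_lit 24797777985),
  (nat_lit 120, nat_lit 25871519808), (nat_lit 116, nat_lit 25854742593),
  (nat_lit 51, nat_lit 26928484416)]⟩], [
  W6_20519063616, W6_20486033472, W6_19462099008, W6_19445583936, W6_19429068864, W6_18405134400,
  W6_18388619328, W6_18372104256, W6_17348169792, W6_17331654720, W6_17315139648, W6_16274690112,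
  W6_16258175040, W6_15201210432]⟩

theorem F6_20569919553_chk : fwdChk 6 ks6 F6_20569919553 = true := by decide +kernel

noncomputable def F6_20569661505 : Fwd := ⟨V6_20569661505, [
  ⟨V5_15200952384, nat_lit 4, [(nat_lit 49, nat_lit 20569661505),
  (nat_lit 122, nat_lit 21643403328)]⟩,
  ⟨V5_16274432064, nat_lit 3, [(nat_lit 44, nat_lit 20569661505),
  (nat_lit 6, nat_lit 21643403328), (nat_lit 52, nat_lit 21643141185),
  (nat_lit 68, nat_lit 22716883008)]⟩,
  ⟨V5_16274690112, nat_lit 1, [(nat_lit 55, nat_lit 20569661505),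
  (nat_lit 38, nat_lit 21643403328), (nat_lit 55, nat_lit 21643399233),
  (nat_lit 11, nat_lit 22717141056)]⟩], [
  W6_20519063616, W6_20502290496, W6_20485775424, W6_19462099008, W6_19445583936, W6_19445325888,
  W6_19428810816, W6_18405134400, W6_18388619328, W6_18388361280, W6_18371846208, W6_17348169792,
  W6_17331654720, W6_17331396672, W6_17314881600, W6_16274690112, W6_16274432064, W6_16257916992,
  W6_15200952384]⟩

theorem F6_20569661505_chk : fwdChk 6 ks6 F6_20569661505 = true := by decide +kernel

noncomputable def F6_20554186752 : Fwd := ⟨V6_20554186752, [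
  ⟨V5_15168700416, nat_lit 5, [(nat_lit 23, nat_lit 20554186752),
  (nat_lit 52, nat_lit 21611151360)]⟩,
  ⟨V5_15185215488, nat_lit 5, [(nat_lit 120, nat_lit 20554186752),
  (nat_lit 4, nat_lit 21627666432)]⟩,
  ⟨V5_14111735808, nat_lit 3, [(nat_lit 41, nat_lit 20554186752)]⟩,
  ⟨V5_16242180096, nat_lit 5, [(nat_lit 76, nat_lit 20554186752),
  (nat_lit 30, nat_lit 21627666432), (nat_lit 124, nat_lit 21611151360),
  (nat_lit 92, nat_lit 22684631040)]⟩,
  ⟨V5_20552613888, nat_lit 4, [(nat_lit 83, nat_lit 20554186752),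
  (nat_lit 100, nat_lit 21627666432), (nat_lit 63, nat_lit 22701146112),
  (nat_lit 80, nat_lit 23774625792), (nat_lit 78, nat_lit 24848105472),
  (nat_lit 106, nat_lit 25921585152), (nat_lit 10, nat_lit 26995064832)]⟩], [
  W6_20552613888, W6_20536098816, W6_19479134208, W6_19462619136, W6_18405654528, W6_18389139456,
  W6_17332174848, W6_17315659776, W6_16258695168, W6_16242180096, W6_15185215488, W6_15168700416,
  W6_14111735808]⟩

theorem F6_20554186752_chk : fwdChk 6 ks6 F6_20554186752 = true := by decide +kernel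

noncomputable def F6_20553404481 : Fwd := ⟨V6_20553404481, [
  ⟨V5_15184695360, nat_lit 5, [(nat_lit 39, nat_lit 20553404481),
  (nat_lit 66, nat_lit 21627146304)]⟩,
  ⟨V5_19412553792, nat_lit 1, [(nat_lit 81, nat_lit 20553404481),
  (nat_lit 14, nat_lit 21627146304), (nat_lit 25, nat_lit 21610369089),
  (nat_lit 53, nat_lit 22684110912), (nat_lit 24, nat_lit 22667333697),
  (nat_lit 32, nat_lit 23741075520), (nat_lit 72, nat_lit 23724298305),
  (nat_lit 20, nat_lit 24798040128), (nat_lit 25, nat_lit 24781262913),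
  (nat_lit 11, nat_lit 25855004736)]⟩], [
  W6_20519063616, W6_20486033472, W6_19462099008, W6_19445583936, W6_19429068864, W6_19412553792,
  W6_18405134400, W6_18388619328, W6_18372104256, W6_18355589184, W6_17331654720, W6_17315139648,
  W6_17298624576, W6_16258175040, W6_16241659968, W6_15184695360]⟩

theorem F6_20553404481_chk : fwdChk 6 ks6 F6_20553404481 = true := by decide +kernel

noncomputable def F6_20553154560 : Fwd := ⟨V6_20553154560, [
  ⟨V5_15167668224, nat_lit 8, [(nat_lit 84, nat_lit 20553154560),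
  (nat_lit 85, nat_lit 21610119168)]⟩,
  ⟨V5_14110703616, nat_lit 5, [(nat_lit 88, nat_lit 20553154560)]⟩,
  ⟨V5_18405654528, nat_lit 12, [(nat_lit 13, nat_lit 20553154560),
  (nat_lit 3, nat_lit 21626892288), (nat_lit 120, nat_lit 22700630016),
  (nat_lit 4, nat_lit 23774367744), (nat_lit 28, nat_lit 24848105472)]⟩,
  ⟨V5_15184441344, nat_lit 9, [(nat_lit 87, nat_lit 20553154560),
  (nat_lit 14, nat_lit 21626892288)]⟩,
  ⟨V5_19395526656, nat_lit 2, [(nat_lit 86, nat_lit 20553154560),
  (nat_lit 65, nat_lit 21610119168), (nat_lit 17, nat_lit 22667083776),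
  (nat_lit 58, nat_lit 23724048384), (nat_lit 68, nat_lit 24781012992),
  (nat_lit 77, nat_lit 25837977600)]⟩], [
  W6_20519583744, W6_20502810624, W6_20486037504, W6_20469264384, W6_19462619136, W6_19445846016,
  W6_19429072896, W6_19412299776, W6_19395526656, W6_18405654528, W6_18388881408, W6_18372108288,
  W6_18355335168, W6_18338562048, W6_17331916800, W6_17315143680, W6_17298370560, W6_17281597440,
  W6_16258179072, W6_16241405952, W6_16224632832, W6_15184441344, W6_15167668224, W6_14110703616]⟩

theorem F6_20553154560_chk : fwdChk 6 ks6 F6_20553154560 = true := by decide +kernel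

noncomputable def F6_20553146433 : Fwd := ⟨V6_20553146433, [
  ⟨V5_15184437312, nat_lit 7, [(nat_lit 76, nat_lit 20553146433),
  (nat_lit 70, nat_lit 21626888256)]⟩,
  ⟨V5_16258175040, nat_lit 5, [(nat_lit 115, nat_lit 20553146433),
  (nat_lit 91, nat_lit 21626888256), (nat_lit 115, nat_lit 21626884161),
  (nat_lit 23, nat_lit 22700625984)]⟩,
  ⟨V5_17331396672, nat_lit 2, [(nat_lit 2, nat_lit 20553146433),
  (nat_lit 13, nat_lit 21626888256), (nat_lit 34, nat_lit 21626626113),
  (nat_lit 35, nat_lit 22700367936), (nat_lit 24, nat_lit 22700105793),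
  (nat_lit 22, nat_lit 23773847616)]⟩], [
  W6_20519063616, W6_20502290496, W6_20486033472, W6_20485775424, W6_20469260352, W6_19462099008,
  W6_19445583936, W6_19445325888, W6_19429068864, W6_19428810816, W6_19412295744, W6_18405134400,
  W6_18388619328, W6_18388361280, W6_18372104256, W6_18371846208, W6_18355331136, W6_17331654720,
  W6_17331396672, W6_17315139648, W6_17314881600, W6_17298366528, W6_16258175040, W6_16257916992,
  W6_16241401920, W6_15184437312]⟩

theorem F6_20553146433_chk : fwdChk 6 ks6 F6_20553146433 = true := by decide +kernel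

noncomputable def F6_20552622210 : Fwd := ⟨V6_20552622210, [
  ⟨V5_16257654912, nat_lit 2, [(nat_lit 77, nat_lit 20552622210),
  (nat_lit 12, nat_lit 21626364033), (nat_lit 27, nat_lit 22700105856)]⟩], [
  W6_20485513344, W6_19428548736, W6_18371584128, W6_17314619520, W6_16257654912]⟩

theorem F6_20552622210_chk : fwdChk 6 ks6 F6_20552622210 = true := by decide +kernel

noncomputable def F6_20537155584 : Fwd := ⟨V6_20537155584, [
  ⟨V5_14094704640, nat_lit 8, [(nat_lit 100, nat_lit 20537155584)]⟩,
  ⟨V5_15168184320, nat_lit 16, [(nat_lit 117, nat_lit 20537155584),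
  (nat_lit 6, nat_lit 21610635264)]⟩,
  ⟨V5_15168442368, nat_lit 7, [(nat_lit 83, nat_lit 20537155584),
  (nat_lit 104, nat_lit 21610893312)]⟩,
  ⟨V5_17315659776, nat_lit 12, [(nat_lit 37, nat_lit 20537155584),
  (nat_lit 67, nat_lit 21610893312), (nat_lit 88, nat_lit 21610635264),
  (nat_lit 120, nat_lit 22684631040), (nat_lit 93, nat_lit 22684372992),
  (nat_lit 80, nat_lit 23758110720)]⟩,
  ⟨V5_16242180096, nat_lit 5, [(nat_lit 68, nat_lit 20537155584),
  (nat_lit 102, nat_lit 21610893312), (nat_lit 1, nat_lit 22684631040)]⟩,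
  ⟨V5_19462103040, nat_lit 9, [(nat_lit 31, nat_lit 20537155584),
  (nat_lit 35, nat_lit 21610635264), (nat_lit 34, nat_lit 22684114944),
  (nat_lit 97, nat_lit 23757594624), (nat_lit 98, nat_lit 24831074304),
  (nat_lit 60, nat_lit 25904553984)]⟩], [
  W6_20536098816, W6_20535840768, W6_20519583744, W6_20519325696, W6_20519067648, W6_19462619136,
  W6_19462361088, W6_19462103040, W6_19446104064, W6_19445846016, W6_19445587968, W6_18389139456,
  W6_18388881408, W6_18388623360, W6_18372624384, W6_18372366336, W6_18372108288, W6_17315659776,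
  W6_17315401728, W6_17315143680, W6_17299144704, W6_17298886656, W6_17298628608, W6_16242180096,
  W6_16241922048, W6_16241664000, W6_16225406976, W6_16225148928, W6_15168442368, W6_15168184320,
  W6_15151669248, W6_14094704640]⟩

theorem F6_20537155584_chk : fwdChk 6 ks6 F6_20537155584 = true := by decide +kernel

noncomputable def F6_20536889409 : Fwd := ⟨V6_20536889409, [
  ⟨V5_15168180288, nat_lit 3, [(nat_lit 100, nat_lit 20536889409),
  (nat_lit 52, nat_lit 21610631232)]⟩,
  ⟨V5_16225144896, nat_lit 2, [(nat_lit 76, nat_lit 20536889409),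
  (nat_lit 80, nat_lit 21610631232), (nat_lit 52, nat_lit 21593854017),
  (nat_lit 24, nat_lit 22667595840)]⟩], [
  W6_20519063616, W6_19462099008, W6_19445583936, W6_19429068864, W6_18388619328, W6_18372104256,
  W6_18355589184, W6_17315139648, W6_17298624576, W6_16241659968, W6_16225144896, W6_15168180288]⟩

theorem F6_20536889409_chk : fwdChk 6 ks6 F6_20536889409 = true := by decide +kernel

noncomputable def F6_20536111233 : Fwd := ⟨V6_20536111233, [
  ⟨V5_16241139840, nat_lit 2, [(nat_lit 44, nat_lit 20536111233),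
  (nat_lit 85, nat_lit 21609853056), (nat_lit 54, nat_lit 21609848961),
  (nat_lit 42, nat_lit 22683590784)]⟩], [
  W6_20485775424, W6_19428810816, W6_18371846208, W6_18355069056, W6_17314881600, W6_17298108480,
  W6_17298104448, W6_16241143872, W6_16241139840]⟩

theorem F6_20536111233_chk : fwdChk 6 ks6 F6_20536111233 = true := by decide +kernel

noncomputable def F6_20520382464 : Fwd := ⟨V6_20520382464, [
  ⟨V5_14077931520, nat_lit 3, [(nat_lit 34, nat_lit 20520382464)]⟩,
  ⟨V5_15151411200, nat_lit 9, [(nat_lit 5, nat_lit 20520382464),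
  (nat_lit 124, nat_lit 21593862144)]⟩,
  ⟨V5_16225406976, nat_lit 4, [(nat_lit 83, nat_lit 20520382464),
  (nat_lit 66, nat_lit 21594120192), (nat_lit 120, nat_lit 22667857920)]⟩,
  ⟨V5_18372624384, nat_lit 7, [(nat_lit 114, nat_lit 20520382464),
  (nat_lit 57, nat_lit 21594120192), (nat_lit 103, nat_lit 21593862144),
  (nat_lit 50, nat_lit 22667857920), (nat_lit 51, nat_lit 22667599872),
  (nat_lit 19, nat_lit 23741595648), (nat_lit 4, nat_lit 23741337600),
  (nat_lit 75, nat_lit 24815075328)]⟩], [
  W6_20519583744, W6_20519325696, W6_19446104064, W6_19445846016, W6_19445587968, W6_18372624384,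
  W6_18372366336, W6_18372108288, W6_18371850240, W6_17299144704, W6_17298886656, W6_17298628608,
  W6_17298370560, W6_16225406976, W6_16225148928, W6_16224890880, W6_15151669248, W6_15151411200,
  W6_14077931520]⟩

theorem F6_20520382464_chk : fwdChk 6 ks6 F6_20520382464 = true := by decide +kernel

noncomputable def F6_20520374337 : Fwd := ⟨V6_20520374337, [
  ⟨V5_15151665216, nat_lit 3, [(nat_lit 66, nat_lit 20520374337),
  (nat_lit 14, nat_lit 21594116160)]⟩], [
  W6_20519063616, W6_19445583936, W6_18372104256, W6_17298624576, W6_16225144896, W6_15151665216]⟩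

theorem F6_20520374337_chk : fwdChk 6 ks6 F6_20520374337 = true := by decide +kernel

noncomputable def F6_20519866368 : Fwd := ⟨V6_20519866368, [
  ⟨V5_19446104064, nat_lit 5, [(nat_lit 125, nat_lit 20519866368),
  (nat_lit 23, nat_lit 21593604096), (nat_lit 19, nat_lit 22667341824),
  (nat_lit 21, nat_lit 23741079552), (nat_lit 54, nat_lit 24814817280),
  (nat_lit 71, nat_lit 25888555008)]⟩,
  ⟨V5_15151153152, nat_lit 4, [(nat_lit 122, nat_lit 20519866368),
  (nat_lit 88, nat_lit 21593604096)]⟩], [
  W6_20503068672, W6_20486295552, W6_19446104064, W6_19429330944, W6_19412557824, W6_18372366336,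
  W6_18355593216, W6_17298628608, W6_17281855488, W6_16224890880, W6_16208117760, W6_15151153152,
  W6_14077415424]⟩

theorem F6_20519866368_chk : fwdChk 6 ks6 F6_20519866368 = true := by decide +kernel

noncomputable def F6_20503351296 : Fwd := ⟨V6_20503351296, [
  ⟨V5_19429588992, nat_lit 7, [(nat_lit 103, nat_lit 20503351296),
  (nat_lit 22, nat_lit 21577089024), (nat_lit 101, nat_lit 22650826752),
  (nat_lit 125, nat_lit 23724564480), (nat_lit 13, nat_lit 24798302208),
  (nat_lit 90, nat_lit 25872039936)]⟩,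
  ⟨V5_14060900352, nat_lit 3, [(nat_lit 58, nat_lit 20503351296)]⟩,
  ⟨V5_18355851264, nat_lit 2, [(nat_lit 113, nat_lit 20503351296),
  (nat_lit 89, nat_lit 21577089024), (nat_lit 48, nat_lit 22650826752),
  (nat_lit 49, nat_lit 23724564480), (nat_lit 53, nat_lit 24798302208)]⟩], [
  W6_20503068672, W6_19429588992, W6_19429330944, W6_18355851264, W6_18355593216, W6_17282113536,
  W6_17281855488, W6_16208375808, W6_16208117760, W6_15134638080, W6_14060900352]⟩

theorem F6_20503351296_chk : fwdChk 6 ks6 F6_20503351296 = true := by decide +kernel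

noncomputable def F6_20503343169 : Fwd := ⟨V6_20503343169, [
  ⟨V5_15134634048, nat_lit 3, [(nat_lit 37, nat_lit 20503343169),
  (nat_lit 4, nat_lit 21577084992)]⟩,
  ⟨V5_16208371776, nat_lit 3, [(nat_lit 121, nat_lit 20503343169),
  (nat_lit 75, nat_lit 21577084992), (nat_lit 85, nat_lit 21577080897),
  (nat_lit 52, nat_lit 22650822720)]⟩], [
  W6_19429068864, W6_19428810816, W6_18355589184, W6_18355331136, W6_17281851456, W6_17281593408,
  W6_16208371776, W6_16208113728, W6_15134634048]⟩

theorem F6_20503343169_chk : fwdChk 6 ks6 F6_20503343169 = true := by decide +kernel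

noncomputable def F6_20503089216 : Fwd := ⟨V6_20503089216, [
  ⟨V5_16208117760, nat_lit 3, [(nat_lit 55, nat_lit 20503089216),
  (nat_lit 76, nat_lit 21576830976), (nat_lit 37, nat_lit 21576826944),
  (nat_lit 9, nat_lit 22650568704)]⟩,
  ⟨V5_15134376000, nat_lit 2, [(nat_lit 84, nat_lit 20503089216),
  (nat_lit 71, nat_lit 21576826944)]⟩], [
  W6_20486295552, W6_19429330944, W6_19412557824, W6_19412553792, W6_18355593216, W6_18355589184,
  W6_18338816064, W6_17281855488, W6_17281851456, W6_17265078336, W6_16208117760, W6_16208113728,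
  W6_15134376000]⟩

theorem F6_20503089216_chk : fwdChk 6 ks6 F6_20503089216 = true := by decide +kernel

noncomputable def F6_20503085121 : Fwd := ⟨V6_20503085121, [
  ⟨V5_16207855680, nat_lit 3, [(nat_lit 124, nat_lit 20503085121),
  (nat_lit 61, nat_lit 21576826944), (nat_lit 91, nat_lit 21576564801),
  (nat_lit 17, nat_lit 22650306624)]⟩,
  ⟨V5_15134376000, nat_lit 2, [(nat_lit 54, nat_lit 20503085121),
  (nat_lit 23, nat_lit 21576826944)]⟩], [
  W6_20486033472, W6_19429068864, W6_19412553792, W6_19412295744, W6_18355589184, W6_18355331136,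
  W6_18338816064, W6_18338558016, W6_17281851456, W6_17281593408, W6_17265078336, W6_17264820288,
  W6_16208113728, W6_16207855680, W6_15134376000]⟩

theorem F6_20503085121_chk : fwdChk 6 ks6 F6_20503085121 = true := by decide +kernel

noncomputable def F6_20502823104 : Fwd := ⟨V6_20502823104, [
  ⟨V5_17281597440, nat_lit 5, [(nat_lit 45, nat_lit 20502823104),
  (nat_lit 54, nat_lit 21576564864), (nat_lit 2, nat_lit 22650306624),
  (nat_lit 97, nat_lit 23724048384)]⟩,
  ⟨V5_14060372160, nat_lit 1, [(nat_lit 98, nat_lit 20502823104)]⟩], [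
  W6_20469264384, W6_19412299776, W6_19395526656, W6_18355335168, W6_18338562048, W6_18338558016,
  W6_18321784896, W6_17281597440, W6_17281593408, W6_17264820288, W6_17248043136, W6_16207855680,
  W6_16207851648, W6_16191078528, W6_15134113920, W6_14060372160]⟩

theorem F6_20502823104_chk : fwdChk 6 ks6 F6_20502823104 = true := by decide +kernel

noncomputable def F6_20502818946 : Fwd := ⟨V6_20502818946, [
  ⟨V5_16207851648, nat_lit 1, [(nat_lit 43, nat_lit 20502818946),
  (nat_lit 10, nat_lit 21576560769), (nat_lit 86, nat_lit 22650302592)]⟩], [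
  W6_19395518592, W6_18355069056, W6_18338553984, W6_17281589376, W6_16207851648]⟩

theorem F6_20502818946_chk : fwdChk 6 ks6 F6_20502818946 = true := by decide +kernel

noncomputable def F6_20469268737 : Fwd := ⟨V6_20469268737, [
  ⟨V5_15100559616, nat_lit 1, [(nat_lit 71, nat_lit 20469268737),
  (nat_lit 42, nat_lit 21543010560)]⟩], [
  W6_18321784896, W6_17248043136, W6_15100559616]⟩

theorem F6_20469268737_chk : fwdChk 6 ks6 F6_20469268737 = true := by decide +kernel

noncomputable def F6_19629342720 : Fwd := ⟨V6_19629342720, [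
  ⟨V5_19528679424, nat_lit 3, [(nat_lit 120, nat_lit 19629342720),
  (nat_lit 21, nat_lit 20686307328), (nat_lit 92, nat_lit 21743271936),
  (nat_lit 35, nat_lit 22800236544), (nat_lit 106, nat_lit 23857201152),
  (nat_lit 7, nat_lit 24914165760), (nat_lit 126, nat_lit 25971130368)]⟩], [
  W6_19528679424]⟩

theorem F6_19629342720_chk : fwdChk 6 ks6 F6_19629342720 = true := by decide +kernel

noncomputable def F6_19612827648 : Fwd := ⟨V6_19612827648, [
  ⟨V5_18455199744, nat_lit 3, [(nat_lit 112, nat_lit 19612827648),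
  (nat_lit 25, nat_lit 20669792256), (nat_lit 102, nat_lit 21726756864),
  (nat_lit 15, nat_lit 22783721472), (nat_lit 122, nat_lit 23840686080),
  (nat_lit 37, nat_lit 24897650688)]⟩], [
  W6_19528679424, W6_19512164352, W6_18471714816, W6_18455199744]⟩

theorem F6_19612827648_chk : fwdChk 6 ks6 F6_19612827648 = true := by decide +kernel

noncomputable def F6_19596312576 : Fwd := ⟨V6_19596312576, [
  ⟨V5_19495649280, nat_lit 10, [(nat_lit 118, nat_lit 19596312576),
  (nat_lit 104, nat_lit 20653277184), (nat_lit 46, nat_lit 21710241792),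
  (nat_lit 90, nat_lit 22767206400), (nat_lit 51, nat_lit 23824171008),
  (nat_lit 52, nat_lit 24881135616), (nat_lit 124, nat_lit 25938100224)]⟩], [
  W6_19528679424, W6_19512164352, W6_19495649280, W6_18471714816, W6_18455199744, W6_18438684672,
  W6_17414750208, W6_17398235136, W6_17381720064]⟩

theorem F6_19596312576_chk : fwdChk 6 ks6 F6_19596312576 = true := by decide +kernel

noncomputable def F6_19579797504 : Fwd := ⟨V6_19579797504, [
  ⟨V5_16308240384, nat_lit 7, [(nat_lit 66, nat_lit 19579797504),
  (nat_lit 62, nat_lit 20636762112), (nat_lit 64, nat_lit 21693726720),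
  (nat_lit 9, nat_lit 22750691328)]⟩,
  ⟨V5_19479134208, nat_lit 9, [(nat_lit 38, nat_lit 19579797504),
  (nat_lit 97, nat_lit 20636762112), (nat_lit 126, nat_lit 21693726720),
  (nat_lit 110, nat_lit 22750691328), (nat_lit 31, nat_lit 23807655936),
  (nat_lit 68, nat_lit 24864620544), (nat_lit 66, nat_lit 25921585152)]⟩], [
  W6_19528679424, W6_19512164352, W6_19495649280, W6_19479134208, W6_18471714816, W6_18455199744,
  W6_18438684672, W6_18422169600, W6_17414750208, W6_17398235136, W6_17381720064, W6_17365204992,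
  W6_16341270528, W6_16324755456, W6_16308240384]⟩

theorem F6_19579797504_chk : fwdChk 6 ks6 F6_19579797504 = true := by decide +kernel

noncomputable def F6_19579277376 : Fwd := ⟨V6_19579277376, [
  ⟨V5_17364684864, nat_lit 1, [(nat_lit 65, nat_lit 19579277376),
  (nat_lit 23, nat_lit 20636241984), (nat_lit 78, nat_lit 21693206592),
  (nat_lit 61, nat_lit 22750171200), (nat_lit 50, nat_lit 23807135808)]⟩], [
  W6_19495391232, W6_18438426624, W6_17381462016, W6_17364684864, W6_16324497408]⟩

theorem F6_19579277376_chk : fwdChk 6 ks6 F6_19579277376 = true := by decide +kernel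

noncomputable def F6_19562766336 : Fwd := ⟨V6_19562766336, [
  ⟨V5_15267790848, nat_lit 3, [(nat_lit 51, nat_lit 19562766336),
  (nat_lit 114, nat_lit 20636504064), (nat_lit 11, nat_lit 21710241792)]⟩,
  ⟨V5_15234244608, nat_lit 5, [(nat_lit 96, nat_lit 19562766336),
  (nat_lit 95, nat_lit 20619730944), (nat_lit 59, nat_lit 21676695552)]⟩,
  ⟨V5_19462103040, nat_lit 9, [(nat_lit 7, nat_lit 19562766336),
  (nat_lit 92, nat_lit 20619730944), (nat_lit 75, nat_lit 21676695552),
  (nat_lit 103, nat_lit 22733660160), (nat_lit 16, nat_lit 23790624768),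
  (nat_lit 106, nat_lit 24847589376), (nat_lit 84, nat_lit 25904553984)]⟩,
  ⟨V5_16291209216, nat_lit 5, [(nat_lit 76, nat_lit 19562766336),
  (nat_lit 51, nat_lit 20619730944), (nat_lit 87, nat_lit 21676695552),
  (nat_lit 49, nat_lit 22733660160)]⟩], [
  W6_19495649280, W6_19478876160, W6_19462103040, W6_18438684672, W6_18421911552, W6_18405138432,
  W6_17381720064, W6_17364946944, W6_17348173824, W6_16324755456, W6_16307982336, W6_16291209216,
  W6_15267790848, W6_15251017728, W6_15234244608]⟩

theorem F6_19562766336_chk : fwdChk 6 ks6 F6_19562766336 = true := by decide +kernel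

noncomputable def F6_19546247232 : Fwd := ⟨V6_19546247232, [
  ⟨V5_14177538048, nat_lit 3, [(nat_lit 60, nat_lit 19546247232),
  (nat_lit 118, nat_lit 20619988992)]⟩,
  ⟨V5_15234502656, nat_lit 5, [(nat_lit 16, nat_lit 19546247232),
  (nat_lit 117, nat_lit 20619988992), (nat_lit 81, nat_lit 20603211840),
  (nat_lit 86, nat_lit 21676953600)]⟩,
  ⟨V5_15251017728, nat_lit 3, [(nat_lit 4, nat_lit 19546247232),
  (nat_lit 15, nat_lit 20619988992), (nat_lit 74, nat_lit 20619726912),
  (nat_lit 42, nat_lit 21693468672)]⟩,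
  ⟨V5_14177275968, nat_lit 1, [(nat_lit 69, nat_lit 19546247232),
  (nat_lit 81, nat_lit 20619726912)]⟩,
  ⟨V5_16324497408, nat_lit 2, [(nat_lit 44, nat_lit 19546247232),
  (nat_lit 109, nat_lit 20619988992), (nat_lit 112, nat_lit 20619726912),
  (nat_lit 122, nat_lit 21693468672), (nat_lit 48, nat_lit 21693206592),
  (nat_lit 18, nat_lit 22766948352)]⟩,
  ⟨V5_14160760896, nat_lit 1, [(nat_lit 22, nat_lit 19546247232),
  (nat_lit 15, nat_lit 20603211840)]⟩,
  ⟨V5_19445583936, nat_lit 2, [(nat_lit 110, nat_lit 19546247232),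
  (nat_lit 33, nat_lit 20603211840), (nat_lit 31, nat_lit 21660176448),
  (nat_lit 15, nat_lit 22717141056), (nat_lit 101, nat_lit 23774105664),
  (nat_lit 21, nat_lit 24831070272), (nat_lit 55, nat_lit 25888034880)]⟩], [
  W6_19495391232, W6_19478876160, W6_19462361088, W6_19462099008, W6_19445583936, W6_18438426624,
  W6_18421911552, W6_18405396480, W6_18405134400, W6_18388619328, W6_17381462016, W6_17364946944,
  W6_17364684864, W6_17348431872, W6_17348169792, W6_17331654720, W6_16324497408, W6_16307982336,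
  W6_16291467264, W6_16291205184, W6_16274690112, W6_15251017728, W6_15234502656, W6_15234240576,
  W6_15217725504, W6_14177538048, W6_14177275968, W6_14160760896]⟩

theorem F6_19546247232_chk : fwdChk 6 ks6 F6_19546247232 = true := by decide +kernel

noncomputable def F6_19545985089 : Fwd := ⟨V6_19545985089, [
  ⟨V5_14177275968, nat_lit 1, [(nat_lit 80, nat_lit 19545985089),
  (nat_lit 101, nat_lit 20619726912)]⟩], [
  W6_19462099008, W6_18405134400, W6_17364684864, W6_17348169792, W6_16291205184, W6_15234240576,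
  W6_14177275968]⟩

theorem F6_19545985089_chk : fwdChk 6 ks6 F6_19545985089 = true := by decide +kernel

noncomputable def F6_19529732160 : Fwd := ⟨V6_19529732160, [
  ⟨V5_14161022976, nat_lit 6, [(nat_lit 45, nat_lit 19529732160),
  (nat_lit 25, nat_lit 20603473920)]⟩,
  ⟨V5_15217987584, nat_lit 11, [(nat_lit 6, nat_lit 19529732160),
  (nat_lit 46, nat_lit 20603473920), (nat_lit 18, nat_lit 20586696768),
  (nat_lit 84, nat_lit 21660438528)]⟩,
  ⟨V5_14144245824, nat_lit 4, [(nat_lit 13, nat_lit 19529732160),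
  (nat_lit 92, nat_lit 20586696768)]⟩,
  ⟨V5_15234502656, nat_lit 5, [(nat_lit 98, nat_lit 19529732160),
  (nat_lit 11, nat_lit 20603473920), (nat_lit 41, nat_lit 20603211840),
  (nat_lit 65, nat_lit 21676953600)]⟩,
  ⟨V5_14160760896, nat_lit 1, [(nat_lit 43, nat_lit 19529732160),
  (nat_lit 17, nat_lit 20603211840)]⟩], [
  W6_19495391232, W6_19478876160, W6_19462361088, W6_19462099008, W6_19445846016, W6_19445583936,
  W6_19429068864, W6_18438426624, W6_18421911552, W6_18405396480, W6_18405134400, W6_18388881408,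
  W6_18388619328, W6_18372104256, W6_17381462016, W6_17364946944, W6_17364684864, W6_17348431872,
  W6_17348169792, W6_17331916800, W6_17331654720, W6_17315139648, W6_16307982336, W6_16291467264,
  W6_16291205184, W6_16274952192, W6_16274690112, W6_16258175040, W6_15234502656, W6_15234240576,
  W6_15217987584, W6_15217725504, W6_15201210432, W6_14161022976, W6_14160760896, W6_14144245824]⟩

theorem F6_19529732160_chk : fwdChk 6 ks6 F6_19529732160 = true := by decide +kernel

noncomputable def F6_19513479168 : Fwd := ⟨V6_19513479168, [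
  ⟨V5_13071028224, nat_lit 6, [(nat_lit 71, nat_lit 19513479168)]⟩,
  ⟨V5_14127992832, nat_lit 12, [(nat_lit 100, nat_lit 19513479168),
  (nat_lit 9, nat_lit 20570443776)]⟩,
  ⟨V5_15201730560, nat_lit 12, [(nat_lit 40, nat_lit 19513479168),
  (nat_lit 91, nat_lit 20587216896), (nat_lit 56, nat_lit 20570443776),
  (nat_lit 29, nat_lit 21644181504)]⟩,
  ⟨V5_14144507904, nat_lit 9, [(nat_lit 88, nat_lit 19513479168),
  (nat_lit 125, nat_lit 20586958848)]⟩,
  ⟨V5_15184957440, nat_lit 13, [(nat_lit 117, nat_lit 19513479168),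
  (nat_lit 23, nat_lit 20570443776), (nat_lit 26, nat_lit 21627408384)]⟩,
  ⟨V5_14144765952, nat_lit 6, [(nat_lit 39, nat_lit 19513479168),
  (nat_lit 81, nat_lit 20587216896)]⟩,
  ⟨V5_19429588992, nat_lit 7, [(nat_lit 92, nat_lit 19513479168),
  (nat_lit 90, nat_lit 20587216896), (nat_lit 18, nat_lit 20570443776),
  (nat_lit 37, nat_lit 21644181504), (nat_lit 27, nat_lit 21627408384),
  (nat_lit 102, nat_lit 22701146112), (nat_lit 100, nat_lit 22684372992),
  (nat_lit 74, nat_lit 23758110720), (nat_lit 109, nat_lit 23741337600),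
  (nat_lit 69, nat_lit 24815075328), (nat_lit 35, nat_lit 24798302208),
  (nat_lit 113, nat_lit 25872039936)]⟩,
  ⟨V5_15217987584, nat_lit 11, [(nat_lit 59, nat_lit 19513479168),
  (nat_lit 6, nat_lit 20586958848), (nat_lit 117, nat_lit 21660438528)]⟩], [
  W6_19512164352, W6_19495649280, W6_19495391232, W6_19479134208, W6_19478876160, W6_19462619136,
  W6_19462361088, W6_19446104064, W6_19445846016, W6_19429588992, W6_19429330944, W6_18438684672,
  W6_18438426624, W6_18422169600, W6_18421911552, W6_18405654528, W6_18405396480, W6_18389139456,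
  W6_18388881408, W6_18372624384, W6_18372366336, W6_18355851264, W6_17365204992, W6_17364946944,
  W6_17348689920, W6_17348431872, W6_17332174848, W6_17331916800, W6_17315659776, W6_17315401728,
  W6_17298886656, W6_16291725312, W6_16291467264, W6_16275210240, W6_16274952192, W6_16258695168,
  W6_16258437120, W6_16241922048, W6_15218245632, W6_15217987584, W6_15201730560, W6_15201472512,
  W6_15184957440, W6_14144765952, W6_14144507904, W6_14127992832, W6_13071028224]⟩

theorem F6_19513479168_chk : fwdChk 6 ks6 F6_19513479168 = true := by decide +kernel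

end Crest.Agent.R187.SN.Fwd
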