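import Crest.Agent.R187.SN.FwdDef
import Crest.Agent.R187.SN.TD.Ks
import Crest.Agent.R187.SN.TD.W6_0
import Crest.Agent.R187.SN.TD.W6_1
import Crest.Agent.R187.SN.TD.X5_0
import Crest.Agent.R187.SN.TD.X5_1
import Crest.Agent.R187.SN.TD.X6_10
import Crest.Agent.R187.SN.TD.X6_8
import Crest.Agent.R187.SN.TD.X6_9

/-!
# Row 187, PLAN S, certificate E3: forward records of level `(6, 6)`, part 1

`F6_<key> : Fwd` = sources (table of level `(6, 5)`, number of rows, quadrature record) and
`W` tables of the table `V6_<key>`; each record is checked by the kernel.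
-/

set_option autoImplicit false
set_option Elab.async false
set_option maxRecDepth 100000

namespace Crest.Agent.R187.SN.Fwd

open Crest.Agent.R187.SN.Top

noncomputable def F6_19513221120 : Fwd := ⟨V6_19513221120, [
  ⟨V5_13070770176, nat_lit 7, [(nat_lit 90, nat_lit 19513221120)]⟩,
  ⟨V5_14127734784, nat_lit 12, [(nat_lit 56, nat_lit 19513221120),
  (nat_lit 66, nat_lit 20570185728)]⟩,
  ⟨V5_14144507904, nat_lit 9, [(nat_lit 90, nat_lit 19513221120),
  (nat_lit 64, nat_lit 20586958848)]⟩,
  ⟨V5_14144249856, nat_lit 8, [(nat_lit 113, nat_lit 19513221120),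
  (nat_lit 104, nat_lit 20586700800)]⟩,
  ⟨V5_15201214464, nat_lit 15, [(nat_lit 28, nat_lit 19513221120),
  (nat_lit 47, nat_lit 20586700800), (nat_lit 14, nat_lit 20570185728),
  (nat_lit 65, nat_lit 21643665408)]⟩,
  ⟨V5_15218245632, nat_lit 7, [(nat_lit 50, nat_lit 19513221120),
  (nat_lit 52, nat_lit 20586958848), (nat_lit 83, nat_lit 21660696576)]⟩,
  ⟨V5_15201472512, nat_lit 13, [(nat_lit 74, nat_lit 19513221120),
  (nat_lit 65, nat_lit 20586958848), (nat_lit 18, nat_lit 20570185728),
  (nat_lit 67, nat_lit 21643923456)]⟩,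
  ⟨V5_15217987584, nat_lit 7, [(nat_lit 45, nat_lit 19513221120),
  (nat_lit 62, nat_lit 20586958848), (nat_lit 3, nat_lit 20586700800),
  (nat_lit 49, nat_lit 21660438528)]⟩,
  ⟨V5_15217729536, nat_lit 3, [(nat_lit 112, nat_lit 19513221120),
  (nat_lit 100, nat_lit 20586700800), (nat_lit 17, nat_lit 21660180480)]⟩,
  ⟨V5_16291209216, nat_lit 2, [(nat_lit 72, nat_lit 19513221120),
  (nat_lit 92, nat_lit 20586700800), (nat_lit 94, nat_lit 21660180480),
  (nat_lit 65, nat_lit 22733660160)]⟩,
  ⟨V5_18355593216, nat_lit 4, [(nat_lit 112, nat_lit 19513221120),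
  (nat_lit 16, nat_lit 20570185728), (nat_lit 76, nat_lit 21627150336),
  (nat_lit 111, nat_lit 22684114944), (nat_lit 49, nat_lit 23741079552),
  (nat_lit 64, nat_lit 24798044160)]⟩], [
  W6_19495649280, W6_19479134208, W6_19478876160, W6_19462619136, W6_19462361088, W6_19462103040,
  W6_19446104064, W6_19445846016, W6_19445587968, W6_19429330944, W6_19429072896, W6_19412557824,
  W6_18438684672, W6_18422169600, W6_18421911552, W6_18405654528, W6_18405396480, W6_18405138432,
  W6_18389139456, W6_18388881408, W6_18388623360, W6_18372366336, W6_18372108288, W6_18355593216,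
  W6_17365204992, W6_17364946944, W6_17348689920, W6_17348431872, W6_17348173824, W6_17332174848,
  W6_17331916800, W6_17331658752, W6_17315401728, W6_17315143680, W6_17298628608, W6_16291725312,
  W6_16291467264, W6_16291209216, W6_16275210240, W6_16274952192, W6_16274694144, W6_16258437120,
  W6_16258179072, W6_16241664000, W6_15218245632, W6_15217987584, W6_15217729536, W6_15201472512,
  W6_15201214464, W6_15184699392, W6_14144507904, W6_14144249856, W6_14127734784, W6_13070770176]⟩

theorem F6_19513221120_chk : fwdChk 6 ks6 F6_19513221120 = true := by decide +kernel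

noncomputable def F6_19512963072 : Fwd := ⟨V6_19512963072, [
  ⟨V5_13070512128, nat_lit 4, [(nat_lit 81, nat_lit 19512963072)]⟩,
  ⟨V5_15217987584, nat_lit 11, [(nat_lit 123, nat_lit 19512963072),
  (nat_lit 46, nat_lit 20586700800), (nat_lit 78, nat_lit 21660438528)]⟩,
  ⟨V5_14127476736, nat_lit 8, [(nat_lit 59, nat_lit 19512963072),
  (nat_lit 65, nat_lit 20569927680)]⟩,
  ⟨V5_15201214464, nat_lit 15, [(nat_lit 63, nat_lit 19512963072),
  (nat_lit 1, nat_lit 20586700800), (nat_lit 20, nat_lit 20569927680),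
  (nat_lit 34, nat_lit 21643665408)]⟩,
  ⟨V5_17348689920, nat_lit 14, [(nat_lit 86, nat_lit 19512963072),
  (nat_lit 9, nat_lit 20586700800), (nat_lit 44, nat_lit 20569927680),
  (nat_lit 45, nat_lit 21660438528), (nat_lit 46, nat_lit 21643665408),
  (nat_lit 88, nat_lit 22734176256), (nat_lit 52, nat_lit 22717403136),
  (nat_lit 77, nat_lit 23791140864)]⟩,
  ⟨V5_14143991808, nat_lit 3, [(nat_lit 26, nat_lit 19512963072),
  (nat_lit 28, nat_lit 20586442752)]⟩,
  ⟨V5_14144249856, nat_lit 4, [(nat_lit 40, nat_lit 19512963072),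
  (nat_lit 113, nat_lit 20586700800)]⟩], [
  W6_19479134208, W6_19462619136, W6_19462361088, W6_19445846016, W6_19445587968, W6_19429072896,
  W6_19428814848, W6_19412299776, W6_18422169600, W6_18405654528, W6_18405396480, W6_18388881408,
  W6_18388623360, W6_18372108288, W6_18371850240, W6_18355335168, W6_17365204992, W6_17348689920,
  W6_17348431872, W6_17331916800, W6_17331658752, W6_17315143680, W6_17314885632, W6_17298370560,
  W6_16291725312, W6_16291467264, W6_16274952192, W6_16274694144, W6_16258179072, W6_16257921024,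
  W6_16241405952, W6_15217987584, W6_15217729536, W6_15201214464, W6_15200956416, W6_15184441344,
  W6_14144249856, W6_14143991808, W6_14127476736, W6_13070512128]⟩

theorem F6_19512963072_chk : fwdChk 6 ks6 F6_19512963072 = true := by decide +kernel

noncomputable def F6_19512954945 : Fwd := ⟨V6_19512954945, [
  ⟨V5_14144245824, nat_lit 4, [(nat_lit 107, nat_lit 19512954945),
  (nat_lit 70, nat_lit 20586696768)]⟩,
  ⟨V5_17364684864, nat_lit 1, [(nat_lit 109, nat_lit 19512954945),
  (nat_lit 52, nat_lit 20586696768), (nat_lit 22, nat_lit 20586434625),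
  (nat_lit 58, nat_lit 21660176448), (nat_lit 105, nat_lit 21659914305),
  (nat_lit 56, nat_lit 22733656128), (nat_lit 30, nat_lit 22733393985),
  (nat_lit 34, nat_lit 23807135808)]⟩], [
  W6_19462099008, W6_19445583936, W6_19429068864, W6_18405134400, W6_18388619328, W6_18372104256,
  W6_17364684864, W6_17348169792, W6_17331654720, W6_17315139648, W6_16291205184, W6_16274690112,
  W6_16258175040, W6_15217725504, W6_15201210432, W6_14144245824]⟩

theorem F6_19512954945_chk : fwdChk 6 ks6 F6_19512954945 = true := by decide +kernel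

noncomputable def F6_19496964096 : Fwd := ⟨V6_19496964096, [
  ⟨V5_14127992832, nat_lit 12, [(nat_lit 76, nat_lit 19496964096),
  (nat_lit 11, nat_lit 20570443776)]⟩,
  ⟨V5_13054513152, nat_lit 7, [(nat_lit 101, nat_lit 19496964096)]⟩,
  ⟨V5_15201730560, nat_lit 12, [(nat_lit 26, nat_lit 19496964096),
  (nat_lit 53, nat_lit 20570701824), (nat_lit 12, nat_lit 20570443776),
  (nat_lit 119, nat_lit 21644181504)]⟩,
  ⟨V5_14128250880, nat_lit 6, [(nat_lit 34, nat_lit 19496964096),
  (nat_lit 12, nat_lit 20570701824)]⟩,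
  ⟨V5_14111477760, nat_lit 8, [(nat_lit 4, nat_lit 19496964096),
  (nat_lit 100, nat_lit 20553928704)]⟩,
  ⟨V5_15184957440, nat_lit 12, [(nat_lit 18, nat_lit 19496964096),
  (nat_lit 14, nat_lit 20570443776), (nat_lit 84, nat_lit 20553928704),
  (nat_lit 33, nat_lit 21627408384)]⟩,
  ⟨V5_15168442368, nat_lit 5, [(nat_lit 38, nat_lit 19496964096),
  (nat_lit 89, nat_lit 20553928704), (nat_lit 45, nat_lit 21610893312)]⟩,
  ⟨V5_16225406976, nat_lit 4, [(nat_lit 104, nat_lit 19496964096),
  (nat_lit 16, nat_lit 20553928704), (nat_lit 36, nat_lit 21610893312),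
  (nat_lit 119, nat_lit 22667857920)]⟩,
  ⟨V5_19495391232, nat_lit 2, [(nat_lit 38, nat_lit 19496964096),
  (nat_lit 6, nat_lit 20570443776), (nat_lit 113, nat_lit 21643923456),
  (nat_lit 81, nat_lit 22717403136), (nat_lit 25, nat_lit 23790882816),
  (nat_lit 47, nat_lit 24864362496), (nat_lit 26, nat_lit 25937842176)]⟩,
  ⟨V5_16242180096, nat_lit 3, [(nat_lit 33, nat_lit 19496964096),
  (nat_lit 87, nat_lit 20570701824), (nat_lit 33, nat_lit 20553928704),
  (nat_lit 2, nat_lit 21627666432), (nat_lit 71, nat_lit 21610893312),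
  (nat_lit 66, nat_lit 22684631040)]⟩], [
  W6_19495649280, W6_19495391232, W6_19479134208, W6_19478876160, W6_19462619136, W6_19462361088,
  W6_19446104064, W6_19445846016, W6_18422169600, W6_18421911552, W6_18405654528, W6_18405396480,
  W6_18389139456, W6_18388881408, W6_18372624384, W6_18372366336, W6_17348689920, W6_17348431872,
  W6_17332174848, W6_17331916800, W6_17315659776, W6_17315401728, W6_17299144704, W6_17298886656,
  W6_16275210240, W6_16274952192, W6_16258695168, W6_16258437120, W6_16242180096, W6_16241922048,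
  W6_16225406976, W6_15201730560, W6_15201472512, W6_15185215488, W6_15184957440, W6_15168442368,
  W6_14128250880, W6_14127992832, W6_14111477760, W6_13054513152]⟩

theorem F6_19496964096_chk : fwdChk 6 ks6 F6_19496964096 = true := by decide +kernel

noncomputable def F6_19496706048 : Fwd := ⟨V6_19496706048, [
  ⟨V5_13054255104, nat_lit 13, [(nat_lit 87, nat_lit 19496706048)]⟩,
  ⟨V5_15201730560, nat_lit 12, [(nat_lit 18, nat_lit 19496706048),
  (nat_lit 100, nat_lit 20570443776), (nat_lit 101, nat_lit 21644181504)]⟩,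
  ⟨V5_14127992832, nat_lit 12, [(nat_lit 117, nat_lit 19496706048),
  (nat_lit 7, nat_lit 20570443776)]⟩,
  ⟨V5_14127734784, nat_lit 12, [(nat_lit 105, nat_lit 19496706048),
  (nat_lit 64, nat_lit 20570185728)]⟩,
  ⟨V5_15168184320, nat_lit 16, [(nat_lit 77, nat_lit 19496706048),
  (nat_lit 50, nat_lit 20553670656), (nat_lit 21, nat_lit 21610635264)]⟩,
  ⟨V5_14111219712, nat_lit 13, [(nat_lit 40, nat_lit 19496706048),
  (nat_lit 111, nat_lit 20553670656)]⟩,
  ⟨V5_15201214464, nat_lit 15, [(nat_lit 36, nat_lit 19496706048),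
  (nat_lit 79, nat_lit 20570185728), (nat_lit 80, nat_lit 21643665408)]⟩,
  ⟨V5_17282113536, nat_lit 8, [(nat_lit 69, nat_lit 19496706048),
  (nat_lit 10, nat_lit 20553670656), (nat_lit 93, nat_lit 21610635264),
  (nat_lit 17, nat_lit 22667599872), (nat_lit 70, nat_lit 23724564480)]⟩,
  ⟨V5_17348173824, nat_lit 8, [(nat_lit 120, nat_lit 19496706048),
  (nat_lit 124, nat_lit 20570185728), (nat_lit 87, nat_lit 21643665408),
  (nat_lit 12, nat_lit 22717145088), (nat_lit 61, nat_lit 23790624768)]⟩,
  ⟨V5_19429588992, nat_lit 4, [(nat_lit 10, nat_lit 19496706048),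
  (nat_lit 14, nat_lit 20570443776), (nat_lit 33, nat_lit 20553670656),
  (nat_lit 15, nat_lit 21644181504), (nat_lit 89, nat_lit 21627408384),
  (nat_lit 72, nat_lit 21610635264), (nat_lit 61, nat_lit 22701146112),
  (nat_lit 80, nat_lit 22684372992), (nat_lit 72, nat_lit 22667599872),
  (nat_lit 49, nat_lit 23758110720), (nat_lit 47, nat_lit 23741337600),
  (nat_lit 54, nat_lit 23724564480), (nat_lit 25, nat_lit 24815075328),
  (nat_lit 34, nat_lit 24798302208), (nat_lit 90, nat_lit 25872039936)]⟩], [
  W6_19495649280, W6_19479134208, W6_19478876160, W6_19462619136, W6_19462361088, W6_19462103040,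
  W6_19446104064, W6_19445846016, W6_19445587968, W6_19429588992, W6_19429330944, W6_19429072896,
  W6_18422169600, W6_18421911552, W6_18405654528, W6_18405396480, W6_18405138432, W6_18389139456,
  W6_18388881408, W6_18388623360, W6_18372624384, W6_18372366336, W6_18372108288, W6_18355851264,
  W6_18355593216, W6_17348689920, W6_17348431872, W6_17348173824, W6_17332174848, W6_17331916800,
  W6_17331658752, W6_17315659776, W6_17315401728, W6_17315143680, W6_17298886656, W6_17298628608,
  W6_17282113536, W6_16275210240, W6_16274952192, W6_16274694144, W6_16258695168, W6_16258437120,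
  W6_16258179072, W6_16241922048, W6_16241664000, W6_16225148928, W6_15201730560, W6_15201472512,
  W6_15201214464, W6_15184957440, W6_15184699392, W6_15168184320, W6_14127992832, W6_14127734784,
  W6_14111219712, W6_13054255104]⟩

theorem F6_19496706048_chk : fwdChk 6 ks6 F6_19496706048 = true := by decide +kernel

noncomputable def F6_19496702016 : Fwd := ⟨V6_19496702016, [
  ⟨V5_14127992832, nat_lit 12, [(nat_lit 25, nat_lit 19496702016),
  (nat_lit 28, nat_lit 20570443776)]⟩,
  ⟨V5_15184957440, nat_lit 13, [(nat_lit 21, nat_lit 19496702016),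
  (nat_lit 1, nat_lit 20570443776), (nat_lit 68, nat_lit 20553666624),
  (nat_lit 11, nat_lit 21627408384)]⟩,
  ⟨V5_15201472512, nat_lit 13, [(nat_lit 33, nat_lit 19496702016),
  (nat_lit 87, nat_lit 20570443776), (nat_lit 120, nat_lit 20570181696),
  (nat_lit 17, nat_lit 21643923456)]⟩,
  ⟨V5_14111215680, nat_lit 5, [(nat_lit 103, nat_lit 19496702016),
  (nat_lit 35, nat_lit 20553666624)]⟩,
  ⟨V5_14127730752, nat_lit 2, [(nat_lit 53, nat_lit 19496702016),
  (nat_lit 19, nat_lit 20570181696)]⟩,
  ⟨V5_16225144896, nat_lit 2, [(nat_lit 17, nat_lit 19496702016),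
  (nat_lit 71, nat_lit 20553666624), (nat_lit 1, nat_lit 21610631232),
  (nat_lit 28, nat_lit 22667595840)]⟩], [
  W6_19495391232, W6_19478876160, W6_19462361088, W6_19462099008, W6_19445846016, W6_19445583936,
  W6_19429330944, W6_19429068864, W6_18421911552, W6_18405396480, W6_18405134400, W6_18388881408,
  W6_18388619328, W6_18372366336, W6_18372104256, W6_18355851264, W6_18355589184, W6_17348431872,
  W6_17348169792, W6_17331916800, W6_17331654720, W6_17315401728, W6_17315139648, W6_17298886656,
  W6_17298624576, W6_16274952192, W6_16274690112, W6_16258437120, W6_16258175040, W6_16241922048,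
  W6_16241659968, W6_16225144896, W6_15201472512, W6_15201210432, W6_15184957440, W6_15184695360,
  W6_15168180288, W6_14127992832, W6_14127730752, W6_14111215680, W6_13054251072]⟩

theorem F6_19496702016_chk : fwdChk 6 ks6 F6_19496702016 = true := by decide +kernel

noncomputable def F6_19496439873 : Fwd := ⟨V6_19496439873, [
  ⟨V5_14127730752, nat_lit 4, [(nat_lit 47, nat_lit 19496439873),
  (nat_lit 26, nat_lit 20570181696)]⟩,
  ⟨V5_15201210432, nat_lit 2, [(nat_lit 60, nat_lit 19496439873),
  (nat_lit 41, nat_lit 20570181696), (nat_lit 98, nat_lit 20569919553),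
  (nat_lit 24, nat_lit 21643661376)]⟩,
  ⟨V5_19412553792, nat_lit 1, [(nat_lit 16, nat_lit 19496439873),
  (nat_lit 87, nat_lit 20570181696), (nat_lit 69, nat_lit 20553404481),
  (nat_lit 68, nat_lit 21627146304), (nat_lit 95, nat_lit 21610369089),
  (nat_lit 53, nat_lit 22684110912), (nat_lit 32, nat_lit 22667333697),
  (nat_lit 9, nat_lit 23741075520), (nat_lit 58, nat_lit 23724298305),
  (nat_lit 54, nat_lit 24798040128), (nat_lit 111, nat_lit 24781262913),
  (nat_lit 69, nat_lit 25855004736)]⟩], [
  W6_19462099008, W6_19445583936, W6_19429068864, W6_19412553792, W6_18405134400, W6_18388619328,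
  W6_18372104256, W6_18355589184, W6_17348169792, W6_17331654720, W6_17315139648, W6_17298624576,
  W6_16274690112, W6_16258175040, W6_16241659968, W6_15201210432, W6_15184695360, W6_14127730752]⟩

theorem F6_19496439873_chk : fwdChk 6 ks6 F6_19496439873 = true := by decide +kernel

noncomputable def F6_19496189952 : Fwd := ⟨V6_19496189952, [
  ⟨V5_13053739008, nat_lit 6, [(nat_lit 115, nat_lit 19496189952)]⟩,
  ⟨V5_17348689920, nat_lit 14, [(nat_lit 44, nat_lit 19496189952),
  (nat_lit 65, nat_lit 20569927680), (nat_lit 85, nat_lit 21643665408),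
  (nat_lit 100, nat_lit 22717403136), (nat_lit 33, nat_lit 23791140864)]⟩,
  ⟨V5_15201214464, nat_lit 15, [(nat_lit 95, nat_lit 19496189952),
  (nat_lit 18, nat_lit 20569927680), (nat_lit 107, nat_lit 21643665408)]⟩,
  ⟨V5_14127476736, nat_lit 6, [(nat_lit 71, nat_lit 19496189952),
  (nat_lit 122, nat_lit 20569927680)]⟩,
  ⟨V5_15167668224, nat_lit 6, [(nat_lit 53, nat_lit 19496189952),
  (nat_lit 74, nat_lit 20553154560), (nat_lit 26, nat_lit 21610119168)]⟩,
  ⟨V5_19395526656, nat_lit 1, [(nat_lit 18, nat_lit 19496189952),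
  (nat_lit 106, nat_lit 20553154560), (nat_lit 117, nat_lit 21610119168),
  (nat_lit 111, nat_lit 22667083776), (nat_lit 99, nat_lit 23724048384),
  (nat_lit 112, nat_lit 24781012992), (nat_lit 87, nat_lit 25837977600)]⟩], [
  W6_19462619136, W6_19445846016, W6_19429072896, W6_19412299776, W6_19395526656, W6_18405654528,
  W6_18388881408, W6_18372108288, W6_18355335168, W6_18338562048, W6_17348689920, W6_17331916800,
  W6_17315143680, W6_17298370560, W6_17281597440, W6_16274952192, W6_16258179072, W6_16241405952,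
  W6_16224632832, W6_15201214464, W6_15184441344, W6_15167668224, W6_14127476736, W6_14110703616,
  W6_13053739008]⟩

theorem F6_19496189952_chk : fwdChk 6 ks6 F6_19496189952 = true := by decide +kernel

noncomputable def F6_19496181888 : Fwd := ⟨V6_19496181888, [
  ⟨V5_15201214464, nat_lit 15, [(nat_lit 75, nat_lit 19496181888),
  (nat_lit 49, nat_lit 20569923648), (nat_lit 59, nat_lit 21643665408)]⟩,
  ⟨V5_13053730944, nat_lit 3, [(nat_lit 27, nat_lit 19496181888)]⟩,
  ⟨V5_16258179072, nat_lit 13, [(nat_lit 37, nat_lit 19496181888),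
  (nat_lit 50, nat_lit 20569923648), (nat_lit 110, nat_lit 20553146496),
  (nat_lit 13, nat_lit 21643665408), (nat_lit 123, nat_lit 21626888256),
  (nat_lit 77, nat_lit 22700630016)]⟩,
  ⟨V5_14127472704, nat_lit 4, [(nat_lit 60, nat_lit 19496181888),
  (nat_lit 66, nat_lit 20569923648)]⟩,
  ⟨V5_17348173824, nat_lit 6, [(nat_lit 87, nat_lit 19496181888),
  (nat_lit 125, nat_lit 20569923648), (nat_lit 54, nat_lit 20569661568),
  (nat_lit 34, nat_lit 21643665408), (nat_lit 74, nat_lit 21643403328),
  (nat_lit 26, nat_lit 21643141248), (nat_lit 76, nat_lit 22717145088),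
  (nat_lit 93, nat_lit 22716883008), (nat_lit 106, nat_lit 23790624768)]⟩,
  ⟨V5_19395518592, nat_lit 1, [(nat_lit 32, nat_lit 19496181888),
  (nat_lit 5, nat_lit 20553146496), (nat_lit 81, nat_lit 21610111104),
  (nat_lit 28, nat_lit 22667075712), (nat_lit 49, nat_lit 23724040320),
  (nat_lit 58, nat_lit 24781004928), (nat_lit 70, nat_lit 25837969536)]⟩], [
  W6_19462103040, W6_19445587968, W6_19445325888, W6_19429072896, W6_19428810816, W6_19428548736,
  W6_19412295744, W6_19395518592, W6_18405138432, W6_18388623360, W6_18388361280, W6_18372108288,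
  W6_18371846208, W6_18371584128, W6_18355331136, W6_18355069056, W6_18338553984, W6_17348173824,
  W6_17331658752, W6_17331396672, W6_17315143680, W6_17314881600, W6_17314619520, W6_17298366528,
  W6_17298104448, W6_17281589376, W6_16274694144, W6_16274432064, W6_16258179072, W6_16257916992,
  W6_16257654912, W6_16241401920, W6_16241139840, W6_16224624768, W6_15201214464, W6_15200952384,
  W6_15200690304, W6_15184437312, W6_15184175232, W6_15167660160, W6_14127472704, W6_14127210624,
  W6_14110695552, W6_13053730944]⟩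

theorem F6_19496181888_chk : fwdChk 6 ks6 F6_19496181888 = true := by decide +kernel

noncomputable def F6_19495923777 : Fwd := ⟨V6_19495923777, [
  ⟨V5_15200952384, nat_lit 4, [(nat_lit 14, nat_lit 19495923777),
  (nat_lit 47, nat_lit 20569665600), (nat_lit 74, nat_lit 20569661505),
  (nat_lit 63, nat_lit 21643403328)]⟩,
  ⟨V5_15184179264, nat_lit 2, [(nat_lit 6, nat_lit 19495923777),
  (nat_lit 22, nat_lit 20569665600), (nat_lit 114, nat_lit 20552888385),
  (nat_lit 41, nat_lit 21626630208)]⟩], [
  W6_19445583936, W6_19428810816, W6_18388619328, W6_18371846208, W6_17331654720, W6_17314881600,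
  W6_17298108480, W6_16274690112, W6_16257916992, W6_16241143872, W6_15200952384, W6_15184179264,
  W6_14127214656]⟩

theorem F6_19495923777_chk : fwdChk 6 ks6 F6_19495923777 = true := by decide +kernel

noncomputable def F6_19480707072 : Fwd := ⟨V6_19480707072, [
  ⟨V5_14111735808, nat_lit 3, [(nat_lit 105, nat_lit 19480707072),
  (nat_lit 11, nat_lit 20554186752)]⟩,
  ⟨V5_15185215488, nat_lit 5, [(nat_lit 14, nat_lit 19480707072),
  (nat_lit 26, nat_lit 20554186752), (nat_lit 119, nat_lit 21627666432)]⟩], [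
  W6_19479134208, W6_18405654528, W6_17332174848, W6_16258695168, W6_15185215488, W6_14111735808]⟩

theorem F6_19480707072_chk : fwdChk 6 ks6 F6_19480707072 = true := by decide +kernel

noncomputable def F6_19480186944 : Fwd := ⟨V6_19480186944, [
  ⟨V5_14111477760, nat_lit 8, [(nat_lit 20, nat_lit 19480186944),
  (nat_lit 124, nat_lit 20553928704)]⟩,
  ⟨V5_15184957440, nat_lit 12, [(nat_lit 36, nat_lit 19480186944),
  (nat_lit 94, nat_lit 20553928704), (nat_lit 42, nat_lit 20553666624),
  (nat_lit 102, nat_lit 21627408384)]⟩,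
  ⟨V5_15168442368, nat_lit 7, [(nat_lit 51, nat_lit 19480186944),
  (nat_lit 24, nat_lit 20553928704), (nat_lit 104, nat_lit 20537151552),
  (nat_lit 11, nat_lit 21610893312)]⟩,
  ⟨V5_13037736000, nat_lit 3, [(nat_lit 81, nat_lit 19480186944)]⟩,
  ⟨V5_14111215680, nat_lit 5, [(nat_lit 21, nat_lit 19480186944),
  (nat_lit 115, nat_lit 20553666624)]⟩,
  ⟨V5_15151665216, nat_lit 2, [(nat_lit 45, nat_lit 19480186944),
  (nat_lit 101, nat_lit 20537151552), (nat_lit 124, nat_lit 21594116160)]⟩,
  ⟨V5_16225406976, nat_lit 2, [(nat_lit 101, nat_lit 19480186944),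
  (nat_lit 30, nat_lit 20553928704), (nat_lit 34, nat_lit 20537151552),
  (nat_lit 85, nat_lit 21610893312), (nat_lit 123, nat_lit 21594116160),
  (nat_lit 72, nat_lit 22667857920)]⟩], [
  W6_19478876160, W6_19462361088, W6_19462099008, W6_19445846016, W6_19445583936, W6_18405396480,
  W6_18405134400, W6_18388881408, W6_18388619328, W6_18372366336, W6_18372104256, W6_17331916800,
  W6_17331654720, W6_17315401728, W6_17315139648, W6_17298886656, W6_17298624576, W6_16258437120,
  W6_16258175040, W6_16241922048, W6_16241659968, W6_16225406976, W6_16225144896, W6_15184957440,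
  W6_15184695360, W6_15168442368, W6_15168180288, W6_15151665216, W6_14111477760, W6_14111215680,
  W6_14094700608, W6_13037736000]⟩

theorem F6_19480186944_chk : fwdChk 6 ks6 F6_19480186944 = true := by decide +kernel

noncomputable def F6_19479924801 : Fwd := ⟨V6_19479924801, [
  ⟨V5_14111215680, nat_lit 5, [(nat_lit 124, nat_lit 19479924801),
  (nat_lit 74, nat_lit 20553666624)]⟩,
  ⟨V5_18405134400, nat_lit 2, [(nat_lit 15, nat_lit 19479924801),
  (nat_lit 18, nat_lit 20553666624), (nat_lit 5, nat_lit 20553404481),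
  (nat_lit 121, nat_lit 21627146304), (nat_lit 56, nat_lit 21626884161),
  (nat_lit 33, nat_lit 22700625984), (nat_lit 106, nat_lit 22700363841),
  (nat_lit 29, nat_lit 23774105664), (nat_lit 31, nat_lit 23773843521),
  (nat_lit 126, nat_lit 24847585344)]⟩,
  ⟨V5_16225144896, nat_lit 2, [(nat_lit 99, nat_lit 19479924801),
  (nat_lit 34, nat_lit 20553666624), (nat_lit 54, nat_lit 20536889409),
  (nat_lit 63, nat_lit 21610631232), (nat_lit 15, nat_lit 21593854017),
  (nat_lit 15, nat_lit 22667595840)]⟩], [
  W6_19462099008, W6_19445583936, W6_19429068864, W6_18405134400, W6_18388619328, W6_18372104256,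
  W6_18355589184, W6_17331654720, W6_17315139648, W6_17298624576, W6_16258175040, W6_16241659968,
  W6_16225144896, W6_15184695360, W6_15168180288, W6_14111215680]⟩

theorem F6_19479924801_chk : fwdChk 6 ks6 F6_19479924801 = true := by decide +kernel

noncomputable def F6_19479146688 : Fwd := ⟨V6_19479146688, [
  ⟨V5_15184179264, nat_lit 2, [(nat_lit 82, nat_lit 19479146688),
  (nat_lit 4, nat_lit 20552888448), (nat_lit 65, nat_lit 21626630208)]⟩], [
  W6_19428814848, W6_18371850240, W6_17314885632, W6_17298108480, W6_16257921024, W6_16241143872,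
  W6_15184179264, W6_14110437504]⟩

theorem F6_19479146688_chk : fwdChk 6 ks6 F6_19479146688 = true := by decide +kernel

noncomputable def F6_19462901760 : Fwd := ⟨V6_19462901760, [
  ⟨V5_18389139456, nat_lit 10, [(nat_lit 55, nat_lit 19462901760),
  (nat_lit 101, nat_lit 20536639488), (nat_lit 18, nat_lit 21610377216),
  (nat_lit 24, nat_lit 22684114944), (nat_lit 40, nat_lit 23757852672),
  (nat_lit 23, nat_lit 24831590400)]⟩,
  ⟨V5_14094188544, nat_lit 8, [(nat_lit 96, nat_lit 19462901760),
  (nat_lit 35, nat_lit 20536639488)]⟩,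
  ⟨V5_13020450816, nat_lit 1, [(nat_lit 55, nat_lit 19462901760)]⟩,
  ⟨V5_14077415424, nat_lit 1, [(nat_lit 107, nat_lit 19462901760),
  (nat_lit 10, nat_lit 20519866368)]⟩], [
  W6_19446104064, W6_19429330944, W6_19412557824, W6_18389139456, W6_18372366336, W6_18355593216,
  W6_17315401728, W6_17298628608, W6_17281855488, W6_16241664000, W6_16224890880, W6_16208117760,
  W6_15167926272, W6_15151153152, W6_14094188544, W6_14077415424, W6_13020450816]⟩

theorem F6_19462901760_chk : fwdChk 6 ks6 F6_19462901760 = true := by decide +kernel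

noncomputable def F6_19462635585 : Fwd := ⟨V6_19462635585, [
  ⟨V5_14093926464, nat_lit 4, [(nat_lit 107, nat_lit 19462635585),
  (nat_lit 70, nat_lit 20536377408)]⟩,
  ⟨V5_15150891072, nat_lit 3, [(nat_lit 6, nat_lit 19462635585),
  (nat_lit 64, nat_lit 20536377408), (nat_lit 77, nat_lit 20519600193),
  (nat_lit 69, nat_lit 21593342016)]⟩,
  ⟨V5_16207855680, nat_lit 3, [(nat_lit 78, nat_lit 19462635585),
  (nat_lit 3, nat_lit 20536377408), (nat_lit 2, nat_lit 20519600193),
  (nat_lit 21, nat_lit 21593342016), (nat_lit 94, nat_lit 21576564801),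
  (nat_lit 31, nat_lit 22650306624)]⟩], [
  W6_19429068864, W6_19412295744, W6_18372104256, W6_18355331136, W6_18338558016, W6_18321784896,
  W6_17315139648, W6_17298366528, W6_17281593408, W6_17264820288, W6_16241401920, W6_16224628800,
  W6_16207855680, W6_15167664192, W6_15150891072, W6_14093926464]⟩

theorem F6_19462635585_chk : fwdChk 6 ks6 F6_19462635585 = true := by decide +kernel

noncomputable def F6_19462631616 : Fwd := ⟨V6_19462631616, [
  ⟨V5_16241405952, nat_lit 9, [(nat_lit 4, nat_lit 19462631616),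
  (nat_lit 92, nat_lit 20536373376), (nat_lit 113, nat_lit 21610115136),
  (nat_lit 50, nat_lit 22683856896)]⟩], [
  W6_19428814848, W6_19412299776, W6_18371850240, W6_18355335168, W6_18338558016, W6_17314885632,
  W6_17298370560, W6_17298108480, W6_17281593408, W6_16241405952, W6_16241143872, W6_16224628800,
  W6_16207851648, W6_15167664192, W6_15150887040, W6_14093922432]⟩

theorem F6_19462631616_chk : fwdChk 6 ks6 F6_19462631616 = true := by decide +kernel

noncomputable def F6_19446644736 : Fwd := ⟨V6_19446644736, [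
  ⟨V5_14077673472, nat_lit 7, [(nat_lit 30, nat_lit 19446644736),
  (nat_lit 1, nat_lit 20520124416)]⟩,
  ⟨V5_16225406976, nat_lit 4, [(nat_lit 59, nat_lit 19446644736),
  (nat_lit 74, nat_lit 20520382464), (nat_lit 102, nat_lit 21594120192),
  (nat_lit 49, nat_lit 22667857920)]⟩,
  ⟨V5_16224632832, nat_lit 5, [(nat_lit 114, nat_lit 19446644736),
  (nat_lit 46, nat_lit 20520124416), (nat_lit 34, nat_lit 21593604096),
  (nat_lit 55, nat_lit 22667083776)]⟩,
  ⟨V5_14077931520, nat_lit 3, [(nat_lit 80, nat_lit 19446644736),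
  (nat_lit 116, nat_lit 20520382464)]⟩,
  ⟨V5_13004193792, nat_lit 1, [(nat_lit 23, nat_lit 19446644736)]⟩], [
  W6_19446104064, W6_19445846016, W6_18372624384, W6_18372366336, W6_18372108288, W6_17299144704,
  W6_17298886656, W6_17298628608, W6_17298370560, W6_16225406976, W6_16225148928, W6_16224890880,
  W6_16224632832, W6_15151669248, W6_15151411200, W6_15151153152, W6_14077931520, W6_14077673472,
  W6_13004193792]⟩

theorem F6_19446644736_chk : fwdChk 6 ks6 F6_19446644736 = true := by decide +kernel

noncomputable def F6_19446636609 : Fwd := ⟨V6_19446636609, [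
  ⟨V5_15151665216, nat_lit 3, [(nat_lit 9, nat_lit 19446636609),
  (nat_lit 45, nat_lit 20520378432), (nat_lit 118, nat_lit 20520374337),
  (nat_lit 124, nat_lit 21594116160)]⟩,
  ⟨V5_15151407168, nat_lit 4, [(nat_lit 49, nat_lit 19446636609),
  (nat_lit 115, nat_lit 20520378432), (nat_lit 92, nat_lit 20520116289),
  (nat_lit 113, nat_lit 21593858112)]⟩], [
  W6_19445583936, W6_19445325888, W6_18372104256, W6_18371846208, W6_17298624576, W6_17298366528,
  W6_16225144896, W6_16224886848, W6_15151665216, W6_15151407168, W6_14077927488]⟩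

theorem F6_19446636609_chk : fwdChk 6 ks6 F6_19446636609 = true := by decide +kernel

noncomputable def F6_19446386688 : Fwd := ⟨V6_19446386688, [
  ⟨V5_19429588992, nat_lit 7, [(nat_lit 12, nat_lit 19446386688),
  (nat_lit 122, nat_lit 20520124416), (nat_lit 63, nat_lit 20503351296),
  (nat_lit 64, nat_lit 21593862144), (nat_lit 99, nat_lit 21577089024),
  (nat_lit 23, nat_lit 22667599872), (nat_lit 77, nat_lit 22650826752),
  (nat_lit 75, nat_lit 23741337600), (nat_lit 11, nat_lit 23724564480),
  (nat_lit 51, nat_lit 24815075328), (nat_lit 126, nat_lit 24798302208),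
  (nat_lit 21, nat_lit 25872039936)]⟩,
  ⟨V5_18372624384, nat_lit 7, [(nat_lit 21, nat_lit 19446386688),
  (nat_lit 124, nat_lit 20520124416), (nat_lit 90, nat_lit 21593862144),
  (nat_lit 120, nat_lit 22667599872), (nat_lit 73, nat_lit 23741337600),
  (nat_lit 115, nat_lit 24815075328)]⟩,
  ⟨V5_14077673472, nat_lit 7, [(nat_lit 49, nat_lit 19446386688),
  (nat_lit 43, nat_lit 20520124416)]⟩,
  ⟨V5_13003935744, nat_lit 3, [(nat_lit 12, nat_lit 19446386688)]⟩,
  ⟨V5_14077415424, nat_lit 1, [(nat_lit 91, nat_lit 19446386688),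
  (nat_lit 47, nat_lit 20519866368)]⟩], [
  W6_19446104064, W6_19429588992, W6_19429330944, W6_18372624384, W6_18372366336, W6_18355851264,
  W6_18355593216, W6_17298886656, W6_17298628608, W6_17282113536, W6_17281855488, W6_16225148928,
  W6_16224890880, W6_16208375808, W6_16208117760, W6_15151411200, W6_15151153152, W6_15134638080,
  W6_14077673472, W6_14077415424, W6_14060900352, W6_13003935744]⟩

theorem F6_19446386688_chk : fwdChk 6 ks6 F6_19446386688 = true := by decide +kernel

noncomputable def F6_19446374529 : Fwd := ⟨V6_19446374529, [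
  ⟨V5_15134630016, nat_lit 3, [(nat_lit 107, nat_lit 19446374529),
  (nat_lit 119, nat_lit 20520116352), (nat_lit 121, nat_lit 20503339137),
  (nat_lit 63, nat_lit 21577080960)]⟩,
  ⟨V5_15151407168, nat_lit 5, [(nat_lit 60, nat_lit 19446374529),
  (nat_lit 98, nat_lit 20520116352), (nat_lit 4, nat_lit 20520116289),
  (nat_lit 20, nat_lit 21593858112)]⟩,
  ⟨V5_16208371776, nat_lit 3, [(nat_lit 25, nat_lit 19446374529),
  (nat_lit 97, nat_lit 20520116352), (nat_lit 29, nat_lit 20520116289),
  (nat_lit 72, nat_lit 20503339137), (nat_lit 106, nat_lit 21593858112),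
  (nat_lit 109, nat_lit 21577080960), (nat_lit 13, nat_lit 21577080897),
  (nat_lit 38, nat_lit 22650822720)]⟩,
  ⟨V5_18371584128, nat_lit 2, [(nat_lit 55, nat_lit 19446374529),
  (nat_lit 66, nat_lit 20520116352), (nat_lit 103, nat_lit 20519854209),
  (nat_lit 105, nat_lit 21593596032), (nat_lit 36, nat_lit 21593333889),
  (nat_lit 121, nat_lit 22667075712), (nat_lit 50, nat_lit 22666813569),
  (nat_lit 64, nat_lit 23740555392), (nat_lit 29, nat_lit 23740293249),
  (nat_lit 81, nat_lit 24814035072)]⟩], [
  W6_19445325888, W6_19428810816, W6_19428548736, W6_18371846208, W6_18371584128, W6_18355331136,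
  W6_18355069056, W6_17298366528, W6_17298104448, W6_17281851456, W6_17281589376, W6_16224886848,
  W6_16224624768, W6_16208371776, W6_16208109696, W6_15151407168, W6_15151145088, W6_15134630016,
  W6_14077665408]⟩

theorem F6_19446374529_chk : fwdChk 6 ks6 F6_19446374529 = true := by decide +kernel

noncomputable def F6_19446124608 : Fwd := ⟨V6_19446124608, [
  ⟨V5_18372366336, nat_lit 7, [(nat_lit 87, nat_lit 19446124608),
  (nat_lit 65, nat_lit 20519866368), (nat_lit 20, nat_lit 20519862336),
  (nat_lit 27, nat_lit 21593604096), (nat_lit 9, nat_lit 21593600064),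
  (nat_lit 79, nat_lit 22667341824), (nat_lit 53, nat_lit 22667337792),
  (nat_lit 63, nat_lit 23741079552), (nat_lit 98, nat_lit 23741075520),
  (nat_lit 105, nat_lit 24814817280)]⟩,
  ⟨V5_15151153152, nat_lit 5, [(nat_lit 76, nat_lit 19446124608),
  (nat_lit 50, nat_lit 20519866368), (nat_lit 94, nat_lit 20519862336),
  (nat_lit 53, nat_lit 21593604096)]⟩], [
  W6_19429330944, W6_19412557824, W6_19412553792, W6_18372366336, W6_18355593216, W6_18355589184,
  W6_18338816064, W6_17298628608, W6_17298624576, W6_17281855488, W6_17281851456, W6_17265078336,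
  W6_16224890880, W6_16224886848, W6_16208117760, W6_16208113728, W6_15151153152, W6_15151149120,
  W6_15134376000, W6_14077415424, W6_14077411392, W6_13003673664]⟩

theorem F6_19446124608_chk : fwdChk 6 ks6 F6_19446124608 = true := by decide +kernel

noncomputable def F6_19429613568 : Fwd := ⟨V6_19429613568, [
  ⟨V5_12987162624, nat_lit 3, [(nat_lit 10, nat_lit 19429613568)]⟩,
  ⟨V5_19429588992, nat_lit 7, [(nat_lit 91, nat_lit 19429613568),
  (nat_lit 12, nat_lit 20503351296), (nat_lit 39, nat_lit 21577089024),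
  (nat_lit 92, nat_lit 22650826752), (nat_lit 75, nat_lit 23724564480),
  (nat_lit 35, nat_lit 24798302208), (nat_lit 65, nat_lit 25872039936)]⟩,
  ⟨V5_14060900352, nat_lit 2, [(nat_lit 21, nat_lit 19429613568),
  (nat_lit 98, nat_lit 20503351296)]⟩], [
  W6_19429588992, W6_18355851264, W6_17282113536, W6_16208375808, W6_15134638080, W6_14060900352,
  W6_12987162624]⟩

theorem F6_19429613568_chk : fwdChk 6 ks6 F6_19429613568 = true := by decide +kernel

noncomputable def F6_19429601472 : Fwd := ⟨V6_19429601472, [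
  ⟨V5_16208375808, nat_lit 7, [(nat_lit 28, nat_lit 19429601472),
  (nat_lit 9, nat_lit 20503343232), (nat_lit 29, nat_lit 21577084992),
  (nat_lit 96, nat_lit 22650826752)]⟩], [
  W6_19428814848, W6_18355335168, W6_17281855488, W6_17281593408, W6_16208375808, W6_16208113728,
  W6_16207851648, W6_15134634048, W6_15134371968, W6_14060892288]⟩

theorem F6_19429601472_chk : fwdChk 6 ks6 F6_19429601472 = true := by decide +kernel

noncomputable def F6_19429347456 : Fwd := ⟨V6_19429347456, [
  ⟨V5_16208117760, nat_lit 3, [(nat_lit 25, nat_lit 19429347456),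
  (nat_lit 15, nat_lit 20503089216), (nat_lit 117, nat_lit 20503085184),
  (nat_lit 99, nat_lit 21576830976), (nat_lit 19, nat_lit 21576826944),
  (nat_lit 83, nat_lit 22650568704)]⟩], [
  W6_19412557824, W6_18355593216, W6_18338816064, W6_17281855488, W6_17281851456, W6_17265078336,
  W6_16208117760, W6_16208113728, W6_16208109696, W6_15134376000, W6_15134371968, W6_14060634240]⟩

theorem F6_19429347456_chk : fwdChk 6 ks6 F6_19429347456 = true := by decide +kernel

noncomputable def F6_19429347393 : Fwd := ⟨V6_19429347393, [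
  ⟨V5_15134376000, nat_lit 2, [(nat_lit 71, nat_lit 19429347393),
  (nat_lit 31, nat_lit 20503089216), (nat_lit 76, nat_lit 20503085121),
  (nat_lit 35, nat_lit 21576826944)]⟩], [
  W6_19412553792, W6_18355589184, W6_18338816064, W6_17281851456, W6_17265078336, W6_16208113728,
  W6_15134376000]⟩

theorem F6_19429347393_chk : fwdChk 6 ks6 F6_19429347393 = true := by decide +kernel

noncomputable def F6_19429081344 : Fwd := ⟨V6_19429081344, [
  ⟨V5_17281597440, nat_lit 5, [(nat_lit 100, nat_lit 19429081344),
  (nat_lit 111, nat_lit 20502823104), (nat_lit 122, nat_lit 21576564864),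
  (nat_lit 21, nat_lit 22650306624), (nat_lit 20, nat_lit 23724048384)]⟩,
  ⟨V5_12986630400, nat_lit 1, [(nat_lit 81, nat_lit 19429081344)]⟩], [
  W6_19395526656, W6_18338562048, W6_18321784896, W6_17281597440, W6_17264820288, W6_17248043136,
  W6_16207855680, W6_16191078528, W6_15134113920, W6_15100559616, W6_14060372160, W6_12986630400]⟩

theorem F6_19429081344_chk : fwdChk 6 ks6 F6_19429081344 = true := by decide +kernel

noncomputable def F6_19412304129 : Fwd := ⟨V6_19412304129, [
  ⟨V5_15100559616, nat_lit 1, [(nat_lit 116, nat_lit 19412304129),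
  (nat_lit 31, nat_lit 20486045952), (nat_lit 40, nat_lit 20469268737),
  (nat_lit 55, nat_lit 21543010560)]⟩], [
  W6_18321784896, W6_17264820288, W6_17248043136, W6_16191078528, W6_15100559616]⟩

theorem F6_19412304129_chk : fwdChk 6 ks6 F6_19412304129 = true := by decide +kernel

noncomputable def F6_19395526914 : Fwd := ⟨V6_19395526914, [
  ⟨V5_15100559616, nat_lit 1, [(nat_lit 107, nat_lit 19395526914),
  (nat_lit 54, nat_lit 20469268737), (nat_lit 12, nat_lit 21543010560)]⟩], [
  W6_17248043136, W6_15100559616]⟩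

theorem F6_19395526914_chk : fwdChk 6 ks6 F6_19395526914 = true := by decide +kernel

noncomputable def F6_18539347968 : Fwd := ⟨V6_18539347968, [
  ⟨V5_18471714816, nat_lit 1, [(nat_lit 20, nat_lit 18539347968),
  (nat_lit 14, nat_lit 19612827648), (nat_lit 82, nat_lit 19596312576),
  (nat_lit 37, nat_lit 20686307328), (nat_lit 64, nat_lit 20669792256),
  (nat_lit 51, nat_lit 20653277184), (nat_lit 77, nat_lit 21743271936),
  (nat_lit 36, nat_lit 21726756864), (nat_lit 116, nat_lit 21710241792),
  (nat_lit 39, nat_lit 22800236544), (nat_lit 120, nat_lit 22783721472),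
  (nat_lit 110, nat_lit 22767206400), (nat_lit 41, nat_lit 23857201152),
  (nat_lit 81, nat_lit 23840686080), (nat_lit 37, nat_lit 24914165760)]⟩], [
  W6_18471714816, W6_18455199744, W6_18438684672]⟩

theorem F6_18539347968_chk : fwdChk 6 ks6 F6_18539347968 = true := by decide +kernel

noncomputable def F6_18539089920 : Fwd := ⟨V6_18539089920, [
  ⟨V5_18438426624, nat_lit 2, [(nat_lit 11, nat_lit 18539089920),
  (nat_lit 94, nat_lit 19596054528), (nat_lit 55, nat_lit 20653019136),
  (nat_lit 72, nat_lit 21709983744), (nat_lit 33, nat_lit 22766948352),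
  (nat_lit 116, nat_lit 23823912960), (nat_lit 56, nat_lit 24880877568)]⟩], [
  W6_18455199744, W6_18438426624]⟩

theorem F6_18539089920_chk : fwdChk 6 ks6 F6_18539089920 = true := by decide +kernel

noncomputable def F6_18522832896 : Fwd := ⟨V6_18522832896, [
  ⟨V5_17381720064, nat_lit 7, [(nat_lit 62, nat_lit 18522832896),
  (nat_lit 105, nat_lit 19596312576), (nat_lit 111, nat_lit 19579797504),
  (nat_lit 113, nat_lit 20653277184), (nat_lit 52, nat_lit 20636762112),
  (nat_lit 59, nat_lit 21710241792), (nat_lit 96, nat_lit 21693726720),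
  (nat_lit 62, nat_lit 22767206400), (nat_lit 98, nat_lit 22750691328),
  (nat_lit 86, nat_lit 23824171008)]⟩], [
  W6_18471714816, W6_18455199744, W6_18438684672, W6_18422169600, W6_17414750208, W6_17398235136,
  W6_17381720064, W6_17365204992]⟩

theorem F6_18522832896_chk : fwdChk 6 ks6 F6_18522832896 = true := by decide +kernel

noncomputable def F6_18522574848 : Fwd := ⟨V6_18522574848, [
  ⟨V5_17364946944, nat_lit 7, [(nat_lit 118, nat_lit 18522574848),
  (nat_lit 15, nat_lit 19579539456), (nat_lit 112, nat_lit 20636504064),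
  (nat_lit 9, nat_lit 21693468672), (nat_lit 124, nat_lit 22750433280),
  (nat_lit 73, nat_lit 23807397888)]⟩], [
  W6_18455199744, W6_18438684672, W6_18438426624, W6_18421911552, W6_17398235136, W6_17381720064,
  W6_17381462016, W6_17364946944]⟩

theorem F6_18522574848_chk : fwdChk 6 ks6 F6_18522574848 = true := by decide +kernel

noncomputable def F6_18505797696 : Fwd := ⟨V6_18505797696, [
  ⟨V5_16307982336, nat_lit 5, [(nat_lit 91, nat_lit 18505797696),
  (nat_lit 3, nat_lit 19579539456), (nat_lit 51, nat_lit 19562762304),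
  (nat_lit 75, nat_lit 20636504064), (nat_lit 45, nat_lit 20619726912),
  (nat_lit 95, nat_lit 21693468672), (nat_lit 119, nat_lit 21676691520),
  (nat_lit 42, nat_lit 22750433280)]⟩], [
  W6_18438426624, W6_18421911552, W6_18405134400, W6_17381462016, W6_17364946944, W6_17364684864,
  W6_17348169792, W6_16324497408, W6_16307982336, W6_16291205184]⟩

theorem F6_18505797696_chk : fwdChk 6 ks6 F6_18505797696 = true := by decide +kernel

noncomputable def F6_18472505409 : Fwd := ⟨V6_18472505409, [
  ⟨V5_14177275968, nat_lit 1, [(nat_lit 117, nat_lit 18472505409),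
  (nat_lit 87, nat_lit 19546247232), (nat_lit 1, nat_lit 19545985089),
  (nat_lit 110, nat_lit 20619726912)]⟩,
  ⟨V5_14160760896, nat_lit 1, [(nat_lit 59, nat_lit 18472505409),
  (nat_lit 94, nat_lit 19546247232), (nat_lit 102, nat_lit 19529470017),
  (nat_lit 99, nat_lit 20603211840)]⟩], [
  W6_18405134400, W6_18388619328, W6_17364684864, W6_17348169792, W6_17331654720, W6_16291205184,
  W6_16274690112, W6_15234240576, W6_15217725504, W6_14177275968, W6_14160760896]⟩

theorem F6_18472505409_chk : fwdChk 6 ks6 F6_18472505409 = true := by decide +kernel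

noncomputable def F6_18472247424 : Fwd := ⟨V6_18472247424, [
  ⟨V5_15234244608, nat_lit 5, [(nat_lit 74, nat_lit 18472247424),
  (nat_lit 86, nat_lit 19545989184), (nat_lit 123, nat_lit 19529212032),
  (nat_lit 55, nat_lit 20619730944), (nat_lit 50, nat_lit 20602953792),
  (nat_lit 57, nat_lit 21676695552)]⟩,
  ⟨V5_15200690304, nat_lit 2, [(nat_lit 57, nat_lit 18472247424),
  (nat_lit 70, nat_lit 19529212032), (nat_lit 97, nat_lit 20586176640),
  (nat_lit 5, nat_lit 21643141248)]⟩], [
  W6_18405138432, W6_18388361280, W6_18371584128, W6_17348173824, W6_17331396672, W6_17314619520,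
  W6_16291209216, W6_16274432064, W6_16257654912, W6_15234244608, W6_15217467456, W6_15200690304,
  W6_14160502848]⟩

theorem F6_18472247424_chk : fwdChk 6 ks6 F6_18472247424 = true := by decide +kernel

noncomputable def F6_18456772608 : Fwd := ⟨V6_18456772608, [
  ⟨V5_13087801344, nat_lit 5, [(nat_lit 43, nat_lit 18456772608),
  (nat_lit 55, nat_lit 19530252288)]⟩,
  ⟨V5_15234760704, nat_lit 9, [(nat_lit 100, nat_lit 18456772608),
  (nat_lit 17, nat_lit 19530252288), (nat_lit 6, nat_lit 20603731968),
  (nat_lit 7, nat_lit 21677211648)]⟩,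
  ⟨V5_14128250880, nat_lit 6, [(nat_lit 35, nat_lit 18456772608),
  (nat_lit 107, nat_lit 19513737216), (nat_lit 99, nat_lit 20570701824)]⟩,
  ⟨V5_15201730560, nat_lit 12, [(nat_lit 124, nat_lit 18456772608),
  (nat_lit 60, nat_lit 19530252288), (nat_lit 3, nat_lit 19513737216),
  (nat_lit 29, nat_lit 20587216896), (nat_lit 88, nat_lit 20570701824),
  (nat_lit 110, nat_lit 21644181504)]⟩,
  ⟨V5_13071286272, nat_lit 3, [(nat_lit 1, nat_lit 18456772608),
  (nat_lit 18, nat_lit 19513737216)]⟩,
  ⟨V5_17299144704, nat_lit 1, [(nat_lit 3, nat_lit 18456772608),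
  (nat_lit 80, nat_lit 19513737216), (nat_lit 7, nat_lit 20570701824),
  (nat_lit 51, nat_lit 21627666432), (nat_lit 5, nat_lit 22684631040),
  (nat_lit 80, nat_lit 23741595648)]⟩], [
  W6_18455199744, W6_18438684672, W6_18422169600, W6_18405654528, W6_18389139456, W6_18372624384,
  W6_17381720064, W6_17365204992, W6_17348689920, W6_17332174848, W6_17315659776, W6_17299144704,
  W6_16308240384, W6_16291725312, W6_16275210240, W6_16258695168, W6_16242180096, W6_15234760704,
  W6_15218245632, W6_15201730560, W6_15185215488, W6_14161281024, W6_14144765952, W6_14128250880,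
  W6_13087801344, W6_13071286272]⟩

theorem F6_18456772608_chk : fwdChk 6 ks6 F6_18456772608 = true := by decide +kernel

noncomputable def F6_18456514560 : Fwd := ⟨V6_18456514560, [
  ⟨V5_13087801344, nat_lit 5, [(nat_lit 54, nat_lit 18456514560),
  (nat_lit 13, nat_lit 19530252288)]⟩,
  ⟨V5_13071028224, nat_lit 6, [(nat_lit 115, nat_lit 18456514560),
  (nat_lit 38, nat_lit 19513479168)]⟩,
  ⟨V5_14127992832, nat_lit 12, [(nat_lit 87, nat_lit 18456514560),
  (nat_lit 41, nat_lit 19513479168), (nat_lit 32, nat_lit 20570443776)]⟩,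
  ⟨V5_15184957440, nat_lit 13, [(nat_lit 30, nat_lit 18456514560),
  (nat_lit 34, nat_lit 19513479168), (nat_lit 110, nat_lit 20570443776),
  (nat_lit 69, nat_lit 21627408384)]⟩,
  ⟨V5_15201730560, nat_lit 12, [(nat_lit 105, nat_lit 18456514560),
  (nat_lit 95, nat_lit 19530252288), (nat_lit 118, nat_lit 19513479168),
  (nat_lit 66, nat_lit 20587216896), (nat_lit 58, nat_lit 20570443776),
  (nat_lit 109, nat_lit 21644181504)]⟩,
  ⟨V5_18355851264, nat_lit 5, [(nat_lit 60, nat_lit 18456514560),
  (nat_lit 18, nat_lit 19513479168), (nat_lit 40, nat_lit 20570443776),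
  (nat_lit 89, nat_lit 21627408384), (nat_lit 32, nat_lit 22684372992),
  (nat_lit 23, nat_lit 23741337600), (nat_lit 30, nat_lit 24798302208)]⟩,
  ⟨V5_15234760704, nat_lit 9, [(nat_lit 17, nat_lit 18456514560),
  (nat_lit 101, nat_lit 19530252288), (nat_lit 14, nat_lit 19529994240),
  (nat_lit 99, nat_lit 20603731968), (nat_lit 4, nat_lit 20603473920),
  (nat_lit 34, nat_lit 21677211648)]⟩,
  ⟨V5_14161022976, nat_lit 6, [(nat_lit 54, nat_lit 18456514560),
  (nat_lit 112, nat_lit 19529994240), (nat_lit 5, nat_lit 20603473920)]⟩,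
  ⟨V5_14161281024, nat_lit 5, [(nat_lit 74, nat_lit 18456514560),
  (nat_lit 49, nat_lit 19530252288), (nat_lit 8, nat_lit 19529994240),
  (nat_lit 13, nat_lit 20603731968)]⟩,
  ⟨V5_13087543296, nat_lit 1, [(nat_lit 81, nat_lit 18456514560),
  (nat_lit 117, nat_lit 19529994240)]⟩], [
  W6_18455199744, W6_18438684672, W6_18438426624, W6_18422169600, W6_18421911552, W6_18405654528,
  W6_18405396480, W6_18389139456, W6_18388881408, W6_18372624384, W6_18372366336, W6_18355851264,
  W6_17381720064, W6_17381462016, W6_17365204992, W6_17364946944, W6_17348689920, W6_17348431872,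
  W6_17332174848, W6_17331916800, W6_17315659776, W6_17315401728, W6_17298886656, W6_16308240384,
  W6_16307982336, W6_16291725312, W6_16291467264, W6_16275210240, W6_16274952192, W6_16258695168,
  W6_16258437120, W6_16241922048, W6_15234760704, W6_15234502656, W6_15218245632, W6_15217987584,
  W6_15201730560, W6_15201472512, W6_15184957440, W6_14161281024, W6_14161022976, W6_14144765952,
  W6_14144507904, W6_14127992832, W6_13087801344, W6_13087543296, W6_13071028224]⟩

theorem F6_18456514560_chk : fwdChk 6 ks6 F6_18456514560 = true := by decide +kernel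

noncomputable def F6_18456256512 : Fwd := ⟨V6_18456256512, [
  ⟨V5_13087285248, nat_lit 5, [(nat_lit 95, nat_lit 18456256512),
  (nat_lit 70, nat_lit 19529736192)]⟩,
  ⟨V5_14161281024, nat_lit 5, [(nat_lit 1, nat_lit 18456256512),
  (nat_lit 52, nat_lit 19529994240), (nat_lit 44, nat_lit 20603731968)]⟩,
  ⟨V5_13070770176, nat_lit 7, [(nat_lit 89, nat_lit 18456256512),
  (nat_lit 78, nat_lit 19513221120)]⟩,
  ⟨V5_15234760704, nat_lit 9, [(nat_lit 5, nat_lit 18456256512),
  (nat_lit 91, nat_lit 19529994240), (nat_lit 58, nat_lit 19529736192),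
  (nat_lit 42, nat_lit 20603731968), (nat_lit 27, nat_lit 20603473920),
  (nat_lit 118, nat_lit 21677211648)]⟩,
  ⟨V5_14127734784, nat_lit 12, [(nat_lit 59, nat_lit 18456256512),
  (nat_lit 57, nat_lit 19513221120), (nat_lit 29, nat_lit 20570185728)]⟩,
  ⟨V5_15234244608, nat_lit 5, [(nat_lit 32, nat_lit 18456256512),
  (nat_lit 82, nat_lit 19529736192), (nat_lit 2, nat_lit 20603215872),
  (nat_lit 124, nat_lit 21676695552)]⟩,
  ⟨V5_14144507904, nat_lit 9, [(nat_lit 2, nat_lit 18456256512),
  (nat_lit 90, nat_lit 19529994240), (nat_lit 78, nat_lit 19513221120),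
  (nat_lit 94, nat_lit 20586958848)]⟩,
  ⟨V5_16241664000, nat_lit 14, [(nat_lit 74, nat_lit 18456256512),
  (nat_lit 103, nat_lit 19513221120), (nat_lit 86, nat_lit 20570185728),
  (nat_lit 117, nat_lit 21627150336), (nat_lit 97, nat_lit 22684114944)]⟩,
  ⟨V5_15201214464, nat_lit 15, [(nat_lit 41, nat_lit 18456256512),
  (nat_lit 60, nat_lit 19529736192), (nat_lit 92, nat_lit 19513221120),
  (nat_lit 76, nat_lit 20586700800), (nat_lit 10, nat_lit 20570185728),
  (nat_lit 126, nat_lit 21643665408)]⟩,
  ⟨V5_13087543296, nat_lit 2, [(nat_lit 95, nat_lit 18456256512),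
  (nat_lit 62, nat_lit 19529994240)]⟩], [
  W6_18438684672, W6_18422169600, W6_18421911552, W6_18405654528, W6_18405396480, W6_18405138432,
  W6_18389139456, W6_18388881408, W6_18388623360, W6_18372366336, W6_18372108288, W6_18355593216,
  W6_17381720064, W6_17365204992, W6_17364946944, W6_17348689920, W6_17348431872, W6_17348173824,
  W6_17332174848, W6_17331916800, W6_17331658752, W6_17315401728, W6_17315143680, W6_17298628608,
  W6_16308240384, W6_16307982336, W6_16291725312, W6_16291467264, W6_16291209216, W6_16275210240,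
  W6_16274952192, W6_16274694144, W6_16258437120, W6_16258179072, W6_16241664000, W6_15234760704,
  W6_15234502656, W6_15234244608, W6_15218245632, W6_15217987584, W6_15217729536, W6_15201472512,
  W6_15201214464, W6_15184699392, W6_14161281024, W6_14161022976, W6_14160764928, W6_14144507904,
  W6_14144249856, W6_14127734784, W6_13087543296, W6_13087285248, W6_13070770176]⟩

theorem F6_18456256512_chk : fwdChk 6 ks6 F6_18456256512 = true := by decide +kernel

noncomputable def F6_18456252480 : Fwd := ⟨V6_18456252480, [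
  ⟨V5_14144507904, nat_lit 9, [(nat_lit 47, nat_lit 18456252480),
  (nat_lit 35, nat_lit 19529994240), (nat_lit 53, nat_lit 19513217088),
  (nat_lit 126, nat_lit 20586958848)]⟩,
  ⟨V5_14161022976, nat_lit 6, [(nat_lit 24, nat_lit 18456252480),
  (nat_lit 15, nat_lit 19529994240), (nat_lit 66, nat_lit 19529732160),
  (nat_lit 115, nat_lit 20603473920)]⟩,
  ⟨V5_13070766144, nat_lit 3, [(nat_lit 36, nat_lit 18456252480),
  (nat_lit 13, nat_lit 19513217088)]⟩,
  ⟨V5_13087543296, nat_lit 2, [(nat_lit 113, nat_lit 18456252480),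
  (nat_lit 10, nat_lit 19529994240)]⟩,
  ⟨V5_15201472512, nat_lit 13, [(nat_lit 28, nat_lit 18456252480),
  (nat_lit 35, nat_lit 19529994240), (nat_lit 65, nat_lit 19513217088),
  (nat_lit 124, nat_lit 20586958848), (nat_lit 46, nat_lit 20570181696),
  (nat_lit 104, nat_lit 21643923456)]⟩,
  ⟨V5_14144245824, nat_lit 3, [(nat_lit 29, nat_lit 18456252480),
  (nat_lit 36, nat_lit 19529732160), (nat_lit 95, nat_lit 19513217088),
  (nat_lit 66, nat_lit 20586696768)]⟩], [
  W6_18438426624, W6_18421911552, W6_18405396480, W6_18405134400, W6_18388881408, W6_18388619328,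
  W6_18372366336, W6_18372104256, W6_18355589184, W6_17381462016, W6_17364946944, W6_17364684864,
  W6_17348431872, W6_17348169792, W6_17331916800, W6_17331654720, W6_17315401728, W6_17315139648,
  W6_17298624576, W6_16307982336, W6_16291467264, W6_16291205184, W6_16274952192, W6_16274690112,
  W6_16258437120, W6_16258175040, W6_16241659968, W6_15234502656, W6_15234240576, W6_15217987584,
  W6_15217725504, W6_15201472512, W6_15201210432, W6_15184695360, W6_14161022976, W6_14160760896,
  W6_14144507904, W6_14144245824, W6_14127730752, W6_13087543296, W6_13070766144]⟩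

theorem F6_18456252480_chk : fwdChk 6 ks6 F6_18456252480 = true := by decide +kernel

noncomputable def F6_18455998464 : Fwd := ⟨V6_18455998464, [
  ⟨V5_13087285248, nat_lit 5, [(nat_lit 13, nat_lit 18455998464),
  (nat_lit 76, nat_lit 19529736192)]⟩,
  ⟨V5_15234760704, nat_lit 9, [(nat_lit 15, nat_lit 18455998464),
  (nat_lit 92, nat_lit 19529736192), (nat_lit 41, nat_lit 20603473920),
  (nat_lit 6, nat_lit 21677211648)]⟩,
  ⟨V5_14161022976, nat_lit 6, [(nat_lit 82, nat_lit 18455998464),
  (nat_lit 65, nat_lit 19529736192), (nat_lit 83, nat_lit 20603473920)]⟩,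
  ⟨V5_14127476736, nat_lit 8, [(nat_lit 19, nat_lit 18455998464),
  (nat_lit 98, nat_lit 19512963072), (nat_lit 61, nat_lit 20569927680)]⟩,
  ⟨V5_13070512128, nat_lit 4, [(nat_lit 29, nat_lit 18455998464),
  (nat_lit 14, nat_lit 19512963072)]⟩,
  ⟨V5_15201214464, nat_lit 15, [(nat_lit 35, nat_lit 18455998464),
  (nat_lit 47, nat_lit 19529736192), (nat_lit 25, nat_lit 19512963072),
  (nat_lit 21, nat_lit 20586700800), (nat_lit 9, nat_lit 20569927680),
  (nat_lit 100, nat_lit 21643665408)]⟩,
  ⟨V5_16308240384, nat_lit 7, [(nat_lit 84, nat_lit 18455998464),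
  (nat_lit 22, nat_lit 19529736192), (nat_lit 4, nat_lit 19529478144),
  (nat_lit 79, nat_lit 20603473920), (nat_lit 78, nat_lit 20603215872),
  (nat_lit 61, nat_lit 21677211648), (nat_lit 51, nat_lit 21676953600),
  (nat_lit 24, nat_lit 22750691328)]⟩,
  ⟨V5_14143991808, nat_lit 2, [(nat_lit 31, nat_lit 18455998464),
  (nat_lit 101, nat_lit 19529478144), (nat_lit 97, nat_lit 19512963072),
  (nat_lit 90, nat_lit 20586442752)]⟩], [
  W6_18422169600, W6_18405654528, W6_18405396480, W6_18388881408, W6_18388623360, W6_18372108288,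
  W6_18371850240, W6_18355335168, W6_17365204992, W6_17348689920, W6_17348431872, W6_17331916800,
  W6_17331658752, W6_17315143680, W6_17314885632, W6_17298370560, W6_16308240384, W6_16291725312,
  W6_16291467264, W6_16274952192, W6_16274694144, W6_16258179072, W6_16257921024, W6_16241405952,
  W6_15234760704, W6_15234502656, W6_15217987584, W6_15217729536, W6_15201214464, W6_15200956416,
  W6_15184441344, W6_14161022976, W6_14160764928, W6_14144249856, W6_14143991808, W6_14127476736,
  W6_13087285248, W6_13070512128]⟩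

theorem F6_18455998464_chk : fwdChk 6 ks6 F6_18455998464 = true := by decide +kernel

noncomputable def F6_18455732352 : Fwd := ⟨V6_18455732352, [
  ⟨V5_14160764928, nat_lit 4, [(nat_lit 61, nat_lit 18455732352),
  (nat_lit 99, nat_lit 19529474112), (nat_lit 53, nat_lit 20603215872)]⟩,
  ⟨V5_15234244608, nat_lit 5, [(nat_lit 51, nat_lit 18455732352),
  (nat_lit 98, nat_lit 19529474112), (nat_lit 62, nat_lit 19529212032),
  (nat_lit 2, nat_lit 20603215872), (nat_lit 78, nat_lit 20602953792),
  (nat_lit 109, nat_lit 21676695552)]⟩,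
  ⟨V5_13086761088, nat_lit 1, [(nat_lit 14, nat_lit 18455732352),
  (nat_lit 103, nat_lit 19529212032)]⟩,
  ⟨V5_15217729536, nat_lit 6, [(nat_lit 82, nat_lit 18455732352),
  (nat_lit 86, nat_lit 19529474112), (nat_lit 39, nat_lit 19512696960),
  (nat_lit 45, nat_lit 20603215872), (nat_lit 11, nat_lit 20586438720),
  (nat_lit 41, nat_lit 21660180480)]⟩,
  ⟨V5_13087023168, nat_lit 1, [(nat_lit 118, nat_lit 18455732352),
  (nat_lit 19, nat_lit 19529474112)]⟩,
  ⟨V5_13070246016, nat_lit 1, [(nat_lit 25, nat_lit 18455732352),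
  (nat_lit 69, nat_lit 19512696960)]⟩,
  ⟨V5_14127210624, nat_lit 1, [(nat_lit 25, nat_lit 18455732352),
  (nat_lit 22, nat_lit 19512696960), (nat_lit 107, nat_lit 20569661568)]⟩], [
  W6_18405138432, W6_18388623360, W6_18388361280, W6_18371846208, W6_18371584128, W6_18355069056,
  W6_17348173824, W6_17331658752, W6_17331396672, W6_17314881600, W6_17314619520, W6_17298104448,
  W6_16291209216, W6_16274694144, W6_16274432064, W6_16257916992, W6_16257654912, W6_16241139840,
  W6_15234244608, W6_15217729536, W6_15217467456, W6_15200952384, W6_15200690304, W6_15184175232,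
  W6_14160764928, W6_14160502848, W6_14143987776, W6_14127210624, W6_13087023168, W6_13086761088,
  W6_13070246016]⟩

theorem F6_18455732352_chk : fwdChk 6 ks6 F6_18455732352 = true := by decide +kernel

noncomputable def F6_18439999488 : Fwd := ⟨V6_18439999488, [
  ⟨V5_11997548544, nat_lit 3, [(nat_lit 120, nat_lit 18439999488)]⟩,
  ⟨V5_13054513152, nat_lit 7, [(nat_lit 51, nat_lit 18439999488),
  (nat_lit 19, nat_lit 19496964096)]⟩,
  ⟨V5_13071028224, nat_lit 6, [(nat_lit 20, nat_lit 18439999488),
  (nat_lit 126, nat_lit 19513479168)]⟩,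
  ⟨V5_14127992832, nat_lit 12, [(nat_lit 80, nat_lit 18439999488),
  (nat_lit 29, nat_lit 19513479168), (nat_lit 91, nat_lit 19496964096),
  (nat_lit 38, nat_lit 20570443776)]⟩,
  ⟨V5_14144507904, nat_lit 9, [(nat_lit 18, nat_lit 18439999488),
  (nat_lit 56, nat_lit 19513479168), (nat_lit 109, nat_lit 20586958848)]⟩,
  ⟨V5_14111477760, nat_lit 8, [(nat_lit 56, nat_lit 18439999488),
  (nat_lit 85, nat_lit 19496964096), (nat_lit 94, nat_lit 20553928704)]⟩,
  ⟨V5_15217987584, nat_lit 11, [(nat_lit 11, nat_lit 18439999488),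
  (nat_lit 26, nat_lit 19513479168), (nat_lit 54, nat_lit 20586958848),
  (nat_lit 63, nat_lit 21660438528)]⟩,
  ⟨V5_14128250880, nat_lit 6, [(nat_lit 107, nat_lit 18439999488),
  (nat_lit 109, nat_lit 19513737216), (nat_lit 24, nat_lit 19496964096),
  (nat_lit 42, nat_lit 20570701824)]⟩,
  ⟨V5_16225406976, nat_lit 4, [(nat_lit 5, nat_lit 18439999488),
  (nat_lit 51, nat_lit 19496964096), (nat_lit 76, nat_lit 20553928704),
  (nat_lit 100, nat_lit 21610893312), (nat_lit 28, nat_lit 22667857920)]⟩], [
  W6_18438684672, W6_18438426624, W6_18422169600, W6_18421911552, W6_18405654528, W6_18405396480,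
  W6_18389139456, W6_18388881408, W6_18372624384, W6_18372366336, W6_17365204992, W6_17364946944,
  W6_17348689920, W6_17348431872, W6_17332174848, W6_17331916800, W6_17315659776, W6_17315401728,
  W6_17299144704, W6_17298886656, W6_16291725312, W6_16291467264, W6_16275210240, W6_16274952192,
  W6_16258695168, W6_16258437120, W6_16242180096, W6_16241922048, W6_16225406976, W6_15218245632,
  W6_15217987584, W6_15201730560, W6_15201472512, W6_15185215488, W6_15184957440, W6_15168442368,
  W6_14144765952, W6_14144507904, W6_14128250880, W6_14127992832, W6_14111477760, W6_13071286272,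
  W6_13071028224, W6_13054513152, W6_11997548544]⟩

theorem F6_18439999488_chk : fwdChk 6 ks6 F6_18439999488 = true := by decide +kernel

noncomputable def F6_18439741440 : Fwd := ⟨V6_18439741440, [
  ⟨V5_13054255104, nat_lit 13, [(nat_lit 123, nat_lit 18439741440),
  (nat_lit 1, nat_lit 19496706048)]⟩,
  ⟨V5_13071028224, nat_lit 6, [(nat_lit 118, nat_lit 18439741440),
  (nat_lit 73, nat_lit 19513479168)]⟩,
  ⟨V5_13070770176, nat_lit 7, [(nat_lit 123, nat_lit 18439741440),
  (nat_lit 93, nat_lit 19513221120)]⟩,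
  ⟨V5_15201730560, nat_lit 12, [(nat_lit 33, nat_lit 18439741440),
  (nat_lit 93, nat_lit 19513479168), (nat_lit 44, nat_lit 19496706048),
  (nat_lit 4, nat_lit 20587216896), (nat_lit 70, nat_lit 20570443776),
  (nat_lit 23, nat_lit 21644181504)]⟩,
  ⟨V5_17282113536, nat_lit 8, [(nat_lit 3, nat_lit 18439741440),
  (nat_lit 84, nat_lit 19496706048), (nat_lit 81, nat_lit 20553670656),
  (nat_lit 113, nat_lit 21610635264), (nat_lit 75, nat_lit 22667599872),
  (nat_lit 51, nat_lit 23724564480)]⟩,
  ⟨V5_15168184320, nat_lit 16, [(nat_lit 105, nat_lit 18439741440),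
  (nat_lit 33, nat_lit 19496706048), (nat_lit 24, nat_lit 20553670656),
  (nat_lit 46, nat_lit 21610635264)]⟩,
  ⟨V5_14127992832, nat_lit 12, [(nat_lit 77, nat_lit 18439741440),
  (nat_lit 42, nat_lit 19513479168), (nat_lit 32, nat_lit 19496706048),
  (nat_lit 43, nat_lit 20570443776)]⟩,
  ⟨V5_14144765952, nat_lit 6, [(nat_lit 20, nat_lit 18439741440),
  (nat_lit 24, nat_lit 19513479168), (nat_lit 118, nat_lit 20587216896)]⟩,
  ⟨V5_14111219712, nat_lit 13, [(nat_lit 86, nat_lit 18439741440),
  (nat_lit 126, nat_lit 19496706048), (nat_lit 99, nat_lit 20553670656)]⟩,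
  ⟨V5_11997290496, nat_lit 2, [(nat_lit 90, nat_lit 18439741440)]⟩,
  ⟨V5_14127734784, nat_lit 11, [(nat_lit 6, nat_lit 18439741440),
  (nat_lit 24, nat_lit 19513221120), (nat_lit 45, nat_lit 19496706048),
  (nat_lit 40, nat_lit 20570185728)]⟩,
  ⟨V5_16291209216, nat_lit 5, [(nat_lit 71, nat_lit 18439741440),
  (nat_lit 49, nat_lit 19513221120), (nat_lit 119, nat_lit 20586700800),
  (nat_lit 89, nat_lit 21660180480), (nat_lit 90, nat_lit 22733660160)]⟩], [
  W6_18438684672, W6_18422169600, W6_18421911552, W6_18405654528, W6_18405396480, W6_18405138432,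
  W6_18389139456, W6_18388881408, W6_18388623360, W6_18372624384, W6_18372366336, W6_18372108288,
  W6_18355851264, W6_18355593216, W6_17365204992, W6_17364946944, W6_17348689920, W6_17348431872,
  W6_17348173824, W6_17332174848, W6_17331916800, W6_17331658752, W6_17315659776, W6_17315401728,
  W6_17315143680, W6_17298886656, W6_17298628608, W6_17282113536, W6_16291725312, W6_16291467264,
  W6_16291209216, W6_16275210240, W6_16274952192, W6_16274694144, W6_16258695168, W6_16258437120,
  W6_16258179072, W6_16241922048, W6_16241664000, W6_16225148928, W6_15218245632, W6_15217987584,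
  W6_15217729536, W6_15201730560, W6_15201472512, W6_15201214464, W6_15184957440, W6_15184699392,
  W6_15168184320, W6_14144765952, W6_14144507904, W6_14144249856, W6_14127992832, W6_14127734784,
  W6_14111219712, W6_13071028224, W6_13070770176, W6_13054255104, W6_11997290496]⟩

theorem F6_18439741440_chk : fwdChk 6 ks6 F6_18439741440 = true := by decide +kernel

end Crest.Agent.R187.SN.Fwd
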