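import Crest.Agent.R187.SN.FwdDef
import Crest.Agent.R187.SN.TD.Ks
import Crest.Agent.R187.SN.TD.W6_0
import Crest.Agent.R187.SN.TD.W6_1
import Crest.Agent.R187.SN.TD.X5_0
import Crest.Agent.R187.SN.TD.X5_1
import Crest.Agent.R187.SN.TD.X6_6
import Crest.Agent.R187.SN.TD.X6_7

/-!
# Row 187, PLAN S, certificate E3: forward records of level `(6, 6)`, part 2

`F6_<key> : Fwd` = sources (table of level `(6, 5)`, number of rows, quadrature record) and
`W` tables of the table `V6_<key>`; each record is checked by the kernel.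
-/

set_option autoImplicit false
set_option Elab.async false
set_option maxRecDepth 100000

namespace Crest.Agent.R187.SN.Fwd

open Crest.Agent.R187.SN.Top

noncomputable def F6_18439737408 : Fwd := ⟨V6_18439737408, [
  ⟨V5_11997286464, nat_lit 3, [(nat_lit 122, nat_lit 18439737408)]⟩,
  ⟨V5_13071028224, nat_lit 6, [(nat_lit 53, nat_lit 18439737408),
  (nat_lit 71, nat_lit 19513479168)]⟩,
  ⟨V5_14127992832, nat_lit 12, [(nat_lit 88, nat_lit 18439737408),
  (nat_lit 100, nat_lit 19513479168), (nat_lit 111, nat_lit 19496702016),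
  (nat_lit 7, nat_lit 20570443776)]⟩,
  ⟨V5_14144507904, nat_lit 9, [(nat_lit 24, nat_lit 18439737408),
  (nat_lit 88, nat_lit 19513479168), (nat_lit 99, nat_lit 19513217088),
  (nat_lit 61, nat_lit 20586958848)]⟩,
  ⟨V5_15184957440, nat_lit 12, [(nat_lit 109, nat_lit 18439737408),
  (nat_lit 117, nat_lit 19513479168), (nat_lit 78, nat_lit 19496702016),
  (nat_lit 32, nat_lit 20570443776), (nat_lit 100, nat_lit 20553666624),
  (nat_lit 125, nat_lit 21627408384)]⟩,
  ⟨V5_18355851264, nat_lit 5, [(nat_lit 73, nat_lit 18439737408),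
  (nat_lit 47, nat_lit 19513479168), (nat_lit 103, nat_lit 19496702016),
  (nat_lit 104, nat_lit 20570443776), (nat_lit 18, nat_lit 20553666624),
  (nat_lit 60, nat_lit 21627408384), (nat_lit 77, nat_lit 21610631232),
  (nat_lit 93, nat_lit 22684372992), (nat_lit 25, nat_lit 22667595840),
  (nat_lit 30, nat_lit 23741337600), (nat_lit 49, nat_lit 23724560448),
  (nat_lit 97, nat_lit 24798302208)]⟩,
  ⟨V5_13070766144, nat_lit 3, [(nat_lit 24, nat_lit 18439737408),
  (nat_lit 77, nat_lit 19513217088)]⟩], [
  W6_18438426624, W6_18421911552, W6_18405396480, W6_18405134400, W6_18388881408, W6_18388619328,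
  W6_18372366336, W6_18372104256, W6_18355851264, W6_18355589184, W6_17364946944, W6_17364684864,
  W6_17348431872, W6_17348169792, W6_17331916800, W6_17331654720, W6_17315401728, W6_17315139648,
  W6_17298886656, W6_17298624576, W6_16291467264, W6_16291205184, W6_16274952192, W6_16274690112,
  W6_16258437120, W6_16258175040, W6_16241922048, W6_16241659968, W6_16225144896, W6_15217987584,
  W6_15217725504, W6_15201472512, W6_15201210432, W6_15184957440, W6_15184695360, W6_15168180288,
  W6_14144507904, W6_14144245824, W6_14127992832, W6_14127730752, W6_14111215680, W6_13071028224,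
  W6_13070766144, W6_13054251072, W6_11997286464]⟩

theorem F6_18439737408_chk : fwdChk 6 ks6 F6_18439737408 = true := by decide +kernel

noncomputable def F6_18439475265 : Fwd := ⟨V6_18439475265, [
  ⟨V5_13070766144, nat_lit 3, [(nat_lit 72, nat_lit 18439475265),
  (nat_lit 40, nat_lit 19513217088)]⟩,
  ⟨V5_14144245824, nat_lit 4, [(nat_lit 91, nat_lit 18439475265),
  (nat_lit 9, nat_lit 19513217088), (nat_lit 100, nat_lit 19512954945),
  (nat_lit 120, nat_lit 20586696768)]⟩,
  ⟨V5_16291205184, nat_lit 2, [(nat_lit 115, nat_lit 18439475265),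
  (nat_lit 62, nat_lit 19513217088), (nat_lit 120, nat_lit 19512954945),
  (nat_lit 55, nat_lit 20586696768), (nat_lit 45, nat_lit 20586434625),
  (nat_lit 121, nat_lit 21660176448), (nat_lit 30, nat_lit 21659914305),
  (nat_lit 17, nat_lit 22733656128)]⟩,
  ⟨V5_18355589184, nat_lit 1, [(nat_lit 10, nat_lit 18439475265),
  (nat_lit 92, nat_lit 19513217088), (nat_lit 96, nat_lit 19496439873),
  (nat_lit 55, nat_lit 20570181696), (nat_lit 93, nat_lit 20553404481),
  (nat_lit 54, nat_lit 21627146304), (nat_lit 103, nat_lit 21610369089),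
  (nat_lit 104, nat_lit 22684110912), (nat_lit 14, nat_lit 22667333697),
  (nat_lit 75, nat_lit 23741075520), (nat_lit 23, nat_lit 23724298305),
  (nat_lit 20, nat_lit 24798040128)]⟩], [
  W6_18405134400, W6_18388619328, W6_18372104256, W6_18355589184, W6_17364684864, W6_17348169792,
  W6_17331654720, W6_17315139648, W6_17298624576, W6_16291205184, W6_16274690112, W6_16258175040,
  W6_16241659968, W6_15217725504, W6_15201210432, W6_15184695360, W6_14144245824, W6_14127730752,
  W6_13070766144]⟩

theorem F6_18439475265_chk : fwdChk 6 ks6 F6_18439475265 = true := by decide +kernel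

noncomputable def F6_18439225344 : Fwd := ⟨V6_18439225344, [
  ⟨V5_13053739008, nat_lit 6, [(nat_lit 31, nat_lit 18439225344),
  (nat_lit 24, nat_lit 19496189952)]⟩,
  ⟨V5_15217987584, nat_lit 11, [(nat_lit 50, nat_lit 18439225344),
  (nat_lit 87, nat_lit 19512963072), (nat_lit 17, nat_lit 20586700800),
  (nat_lit 49, nat_lit 21660438528)]⟩,
  ⟨V5_17348689920, nat_lit 14, [(nat_lit 91, nat_lit 18439225344),
  (nat_lit 98, nat_lit 19512963072), (nat_lit 39, nat_lit 19496189952),
  (nat_lit 111, nat_lit 20586700800), (nat_lit 33, nat_lit 20569927680),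
  (nat_lit 82, nat_lit 21660438528), (nat_lit 87, nat_lit 21643665408),
  (nat_lit 45, nat_lit 22734176256), (nat_lit 85, nat_lit 22717403136),
  (nat_lit 124, nat_lit 23791140864)]⟩,
  ⟨V5_15167668224, nat_lit 8, [(nat_lit 113, nat_lit 18439225344),
  (nat_lit 21, nat_lit 19496189952), (nat_lit 73, nat_lit 20553154560),
  (nat_lit 87, nat_lit 21610119168)]⟩], [
  W6_18405654528, W6_18388881408, W6_18372108288, W6_18355335168, W6_18338562048, W6_17348689920,
  W6_17331916800, W6_17315143680, W6_17298370560, W6_17281597440, W6_16291725312, W6_16274952192,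
  W6_16258179072, W6_16241405952, W6_16224632832, W6_15217987584, W6_15201214464, W6_15184441344,
  W6_15167668224, W6_14144249856, W6_14127476736, W6_14110703616, W6_13070512128, W6_13053739008]⟩

theorem F6_18439225344_chk : fwdChk 6 ks6 F6_18439225344 = true := by decide +kernel

noncomputable def F6_18439217217 : Fwd := ⟨V6_18439217217, [
  ⟨V5_13070508096, nat_lit 3, [(nat_lit 97, nat_lit 18439217217),
  (nat_lit 68, nat_lit 19512959040)]⟩,
  ⟨V5_14144245824, nat_lit 4, [(nat_lit 69, nat_lit 18439217217),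
  (nat_lit 103, nat_lit 19512959040), (nat_lit 106, nat_lit 19512954945),
  (nat_lit 80, nat_lit 20586696768)]⟩,
  ⟨V5_14127472704, nat_lit 6, [(nat_lit 117, nat_lit 18439217217),
  (nat_lit 8, nat_lit 19512959040), (nat_lit 97, nat_lit 19496181825),
  (nat_lit 114, nat_lit 20569923648)]⟩,
  ⟨V5_14143987776, nat_lit 3, [(nat_lit 7, nat_lit 18439217217), (nat_lit 8, nat_lit 19512959040),
  (nat_lit 1, nat_lit 19512696897), (nat_lit 95, nat_lit 20586438720)]⟩], [
  W6_18405134400, W6_18388619328, W6_18388361280, W6_18372104256, W6_18371846208, W6_18355331136,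
  W6_17348169792, W6_17331654720, W6_17331396672, W6_17315139648, W6_17314881600, W6_17298366528,
  W6_16291205184, W6_16274690112, W6_16274432064, W6_16258175040, W6_16257916992, W6_16241401920,
  W6_15217725504, W6_15217467456, W6_15201210432, W6_15200952384, W6_15184437312, W6_14144245824,
  W6_14143987776, W6_14127472704, W6_13070508096]⟩

theorem F6_18439217217_chk : fwdChk 6 ks6 F6_18439217217 = true := by decide +kernel

noncomputable def F6_18423742464 : Fwd := ⟨V6_18423742464, [
  ⟨V5_13054771200, nat_lit 5, [(nat_lit 87, nat_lit 18423742464),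
  (nat_lit 99, nat_lit 19497222144)]⟩,
  ⟨V5_15201730560, nat_lit 12, [(nat_lit 89, nat_lit 18423742464),
  (nat_lit 61, nat_lit 19497222144), (nat_lit 44, nat_lit 20570701824),
  (nat_lit 68, nat_lit 21644181504)]⟩], [
  W6_18422169600, W6_18405654528, W6_17348689920, W6_17332174848, W6_16275210240, W6_16258695168,
  W6_15201730560, W6_15185215488, W6_14128250880, W6_14111735808, W6_13054771200, W6_11981291520]⟩

theorem F6_18423742464_chk : fwdChk 6 ks6 F6_18423742464 = true := by decide +kernel

noncomputable def F6_18423484416 : Fwd := ⟨V6_18423484416, [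
  ⟨V5_13054771200, nat_lit 5, [(nat_lit 92, nat_lit 18423484416),
  (nat_lit 88, nat_lit 19497222144)]⟩,
  ⟨V5_13054513152, nat_lit 7, [(nat_lit 3, nat_lit 18423484416),
  (nat_lit 62, nat_lit 19496964096)]⟩,
  ⟨V5_14127992832, nat_lit 12, [(nat_lit 73, nat_lit 18423484416),
  (nat_lit 63, nat_lit 19496964096), (nat_lit 49, nat_lit 20570443776)]⟩,
  ⟨V5_11981033472, nat_lit 3, [(nat_lit 74, nat_lit 18423484416)]⟩,
  ⟨V5_15201730560, nat_lit 12, [(nat_lit 126, nat_lit 18423484416),
  (nat_lit 26, nat_lit 19497222144), (nat_lit 65, nat_lit 19496964096),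
  (nat_lit 39, nat_lit 20570701824), (nat_lit 65, nat_lit 20570443776),
  (nat_lit 16, nat_lit 21644181504)]⟩,
  ⟨V5_15168700416, nat_lit 5, [(nat_lit 98, nat_lit 18423484416),
  (nat_lit 49, nat_lit 19497222144), (nat_lit 39, nat_lit 19480449024),
  (nat_lit 53, nat_lit 20554186752), (nat_lit 90, nat_lit 20537413632),
  (nat_lit 67, nat_lit 21611151360)]⟩,
  ⟨V5_18421911552, nat_lit 8, [(nat_lit 26, nat_lit 18423484416),
  (nat_lit 111, nat_lit 19496964096), (nat_lit 76, nat_lit 20570443776),
  (nat_lit 45, nat_lit 21643923456), (nat_lit 32, nat_lit 22717403136),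
  (nat_lit 115, nat_lit 23790882816), (nat_lit 99, nat_lit 24864362496)]⟩], [
  W6_18422169600, W6_18421911552, W6_18405654528, W6_18405396480, W6_18389139456, W6_18388881408,
  W6_17348689920, W6_17348431872, W6_17332174848, W6_17331916800, W6_17315659776, W6_17315401728,
  W6_16275210240, W6_16274952192, W6_16258695168, W6_16258437120, W6_16242180096, W6_16241922048,
  W6_15201730560, W6_15201472512, W6_15185215488, W6_15184957440, W6_15168700416, W6_15168442368,
  W6_14128250880, W6_14127992832, W6_14111735808, W6_14111477760, W6_14094962688, W6_13054771200,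
  W6_13054513152, W6_13037998080, W6_11981033472]⟩

theorem F6_18423484416_chk : fwdChk 6 ks6 F6_18423484416 = true := by decide +kernel

noncomputable def F6_18423226368 : Fwd := ⟨V6_18423226368, [
  ⟨V5_11980775424, nat_lit 5, [(nat_lit 62, nat_lit 18423226368)]⟩,
  ⟨V5_13054255104, nat_lit 13, [(nat_lit 22, nat_lit 18423226368),
  (nat_lit 37, nat_lit 19496706048)]⟩,
  ⟨V5_13054513152, nat_lit 7, [(nat_lit 5, nat_lit 18423226368),
  (nat_lit 30, nat_lit 19496964096)]⟩,
  ⟨V5_17348173824, nat_lit 8, [(nat_lit 17, nat_lit 18423226368),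
  (nat_lit 16, nat_lit 19496706048), (nat_lit 27, nat_lit 20570185728),
  (nat_lit 2, nat_lit 21643665408), (nat_lit 15, nat_lit 22717145088),
  (nat_lit 87, nat_lit 23790624768)]⟩,
  ⟨V5_14128250880, nat_lit 6, [(nat_lit 65, nat_lit 18423226368),
  (nat_lit 78, nat_lit 19496964096), (nat_lit 66, nat_lit 20570701824)]⟩,
  ⟨V5_15201730560, nat_lit 12, [(nat_lit 99, nat_lit 18423226368),
  (nat_lit 97, nat_lit 19496964096), (nat_lit 104, nat_lit 19496706048),
  (nat_lit 101, nat_lit 20570701824), (nat_lit 55, nat_lit 20570443776),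
  (nat_lit 76, nat_lit 21644181504)]⟩,
  ⟨V5_15201214464, nat_lit 15, [(nat_lit 88, nat_lit 18423226368),
  (nat_lit 81, nat_lit 19496706048), (nat_lit 51, nat_lit 20570185728),
  (nat_lit 123, nat_lit 21643665408)]⟩,
  ⟨V5_14127734784, nat_lit 12, [(nat_lit 68, nat_lit 18423226368),
  (nat_lit 14, nat_lit 19496706048), (nat_lit 59, nat_lit 20570185728)]⟩,
  ⟨V5_14127992832, nat_lit 11, [(nat_lit 20, nat_lit 18423226368),
  (nat_lit 10, nat_lit 19496964096), (nat_lit 41, nat_lit 19496706048),
  (nat_lit 61, nat_lit 20570443776)]⟩,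
  ⟨V5_14094704640, nat_lit 7, [(nat_lit 3, nat_lit 18423226368),
  (nat_lit 82, nat_lit 19480190976), (nat_lit 43, nat_lit 20537155584)]⟩], [
  W6_18422169600, W6_18421911552, W6_18405654528, W6_18405396480, W6_18405138432, W6_18389139456,
  W6_18388881408, W6_18388623360, W6_18372624384, W6_18372366336, W6_18372108288, W6_17348689920,
  W6_17348431872, W6_17348173824, W6_17332174848, W6_17331916800, W6_17331658752, W6_17315659776,
  W6_17315401728, W6_17315143680, W6_17299144704, W6_17298886656, W6_17298628608, W6_16275210240,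
  W6_16274952192, W6_16274694144, W6_16258695168, W6_16258437120, W6_16258179072, W6_16242180096,
  W6_16241922048, W6_16241664000, W6_16225406976, W6_16225148928, W6_15201730560, W6_15201472512,
  W6_15201214464, W6_15185215488, W6_15184957440, W6_15184699392, W6_15168442368, W6_15168184320,
  W6_15151669248, W6_14128250880, W6_14127992832, W6_14127734784, W6_14111477760, W6_14111219712,
  W6_14094704640, W6_13054513152, W6_13054255104, W6_13037740032, W6_11980775424]⟩

theorem F6_18423226368_chk : fwdChk 6 ks6 F6_18423226368 = true := by decide +kernel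

noncomputable def F6_18423222336 : Fwd := ⟨V6_18423222336, [
  ⟨V5_13054513152, nat_lit 7, [(nat_lit 83, nat_lit 18423222336),
  (nat_lit 104, nat_lit 19496964096)]⟩,
  ⟨V5_14127992832, nat_lit 12, [(nat_lit 75, nat_lit 18423222336),
  (nat_lit 77, nat_lit 19496964096), (nat_lit 36, nat_lit 19496702016),
  (nat_lit 24, nat_lit 20570443776)]⟩,
  ⟨V5_14111477760, nat_lit 8, [(nat_lit 46, nat_lit 18423222336),
  (nat_lit 111, nat_lit 19496964096), (nat_lit 39, nat_lit 19480186944),
  (nat_lit 27, nat_lit 20553928704)]⟩,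
  ⟨V5_15201472512, nat_lit 12, [(nat_lit 44, nat_lit 18423222336),
  (nat_lit 64, nat_lit 19496964096), (nat_lit 78, nat_lit 19496702016),
  (nat_lit 2, nat_lit 20570443776), (nat_lit 20, nat_lit 20570181696),
  (nat_lit 105, nat_lit 21643923456)]⟩,
  ⟨V5_11980771392, nat_lit 2, [(nat_lit 53, nat_lit 18423222336)]⟩,
  ⟨V5_15151665216, nat_lit 3, [(nat_lit 68, nat_lit 18423222336),
  (nat_lit 56, nat_lit 19480186944), (nat_lit 68, nat_lit 20537151552),
  (nat_lit 51, nat_lit 21594116160)]⟩], [
  W6_18421911552, W6_18405396480, W6_18405134400, W6_18388881408, W6_18388619328, W6_18372366336,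
  W6_18372104256, W6_17348431872, W6_17348169792, W6_17331916800, W6_17331654720, W6_17315401728,
  W6_17315139648, W6_17298886656, W6_17298624576, W6_16274952192, W6_16274690112, W6_16258437120,
  W6_16258175040, W6_16241922048, W6_16241659968, W6_16225406976, W6_16225144896, W6_15201472512,
  W6_15201210432, W6_15184957440, W6_15184695360, W6_15168442368, W6_15168180288, W6_15151665216,
  W6_14127992832, W6_14127730752, W6_14111477760, W6_14111215680, W6_14094700608, W6_13054513152,
  W6_13054251072, W6_13037736000, W6_11980771392]⟩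

theorem F6_18423222336_chk : fwdChk 6 ks6 F6_18423222336 = true := by decide +kernel

noncomputable def F6_18422448192 : Fwd := ⟨V6_18422448192, [
  ⟨V5_13053739008, nat_lit 6, [(nat_lit 126, nat_lit 18422448192),
  (nat_lit 37, nat_lit 19496189952)]⟩,
  ⟨V5_16274952192, nat_lit 14, [(nat_lit 46, nat_lit 18422448192),
  (nat_lit 99, nat_lit 19496189952), (nat_lit 97, nat_lit 19496185920),
  (nat_lit 25, nat_lit 20569927680), (nat_lit 118, nat_lit 20569923648),
  (nat_lit 64, nat_lit 21643665408), (nat_lit 84, nat_lit 21643661376),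
  (nat_lit 22, nat_lit 22717403136)]⟩,
  ⟨V5_15201214464, nat_lit 15, [(nat_lit 70, nat_lit 18422448192),
  (nat_lit 14, nat_lit 19496189952), (nat_lit 38, nat_lit 19496185920),
  (nat_lit 86, nat_lit 20569927680), (nat_lit 112, nat_lit 20569923648),
  (nat_lit 98, nat_lit 21643665408)]⟩,
  ⟨V5_14127476736, nat_lit 7, [(nat_lit 100, nat_lit 18422448192),
  (nat_lit 88, nat_lit 19496189952), (nat_lit 106, nat_lit 19496185920),
  (nat_lit 89, nat_lit 20569927680)]⟩,
  ⟨V5_11979997248, nat_lit 2, [(nat_lit 29, nat_lit 18422448192)]⟩,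
  ⟨V5_14110703616, nat_lit 5, [(nat_lit 81, nat_lit 18422448192),
  (nat_lit 16, nat_lit 19496189952), (nat_lit 88, nat_lit 19479412800),
  (nat_lit 100, nat_lit 20553154560)]⟩,
  ⟨V5_18321784896, nat_lit 1, [(nat_lit 36, nat_lit 18422448192),
  (nat_lit 62, nat_lit 19479412800), (nat_lit 51, nat_lit 20536377408),
  (nat_lit 19, nat_lit 21593342016), (nat_lit 106, nat_lit 22650306624),
  (nat_lit 82, nat_lit 23707271232), (nat_lit 75, nat_lit 24764235840)]⟩,
  ⟨V5_17264820288, nat_lit 1, [(nat_lit 106, nat_lit 18422448192),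
  (nat_lit 124, nat_lit 19479412800), (nat_lit 81, nat_lit 20536377408),
  (nat_lit 3, nat_lit 21593342016), (nat_lit 94, nat_lit 22650306624),
  (nat_lit 115, nat_lit 23707271232)]⟩], [
  W6_18388881408, W6_18372108288, W6_18372104256, W6_18355335168, W6_18355331136, W6_18338562048,
  W6_18338558016, W6_18321784896, W6_17331916800, W6_17315143680, W6_17315139648, W6_17298370560,
  W6_17298366528, W6_17281597440, W6_17281593408, W6_17264820288, W6_16274952192, W6_16258179072,
  W6_16258175040, W6_16241405952, W6_16241401920, W6_16224632832, W6_16224628800, W6_16207855680,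
  W6_15201214464, W6_15201210432, W6_15184441344, W6_15184437312, W6_15167668224, W6_15167664192,
  W6_15150891072, W6_14127476736, W6_14127472704, W6_14110703616, W6_14110699584, W6_14093926464,
  W6_13053739008, W6_13053734976, W6_13036961856, W6_11979997248]⟩

theorem F6_18422448192_chk : fwdChk 6 ks6 F6_18422448192 = true := by decide +kernel

noncomputable def F6_18406711296 : Fwd := ⟨V6_18406711296, [
  ⟨V5_13021224960, nat_lit 6, [(nat_lit 2, nat_lit 18406711296),
  (nat_lit 50, nat_lit 19463675904)]⟩,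
  ⟨V5_15168700416, nat_lit 5, [(nat_lit 74, nat_lit 18406711296),
  (nat_lit 12, nat_lit 19480449024), (nat_lit 5, nat_lit 19463675904),
  (nat_lit 16, nat_lit 20554186752), (nat_lit 33, nat_lit 20537413632),
  (nat_lit 115, nat_lit 21611151360)]⟩,
  ⟨V5_11964260352, nat_lit 3, [(nat_lit 123, nat_lit 18406711296)]⟩,
  ⟨V5_14111219712, nat_lit 13, [(nat_lit 46, nat_lit 18406711296),
  (nat_lit 31, nat_lit 19480190976), (nat_lit 10, nat_lit 20553670656)]⟩,
  ⟨V5_13037998080, nat_lit 4, [(nat_lit 106, nat_lit 18406711296),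
  (nat_lit 1, nat_lit 19480449024)]⟩,
  ⟨V5_15168184320, nat_lit 16, [(nat_lit 35, nat_lit 18406711296),
  (nat_lit 19, nat_lit 19480190976), (nat_lit 85, nat_lit 19463675904),
  (nat_lit 64, nat_lit 20553670656), (nat_lit 122, nat_lit 20537155584),
  (nat_lit 88, nat_lit 21610635264)]⟩,
  ⟨V5_18405138432, nat_lit 6, [(nat_lit 38, nat_lit 18406711296),
  (nat_lit 45, nat_lit 19480190976), (nat_lit 72, nat_lit 20553670656),
  (nat_lit 56, nat_lit 21627150336), (nat_lit 37, nat_lit 22700630016),
  (nat_lit 2, nat_lit 23774109696), (nat_lit 47, nat_lit 24847589376)]⟩,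
  ⟨V5_14111735808, nat_lit 3, [(nat_lit 90, nat_lit 18406711296),
  (nat_lit 108, nat_lit 19480449024), (nat_lit 23, nat_lit 20554186752)]⟩,
  ⟨V5_14094962688, nat_lit 2, [(nat_lit 2, nat_lit 18406711296),
  (nat_lit 18, nat_lit 19480449024), (nat_lit 13, nat_lit 19463675904),
  (nat_lit 101, nat_lit 20537413632)]⟩], [
  W6_18405654528, W6_18405396480, W6_18405138432, W6_18389139456, W6_18388881408, W6_18388623360,
  W6_17332174848, W6_17331916800, W6_17331658752, W6_17315659776, W6_17315401728, W6_17315143680,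
  W6_16258695168, W6_16258437120, W6_16258179072, W6_16242180096, W6_16241922048, W6_16241664000,
  W6_15185215488, W6_15184957440, W6_15184699392, W6_15168700416, W6_15168442368, W6_15168184320,
  W6_14111735808, W6_14111477760, W6_14111219712, W6_14094962688, W6_14094704640, W6_13037998080,
  W6_13037740032, W6_13021224960, W6_11964260352]⟩

theorem F6_18406711296_chk : fwdChk 6 ks6 F6_18406711296 = true := by decide +kernel

noncomputable def F6_18406707264 : Fwd := ⟨V6_18406707264, [
  ⟨V5_13037998080, nat_lit 4, [(nat_lit 111, nat_lit 18406707264),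
  (nat_lit 84, nat_lit 19480449024)]⟩,
  ⟨V5_11964256320, nat_lit 2, [(nat_lit 99, nat_lit 18406707264)]⟩,
  ⟨V5_14094962688, nat_lit 4, [(nat_lit 84, nat_lit 18406707264),
  (nat_lit 115, nat_lit 19480449024), (nat_lit 35, nat_lit 19463671872),
  (nat_lit 32, nat_lit 20537413632)]⟩,
  ⟨V5_14111477760, nat_lit 8, [(nat_lit 73, nat_lit 18406707264),
  (nat_lit 91, nat_lit 19480449024), (nat_lit 35, nat_lit 19480186944),
  (nat_lit 103, nat_lit 20553928704)]⟩,
  ⟨V5_13037736000, nat_lit 3, [(nat_lit 34, nat_lit 18406707264),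
  (nat_lit 110, nat_lit 19480186944)]⟩,
  ⟨V5_14111215680, nat_lit 5, [(nat_lit 32, nat_lit 18406707264),
  (nat_lit 5, nat_lit 19480186944), (nat_lit 18, nat_lit 20553666624)]⟩,
  ⟨V5_18405134400, nat_lit 2, [(nat_lit 107, nat_lit 18406707264),
  (nat_lit 110, nat_lit 19480186944), (nat_lit 49, nat_lit 20553666624),
  (nat_lit 24, nat_lit 21627146304), (nat_lit 34, nat_lit 22700625984),
  (nat_lit 19, nat_lit 23774105664), (nat_lit 2, nat_lit 24847585344)]⟩,
  ⟨V5_14094700608, nat_lit 2, [(nat_lit 12, nat_lit 18406707264),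
  (nat_lit 60, nat_lit 19480186944), (nat_lit 118, nat_lit 19463671872),
  (nat_lit 67, nat_lit 20537151552)]⟩], [
  W6_18405396480, W6_18405134400, W6_18388881408, W6_18388619328, W6_17331916800, W6_17331654720,
  W6_17315401728, W6_17315139648, W6_16258437120, W6_16258175040, W6_16241922048, W6_16241659968,
  W6_15184957440, W6_15184695360, W6_15168442368, W6_15168180288, W6_14111477760, W6_14111215680,
  W6_14094962688, W6_14094700608, W6_13037998080, W6_13037736000, W6_11964256320]⟩

theorem F6_18406707264_chk : fwdChk 6 ks6 F6_18406707264 = true := by decide +kernel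

noncomputable def F6_18406187136 : Fwd := ⟨V6_18406187136, [
  ⟨V5_14111219712, nat_lit 13, [(nat_lit 59, nat_lit 18406187136),
  (nat_lit 102, nat_lit 19479928896), (nat_lit 70, nat_lit 20553670656)]⟩,
  ⟨V5_15168184320, nat_lit 16, [(nat_lit 81, nat_lit 18406187136),
  (nat_lit 51, nat_lit 19479928896), (nat_lit 89, nat_lit 19463151744),
  (nat_lit 67, nat_lit 20553670656), (nat_lit 113, nat_lit 20536893504),
  (nat_lit 44, nat_lit 21610635264)]⟩,
  ⟨V5_17282113536, nat_lit 8, [(nat_lit 78, nat_lit 18406187136),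
  (nat_lit 110, nat_lit 19479928896), (nat_lit 70, nat_lit 19463151744),
  (nat_lit 115, nat_lit 20553670656), (nat_lit 61, nat_lit 20536893504),
  (nat_lit 57, nat_lit 20520116352), (nat_lit 86, nat_lit 21610635264),
  (nat_lit 70, nat_lit 21593858112), (nat_lit 49, nat_lit 21577080960),
  (nat_lit 91, nat_lit 22667599872), (nat_lit 49, nat_lit 22650822720),
  (nat_lit 31, nat_lit 23724564480)]⟩,
  ⟨V5_15184699392, nat_lit 13, [(nat_lit 83, nat_lit 18406187136),
  (nat_lit 101, nat_lit 19479928896), (nat_lit 54, nat_lit 19479666816),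
  (nat_lit 79, nat_lit 20553670656), (nat_lit 111, nat_lit 20553408576),
  (nat_lit 48, nat_lit 21627150336)]⟩,
  ⟨V5_13037477952, nat_lit 6, [(nat_lit 1, nat_lit 18406187136),
  (nat_lit 12, nat_lit 19479928896)]⟩,
  ⟨V5_15134630016, nat_lit 3, [(nat_lit 1, nat_lit 18406187136),
  (nat_lit 49, nat_lit 19463151744), (nat_lit 15, nat_lit 20520116352),
  (nat_lit 39, nat_lit 21577080960)]⟩], [
  W6_18405138432, W6_18388623360, W6_18388361280, W6_18372108288, W6_18371846208, W6_18371584128,
  W6_18355593216, W6_18355331136, W6_18355069056, W6_17331658752, W6_17331396672, W6_17315143680,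
  W6_17314881600, W6_17314619520, W6_17298628608, W6_17298366528, W6_17298104448, W6_17282113536,
  W6_17281851456, W6_17281589376, W6_16258179072, W6_16257916992, W6_16257654912, W6_16241664000,
  W6_16241401920, W6_16241139840, W6_16225148928, W6_16224886848, W6_16224624768, W6_16208371776,
  W6_16208109696, W6_15184699392, W6_15184437312, W6_15184175232, W6_15168184320, W6_15167922240,
  W6_15167660160, W6_15151407168, W6_15151145088, W6_15134630016, W6_14111219712, W6_14110957632,
  W6_14110695552, W6_14094442560, W6_14094180480, W6_14077665408, W6_13037477952, W6_13037215872,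
  W6_13020700800, W6_11963736192]⟩

theorem F6_18406187136_chk : fwdChk 6 ks6 F6_18406187136 = true := by decide +kernel

noncomputable def F6_18405937152 : Fwd := ⟨V6_18405937152, [
  ⟨V5_17332174848, nat_lit 9, [(nat_lit 94, nat_lit 18405937152),
  (nat_lit 65, nat_lit 19479674880), (nat_lit 87, nat_lit 20553412608),
  (nat_lit 92, nat_lit 21627150336), (nat_lit 19, nat_lit 22700888064),
  (nat_lit 55, nat_lit 23774625792)]⟩,
  ⟨V5_16258437120, nat_lit 9, [(nat_lit 61, nat_lit 18405937152),
  (nat_lit 24, nat_lit 19479674880), (nat_lit 60, nat_lit 20553412608),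
  (nat_lit 9, nat_lit 21627150336), (nat_lit 85, nat_lit 22700888064)]⟩,
  ⟨V5_11963486208, nat_lit 2, [(nat_lit 32, nat_lit 18405937152)]⟩,
  ⟨V5_13037223936, nat_lit 5, [(nat_lit 78, nat_lit 18405937152),
  (nat_lit 110, nat_lit 19479674880)]⟩,
  ⟨V5_13020450816, nat_lit 1, [(nat_lit 99, nat_lit 18405937152),
  (nat_lit 62, nat_lit 19462901760)]⟩], [
  W6_18389139456, W6_18372366336, W6_18355593216, W6_17332174848, W6_17315401728, W6_17298628608,
  W6_17281855488, W6_16258437120, W6_16241664000, W6_16224890880, W6_16208117760, W6_15184699392,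
  W6_15167926272, W6_15151153152, W6_14110961664, W6_14094188544, W6_14077415424, W6_13037223936,
  W6_13020450816, W6_11963486208]⟩

theorem F6_18405937152_chk : fwdChk 6 ks6 F6_18405937152 = true := by decide +kernel

noncomputable def F6_18405671040 : Fwd := ⟨V6_18405671040, [
  ⟨V5_14110703616, nat_lit 5, [(nat_lit 111, nat_lit 18405671040),
  (nat_lit 24, nat_lit 19479412800), (nat_lit 9, nat_lit 20553154560)]⟩,
  ⟨V5_15167668224, nat_lit 8, [(nat_lit 118, nat_lit 18405671040),
  (nat_lit 79, nat_lit 19479412800), (nat_lit 103, nat_lit 19462635648),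
  (nat_lit 49, nat_lit 20553154560), (nat_lit 58, nat_lit 20536377408),
  (nat_lit 108, nat_lit 21610119168)]⟩,
  ⟨V5_16258179072, nat_lit 13, [(nat_lit 54, nat_lit 18405671040),
  (nat_lit 71, nat_lit 19479412800), (nat_lit 46, nat_lit 19479408768),
  (nat_lit 12, nat_lit 20553154560), (nat_lit 31, nat_lit 20553150528),
  (nat_lit 4, nat_lit 20553146496), (nat_lit 80, nat_lit 21626892288),
  (nat_lit 22, nat_lit 21626888256), (nat_lit 27, nat_lit 22700630016)]⟩,
  ⟨V5_13020184704, nat_lit 3, [(nat_lit 28, nat_lit 18405671040),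
  (nat_lit 65, nat_lit 19462635648)]⟩,
  ⟨V5_13036961856, nat_lit 3, [(nat_lit 94, nat_lit 18405671040),
  (nat_lit 112, nat_lit 19479412800)]⟩,
  ⟨V5_17248043136, nat_lit 1, [(nat_lit 83, nat_lit 18405671040),
  (nat_lit 49, nat_lit 19462635648), (nat_lit 93, nat_lit 20519600256),
  (nat_lit 113, nat_lit 21576564864), (nat_lit 45, nat_lit 22633529472),
  (nat_lit 83, nat_lit 23690494080)]⟩], [
  W6_18372108288, W6_18355335168, W6_18355331136, W6_18338562048, W6_18338558016, W6_18338553984,
  W6_18321784896, W6_17315143680, W6_17298370560, W6_17298366528, W6_17281597440, W6_17281593408,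
  W6_17281589376, W6_17264820288, W6_17248043136, W6_16258179072, W6_16241405952, W6_16241401920,
  W6_16224632832, W6_16224628800, W6_16224624768, W6_16207855680, W6_16207851648, W6_16191078528,
  W6_15184441344, W6_15184437312, W6_15167668224, W6_15167664192, W6_15167660160, W6_15150891072,
  W6_15150887040, W6_15134113920, W6_14110703616, W6_14110699584, W6_14110695552, W6_14093926464,
  W6_14093922432, W6_14077149312, W6_13036961856, W6_13036957824, W6_13020184704, W6_11963220096]⟩

theorem F6_18405671040_chk : fwdChk 6 ks6 F6_18405671040 = true := by decide +kernel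

noncomputable def F6_18405670977 : Fwd := ⟨V6_18405670977, [
  ⟨V5_13036961856, nat_lit 3, [(nat_lit 86, nat_lit 18405670977),
  (nat_lit 76, nat_lit 19479412800)]⟩,
  ⟨V5_14093926464, nat_lit 4, [(nat_lit 42, nat_lit 18405670977),
  (nat_lit 2, nat_lit 19479412800), (nat_lit 9, nat_lit 19462635585),
  (nat_lit 22, nat_lit 20536377408)]⟩,
  ⟨V5_14110699584, nat_lit 4, [(nat_lit 71, nat_lit 18405670977),
  (nat_lit 30, nat_lit 19479412800), (nat_lit 31, nat_lit 19479408705),
  (nat_lit 108, nat_lit 20553150528)]⟩,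
  ⟨V5_18321784896, nat_lit 1, [(nat_lit 59, nat_lit 18405670977),
  (nat_lit 9, nat_lit 19479412800), (nat_lit 14, nat_lit 19462635585),
  (nat_lit 2, nat_lit 20536377408), (nat_lit 52, nat_lit 20519600193),
  (nat_lit 123, nat_lit 21593342016), (nat_lit 28, nat_lit 21576564801),
  (nat_lit 37, nat_lit 22650306624), (nat_lit 41, nat_lit 22633529409),
  (nat_lit 120, nat_lit 23707271232), (nat_lit 3, nat_lit 23690494017),
  (nat_lit 16, nat_lit 24764235840)]⟩], [
  W6_18372104256, W6_18355331136, W6_18338558016, W6_18321784896, W6_17315139648, W6_17298366528,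
  W6_17281593408, W6_17264820288, W6_16258175040, W6_16241401920, W6_16224628800, W6_16207855680,
  W6_15184437312, W6_15167664192, W6_15150891072, W6_14110699584, W6_14093926464, W6_13036961856]⟩

theorem F6_18405670977_chk : fwdChk 6 ks6 F6_18405670977 = true := by decide +kernel

noncomputable def F6_18405404802 : Fwd := ⟨V6_18405404802, [
  ⟨V5_14110437504, nat_lit 1, [(nat_lit 68, nat_lit 18405404802),
  (nat_lit 102, nat_lit 19479146625), (nat_lit 1, nat_lit 20552888448)]⟩], [
  W6_18355069056, W6_17298104448, W6_16241139840, W6_15184175232, W6_14110437504]⟩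

theorem F6_18405404802_chk : fwdChk 6 ks6 F6_18405404802 = true := by decide +kernel

noncomputable def F6_18389938176 : Fwd := ⟨V6_18389938176, [
  ⟨V5_15168700416, nat_lit 5, [(nat_lit 34, nat_lit 18389938176),
  (nat_lit 90, nat_lit 19463675904), (nat_lit 76, nat_lit 20537413632),
  (nat_lit 39, nat_lit 21611151360)]⟩,
  ⟨V5_13021224960, nat_lit 6, [(nat_lit 47, nat_lit 18389938176),
  (nat_lit 11, nat_lit 19463675904)]⟩,
  ⟨V5_11947487232, nat_lit 3, [(nat_lit 98, nat_lit 18389938176)]⟩,
  ⟨V5_14094446592, nat_lit 12, [(nat_lit 97, nat_lit 18389938176),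
  (nat_lit 35, nat_lit 19463417856), (nat_lit 126, nat_lit 20536897536)]⟩,
  ⟨V5_14094962688, nat_lit 4, [(nat_lit 92, nat_lit 18389938176),
  (nat_lit 107, nat_lit 19463675904), (nat_lit 121, nat_lit 20537413632)]⟩,
  ⟨V5_13020966912, nat_lit 4, [(nat_lit 119, nat_lit 18389938176),
  (nat_lit 4, nat_lit 19463417856)]⟩,
  ⟨V5_16242180096, nat_lit 5, [(nat_lit 15, nat_lit 18389938176),
  (nat_lit 64, nat_lit 19463675904), (nat_lit 126, nat_lit 19463417856),
  (nat_lit 119, nat_lit 20537413632), (nat_lit 111, nat_lit 20537155584),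
  (nat_lit 93, nat_lit 21611151360), (nat_lit 92, nat_lit 21610893312),
  (nat_lit 117, nat_lit 22684631040)]⟩], [
  W6_18389139456, W6_18388881408, W6_18388623360, W6_17315659776, W6_17315401728, W6_17315143680,
  W6_17314885632, W6_16242180096, W6_16241922048, W6_16241664000, W6_16241405952, W6_15168700416,
  W6_15168442368, W6_15168184320, W6_15167926272, W6_14094962688, W6_14094704640, W6_14094446592,
  W6_13021224960, W6_13020966912, W6_11947487232]⟩

theorem F6_18389938176_chk : fwdChk 6 ks6 F6_18389938176 = true := by decide +kernel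

noncomputable def F6_18389930049 : Fwd := ⟨V6_18389930049, [
  ⟨V5_14094700608, nat_lit 3, [(nat_lit 16, nat_lit 18389930049),
  (nat_lit 72, nat_lit 19463671872), (nat_lit 49, nat_lit 19463409729),
  (nat_lit 38, nat_lit 20537151552)]⟩], [
  W6_18388619328, W6_17315139648, W6_16241659968, W6_15168180288, W6_14094700608]⟩

theorem F6_18389930049_chk : fwdChk 6 ks6 F6_18389930049 = true := by decide +kernel

noncomputable def F6_18389672064 : Fwd := ⟨V6_18389672064, [
  ⟨V5_14094704640, nat_lit 8, [(nat_lit 60, nat_lit 18389672064),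
  (nat_lit 37, nat_lit 19463413824), (nat_lit 125, nat_lit 20537155584)]⟩,
  ⟨V5_15168184320, nat_lit 16, [(nat_lit 105, nat_lit 18389672064),
  (nat_lit 110, nat_lit 19463413824), (nat_lit 14, nat_lit 19463151744),
  (nat_lit 51, nat_lit 20537155584), (nat_lit 82, nat_lit 20536893504),
  (nat_lit 119, nat_lit 21610635264)]⟩,
  ⟨V5_13020700800, nat_lit 4, [(nat_lit 19, nat_lit 18389672064),
  (nat_lit 107, nat_lit 19463151744)]⟩,
  ⟨V5_13020962880, nat_lit 3, [(nat_lit 60, nat_lit 18389672064),
  (nat_lit 85, nat_lit 19463413824)]⟩,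
  ⟨V5_17314619520, nat_lit 2, [(nat_lit 125, nat_lit 18389672064),
  (nat_lit 28, nat_lit 19463151744), (nat_lit 79, nat_lit 20536631424),
  (nat_lit 67, nat_lit 21610111104), (nat_lit 58, nat_lit 22683590784),
  (nat_lit 57, nat_lit 23757070464)]⟩], [
  W6_18388623360, W6_18388361280, W6_18372108288, W6_18371846208, W6_18371584128, W6_17315143680,
  W6_17314881600, W6_17314619520, W6_17298628608, W6_17298366528, W6_17298104448, W6_16241664000,
  W6_16241401920, W6_16241139840, W6_16225148928, W6_16224886848, W6_16224624768, W6_15168184320,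
  W6_15167922240, W6_15167660160, W6_15151669248, W6_15151407168, W6_15151145088, W6_14094704640,
  W6_14094442560, W6_14094180480, W6_14077927488, W6_14077665408, W6_13020962880, W6_13020700800,
  W6_11947221120]⟩

theorem F6_18389672064_chk : fwdChk 6 ks6 F6_18389672064 = true := by decide +kernel

noncomputable def F6_18389422080 : Fwd := ⟨V6_18389422080, [
  ⟨V5_17315659776, nat_lit 12, [(nat_lit 23, nat_lit 18389422080),
  (nat_lit 74, nat_lit 19463159808), (nat_lit 101, nat_lit 20536897536),
  (nat_lit 9, nat_lit 21610635264), (nat_lit 6, nat_lit 22684372992),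
  (nat_lit 4, nat_lit 23758110720)]⟩,
  ⟨V5_11946971136, nat_lit 4, [(nat_lit 44, nat_lit 18389422080)]⟩,
  ⟨V5_15168184320, nat_lit 16, [(nat_lit 41, nat_lit 18389422080),
  (nat_lit 3, nat_lit 19463159808), (nat_lit 50, nat_lit 20536897536),
  (nat_lit 67, nat_lit 21610635264)]⟩,
  ⟨V5_13020708864, nat_lit 8, [(nat_lit 25, nat_lit 18389422080),
  (nat_lit 32, nat_lit 19463159808)]⟩,
  ⟨V5_14060900352, nat_lit 2, [(nat_lit 61, nat_lit 18389422080),
  (nat_lit 72, nat_lit 19446386688), (nat_lit 106, nat_lit 20503351296)]⟩,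
  ⟨V5_13020450816, nat_lit 1, [(nat_lit 69, nat_lit 18389422080),
  (nat_lit 15, nat_lit 19462901760)]⟩], [
  W6_18389139456, W6_18372624384, W6_18372366336, W6_18355851264, W6_18355593216, W6_17315659776,
  W6_17315401728, W6_17298886656, W6_17298628608, W6_17282113536, W6_17281855488, W6_16241922048,
  W6_16241664000, W6_16225148928, W6_16224890880, W6_16208375808, W6_16208117760, W6_15168184320,
  W6_15167926272, W6_15151411200, W6_15151153152, W6_15134638080, W6_14094446592, W6_14094188544,
  W6_14077673472, W6_14077415424, W6_14060900352, W6_13020708864, W6_13020450816, W6_13003935744,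
  W6_11946971136]⟩

theorem F6_18389422080_chk : fwdChk 6 ks6 F6_18389422080 = true := by decide +kernel

noncomputable def F6_18389409921 : Fwd := ⟨V6_18389409921, [
  ⟨V5_13020700800, nat_lit 4, [(nat_lit 11, nat_lit 18389409921),
  (nat_lit 119, nat_lit 19463151744)]⟩,
  ⟨V5_14094442560, nat_lit 7, [(nat_lit 8, nat_lit 18389409921),
  (nat_lit 20, nat_lit 19463151744), (nat_lit 118, nat_lit 19463151681),
  (nat_lit 97, nat_lit 20536893504)]⟩,
  ⟨V5_15134630016, nat_lit 3, [(nat_lit 1, nat_lit 18389409921),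
  (nat_lit 77, nat_lit 19463151744), (nat_lit 28, nat_lit 19446374529),
  (nat_lit 70, nat_lit 20520116352), (nat_lit 49, nat_lit 20503339137),
  (nat_lit 7, nat_lit 21577080960)]⟩,
  ⟨V5_14094180480, nat_lit 3, [(nat_lit 2, nat_lit 18389409921),
  (nat_lit 104, nat_lit 19463151744), (nat_lit 87, nat_lit 19462889601),
  (nat_lit 48, nat_lit 20536631424)]⟩,
  ⟨V5_17314619520, nat_lit 2, [(nat_lit 16, nat_lit 18389409921),
  (nat_lit 62, nat_lit 19463151744), (nat_lit 29, nat_lit 19462889601),
  (nat_lit 94, nat_lit 20536631424), (nat_lit 44, nat_lit 20536369281),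
  (nat_lit 31, nat_lit 21610111104), (nat_lit 90, nat_lit 21609848961),
  (nat_lit 118, nat_lit 22683590784), (nat_lit 21, nat_lit 22683328641),
  (nat_lit 101, nat_lit 23757070464)]⟩], [
  W6_18388361280, W6_18371846208, W6_18371584128, W6_18355331136, W6_18355069056, W6_17314881600,
  W6_17314619520, W6_17298366528, W6_17298104448, W6_17281851456, W6_17281589376, W6_16241401920,
  W6_16241139840, W6_16224886848, W6_16224624768, W6_16208371776, W6_16208109696, W6_15167922240,
  W6_15167660160, W6_15151407168, W6_15151145088, W6_15134630016, W6_14094442560, W6_14094180480,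
  W6_14077665408, W6_13020700800]⟩

theorem F6_18389409921_chk : fwdChk 6 ks6 F6_18389409921 = true := by decide +kernel

noncomputable def F6_18388889793 : Fwd := ⟨V6_18388889793, [
  ⟨V5_14093922432, nat_lit 2, [(nat_lit 16, nat_lit 18388889793),
  (nat_lit 11, nat_lit 19462631616), (nat_lit 89, nat_lit 19462631553),
  (nat_lit 48, nat_lit 20536373376)]⟩], [
  W6_18338558016, W6_17298108480, W6_17281593408, W6_16241143872, W6_16224628800, W6_16207851648,
  W6_15167664192, W6_15150887040, W6_14093922432]⟩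

theorem F6_18388889793_chk : fwdChk 6 ks6 F6_18388889793 = true := by decide +kernel

noncomputable def F6_18372907008 : Fwd := ⟨V6_18372907008, [
  ⟨V5_18372624384, nat_lit 6, [(nat_lit 95, nat_lit 18372907008),
  (nat_lit 100, nat_lit 19446644736), (nat_lit 69, nat_lit 19446386688),
  (nat_lit 68, nat_lit 20520382464), (nat_lit 65, nat_lit 20520124416),
  (nat_lit 22, nat_lit 21594120192), (nat_lit 59, nat_lit 21593862144),
  (nat_lit 125, nat_lit 22667857920), (nat_lit 30, nat_lit 22667599872),
  (nat_lit 25, nat_lit 23741595648), (nat_lit 111, nat_lit 23741337600),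
  (nat_lit 56, nat_lit 24815075328)]⟩,
  ⟨V5_13003935744, nat_lit 3, [(nat_lit 46, nat_lit 18372907008),
  (nat_lit 112, nat_lit 19446386688)]⟩,
  ⟨V5_16225406976, nat_lit 4, [(nat_lit 36, nat_lit 18372907008),
  (nat_lit 10, nat_lit 19446644736), (nat_lit 25, nat_lit 20520382464),
  (nat_lit 99, nat_lit 21594120192), (nat_lit 46, nat_lit 22667857920)]⟩,
  ⟨V5_11930456064, nat_lit 1, [(nat_lit 86, nat_lit 18372907008)]⟩], [
  W6_18372624384, W6_18372366336, W6_17299144704, W6_17298886656, W6_17298628608, W6_16225406976,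
  W6_16225148928, W6_16224890880, W6_15151669248, W6_15151411200, W6_15151153152, W6_14077931520,
  W6_14077673472, W6_14077415424, W6_13004193792, W6_13003935744, W6_11930456064]⟩

theorem F6_18372907008_chk : fwdChk 6 ks6 F6_18372907008 = true := by decide +kernel

noncomputable def F6_18372898881 : Fwd := ⟨V6_18372898881, [
  ⟨V5_15151665216, nat_lit 3, [(nat_lit 70, nat_lit 18372898881),
  (nat_lit 6, nat_lit 19446640704), (nat_lit 5, nat_lit 19446636609),
  (nat_lit 44, nat_lit 20520378432), (nat_lit 111, nat_lit 20520374337),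
  (nat_lit 121, nat_lit 21594116160)]⟩,
  ⟨V5_13004189760, nat_lit 2, [(nat_lit 64, nat_lit 18372898881),
  (nat_lit 92, nat_lit 19446640704)]⟩,
  ⟨V5_14077669440, nat_lit 5, [(nat_lit 8, nat_lit 18372898881),
  (nat_lit 92, nat_lit 19446640704), (nat_lit 64, nat_lit 19446378561),
  (nat_lit 34, nat_lit 20520120384)]⟩], [
  W6_18372104256, W6_18371846208, W6_17298624576, W6_17298366528, W6_17298108480, W6_16225144896,
  W6_16224886848, W6_16224628800, W6_15151665216, W6_15151407168, W6_15151149120, W6_14077927488,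
  W6_14077669440, W6_13004189760]⟩

theorem F6_18372898881_chk : fwdChk 6 ks6 F6_18372898881 = true := by decide +kernel

noncomputable def F6_18372894849 : Fwd := ⟨V6_18372894849, [
  ⟨V5_15151407168, nat_lit 5, [(nat_lit 20, nat_lit 18372894849),
  (nat_lit 62, nat_lit 19446636672), (nat_lit 52, nat_lit 19446636609),
  (nat_lit 115, nat_lit 19446374529), (nat_lit 71, nat_lit 20520378432),
  (nat_lit 76, nat_lit 20520116352), (nat_lit 38, nat_lit 20520116289),
  (nat_lit 46, nat_lit 21593858112)]⟩], [
  W6_18371846208, W6_18371584128, W6_17298366528, W6_17298104448, W6_16224886848, W6_16224624768,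
  W6_15151407168, W6_15151145088, W6_14077927488, W6_14077665408]⟩

theorem F6_18372894849_chk : fwdChk 6 ks6 F6_18372894849 = true := by decide +kernel

noncomputable def F6_18372382848 : Fwd := ⟨V6_18372382848, [
  ⟨V5_15151153152, nat_lit 5, [(nat_lit 43, nat_lit 18372382848),
  (nat_lit 50, nat_lit 19446124608), (nat_lit 31, nat_lit 19446120576),
  (nat_lit 8, nat_lit 20519866368), (nat_lit 67, nat_lit 20519862336),
  (nat_lit 117, nat_lit 21593604096)]⟩,
  ⟨V5_14077415424, nat_lit 1, [(nat_lit 7, nat_lit 18372382848),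
  (nat_lit 53, nat_lit 19446124608), (nat_lit 4, nat_lit 20519866368)]⟩,
  ⟨V5_13003673664, nat_lit 1, [(nat_lit 54, nat_lit 18372382848),
  (nat_lit 13, nat_lit 19446124608)]⟩,
  ⟨V5_14077407360, nat_lit 1, [(nat_lit 49, nat_lit 18372382848),
  (nat_lit 12, nat_lit 19446120576), (nat_lit 63, nat_lit 20519858304)]⟩,
  ⟨V5_14060634240, nat_lit 1, [(nat_lit 42, nat_lit 18372382848),
  (nat_lit 22, nat_lit 19446120576), (nat_lit 17, nat_lit 19429347456),
  (nat_lit 124, nat_lit 20503085184)]⟩], [
  W6_18355593216, W6_18338816064, W6_17298628608, W6_17281855488, W6_17281851456, W6_17265078336,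
  W6_16224890880, W6_16224886848, W6_16208117760, W6_16208113728, W6_16208109696, W6_15151153152,
  W6_15151149120, W6_15151145088, W6_15134376000, W6_15134371968, W6_14077415424, W6_14077411392,
  W6_14077407360, W6_14060634240, W6_13003673664, W6_13003669632]⟩

theorem F6_18372382848_chk : fwdChk 6 ks6 F6_18372382848 = true := by decide +kernel

noncomputable def F6_18372382785 : Fwd := ⟨V6_18372382785, [
  ⟨V5_13003673664, nat_lit 1, [(nat_lit 19, nat_lit 18372382785),
  (nat_lit 67, nat_lit 19446124608)]⟩,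
  ⟨V5_14077411392, nat_lit 3, [(nat_lit 7, nat_lit 18372382785), (nat_lit 8, nat_lit 19446124608),
  (nat_lit 1, nat_lit 19446120513), (nat_lit 95, nat_lit 20519862336)]⟩,
  ⟨V5_17298624576, nat_lit 4, [(nat_lit 92, nat_lit 18372382785),
  (nat_lit 26, nat_lit 19446124608), (nat_lit 90, nat_lit 19446120513),
  (nat_lit 94, nat_lit 20519862336), (nat_lit 126, nat_lit 20519858241),
  (nat_lit 63, nat_lit 21593600064), (nat_lit 76, nat_lit 21593595969),
  (nat_lit 49, nat_lit 22667337792), (nat_lit 62, nat_lit 22667333697),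
  (nat_lit 88, nat_lit 23741075520)]⟩], [
  W6_18355589184, W6_18338816064, W6_17298624576, W6_17281851456, W6_17265078336, W6_16224886848,
  W6_16208113728, W6_15151149120, W6_15134376000, W6_14077411392, W6_13003673664]⟩

theorem F6_18372382785_chk : fwdChk 6 ks6 F6_18372382785 = true := by decide +kernel

noncomputable def F6_18372116736 : Fwd := ⟨V6_18372116736, [
  ⟨V5_16224632832, nat_lit 5, [(nat_lit 52, nat_lit 18372116736),
  (nat_lit 123, nat_lit 19445858496), (nat_lit 112, nat_lit 20519600256),
  (nat_lit 72, nat_lit 21593342016), (nat_lit 39, nat_lit 22667083776)]⟩,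
  ⟨V5_15100559616, nat_lit 1, [(nat_lit 73, nat_lit 18372116736),
  (nat_lit 108, nat_lit 19429081344), (nat_lit 62, nat_lit 20486045952),
  (nat_lit 82, nat_lit 21543010560)]⟩], [
  W6_18338562048, W6_18321784896, W6_17281597440, W6_17264820288, W6_17248043136, W6_16224632832,
  W6_16207855680, W6_16191078528, W6_15150891072, W6_15134113920, W6_15100559616, W6_14077149312,
  W6_14060372160, W6_13003407552, W6_12986630400]⟩

theorem F6_18372116736_chk : fwdChk 6 ks6 F6_18372116736 = true := by decide +kernel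

noncomputable def F6_18355871808 : Fwd := ⟨V6_18355871808, [
  ⟨V5_12987162624, nat_lit 3, [(nat_lit 108, nat_lit 18355871808),
  (nat_lit 68, nat_lit 19429613568)]⟩,
  ⟨V5_11913420864, nat_lit 2, [(nat_lit 20, nat_lit 18355871808)]⟩,
  ⟨V5_14060900352, nat_lit 3, [(nat_lit 71, nat_lit 18355871808),
  (nat_lit 92, nat_lit 19429613568), (nat_lit 100, nat_lit 19429609536),
  (nat_lit 28, nat_lit 20503351296)]⟩,
  ⟨V5_16208371776, nat_lit 2, [(nat_lit 76, nat_lit 18355871808),
  (nat_lit 87, nat_lit 19429609536), (nat_lit 17, nat_lit 20503347264),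
  (nat_lit 33, nat_lit 21577084992), (nat_lit 9, nat_lit 22650822720)]⟩], [
  W6_18355851264, W6_17282113536, W6_16208375808, W6_16208371776, W6_15134638080, W6_15134634048,
  W6_14060900352, W6_14060896320, W6_12987162624, W6_12987158592, W6_11913420864]⟩

theorem F6_18355871808_chk : fwdChk 6 ks6 F6_18355871808 = true := by decide +kernel

noncomputable def F6_18355859649 : Fwd := ⟨V6_18355859649, [
  ⟨V5_14060892288, nat_lit 3, [(nat_lit 25, nat_lit 18355859649),
  (nat_lit 41, nat_lit 19429601472), (nat_lit 20, nat_lit 19429601409),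
  (nat_lit 75, nat_lit 20503343232)]⟩], [
  W6_17281593408, W6_16208113728, W6_16207851648, W6_15134634048, W6_15134371968, W6_14060892288]⟩

theorem F6_18355859649_chk : fwdChk 6 ks6 F6_18355859649 = true := by decide +kernel

noncomputable def F6_17449353216 : Fwd := ⟨V6_17449353216, [
  ⟨V5_17348689920, nat_lit 10, [(nat_lit 66, nat_lit 17449353216),
  (nat_lit 56, nat_lit 18506317824), (nat_lit 76, nat_lit 19563282432),
  (nat_lit 51, nat_lit 20620247040), (nat_lit 71, nat_lit 21677211648),
  (nat_lit 61, nat_lit 22734176256), (nat_lit 82, nat_lit 23791140864)]⟩], [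
  W6_17414750208, W6_17398235136, W6_17381720064, W6_17365204992, W6_17348689920]⟩

theorem F6_17449353216_chk : fwdChk 6 ks6 F6_17449353216 = true := by decide +kernel

noncomputable def F6_17448837120 : Fwd := ⟨V6_17448837120, [
  ⟨V5_17348173824, nat_lit 7, [(nat_lit 17, nat_lit 17448837120),
  (nat_lit 76, nat_lit 18505801728), (nat_lit 85, nat_lit 19562766336),
  (nat_lit 42, nat_lit 20619730944), (nat_lit 51, nat_lit 21676695552),
  (nat_lit 110, nat_lit 22733660160), (nat_lit 75, nat_lit 23790624768)]⟩], [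
  W6_17381720064, W6_17364946944, W6_17348173824]⟩

theorem F6_17448837120_chk : fwdChk 6 ks6 F6_17448837120 = true := by decide +kernel

noncomputable def F6_17448570945 : Fwd := ⟨V6_17448570945, [
  ⟨V5_17364684864, nat_lit 1, [(nat_lit 57, nat_lit 17448570945),
  (nat_lit 87, nat_lit 18522312768), (nat_lit 104, nat_lit 18505535553),
  (nat_lit 35, nat_lit 19579277376), (nat_lit 70, nat_lit 19562500161),
  (nat_lit 100, nat_lit 20636241984), (nat_lit 49, nat_lit 20619464769),
  (nat_lit 87, nat_lit 21693206592), (nat_lit 103, nat_lit 21676429377),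
  (nat_lit 34, nat_lit 22750171200), (nat_lit 72, nat_lit 22733393985),
  (nat_lit 3, nat_lit 23807135808)]⟩], [
  W6_17364684864]⟩

theorem F6_17448570945_chk : fwdChk 6 ks6 F6_17448570945 = true := by decide +kernel

noncomputable def F6_17415282753 : Fwd := ⟨V6_17415282753, [
  ⟨V5_15234240576, nat_lit 1, [(nat_lit 104, nat_lit 17415282753),
  (nat_lit 18, nat_lit 18489024576), (nat_lit 34, nat_lit 18489020481),
  (nat_lit 52, nat_lit 18472247361), (nat_lit 17, nat_lit 19562762304),
  (nat_lit 13, nat_lit 19545989184), (nat_lit 49, nat_lit 19545985089),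
  (nat_lit 77, nat_lit 19529211969), (nat_lit 113, nat_lit 20619726912),
  (nat_lit 102, nat_lit 20602953792), (nat_lit 114, nat_lit 20602949697),
  (nat_lit 80, nat_lit 21676691520)]⟩], [
  W6_17348169792, W6_17331396672, W6_16291205184, W6_16274432064, W6_15234240576, W6_15217467456]⟩

theorem F6_17415282753_chk : fwdChk 6 ks6 F6_17415282753 = true := by decide +kernel

noncomputable def F6_17399549952 : Fwd := ⟨V6_17399549952, [
  ⟨V5_14127992832, nat_lit 12, [(nat_lit 121, nat_lit 17399549952),
  (nat_lit 29, nat_lit 18456514560), (nat_lit 75, nat_lit 19513479168),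
  (nat_lit 80, nat_lit 20570443776)]⟩,
  ⟨V5_15184957440, nat_lit 13, [(nat_lit 89, nat_lit 17399549952),
  (nat_lit 10, nat_lit 18456514560), (nat_lit 56, nat_lit 19513479168),
  (nat_lit 21, nat_lit 20570443776), (nat_lit 88, nat_lit 21627408384)]⟩,
  ⟨V5_17298886656, nat_lit 9, [(nat_lit 75, nat_lit 17399549952),
  (nat_lit 21, nat_lit 18456514560), (nat_lit 115, nat_lit 19513479168),
  (nat_lit 50, nat_lit 20570443776), (nat_lit 118, nat_lit 21627408384),
  (nat_lit 54, nat_lit 22684372992), (nat_lit 30, nat_lit 23741337600)]⟩,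
  ⟨V5_16241922048, nat_lit 12, [(nat_lit 82, nat_lit 17399549952),
  (nat_lit 8, nat_lit 18456514560), (nat_lit 74, nat_lit 19513479168),
  (nat_lit 56, nat_lit 20570443776), (nat_lit 106, nat_lit 21627408384),
  (nat_lit 71, nat_lit 22684372992)]⟩,
  ⟨V5_14177538048, nat_lit 3, [(nat_lit 33, nat_lit 17399549952),
  (nat_lit 78, nat_lit 18473029632), (nat_lit 35, nat_lit 19546509312),
  (nat_lit 62, nat_lit 20619988992)]⟩,
  ⟨V5_14144507904, nat_lit 7, [(nat_lit 8, nat_lit 17399549952),
  (nat_lit 74, nat_lit 18473029632), (nat_lit 98, nat_lit 18456514560),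
  (nat_lit 46, nat_lit 19529994240), (nat_lit 66, nat_lit 19513479168),
  (nat_lit 111, nat_lit 20586958848)]⟩,
  ⟨V5_15251017728, nat_lit 3, [(nat_lit 77, nat_lit 17399549952),
  (nat_lit 105, nat_lit 18473029632), (nat_lit 35, nat_lit 19546509312),
  (nat_lit 66, nat_lit 20619988992), (nat_lit 62, nat_lit 21693468672)]⟩,
  ⟨V5_16324497408, nat_lit 1, [(nat_lit 38, nat_lit 17399549952),
  (nat_lit 103, nat_lit 18473029632), (nat_lit 23, nat_lit 19546509312),
  (nat_lit 124, nat_lit 20619988992), (nat_lit 41, nat_lit 21693468672),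
  (nat_lit 60, nat_lit 22766948352)]⟩], [
  W6_17398235136, W6_17381720064, W6_17381462016, W6_17365204992, W6_17364946944, W6_17348689920,
  W6_17348431872, W6_17332174848, W6_17331916800, W6_17315659776, W6_17315401728, W6_17298886656,
  W6_16324755456, W6_16324497408, W6_16308240384, W6_16307982336, W6_16291725312, W6_16291467264,
  W6_16275210240, W6_16274952192, W6_16258695168, W6_16258437120, W6_16241922048, W6_15251275776,
  W6_15251017728, W6_15234760704, W6_15234502656, W6_15218245632, W6_15217987584, W6_15201730560,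
  W6_15201472512, W6_15184957440, W6_14177796096, W6_14177538048, W6_14161281024, W6_14161022976,
  W6_14144765952, W6_14144507904, W6_14127992832]⟩

theorem F6_17399549952_chk : fwdChk 6 ks6 F6_17399549952 = true := by decide +kernel

noncomputable def F6_17399025729 : Fwd := ⟨V6_17399025729, [
  ⟨V5_14144245824, nat_lit 4, [(nat_lit 43, nat_lit 17399025729),
  (nat_lit 123, nat_lit 18472767552), (nat_lit 23, nat_lit 18455990337),
  (nat_lit 105, nat_lit 19529732160), (nat_lit 58, nat_lit 19512954945),
  (nat_lit 13, nat_lit 20586696768)]⟩,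
  ⟨V5_14177275968, nat_lit 1, [(nat_lit 74, nat_lit 17399025729),
  (nat_lit 79, nat_lit 18472767552), (nat_lit 54, nat_lit 18472505409),
  (nat_lit 54, nat_lit 19546247232), (nat_lit 90, nat_lit 19545985089),
  (nat_lit 62, nat_lit 20619726912)]⟩], [
  W6_17364684864, W6_17348169792, W6_17331654720, W6_17315139648, W6_16291205184, W6_16274690112,
  W6_16258175040, W6_15234240576, W6_15217725504, W6_15201210432, W6_14177275968, W6_14160760896,
  W6_14144245824]⟩

theorem F6_17399025729_chk : fwdChk 6 ks6 F6_17399025729 = true := by decide +kernel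

noncomputable def F6_17383034880 : Fwd := ⟨V6_17383034880, [
  ⟨V5_13087801344, nat_lit 5, [(nat_lit 25, nat_lit 17383034880),
  (nat_lit 31, nat_lit 18456772608), (nat_lit 68, nat_lit 18456514560),
  (nat_lit 23, nat_lit 19530252288)]⟩,
  ⟨V5_13054513152, nat_lit 7, [(nat_lit 31, nat_lit 17383034880),
  (nat_lit 32, nat_lit 18439999488), (nat_lit 68, nat_lit 19496964096)]⟩,
  ⟨V5_14111477760, nat_lit 8, [(nat_lit 57, nat_lit 17383034880),
  (nat_lit 70, nat_lit 18439999488), (nat_lit 97, nat_lit 19496964096),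
  (nat_lit 5, nat_lit 20553928704)]⟩,
  ⟨V5_13071028224, nat_lit 6, [(nat_lit 71, nat_lit 17383034880),
  (nat_lit 126, nat_lit 18456514560), (nat_lit 25, nat_lit 18439999488),
  (nat_lit 51, nat_lit 19513479168)]⟩,
  ⟨V5_14161022976, nat_lit 6, [(nat_lit 93, nat_lit 17383034880),
  (nat_lit 68, nat_lit 18456514560), (nat_lit 119, nat_lit 19529994240),
  (nat_lit 14, nat_lit 20603473920)]⟩,
  ⟨V5_14127992832, nat_lit 12, [(nat_lit 71, nat_lit 17383034880),
  (nat_lit 39, nat_lit 18456514560), (nat_lit 100, nat_lit 18439999488),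
  (nat_lit 45, nat_lit 19513479168), (nat_lit 65, nat_lit 19496964096),
  (nat_lit 90, nat_lit 20570443776)]⟩,
  ⟨V5_16225406976, nat_lit 4, [(nat_lit 14, nat_lit 17383034880),
  (nat_lit 38, nat_lit 18439999488), (nat_lit 109, nat_lit 19496964096),
  (nat_lit 77, nat_lit 20553928704), (nat_lit 90, nat_lit 21610893312),
  (nat_lit 11, nat_lit 22667857920)]⟩,
  ⟨V5_15168442368, nat_lit 6, [(nat_lit 56, nat_lit 17383034880),
  (nat_lit 15, nat_lit 18439999488), (nat_lit 96, nat_lit 19496964096),
  (nat_lit 87, nat_lit 20553928704), (nat_lit 49, nat_lit 21610893312)]⟩,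
  ⟨V5_16307982336, nat_lit 4, [(nat_lit 42, nat_lit 17383034880),
  (nat_lit 79, nat_lit 18456514560), (nat_lit 91, nat_lit 19529994240),
  (nat_lit 49, nat_lit 20603473920), (nat_lit 110, nat_lit 21676953600),
  (nat_lit 76, nat_lit 22750433280)]⟩], [
  W6_17381720064, W6_17381462016, W6_17365204992, W6_17364946944, W6_17348689920, W6_17348431872,
  W6_17332174848, W6_17331916800, W6_17315659776, W6_17315401728, W6_17299144704, W6_17298886656,
  W6_16308240384, W6_16307982336, W6_16291725312, W6_16291467264, W6_16275210240, W6_16274952192,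
  W6_16258695168, W6_16258437120, W6_16242180096, W6_16241922048, W6_16225406976, W6_15234760704,
  W6_15234502656, W6_15218245632, W6_15217987584, W6_15201730560, W6_15201472512, W6_15185215488,
  W6_15184957440, W6_15168442368, W6_14161281024, W6_14161022976, W6_14144765952, W6_14144507904,
  W6_14128250880, W6_14127992832, W6_14111477760, W6_13087801344, W6_13087543296, W6_13071286272,
  W6_13071028224, W6_13054513152]⟩

theorem F6_17383034880_chk : fwdChk 6 ks6 F6_17383034880 = true := by decide +kernel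

noncomputable def F6_17382776832 : Fwd := ⟨V6_17382776832, [
  ⟨V5_13087801344, nat_lit 5, [(nat_lit 95, nat_lit 17382776832),
  (nat_lit 18, nat_lit 18456514560), (nat_lit 107, nat_lit 19530252288)]⟩,
  ⟨V5_17282113536, nat_lit 8, [(nat_lit 120, nat_lit 17382776832),
  (nat_lit 35, nat_lit 18439741440), (nat_lit 52, nat_lit 19496706048),
  (nat_lit 24, nat_lit 20553670656), (nat_lit 111, nat_lit 21610635264),
  (nat_lit 21, nat_lit 22667599872), (nat_lit 43, nat_lit 23724564480)]⟩,
  ⟨V5_13054255104, nat_lit 13, [(nat_lit 13, nat_lit 17382776832),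
  (nat_lit 38, nat_lit 18439741440), (nat_lit 49, nat_lit 19496706048)]⟩,
  ⟨V5_13087285248, nat_lit 5, [(nat_lit 55, nat_lit 17382776832),
  (nat_lit 30, nat_lit 18456256512), (nat_lit 72, nat_lit 19529736192)]⟩,
  ⟨V5_15168184320, nat_lit 16, [(nat_lit 86, nat_lit 17382776832),
  (nat_lit 82, nat_lit 18439741440), (nat_lit 93, nat_lit 19496706048),
  (nat_lit 120, nat_lit 20553670656), (nat_lit 107, nat_lit 21610635264)]⟩,
  ⟨V5_15234244608, nat_lit 5, [(nat_lit 105, nat_lit 17382776832),
  (nat_lit 97, nat_lit 18456256512), (nat_lit 117, nat_lit 19529736192),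
  (nat_lit 90, nat_lit 20603215872), (nat_lit 73, nat_lit 21676695552)]⟩,
  ⟨V5_14111219712, nat_lit 13, [(nat_lit 55, nat_lit 17382776832),
  (nat_lit 72, nat_lit 18439741440), (nat_lit 78, nat_lit 19496706048),
  (nat_lit 114, nat_lit 20553670656)]⟩,
  ⟨V5_13071028224, nat_lit 6, [(nat_lit 54, nat_lit 17382776832),
  (nat_lit 123, nat_lit 18456514560), (nat_lit 22, nat_lit 18439741440),
  (nat_lit 70, nat_lit 19513479168)]⟩,
  ⟨V5_15201730560, nat_lit 12, [(nat_lit 51, nat_lit 17382776832),
  (nat_lit 35, nat_lit 18456514560), (nat_lit 4, nat_lit 18439741440),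
  (nat_lit 59, nat_lit 19530252288), (nat_lit 77, nat_lit 19513479168),
  (nat_lit 124, nat_lit 19496706048), (nat_lit 115, nat_lit 20587216896),
  (nat_lit 14, nat_lit 20570443776), (nat_lit 15, nat_lit 21644181504)]⟩,
  ⟨V5_13070770176, nat_lit 7, [(nat_lit 118, nat_lit 17382776832),
  (nat_lit 115, nat_lit 18456256512), (nat_lit 38, nat_lit 18439741440),
  (nat_lit 87, nat_lit 19513221120)]⟩,
  ⟨V5_15234760704, nat_lit 9, [(nat_lit 79, nat_lit 17382776832),
  (nat_lit 48, nat_lit 18456514560), (nat_lit 35, nat_lit 18456256512),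
  (nat_lit 40, nat_lit 19530252288), (nat_lit 117, nat_lit 19529994240),
  (nat_lit 27, nat_lit 19529736192), (nat_lit 64, nat_lit 20603731968),
  (nat_lit 97, nat_lit 20603473920), (nat_lit 73, nat_lit 21677211648)]⟩,
  ⟨V5_14160764928, nat_lit 4, [(nat_lit 108, nat_lit 17382776832),
  (nat_lit 59, nat_lit 18456256512), (nat_lit 103, nat_lit 19529736192),
  (nat_lit 99, nat_lit 20603215872)]⟩], [
  W6_17381720064, W6_17365204992, W6_17364946944, W6_17348689920, W6_17348431872, W6_17348173824,
  W6_17332174848, W6_17331916800, W6_17331658752, W6_17315659776, W6_17315401728, W6_17315143680,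
  W6_17298886656, W6_17298628608, W6_17282113536, W6_16308240384, W6_16307982336, W6_16291725312,
  W6_16291467264, W6_16291209216, W6_16275210240, W6_16274952192, W6_16274694144, W6_16258695168,
  W6_16258437120, W6_16258179072, W6_16241922048, W6_16241664000, W6_16225148928, W6_15234760704,
  W6_15234502656, W6_15234244608, W6_15218245632, W6_15217987584, W6_15217729536, W6_15201730560,
  W6_15201472512, W6_15201214464, W6_15184957440, W6_15184699392, W6_15168184320, W6_14161281024,
  W6_14161022976, W6_14160764928, W6_14144765952, W6_14144507904, W6_14144249856, W6_14127992832,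
  W6_14127734784, W6_14111219712, W6_13087801344, W6_13087543296, W6_13087285248, W6_13071028224,
  W6_13070770176, W6_13054255104]⟩

theorem F6_17382776832_chk : fwdChk 6 ks6 F6_17382776832 = true := by decide +kernel

end Crest.Agent.R187.SN.Fwd
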