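import Crest.Agent.R187.SN.FwdDef
import Crest.Agent.R187.SN.TD.Ks
import Crest.Agent.R187.SN.TD.W6_0
import Crest.Agent.R187.SN.TD.W6_1
import Crest.Agent.R187.SN.TD.X5_0
import Crest.Agent.R187.SN.TD.X5_1
import Crest.Agent.R187.SN.TD.X6_4
import Crest.Agent.R187.SN.TD.X6_5

/-!
# Row 187, PLAN S, certificate E3: forward records of level `(6, 6)`, part 3

`F6_<key> : Fwd` = sources (table of level `(6, 5)`, number of rows, quadrature record) and
`W` tables of the table `V6_<key>`; each record is checked by the kernel.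
-/

set_option autoImplicit false
set_option Elab.async false
set_option maxRecDepth 100000

namespace Crest.Agent.R187.SN.Fwd

open Crest.Agent.R187.SN.Top

noncomputable def F6_17382510657 : Fwd := ⟨V6_17382510657, [
  ⟨V5_13070766144, nat_lit 3, [(nat_lit 77, nat_lit 17382510657),
  (nat_lit 92, nat_lit 18456252480), (nat_lit 23, nat_lit 18439475265),
  (nat_lit 38, nat_lit 19513217088)]⟩,
  ⟨V5_14144245824, nat_lit 4, [(nat_lit 124, nat_lit 17382510657),
  (nat_lit 60, nat_lit 18456252480), (nat_lit 111, nat_lit 18455990337),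
  (nat_lit 52, nat_lit 18439475265), (nat_lit 115, nat_lit 19529732160),
  (nat_lit 53, nat_lit 19513217088), (nat_lit 19, nat_lit 19512954945),
  (nat_lit 36, nat_lit 20586696768)]⟩,
  ⟨V5_17364684864, nat_lit 1, [(nat_lit 25, nat_lit 17382510657),
  (nat_lit 57, nat_lit 18456252480), (nat_lit 16, nat_lit 18455990337),
  (nat_lit 9, nat_lit 18439475265), (nat_lit 22, nat_lit 19529732160),
  (nat_lit 116, nat_lit 19529470017), (nat_lit 62, nat_lit 19513217088),
  (nat_lit 106, nat_lit 19512954945), (nat_lit 106, nat_lit 20603211840),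
  (nat_lit 36, nat_lit 20602949697), (nat_lit 34, nat_lit 20586696768),
  (nat_lit 55, nat_lit 20586434625), (nat_lit 112, nat_lit 21676691520),
  (nat_lit 97, nat_lit 21676429377), (nat_lit 38, nat_lit 21660176448),
  (nat_lit 26, nat_lit 21659914305), (nat_lit 98, nat_lit 22750171200),
  (nat_lit 113, nat_lit 22733656128), (nat_lit 54, nat_lit 22733393985),
  (nat_lit 53, nat_lit 23807135808)]⟩], [
  W6_17364684864, W6_17348169792, W6_17331654720, W6_17315139648, W6_17298624576, W6_16291205184,
  W6_16274690112, W6_16258175040, W6_16241659968, W6_15234240576, W6_15217725504, W6_15201210432,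
  W6_15184695360, W6_14160760896, W6_14144245824, W6_14127730752, W6_13070766144]⟩

theorem F6_17382510657_chk : fwdChk 6 ks6 F6_17382510657 = true := by decide +kernel

noncomputable def F6_17382260736 : Fwd := ⟨V6_17382260736, [
  ⟨V5_13053739008, nat_lit 6, [(nat_lit 18, nat_lit 17382260736),
  (nat_lit 121, nat_lit 18439225344), (nat_lit 19, nat_lit 19496189952)]⟩,
  ⟨V5_15234760704, nat_lit 9, [(nat_lit 90, nat_lit 17382260736),
  (nat_lit 25, nat_lit 18455998464), (nat_lit 126, nat_lit 19529736192),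
  (nat_lit 57, nat_lit 20603473920), (nat_lit 115, nat_lit 21677211648)]⟩,
  ⟨V5_13087285248, nat_lit 5, [(nat_lit 92, nat_lit 17382260736),
  (nat_lit 64, nat_lit 18455998464), (nat_lit 82, nat_lit 19529736192)]⟩,
  ⟨V5_14161022976, nat_lit 6, [(nat_lit 118, nat_lit 17382260736),
  (nat_lit 52, nat_lit 18455998464), (nat_lit 20, nat_lit 19529736192),
  (nat_lit 103, nat_lit 20603473920)]⟩,
  ⟨V5_17348689920, nat_lit 14, [(nat_lit 69, nat_lit 17382260736),
  (nat_lit 47, nat_lit 18455998464), (nat_lit 93, nat_lit 18439225344),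
  (nat_lit 34, nat_lit 19529736192), (nat_lit 53, nat_lit 19512963072),
  (nat_lit 15, nat_lit 19496189952), (nat_lit 117, nat_lit 20603473920),
  (nat_lit 7, nat_lit 20586700800), (nat_lit 55, nat_lit 20569927680),
  (nat_lit 20, nat_lit 21677211648), (nat_lit 101, nat_lit 21660438528),
  (nat_lit 10, nat_lit 21643665408), (nat_lit 13, nat_lit 22734176256),
  (nat_lit 20, nat_lit 22717403136), (nat_lit 37, nat_lit 23791140864)]⟩,
  ⟨V5_17281597440, nat_lit 1, [(nat_lit 78, nat_lit 17382260736),
  (nat_lit 118, nat_lit 18439225344), (nat_lit 110, nat_lit 19496189952),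
  (nat_lit 41, nat_lit 20553154560), (nat_lit 15, nat_lit 21610119168),
  (nat_lit 20, nat_lit 22667083776), (nat_lit 47, nat_lit 23724048384)]⟩], [
  W6_17348689920, W6_17331916800, W6_17315143680, W6_17298370560, W6_17281597440, W6_16291725312,
  W6_16274952192, W6_16258179072, W6_16241405952, W6_16224632832, W6_15234760704, W6_15217987584,
  W6_15201214464, W6_15184441344, W6_15167668224, W6_14161022976, W6_14144249856, W6_14127476736,
  W6_14110703616, W6_13087285248, W6_13070512128, W6_13053739008]⟩

theorem F6_17382260736_chk : fwdChk 6 ks6 F6_17382260736 = true := by decide +kernel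

noncomputable def F6_17381990529 : Fwd := ⟨V6_17381990529, [
  ⟨V5_13086761088, nat_lit 1, [(nat_lit 10, nat_lit 17381990529),
  (nat_lit 6, nat_lit 18455732352), (nat_lit 87, nat_lit 18455470209),
  (nat_lit 102, nat_lit 19529212032)]⟩,
  ⟨V5_13087023168, nat_lit 1, [(nat_lit 26, nat_lit 17381990529),
  (nat_lit 105, nat_lit 18455732352), (nat_lit 125, nat_lit 18455732289),
  (nat_lit 126, nat_lit 19529474112)]⟩,
  ⟨V5_14143987776, nat_lit 3, [(nat_lit 44, nat_lit 17381990529),
  (nat_lit 37, nat_lit 18455732352), (nat_lit 28, nat_lit 18455732289),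
  (nat_lit 126, nat_lit 18438955137), (nat_lit 16, nat_lit 19529474112),
  (nat_lit 103, nat_lit 19512696960), (nat_lit 72, nat_lit 19512696897),
  (nat_lit 18, nat_lit 20586438720)]⟩,
  ⟨V5_13070246016, nat_lit 1, [(nat_lit 49, nat_lit 17381990529),
  (nat_lit 47, nat_lit 18455732352), (nat_lit 107, nat_lit 18438955137),
  (nat_lit 105, nat_lit 19512696960)]⟩], [
  W6_17331396672, W6_17314881600, W6_17314619520, W6_17298104448, W6_16274432064, W6_16257916992,
  W6_16257654912, W6_16241139840, W6_15217467456, W6_15200952384, W6_15200690304, W6_15184175232,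
  W6_14160502848, W6_14143987776, W6_14127210624, W6_13087023168, W6_13086761088, W6_13070246016]⟩

theorem F6_17381990529_chk : fwdChk 6 ks6 F6_17381990529 = true := by decide +kernel

noncomputable def F6_17366777856 : Fwd := ⟨V6_17366777856, [
  ⟨V5_13054771200, nat_lit 5, [(nat_lit 57, nat_lit 17366777856),
  (nat_lit 108, nat_lit 18440257536), (nat_lit 69, nat_lit 18423742464),
  (nat_lit 117, nat_lit 19497222144)]⟩,
  ⟨V5_11981291520, nat_lit 1, [(nat_lit 27, nat_lit 17366777856),
  (nat_lit 105, nat_lit 18423742464)]⟩,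
  ⟨V5_17365204992, nat_lit 8, [(nat_lit 112, nat_lit 17366777856),
  (nat_lit 81, nat_lit 18440257536), (nat_lit 93, nat_lit 19513737216),
  (nat_lit 98, nat_lit 20587216896), (nat_lit 108, nat_lit 21660696576),
  (nat_lit 76, nat_lit 22734176256), (nat_lit 118, nat_lit 23807655936)]⟩,
  ⟨V5_13071286272, nat_lit 1, [(nat_lit 34, nat_lit 17366777856),
  (nat_lit 93, nat_lit 18440257536), (nat_lit 67, nat_lit 19513737216)]⟩], [
  W6_17365204992, W6_17348689920, W6_17332174848, W6_16291725312, W6_16275210240, W6_16258695168,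
  W6_15218245632, W6_15201730560, W6_15185215488, W6_14144765952, W6_14128250880, W6_14111735808,
  W6_13071286272, W6_13054771200, W6_11981291520]⟩

theorem F6_17366777856_chk : fwdChk 6 ks6 F6_17366777856 = true := by decide +kernel

noncomputable def F6_17366519808 : Fwd := ⟨V6_17366519808, [
  ⟨V5_11997548544, nat_lit 3, [(nat_lit 43, nat_lit 17366519808),
  (nat_lit 119, nat_lit 18439999488)]⟩,
  ⟨V5_13054771200, nat_lit 5, [(nat_lit 39, nat_lit 17366519808),
  (nat_lit 104, nat_lit 18440257536), (nat_lit 124, nat_lit 18423484416),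
  (nat_lit 55, nat_lit 19497222144)]⟩,
  ⟨V5_11981033472, nat_lit 3, [(nat_lit 108, nat_lit 17366519808),
  (nat_lit 39, nat_lit 18423484416)]⟩,
  ⟨V5_15168700416, nat_lit 5, [(nat_lit 58, nat_lit 17366519808),
  (nat_lit 77, nat_lit 18440257536), (nat_lit 110, nat_lit 18423484416),
  (nat_lit 110, nat_lit 19497222144), (nat_lit 52, nat_lit 19480449024),
  (nat_lit 99, nat_lit 20554186752), (nat_lit 103, nat_lit 20537413632),
  (nat_lit 32, nat_lit 21611151360)]⟩,
  ⟨V5_13071028224, nat_lit 6, [(nat_lit 100, nat_lit 17366519808),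
  (nat_lit 41, nat_lit 18439999488), (nat_lit 78, nat_lit 19513479168)]⟩,
  ⟨V5_15217987584, nat_lit 11, [(nat_lit 100, nat_lit 17366519808),
  (nat_lit 67, nat_lit 18439999488), (nat_lit 4, nat_lit 19513479168),
  (nat_lit 24, nat_lit 20586958848), (nat_lit 86, nat_lit 21660438528)]⟩,
  ⟨V5_17364946944, nat_lit 7, [(nat_lit 112, nat_lit 17366519808),
  (nat_lit 1, nat_lit 18439999488), (nat_lit 3, nat_lit 19513479168),
  (nat_lit 94, nat_lit 20586958848), (nat_lit 57, nat_lit 21660438528),
  (nat_lit 60, nat_lit 22733918208), (nat_lit 70, nat_lit 23807397888)]⟩,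
  ⟨V5_14144507904, nat_lit 9, [(nat_lit 124, nat_lit 17366519808),
  (nat_lit 75, nat_lit 18439999488), (nat_lit 77, nat_lit 19513479168),
  (nat_lit 119, nat_lit 20586958848)]⟩,
  ⟨V5_14094962688, nat_lit 4, [(nat_lit 79, nat_lit 17366519808),
  (nat_lit 98, nat_lit 18423484416), (nat_lit 78, nat_lit 19480449024),
  (nat_lit 42, nat_lit 20537413632)]⟩,
  ⟨V5_13037998080, nat_lit 3, [(nat_lit 111, nat_lit 17366519808),
  (nat_lit 118, nat_lit 18423484416), (nat_lit 89, nat_lit 19480449024)]⟩], [
  W6_17365204992, W6_17364946944, W6_17348689920, W6_17348431872, W6_17332174848, W6_17331916800,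
  W6_17315659776, W6_17315401728, W6_16291725312, W6_16291467264, W6_16275210240, W6_16274952192,
  W6_16258695168, W6_16258437120, W6_16242180096, W6_16241922048, W6_15218245632, W6_15217987584,
  W6_15201730560, W6_15201472512, W6_15185215488, W6_15184957440, W6_15168700416, W6_15168442368,
  W6_14144765952, W6_14144507904, W6_14128250880, W6_14127992832, W6_14111735808, W6_14111477760,
  W6_14094962688, W6_13071286272, W6_13071028224, W6_13054771200, W6_13054513152, W6_13037998080,
  W6_11997548544, W6_11981033472]⟩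

theorem F6_17366519808_chk : fwdChk 6 ks6 F6_17366519808 = true := by decide +kernel

noncomputable def F6_17366261760 : Fwd := ⟨V6_17366261760, [
  ⟨V5_11997548544, nat_lit 3, [(nat_lit 102, nat_lit 17366261760),
  (nat_lit 59, nat_lit 18439999488)]⟩,
  ⟨V5_11980775424, nat_lit 5, [(nat_lit 52, nat_lit 17366261760),
  (nat_lit 47, nat_lit 18423226368)]⟩,
  ⟨V5_13054255104, nat_lit 13, [(nat_lit 35, nat_lit 17366261760),
  (nat_lit 26, nat_lit 18439741440), (nat_lit 115, nat_lit 18423226368),
  (nat_lit 27, nat_lit 19496706048)]⟩,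
  ⟨V5_13070770176, nat_lit 7, [(nat_lit 14, nat_lit 17366261760),
  (nat_lit 26, nat_lit 18439741440), (nat_lit 119, nat_lit 19513221120)]⟩,
  ⟨V5_16291209216, nat_lit 5, [(nat_lit 126, nat_lit 17366261760),
  (nat_lit 110, nat_lit 18439741440), (nat_lit 19, nat_lit 19513221120),
  (nat_lit 20, nat_lit 20586700800), (nat_lit 76, nat_lit 21660180480),
  (nat_lit 101, nat_lit 22733660160)]⟩,
  ⟨V5_13054513152, nat_lit 7, [(nat_lit 104, nat_lit 17366261760),
  (nat_lit 60, nat_lit 18439999488), (nat_lit 55, nat_lit 18423226368),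
  (nat_lit 90, nat_lit 19496964096)]⟩,
  ⟨V5_17348173824, nat_lit 8, [(nat_lit 92, nat_lit 17366261760),
  (nat_lit 86, nat_lit 18439741440), (nat_lit 60, nat_lit 18423226368),
  (nat_lit 24, nat_lit 19513221120), (nat_lit 46, nat_lit 19496706048),
  (nat_lit 12, nat_lit 20586700800), (nat_lit 57, nat_lit 20570185728),
  (nat_lit 84, nat_lit 21660180480), (nat_lit 41, nat_lit 21643665408),
  (nat_lit 113, nat_lit 22733660160), (nat_lit 94, nat_lit 22717145088),
  (nat_lit 27, nat_lit 23790624768)]⟩,
  ⟨V5_14094704640, nat_lit 8, [(nat_lit 59, nat_lit 17366261760),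
  (nat_lit 33, nat_lit 18423226368), (nat_lit 47, nat_lit 19480190976),
  (nat_lit 123, nat_lit 20537155584)]⟩,
  ⟨V5_15168184320, nat_lit 16, [(nat_lit 116, nat_lit 17366261760),
  (nat_lit 16, nat_lit 18439741440), (nat_lit 19, nat_lit 18423226368),
  (nat_lit 2, nat_lit 19496706048), (nat_lit 5, nat_lit 19480190976),
  (nat_lit 83, nat_lit 20553670656), (nat_lit 102, nat_lit 20537155584),
  (nat_lit 57, nat_lit 21610635264)]⟩,
  ⟨V5_13071028224, nat_lit 6, [(nat_lit 54, nat_lit 17366261760),
  (nat_lit 31, nat_lit 18439999488), (nat_lit 122, nat_lit 18439741440),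
  (nat_lit 118, nat_lit 19513479168)]⟩,
  ⟨V5_14144249856, nat_lit 8, [(nat_lit 121, nat_lit 17366261760),
  (nat_lit 12, nat_lit 18439741440), (nat_lit 21, nat_lit 19513221120),
  (nat_lit 122, nat_lit 20586700800)]⟩,
  ⟨V5_11997290496, nat_lit 2, [(nat_lit 27, nat_lit 17366261760),
  (nat_lit 50, nat_lit 18439741440)]⟩,
  ⟨V5_13071286272, nat_lit 3, [(nat_lit 42, nat_lit 17366261760),
  (nat_lit 24, nat_lit 18439999488), (nat_lit 58, nat_lit 19513737216)]⟩,
  ⟨V5_17299144704, nat_lit 1, [(nat_lit 16, nat_lit 17366261760),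
  (nat_lit 68, nat_lit 18439999488), (nat_lit 110, nat_lit 18423226368),
  (nat_lit 32, nat_lit 19513737216), (nat_lit 56, nat_lit 19496964096),
  (nat_lit 49, nat_lit 19480190976), (nat_lit 28, nat_lit 20570701824),
  (nat_lit 61, nat_lit 20553928704), (nat_lit 22, nat_lit 20537155584),
  (nat_lit 8, nat_lit 21627666432), (nat_lit 23, nat_lit 21610893312),
  (nat_lit 97, nat_lit 21594120192), (nat_lit 27, nat_lit 22684631040),
  (nat_lit 66, nat_lit 22667857920), (nat_lit 38, nat_lit 23741595648)]⟩], [
  W6_17365204992, W6_17364946944, W6_17348689920, W6_17348431872, W6_17348173824, W6_17332174848,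
  W6_17331916800, W6_17331658752, W6_17315659776, W6_17315401728, W6_17315143680, W6_17299144704,
  W6_17298886656, W6_17298628608, W6_16291725312, W6_16291467264, W6_16291209216, W6_16275210240,
  W6_16274952192, W6_16274694144, W6_16258695168, W6_16258437120, W6_16258179072, W6_16242180096,
  W6_16241922048, W6_16241664000, W6_16225406976, W6_16225148928, W6_15218245632, W6_15217987584,
  W6_15217729536, W6_15201730560, W6_15201472512, W6_15201214464, W6_15185215488, W6_15184957440,
  W6_15184699392, W6_15168442368, W6_15168184320, W6_15151669248, W6_14144765952, W6_14144507904,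
  W6_14144249856, W6_14128250880, W6_14127992832, W6_14127734784, W6_14111477760, W6_14111219712,
  W6_14094704640, W6_13071286272, W6_13071028224, W6_13070770176, W6_13054513152, W6_13054255104,
  W6_13037740032, W6_11997548544, W6_11997290496, W6_11980775424]⟩

theorem F6_17366261760_chk : fwdChk 6 ks6 F6_17366261760 = true := by decide +kernel

noncomputable def F6_17366003712 : Fwd := ⟨V6_17366003712, [
  ⟨V5_11980517376, nat_lit 6, [(nat_lit 93, nat_lit 17366003712),
  (nat_lit 23, nat_lit 18422968320)]⟩,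
  ⟨V5_13054255104, nat_lit 13, [(nat_lit 63, nat_lit 17366003712),
  (nat_lit 81, nat_lit 18439741440), (nat_lit 31, nat_lit 18422968320),
  (nat_lit 65, nat_lit 19496706048)]⟩,
  ⟨V5_15201730560, nat_lit 12, [(nat_lit 42, nat_lit 17366003712),
  (nat_lit 62, nat_lit 18439741440), (nat_lit 45, nat_lit 18422968320),
  (nat_lit 30, nat_lit 19513479168), (nat_lit 66, nat_lit 19496706048),
  (nat_lit 97, nat_lit 20587216896), (nat_lit 66, nat_lit 20570443776),
  (nat_lit 41, nat_lit 21644181504)]⟩,
  ⟨V5_13071028224, nat_lit 6, [(nat_lit 113, nat_lit 17366003712),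
  (nat_lit 87, nat_lit 18439741440), (nat_lit 85, nat_lit 19513479168)]⟩,
  ⟨V5_13037481984, nat_lit 11, [(nat_lit 113, nat_lit 17366003712),
  (nat_lit 8, nat_lit 18422968320), (nat_lit 62, nat_lit 19479932928)]⟩,
  ⟨V5_11997032448, nat_lit 3, [(nat_lit 10, nat_lit 17366003712),
  (nat_lit 63, nat_lit 18439483392)]⟩,
  ⟨V5_14144765952, nat_lit 6, [(nat_lit 30, nat_lit 17366003712),
  (nat_lit 103, nat_lit 18439741440), (nat_lit 61, nat_lit 19513479168),
  (nat_lit 4, nat_lit 20587216896)]⟩,
  ⟨V5_16208375808, nat_lit 7, [(nat_lit 62, nat_lit 17366003712),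
  (nat_lit 87, nat_lit 18422968320), (nat_lit 60, nat_lit 19479932928),
  (nat_lit 38, nat_lit 20536897536), (nat_lit 61, nat_lit 21593862144),
  (nat_lit 87, nat_lit 22650826752)]⟩,
  ⟨V5_17282113536, nat_lit 8, [(nat_lit 14, nat_lit 17366003712),
  (nat_lit 98, nat_lit 18439741440), (nat_lit 61, nat_lit 18422968320),
  (nat_lit 126, nat_lit 19496706048), (nat_lit 86, nat_lit 19479932928),
  (nat_lit 125, nat_lit 20553670656), (nat_lit 41, nat_lit 20536897536),
  (nat_lit 125, nat_lit 21610635264), (nat_lit 66, nat_lit 21593862144),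
  (nat_lit 109, nat_lit 22667599872), (nat_lit 113, nat_lit 22650826752),
  (nat_lit 124, nat_lit 23724564480)]⟩,
  ⟨V5_14094446592, nat_lit 12, [(nat_lit 52, nat_lit 17366003712),
  (nat_lit 42, nat_lit 18422968320), (nat_lit 106, nat_lit 19479932928),
  (nat_lit 18, nat_lit 20536897536)]⟩,
  ⟨V5_14127992832, nat_lit 12, [(nat_lit 2, nat_lit 17366003712),
  (nat_lit 60, nat_lit 18439741440), (nat_lit 28, nat_lit 18422968320),
  (nat_lit 75, nat_lit 19513479168), (nat_lit 48, nat_lit 19496706048),
  (nat_lit 124, nat_lit 20570443776)]⟩,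
  ⟨V5_17315659776, nat_lit 12, [(nat_lit 66, nat_lit 17366003712),
  (nat_lit 10, nat_lit 18439741440), (nat_lit 37, nat_lit 18422968320),
  (nat_lit 115, nat_lit 19513479168), (nat_lit 52, nat_lit 19496706048),
  (nat_lit 105, nat_lit 19479932928), (nat_lit 63, nat_lit 20587216896),
  (nat_lit 59, nat_lit 20570443776), (nat_lit 37, nat_lit 20553670656),
  (nat_lit 56, nat_lit 20536897536), (nat_lit 38, nat_lit 21644181504),
  (nat_lit 110, nat_lit 21627408384), (nat_lit 48, nat_lit 21610635264),
  (nat_lit 117, nat_lit 22701146112), (nat_lit 93, nat_lit 22684372992),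
  (nat_lit 17, nat_lit 23758110720)]⟩,
  ⟨V5_13070512128, nat_lit 4, [(nat_lit 74, nat_lit 17366003712),
  (nat_lit 75, nat_lit 18439483392), (nat_lit 53, nat_lit 19512963072)]⟩,
  ⟨V5_11997290496, nat_lit 2, [(nat_lit 63, nat_lit 17366003712),
  (nat_lit 19, nat_lit 18439741440)]⟩], [
  W6_17365204992, W6_17348689920, W6_17348431872, W6_17332174848, W6_17331916800, W6_17331658752,
  W6_17315659776, W6_17315401728, W6_17315143680, W6_17314885632, W6_17298886656, W6_17298628608,
  W6_17298370560, W6_17282113536, W6_17281855488, W6_16291725312, W6_16291467264, W6_16275210240,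
  W6_16274952192, W6_16274694144, W6_16258695168, W6_16258437120, W6_16258179072, W6_16257921024,
  W6_16241922048, W6_16241664000, W6_16241405952, W6_16225148928, W6_16224890880, W6_16208375808,
  W6_15218245632, W6_15217987584, W6_15217729536, W6_15201730560, W6_15201472512, W6_15201214464,
  W6_15200956416, W6_15184957440, W6_15184699392, W6_15184441344, W6_15168184320, W6_15167926272,
  W6_15151411200, W6_14144765952, W6_14144507904, W6_14144249856, W6_14143991808, W6_14127992832,
  W6_14127734784, W6_14127476736, W6_14111219712, W6_14110961664, W6_14094446592, W6_13071028224,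
  W6_13070770176, W6_13070512128, W6_13054255104, W6_13053997056, W6_13037481984, W6_11997290496,
  W6_11997032448, W6_11980517376]⟩

theorem F6_17366003712_chk : fwdChk 6 ks6 F6_17366003712 = true := by decide +kernel

noncomputable def F6_17365995585 : Fwd := ⟨V6_17365995585, [
  ⟨V5_11997286464, nat_lit 3, [(nat_lit 65, nat_lit 17365995585),
  (nat_lit 8, nat_lit 18439737408)]⟩,
  ⟨V5_13070766144, nat_lit 3, [(nat_lit 83, nat_lit 17365995585),
  (nat_lit 114, nat_lit 18439737408), (nat_lit 50, nat_lit 18439475265),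
  (nat_lit 118, nat_lit 19513217088)]⟩,
  ⟨V5_14144245824, nat_lit 4, [(nat_lit 38, nat_lit 17365995585),
  (nat_lit 113, nat_lit 18439737408), (nat_lit 102, nat_lit 18439475265),
  (nat_lit 71, nat_lit 19513217088), (nat_lit 75, nat_lit 19512954945),
  (nat_lit 108, nat_lit 20586696768)]⟩], [
  W6_17364684864, W6_17348169792, W6_17331654720, W6_17315139648, W6_17298624576, W6_16291205184,
  W6_16274690112, W6_16258175040, W6_16241659968, W6_16225144896, W6_15217725504, W6_15201210432,
  W6_15184695360, W6_15168180288, W6_14144245824, W6_14127730752, W6_14111215680, W6_13070766144,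
  W6_13054251072, W6_11997286464]⟩

theorem F6_17365995585_chk : fwdChk 6 ks6 F6_17365995585 = true := by decide +kernel

noncomputable def F6_17365737600 : Fwd := ⟨V6_17365737600, [
  ⟨V5_13070770176, nat_lit 7, [(nat_lit 17, nat_lit 17365737600),
  (nat_lit 122, nat_lit 18439479360), (nat_lit 113, nat_lit 19513221120)]⟩,
  ⟨V5_14127734784, nat_lit 12, [(nat_lit 28, nat_lit 17365737600),
  (nat_lit 33, nat_lit 18439479360), (nat_lit 113, nat_lit 18422702208),
  (nat_lit 107, nat_lit 19513221120), (nat_lit 42, nat_lit 19496443968),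
  (nat_lit 86, nat_lit 20570185728)]⟩,
  ⟨V5_14144249856, nat_lit 8, [(nat_lit 123, nat_lit 17365737600),
  (nat_lit 112, nat_lit 18439479360), (nat_lit 4, nat_lit 18439217280),
  (nat_lit 5, nat_lit 19513221120), (nat_lit 95, nat_lit 19512959040),
  (nat_lit 40, nat_lit 20586700800)]⟩,
  ⟨V5_11997028416, nat_lit 2, [(nat_lit 25, nat_lit 17365737600),
  (nat_lit 23, nat_lit 18439479360)]⟩,
  ⟨V5_15201214464, nat_lit 13, [(nat_lit 26, nat_lit 17365737600),
  (nat_lit 53, nat_lit 18439479360), (nat_lit 117, nat_lit 18439217280),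
  (nat_lit 83, nat_lit 18422702208), (nat_lit 117, nat_lit 19513221120),
  (nat_lit 50, nat_lit 19512959040), (nat_lit 72, nat_lit 19496443968),
  (nat_lit 36, nat_lit 19496181888), (nat_lit 106, nat_lit 20586700800),
  (nat_lit 126, nat_lit 20570185728), (nat_lit 31, nat_lit 20569923648),
  (nat_lit 5, nat_lit 21643665408)]⟩,
  ⟨V5_16291209216, nat_lit 5, [(nat_lit 89, nat_lit 17365737600),
  (nat_lit 78, nat_lit 18439479360), (nat_lit 86, nat_lit 18439217280),
  (nat_lit 65, nat_lit 19513221120), (nat_lit 25, nat_lit 19512959040),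
  (nat_lit 66, nat_lit 19512696960), (nat_lit 94, nat_lit 20586700800),
  (nat_lit 50, nat_lit 20586438720), (nat_lit 42, nat_lit 20586176640),
  (nat_lit 90, nat_lit 21660180480), (nat_lit 56, nat_lit 21659918400),
  (nat_lit 11, nat_lit 22733660160)]⟩,
  ⟨V5_15200690304, nat_lit 2, [(nat_lit 14, nat_lit 17365737600),
  (nat_lit 8, nat_lit 18439217280), (nat_lit 43, nat_lit 18422702208),
  (nat_lit 96, nat_lit 19512696960), (nat_lit 78, nat_lit 19496181888),
  (nat_lit 118, nat_lit 20586176640), (nat_lit 80, nat_lit 20569661568),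
  (nat_lit 44, nat_lit 21643141248)]⟩], [
  W6_17348173824, W6_17331658752, W6_17331396672, W6_17315143680, W6_17314881600, W6_17314619520,
  W6_17298628608, W6_17298366528, W6_17298104448, W6_17281851456, W6_17281589376, W6_16291209216,
  W6_16274694144, W6_16274432064, W6_16258179072, W6_16257916992, W6_16257654912, W6_16241664000,
  W6_16241401920, W6_16241139840, W6_16224886848, W6_16224624768, W6_16208109696, W6_15217729536,
  W6_15217467456, W6_15201214464, W6_15200952384, W6_15200690304, W6_15184699392, W6_15184437312,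
  W6_15184175232, W6_15167922240, W6_15167660160, W6_15151145088, W6_14144249856, W6_14143987776,
  W6_14127734784, W6_14127472704, W6_14127210624, W6_14110957632, W6_14110695552, W6_14094180480,
  W6_13070770176, W6_13070508096, W6_13070246016, W6_13053993024, W6_13053730944, W6_13037215872,
  W6_11997028416, W6_11980251264]⟩

theorem F6_17365737600_chk : fwdChk 6 ks6 F6_17365737600 = true := by decide +kernel

noncomputable def F6_17365483584 : Fwd := ⟨V6_17365483584, [
  ⟨V5_13053739008, nat_lit 6, [(nat_lit 5, nat_lit 17365483584),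
  (nat_lit 104, nat_lit 18439225344), (nat_lit 18, nat_lit 18422448192),
  (nat_lit 119, nat_lit 19496189952)]⟩,
  ⟨V5_15217987584, nat_lit 11, [(nat_lit 103, nat_lit 17365483584),
  (nat_lit 94, nat_lit 18439225344), (nat_lit 89, nat_lit 18439221312),
  (nat_lit 12, nat_lit 19512963072), (nat_lit 99, nat_lit 19512959040),
  (nat_lit 30, nat_lit 20586700800), (nat_lit 54, nat_lit 20586696768),
  (nat_lit 68, nat_lit 21660438528)]⟩,
  ⟨V5_14144249856, nat_lit 8, [(nat_lit 104, nat_lit 17365483584),
  (nat_lit 60, nat_lit 18439225344), (nat_lit 59, nat_lit 18439221312),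
  (nat_lit 7, nat_lit 19512963072), (nat_lit 77, nat_lit 19512959040),
  (nat_lit 24, nat_lit 20586700800)]⟩,
  ⟨V5_14144245824, nat_lit 4, [(nat_lit 40, nat_lit 17365483584),
  (nat_lit 37, nat_lit 18439221312), (nat_lit 24, nat_lit 19512959040),
  (nat_lit 22, nat_lit 20586696768)]⟩,
  ⟨V5_11996770368, nat_lit 2, [(nat_lit 71, nat_lit 17365483584),
  (nat_lit 35, nat_lit 18439221312)]⟩,
  ⟨V5_15167668224, nat_lit 8, [(nat_lit 54, nat_lit 17365483584),
  (nat_lit 121, nat_lit 18439225344), (nat_lit 125, nat_lit 18422448192),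
  (nat_lit 120, nat_lit 19496189952), (nat_lit 4, nat_lit 19479412800),
  (nat_lit 126, nat_lit 20553154560), (nat_lit 76, nat_lit 20536377408),
  (nat_lit 20, nat_lit 21610119168)]⟩,
  ⟨V5_11979997248, nat_lit 2, [(nat_lit 98, nat_lit 17365483584),
  (nat_lit 113, nat_lit 18422448192)]⟩,
  ⟨V5_17264820288, nat_lit 1, [(nat_lit 117, nat_lit 17365483584),
  (nat_lit 124, nat_lit 18422448192), (nat_lit 78, nat_lit 19479412800),
  (nat_lit 91, nat_lit 20536377408), (nat_lit 37, nat_lit 21593342016),
  (nat_lit 102, nat_lit 22650306624), (nat_lit 122, nat_lit 23707271232)]⟩], [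
  W6_17331916800, W6_17315143680, W6_17315139648, W6_17298370560, W6_17298366528, W6_17281597440,
  W6_17281593408, W6_17264820288, W6_16274952192, W6_16258179072, W6_16258175040, W6_16241405952,
  W6_16241401920, W6_16224632832, W6_16224628800, W6_16207855680, W6_15217987584, W6_15201214464,
  W6_15201210432, W6_15184441344, W6_15184437312, W6_15167668224, W6_15167664192, W6_15150891072,
  W6_14144249856, W6_14144245824, W6_14127476736, W6_14127472704, W6_14110703616, W6_14110699584,
  W6_14093926464, W6_13070512128, W6_13070508096, W6_13053739008, W6_13053734976, W6_13036961856,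
  W6_11996770368, W6_11979997248]⟩

theorem F6_17365483584_chk : fwdChk 6 ks6 F6_17365483584 = true := by decide +kernel

noncomputable def F6_17365217472 : Fwd := ⟨V6_17365217472, [
  ⟨V5_14143991808, nat_lit 2, [(nat_lit 5, nat_lit 17365217472),
  (nat_lit 73, nat_lit 18438959232), (nat_lit 56, nat_lit 19512700992),
  (nat_lit 2, nat_lit 20586442752)]⟩], [
  W6_17314885632, W6_17298108480, W6_16257921024, W6_16241143872, W6_15200956416, W6_15184179264,
  W6_14143991808, W6_14127214656, W6_14110437504, W6_13070250048]⟩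

theorem F6_17365217472_chk : fwdChk 6 ks6 F6_17365217472 = true := by decide +kernel

noncomputable def F6_17350262784 : Fwd := ⟨V6_17350262784, [
  ⟨V5_17348689920, nat_lit 11, [(nat_lit 76, nat_lit 17350262784),
  (nat_lit 18, nat_lit 18423742464), (nat_lit 23, nat_lit 19497222144),
  (nat_lit 26, nat_lit 20570701824), (nat_lit 125, nat_lit 21644181504),
  (nat_lit 32, nat_lit 22717661184), (nat_lit 116, nat_lit 23791140864)]⟩,
  ⟨V5_10907811840, nat_lit 1, [(nat_lit 92, nat_lit 17350262784)]⟩,
  ⟨V5_11981291520, nat_lit 1, [(nat_lit 121, nat_lit 17350262784),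
  (nat_lit 2, nat_lit 18423742464)]⟩], [
  W6_17348689920, W6_16275210240, W6_15201730560, W6_14128250880, W6_13054771200, W6_11981291520,
  W6_10907811840]⟩

theorem F6_17350262784_chk : fwdChk 6 ks6 F6_17350262784 = true := by decide +kernel

noncomputable def F6_17349746688 : Fwd := ⟨V6_17349746688, [
  ⟨V5_10907295744, nat_lit 3, [(nat_lit 12, nat_lit 17349746688)]⟩,
  ⟨V5_17348173824, nat_lit 8, [(nat_lit 55, nat_lit 17349746688),
  (nat_lit 81, nat_lit 18423226368), (nat_lit 116, nat_lit 19496706048),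
  (nat_lit 121, nat_lit 20570185728), (nat_lit 45, nat_lit 21643665408),
  (nat_lit 34, nat_lit 22717145088), (nat_lit 82, nat_lit 23790624768)]⟩,
  ⟨V5_13054771200, nat_lit 5, [(nat_lit 30, nat_lit 17349746688),
  (nat_lit 126, nat_lit 18423484416), (nat_lit 114, nat_lit 19497222144)]⟩,
  ⟨V5_13054255104, nat_lit 13, [(nat_lit 72, nat_lit 17349746688),
  (nat_lit 60, nat_lit 18423226368), (nat_lit 46, nat_lit 19496706048)]⟩,
  ⟨V5_13021224960, nat_lit 6, [(nat_lit 50, nat_lit 17349746688),
  (nat_lit 26, nat_lit 18406711296), (nat_lit 93, nat_lit 19463675904)]⟩,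
  ⟨V5_15201214464, nat_lit 15, [(nat_lit 108, nat_lit 17349746688),
  (nat_lit 113, nat_lit 18423226368), (nat_lit 111, nat_lit 19496706048),
  (nat_lit 31, nat_lit 20570185728), (nat_lit 37, nat_lit 21643665408)]⟩,
  ⟨V5_15168700416, nat_lit 5, [(nat_lit 36, nat_lit 17349746688),
  (nat_lit 79, nat_lit 18423484416), (nat_lit 73, nat_lit 18406711296),
  (nat_lit 101, nat_lit 19497222144), (nat_lit 15, nat_lit 19480449024),
  (nat_lit 22, nat_lit 19463675904), (nat_lit 75, nat_lit 20554186752),
  (nat_lit 97, nat_lit 20537413632), (nat_lit 64, nat_lit 21611151360)]⟩,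
  ⟨V5_11980775424, nat_lit 5, [(nat_lit 9, nat_lit 17349746688),
  (nat_lit 19, nat_lit 18423226368)]⟩,
  ⟨V5_11981033472, nat_lit 3, [(nat_lit 44, nat_lit 17349746688),
  (nat_lit 13, nat_lit 18423484416)]⟩,
  ⟨V5_17348689920, nat_lit 14, [(nat_lit 117, nat_lit 17349746688),
  (nat_lit 123, nat_lit 18423484416), (nat_lit 55, nat_lit 18423226368),
  (nat_lit 21, nat_lit 19497222144), (nat_lit 123, nat_lit 19496964096),
  (nat_lit 5, nat_lit 19496706048), (nat_lit 106, nat_lit 20570701824),
  (nat_lit 91, nat_lit 20570443776), (nat_lit 25, nat_lit 20570185728),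
  (nat_lit 69, nat_lit 21644181504), (nat_lit 3, nat_lit 21643923456),
  (nat_lit 65, nat_lit 21643665408), (nat_lit 34, nat_lit 22717661184),
  (nat_lit 115, nat_lit 22717403136), (nat_lit 70, nat_lit 23791140864)]⟩,
  ⟨V5_11964260352, nat_lit 3, [(nat_lit 81, nat_lit 17349746688),
  (nat_lit 75, nat_lit 18406711296)]⟩], [
  W6_17348689920, W6_17348431872, W6_17348173824, W6_17332174848, W6_17331916800, W6_17331658752,
  W6_17315659776, W6_17315401728, W6_17315143680, W6_16275210240, W6_16274952192, W6_16274694144,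
  W6_16258695168, W6_16258437120, W6_16258179072, W6_16242180096, W6_16241922048, W6_16241664000,
  W6_15201730560, W6_15201472512, W6_15201214464, W6_15185215488, W6_15184957440, W6_15184699392,
  W6_15168700416, W6_15168442368, W6_15168184320, W6_14128250880, W6_14127992832, W6_14127734784,
  W6_14111735808, W6_14111477760, W6_14111219712, W6_14094962688, W6_14094704640, W6_13054771200,
  W6_13054513152, W6_13054255104, W6_13037998080, W6_13037740032, W6_13021224960, W6_11981033472,
  W6_11980775424, W6_11964260352, W6_10907295744]⟩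

theorem F6_17349746688_chk : fwdChk 6 ks6 F6_17349746688 = true := by decide +kernel

noncomputable def F6_17349742656 : Fwd := ⟨V6_17349742656, [
  ⟨V5_11981033472, nat_lit 3, [(nat_lit 58, nat_lit 17349742656),
  (nat_lit 61, nat_lit 18423484416)]⟩,
  ⟨V5_13054513152, nat_lit 7, [(nat_lit 119, nat_lit 17349742656),
  (nat_lit 90, nat_lit 18423484416), (nat_lit 1, nat_lit 18423222336),
  (nat_lit 66, nat_lit 19496964096)]⟩,
  ⟨V5_14127992832, nat_lit 12, [(nat_lit 118, nat_lit 17349742656),
  (nat_lit 31, nat_lit 18423484416), (nat_lit 82, nat_lit 18423222336),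
  (nat_lit 22, nat_lit 19496964096), (nat_lit 1, nat_lit 19496702016),
  (nat_lit 40, nat_lit 20570443776)]⟩,
  ⟨V5_14094962688, nat_lit 4, [(nat_lit 112, nat_lit 17349742656),
  (nat_lit 10, nat_lit 18423484416), (nat_lit 48, nat_lit 18406707264),
  (nat_lit 93, nat_lit 19480449024), (nat_lit 124, nat_lit 19463671872),
  (nat_lit 88, nat_lit 20537413632)]⟩,
  ⟨V5_13037998080, nat_lit 2, [(nat_lit 56, nat_lit 17349742656),
  (nat_lit 25, nat_lit 18423484416), (nat_lit 9, nat_lit 18406707264),
  (nat_lit 111, nat_lit 19480449024)]⟩,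
  ⟨V5_11964256320, nat_lit 2, [(nat_lit 64, nat_lit 17349742656),
  (nat_lit 111, nat_lit 18406707264)]⟩,
  ⟨V5_11980771392, nat_lit 1, [(nat_lit 9, nat_lit 17349742656),
  (nat_lit 19, nat_lit 18423222336)]⟩,
  ⟨V5_13037736000, nat_lit 1, [(nat_lit 70, nat_lit 17349742656),
  (nat_lit 90, nat_lit 18423222336), (nat_lit 92, nat_lit 18406707264),
  (nat_lit 124, nat_lit 19480186944)]⟩], [
  W6_17348431872, W6_17348169792, W6_17331916800, W6_17331654720, W6_17315401728, W6_17315139648,
  W6_16274952192, W6_16274690112, W6_16258437120, W6_16258175040, W6_16241922048, W6_16241659968,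
  W6_15201472512, W6_15201210432, W6_15184957440, W6_15184695360, W6_15168442368, W6_15168180288,
  W6_14127992832, W6_14127730752, W6_14111477760, W6_14111215680, W6_14094962688, W6_14094700608,
  W6_13054513152, W6_13054251072, W6_13037998080, W6_13037736000, W6_11981033472, W6_11980771392,
  W6_11964256320]⟩

theorem F6_17349742656_chk : fwdChk 6 ks6 F6_17349742656 = true := by decide +kernel

noncomputable def F6_17348972544 : Fwd := ⟨V6_17348972544, [
  ⟨V5_16275210240, nat_lit 11, [(nat_lit 46, nat_lit 17348972544),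
  (nat_lit 97, nat_lit 18422710272), (nat_lit 116, nat_lit 19496448000),
  (nat_lit 62, nat_lit 20570185728), (nat_lit 43, nat_lit 21643923456),
  (nat_lit 3, nat_lit 22717661184)]⟩,
  ⟨V5_15201472512, nat_lit 13, [(nat_lit 75, nat_lit 17348972544),
  (nat_lit 14, nat_lit 18422710272), (nat_lit 102, nat_lit 19496448000),
  (nat_lit 71, nat_lit 20570185728), (nat_lit 54, nat_lit 21643923456)]⟩,
  ⟨V5_11980259328, nat_lit 4, [(nat_lit 60, nat_lit 17348972544),
  (nat_lit 91, nat_lit 18422710272)]⟩,
  ⟨V5_11963486208, nat_lit 2, [(nat_lit 55, nat_lit 17348972544),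
  (nat_lit 18, nat_lit 18405937152)]⟩,
  ⟨V5_13020450816, nat_lit 1, [(nat_lit 21, nat_lit 17348972544),
  (nat_lit 16, nat_lit 18405937152), (nat_lit 67, nat_lit 19462901760)]⟩,
  ⟨V5_14077415424, nat_lit 1, [(nat_lit 107, nat_lit 17348972544),
  (nat_lit 30, nat_lit 18405937152), (nat_lit 68, nat_lit 19462901760),
  (nat_lit 88, nat_lit 20519866368)]⟩], [
  W6_17332174848, W6_17315401728, W6_17298628608, W6_17281855488, W6_16275210240, W6_16258437120,
  W6_16241664000, W6_16224890880, W6_16208117760, W6_15201472512, W6_15184699392, W6_15167926272,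
  W6_15151153152, W6_14127734784, W6_14110961664, W6_14094188544, W6_14077415424, W6_13053997056,
  W6_13037223936, W6_13020450816, W6_11980259328, W6_11963486208]⟩

theorem F6_17348972544_chk : fwdChk 6 ks6 F6_17348972544 = true := by decide +kernel

noncomputable def F6_17348706369 : Fwd := ⟨V6_17348706369, [
  ⟨V5_11979997248, nat_lit 2, [(nat_lit 19, nat_lit 17348706369),
  (nat_lit 59, nat_lit 18422448192)]⟩,
  ⟨V5_13036961856, nat_lit 3, [(nat_lit 9, nat_lit 17348706369),
  (nat_lit 16, nat_lit 18422448192), (nat_lit 33, nat_lit 18405670977),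
  (nat_lit 57, nat_lit 19479412800)]⟩,
  ⟨V5_14093926464, nat_lit 3, [(nat_lit 19, nat_lit 17348706369),
  (nat_lit 67, nat_lit 18422448192), (nat_lit 87, nat_lit 18405670977),
  (nat_lit 65, nat_lit 19479412800), (nat_lit 92, nat_lit 19462635585),
  (nat_lit 115, nat_lit 20536377408)]⟩,
  ⟨V5_13053734976, nat_lit 3, [(nat_lit 104, nat_lit 17348706369),
  (nat_lit 37, nat_lit 18422448192), (nat_lit 92, nat_lit 18422444097),
  (nat_lit 121, nat_lit 19496185920)]⟩], [
  W6_17315139648, W6_17298366528, W6_17281593408, W6_17264820288, W6_16258175040, W6_16241401920,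
  W6_16224628800, W6_16207855680, W6_15201210432, W6_15184437312, W6_15167664192, W6_15150891072,
  W6_14127472704, W6_14110699584, W6_14093926464, W6_13053734976, W6_13036961856, W6_11979997248]⟩

theorem F6_17348706369_chk : fwdChk 6 ks6 F6_17348706369 = true := by decide +kernel

noncomputable def F6_17348702400 : Fwd := ⟨V6_17348702400, [
  ⟨V5_14127476736, nat_lit 8, [(nat_lit 65, nat_lit 17348702400),
  (nat_lit 60, nat_lit 18422444160), (nat_lit 93, nat_lit 19496185920),
  (nat_lit 26, nat_lit 20569927680)]⟩,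
  ⟨V5_11963216064, nat_lit 1, [(nat_lit 6, nat_lit 17348702400),
  (nat_lit 62, nat_lit 18405667008)]⟩,
  ⟨V5_13053734976, nat_lit 3, [(nat_lit 68, nat_lit 17348702400),
  (nat_lit 57, nat_lit 18422444160), (nat_lit 106, nat_lit 19496185920)]⟩], [
  W6_17314885632, W6_17298370560, W6_17298108480, W6_17281593408, W6_16257921024, W6_16241405952,
  W6_16241143872, W6_16224628800, W6_16207851648, W6_15200956416, W6_15184441344, W6_15184179264,
  W6_15167664192, W6_15150887040, W6_14127476736, W6_14127214656, W6_14110699584, W6_14110437504,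
  W6_14093922432, W6_13053734976, W6_13036957824, W6_11979993216, W6_11963216064]⟩

theorem F6_17348702400_chk : fwdChk 6 ks6 F6_17348702400 = true := by decide +kernel

noncomputable def F6_17332965441 : Fwd := ⟨V6_17332965441, [
  ⟨V5_11964256320, nat_lit 2, [(nat_lit 47, nat_lit 17332965441),
  (nat_lit 39, nat_lit 18406707264)]⟩,
  ⟨V5_13037736000, nat_lit 3, [(nat_lit 77, nat_lit 17332965441),
  (nat_lit 125, nat_lit 18406707264), (nat_lit 30, nat_lit 18406445121),
  (nat_lit 32, nat_lit 19480186944)]⟩], [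
  W6_17331654720, W6_17315139648, W6_16258175040, W6_16241659968, W6_15184695360, W6_15168180288,
  W6_14111215680, W6_14094700608, W6_13037736000, W6_11964256320]⟩

theorem F6_17332965441_chk : fwdChk 6 ks6 F6_17332965441 = true := by decide +kernel

noncomputable def F6_17331929280 : Fwd := ⟨V6_17331929280, [
  ⟨V5_14110703616, nat_lit 5, [(nat_lit 6, nat_lit 17331929280),
  (nat_lit 113, nat_lit 18405671040), (nat_lit 118, nat_lit 19479412800),
  (nat_lit 104, nat_lit 20553154560)]⟩,
  ⟨V5_15184441344, nat_lit 8, [(nat_lit 99, nat_lit 17331929280),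
  (nat_lit 35, nat_lit 18405671040), (nat_lit 41, nat_lit 18405667008),
  (nat_lit 16, nat_lit 19479412800), (nat_lit 101, nat_lit 19479408768),
  (nat_lit 22, nat_lit 20553154560), (nat_lit 110, nat_lit 20553150528),
  (nat_lit 119, nat_lit 21626892288)]⟩,
  ⟨V5_11963216064, nat_lit 1, [(nat_lit 39, nat_lit 17331929280),
  (nat_lit 55, nat_lit 18405667008)]⟩,
  ⟨V5_13036961856, nat_lit 2, [(nat_lit 9, nat_lit 17331929280),
  (nat_lit 114, nat_lit 18405671040), (nat_lit 85, nat_lit 19479412800)]⟩,
  ⟨V5_11946442944, nat_lit 1, [(nat_lit 54, nat_lit 17331929280),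
  (nat_lit 109, nat_lit 18388893888)]⟩], [
  W6_17298370560, W6_17281597440, W6_17281593408, W6_17264820288, W6_17248043136, W6_16241405952,
  W6_16224632832, W6_16224628800, W6_16207855680, W6_16207851648, W6_16191078528, W6_15184441344,
  W6_15167668224, W6_15167664192, W6_15150891072, W6_15150887040, W6_15134113920, W6_14110703616,
  W6_14110699584, W6_14093926464, W6_14093922432, W6_14077149312, W6_14060372160, W6_13036961856,
  W6_13036957824, W6_13020184704, W6_13003407552, W6_11963220096, W6_11963216064, W6_11946442944]⟩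

theorem F6_17331929280_chk : fwdChk 6 ks6 F6_17331929280 = true := by decide +kernel

noncomputable def F6_17316200448 : Fwd := ⟨V6_17316200448, [
  ⟨V5_10873749504, nat_lit 3, [(nat_lit 110, nat_lit 17316200448)]⟩,
  ⟨V5_15168700416, nat_lit 5, [(nat_lit 70, nat_lit 17316200448),
  (nat_lit 90, nat_lit 18389938176), (nat_lit 98, nat_lit 19463675904),
  (nat_lit 2, nat_lit 20537413632), (nat_lit 33, nat_lit 21611151360)]⟩,
  ⟨V5_13021224960, nat_lit 6, [(nat_lit 99, nat_lit 17316200448),
  (nat_lit 102, nat_lit 18389938176), (nat_lit 91, nat_lit 19463675904)]⟩,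
  ⟨V5_15167668224, nat_lit 8, [(nat_lit 70, nat_lit 17316200448),
  (nat_lit 85, nat_lit 18389680128), (nat_lit 79, nat_lit 19463159808),
  (nat_lit 93, nat_lit 20536639488), (nat_lit 111, nat_lit 21610119168)]⟩,
  ⟨V5_17315659776, nat_lit 12, [(nat_lit 82, nat_lit 17316200448),
  (nat_lit 6, nat_lit 18389938176), (nat_lit 78, nat_lit 18389680128),
  (nat_lit 84, nat_lit 19463675904), (nat_lit 95, nat_lit 19463417856),
  (nat_lit 119, nat_lit 19463159808), (nat_lit 61, nat_lit 20537413632),
  (nat_lit 98, nat_lit 20537155584), (nat_lit 20, nat_lit 20536897536),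
  (nat_lit 117, nat_lit 21611151360), (nat_lit 14, nat_lit 21610893312),
  (nat_lit 46, nat_lit 21610635264), (nat_lit 71, nat_lit 22684631040),
  (nat_lit 70, nat_lit 22684372992), (nat_lit 74, nat_lit 23758110720)]⟩,
  ⟨V5_11947487232, nat_lit 3, [(nat_lit 78, nat_lit 17316200448),
  (nat_lit 110, nat_lit 18389938176)]⟩,
  ⟨V5_11947229184, nat_lit 2, [(nat_lit 36, nat_lit 17316200448),
  (nat_lit 76, nat_lit 18389680128)]⟩], [
  W6_17315659776, W6_17315401728, W6_17315143680, W6_16242180096, W6_16241922048, W6_16241664000,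
  W6_16241405952, W6_15168700416, W6_15168442368, W6_15168184320, W6_15167926272, W6_15167668224,
  W6_14094962688, W6_14094704640, W6_14094446592, W6_14094188544, W6_13021224960, W6_13020966912,
  W6_13020708864, W6_11947487232, W6_11947229184, W6_10873749504]⟩

theorem F6_17316200448_chk : fwdChk 6 ks6 F6_17316200448 = true := by decide +kernel

end Crest.Agent.R187.SN.Fwd
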