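import Crest.Agent.R187.SN.FwdDef
import Crest.Agent.R187.SN.TD.Ks
import Crest.Agent.R187.SN.TD.W6_0
import Crest.Agent.R187.SN.TD.W6_1
import Crest.Agent.R187.SN.TD.X5_0
import Crest.Agent.R187.SN.TD.X5_1
import Crest.Agent.R187.SN.TD.X6_3
import Crest.Agent.R187.SN.TD.X6_4

/-!
# Row 187, PLAN S, certificate E3: forward records of level `(6, 6)`, part 4

`F6_<key> : Fwd` = sources (table of level `(6, 5)`, number of rows, quadrature record) and
`W` tables of the table `V6_<key>`; each record is checked by the kernel.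
-/

set_option autoImplicit false
set_option Elab.async false
set_option maxRecDepth 100000

namespace Crest.Agent.R187.SN.Fwd

open Crest.Agent.R187.SN.Top

noncomputable def F6_17316192384 : Fwd := ⟨V6_17316192384, [
  ⟨V5_13021224960, nat_lit 6, [(nat_lit 82, nat_lit 17316192384),
  (nat_lit 73, nat_lit 18389934144), (nat_lit 52, nat_lit 19463675904)]⟩,
  ⟨V5_10873741440, nat_lit 2, [(nat_lit 77, nat_lit 17316192384)]⟩,
  ⟨V5_15168184320, nat_lit 16, [(nat_lit 121, nat_lit 17316192384),
  (nat_lit 41, nat_lit 18389934144), (nat_lit 34, nat_lit 18389672064),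
  (nat_lit 63, nat_lit 19463675904), (nat_lit 63, nat_lit 19463413824),
  (nat_lit 97, nat_lit 19463151744), (nat_lit 90, nat_lit 20537155584),
  (nat_lit 95, nat_lit 20536893504), (nat_lit 82, nat_lit 21610635264)]⟩], [
  W6_17315143680, W6_17314881600, W6_17314619520, W6_16241664000, W6_16241401920, W6_16241139840,
  W6_15168184320, W6_15167922240, W6_15167660160, W6_14094704640, W6_14094442560, W6_14094180480,
  W6_13021224960, W6_13020962880, W6_13020700800, W6_11947483200, W6_11947221120, W6_10873741440]⟩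

theorem F6_17316192384_chk : fwdChk 6 ks6 F6_17316192384 = true := by decide +kernel

noncomputable def F6_17315942400 : Fwd := ⟨V6_17315942400, [
  ⟨V5_17315659776, nat_lit 12, [(nat_lit 74, nat_lit 17315942400),
  (nat_lit 52, nat_lit 18389680128), (nat_lit 59, nat_lit 18389422080),
  (nat_lit 38, nat_lit 19463417856), (nat_lit 111, nat_lit 19463159808),
  (nat_lit 70, nat_lit 20537155584), (nat_lit 24, nat_lit 20536897536),
  (nat_lit 63, nat_lit 21610893312), (nat_lit 26, nat_lit 21610635264),
  (nat_lit 78, nat_lit 22684631040), (nat_lit 56, nat_lit 22684372992),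
  (nat_lit 99, nat_lit 23758110720)]⟩,
  ⟨V5_16242180096, nat_lit 5, [(nat_lit 65, nat_lit 17315942400),
  (nat_lit 57, nat_lit 18389680128), (nat_lit 59, nat_lit 19463417856),
  (nat_lit 60, nat_lit 20537155584), (nat_lit 58, nat_lit 21610893312),
  (nat_lit 7, nat_lit 22684631040)]⟩,
  ⟨V5_11946971136, nat_lit 4, [(nat_lit 89, nat_lit 17315942400),
  (nat_lit 19, nat_lit 18389422080)]⟩,
  ⟨V5_14094704640, nat_lit 8, [(nat_lit 30, nat_lit 17315942400),
  (nat_lit 61, nat_lit 18389680128), (nat_lit 113, nat_lit 19463417856),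
  (nat_lit 21, nat_lit 20537155584)]⟩,
  ⟨V5_11947229184, nat_lit 4, [(nat_lit 99, nat_lit 17315942400),
  (nat_lit 93, nat_lit 18389680128)]⟩,
  ⟨V5_13003935744, nat_lit 3, [(nat_lit 9, nat_lit 17315942400),
  (nat_lit 45, nat_lit 18389422080), (nat_lit 25, nat_lit 18372907008),
  (nat_lit 82, nat_lit 19446386688)]⟩], [
  W6_17315659776, W6_17315401728, W6_17299144704, W6_17298886656, W6_17298628608, W6_16242180096,
  W6_16241922048, W6_16241664000, W6_16225406976, W6_16225148928, W6_16224890880, W6_15168442368,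
  W6_15168184320, W6_15167926272, W6_15151669248, W6_15151411200, W6_15151153152, W6_14094704640,
  W6_14094446592, W6_14094188544, W6_14077931520, W6_14077673472, W6_14077415424, W6_13020966912,
  W6_13020708864, W6_13020450816, W6_13004193792, W6_13003935744, W6_11947229184, W6_11946971136,
  W6_11930456064, W6_10873491456]⟩

theorem F6_17315942400_chk : fwdChk 6 ks6 F6_17315942400 = true := by decide +kernel

noncomputable def F6_17315930241 : Fwd := ⟨V6_17315930241, [
  ⟨V5_13020962880, nat_lit 4, [(nat_lit 10, nat_lit 17315930241),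
  (nat_lit 99, nat_lit 18389672064), (nat_lit 9, nat_lit 18389672001),
  (nat_lit 68, nat_lit 19463413824)]⟩,
  ⟨V5_13020700800, nat_lit 4, [(nat_lit 101, nat_lit 17315930241),
  (nat_lit 25, nat_lit 18389672064), (nat_lit 78, nat_lit 18389409921),
  (nat_lit 59, nat_lit 19463151744)]⟩,
  ⟨V5_17314619520, nat_lit 2, [(nat_lit 114, nat_lit 17315930241),
  (nat_lit 111, nat_lit 18389672064), (nat_lit 125, nat_lit 18389409921),
  (nat_lit 19, nat_lit 19463151744), (nat_lit 53, nat_lit 19462889601),
  (nat_lit 59, nat_lit 20536631424), (nat_lit 120, nat_lit 20536369281),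
  (nat_lit 116, nat_lit 21610111104), (nat_lit 104, nat_lit 21609848961),
  (nat_lit 123, nat_lit 22683590784), (nat_lit 2, nat_lit 22683328641),
  (nat_lit 120, nat_lit 23757070464)]⟩,
  ⟨V5_14077927488, nat_lit 1, [(nat_lit 85, nat_lit 17315930241),
  (nat_lit 27, nat_lit 18389672064), (nat_lit 91, nat_lit 18389672001),
  (nat_lit 19, nat_lit 18372894849), (nat_lit 49, nat_lit 19463413824),
  (nat_lit 31, nat_lit 19446636672), (nat_lit 75, nat_lit 19446636609),
  (nat_lit 103, nat_lit 20520378432)]⟩], [
  W6_17314881600, W6_17314619520, W6_17298366528, W6_17298104448, W6_16241401920, W6_16241139840,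
  W6_16224886848, W6_16224624768, W6_15167922240, W6_15167660160, W6_15151407168, W6_15151145088,
  W6_14094442560, W6_14094180480, W6_14077927488, W6_14077665408, W6_13020962880, W6_13020700800,
  W6_11947221120]⟩

theorem F6_17315930241_chk : fwdChk 6 ks6 F6_17315930241 = true := by decide +kernel

noncomputable def F6_17315684352 : Fwd := ⟨V6_17315684352, [
  ⟨V5_17315659776, nat_lit 12, [(nat_lit 46, nat_lit 17315684352),
  (nat_lit 34, nat_lit 18389422080), (nat_lit 90, nat_lit 19463159808),
  (nat_lit 78, nat_lit 20536897536), (nat_lit 57, nat_lit 21610635264),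
  (nat_lit 97, nat_lit 22684372992), (nat_lit 105, nat_lit 23758110720)]⟩,
  ⟨V5_10873233408, nat_lit 3, [(nat_lit 65, nat_lit 17315684352)]⟩,
  ⟨V5_16241922048, nat_lit 11, [(nat_lit 77, nat_lit 17315684352),
  (nat_lit 51, nat_lit 18389422080), (nat_lit 64, nat_lit 19463159808),
  (nat_lit 71, nat_lit 20536897536), (nat_lit 77, nat_lit 21610635264),
  (nat_lit 23, nat_lit 22684372992)]⟩,
  ⟨V5_12987162624, nat_lit 2, [(nat_lit 125, nat_lit 17315684352),
  (nat_lit 2, nat_lit 18372648960), (nat_lit 11, nat_lit 19429613568)]⟩], [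
  W6_17315659776, W6_17298886656, W6_17282113536, W6_16241922048, W6_16225148928, W6_16208375808,
  W6_15168184320, W6_15151411200, W6_15134638080, W6_14094446592, W6_14077673472, W6_14060900352,
  W6_13020708864, W6_13003935744, W6_12987162624, W6_11946971136, W6_11930198016, W6_10873233408]⟩

theorem F6_17315684352_chk : fwdChk 6 ks6 F6_17315684352 = true := by decide +kernel

noncomputable def F6_17315152065 : Fwd := ⟨V6_17315152065, [
  ⟨V5_13020184704, nat_lit 3, [(nat_lit 87, nat_lit 17315152065),
  (nat_lit 107, nat_lit 18388893888), (nat_lit 15, nat_lit 18388893825),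
  (nat_lit 64, nat_lit 19462635648)]⟩,
  ⟨V5_14093926464, nat_lit 4, [(nat_lit 117, nat_lit 17315152065),
  (nat_lit 41, nat_lit 18388893888), (nat_lit 96, nat_lit 18388893825),
  (nat_lit 116, nat_lit 19462635648), (nat_lit 10, nat_lit 19462635585),
  (nat_lit 2, nat_lit 20536377408)]⟩], [
  W6_17281593408, W6_17264820288, W6_17248043136, W6_16224628800, W6_16207855680, W6_16207851648,
  W6_16191078528, W6_15167664192, W6_15150891072, W6_15150887040, W6_15134113920, W6_14093926464,
  W6_14093922432, W6_14077149312, W6_14060372160, W6_13020184704, W6_13003407552, W6_11946442944]⟩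

theorem F6_17315152065_chk : fwdChk 6 ks6 F6_17315152065 = true := by decide +kernel

noncomputable def F6_17299169280 : Fwd := ⟨V6_17299169280, [
  ⟨V5_16225406976, nat_lit 4, [(nat_lit 23, nat_lit 17299169280),
  (nat_lit 101, nat_lit 18372907008), (nat_lit 62, nat_lit 19446644736),
  (nat_lit 41, nat_lit 20520382464), (nat_lit 23, nat_lit 21594120192),
  (nat_lit 58, nat_lit 22667857920)]⟩,
  ⟨V5_11930198016, nat_lit 1, [(nat_lit 87, nat_lit 17299169280),
  (nat_lit 20, nat_lit 18372648960)]⟩,
  ⟨V5_11930456064, nat_lit 1, [(nat_lit 84, nat_lit 17299169280),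
  (nat_lit 79, nat_lit 18372907008)]⟩], [
  W6_17299144704, W6_17298886656, W6_16225406976, W6_16225148928, W6_15151669248, W6_15151411200,
  W6_14077931520, W6_14077673472, W6_13004193792, W6_13003935744, W6_11930456064, W6_11930198016]⟩

theorem F6_17299169280_chk : fwdChk 6 ks6 F6_17299169280 = true := by decide +kernel

noncomputable def F6_17299165248 : Fwd := ⟨V6_17299165248, [
  ⟨V5_15151665216, nat_lit 3, [(nat_lit 66, nat_lit 17299165248),
  (nat_lit 119, nat_lit 18372902976), (nat_lit 105, nat_lit 19446640704),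
  (nat_lit 32, nat_lit 20520378432), (nat_lit 78, nat_lit 21594116160)]⟩,
  ⟨V5_16225406976, nat_lit 4, [(nat_lit 22, nat_lit 17299165248),
  (nat_lit 57, nat_lit 18372907008), (nat_lit 5, nat_lit 18372902976),
  (nat_lit 7, nat_lit 19446644736), (nat_lit 93, nat_lit 19446640704),
  (nat_lit 83, nat_lit 20520382464), (nat_lit 69, nat_lit 20520378432),
  (nat_lit 121, nat_lit 21594120192), (nat_lit 104, nat_lit 21594116160),
  (nat_lit 45, nat_lit 22667857920)]⟩,
  ⟨V5_17298886656, nat_lit 7, [(nat_lit 14, nat_lit 17299165248),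
  (nat_lit 78, nat_lit 18372907008), (nat_lit 31, nat_lit 18372902976),
  (nat_lit 6, nat_lit 18372644928), (nat_lit 96, nat_lit 19446644736),
  (nat_lit 71, nat_lit 19446640704), (nat_lit 21, nat_lit 19446386688),
  (nat_lit 117, nat_lit 19446382656), (nat_lit 119, nat_lit 20520382464),
  (nat_lit 117, nat_lit 20520378432), (nat_lit 117, nat_lit 20520124416),
  (nat_lit 22, nat_lit 20520120384), (nat_lit 12, nat_lit 21594120192),
  (nat_lit 25, nat_lit 21594116160), (nat_lit 15, nat_lit 21593862144),
  (nat_lit 40, nat_lit 21593858112), (nat_lit 87, nat_lit 22667857920),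
  (nat_lit 48, nat_lit 22667599872), (nat_lit 6, nat_lit 22667595840),
  (nat_lit 35, nat_lit 23741337600)]⟩,
  ⟨V5_13003935744, nat_lit 3, [(nat_lit 14, nat_lit 17299165248),
  (nat_lit 94, nat_lit 18372907008), (nat_lit 94, nat_lit 18372644928),
  (nat_lit 22, nat_lit 19446386688)]⟩,
  ⟨V5_11930456064, nat_lit 1, [(nat_lit 126, nat_lit 17299165248),
  (nat_lit 115, nat_lit 18372907008)]⟩], [
  W6_17298886656, W6_17298628608, W6_17298624576, W6_16225406976, W6_16225148928, W6_16225144896,
  W6_16224890880, W6_16224886848, W6_15151669248, W6_15151665216, W6_15151411200, W6_15151407168,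
  W6_15151153152, W6_15151149120, W6_14077931520, W6_14077927488, W6_14077673472, W6_14077669440,
  W6_14077415424, W6_14077411392, W6_13004193792, W6_13004189760, W6_13003935744, W6_13003931712,
  W6_13003673664, W6_11930456064, W6_11930452032, W6_11930193984]⟩

theorem F6_17299165248_chk : fwdChk 6 ks6 F6_17299165248 = true := by decide +kernel

noncomputable def F6_17299161153 : Fwd := ⟨V6_17299161153, [
  ⟨V5_15151665216, nat_lit 3, [(nat_lit 29, nat_lit 17299161153),
  (nat_lit 59, nat_lit 18372902976), (nat_lit 39, nat_lit 18372898881),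
  (nat_lit 104, nat_lit 19446640704), (nat_lit 113, nat_lit 19446636609),
  (nat_lit 90, nat_lit 20520378432), (nat_lit 24, nat_lit 20520374337),
  (nat_lit 26, nat_lit 21594116160)]⟩,
  ⟨V5_13003931712, nat_lit 4, [(nat_lit 121, nat_lit 17299161153),
  (nat_lit 123, nat_lit 18372902976), (nat_lit 18, nat_lit 18372640833),
  (nat_lit 82, nat_lit 19446382656)]⟩,
  ⟨V5_11930452032, nat_lit 1, [(nat_lit 2, nat_lit 17299161153),
  (nat_lit 53, nat_lit 18372902976)]⟩,
  ⟨V5_13004189760, nat_lit 2, [(nat_lit 31, nat_lit 17299161153),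
  (nat_lit 44, nat_lit 18372902976), (nat_lit 3, nat_lit 18372898881),
  (nat_lit 113, nat_lit 19446640704)]⟩,
  ⟨V5_15150891072, nat_lit 1, [(nat_lit 98, nat_lit 17299161153),
  (nat_lit 71, nat_lit 18372902976), (nat_lit 9, nat_lit 18372640833),
  (nat_lit 110, nat_lit 19446382656), (nat_lit 107, nat_lit 19446120513),
  (nat_lit 61, nat_lit 20519862336), (nat_lit 44, nat_lit 20519600193),
  (nat_lit 126, nat_lit 21593342016)]⟩], [
  W6_17298624576, W6_17298366528, W6_16225144896, W6_16224886848, W6_16224628800, W6_15151665216,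
  W6_15151407168, W6_15151149120, W6_15150891072, W6_14077927488, W6_14077669440, W6_14077411392,
  W6_13004189760, W6_13003931712, W6_11930452032]⟩

theorem F6_17299161153_chk : fwdChk 6 ks6 F6_17299161153 = true := by decide +kernel

noncomputable def F6_17299157184 : Fwd := ⟨V6_17299157184, [
  ⟨V5_10856706240, nat_lit 1, [(nat_lit 22, nat_lit 17299157184)]⟩,
  ⟨V5_14077931520, nat_lit 3, [(nat_lit 96, nat_lit 17299157184),
  (nat_lit 30, nat_lit 18372898944), (nat_lit 110, nat_lit 19446640704),
  (nat_lit 13, nat_lit 20520382464)]⟩,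
  ⟨V5_15151411200, nat_lit 7, [(nat_lit 52, nat_lit 17299157184),
  (nat_lit 61, nat_lit 18372898944), (nat_lit 5, nat_lit 18372636864),
  (nat_lit 40, nat_lit 19446640704), (nat_lit 80, nat_lit 19446378624),
  (nat_lit 43, nat_lit 20520382464), (nat_lit 48, nat_lit 20520120384),
  (nat_lit 50, nat_lit 21593862144)]⟩], [
  W6_17298370560, W6_17298108480, W6_16224890880, W6_16224628800, W6_15151411200, W6_15151149120,
  W6_15150887040, W6_14077931520, W6_14077669440, W6_14077407360, W6_13004189760, W6_13003927680,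
  W6_13003665600, W6_11930185920, W6_10856706240]⟩

theorem F6_17299157184_chk : fwdChk 6 ks6 F6_17299157184 = true := by decide +kernel

noncomputable def F6_17298903168 : Fwd := ⟨V6_17298903168, [
  ⟨V5_13003935744, nat_lit 3, [(nat_lit 2, nat_lit 17298903168),
  (nat_lit 104, nat_lit 18372644928), (nat_lit 88, nat_lit 19446386688)]⟩,
  ⟨V5_16225148928, nat_lit 10, [(nat_lit 115, nat_lit 17298903168),
  (nat_lit 119, nat_lit 18372644928), (nat_lit 123, nat_lit 18372640896),
  (nat_lit 37, nat_lit 19446386688), (nat_lit 79, nat_lit 19446382656),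
  (nat_lit 27, nat_lit 19446378624), (nat_lit 9, nat_lit 20520124416),
  (nat_lit 47, nat_lit 20520120384), (nat_lit 14, nat_lit 20520116352),
  (nat_lit 16, nat_lit 21593862144), (nat_lit 125, nat_lit 21593858112),
  (nat_lit 83, nat_lit 22667599872)]⟩,
  ⟨V5_14060900352, nat_lit 3, [(nat_lit 55, nat_lit 17298903168),
  (nat_lit 46, nat_lit 18372644928), (nat_lit 115, nat_lit 18355867776),
  (nat_lit 105, nat_lit 19446386688), (nat_lit 77, nat_lit 19429609536),
  (nat_lit 18, nat_lit 20503351296)]⟩,
  ⟨V5_14077673472, nat_lit 6, [(nat_lit 71, nat_lit 17298903168),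
  (nat_lit 73, nat_lit 18372644928), (nat_lit 87, nat_lit 18372640896),
  (nat_lit 63, nat_lit 19446386688), (nat_lit 104, nat_lit 19446382656),
  (nat_lit 50, nat_lit 20520124416)]⟩,
  ⟨V5_11930193984, nat_lit 2, [(nat_lit 94, nat_lit 17298903168),
  (nat_lit 56, nat_lit 18372644928)]⟩,
  ⟨V5_11930189952, nat_lit 2, [(nat_lit 77, nat_lit 17298903168),
  (nat_lit 30, nat_lit 18372640896)]⟩], [
  W6_17298628608, W6_17282113536, W6_17281855488, W6_17281851456, W6_16225148928, W6_16224890880,
  W6_16224886848, W6_16208375808, W6_16208371776, W6_16208117760, W6_16208113728, W6_16208109696,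
  W6_15151411200, W6_15151407168, W6_15151153152, W6_15151149120, W6_15151145088, W6_15134638080,
  W6_15134634048, W6_15134630016, W6_15134376000, W6_15134371968, W6_14077673472, W6_14077669440,
  W6_14077665408, W6_14077415424, W6_14077411392, W6_14077407360, W6_14060900352, W6_14060896320,
  W6_14060892288, W6_14060634240, W6_13003935744, W6_13003931712, W6_13003927680, W6_13003673664,
  W6_13003669632, W6_12987158592, W6_12987154560, W6_11930193984, W6_11930189952, W6_11913416832,
  W6_10856452224]⟩

theorem F6_17298903168_chk : fwdChk 6 ks6 F6_17298903168 = true := by decide +kernel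

noncomputable def F6_17298641088 : Fwd := ⟨V6_17298641088, [
  ⟨V5_15151153152, nat_lit 5, [(nat_lit 116, nat_lit 17298641088),
  (nat_lit 103, nat_lit 18372382848), (nat_lit 43, nat_lit 18372378816),
  (nat_lit 82, nat_lit 19446124608), (nat_lit 94, nat_lit 19446120576),
  (nat_lit 61, nat_lit 20519866368), (nat_lit 61, nat_lit 20519862336),
  (nat_lit 5, nat_lit 21593604096)]⟩,
  ⟨V5_13003665600, nat_lit 1, [(nat_lit 13, nat_lit 17298641088),
  (nat_lit 25, nat_lit 18372378816), (nat_lit 43, nat_lit 19446116544)]⟩], [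
  W6_17281855488, W6_17265078336, W6_16224890880, W6_16208117760, W6_16208113728, W6_15151153152,
  W6_15151149120, W6_15134376000, W6_15134371968, W6_14077415424, W6_14077411392, W6_14077407360,
  W6_14060634240, W6_13003673664, W6_13003669632, W6_13003665600, W6_11929927872]⟩

theorem F6_17298641088_chk : fwdChk 6 ks6 F6_17298641088 = true := by decide +kernel

noncomputable def F6_17282129985 : Fwd := ⟨V6_17282129985, [
  ⟨V5_11913420864, nat_lit 2, [(nat_lit 63, nat_lit 17282129985),
  (nat_lit 82, nat_lit 18355871808)]⟩], [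
  W6_16208371776, W6_15134634048, W6_14060896320, W6_12987158592, W6_11913420864]⟩

theorem F6_17282129985_chk : fwdChk 6 ks6 F6_17282129985 = true := by decide +kernel

noncomputable def F6_17282126016 : Fwd := ⟨V6_17282126016, [
  ⟨V5_14060900352, nat_lit 3, [(nat_lit 90, nat_lit 17282126016),
  (nat_lit 44, nat_lit 18355867776), (nat_lit 119, nat_lit 19429609536),
  (nat_lit 36, nat_lit 20503351296)]⟩,
  ⟨V5_12987154560, nat_lit 3, [(nat_lit 26, nat_lit 17282126016),
  (nat_lit 11, nat_lit 18355867776), (nat_lit 118, nat_lit 18355863744),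
  (nat_lit 116, nat_lit 19429605504)]⟩], [
  W6_17281855488, W6_16208375808, W6_16208117760, W6_16208113728, W6_15134638080, W6_15134634048,
  W6_15134376000, W6_15134371968, W6_14060900352, W6_14060896320, W6_14060892288, W6_14060634240,
  W6_12987158592, W6_12987154560, W6_11913416832, W6_11913412800]⟩

theorem F6_17282126016_chk : fwdChk 6 ks6 F6_17282126016 = true := by decide +kernel

noncomputable def F6_17282125953 : Fwd := ⟨V6_17282125953, [
  ⟨V5_12987154560, nat_lit 3, [(nat_lit 45, nat_lit 17282125953),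
  (nat_lit 44, nat_lit 18355867776), (nat_lit 92, nat_lit 18355863681),
  (nat_lit 41, nat_lit 19429605504)]⟩,
  ⟨V5_11913416832, nat_lit 1, [(nat_lit 92, nat_lit 17282125953),
  (nat_lit 25, nat_lit 18355867776)]⟩,
  ⟨V5_15134630016, nat_lit 2, [(nat_lit 55, nat_lit 17282125953),
  (nat_lit 49, nat_lit 18355867776), (nat_lit 100, nat_lit 18355863681),
  (nat_lit 57, nat_lit 19429605504), (nat_lit 93, nat_lit 19429601409),
  (nat_lit 83, nat_lit 20503343232), (nat_lit 54, nat_lit 20503339137),
  (nat_lit 85, nat_lit 21577080960)]⟩], [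
  W6_17281851456, W6_16208371776, W6_16208113728, W6_16208109696, W6_15134634048, W6_15134630016,
  W6_15134376000, W6_15134371968, W6_14060896320, W6_14060892288, W6_14060634240, W6_12987158592,
  W6_12987154560, W6_11913416832]⟩

theorem F6_17282125953_chk : fwdChk 6 ks6 F6_17282125953 = true := by decide +kernel

noncomputable def F6_17248043268 : Fwd := ⟨V6_17248043268, [
  ⟨V5_15100559616, nat_lit 1, [(nat_lit 89, nat_lit 17248043268),
  (nat_lit 42, nat_lit 18321785091), (nat_lit 94, nat_lit 19395526914),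
  (nat_lit 6, nat_lit 20469268737), (nat_lit 35, nat_lit 21543010560)]⟩], [
  W6_15100559616]⟩

theorem F6_17248043268_chk : fwdChk 6 ks6 F6_17248043268 = true := by decide +kernel

noncomputable def F6_16359358464 : Fwd := ⟨V6_16359358464, [
  ⟨V5_16258695168, nat_lit 10, [(nat_lit 37, nat_lit 16359358464),
  (nat_lit 16, nat_lit 17416323072), (nat_lit 58, nat_lit 18473287680),
  (nat_lit 69, nat_lit 19530252288), (nat_lit 111, nat_lit 20587216896),
  (nat_lit 90, nat_lit 21644181504), (nat_lit 96, nat_lit 22701146112)]⟩], [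
  W6_16341270528, W6_16324755456, W6_16308240384, W6_16291725312, W6_16275210240, W6_16258695168]⟩

theorem F6_16359358464_chk : fwdChk 6 ks6 F6_16359358464 = true := by decide +kernel

noncomputable def F6_16358842368 : Fwd := ⟨V6_16358842368, [
  ⟨V5_16258179072, nat_lit 12, [(nat_lit 118, nat_lit 16358842368),
  (nat_lit 27, nat_lit 17415806976), (nat_lit 82, nat_lit 18472771584),
  (nat_lit 45, nat_lit 19529736192), (nat_lit 100, nat_lit 20586700800),
  (nat_lit 9, nat_lit 21643665408), (nat_lit 35, nat_lit 22700630016)]⟩], [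
  W6_16324755456, W6_16308240384, W6_16307982336, W6_16291725312, W6_16291467264, W6_16291209216,
  W6_16274952192, W6_16274694144, W6_16258179072]⟩

theorem F6_16358842368_chk : fwdChk 6 ks6 F6_16358842368 = true := by decide +kernel

noncomputable def F6_16358584320 : Fwd := ⟨V6_16358584320, [
  ⟨V5_16308240384, nat_lit 6, [(nat_lit 83, nat_lit 16358584320),
  (nat_lit 36, nat_lit 17432322048), (nat_lit 62, nat_lit 17415548928),
  (nat_lit 73, nat_lit 18506059776), (nat_lit 65, nat_lit 18489286656),
  (nat_lit 11, nat_lit 18472513536), (nat_lit 117, nat_lit 19579797504),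
  (nat_lit 1, nat_lit 19563024384), (nat_lit 29, nat_lit 19546251264),
  (nat_lit 68, nat_lit 19529478144), (nat_lit 38, nat_lit 20636762112),
  (nat_lit 113, nat_lit 20619988992), (nat_lit 101, nat_lit 20603215872),
  (nat_lit 53, nat_lit 21693726720), (nat_lit 117, nat_lit 21676953600),
  (nat_lit 12, nat_lit 22750691328)]⟩,
  ⟨V5_16257921024, nat_lit 2, [(nat_lit 8, nat_lit 16358584320),
  (nat_lit 103, nat_lit 17415548928), (nat_lit 40, nat_lit 18472513536),
  (nat_lit 87, nat_lit 19529478144), (nat_lit 24, nat_lit 20586442752),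
  (nat_lit 119, nat_lit 21643407360), (nat_lit 110, nat_lit 22700371968)]⟩], [
  W6_16308240384, W6_16291467264, W6_16274694144, W6_16257921024]⟩

theorem F6_16358584320_chk : fwdChk 6 ks6 F6_16358584320 = true := by decide +kernel

noncomputable def F6_16358318208 : Fwd := ⟨V6_16358318208, [
  ⟨V5_16257654912, nat_lit 2, [(nat_lit 29, nat_lit 16358318208),
  (nat_lit 40, nat_lit 17415282816), (nat_lit 18, nat_lit 18472247424),
  (nat_lit 109, nat_lit 19529212032), (nat_lit 87, nat_lit 20586176640),
  (nat_lit 98, nat_lit 21643141248), (nat_lit 113, nat_lit 22700105856)]⟩], [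
  W6_16291209216, W6_16274432064, W6_16257654912]⟩

theorem F6_16358318208_chk : fwdChk 6 ks6 F6_16358318208 = true := by decide +kernel

noncomputable def F6_16358318145 : Fwd := ⟨V6_16358318145, [
  ⟨V5_16274432064, nat_lit 2, [(nat_lit 38, nat_lit 16358318145),
  (nat_lit 72, nat_lit 17432059968), (nat_lit 62, nat_lit 17415282753),
  (nat_lit 41, nat_lit 18489024576), (nat_lit 32, nat_lit 18472247361),
  (nat_lit 16, nat_lit 19545989184), (nat_lit 38, nat_lit 19529211969),
  (nat_lit 38, nat_lit 20602953792), (nat_lit 82, nat_lit 20586176577),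
  (nat_lit 20, nat_lit 21659918400), (nat_lit 67, nat_lit 21643141185),
  (nat_lit 42, nat_lit 22716883008)]⟩], [
  W6_16291205184, W6_16274432064]⟩

theorem F6_16358318145_chk : fwdChk 6 ks6 F6_16358318145 = true := by decide +kernel

noncomputable def F6_16342323264 : Fwd := ⟨V6_16342323264, [
  ⟨V5_15201472512, nat_lit 13, [(nat_lit 82, nat_lit 16342323264),
  (nat_lit 82, nat_lit 17416065024), (nat_lit 32, nat_lit 17399287872),
  (nat_lit 64, nat_lit 18473029632), (nat_lit 76, nat_lit 18456252480),
  (nat_lit 3, nat_lit 19529994240), (nat_lit 40, nat_lit 19513217088),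
  (nat_lit 71, nat_lit 20586958848), (nat_lit 84, nat_lit 20570181696),
  (nat_lit 123, nat_lit 21643923456)]⟩,
  ⟨V5_15251017728, nat_lit 3, [(nat_lit 36, nat_lit 16342323264),
  (nat_lit 86, nat_lit 17416065024), (nat_lit 33, nat_lit 17415802944),
  (nat_lit 12, nat_lit 17399287872), (nat_lit 121, nat_lit 18489544704),
  (nat_lit 78, nat_lit 18489282624), (nat_lit 15, nat_lit 18473029632),
  (nat_lit 124, nat_lit 18472767552), (nat_lit 118, nat_lit 19563024384),
  (nat_lit 110, nat_lit 19562762304), (nat_lit 105, nat_lit 19546509312),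
  (nat_lit 50, nat_lit 19546247232), (nat_lit 6, nat_lit 20636504064),
  (nat_lit 8, nat_lit 20619988992), (nat_lit 68, nat_lit 20619726912),
  (nat_lit 79, nat_lit 21693468672)]⟩], [
  W6_16324497408, W6_16307982336, W6_16291467264, W6_16291205184, W6_16274952192, W6_16274690112,
  W6_16258437120, W6_16258175040, W6_16241659968, W6_15251017728, W6_15234502656, W6_15234240576,
  W6_15217987584, W6_15217725504, W6_15201472512, W6_15201210432, W6_15184695360]⟩

theorem F6_16342323264_chk : fwdChk 6 ks6 F6_16342323264 = true := by decide +kernel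

noncomputable def F6_16342069248 : Fwd := ⟨V6_16342069248, [
  ⟨V5_16241405952, nat_lit 9, [(nat_lit 108, nat_lit 16342069248),
  (nat_lit 76, nat_lit 17399033856), (nat_lit 48, nat_lit 18455998464),
  (nat_lit 25, nat_lit 19512963072), (nat_lit 32, nat_lit 20569927680),
  (nat_lit 87, nat_lit 21626892288), (nat_lit 27, nat_lit 22683856896)]⟩,
  ⟨V5_15234760704, nat_lit 9, [(nat_lit 76, nat_lit 16342069248),
  (nat_lit 51, nat_lit 17415806976), (nat_lit 120, nat_lit 17399033856),
  (nat_lit 34, nat_lit 18489544704), (nat_lit 97, nat_lit 18472771584),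
  (nat_lit 26, nat_lit 18455998464), (nat_lit 22, nat_lit 19563282432),
  (nat_lit 32, nat_lit 19546509312), (nat_lit 5, nat_lit 19529736192),
  (nat_lit 24, nat_lit 20620247040), (nat_lit 41, nat_lit 20603473920),
  (nat_lit 27, nat_lit 21677211648)]⟩,
  ⟨V5_15184441344, nat_lit 4, [(nat_lit 115, nat_lit 16342069248),
  (nat_lit 20, nat_lit 17399033856), (nat_lit 107, nat_lit 18455998464),
  (nat_lit 12, nat_lit 19512963072), (nat_lit 123, nat_lit 20569927680),
  (nat_lit 55, nat_lit 21626892288)]⟩], [
  W6_16308240384, W6_16291725312, W6_16291467264, W6_16274952192, W6_16274694144, W6_16258179072,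
  W6_16257921024, W6_16241405952, W6_15251275776, W6_15234760704, W6_15234502656, W6_15217987584,
  W6_15217729536, W6_15201214464, W6_15200956416, W6_15184441344]⟩

theorem F6_16342069248_chk : fwdChk 6 ks6 F6_16342069248 = true := by decide +kernel

noncomputable def F6_16341803073 : Fwd := ⟨V6_16341803073, [
  ⟨V5_15200952384, nat_lit 4, [(nat_lit 11, nat_lit 16341803073),
  (nat_lit 38, nat_lit 17415544896), (nat_lit 104, nat_lit 17398767681),
  (nat_lit 52, nat_lit 18472509504), (nat_lit 60, nat_lit 18455732289),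
  (nat_lit 60, nat_lit 19529474112), (nat_lit 76, nat_lit 19512696897),
  (nat_lit 65, nat_lit 20586438720), (nat_lit 59, nat_lit 20569661505),
  (nat_lit 73, nat_lit 21643403328)]⟩], [
  W6_16291205184, W6_16274690112, W6_16274432064, W6_16257916992, W6_15234240576, W6_15217725504,
  W6_15217467456, W6_15200952384]⟩

theorem F6_16341803073_chk : fwdChk 6 ks6 F6_16341803073 = true := by decide +kernel

noncomputable def F6_16341540993 : Fwd := ⟨V6_16341540993, [
  ⟨V5_16257654912, nat_lit 2, [(nat_lit 8, nat_lit 16341540993),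
  (nat_lit 29, nat_lit 17415282816), (nat_lit 39, nat_lit 17398505601),
  (nat_lit 19, nat_lit 18472247424), (nat_lit 45, nat_lit 18455470209),
  (nat_lit 122, nat_lit 19529212032), (nat_lit 114, nat_lit 19512434817),
  (nat_lit 95, nat_lit 20586176640), (nat_lit 126, nat_lit 20569399425),
  (nat_lit 86, nat_lit 21643141248), (nat_lit 8, nat_lit 21626364033),
  (nat_lit 82, nat_lit 22700105856)]⟩], [
  W6_16274432064, W6_16257654912, W6_15217467456, W6_15200690304]⟩

theorem F6_16341540993_chk : fwdChk 6 ks6 F6_16341540993 = true := by decide +kernel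

noncomputable def F6_16326328320 : Fwd := ⟨V6_16326328320, [
  ⟨V5_15168700416, nat_lit 5, [(nat_lit 108, nat_lit 16326328320),
  (nat_lit 111, nat_lit 17383292928), (nat_lit 70, nat_lit 18440257536),
  (nat_lit 38, nat_lit 19497222144), (nat_lit 59, nat_lit 20554186752),
  (nat_lit 61, nat_lit 21611151360)]⟩,
  ⟨V5_15234760704, nat_lit 9, [(nat_lit 74, nat_lit 16326328320),
  (nat_lit 99, nat_lit 17399808000), (nat_lit 23, nat_lit 17383292928),
  (nat_lit 41, nat_lit 18473287680), (nat_lit 24, nat_lit 18456772608),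
  (nat_lit 3, nat_lit 19546767360), (nat_lit 107, nat_lit 19530252288),
  (nat_lit 32, nat_lit 20620247040), (nat_lit 82, nat_lit 20603731968),
  (nat_lit 22, nat_lit 21677211648)]⟩,
  ⟨V5_14111735808, nat_lit 2, [(nat_lit 103, nat_lit 16326328320),
  (nat_lit 24, nat_lit 17383292928), (nat_lit 11, nat_lit 18440257536),
  (nat_lit 81, nat_lit 19497222144), (nat_lit 61, nat_lit 20554186752)]⟩], [
  W6_16324755456, W6_16308240384, W6_16291725312, W6_16275210240, W6_16258695168, W6_16242180096,
  W6_15251275776, W6_15234760704, W6_15218245632, W6_15201730560, W6_15185215488, W6_15168700416,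
  W6_14177796096, W6_14161281024, W6_14144765952, W6_14128250880, W6_14111735808]⟩

theorem F6_16326328320_chk : fwdChk 6 ks6 F6_16326328320 = true := by decide +kernel

noncomputable def F6_16325812224 : Fwd := ⟨V6_16325812224, [
  ⟨V5_15168184320, nat_lit 16, [(nat_lit 110, nat_lit 16325812224),
  (nat_lit 106, nat_lit 17382776832), (nat_lit 76, nat_lit 18439741440),
  (nat_lit 34, nat_lit 19496706048), (nat_lit 6, nat_lit 20553670656),
  (nat_lit 88, nat_lit 21610635264)]⟩,
  ⟨V5_14111219712, nat_lit 13, [(nat_lit 9, nat_lit 16325812224),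
  (nat_lit 118, nat_lit 17382776832), (nat_lit 107, nat_lit 18439741440),
  (nat_lit 49, nat_lit 19496706048), (nat_lit 120, nat_lit 20553670656)]⟩,
  ⟨V5_16225148928, nat_lit 10, [(nat_lit 103, nat_lit 16325812224),
  (nat_lit 108, nat_lit 17382776832), (nat_lit 38, nat_lit 18439741440),
  (nat_lit 113, nat_lit 19496706048), (nat_lit 9, nat_lit 20553670656),
  (nat_lit 54, nat_lit 21610635264), (nat_lit 119, nat_lit 22667599872)]⟩,
  ⟨V5_15201730560, nat_lit 12, [(nat_lit 45, nat_lit 16325812224),
  (nat_lit 5, nat_lit 17399549952), (nat_lit 54, nat_lit 17382776832),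
  (nat_lit 93, nat_lit 18473287680), (nat_lit 65, nat_lit 18456514560),
  (nat_lit 13, nat_lit 18439741440), (nat_lit 123, nat_lit 19530252288),
  (nat_lit 35, nat_lit 19513479168), (nat_lit 3, nat_lit 19496706048),
  (nat_lit 19, nat_lit 20587216896), (nat_lit 46, nat_lit 20570443776),
  (nat_lit 105, nat_lit 21644181504)]⟩,
  ⟨V5_14127992832, nat_lit 11, [(nat_lit 2, nat_lit 16325812224),
  (nat_lit 97, nat_lit 17399549952), (nat_lit 57, nat_lit 17382776832),
  (nat_lit 72, nat_lit 18456514560), (nat_lit 115, nat_lit 18439741440),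
  (nat_lit 24, nat_lit 19513479168), (nat_lit 83, nat_lit 19496706048),
  (nat_lit 21, nat_lit 20570443776)]⟩,
  ⟨V5_15234244608, nat_lit 5, [(nat_lit 46, nat_lit 16325812224),
  (nat_lit 14, nat_lit 17399291904), (nat_lit 29, nat_lit 17382776832),
  (nat_lit 7, nat_lit 18472771584), (nat_lit 74, nat_lit 18456256512),
  (nat_lit 98, nat_lit 19546251264), (nat_lit 20, nat_lit 19529736192),
  (nat_lit 100, nat_lit 20619730944), (nat_lit 16, nat_lit 20603215872),
  (nat_lit 121, nat_lit 21676695552)]⟩,
  ⟨V5_14177538048, nat_lit 2, [(nat_lit 57, nat_lit 16325812224),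
  (nat_lit 38, nat_lit 17399549952), (nat_lit 62, nat_lit 17399291904),
  (nat_lit 36, nat_lit 18473029632), (nat_lit 126, nat_lit 18472771584),
  (nat_lit 51, nat_lit 19546509312), (nat_lit 83, nat_lit 19546251264),
  (nat_lit 48, nat_lit 20619988992)]⟩], [
  W6_16324755456, W6_16308240384, W6_16307982336, W6_16291725312, W6_16291467264, W6_16291209216,
  W6_16275210240, W6_16274952192, W6_16274694144, W6_16258695168, W6_16258437120, W6_16258179072,
  W6_16241922048, W6_16241664000, W6_16225148928, W6_15251275776, W6_15251017728, W6_15234760704,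
  W6_15234502656, W6_15234244608, W6_15218245632, W6_15217987584, W6_15217729536, W6_15201730560,
  W6_15201472512, W6_15201214464, W6_15184957440, W6_15184699392, W6_15168184320, W6_14177796096,
  W6_14177538048, W6_14161281024, W6_14161022976, W6_14160764928, W6_14144765952, W6_14144507904,
  W6_14144249856, W6_14127992832, W6_14127734784, W6_14111219712]⟩

theorem F6_16325812224_chk : fwdChk 6 ks6 F6_16325812224 = true := by decide +kernel

noncomputable def F6_16325808192 : Fwd := ⟨V6_16325808192, [
  ⟨V5_16241922048, nat_lit 13, [(nat_lit 106, nat_lit 16325808192),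
  (nat_lit 40, nat_lit 17399549952), (nat_lit 84, nat_lit 17382772800),
  (nat_lit 57, nat_lit 18456514560), (nat_lit 110, nat_lit 18439737408),
  (nat_lit 62, nat_lit 19513479168), (nat_lit 12, nat_lit 19496702016),
  (nat_lit 4, nat_lit 20570443776), (nat_lit 67, nat_lit 20553666624),
  (nat_lit 74, nat_lit 21627408384), (nat_lit 23, nat_lit 21610631232),
  (nat_lit 41, nat_lit 22684372992)]⟩,
  ⟨V5_14127992832, nat_lit 11, [(nat_lit 45, nat_lit 16325808192),
  (nat_lit 90, nat_lit 17399549952), (nat_lit 91, nat_lit 17382772800),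
  (nat_lit 32, nat_lit 18456514560), (nat_lit 88, nat_lit 18439737408),
  (nat_lit 80, nat_lit 19513479168), (nat_lit 7, nat_lit 19496702016),
  (nat_lit 42, nat_lit 20570443776)]⟩,
  ⟨V5_14177538048, nat_lit 3, [(nat_lit 98, nat_lit 16325808192),
  (nat_lit 13, nat_lit 17399549952), (nat_lit 2, nat_lit 17399287872),
  (nat_lit 77, nat_lit 18473029632), (nat_lit 21, nat_lit 18472767552),
  (nat_lit 95, nat_lit 19546509312), (nat_lit 95, nat_lit 19546247232),
  (nat_lit 77, nat_lit 20619988992)]⟩,
  ⟨V5_14177275968, nat_lit 1, [(nat_lit 40, nat_lit 16325808192),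
  (nat_lit 7, nat_lit 17399287872), (nat_lit 31, nat_lit 18472767552),
  (nat_lit 14, nat_lit 19546247232), (nat_lit 48, nat_lit 20619726912)]⟩,
  ⟨V5_16324497408, nat_lit 2, [(nat_lit 95, nat_lit 16325808192),
  (nat_lit 65, nat_lit 17399549952), (nat_lit 89, nat_lit 17399287872),
  (nat_lit 74, nat_lit 18473029632), (nat_lit 33, nat_lit 18472767552),
  (nat_lit 8, nat_lit 19546509312), (nat_lit 112, nat_lit 19546247232),
  (nat_lit 27, nat_lit 20619988992), (nat_lit 104, nat_lit 20619726912),
  (nat_lit 34, nat_lit 21693468672), (nat_lit 101, nat_lit 21693206592),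
  (nat_lit 46, nat_lit 22766948352)]⟩], [
  W6_16324497408, W6_16307982336, W6_16291467264, W6_16291205184, W6_16274952192, W6_16274690112,
  W6_16258437120, W6_16258175040, W6_16241922048, W6_16241659968, W6_16225144896, W6_15251017728,
  W6_15234502656, W6_15234240576, W6_15217987584, W6_15217725504, W6_15201472512, W6_15201210432,
  W6_15184957440, W6_15184695360, W6_15168180288, W6_14177538048, W6_14177275968, W6_14161022976,
  W6_14160760896, W6_14144507904, W6_14144245824, W6_14127992832, W6_14127730752, W6_14111215680]⟩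

theorem F6_16325808192_chk : fwdChk 6 ks6 F6_16325808192 = true := by decide +kernel

noncomputable def F6_16325296128 : Fwd := ⟨V6_16325296128, [
  ⟨V5_15234760704, nat_lit 9, [(nat_lit 19, nat_lit 16325296128),
  (nat_lit 121, nat_lit 17399033856), (nat_lit 39, nat_lit 17382260736),
  (nat_lit 35, nat_lit 18472771584), (nat_lit 20, nat_lit 18455998464),
  (nat_lit 58, nat_lit 19546509312), (nat_lit 93, nat_lit 19529736192),
  (nat_lit 111, nat_lit 20620247040), (nat_lit 73, nat_lit 20603473920),
  (nat_lit 62, nat_lit 21677211648)]⟩,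
  ⟨V5_15167668224, nat_lit 8, [(nat_lit 14, nat_lit 16325296128),
  (nat_lit 92, nat_lit 17382260736), (nat_lit 42, nat_lit 18439225344),
  (nat_lit 99, nat_lit 19496189952), (nat_lit 10, nat_lit 20553154560),
  (nat_lit 62, nat_lit 21610119168)]⟩,
  ⟨V5_16224632832, nat_lit 4, [(nat_lit 42, nat_lit 16325296128),
  (nat_lit 65, nat_lit 17382260736), (nat_lit 124, nat_lit 18439225344),
  (nat_lit 88, nat_lit 19496189952), (nat_lit 16, nat_lit 20553154560),
  (nat_lit 96, nat_lit 21610119168), (nat_lit 14, nat_lit 22667083776)]⟩,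
  ⟨V5_14177796096, nat_lit 3, [(nat_lit 53, nat_lit 16325296128),
  (nat_lit 59, nat_lit 17399033856), (nat_lit 67, nat_lit 18472771584),
  (nat_lit 18, nat_lit 19546509312), (nat_lit 28, nat_lit 20620247040)]⟩,
  ⟨V5_14110703616, nat_lit 3, [(nat_lit 28, nat_lit 16325296128),
  (nat_lit 99, nat_lit 17382260736), (nat_lit 93, nat_lit 18439225344),
  (nat_lit 96, nat_lit 19496189952), (nat_lit 77, nat_lit 20553154560)]⟩], [
  W6_16291725312, W6_16274952192, W6_16258179072, W6_16241405952, W6_16224632832, W6_15234760704,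
  W6_15217987584, W6_15201214464, W6_15184441344, W6_15167668224, W6_14177796096, W6_14161022976,
  W6_14144249856, W6_14127476736, W6_14110703616]⟩

theorem F6_16325296128_chk : fwdChk 6 ks6 F6_16325296128 = true := by decide +kernel

noncomputable def F6_16309297152 : Fwd := ⟨V6_16309297152, [
  ⟨V5_13087801344, nat_lit 5, [(nat_lit 45, nat_lit 16309297152),
  (nat_lit 107, nat_lit 17383034880), (nat_lit 8, nat_lit 17382776832),
  (nat_lit 49, nat_lit 18456772608), (nat_lit 29, nat_lit 18456514560),
  (nat_lit 21, nat_lit 19530252288)]⟩,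
  ⟨V5_15234244608, nat_lit 5, [(nat_lit 17, nat_lit 16309297152),
  (nat_lit 69, nat_lit 17382776832), (nat_lit 12, nat_lit 18456256512),
  (nat_lit 68, nat_lit 19529736192), (nat_lit 116, nat_lit 20603215872),
  (nat_lit 29, nat_lit 21676695552)]⟩,
  ⟨V5_13087285248, nat_lit 5, [(nat_lit 45, nat_lit 16309297152),
  (nat_lit 18, nat_lit 17382776832), (nat_lit 115, nat_lit 18456256512),
  (nat_lit 120, nat_lit 19529736192)]⟩,
  ⟨V5_13054255104, nat_lit 13, [(nat_lit 19, nat_lit 16309297152),
  (nat_lit 92, nat_lit 17382776832), (nat_lit 25, nat_lit 17366261760),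
  (nat_lit 93, nat_lit 18439741440), (nat_lit 122, nat_lit 18423226368),
  (nat_lit 60, nat_lit 19496706048)]⟩,
  ⟨V5_14094704640, nat_lit 8, [(nat_lit 112, nat_lit 16309297152),
  (nat_lit 24, nat_lit 17366261760), (nat_lit 109, nat_lit 18423226368),
  (nat_lit 25, nat_lit 19480190976), (nat_lit 8, nat_lit 20537155584)]⟩,
  ⟨V5_15168184320, nat_lit 16, [(nat_lit 100, nat_lit 16309297152),
  (nat_lit 42, nat_lit 17382776832), (nat_lit 101, nat_lit 17366261760),
  (nat_lit 67, nat_lit 18439741440), (nat_lit 82, nat_lit 18423226368),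
  (nat_lit 75, nat_lit 19496706048), (nat_lit 54, nat_lit 19480190976),
  (nat_lit 31, nat_lit 20553670656), (nat_lit 50, nat_lit 20537155584),
  (nat_lit 27, nat_lit 21610635264)]⟩,
  ⟨V5_15234760704, nat_lit 9, [(nat_lit 81, nat_lit 16309297152),
  (nat_lit 63, nat_lit 17383034880), (nat_lit 12, nat_lit 17382776832),
  (nat_lit 111, nat_lit 18456772608), (nat_lit 35, nat_lit 18456514560),
  (nat_lit 113, nat_lit 18456256512), (nat_lit 85, nat_lit 19530252288),
  (nat_lit 73, nat_lit 19529994240), (nat_lit 45, nat_lit 19529736192),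
  (nat_lit 116, nat_lit 20603731968), (nat_lit 40, nat_lit 20603473920),
  (nat_lit 3, nat_lit 21677211648)]⟩,
  ⟨V5_13054513152, nat_lit 7, [(nat_lit 10, nat_lit 16309297152),
  (nat_lit 26, nat_lit 17383034880), (nat_lit 38, nat_lit 17366261760),
  (nat_lit 51, nat_lit 18439999488), (nat_lit 97, nat_lit 18423226368),
  (nat_lit 124, nat_lit 19496964096)]⟩,
  ⟨V5_14160764928, nat_lit 4, [(nat_lit 45, nat_lit 16309297152),
  (nat_lit 100, nat_lit 17382776832), (nat_lit 78, nat_lit 18456256512),
  (nat_lit 87, nat_lit 19529736192), (nat_lit 26, nat_lit 20603215872)]⟩,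
  ⟨V5_16225406976, nat_lit 4, [(nat_lit 122, nat_lit 16309297152),
  (nat_lit 65, nat_lit 17383034880), (nat_lit 64, nat_lit 17366261760),
  (nat_lit 5, nat_lit 18439999488), (nat_lit 103, nat_lit 18423226368),
  (nat_lit 12, nat_lit 19496964096), (nat_lit 19, nat_lit 19480190976),
  (nat_lit 43, nat_lit 20553928704), (nat_lit 116, nat_lit 20537155584),
  (nat_lit 85, nat_lit 21610893312), (nat_lit 53, nat_lit 21594120192),
  (nat_lit 17, nat_lit 22667857920)]⟩], [
  W6_16308240384, W6_16307982336, W6_16291725312, W6_16291467264, W6_16291209216, W6_16275210240,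
  W6_16274952192, W6_16274694144, W6_16258695168, W6_16258437120, W6_16258179072, W6_16242180096,
  W6_16241922048, W6_16241664000, W6_16225406976, W6_16225148928, W6_15234760704, W6_15234502656,
  W6_15234244608, W6_15218245632, W6_15217987584, W6_15217729536, W6_15201730560, W6_15201472512,
  W6_15201214464, W6_15185215488, W6_15184957440, W6_15184699392, W6_15168442368, W6_15168184320,
  W6_15151669248, W6_14161281024, W6_14161022976, W6_14160764928, W6_14144765952, W6_14144507904,
  W6_14144249856, W6_14128250880, W6_14127992832, W6_14127734784, W6_14111477760, W6_14111219712,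
  W6_14094704640, W6_13087801344, W6_13087543296, W6_13087285248, W6_13071286272, W6_13071028224,
  W6_13070770176, W6_13054513152, W6_13054255104, W6_13037740032]⟩

theorem F6_16309297152_chk : fwdChk 6 ks6 F6_16309297152 = true := by decide +kernel

noncomputable def F6_16309293120 : Fwd := ⟨V6_16309293120, [
  ⟨V5_13054513152, nat_lit 7, [(nat_lit 124, nat_lit 16309293120),
  (nat_lit 45, nat_lit 17383034880), (nat_lit 92, nat_lit 17366257728),
  (nat_lit 49, nat_lit 18439999488), (nat_lit 117, nat_lit 18423222336),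
  (nat_lit 67, nat_lit 19496964096)]⟩,
  ⟨V5_14161022976, nat_lit 6, [(nat_lit 61, nat_lit 16309293120),
  (nat_lit 8, nat_lit 17383034880), (nat_lit 35, nat_lit 17382772800),
  (nat_lit 112, nat_lit 18456514560), (nat_lit 97, nat_lit 18456252480),
  (nat_lit 29, nat_lit 19529994240), (nat_lit 22, nat_lit 19529732160),
  (nat_lit 79, nat_lit 20603473920)]⟩,
  ⟨V5_15151665216, nat_lit 3, [(nat_lit 102, nat_lit 16309293120),
  (nat_lit 75, nat_lit 17366257728), (nat_lit 27, nat_lit 18423222336),
  (nat_lit 17, nat_lit 19480186944), (nat_lit 73, nat_lit 20537151552),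
  (nat_lit 110, nat_lit 21594116160)]⟩,
  ⟨V5_14111477760, nat_lit 8, [(nat_lit 60, nat_lit 16309293120),
  (nat_lit 9, nat_lit 17383034880), (nat_lit 68, nat_lit 17366257728),
  (nat_lit 4, nat_lit 18439999488), (nat_lit 22, nat_lit 18423222336),
  (nat_lit 19, nat_lit 19496964096), (nat_lit 64, nat_lit 19480186944),
  (nat_lit 1, nat_lit 20553928704)]⟩,
  ⟨V5_16307982336, nat_lit 5, [(nat_lit 66, nat_lit 16309293120),
  (nat_lit 20, nat_lit 17383034880), (nat_lit 107, nat_lit 17382772800),
  (nat_lit 33, nat_lit 18456514560), (nat_lit 54, nat_lit 18456252480),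
  (nat_lit 67, nat_lit 19529994240), (nat_lit 20, nat_lit 19529732160),
  (nat_lit 86, nat_lit 20603473920), (nat_lit 7, nat_lit 20603211840),
  (nat_lit 34, nat_lit 21676953600), (nat_lit 28, nat_lit 21676691520),
  (nat_lit 35, nat_lit 22750433280)]⟩,
  ⟨V5_13071028224, nat_lit 6, [(nat_lit 47, nat_lit 16309293120),
  (nat_lit 58, nat_lit 17383034880), (nat_lit 117, nat_lit 17382772800),
  (nat_lit 20, nat_lit 17366257728), (nat_lit 88, nat_lit 18456514560),
  (nat_lit 74, nat_lit 18439999488), (nat_lit 57, nat_lit 18439737408),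
  (nat_lit 5, nat_lit 19513479168)]⟩], [
  W6_16307982336, W6_16291467264, W6_16291205184, W6_16274952192, W6_16274690112, W6_16258437120,
  W6_16258175040, W6_16241922048, W6_16241659968, W6_16225406976, W6_16225144896, W6_15234502656,
  W6_15234240576, W6_15217987584, W6_15217725504, W6_15201472512, W6_15201210432, W6_15184957440,
  W6_15184695360, W6_15168442368, W6_15168180288, W6_15151665216, W6_14161022976, W6_14160760896,
  W6_14144507904, W6_14144245824, W6_14127992832, W6_14127730752, W6_14111477760, W6_14111215680,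
  W6_14094700608, W6_13087543296, W6_13071028224, W6_13070766144, W6_13054513152, W6_13054251072,
  W6_13037736000]⟩

theorem F6_16309293120_chk : fwdChk 6 ks6 F6_16309293120 = true := by decide +kernel

noncomputable def F6_16308781056 : Fwd := ⟨V6_16308781056, [
  ⟨V5_14161281024, nat_lit 5, [(nat_lit 102, nat_lit 16308781056),
  (nat_lit 80, nat_lit 17382518784), (nat_lit 93, nat_lit 18456256512),
  (nat_lit 61, nat_lit 19529994240), (nat_lit 109, nat_lit 20603731968)]⟩,
  ⟨V5_15234760704, nat_lit 9, [(nat_lit 114, nat_lit 16308781056),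
  (nat_lit 31, nat_lit 17382518784), (nat_lit 33, nat_lit 17382260736),
  (nat_lit 84, nat_lit 18456256512), (nat_lit 110, nat_lit 18455998464),
  (nat_lit 75, nat_lit 19529994240), (nat_lit 110, nat_lit 19529736192),
  (nat_lit 29, nat_lit 20603731968), (nat_lit 8, nat_lit 20603473920),
  (nat_lit 102, nat_lit 21677211648)]⟩,
  ⟨V5_13087285248, nat_lit 5, [(nat_lit 81, nat_lit 16308781056),
  (nat_lit 93, nat_lit 17382518784), (nat_lit 93, nat_lit 17382260736),
  (nat_lit 72, nat_lit 18456256512), (nat_lit 53, nat_lit 18455998464),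
  (nat_lit 124, nat_lit 19529736192)]⟩,
  ⟨V5_13053739008, nat_lit 6, [(nat_lit 103, nat_lit 16308781056),
  (nat_lit 32, nat_lit 17382260736), (nat_lit 87, nat_lit 17365745664),
  (nat_lit 116, nat_lit 18439225344), (nat_lit 56, nat_lit 18422710272),
  (nat_lit 48, nat_lit 19496189952)]⟩,
  ⟨V5_16275210240, nat_lit 11, [(nat_lit 73, nat_lit 16308781056),
  (nat_lit 80, nat_lit 17382518784), (nat_lit 60, nat_lit 17365745664),
  (nat_lit 110, nat_lit 18456256512), (nat_lit 5, nat_lit 18439483392),
  (nat_lit 105, nat_lit 18422710272), (nat_lit 23, nat_lit 19529994240),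
  (nat_lit 83, nat_lit 19513221120), (nat_lit 118, nat_lit 19496448000),
  (nat_lit 49, nat_lit 20603731968), (nat_lit 95, nat_lit 20586958848),
  (nat_lit 80, nat_lit 20570185728), (nat_lit 121, nat_lit 21660696576),
  (nat_lit 101, nat_lit 21643923456), (nat_lit 99, nat_lit 22717661184)]⟩,
  ⟨V5_13070770176, nat_lit 7, [(nat_lit 63, nat_lit 16308781056),
  (nat_lit 54, nat_lit 17382518784), (nat_lit 56, nat_lit 17365745664),
  (nat_lit 22, nat_lit 18456256512), (nat_lit 10, nat_lit 18439483392),
  (nat_lit 68, nat_lit 19513221120)]⟩,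
  ⟨V5_15218245632, nat_lit 7, [(nat_lit 4, nat_lit 16308781056),
  (nat_lit 18, nat_lit 17382518784), (nat_lit 83, nat_lit 17365745664),
  (nat_lit 68, nat_lit 18456256512), (nat_lit 54, nat_lit 18439483392),
  (nat_lit 48, nat_lit 19529994240), (nat_lit 66, nat_lit 19513221120),
  (nat_lit 39, nat_lit 20603731968), (nat_lit 113, nat_lit 20586958848),
  (nat_lit 17, nat_lit 21660696576)]⟩,
  ⟨V5_13087543296, nat_lit 2, [(nat_lit 9, nat_lit 16308781056),
  (nat_lit 31, nat_lit 17382518784), (nat_lit 72, nat_lit 18456256512),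
  (nat_lit 19, nat_lit 19529994240)]⟩,
  ⟨V5_16208117760, nat_lit 2, [(nat_lit 58, nat_lit 16308781056),
  (nat_lit 1, nat_lit 17365745664), (nat_lit 72, nat_lit 18422710272),
  (nat_lit 81, nat_lit 19479674880), (nat_lit 54, nat_lit 20536639488),
  (nat_lit 57, nat_lit 21593604096), (nat_lit 74, nat_lit 22650568704)]⟩], [
  W6_16291725312, W6_16275210240, W6_16274952192, W6_16258437120, W6_16258179072, W6_16241664000,
  W6_16241405952, W6_16224890880, W6_16224632832, W6_16208117760, W6_15234760704, W6_15218245632,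
  W6_15217987584, W6_15201472512, W6_15201214464, W6_15184699392, W6_15184441344, W6_15167926272,
  W6_15167668224, W6_15151153152, W6_14161281024, W6_14161022976, W6_14144507904, W6_14144249856,
  W6_14127734784, W6_14127476736, W6_14110961664, W6_14110703616, W6_14094188544, W6_13087543296,
  W6_13087285248, W6_13070770176, W6_13070512128, W6_13053997056, W6_13053739008, W6_13037223936]⟩

theorem F6_16308781056_chk : fwdChk 6 ks6 F6_16308781056 = true := by decide +kernel

noncomputable def F6_16308518976 : Fwd := ⟨V6_16308518976, [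
  ⟨V5_13087285248, nat_lit 5, [(nat_lit 58, nat_lit 16308518976),
  (nat_lit 64, nat_lit 17382260736), (nat_lit 63, nat_lit 17382256704),
  (nat_lit 47, nat_lit 18455998464), (nat_lit 32, nat_lit 18455994432),
  (nat_lit 45, nat_lit 19529736192)]⟩,
  ⟨V5_13053739008, nat_lit 6, [(nat_lit 8, nat_lit 16308518976), (nat_lit 7, nat_lit 17382260736),
  (nat_lit 51, nat_lit 17365483584), (nat_lit 81, nat_lit 18439225344),
  (nat_lit 69, nat_lit 18422448192), (nat_lit 33, nat_lit 19496189952)]⟩,
  ⟨V5_14161022976, nat_lit 6, [(nat_lit 96, nat_lit 16308518976),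
  (nat_lit 60, nat_lit 17382260736), (nat_lit 93, nat_lit 17382256704),
  (nat_lit 62, nat_lit 18455998464), (nat_lit 58, nat_lit 18455994432),
  (nat_lit 107, nat_lit 19529736192), (nat_lit 6, nat_lit 19529732160),
  (nat_lit 6, nat_lit 20603473920)]⟩,
  ⟨V5_15167668224, nat_lit 8, [(nat_lit 116, nat_lit 16308518976),
  (nat_lit 50, nat_lit 17382260736), (nat_lit 119, nat_lit 17365483584),
  (nat_lit 115, nat_lit 18439225344), (nat_lit 77, nat_lit 18422448192),
  (nat_lit 13, nat_lit 19496189952), (nat_lit 52, nat_lit 19479412800),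
  (nat_lit 112, nat_lit 20553154560), (nat_lit 24, nat_lit 20536377408),
  (nat_lit 15, nat_lit 21610119168)]⟩,
  ⟨V5_15217987584, nat_lit 9, [(nat_lit 78, nat_lit 16308518976),
  (nat_lit 6, nat_lit 17382260736), (nat_lit 83, nat_lit 17382256704),
  (nat_lit 60, nat_lit 17365483584), (nat_lit 27, nat_lit 18455998464),
  (nat_lit 89, nat_lit 18455994432), (nat_lit 61, nat_lit 18439225344),
  (nat_lit 19, nat_lit 18439221312), (nat_lit 102, nat_lit 19529736192),
  (nat_lit 77, nat_lit 19529732160), (nat_lit 81, nat_lit 19512963072),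
  (nat_lit 52, nat_lit 19512959040), (nat_lit 72, nat_lit 20603473920),
  (nat_lit 99, nat_lit 20586700800), (nat_lit 61, nat_lit 20586696768),
  (nat_lit 106, nat_lit 21660438528)]⟩], [
  W6_16274952192, W6_16258179072, W6_16258175040, W6_16241405952, W6_16241401920, W6_16224632832,
  W6_16224628800, W6_16207855680, W6_15217987584, W6_15201214464, W6_15201210432, W6_15184441344,
  W6_15184437312, W6_15167668224, W6_15167664192, W6_15150891072, W6_14161022976, W6_14144249856,
  W6_14144245824, W6_14127476736, W6_14127472704, W6_14110703616, W6_14110699584, W6_14093926464,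
  W6_13087285248, W6_13070512128, W6_13070508096, W6_13053739008, W6_13053734976, W6_13036961856]⟩

theorem F6_16308518976_chk : fwdChk 6 ks6 F6_16308518976 = true := by decide +kernel

noncomputable def F6_16308252864 : Fwd := ⟨V6_16308252864, [
  ⟨V5_14143991808, nat_lit 2, [(nat_lit 5, nat_lit 16308252864),
  (nat_lit 97, nat_lit 17381994624), (nat_lit 61, nat_lit 17365217472),
  (nat_lit 111, nat_lit 18455736384), (nat_lit 8, nat_lit 18438959232),
  (nat_lit 36, nat_lit 19529478144), (nat_lit 18, nat_lit 19512700992),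
  (nat_lit 14, nat_lit 20586442752)]⟩], [
  W6_16257921024, W6_16241143872, W6_15200956416, W6_15184179264, W6_14143991808, W6_14127214656,
  W6_14110437504, W6_13070250048]⟩

theorem F6_16308252864_chk : fwdChk 6 ks6 F6_16308252864 = true := by decide +kernel

noncomputable def F6_16308248706 : Fwd := ⟨V6_16308248706, [
  ⟨V5_13086761088, nat_lit 1, [(nat_lit 71, nat_lit 16308248706),
  (nat_lit 73, nat_lit 17381990529), (nat_lit 87, nat_lit 17381728386),
  (nat_lit 63, nat_lit 18455732352), (nat_lit 104, nat_lit 18455470209),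
  (nat_lit 50, nat_lit 19529212032)]⟩,
  ⟨V5_13070246016, nat_lit 1, [(nat_lit 48, nat_lit 16308248706),
  (nat_lit 91, nat_lit 17381990529), (nat_lit 87, nat_lit 17365213314),
  (nat_lit 49, nat_lit 18455732352), (nat_lit 79, nat_lit 18438955137),
  (nat_lit 18, nat_lit 19512696960)]⟩], [
  W6_16257654912, W6_16241139840, W6_15200690304, W6_15184175232, W6_14127210624, W6_13086761088,
  W6_13070246016]⟩

theorem F6_16308248706_chk : fwdChk 6 ks6 F6_16308248706 = true := by decide +kernel

noncomputable def F6_16292782080 : Fwd := ⟨V6_16292782080, [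
  ⟨V5_13021224960, nat_lit 6, [(nat_lit 68, nat_lit 16292782080),
  (nat_lit 59, nat_lit 17349746688), (nat_lit 11, nat_lit 18406711296),
  (nat_lit 104, nat_lit 19463675904)]⟩,
  ⟨V5_16291209216, nat_lit 5, [(nat_lit 22, nat_lit 16292782080),
  (nat_lit 59, nat_lit 17366261760), (nat_lit 16, nat_lit 18439741440),
  (nat_lit 51, nat_lit 19513221120), (nat_lit 121, nat_lit 20586700800),
  (nat_lit 24, nat_lit 21660180480), (nat_lit 64, nat_lit 22733660160)]⟩,
  ⟨V5_13054771200, nat_lit 5, [(nat_lit 43, nat_lit 16292782080),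
  (nat_lit 110, nat_lit 17366519808), (nat_lit 10, nat_lit 17349746688),
  (nat_lit 9, nat_lit 18440257536), (nat_lit 108, nat_lit 18423484416),
  (nat_lit 98, nat_lit 19497222144)]⟩,
  ⟨V5_11997548544, nat_lit 3, [(nat_lit 54, nat_lit 16292782080),
  (nat_lit 105, nat_lit 17366519808), (nat_lit 78, nat_lit 17366261760),
  (nat_lit 34, nat_lit 18439999488)]⟩,
  ⟨V5_15168700416, nat_lit 5, [(nat_lit 34, nat_lit 16292782080),
  (nat_lit 118, nat_lit 17366519808), (nat_lit 12, nat_lit 17349746688),
  (nat_lit 3, nat_lit 18440257536), (nat_lit 104, nat_lit 18423484416),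
  (nat_lit 26, nat_lit 18406711296), (nat_lit 69, nat_lit 19497222144),
  (nat_lit 54, nat_lit 19480449024), (nat_lit 112, nat_lit 19463675904),
  (nat_lit 97, nat_lit 20554186752), (nat_lit 46, nat_lit 20537413632),
  (nat_lit 57, nat_lit 21611151360)]⟩,
  ⟨V5_13054255104, nat_lit 13, [(nat_lit 79, nat_lit 16292782080),
  (nat_lit 94, nat_lit 17366261760), (nat_lit 24, nat_lit 17349746688),
  (nat_lit 110, nat_lit 18439741440), (nat_lit 43, nat_lit 18423226368),
  (nat_lit 80, nat_lit 19496706048)]⟩,
  ⟨V5_13070770176, nat_lit 7, [(nat_lit 92, nat_lit 16292782080),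
  (nat_lit 63, nat_lit 17366261760), (nat_lit 110, nat_lit 18439741440),
  (nat_lit 32, nat_lit 19513221120)]⟩,
  ⟨V5_15217729536, nat_lit 7, [(nat_lit 80, nat_lit 16292782080),
  (nat_lit 61, nat_lit 17366261760), (nat_lit 108, nat_lit 18439741440),
  (nat_lit 37, nat_lit 19513221120), (nat_lit 126, nat_lit 20586700800),
  (nat_lit 80, nat_lit 21660180480)]⟩,
  ⟨V5_11980775424, nat_lit 5, [(nat_lit 11, nat_lit 16292782080),
  (nat_lit 107, nat_lit 17366261760), (nat_lit 3, nat_lit 17349746688),
  (nat_lit 75, nat_lit 18423226368)]⟩,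
  ⟨V5_14144249856, nat_lit 8, [(nat_lit 55, nat_lit 16292782080),
  (nat_lit 100, nat_lit 17366261760), (nat_lit 41, nat_lit 18439741440),
  (nat_lit 43, nat_lit 19513221120), (nat_lit 65, nat_lit 20586700800)]⟩,
  ⟨V5_11964260352, nat_lit 3, [(nat_lit 46, nat_lit 16292782080),
  (nat_lit 27, nat_lit 17349746688), (nat_lit 105, nat_lit 18406711296)]⟩,
  ⟨V5_11997290496, nat_lit 1, [(nat_lit 69, nat_lit 16292782080),
  (nat_lit 58, nat_lit 17366261760), (nat_lit 65, nat_lit 18439741440)]⟩], [
  W6_16291725312, W6_16291467264, W6_16291209216, W6_16275210240, W6_16274952192, W6_16274694144,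
  W6_16258695168, W6_16258437120, W6_16258179072, W6_16242180096, W6_16241922048, W6_16241664000,
  W6_15218245632, W6_15217987584, W6_15217729536, W6_15201730560, W6_15201472512, W6_15201214464,
  W6_15185215488, W6_15184957440, W6_15184699392, W6_15168700416, W6_15168442368, W6_15168184320,
  W6_14144765952, W6_14144507904, W6_14144249856, W6_14128250880, W6_14127992832, W6_14127734784,
  W6_14111735808, W6_14111477760, W6_14111219712, W6_14094962688, W6_14094704640, W6_13071286272,
  W6_13071028224, W6_13070770176, W6_13054771200, W6_13054513152, W6_13054255104, W6_13037998080,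
  W6_13037740032, W6_13021224960, W6_11997548544, W6_11997290496, W6_11981033472, W6_11980775424,
  W6_11964260352]⟩

theorem F6_16292782080_chk : fwdChk 6 ks6 F6_16292782080 = true := by decide +kernel

noncomputable def F6_16292007936 : Fwd := ⟨V6_16292007936, [
  ⟨V5_15218245632, nat_lit 7, [(nat_lit 75, nat_lit 16292007936),
  (nat_lit 114, nat_lit 17365745664), (nat_lit 31, nat_lit 18439483392),
  (nat_lit 84, nat_lit 19513221120), (nat_lit 75, nat_lit 20586958848),
  (nat_lit 29, nat_lit 21660696576)]⟩,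
  ⟨V5_14144507904, nat_lit 9, [(nat_lit 37, nat_lit 16292007936),
  (nat_lit 47, nat_lit 17365745664), (nat_lit 96, nat_lit 18439483392),
  (nat_lit 75, nat_lit 19513221120), (nat_lit 63, nat_lit 20586958848)]⟩,
  ⟨V5_13070770176, nat_lit 7, [(nat_lit 40, nat_lit 16292007936),
  (nat_lit 5, nat_lit 17365745664), (nat_lit 81, nat_lit 18439483392),
  (nat_lit 75, nat_lit 19513221120)]⟩,
  ⟨V5_11997032448, nat_lit 3, [(nat_lit 81, nat_lit 16292007936),
  (nat_lit 41, nat_lit 17365745664), (nat_lit 71, nat_lit 18439483392)]⟩,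
  ⟨V5_11963486208, nat_lit 2, [(nat_lit 92, nat_lit 16292007936),
  (nat_lit 54, nat_lit 17348972544), (nat_lit 83, nat_lit 18405937152)]⟩], [
  W6_16275210240, W6_16258437120, W6_16241664000, W6_16224890880, W6_16208117760, W6_15218245632,
  W6_15201472512, W6_15184699392, W6_15167926272, W6_15151153152, W6_14144507904, W6_14127734784,
  W6_14110961664, W6_14094188544, W6_14077415424, W6_13070770176, W6_13053997056, W6_13037223936,
  W6_13020450816, W6_11997032448, W6_11980259328, W6_11963486208]⟩

theorem F6_16292007936_chk : fwdChk 6 ks6 F6_16292007936 = true := by decide +kernel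

noncomputable def F6_16291995777 : Fwd := ⟨V6_16291995777, [
  ⟨V5_11997028416, nat_lit 2, [(nat_lit 66, nat_lit 16291995777),
  (nat_lit 7, nat_lit 17365737600), (nat_lit 119, nat_lit 17365737537),
  (nat_lit 4, nat_lit 18439479360)]⟩,
  ⟨V5_13053993024, nat_lit 5, [(nat_lit 110, nat_lit 16291995777),
  (nat_lit 68, nat_lit 17365737600), (nat_lit 27, nat_lit 17365737537),
  (nat_lit 92, nat_lit 17348960385), (nat_lit 110, nat_lit 18439479360),
  (nat_lit 30, nat_lit 18422702208), (nat_lit 67, nat_lit 18422702145),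
  (nat_lit 123, nat_lit 19496443968)]⟩,
  ⟨V5_13070508096, nat_lit 3, [(nat_lit 113, nat_lit 16291995777),
  (nat_lit 81, nat_lit 17365737600), (nat_lit 30, nat_lit 17365737537),
  (nat_lit 68, nat_lit 17365475457), (nat_lit 77, nat_lit 18439479360),
  (nat_lit 27, nat_lit 18439217280), (nat_lit 75, nat_lit 18439217217),
  (nat_lit 92, nat_lit 19512959040)]⟩,
  ⟨V5_13053730944, nat_lit 3, [(nat_lit 88, nat_lit 16291995777),
  (nat_lit 86, nat_lit 17365737600), (nat_lit 42, nat_lit 17365475457),
  (nat_lit 117, nat_lit 17348960385), (nat_lit 87, nat_lit 18439217280),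
  (nat_lit 108, nat_lit 18422702208), (nat_lit 46, nat_lit 18422440065),
  (nat_lit 58, nat_lit 19496181888)]⟩,
  ⟨V5_14094180480, nat_lit 3, [(nat_lit 5, nat_lit 16291995777), (nat_lit 8, nat_lit 17365737600),
  (nat_lit 60, nat_lit 17348960385), (nat_lit 75, nat_lit 18422702208),
  (nat_lit 51, nat_lit 18405924993), (nat_lit 8, nat_lit 19479666816),
  (nat_lit 93, nat_lit 19462889601), (nat_lit 79, nat_lit 20536631424)]⟩], [
  W6_16274432064, W6_16257916992, W6_16257654912, W6_16241401920, W6_16241139840, W6_16224886848,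
  W6_16224624768, W6_16208109696, W6_15217467456, W6_15200952384, W6_15200690304, W6_15184437312,
  W6_15184175232, W6_15167922240, W6_15167660160, W6_15151145088, W6_14143987776, W6_14127472704,
  W6_14127210624, W6_14110957632, W6_14110695552, W6_14094180480, W6_13070508096, W6_13070246016,
  W6_13053993024, W6_13053730944, W6_13037215872, W6_11997028416, W6_11980251264]⟩

theorem F6_16291995777_chk : fwdChk 6 ks6 F6_16291995777 = true := by decide +kernel

noncomputable def F6_16291741824 : Fwd := ⟨V6_16291741824, [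
  ⟨V5_13053739008, nat_lit 6, [(nat_lit 89, nat_lit 16291741824),
  (nat_lit 73, nat_lit 17365483584), (nat_lit 43, nat_lit 17348706432),
  (nat_lit 104, nat_lit 18439225344), (nat_lit 62, nat_lit 18422448192),
  (nat_lit 36, nat_lit 19496189952)]⟩,
  ⟨V5_14144249856, nat_lit 8, [(nat_lit 5, nat_lit 16291741824),
  (nat_lit 96, nat_lit 17365483584), (nat_lit 29, nat_lit 17365479552),
  (nat_lit 60, nat_lit 18439225344), (nat_lit 93, nat_lit 18439221312),
  (nat_lit 32, nat_lit 18439217280), (nat_lit 62, nat_lit 19512963072),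
  (nat_lit 58, nat_lit 19512959040), (nat_lit 107, nat_lit 20586700800)]⟩,
  ⟨V5_15201214464, nat_lit 15, [(nat_lit 100, nat_lit 16291741824),
  (nat_lit 57, nat_lit 17365483584), (nat_lit 27, nat_lit 17365479552),
  (nat_lit 68, nat_lit 17348706432), (nat_lit 125, nat_lit 18439225344),
  (nat_lit 47, nat_lit 18439221312), (nat_lit 47, nat_lit 18439217280),
  (nat_lit 105, nat_lit 18422448192), (nat_lit 1, nat_lit 18422444160),
  (nat_lit 104, nat_lit 19512963072), (nat_lit 84, nat_lit 19512959040),
  (nat_lit 96, nat_lit 19496189952), (nat_lit 58, nat_lit 19496185920),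
  (nat_lit 106, nat_lit 19496181888), (nat_lit 74, nat_lit 20586700800),
  (nat_lit 51, nat_lit 20569927680), (nat_lit 27, nat_lit 20569923648),
  (nat_lit 108, nat_lit 21643665408)]⟩,
  ⟨V5_13070512128, nat_lit 2, [(nat_lit 48, nat_lit 16291741824),
  (nat_lit 49, nat_lit 17365483584), (nat_lit 26, nat_lit 17365479552),
  (nat_lit 115, nat_lit 18439225344), (nat_lit 12, nat_lit 18439221312),
  (nat_lit 43, nat_lit 19512963072)]⟩,
  ⟨V5_11996770368, nat_lit 2, [(nat_lit 51, nat_lit 16291741824),
  (nat_lit 46, nat_lit 17365483584), (nat_lit 124, nat_lit 17365479552),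
  (nat_lit 81, nat_lit 18439221312)]⟩,
  ⟨V5_11979997248, nat_lit 2, [(nat_lit 39, nat_lit 16291741824),
  (nat_lit 110, nat_lit 17365483584), (nat_lit 30, nat_lit 17348706432),
  (nat_lit 107, nat_lit 18422448192)]⟩], [
  W6_16258179072, W6_16241405952, W6_16241401920, W6_16224632832, W6_16224628800, W6_16224624768,
  W6_16207855680, W6_16207851648, W6_16191078528, W6_15201214464, W6_15184441344, W6_15184437312,
  W6_15167668224, W6_15167664192, W6_15167660160, W6_15150891072, W6_15150887040, W6_15134113920,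
  W6_14144249856, W6_14127476736, W6_14127472704, W6_14110703616, W6_14110699584, W6_14110695552,
  W6_14093926464, W6_14093922432, W6_14077149312, W6_13070512128, W6_13070508096, W6_13053739008,
  W6_13053734976, W6_13053730944, W6_13036961856, W6_13036957824, W6_13020184704, W6_11996770368,
  W6_11979997248, W6_11979993216, W6_11963220096]⟩

theorem F6_16291741824_chk : fwdChk 6 ks6 F6_16291741824 = true := by decide +kernel

end Crest.Agent.R187.SN.Fwd
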