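import Crest.Agent.R187.SN.FwdDef
import Crest.Agent.R187.SN.TD.Ks
import Crest.Agent.R187.SN.TD.W6_0
import Crest.Agent.R187.SN.TD.W6_1
import Crest.Agent.R187.SN.TD.X5_0
import Crest.Agent.R187.SN.TD.X5_1
import Crest.Agent.R187.SN.TD.X6_2
import Crest.Agent.R187.SN.TD.X6_3

/-!
# Row 187, PLAN S, certificate E3: forward records of level `(6, 6)`, part 5

`F6_<key> : Fwd` = sources (table of level `(6, 5)`, number of rows, quadrature record) and
`W` tables of the table `V6_<key>`; each record is checked by the kernel.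
-/

set_option autoImplicit false
set_option Elab.async false
set_option maxRecDepth 100000

namespace Crest.Agent.R187.SN.Fwd

open Crest.Agent.R187.SN.Top

noncomputable def F6_16291741761 : Fwd := ⟨V6_16291741761, [
  ⟨V5_11996770368, nat_lit 2, [(nat_lit 24, nat_lit 16291741761),
  (nat_lit 11, nat_lit 17365483584), (nat_lit 57, nat_lit 17365479489),
  (nat_lit 12, nat_lit 18439221312)]⟩,
  ⟨V5_14144245824, nat_lit 4, [(nat_lit 69, nat_lit 16291741761),
  (nat_lit 101, nat_lit 17365483584), (nat_lit 101, nat_lit 17365479489),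
  (nat_lit 78, nat_lit 18439221312), (nat_lit 78, nat_lit 18439217217),
  (nat_lit 106, nat_lit 19512959040), (nat_lit 86, nat_lit 19512954945),
  (nat_lit 46, nat_lit 20586696768)]⟩,
  ⟨V5_11979997248, nat_lit 2, [(nat_lit 83, nat_lit 16291741761),
  (nat_lit 76, nat_lit 17365483584), (nat_lit 26, nat_lit 17348706369),
  (nat_lit 58, nat_lit 18422448192)]⟩,
  ⟨V5_13070508096, nat_lit 3, [(nat_lit 113, nat_lit 16291741761),
  (nat_lit 88, nat_lit 17365483584), (nat_lit 111, nat_lit 17365479489),
  (nat_lit 8, nat_lit 18439221312), (nat_lit 71, nat_lit 18439217217),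
  (nat_lit 123, nat_lit 19512959040)]⟩,
  ⟨V5_13036961856, nat_lit 2, [(nat_lit 75, nat_lit 16291741761),
  (nat_lit 3, nat_lit 17365483584), (nat_lit 19, nat_lit 17348706369),
  (nat_lit 76, nat_lit 18422448192), (nat_lit 64, nat_lit 18405670977),
  (nat_lit 64, nat_lit 19479412800)]⟩], [
  W6_16258175040, W6_16241401920, W6_16224628800, W6_16207855680, W6_15201210432, W6_15184437312,
  W6_15167664192, W6_15150891072, W6_14144245824, W6_14127472704, W6_14110699584, W6_14093926464,
  W6_13070508096, W6_13053734976, W6_13036961856, W6_11996770368, W6_11979997248]⟩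

theorem F6_16291741761_chk : fwdChk 6 ks6 F6_16291741761 = true := by decide +kernel

noncomputable def F6_16291733634 : Fwd := ⟨V6_16291733634, [
  ⟨V5_13053730944, nat_lit 3, [(nat_lit 110, nat_lit 16291733634),
  (nat_lit 51, nat_lit 17365475457), (nat_lit 114, nat_lit 17348698242),
  (nat_lit 50, nat_lit 18439217280), (nat_lit 105, nat_lit 18422440065),
  (nat_lit 37, nat_lit 19496181888)]⟩], [
  W6_16257654912, W6_16241139840, W6_16224624768, W6_15200690304, W6_15184175232, W6_15167660160,
  W6_14127210624, W6_14110695552, W6_13070246016, W6_13053730944]⟩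

theorem F6_16291733634_chk : fwdChk 6 ks6 F6_16291733634 = true := by decide +kernel

noncomputable def F6_16291475586 : Fwd := ⟨V6_16291475586, [
  ⟨V5_13070246016, nat_lit 1, [(nat_lit 18, nat_lit 16291475586),
  (nat_lit 88, nat_lit 17365217409), (nat_lit 41, nat_lit 17365213314),
  (nat_lit 126, nat_lit 18438959232), (nat_lit 35, nat_lit 18438955137),
  (nat_lit 65, nat_lit 19512696960)]⟩], [
  W6_16241139840, W6_15184175232, W6_14127210624, W6_14110437504, W6_13070246016]⟩

theorem F6_16291475586_chk : fwdChk 6 ks6 F6_16291475586 = true := by decide +kernel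

noncomputable def F6_16276267008 : Fwd := ⟨V6_16276267008, [
  ⟨V5_10907295744, nat_lit 3, [(nat_lit 118, nat_lit 16276267008),
  (nat_lit 3, nat_lit 17349746688)]⟩,
  ⟨V5_15201214464, nat_lit 15, [(nat_lit 62, nat_lit 16276267008),
  (nat_lit 27, nat_lit 17349746688), (nat_lit 33, nat_lit 18423226368),
  (nat_lit 100, nat_lit 19496706048), (nat_lit 43, nat_lit 20570185728),
  (nat_lit 108, nat_lit 21643665408)]⟩,
  ⟨V5_13054255104, nat_lit 13, [(nat_lit 40, nat_lit 16276267008),
  (nat_lit 18, nat_lit 17349746688), (nat_lit 40, nat_lit 18423226368),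
  (nat_lit 30, nat_lit 19496706048)]⟩,
  ⟨V5_13054771200, nat_lit 5, [(nat_lit 40, nat_lit 16276267008),
  (nat_lit 66, nat_lit 17350004736), (nat_lit 71, nat_lit 17349746688),
  (nat_lit 123, nat_lit 18423742464), (nat_lit 67, nat_lit 18423484416),
  (nat_lit 21, nat_lit 19497222144)]⟩,
  ⟨V5_10907553792, nat_lit 1, [(nat_lit 35, nat_lit 16276267008),
  (nat_lit 67, nat_lit 17350004736)]⟩,
  ⟨V5_11980775424, nat_lit 5, [(nat_lit 57, nat_lit 16276267008),
  (nat_lit 34, nat_lit 17349746688), (nat_lit 55, nat_lit 18423226368)]⟩,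
  ⟨V5_11981291520, nat_lit 1, [(nat_lit 90, nat_lit 16276267008),
  (nat_lit 112, nat_lit 17350004736), (nat_lit 16, nat_lit 18423742464)]⟩], [
  W6_16275210240, W6_16274952192, W6_16274694144, W6_16258695168, W6_16258437120, W6_16258179072,
  W6_15201730560, W6_15201472512, W6_15201214464, W6_15185215488, W6_15184957440, W6_15184699392,
  W6_14128250880, W6_14127992832, W6_14127734784, W6_14111735808, W6_14111477760, W6_14111219712,
  W6_13054771200, W6_13054513152, W6_13054255104, W6_13037998080, W6_13037740032, W6_11981291520,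
  W6_11981033472, W6_11980775424, W6_11964518400, W6_11964260352, W6_10907553792, W6_10907295744]⟩

theorem F6_16276267008_chk : fwdChk 6 ks6 F6_16276267008 = true := by decide +kernel

noncomputable def F6_16276262976 : Fwd := ⟨V6_16276262976, [
  ⟨V5_10907553792, nat_lit 1, [(nat_lit 47, nat_lit 16276262976),
  (nat_lit 28, nat_lit 17350004736)]⟩,
  ⟨V5_16274952192, nat_lit 13, [(nat_lit 126, nat_lit 16276262976),
  (nat_lit 74, nat_lit 17350004736), (nat_lit 19, nat_lit 17349742656),
  (nat_lit 14, nat_lit 18423484416), (nat_lit 89, nat_lit 18423222336),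
  (nat_lit 105, nat_lit 19496964096), (nat_lit 10, nat_lit 19496702016),
  (nat_lit 41, nat_lit 20570443776), (nat_lit 25, nat_lit 20570181696),
  (nat_lit 16, nat_lit 21643923456), (nat_lit 63, nat_lit 21643661376),
  (nat_lit 75, nat_lit 22717403136)]⟩,
  ⟨V5_11981033472, nat_lit 3, [(nat_lit 110, nat_lit 16276262976),
  (nat_lit 34, nat_lit 17350004736), (nat_lit 45, nat_lit 17349742656),
  (nat_lit 13, nat_lit 18423484416)]⟩,
  ⟨V5_11964256320, nat_lit 2, [(nat_lit 105, nat_lit 16276262976),
  (nat_lit 19, nat_lit 17349742656), (nat_lit 82, nat_lit 17333227584),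
  (nat_lit 98, nat_lit 18406707264)]⟩,
  ⟨V5_11964518400, nat_lit 1, [(nat_lit 81, nat_lit 16276262976),
  (nat_lit 89, nat_lit 17350004736), (nat_lit 111, nat_lit 17333227584),
  (nat_lit 124, nat_lit 18406969344)]⟩], [
  W6_16274952192, W6_16274690112, W6_16258437120, W6_16258175040, W6_15201472512, W6_15201210432,
  W6_15184957440, W6_15184695360, W6_14127992832, W6_14127730752, W6_14111477760, W6_14111215680,
  W6_13054513152, W6_13054251072, W6_13037998080, W6_13037736000, W6_11981033472, W6_11980771392,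
  W6_11964518400, W6_11964256320, W6_10907553792]⟩

theorem F6_16276262976_chk : fwdChk 6 ks6 F6_16276262976 = true := by decide +kernel

noncomputable def F6_16276008960 : Fwd := ⟨V6_16276008960, [
  ⟨V5_10907295744, nat_lit 3, [(nat_lit 4, nat_lit 16276008960),
  (nat_lit 61, nat_lit 17349746688)]⟩,
  ⟨V5_13054771200, nat_lit 5, [(nat_lit 31, nat_lit 16276008960),
  (nat_lit 89, nat_lit 17349746688), (nat_lit 44, nat_lit 18423484416),
  (nat_lit 125, nat_lit 19497222144)]⟩,
  ⟨V5_13021224960, nat_lit 6, [(nat_lit 36, nat_lit 16276008960),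
  (nat_lit 106, nat_lit 17349746688), (nat_lit 2, nat_lit 17332973568),
  (nat_lit 52, nat_lit 18406711296), (nat_lit 55, nat_lit 18389938176),
  (nat_lit 94, nat_lit 19463675904)]⟩,
  ⟨V5_15168700416, nat_lit 5, [(nat_lit 27, nat_lit 16276008960),
  (nat_lit 56, nat_lit 17349746688), (nat_lit 3, nat_lit 17332973568),
  (nat_lit 80, nat_lit 18423484416), (nat_lit 19, nat_lit 18406711296),
  (nat_lit 56, nat_lit 18389938176), (nat_lit 123, nat_lit 19497222144),
  (nat_lit 113, nat_lit 19480449024), (nat_lit 111, nat_lit 19463675904),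
  (nat_lit 26, nat_lit 20554186752), (nat_lit 36, nat_lit 20537413632),
  (nat_lit 104, nat_lit 21611151360)]⟩,
  ⟨V5_15201730560, nat_lit 12, [(nat_lit 86, nat_lit 16276008960),
  (nat_lit 40, nat_lit 17349746688), (nat_lit 73, nat_lit 17349488640),
  (nat_lit 121, nat_lit 18423484416), (nat_lit 21, nat_lit 18423226368),
  (nat_lit 100, nat_lit 18422968320), (nat_lit 86, nat_lit 19497222144),
  (nat_lit 71, nat_lit 19496964096), (nat_lit 3, nat_lit 19496706048),
  (nat_lit 44, nat_lit 20570701824), (nat_lit 97, nat_lit 20570443776),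
  (nat_lit 32, nat_lit 21644181504)]⟩,
  ⟨V5_11980517376, nat_lit 6, [(nat_lit 51, nat_lit 16276008960),
  (nat_lit 76, nat_lit 17349488640), (nat_lit 37, nat_lit 18422968320)]⟩,
  ⟨V5_11947487232, nat_lit 3, [(nat_lit 112, nat_lit 16276008960),
  (nat_lit 63, nat_lit 17332973568), (nat_lit 12, nat_lit 18389938176)]⟩,
  ⟨V5_13054255104, nat_lit 13, [(nat_lit 30, nat_lit 16276008960),
  (nat_lit 112, nat_lit 17349746688), (nat_lit 85, nat_lit 17349488640),
  (nat_lit 47, nat_lit 18423226368), (nat_lit 83, nat_lit 18422968320),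
  (nat_lit 78, nat_lit 19496706048)]⟩,
  ⟨V5_15201214464, nat_lit 15, [(nat_lit 59, nat_lit 16276008960),
  (nat_lit 41, nat_lit 17349746688), (nat_lit 93, nat_lit 17349488640),
  (nat_lit 61, nat_lit 18423226368), (nat_lit 57, nat_lit 18422968320),
  (nat_lit 6, nat_lit 19496706048), (nat_lit 98, nat_lit 19496448000),
  (nat_lit 52, nat_lit 20570185728), (nat_lit 44, nat_lit 20569927680),
  (nat_lit 47, nat_lit 21643665408)]⟩,
  ⟨V5_11981033472, nat_lit 3, [(nat_lit 49, nat_lit 16276008960),
  (nat_lit 12, nat_lit 17349746688), (nat_lit 63, nat_lit 18423484416)]⟩,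
  ⟨V5_10890522624, nat_lit 2, [(nat_lit 16, nat_lit 16276008960),
  (nat_lit 34, nat_lit 17332973568)]⟩], [
  W6_16275210240, W6_16274952192, W6_16274694144, W6_16258695168, W6_16258437120, W6_16258179072,
  W6_16257921024, W6_16242180096, W6_16241922048, W6_16241664000, W6_16241405952, W6_15201730560,
  W6_15201472512, W6_15201214464, W6_15200956416, W6_15185215488, W6_15184957440, W6_15184699392,
  W6_15184441344, W6_15168700416, W6_15168442368, W6_15168184320, W6_15167926272, W6_14128250880,
  W6_14127992832, W6_14127734784, W6_14127476736, W6_14111735808, W6_14111477760, W6_14111219712,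
  W6_14110961664, W6_14094962688, W6_14094704640, W6_14094446592, W6_13054771200, W6_13054513152,
  W6_13054255104, W6_13053997056, W6_13037998080, W6_13037740032, W6_13037481984, W6_13021224960,
  W6_13020966912, W6_11981033472, W6_11980775424, W6_11980517376, W6_11964260352, W6_11964002304,
  W6_11947487232, W6_10907295744, W6_10907037696, W6_10890522624]⟩

theorem F6_16276008960_chk : fwdChk 6 ks6 F6_16276008960 = true := by decide +kernel

noncomputable def F6_16276004928 : Fwd := ⟨V6_16276004928, [
  ⟨V5_10907295744, nat_lit 3, [(nat_lit 95, nat_lit 16276004928),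
  (nat_lit 62, nat_lit 17349746688)]⟩,
  ⟨V5_13021224960, nat_lit 6, [(nat_lit 73, nat_lit 16276004928),
  (nat_lit 89, nat_lit 17349746688), (nat_lit 32, nat_lit 17332969536),
  (nat_lit 118, nat_lit 18406711296), (nat_lit 49, nat_lit 18389934144),
  (nat_lit 12, nat_lit 19463675904)]⟩,
  ⟨V5_13054255104, nat_lit 13, [(nat_lit 109, nat_lit 16276004928),
  (nat_lit 118, nat_lit 17349746688), (nat_lit 24, nat_lit 17349484608),
  (nat_lit 82, nat_lit 18423226368), (nat_lit 78, nat_lit 18422964288),
  (nat_lit 51, nat_lit 19496706048)]⟩,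
  ⟨V5_15201214464, nat_lit 15, [(nat_lit 4, nat_lit 16276004928),
  (nat_lit 50, nat_lit 17349746688), (nat_lit 14, nat_lit 17349484608),
  (nat_lit 74, nat_lit 18423226368), (nat_lit 112, nat_lit 18422964288),
  (nat_lit 43, nat_lit 19496706048), (nat_lit 70, nat_lit 19496443968),
  (nat_lit 125, nat_lit 20570185728), (nat_lit 91, nat_lit 20569923648),
  (nat_lit 22, nat_lit 21643665408)]⟩,
  ⟨V5_11981033472, nat_lit 3, [(nat_lit 24, nat_lit 16276004928),
  (nat_lit 58, nat_lit 17349746688), (nat_lit 124, nat_lit 17349742656),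
  (nat_lit 75, nat_lit 18423484416)]⟩,
  ⟨V5_11980775424, nat_lit 5, [(nat_lit 111, nat_lit 16276004928),
  (nat_lit 110, nat_lit 17349746688), (nat_lit 23, nat_lit 17349484608),
  (nat_lit 81, nat_lit 18423226368)]⟩,
  ⟨V5_16274694144, nat_lit 9, [(nat_lit 118, nat_lit 16276004928),
  (nat_lit 84, nat_lit 17349746688), (nat_lit 45, nat_lit 17349484608),
  (nat_lit 51, nat_lit 18423226368), (nat_lit 110, nat_lit 18422964288),
  (nat_lit 87, nat_lit 19496706048), (nat_lit 42, nat_lit 19496443968),
  (nat_lit 71, nat_lit 20570185728), (nat_lit 36, nat_lit 20569923648),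
  (nat_lit 74, nat_lit 21643665408), (nat_lit 66, nat_lit 21643403328),
  (nat_lit 69, nat_lit 22717145088)]⟩,
  ⟨V5_13054513152, nat_lit 6, [(nat_lit 82, nat_lit 16276004928),
  (nat_lit 96, nat_lit 17349746688), (nat_lit 88, nat_lit 17349742656),
  (nat_lit 125, nat_lit 17349484608), (nat_lit 94, nat_lit 18423484416),
  (nat_lit 111, nat_lit 18423226368), (nat_lit 115, nat_lit 18423222336),
  (nat_lit 126, nat_lit 19496964096)]⟩,
  ⟨V5_16274432064, nat_lit 3, [(nat_lit 38, nat_lit 16276004928),
  (nat_lit 125, nat_lit 17349484608), (nat_lit 120, nat_lit 18422964288),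
  (nat_lit 65, nat_lit 19496443968), (nat_lit 82, nat_lit 20569923648),
  (nat_lit 53, nat_lit 21643403328), (nat_lit 99, nat_lit 22716883008)]⟩,
  ⟨V5_11947483200, nat_lit 2, [(nat_lit 63, nat_lit 16276004928),
  (nat_lit 91, nat_lit 17332969536), (nat_lit 102, nat_lit 18389934144)]⟩,
  ⟨V5_11964256320, nat_lit 2, [(nat_lit 31, nat_lit 16276004928),
  (nat_lit 58, nat_lit 17349742656), (nat_lit 110, nat_lit 17332969536),
  (nat_lit 34, nat_lit 18406707264)]⟩], [
  W6_16274952192, W6_16274694144, W6_16274690112, W6_16274432064, W6_16258437120, W6_16258179072,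
  W6_16258175040, W6_16257916992, W6_16241922048, W6_16241664000, W6_16241659968, W6_16241401920,
  W6_15201472512, W6_15201214464, W6_15201210432, W6_15200952384, W6_15184957440, W6_15184699392,
  W6_15184695360, W6_15184437312, W6_15168442368, W6_15168184320, W6_15168180288, W6_15167922240,
  W6_14127992832, W6_14127734784, W6_14127730752, W6_14127472704, W6_14111477760, W6_14111219712,
  W6_14111215680, W6_14110957632, W6_14094962688, W6_14094704640, W6_14094700608, W6_14094442560,
  W6_13054513152, W6_13054255104, W6_13054251072, W6_13053993024, W6_13037998080, W6_13037740032,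
  W6_13037736000, W6_13037477952, W6_13021224960, W6_13020962880, W6_11981033472, W6_11980775424,
  W6_11980771392, W6_11980513344, W6_11964260352, W6_11964256320, W6_11963998272, W6_11947483200,
  W6_10907295744, W6_10907033664, W6_10890518592]⟩

theorem F6_16276004928_chk : fwdChk 6 ks6 F6_16276004928 = true := by decide +kernel

noncomputable def F6_16275492864 : Fwd := ⟨V6_16275492864, [
  ⟨V5_15201730560, nat_lit 12, [(nat_lit 76, nat_lit 16275492864),
  (nat_lit 19, nat_lit 17349230592), (nat_lit 111, nat_lit 18422968320),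
  (nat_lit 14, nat_lit 19496706048), (nat_lit 76, nat_lit 20570443776),
  (nat_lit 26, nat_lit 21644181504)]⟩,
  ⟨V5_10906779648, nat_lit 4, [(nat_lit 46, nat_lit 16275492864),
  (nat_lit 10, nat_lit 17349230592)]⟩,
  ⟨V5_16275210240, nat_lit 11, [(nat_lit 23, nat_lit 16275492864),
  (nat_lit 60, nat_lit 17349230592), (nat_lit 122, nat_lit 17348972544),
  (nat_lit 10, nat_lit 18422968320), (nat_lit 82, nat_lit 18422710272),
  (nat_lit 116, nat_lit 19496706048), (nat_lit 63, nat_lit 19496448000),
  (nat_lit 40, nat_lit 20570443776), (nat_lit 48, nat_lit 20570185728),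
  (nat_lit 116, nat_lit 21644181504), (nat_lit 26, nat_lit 21643923456),
  (nat_lit 124, nat_lit 22717661184)]⟩,
  ⟨V5_13054255104, nat_lit 13, [(nat_lit 101, nat_lit 16275492864),
  (nat_lit 92, nat_lit 17349230592), (nat_lit 68, nat_lit 18422968320),
  (nat_lit 110, nat_lit 19496706048)]⟩,
  ⟨V5_14127992832, nat_lit 10, [(nat_lit 94, nat_lit 16275492864),
  (nat_lit 13, nat_lit 17349230592), (nat_lit 86, nat_lit 18422968320),
  (nat_lit 91, nat_lit 19496706048), (nat_lit 112, nat_lit 20570443776)]⟩,
  ⟨V5_16258695168, nat_lit 9, [(nat_lit 94, nat_lit 16275492864),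
  (nat_lit 108, nat_lit 17349230592), (nat_lit 77, nat_lit 17332457472),
  (nat_lit 103, nat_lit 18422968320), (nat_lit 92, nat_lit 18406195200),
  (nat_lit 20, nat_lit 19496706048), (nat_lit 91, nat_lit 19479932928),
  (nat_lit 126, nat_lit 20570443776), (nat_lit 78, nat_lit 20553670656),
  (nat_lit 13, nat_lit 21644181504), (nat_lit 23, nat_lit 21627408384),
  (nat_lit 34, nat_lit 22701146112)]⟩,
  ⟨V5_14060900352, nat_lit 3, [(nat_lit 27, nat_lit 16275492864),
  (nat_lit 29, nat_lit 17332457472), (nat_lit 76, nat_lit 18389422080),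
  (nat_lit 65, nat_lit 19446386688), (nat_lit 68, nat_lit 20503351296)]⟩,
  ⟨V5_10890006528, nat_lit 1, [(nat_lit 87, nat_lit 16275492864),
  (nat_lit 42, nat_lit 17332457472)]⟩], [
  W6_16275210240, W6_16258695168, W6_16258437120, W6_16241922048, W6_16241664000, W6_16225148928,
  W6_16224890880, W6_16208375808, W6_16208117760, W6_15201730560, W6_15201472512, W6_15184957440,
  W6_15184699392, W6_15168184320, W6_15167926272, W6_15151411200, W6_15151153152, W6_15134638080,
  W6_14127992832, W6_14127734784, W6_14111219712, W6_14110961664, W6_14094446592, W6_14094188544,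
  W6_14077673472, W6_14077415424, W6_14060900352, W6_13054255104, W6_13053997056, W6_13037481984,
  W6_13037223936, W6_13020708864, W6_13020450816, W6_13003935744, W6_11980517376, W6_11980259328,
  W6_11963744256, W6_11963486208, W6_11946971136, W6_10906779648, W6_10890006528]⟩

theorem F6_16275492864_chk : fwdChk 6 ks6 F6_16275492864 = true := by decide +kernel

noncomputable def F6_16274964672 : Fwd := ⟨V6_16274964672, [
  ⟨V5_13053739008, nat_lit 6, [(nat_lit 62, nat_lit 16274964672),
  (nat_lit 52, nat_lit 17348706432), (nat_lit 16, nat_lit 18422448192),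
  (nat_lit 76, nat_lit 19496189952)]⟩,
  ⟨V5_10906255488, nat_lit 2, [(nat_lit 20, nat_lit 16274964672),
  (nat_lit 2, nat_lit 17348706432)]⟩,
  ⟨V5_14127476736, nat_lit 8, [(nat_lit 9, nat_lit 16274964672),
  (nat_lit 86, nat_lit 17348706432), (nat_lit 109, nat_lit 17348702400),
  (nat_lit 51, nat_lit 18422448192), (nat_lit 67, nat_lit 18422444160),
  (nat_lit 16, nat_lit 19496189952), (nat_lit 101, nat_lit 19496185920),
  (nat_lit 25, nat_lit 20569927680)]⟩,
  ⟨V5_14110703616, nat_lit 5, [(nat_lit 116, nat_lit 16274964672),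
  (nat_lit 14, nat_lit 17348706432), (nat_lit 88, nat_lit 17331929280),
  (nat_lit 101, nat_lit 18422448192), (nat_lit 19, nat_lit 18405671040),
  (nat_lit 26, nat_lit 19496189952), (nat_lit 19, nat_lit 19479412800),
  (nat_lit 83, nat_lit 20553154560)]⟩,
  ⟨V5_11963216064, nat_lit 1, [(nat_lit 69, nat_lit 16274964672),
  (nat_lit 55, nat_lit 17348702400), (nat_lit 64, nat_lit 17331929280),
  (nat_lit 122, nat_lit 18405667008)]⟩], [
  W6_16241405952, W6_16224632832, W6_16224628800, W6_16207855680, W6_16207851648, W6_16191078528,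
  W6_15184441344, W6_15167668224, W6_15167664192, W6_15150891072, W6_15150887040, W6_15134113920,
  W6_14127476736, W6_14110703616, W6_14110699584, W6_14093926464, W6_14093922432, W6_14077149312,
  W6_14060372160, W6_13053739008, W6_13053734976, W6_13036961856, W6_13036957824, W6_13020184704,
  W6_13003407552, W6_11979997248, W6_11979993216, W6_11963220096, W6_11963216064, W6_11946442944,
  W6_10906255488]⟩

theorem F6_16274964672_chk : fwdChk 6 ks6 F6_16274964672 = true := by decide +kernel

noncomputable def F6_16274960577 : Fwd := ⟨V6_16274960577, [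
  ⟨V5_11963216064, nat_lit 1, [(nat_lit 99, nat_lit 16274960577),
  (nat_lit 78, nat_lit 17348702400), (nat_lit 77, nat_lit 17331925185),
  (nat_lit 121, nat_lit 18405667008)]⟩,
  ⟨V5_13053734976, nat_lit 3, [(nat_lit 114, nat_lit 16274960577),
  (nat_lit 122, nat_lit 17348702400), (nat_lit 29, nat_lit 17348702337),
  (nat_lit 4, nat_lit 18422444160), (nat_lit 36, nat_lit 18422444097),
  (nat_lit 11, nat_lit 19496185920)]⟩], [
  W6_16241143872, W6_16224628800, W6_16207851648, W6_15184179264, W6_15167664192, W6_15150887040,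
  W6_14127214656, W6_14110699584, W6_14110437504, W6_14093922432, W6_13053734976, W6_13036957824,
  W6_11979993216, W6_11963216064]⟩

theorem F6_16274960577_chk : fwdChk 6 ks6 F6_16274960577 = true := by decide +kernel

noncomputable def F6_16259231808 : Fwd := ⟨V6_16259231808, [
  ⟨V5_9816780864, nat_lit 1, [(nat_lit 2, nat_lit 16259231808)]⟩,
  ⟨V5_13021224960, nat_lit 6, [(nat_lit 86, nat_lit 16259231808),
  (nat_lit 50, nat_lit 17332973568), (nat_lit 20, nat_lit 17332969536),
  (nat_lit 80, nat_lit 17316196416), (nat_lit 50, nat_lit 18406711296),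
  (nat_lit 104, nat_lit 18389938176), (nat_lit 70, nat_lit 18389934144),
  (nat_lit 23, nat_lit 19463675904)]⟩,
  ⟨V5_10890522624, nat_lit 2, [(nat_lit 57, nat_lit 16259231808),
  (nat_lit 88, nat_lit 17332973568)]⟩,
  ⟨V5_11947487232, nat_lit 3, [(nat_lit 30, nat_lit 16259231808),
  (nat_lit 51, nat_lit 17332973568), (nat_lit 57, nat_lit 17316196416),
  (nat_lit 25, nat_lit 18389938176)]⟩,
  ⟨V5_13037481984, nat_lit 11, [(nat_lit 123, nat_lit 16259231808),
  (nat_lit 125, nat_lit 17332973568), (nat_lit 90, nat_lit 17332711488),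
  (nat_lit 117, nat_lit 18406453248), (nat_lit 102, nat_lit 18406191168),
  (nat_lit 96, nat_lit 19479932928)]⟩,
  ⟨V5_13037998080, nat_lit 4, [(nat_lit 87, nat_lit 16259231808),
  (nat_lit 64, nat_lit 17332973568), (nat_lit 80, nat_lit 17332969536),
  (nat_lit 110, nat_lit 18406711296), (nat_lit 111, nat_lit 18406707264),
  (nat_lit 13, nat_lit 19480449024)]⟩,
  ⟨V5_11964256320, nat_lit 2, [(nat_lit 77, nat_lit 16259231808),
  (nat_lit 37, nat_lit 17332969536), (nat_lit 99, nat_lit 18406707264)]⟩,
  ⟨V5_11964002304, nat_lit 5, [(nat_lit 106, nat_lit 16259231808),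
  (nat_lit 65, nat_lit 17332973568), (nat_lit 54, nat_lit 17332711488),
  (nat_lit 19, nat_lit 18406453248)]⟩,
  ⟨V5_15184441344, nat_lit 9, [(nat_lit 60, nat_lit 16259231808),
  (nat_lit 115, nat_lit 17332973568), (nat_lit 83, nat_lit 17332711488),
  (nat_lit 94, nat_lit 18406453248), (nat_lit 29, nat_lit 18406191168),
  (nat_lit 10, nat_lit 19479932928), (nat_lit 34, nat_lit 19479670848),
  (nat_lit 97, nat_lit 20553412608), (nat_lit 95, nat_lit 20553150528),
  (nat_lit 76, nat_lit 21626892288)]⟩,
  ⟨V5_11964260352, nat_lit 3, [(nat_lit 50, nat_lit 16259231808),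
  (nat_lit 20, nat_lit 17332973568), (nat_lit 60, nat_lit 17332969536),
  (nat_lit 27, nat_lit 18406711296)]⟩,
  ⟨V5_14110961664, nat_lit 10, [(nat_lit 118, nat_lit 16259231808),
  (nat_lit 112, nat_lit 17332973568), (nat_lit 21, nat_lit 17332711488),
  (nat_lit 91, nat_lit 18406453248), (nat_lit 29, nat_lit 18406191168),
  (nat_lit 86, nat_lit 19479932928), (nat_lit 28, nat_lit 19479670848),
  (nat_lit 49, nat_lit 20553412608)]⟩,
  ⟨V5_14094962688, nat_lit 4, [(nat_lit 50, nat_lit 16259231808),
  (nat_lit 111, nat_lit 17332973568), (nat_lit 101, nat_lit 17332969536),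
  (nat_lit 18, nat_lit 17316196416), (nat_lit 50, nat_lit 18406711296),
  (nat_lit 84, nat_lit 18406707264), (nat_lit 109, nat_lit 18389938176),
  (nat_lit 50, nat_lit 18389934144), (nat_lit 107, nat_lit 19480449024),
  (nat_lit 39, nat_lit 19463675904), (nat_lit 88, nat_lit 19463671872),
  (nat_lit 122, nat_lit 20537413632)]⟩,
  ⟨V5_10873745472, nat_lit 1, [(nat_lit 40, nat_lit 16259231808),
  (nat_lit 117, nat_lit 17316196416)]⟩], [
  W6_16258437120, W6_16258179072, W6_16258175040, W6_16257921024, W6_16257916992, W6_16241922048,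
  W6_16241664000, W6_16241659968, W6_16241405952, W6_16241401920, W6_16241143872, W6_15184957440,
  W6_15184699392, W6_15184695360, W6_15184441344, W6_15184437312, W6_15184179264, W6_15168442368,
  W6_15168184320, W6_15168180288, W6_15167926272, W6_15167922240, W6_15167664192, W6_14111477760,
  W6_14111219712, W6_14111215680, W6_14110961664, W6_14110957632, W6_14110699584, W6_14094962688,
  W6_14094704640, W6_14094700608, W6_14094446592, W6_14094442560, W6_14094184512, W6_13037998080,
  W6_13037740032, W6_13037736000, W6_13037481984, W6_13037477952, W6_13037219904, W6_13021224960,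
  W6_13020966912, W6_13020962880, W6_13020704832, W6_11964260352, W6_11964256320, W6_11964002304,
  W6_11963998272, W6_11963740224, W6_11947487232, W6_11947483200, W6_11947225152, W6_10890522624,
  W6_10890518592, W6_10890260544, W6_10873745472, W6_9816780864]⟩

theorem F6_16259231808_chk : fwdChk 6 ks6 F6_16259231808 = true := by decide +kernel

noncomputable def F6_16258719744 : Fwd := ⟨V6_16258719744, [
  ⟨V5_16258695168, nat_lit 10, [(nat_lit 44, nat_lit 16258719744),
  (nat_lit 108, nat_lit 17332457472), (nat_lit 94, nat_lit 18406195200),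
  (nat_lit 58, nat_lit 19479932928), (nat_lit 114, nat_lit 20553670656),
  (nat_lit 105, nat_lit 21627408384), (nat_lit 114, nat_lit 22701146112)]⟩,
  ⟨V5_10873233408, nat_lit 3, [(nat_lit 67, nat_lit 16258719744),
  (nat_lit 15, nat_lit 17315684352)]⟩,
  ⟨V5_12987162624, nat_lit 2, [(nat_lit 98, nat_lit 16258719744),
  (nat_lit 107, nat_lit 17315684352), (nat_lit 124, nat_lit 18372648960),
  (nat_lit 26, nat_lit 19429613568)]⟩,
  ⟨V5_15184957440, nat_lit 13, [(nat_lit 12, nat_lit 16258719744),
  (nat_lit 86, nat_lit 17332457472), (nat_lit 34, nat_lit 18406195200),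
  (nat_lit 106, nat_lit 19479932928), (nat_lit 33, nat_lit 20553670656),
  (nat_lit 39, nat_lit 21627408384)]⟩,
  ⟨V5_10890006528, nat_lit 1, [(nat_lit 11, nat_lit 16258719744),
  (nat_lit 82, nat_lit 17332457472)]⟩,
  ⟨V5_11930198016, nat_lit 1, [(nat_lit 86, nat_lit 16258719744),
  (nat_lit 126, nat_lit 17315684352), (nat_lit 99, nat_lit 18372648960)]⟩], [
  W6_16258695168, W6_16241922048, W6_16225148928, W6_16208375808, W6_15184957440, W6_15168184320,
  W6_15151411200, W6_15134638080, W6_14111219712, W6_14094446592, W6_14077673472, W6_14060900352,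
  W6_13037481984, W6_13020708864, W6_13003935744, W6_12987162624, W6_11963744256, W6_11946971136,
  W6_11930198016, W6_10890006528, W6_10873233408]⟩

theorem F6_16258719744_chk : fwdChk 6 ks6 F6_16258719744 = true := by decide +kernel

noncomputable def F6_16258187520 : Fwd := ⟨V6_16258187520, [
  ⟨V5_14110703616, nat_lit 5, [(nat_lit 7, nat_lit 16258187520), (nat_lit 9, nat_lit 17331929280),
  (nat_lit 86, nat_lit 18405671040), (nat_lit 51, nat_lit 19479412800),
  (nat_lit 16, nat_lit 20553154560)]⟩,
  ⟨V5_15100559616, nat_lit 1, [(nat_lit 11, nat_lit 16258187520),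
  (nat_lit 54, nat_lit 17315152128), (nat_lit 43, nat_lit 18372116736),
  (nat_lit 118, nat_lit 19429081344), (nat_lit 21, nat_lit 20486045952),
  (nat_lit 60, nat_lit 21543010560)]⟩,
  ⟨V5_10872701184, nat_lit 1, [(nat_lit 99, nat_lit 16258187520),
  (nat_lit 7, nat_lit 17315152128)]⟩,
  ⟨V5_12986630400, nat_lit 1, [(nat_lit 48, nat_lit 16258187520),
  (nat_lit 55, nat_lit 17315152128), (nat_lit 40, nat_lit 18372116736),
  (nat_lit 119, nat_lit 19429081344)]⟩], [
  W6_16224632832, W6_16207855680, W6_16191078528, W6_15167668224, W6_15150891072, W6_15134113920,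
  W6_15100559616, W6_14110703616, W6_14093926464, W6_14077149312, W6_14060372160, W6_13036961856,
  W6_13020184704, W6_13003407552, W6_12986630400, W6_11963220096, W6_11946442944, W6_10872701184]⟩

theorem F6_16258187520_chk : fwdChk 6 ks6 F6_16258187520 = true := by decide +kernel

noncomputable def F6_16242462720 : Fwd := ⟨V6_16242462720, [
  ⟨V5_15168700416, nat_lit 5, [(nat_lit 39, nat_lit 16242462720),
  (nat_lit 105, nat_lit 17316200448), (nat_lit 72, nat_lit 18389938176),
  (nat_lit 64, nat_lit 19463675904), (nat_lit 39, nat_lit 20537413632),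
  (nat_lit 10, nat_lit 21611151360)]⟩,
  ⟨V5_10873749504, nat_lit 3, [(nat_lit 124, nat_lit 16242462720),
  (nat_lit 38, nat_lit 17316200448)]⟩,
  ⟨V5_13021224960, nat_lit 6, [(nat_lit 45, nat_lit 16242462720),
  (nat_lit 85, nat_lit 17316200448), (nat_lit 107, nat_lit 18389938176),
  (nat_lit 5, nat_lit 19463675904)]⟩,
  ⟨V5_14094962688, nat_lit 4, [(nat_lit 34, nat_lit 16242462720),
  (nat_lit 2, nat_lit 17316200448), (nat_lit 23, nat_lit 18389938176),
  (nat_lit 14, nat_lit 19463675904), (nat_lit 27, nat_lit 20537413632)]⟩,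
  ⟨V5_16242180096, nat_lit 4, [(nat_lit 63, nat_lit 16242462720),
  (nat_lit 114, nat_lit 17316200448), (nat_lit 28, nat_lit 17315942400),
  (nat_lit 99, nat_lit 18389938176), (nat_lit 23, nat_lit 18389680128),
  (nat_lit 6, nat_lit 19463675904), (nat_lit 63, nat_lit 19463417856),
  (nat_lit 36, nat_lit 20537413632), (nat_lit 124, nat_lit 20537155584),
  (nat_lit 102, nat_lit 21611151360), (nat_lit 61, nat_lit 21610893312),
  (nat_lit 60, nat_lit 22684631040)]⟩,
  ⟨V5_11947487232, nat_lit 2, [(nat_lit 36, nat_lit 16242462720),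
  (nat_lit 117, nat_lit 17316200448), (nat_lit 88, nat_lit 18389938176)]⟩,
  ⟨V5_11946971136, nat_lit 3, [(nat_lit 32, nat_lit 16242462720),
  (nat_lit 95, nat_lit 17315942400), (nat_lit 78, nat_lit 18389422080)]⟩], [
  W6_16242180096, W6_16241922048, W6_16241664000, W6_15168700416, W6_15168442368, W6_15168184320,
  W6_15167926272, W6_14094962688, W6_14094704640, W6_14094446592, W6_14094188544, W6_13021224960,
  W6_13020966912, W6_13020708864, W6_13020450816, W6_11947487232, W6_11947229184, W6_11946971136,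
  W6_10873749504, W6_10873491456, W6_9800011776]⟩

theorem F6_16242462720_chk : fwdChk 6 ks6 F6_16242462720 = true := by decide +kernel

noncomputable def F6_16242450561 : Fwd := ⟨V6_16242450561, [
  ⟨V5_10873741440, nat_lit 2, [(nat_lit 68, nat_lit 16242450561),
  (nat_lit 54, nat_lit 17316192384)]⟩,
  ⟨V5_11947483200, nat_lit 2, [(nat_lit 21, nat_lit 16242450561),
  (nat_lit 8, nat_lit 17316192384), (nat_lit 9, nat_lit 17316192321),
  (nat_lit 59, nat_lit 18389934144)]⟩,
  ⟨V5_13020700800, nat_lit 4, [(nat_lit 99, nat_lit 16242450561),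
  (nat_lit 23, nat_lit 17316192384), (nat_lit 103, nat_lit 17315930241),
  (nat_lit 54, nat_lit 18389672064), (nat_lit 97, nat_lit 18389409921),
  (nat_lit 112, nat_lit 19463151744)]⟩], [
  W6_16241401920, W6_16241139840, W6_15167922240, W6_15167660160, W6_14094442560, W6_14094180480,
  W6_13020962880, W6_13020700800, W6_11947483200, W6_11947221120, W6_10873741440]⟩

theorem F6_16242450561_chk : fwdChk 6 ks6 F6_16242450561 = true := by decide +kernel

noncomputable def F6_16242204672 : Fwd := ⟨V6_16242204672, [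
  ⟨V5_10873233408, nat_lit 3, [(nat_lit 70, nat_lit 16242204672),
  (nat_lit 49, nat_lit 17315684352)]⟩,
  ⟨V5_16242180096, nat_lit 5, [(nat_lit 75, nat_lit 16242204672),
  (nat_lit 34, nat_lit 17315942400), (nat_lit 39, nat_lit 18389680128),
  (nat_lit 70, nat_lit 19463417856), (nat_lit 50, nat_lit 20537155584),
  (nat_lit 26, nat_lit 21610893312), (nat_lit 50, nat_lit 22684631040)]⟩,
  ⟨V5_15168442368, nat_lit 7, [(nat_lit 48, nat_lit 16242204672),
  (nat_lit 90, nat_lit 17315942400), (nat_lit 9, nat_lit 18389680128),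
  (nat_lit 43, nat_lit 19463417856), (nat_lit 5, nat_lit 20537155584),
  (nat_lit 29, nat_lit 21610893312)]⟩,
  ⟨V5_11947229184, nat_lit 4, [(nat_lit 50, nat_lit 16242204672),
  (nat_lit 85, nat_lit 17315942400), (nat_lit 77, nat_lit 18389680128)]⟩,
  ⟨V5_11930198016, nat_lit 1, [(nat_lit 91, nat_lit 16242204672),
  (nat_lit 56, nat_lit 17315684352), (nat_lit 24, nat_lit 17299169280),
  (nat_lit 49, nat_lit 18372648960)]⟩], [
  W6_16242180096, W6_16241922048, W6_16225406976, W6_16225148928, W6_15168442368, W6_15168184320,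
  W6_15151669248, W6_15151411200, W6_14094704640, W6_14094446592, W6_14077931520, W6_14077673472,
  W6_13020966912, W6_13020708864, W6_13004193792, W6_13003935744, W6_11947229184, W6_11946971136,
  W6_11930456064, W6_11930198016, W6_10873491456, W6_10873233408]⟩

theorem F6_16242204672_chk : fwdChk 6 ks6 F6_16242204672 = true := by decide +kernel

noncomputable def F6_16241668290 : Fwd := ⟨V6_16241668290, [
  ⟨V5_13003665600, nat_lit 1, [(nat_lit 9, nat_lit 16241668290),
  (nat_lit 34, nat_lit 17315410113), (nat_lit 121, nat_lit 17298632898),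
  (nat_lit 80, nat_lit 18389151936), (nat_lit 87, nat_lit 18372374721),
  (nat_lit 57, nat_lit 19446116544)]⟩], [
  W6_16207851648, W6_15150887040, W6_15134371968, W6_14093922432, W6_14077407360, W6_13020442752,
  W6_13003665600]⟩

theorem F6_16241668290_chk : fwdChk 6 ks6 F6_16241668290 = true := by decide +kernel

noncomputable def F6_16225431552 : Fwd := ⟨V6_16225431552, [
  ⟨V5_16225406976, nat_lit 2, [(nat_lit 35, nat_lit 16225431552),
  (nat_lit 125, nat_lit 17299169280), (nat_lit 73, nat_lit 18372907008),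
  (nat_lit 85, nat_lit 19446644736), (nat_lit 4, nat_lit 20520382464),
  (nat_lit 62, nat_lit 21594120192), (nat_lit 60, nat_lit 22667857920)]⟩], [
  W6_16225406976, W6_15151669248, W6_14077931520, W6_13004193792, W6_11930456064]⟩

theorem F6_16225431552_chk : fwdChk 6 ks6 F6_16225431552 = true := by decide +kernel

noncomputable def F6_16225427520 : Fwd := ⟨V6_16225427520, [
  ⟨V5_15151665216, nat_lit 3, [(nat_lit 55, nat_lit 16225427520),
  (nat_lit 119, nat_lit 17299165248), (nat_lit 50, nat_lit 18372902976),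
  (nat_lit 126, nat_lit 19446640704), (nat_lit 56, nat_lit 20520378432),
  (nat_lit 20, nat_lit 21594116160)]⟩,
  ⟨V5_16225406976, nat_lit 4, [(nat_lit 90, nat_lit 16225427520),
  (nat_lit 66, nat_lit 17299169280), (nat_lit 82, nat_lit 17299165248),
  (nat_lit 35, nat_lit 18372907008), (nat_lit 64, nat_lit 18372902976),
  (nat_lit 14, nat_lit 19446644736), (nat_lit 10, nat_lit 19446640704),
  (nat_lit 87, nat_lit 20520382464), (nat_lit 89, nat_lit 20520378432),
  (nat_lit 44, nat_lit 21594120192), (nat_lit 69, nat_lit 21594116160),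
  (nat_lit 94, nat_lit 22667857920)]⟩,
  ⟨V5_10856456256, nat_lit 1, [(nat_lit 33, nat_lit 16225427520),
  (nat_lit 112, nat_lit 17298907200)]⟩,
  ⟨V5_11930198016, nat_lit 1, [(nat_lit 33, nat_lit 16225427520),
  (nat_lit 84, nat_lit 17299169280), (nat_lit 75, nat_lit 17298907200),
  (nat_lit 40, nat_lit 18372648960)]⟩,
  ⟨V5_11930456064, nat_lit 1, [(nat_lit 79, nat_lit 16225427520),
  (nat_lit 103, nat_lit 17299169280), (nat_lit 54, nat_lit 17299165248),
  (nat_lit 6, nat_lit 18372907008)]⟩], [
  W6_16225406976, W6_16225148928, W6_16225144896, W6_15151669248, W6_15151665216, W6_15151411200,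
  W6_15151407168, W6_14077931520, W6_14077927488, W6_14077673472, W6_14077669440, W6_13004193792,
  W6_13004189760, W6_13003935744, W6_13003931712, W6_11930456064, W6_11930452032, W6_11930198016,
  W6_11930193984, W6_10856456256]⟩

theorem F6_16225427520_chk : fwdChk 6 ks6 F6_16225427520 = true := by decide +kernel

noncomputable def F6_16225423488 : Fwd := ⟨V6_16225423488, [
  ⟨V5_13003935744, nat_lit 3, [(nat_lit 118, nat_lit 16225423488),
  (nat_lit 12, nat_lit 17299165248), (nat_lit 42, nat_lit 17298903168),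
  (nat_lit 51, nat_lit 18372907008), (nat_lit 91, nat_lit 18372644928),
  (nat_lit 26, nat_lit 19446386688)]⟩,
  ⟨V5_11930456064, nat_lit 1, [(nat_lit 62, nat_lit 16225423488),
  (nat_lit 108, nat_lit 17299165248), (nat_lit 7, nat_lit 18372907008)]⟩,
  ⟨V5_16225148928, nat_lit 7, [(nat_lit 57, nat_lit 16225423488),
  (nat_lit 113, nat_lit 17299165248), (nat_lit 68, nat_lit 17299161216),
  (nat_lit 2, nat_lit 17298903168), (nat_lit 7, nat_lit 18372907008),
  (nat_lit 67, nat_lit 18372902976), (nat_lit 90, nat_lit 18372898944),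
  (nat_lit 120, nat_lit 18372644928), (nat_lit 123, nat_lit 18372640896),
  (nat_lit 63, nat_lit 19446644736), (nat_lit 47, nat_lit 19446640704),
  (nat_lit 82, nat_lit 19446636672), (nat_lit 60, nat_lit 19446386688),
  (nat_lit 125, nat_lit 19446382656), (nat_lit 84, nat_lit 19446378624),
  (nat_lit 115, nat_lit 20520382464), (nat_lit 11, nat_lit 20520378432),
  (nat_lit 36, nat_lit 20520124416), (nat_lit 79, nat_lit 20520120384),
  (nat_lit 115, nat_lit 20520116352), (nat_lit 9, nat_lit 21594120192),
  (nat_lit 58, nat_lit 21593862144), (nat_lit 118, nat_lit 21593858112),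
  (nat_lit 42, nat_lit 22667599872)]⟩,
  ⟨V5_14077931520, nat_lit 3, [(nat_lit 30, nat_lit 16225423488),
  (nat_lit 102, nat_lit 17299165248), (nat_lit 20, nat_lit 17299161216),
  (nat_lit 13, nat_lit 18372907008), (nat_lit 81, nat_lit 18372902976),
  (nat_lit 29, nat_lit 18372898944), (nat_lit 99, nat_lit 19446644736),
  (nat_lit 98, nat_lit 19446640704), (nat_lit 124, nat_lit 20520382464)]⟩], [
  W6_16225148928, W6_16224890880, W6_16224886848, W6_15151669248, W6_15151411200, W6_15151407168,
  W6_15151153152, W6_15151149120, W6_15151145088, W6_14077931520, W6_14077927488, W6_14077673472,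
  W6_14077669440, W6_14077665408, W6_14077415424, W6_14077411392, W6_14077407360, W6_13004193792,
  W6_13004189760, W6_13003935744, W6_13003931712, W6_13003927680, W6_13003673664, W6_13003669632,
  W6_11930456064, W6_11930452032, W6_11930193984, W6_11930189952, W6_10856452224]⟩

theorem F6_16225423488_chk : fwdChk 6 ks6 F6_16225423488 = true := by decide +kernel

noncomputable def F6_16225423425 : Fwd := ⟨V6_16225423425, [
  ⟨V5_15151665216, nat_lit 3, [(nat_lit 96, nat_lit 16225423425),
  (nat_lit 22, nat_lit 17299165248), (nat_lit 124, nat_lit 17299161153),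
  (nat_lit 51, nat_lit 18372902976), (nat_lit 25, nat_lit 18372898881),
  (nat_lit 60, nat_lit 19446640704), (nat_lit 122, nat_lit 19446636609),
  (nat_lit 38, nat_lit 20520378432), (nat_lit 121, nat_lit 20520374337),
  (nat_lit 64, nat_lit 21594116160)]⟩,
  ⟨V5_11930193984, nat_lit 2, [(nat_lit 119, nat_lit 16225423425),
  (nat_lit 90, nat_lit 17299165248), (nat_lit 1, nat_lit 17298903105),
  (nat_lit 66, nat_lit 18372644928)]⟩,
  ⟨V5_11930452032, nat_lit 1, [(nat_lit 101, nat_lit 16225423425),
  (nat_lit 48, nat_lit 17299165248), (nat_lit 83, nat_lit 17299161153),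
  (nat_lit 119, nat_lit 18372902976)]⟩], [
  W6_16225144896, W6_16224886848, W6_15151665216, W6_15151407168, W6_15151149120, W6_14077927488,
  W6_14077669440, W6_14077411392, W6_13004189760, W6_13003931712, W6_13003673664, W6_11930452032,
  W6_11930193984]⟩

theorem F6_16225423425_chk : fwdChk 6 ks6 F6_16225423425 = true := by decide +kernel

noncomputable def F6_16225419456 : Fwd := ⟨V6_16225419456, [
  ⟨V5_10856706240, nat_lit 1, [(nat_lit 119, nat_lit 16225419456),
  (nat_lit 81, nat_lit 17299157184)]⟩,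
  ⟨V5_14077673472, nat_lit 7, [(nat_lit 52, nat_lit 16225419456),
  (nat_lit 5, nat_lit 17299161216), (nat_lit 1, nat_lit 17298899136),
  (nat_lit 69, nat_lit 18372902976), (nat_lit 95, nat_lit 18372640896),
  (nat_lit 90, nat_lit 19446644736), (nat_lit 108, nat_lit 19446382656),
  (nat_lit 80, nat_lit 20520124416)]⟩,
  ⟨V5_16224632832, nat_lit 4, [(nat_lit 126, nat_lit 16225419456),
  (nat_lit 106, nat_lit 17299161216), (nat_lit 108, nat_lit 17298899136),
  (nat_lit 96, nat_lit 18372902976), (nat_lit 123, nat_lit 18372640896),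
  (nat_lit 121, nat_lit 18372378816), (nat_lit 88, nat_lit 19446644736),
  (nat_lit 61, nat_lit 19446382656), (nat_lit 119, nat_lit 19446120576),
  (nat_lit 13, nat_lit 19445858496), (nat_lit 124, nat_lit 20520124416),
  (nat_lit 13, nat_lit 20519862336), (nat_lit 58, nat_lit 20519600256),
  (nat_lit 108, nat_lit 21593604096), (nat_lit 91, nat_lit 21593342016),
  (nat_lit 41, nat_lit 22667083776)]⟩,
  ⟨V5_14077931520, nat_lit 2, [(nat_lit 8, nat_lit 16225419456),
  (nat_lit 20, nat_lit 17299161216), (nat_lit 111, nat_lit 17299157184),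
  (nat_lit 3, nat_lit 18372902976), (nat_lit 116, nat_lit 18372898944),
  (nat_lit 113, nat_lit 19446644736), (nat_lit 118, nat_lit 19446640704),
  (nat_lit 121, nat_lit 20520382464)]⟩], [
  W6_16224890880, W6_16224632832, W6_16224628800, W6_15151411200, W6_15151153152, W6_15151149120,
  W6_15150891072, W6_15150887040, W6_14077931520, W6_14077673472, W6_14077669440, W6_14077411392,
  W6_14077407360, W6_14077149312, W6_13004193792, W6_13004189760, W6_13003931712, W6_13003927680,
  W6_13003669632, W6_13003665600, W6_13003407552, W6_11930452032, W6_11930189952, W6_11930185920,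
  W6_11929927872, W6_10856706240, W6_10856448192]⟩

theorem F6_16225419456_chk : fwdChk 6 ks6 F6_16225419456 = true := by decide +kernel

noncomputable def F6_16225415361 : Fwd := ⟨V6_16225415361, [
  ⟨V5_10856706240, nat_lit 1, [(nat_lit 88, nat_lit 16225415361),
  (nat_lit 40, nat_lit 17299157184)]⟩,
  ⟨V5_13004189760, nat_lit 2, [(nat_lit 50, nat_lit 16225415361),
  (nat_lit 29, nat_lit 17299157184), (nat_lit 35, nat_lit 17299157121),
  (nat_lit 53, nat_lit 18372898944), (nat_lit 96, nat_lit 18372898881),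
  (nat_lit 114, nat_lit 19446640704)]⟩,
  ⟨V5_11930185920, nat_lit 1, [(nat_lit 88, nat_lit 16225415361),
  (nat_lit 26, nat_lit 17299157184), (nat_lit 116, nat_lit 17298895041),
  (nat_lit 36, nat_lit 18372636864)]⟩], [
  W6_16224628800, W6_15151149120, W6_15150887040, W6_14077669440, W6_14077407360, W6_13004189760,
  W6_13003927680, W6_13003665600, W6_11930185920, W6_10856706240]⟩

theorem F6_16225415361_chk : fwdChk 6 ks6 F6_16225415361 = true := by decide +kernel

noncomputable def F6_16225165440 : Fwd := ⟨V6_16225165440, [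
  ⟨V5_12987162624, nat_lit 3, [(nat_lit 57, nat_lit 16225165440),
  (nat_lit 60, nat_lit 17298907200), (nat_lit 116, nat_lit 17282130048),
  (nat_lit 126, nat_lit 18372648960), (nat_lit 45, nat_lit 18355871808),
  (nat_lit 106, nat_lit 19429613568)]⟩,
  ⟨V5_10839679104, nat_lit 2, [(nat_lit 25, nat_lit 16225165440),
  (nat_lit 117, nat_lit 17282130048)]⟩,
  ⟨V5_16225148928, nat_lit 10, [(nat_lit 77, nat_lit 16225165440),
  (nat_lit 33, nat_lit 17298907200), (nat_lit 24, nat_lit 17298903168),
  (nat_lit 75, nat_lit 18372648960), (nat_lit 47, nat_lit 18372644928),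
  (nat_lit 95, nat_lit 18372640896), (nat_lit 34, nat_lit 19446386688),
  (nat_lit 15, nat_lit 19446382656), (nat_lit 52, nat_lit 19446378624),
  (nat_lit 39, nat_lit 20520124416), (nat_lit 46, nat_lit 20520120384),
  (nat_lit 55, nat_lit 20520116352), (nat_lit 70, nat_lit 21593862144),
  (nat_lit 3, nat_lit 21593858112), (nat_lit 50, nat_lit 22667599872)]⟩,
  ⟨V5_11913420864, nat_lit 2, [(nat_lit 111, nat_lit 16225165440),
  (nat_lit 123, nat_lit 17298907200), (nat_lit 9, nat_lit 17282130048),
  (nat_lit 93, nat_lit 18355871808)]⟩,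
  ⟨V5_10856456256, nat_lit 1, [(nat_lit 33, nat_lit 16225165440),
  (nat_lit 105, nat_lit 17298907200)]⟩,
  ⟨V5_11930198016, nat_lit 1, [(nat_lit 2, nat_lit 16225165440),
  (nat_lit 110, nat_lit 17298907200), (nat_lit 33, nat_lit 18372648960)]⟩], [
  W6_16225148928, W6_16208375808, W6_16208371776, W6_15151411200, W6_15151407168, W6_15134638080,
  W6_15134634048, W6_15134630016, W6_14077673472, W6_14077669440, W6_14077665408, W6_14060900352,
  W6_14060896320, W6_14060892288, W6_13003935744, W6_13003931712, W6_13003927680, W6_12987162624,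
  W6_12987158592, W6_12987154560, W6_11930198016, W6_11930193984, W6_11930189952, W6_11913420864,
  W6_11913416832, W6_10856456256, W6_10856452224, W6_10839679104]⟩

theorem F6_16225165440_chk : fwdChk 6 ks6 F6_16225165440 = true := by decide +kernel

end Crest.Agent.R187.SN.Fwd
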