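import Crest.Agent.R187.SN.FwdDef
import Crest.Agent.R187.SN.TD.Ks
import Crest.Agent.R187.SN.TD.W6_0
import Crest.Agent.R187.SN.TD.W6_1
import Crest.Agent.R187.SN.TD.X5_0
import Crest.Agent.R187.SN.TD.X6_1
import Crest.Agent.R187.SN.TD.X6_2

/-!
# Row 187, PLAN S, certificate E3: forward records of level `(6, 6)`, part 6

`F6_<key> : Fwd` = sources (table of level `(6, 5)`, number of rows, quadrature record) and
`W` tables of the table `V6_<key>`; each record is checked by the kernel.
-/

set_option autoImplicit false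
set_option Elab.async false
set_option maxRecDepth 100000

namespace Crest.Agent.R187.SN.Fwd

open Crest.Agent.R187.SN.Top

noncomputable def F6_16225165377 : Fwd := ⟨V6_16225165377, [
  ⟨V5_11913420864, nat_lit 2, [(nat_lit 25, nat_lit 16225165377),
  (nat_lit 126, nat_lit 17298907200), (nat_lit 18, nat_lit 17282129985),
  (nat_lit 57, nat_lit 18355871808)]⟩,
  ⟨V5_10856456256, nat_lit 1, [(nat_lit 26, nat_lit 16225165377),
  (nat_lit 58, nat_lit 17298907200)]⟩,
  ⟨V5_16225144896, nat_lit 3, [(nat_lit 76, nat_lit 16225165377),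
  (nat_lit 110, nat_lit 17298907200), (nat_lit 82, nat_lit 17298903105),
  (nat_lit 72, nat_lit 18372644928), (nat_lit 34, nat_lit 18372640833),
  (nat_lit 50, nat_lit 19446382656), (nat_lit 94, nat_lit 19446378561),
  (nat_lit 111, nat_lit 20520120384), (nat_lit 62, nat_lit 20520116289),
  (nat_lit 10, nat_lit 21593858112), (nat_lit 96, nat_lit 21593854017),
  (nat_lit 42, nat_lit 22667595840)]⟩], [
  W6_16225144896, W6_16208371776, W6_15151407168, W6_15134634048, W6_14077669440, W6_14060896320,
  W6_13003931712, W6_12987158592, W6_11930193984, W6_11913420864, W6_10856456256]⟩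

theorem F6_16225165377_chk : fwdChk 6 ks6 F6_16225165377 = true := by decide +kernel

noncomputable def F6_16225161408 : Fwd := ⟨V6_16225161408, [
  ⟨V5_9782710464, nat_lit 1, [(nat_lit 37, nat_lit 16225161408)]⟩,
  ⟨V5_13003935744, nat_lit 3, [(nat_lit 73, nat_lit 16225161408),
  (nat_lit 94, nat_lit 17298903168), (nat_lit 68, nat_lit 18372644928),
  (nat_lit 69, nat_lit 19446386688)]⟩,
  ⟨V5_14060900352, nat_lit 3, [(nat_lit 74, nat_lit 16225161408),
  (nat_lit 45, nat_lit 17298903168), (nat_lit 53, nat_lit 17282126016),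
  (nat_lit 118, nat_lit 18372644928), (nat_lit 89, nat_lit 18355867776),
  (nat_lit 78, nat_lit 19446386688), (nat_lit 94, nat_lit 19429609536),
  (nat_lit 7, nat_lit 20503351296)]⟩,
  ⟨V5_15151411200, nat_lit 9, [(nat_lit 40, nat_lit 16225161408),
  (nat_lit 17, nat_lit 17298903168), (nat_lit 8, nat_lit 17298899136),
  (nat_lit 63, nat_lit 18372644928), (nat_lit 7, nat_lit 18372640896),
  (nat_lit 76, nat_lit 18372636864), (nat_lit 93, nat_lit 19446386688),
  (nat_lit 71, nat_lit 19446382656), (nat_lit 4, nat_lit 19446378624),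
  (nat_lit 55, nat_lit 20520124416), (nat_lit 91, nat_lit 20520120384),
  (nat_lit 74, nat_lit 21593862144)]⟩,
  ⟨V5_11930193984, nat_lit 2, [(nat_lit 35, nat_lit 16225161408),
  (nat_lit 100, nat_lit 17298903168), (nat_lit 105, nat_lit 18372644928)]⟩], [
  W6_16224890880, W6_16208375808, W6_16208117760, W6_16208113728, W6_15151411200, W6_15151153152,
  W6_15151149120, W6_15134638080, W6_15134634048, W6_15134376000, W6_15134371968, W6_14077673472,
  W6_14077669440, W6_14077415424, W6_14077411392, W6_14077407360, W6_14060900352, W6_14060896320,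
  W6_14060892288, W6_14060634240, W6_13003935744, W6_13003931712, W6_13003927680, W6_13003673664,
  W6_13003669632, W6_13003665600, W6_12987158592, W6_12987154560, W6_11930193984, W6_11930189952,
  W6_11930185920, W6_11929927872, W6_11913416832, W6_11913412800, W6_10856452224, W6_10856448192,
  W6_9782710464]⟩

theorem F6_16225161408_chk : fwdChk 6 ks6 F6_16225161408 = true := by decide +kernel

noncomputable def F6_16224899265 : Fwd := ⟨V6_16224899265, [
  ⟨V5_11929927872, nat_lit 1, [(nat_lit 26, nat_lit 16224899265),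
  (nat_lit 79, nat_lit 17298641088), (nat_lit 44, nat_lit 17298636993),
  (nat_lit 8, nat_lit 18372378816)]⟩,
  ⟨V5_13003665600, nat_lit 1, [(nat_lit 111, nat_lit 16224899265),
  (nat_lit 17, nat_lit 17298641088), (nat_lit 69, nat_lit 17298636993),
  (nat_lit 116, nat_lit 18372378816), (nat_lit 56, nat_lit 18372374721),
  (nat_lit 95, nat_lit 19446116544)]⟩], [
  W6_16208113728, W6_15151149120, W6_15134376000, W6_15134371968, W6_14077411392, W6_14077407360,
  W6_14060634240, W6_13003673664, W6_13003669632, W6_13003665600, W6_11929927872]⟩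

theorem F6_16224899265_chk : fwdChk 6 ks6 F6_16224899265 = true := by decide +kernel

noncomputable def F6_16208384256 : Fwd := ⟨V6_16208384256, [
  ⟨V5_14060900352, nat_lit 3, [(nat_lit 107, nat_lit 16208384256),
  (nat_lit 65, nat_lit 17282126016), (nat_lit 99, nat_lit 18355867776),
  (nat_lit 72, nat_lit 19429609536), (nat_lit 45, nat_lit 20503351296)]⟩,
  ⟨V5_10839671040, nat_lit 1, [(nat_lit 58, nat_lit 16208384256),
  (nat_lit 112, nat_lit 17282121984)]⟩], [
  W6_16208117760, W6_15134638080, W6_15134376000, W6_14060900352, W6_14060896320, W6_14060634240,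
  W6_12987158592, W6_12987154560, W6_11913416832, W6_11913412800, W6_10839671040]⟩

theorem F6_16208384256_chk : fwdChk 6 ks6 F6_16208384256 = true := by decide +kernel

noncomputable def F6_16208384193 : Fwd := ⟨V6_16208384193, [
  ⟨V5_12987154560, nat_lit 3, [(nat_lit 32, nat_lit 16208384193),
  (nat_lit 14, nat_lit 17282126016), (nat_lit 126, nat_lit 17282125953),
  (nat_lit 35, nat_lit 17282121921), (nat_lit 64, nat_lit 18355867776),
  (nat_lit 111, nat_lit 18355863744), (nat_lit 33, nat_lit 18355863681),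
  (nat_lit 81, nat_lit 19429605504)]⟩], [
  W6_16208113728, W6_15134634048, W6_15134376000, W6_15134371968, W6_14060896320, W6_14060892288,
  W6_14060634240, W6_12987158592, W6_12987154560, W6_11913416832, W6_11913412800]⟩

theorem F6_16208384193_chk : fwdChk 6 ks6 F6_16208384193 = true := by decide +kernel

noncomputable def F6_16208380161 : Fwd := ⟨V6_16208380161, [
  ⟨V5_10839671040, nat_lit 1, [(nat_lit 110, nat_lit 16208380161),
  (nat_lit 50, nat_lit 17282121984)]⟩,
  ⟨V5_12987154560, nat_lit 3, [(nat_lit 107, nat_lit 16208380161),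
  (nat_lit 8, nat_lit 17282121984), (nat_lit 101, nat_lit 17282121921),
  (nat_lit 111, nat_lit 18355863744), (nat_lit 78, nat_lit 18355863681),
  (nat_lit 54, nat_lit 19429605504)]⟩], [
  W6_16207855680, W6_15134376000, W6_15134113920, W6_14060896320, W6_14060634240, W6_14060372160,
  W6_12987154560, W6_12986630400, W6_11913412800, W6_10839671040]⟩

theorem F6_16208380161_chk : fwdChk 6 ks6 F6_16208380161 = true := by decide +kernel

noncomputable def F6_16207855875 : Fwd := ⟨V6_16207855875, [
  ⟨V5_12986630400, nat_lit 1, [(nat_lit 22, nat_lit 16207855875),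
  (nat_lit 118, nat_lit 17281597698), (nat_lit 94, nat_lit 18355339521),
  (nat_lit 85, nat_lit 19429081344)]⟩], [
  W6_15100559616, W6_14060372160, W6_12986630400]⟩

theorem F6_16207855875_chk : fwdChk 6 ks6 F6_16207855875 = true := by decide +kernel

noncomputable def F6_15269363712 : Fwd := ⟨V6_15269363712, [
  ⟨V5_15168700416, nat_lit 5, [(nat_lit 84, nat_lit 15269363712),
  (nat_lit 2, nat_lit 16326328320), (nat_lit 39, nat_lit 17383292928),
  (nat_lit 88, nat_lit 18440257536), (nat_lit 125, nat_lit 19497222144),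
  (nat_lit 43, nat_lit 20554186752), (nat_lit 12, nat_lit 21611151360)]⟩,
  ⟨V5_15267790848, nat_lit 3, [(nat_lit 110, nat_lit 15269363712),
  (nat_lit 6, nat_lit 16342843392), (nat_lit 50, nat_lit 17416323072),
  (nat_lit 51, nat_lit 18489802752), (nat_lit 84, nat_lit 19563282432),
  (nat_lit 53, nat_lit 20636762112), (nat_lit 81, nat_lit 21710241792)]⟩,
  ⟨V5_15251275776, nat_lit 3, [(nat_lit 35, nat_lit 15269363712),
  (nat_lit 36, nat_lit 16342843392), (nat_lit 97, nat_lit 16326328320),
  (nat_lit 83, nat_lit 17416323072), (nat_lit 32, nat_lit 17399808000),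
  (nat_lit 92, nat_lit 18489802752), (nat_lit 25, nat_lit 18473287680),
  (nat_lit 70, nat_lit 19563282432), (nat_lit 95, nat_lit 19546767360),
  (nat_lit 22, nat_lit 20636762112), (nat_lit 98, nat_lit 20620247040),
  (nat_lit 1, nat_lit 21693726720)]⟩,
  ⟨V5_15185215488, nat_lit 1, [(nat_lit 75, nat_lit 15269363712),
  (nat_lit 114, nat_lit 16342843392), (nat_lit 76, nat_lit 16326328320),
  (nat_lit 112, nat_lit 17399808000), (nat_lit 37, nat_lit 17383292928),
  (nat_lit 24, nat_lit 18456772608), (nat_lit 81, nat_lit 18440257536),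
  (nat_lit 41, nat_lit 19513737216), (nat_lit 23, nat_lit 19497222144),
  (nat_lit 12, nat_lit 20570701824), (nat_lit 9, nat_lit 20554186752),
  (nat_lit 124, nat_lit 21627666432)]⟩], [
  W6_15267790848, W6_15251275776, W6_15234760704, W6_15218245632, W6_15201730560, W6_15185215488,
  W6_15168700416]⟩

theorem F6_15269363712_chk : fwdChk 6 ks6 F6_15269363712 = true := by decide +kernel

noncomputable def F6_15269105664 : Fwd := ⟨V6_15269105664, [
  ⟨V5_15168442368, nat_lit 7, [(nat_lit 20, nat_lit 15269105664),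
  (nat_lit 67, nat_lit 16326070272), (nat_lit 100, nat_lit 17383034880),
  (nat_lit 27, nat_lit 18439999488), (nat_lit 60, nat_lit 19496964096),
  (nat_lit 107, nat_lit 20553928704), (nat_lit 21, nat_lit 21610893312)]⟩,
  ⟨V5_15267790848, nat_lit 3, [(nat_lit 95, nat_lit 15269105664),
  (nat_lit 126, nat_lit 16342843392), (nat_lit 92, nat_lit 16342585344),
  (nat_lit 37, nat_lit 17416323072), (nat_lit 55, nat_lit 17416065024),
  (nat_lit 104, nat_lit 18489802752), (nat_lit 3, nat_lit 18489544704),
  (nat_lit 29, nat_lit 19563282432), (nat_lit 52, nat_lit 19563024384),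
  (nat_lit 31, nat_lit 20636762112), (nat_lit 73, nat_lit 20636504064),
  (nat_lit 34, nat_lit 21710241792)]⟩,
  ⟨V5_15251017728, nat_lit 3, [(nat_lit 59, nat_lit 15269105664),
  (nat_lit 109, nat_lit 16342585344), (nat_lit 87, nat_lit 16326070272),
  (nat_lit 6, nat_lit 17416065024), (nat_lit 33, nat_lit 17399549952),
  (nat_lit 103, nat_lit 18489544704), (nat_lit 73, nat_lit 18473029632),
  (nat_lit 90, nat_lit 19563024384), (nat_lit 45, nat_lit 19546509312),
  (nat_lit 89, nat_lit 20636504064), (nat_lit 64, nat_lit 20619988992),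
  (nat_lit 87, nat_lit 21693468672)]⟩,
  ⟨V5_15185215488, nat_lit 1, [(nat_lit 66, nat_lit 15269105664),
  (nat_lit 108, nat_lit 16342843392), (nat_lit 78, nat_lit 16326070272),
  (nat_lit 1, nat_lit 17399808000), (nat_lit 70, nat_lit 17383034880),
  (nat_lit 93, nat_lit 18456772608), (nat_lit 90, nat_lit 18439999488),
  (nat_lit 107, nat_lit 19513737216), (nat_lit 88, nat_lit 19496964096),
  (nat_lit 78, nat_lit 20570701824), (nat_lit 111, nat_lit 20553928704),
  (nat_lit 100, nat_lit 21627666432)]⟩], [
  W6_15267790848, W6_15251275776, W6_15251017728, W6_15234760704, W6_15234502656, W6_15218245632,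
  W6_15217987584, W6_15201730560, W6_15201472512, W6_15185215488, W6_15184957440, W6_15168442368]⟩

theorem F6_15269105664_chk : fwdChk 6 ks6 F6_15269105664 = true := by decide +kernel

noncomputable def F6_15268843584 : Fwd := ⟨V6_15268843584, [
  ⟨V5_15184957440, nat_lit 13, [(nat_lit 123, nat_lit 15268843584),
  (nat_lit 22, nat_lit 16342585344), (nat_lit 90, nat_lit 16325808192),
  (nat_lit 26, nat_lit 17399549952), (nat_lit 126, nat_lit 17382772800),
  (nat_lit 108, nat_lit 18456514560), (nat_lit 121, nat_lit 18439737408),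
  (nat_lit 30, nat_lit 19513479168), (nat_lit 112, nat_lit 19496702016),
  (nat_lit 114, nat_lit 20570443776), (nat_lit 8, nat_lit 20553666624),
  (nat_lit 37, nat_lit 21627408384)]⟩], [
  W6_15251017728, W6_15234502656, W6_15234240576, W6_15217987584, W6_15217725504, W6_15201472512,
  W6_15201210432, W6_15184957440, W6_15184695360, W6_15168180288]⟩

theorem F6_15268843584_chk : fwdChk 6 ks6 F6_15268843584 = true := by decide +kernel

noncomputable def F6_15268589568 : Fwd := ⟨V6_15268589568, [
  ⟨V5_15167926272, nat_lit 10, [(nat_lit 16, nat_lit 15268589568),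
  (nat_lit 79, nat_lit 16325554176), (nat_lit 80, nat_lit 17382518784),
  (nat_lit 47, nat_lit 18439483392), (nat_lit 48, nat_lit 19496448000),
  (nat_lit 111, nat_lit 20553412608), (nat_lit 93, nat_lit 21610377216)]⟩,
  ⟨V5_15218245632, nat_lit 6, [(nat_lit 76, nat_lit 15268589568),
  (nat_lit 61, nat_lit 16342327296), (nat_lit 16, nat_lit 16325554176),
  (nat_lit 18, nat_lit 17416065024), (nat_lit 50, nat_lit 17399291904),
  (nat_lit 29, nat_lit 17382518784), (nat_lit 118, nat_lit 18489802752),
  (nat_lit 68, nat_lit 18473029632), (nat_lit 6, nat_lit 18456256512),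
  (nat_lit 112, nat_lit 18439483392), (nat_lit 1, nat_lit 19546767360),
  (nat_lit 63, nat_lit 19529994240), (nat_lit 33, nat_lit 19513221120),
  (nat_lit 3, nat_lit 20603731968), (nat_lit 7, nat_lit 20586958848),
  (nat_lit 53, nat_lit 21660696576)]⟩], [
  W6_15251275776, W6_15234760704, W6_15234502656, W6_15218245632, W6_15217987584, W6_15217729536,
  W6_15201472512, W6_15201214464, W6_15200956416, W6_15184699392, W6_15184441344, W6_15167926272]⟩

theorem F6_15268589568_chk : fwdChk 6 ks6 F6_15268589568 = true := by decide +kernel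

noncomputable def F6_15268581441 : Fwd := ⟨V6_15268581441, [
  ⟨V5_15184695360, nat_lit 3, [(nat_lit 71, nat_lit 15268581441),
  (nat_lit 98, nat_lit 16342323264), (nat_lit 81, nat_lit 16325546049),
  (nat_lit 81, nat_lit 17399287872), (nat_lit 44, nat_lit 17382510657),
  (nat_lit 88, nat_lit 18456252480), (nat_lit 41, nat_lit 18439475265),
  (nat_lit 20, nat_lit 19513217088), (nat_lit 55, nat_lit 19496439873),
  (nat_lit 50, nat_lit 20570181696), (nat_lit 52, nat_lit 20553404481),
  (nat_lit 58, nat_lit 21627146304)]⟩], [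
  W6_15234240576, W6_15217725504, W6_15201210432, W6_15184695360]⟩

theorem F6_15268581441_chk : fwdChk 6 ks6 F6_15268581441 = true := by decide +kernel

noncomputable def F6_15268331520 : Fwd := ⟨V6_15268331520, [
  ⟨V5_15167668224, nat_lit 8, [(nat_lit 89, nat_lit 15268331520),
  (nat_lit 114, nat_lit 16325296128), (nat_lit 64, nat_lit 17382260736),
  (nat_lit 63, nat_lit 18439225344), (nat_lit 13, nat_lit 19496189952),
  (nat_lit 38, nat_lit 20553154560), (nat_lit 49, nat_lit 21610119168)]⟩,
  ⟨V5_15234760704, nat_lit 6, [(nat_lit 79, nat_lit 15268331520),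
  (nat_lit 76, nat_lit 16342069248), (nat_lit 64, nat_lit 16325296128),
  (nat_lit 78, nat_lit 17415806976), (nat_lit 104, nat_lit 17399033856),
  (nat_lit 121, nat_lit 17382260736), (nat_lit 58, nat_lit 18489544704),
  (nat_lit 20, nat_lit 18472771584), (nat_lit 37, nat_lit 18455998464),
  (nat_lit 32, nat_lit 19563282432), (nat_lit 126, nat_lit 19546509312),
  (nat_lit 108, nat_lit 19529736192), (nat_lit 118, nat_lit 20620247040),
  (nat_lit 5, nat_lit 20603473920), (nat_lit 55, nat_lit 21677211648)]⟩], [
  W6_15234760704, W6_15217987584, W6_15201214464, W6_15184441344, W6_15167668224]⟩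

theorem F6_15268331520_chk : fwdChk 6 ks6 F6_15268331520 = true := by decide +kernel

noncomputable def F6_15268065345 : Fwd := ⟨V6_15268065345, [
  ⟨V5_15184179264, nat_lit 2, [(nat_lit 33, nat_lit 15268065345),
  (nat_lit 101, nat_lit 16341807168), (nat_lit 77, nat_lit 16325029953),
  (nat_lit 77, nat_lit 17398771776), (nat_lit 92, nat_lit 17381994561),
  (nat_lit 57, nat_lit 18455736384), (nat_lit 28, nat_lit 18438959169),
  (nat_lit 88, nat_lit 19512700992), (nat_lit 115, nat_lit 19495923777),
  (nat_lit 93, nat_lit 20569665600), (nat_lit 51, nat_lit 20552888385),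
  (nat_lit 52, nat_lit 21626630208)]⟩,
  ⟨V5_15217725504, nat_lit 1, [(nat_lit 60, nat_lit 15268065345),
  (nat_lit 34, nat_lit 16341807168), (nat_lit 117, nat_lit 16341803073),
  (nat_lit 9, nat_lit 16325029953), (nat_lit 25, nat_lit 17415544896),
  (nat_lit 48, nat_lit 17415540801), (nat_lit 37, nat_lit 17398771776),
  (nat_lit 79, nat_lit 17398767681), (nat_lit 64, nat_lit 17381994561),
  (nat_lit 119, nat_lit 18489282624), (nat_lit 4, nat_lit 18472509504),
  (nat_lit 53, nat_lit 18472505409), (nat_lit 117, nat_lit 18455736384),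
  (nat_lit 103, nat_lit 18455732289), (nat_lit 6, nat_lit 18438959169),
  (nat_lit 126, nat_lit 19546247232), (nat_lit 4, nat_lit 19529474112),
  (nat_lit 86, nat_lit 19529470017), (nat_lit 11, nat_lit 19512700992),
  (nat_lit 116, nat_lit 19512696897), (nat_lit 95, nat_lit 20603211840),
  (nat_lit 18, nat_lit 20586438720), (nat_lit 69, nat_lit 20586434625),
  (nat_lit 101, nat_lit 21660176448)]⟩], [
  W6_15217725504, W6_15200952384, W6_15184179264]⟩

theorem F6_15268065345_chk : fwdChk 6 ks6 F6_15268065345 = true := by decide +kernel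

noncomputable def F6_15268061313 : Fwd := ⟨V6_15268061313, [
  ⟨V5_15184175232, nat_lit 1, [(nat_lit 84, nat_lit 15268061313),
  (nat_lit 107, nat_lit 16341803136), (nat_lit 69, nat_lit 16325025921),
  (nat_lit 69, nat_lit 17398767744), (nat_lit 61, nat_lit 17381990529),
  (nat_lit 122, nat_lit 18455732352), (nat_lit 2, nat_lit 18438955137),
  (nat_lit 97, nat_lit 19512696960), (nat_lit 108, nat_lit 19495919745),
  (nat_lit 52, nat_lit 20569661568), (nat_lit 49, nat_lit 20552884353),
  (nat_lit 40, nat_lit 21626626176)]⟩], [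
  W6_15217467456, W6_15200952384, W6_15200690304, W6_15184175232]⟩

theorem F6_15268061313_chk : fwdChk 6 ks6 F6_15268061313 = true := by decide +kernel

noncomputable def F6_15252332544 : Fwd := ⟨V6_15252332544, [
  ⟨V5_14094704640, nat_lit 8, [(nat_lit 60, nat_lit 15252332544),
  (nat_lit 27, nat_lit 16309297152), (nat_lit 100, nat_lit 17366261760),
  (nat_lit 67, nat_lit 18423226368), (nat_lit 20, nat_lit 19480190976),
  (nat_lit 106, nat_lit 20537155584)]⟩,
  ⟨V5_15168184320, nat_lit 16, [(nat_lit 79, nat_lit 15252332544),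
  (nat_lit 45, nat_lit 16325812224), (nat_lit 74, nat_lit 16309297152),
  (nat_lit 79, nat_lit 17382776832), (nat_lit 61, nat_lit 17366261760),
  (nat_lit 61, nat_lit 18439741440), (nat_lit 104, nat_lit 18423226368),
  (nat_lit 66, nat_lit 19496706048), (nat_lit 94, nat_lit 19480190976),
  (nat_lit 48, nat_lit 20553670656), (nat_lit 91, nat_lit 20537155584),
  (nat_lit 82, nat_lit 21610635264)]⟩,
  ⟨V5_15234244608, nat_lit 5, [(nat_lit 49, nat_lit 15252332544),
  (nat_lit 65, nat_lit 16325812224), (nat_lit 71, nat_lit 16309297152),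
  (nat_lit 64, nat_lit 17399291904), (nat_lit 30, nat_lit 17382776832),
  (nat_lit 9, nat_lit 18472771584), (nat_lit 117, nat_lit 18456256512),
  (nat_lit 92, nat_lit 19546251264), (nat_lit 40, nat_lit 19529736192),
  (nat_lit 29, nat_lit 20619730944), (nat_lit 104, nat_lit 20603215872),
  (nat_lit 21, nat_lit 21676695552)]⟩,
  ⟨V5_14177538048, nat_lit 3, [(nat_lit 12, nat_lit 15252332544),
  (nat_lit 60, nat_lit 16326070272), (nat_lit 6, nat_lit 16325812224),
  (nat_lit 49, nat_lit 17399549952), (nat_lit 102, nat_lit 17399291904),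
  (nat_lit 111, nat_lit 18473029632), (nat_lit 35, nat_lit 18472771584),
  (nat_lit 73, nat_lit 19546509312), (nat_lit 52, nat_lit 19546251264),
  (nat_lit 44, nat_lit 20619988992)]⟩,
  ⟨V5_15251017728, nat_lit 3, [(nat_lit 43, nat_lit 15252332544),
  (nat_lit 29, nat_lit 16326070272), (nat_lit 60, nat_lit 16325812224),
  (nat_lit 72, nat_lit 17399549952), (nat_lit 100, nat_lit 17399291904),
  (nat_lit 125, nat_lit 18473029632), (nat_lit 23, nat_lit 18472771584),
  (nat_lit 73, nat_lit 19546509312), (nat_lit 64, nat_lit 19546251264),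
  (nat_lit 96, nat_lit 20619988992), (nat_lit 62, nat_lit 20619730944),
  (nat_lit 124, nat_lit 21693468672)]⟩,
  ⟨V5_14160764928, nat_lit 4, [(nat_lit 120, nat_lit 15252332544),
  (nat_lit 70, nat_lit 16325812224), (nat_lit 46, nat_lit 16309297152),
  (nat_lit 111, nat_lit 17399291904), (nat_lit 49, nat_lit 17382776832),
  (nat_lit 91, nat_lit 18472771584), (nat_lit 62, nat_lit 18456256512),
  (nat_lit 43, nat_lit 19546251264), (nat_lit 96, nat_lit 19529736192),
  (nat_lit 89, nat_lit 20603215872)]⟩,
  ⟨V5_14177796096, nat_lit 3, [(nat_lit 61, nat_lit 15252332544),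
  (nat_lit 26, nat_lit 16326070272), (nat_lit 8, nat_lit 16325812224),
  (nat_lit 34, nat_lit 17399808000), (nat_lit 69, nat_lit 17399549952),
  (nat_lit 7, nat_lit 17399291904), (nat_lit 28, nat_lit 18473287680),
  (nat_lit 49, nat_lit 18473029632), (nat_lit 50, nat_lit 18472771584),
  (nat_lit 58, nat_lit 19546767360), (nat_lit 77, nat_lit 19546509312),
  (nat_lit 39, nat_lit 20620247040)]⟩], [
  W6_15251275776, W6_15251017728, W6_15234760704, W6_15234502656, W6_15234244608, W6_15218245632,
  W6_15217987584, W6_15217729536, W6_15201730560, W6_15201472512, W6_15201214464, W6_15185215488,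
  W6_15184957440, W6_15184699392, W6_15168442368, W6_15168184320, W6_15151669248, W6_14177796096,
  W6_14177538048, W6_14161281024, W6_14161022976, W6_14160764928, W6_14144765952, W6_14144507904,
  W6_14144249856, W6_14128250880, W6_14127992832, W6_14127734784, W6_14111477760, W6_14111219712,
  W6_14094704640]⟩

theorem F6_15252332544_chk : fwdChk 6 ks6 F6_15252332544 = true := by decide +kernel

noncomputable def F6_15252328512 : Fwd := ⟨V6_15252328512, [
  ⟨V5_15151665216, nat_lit 3, [(nat_lit 113, nat_lit 15252328512),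
  (nat_lit 56, nat_lit 16309293120), (nat_lit 22, nat_lit 17366257728),
  (nat_lit 112, nat_lit 18423222336), (nat_lit 57, nat_lit 19480186944),
  (nat_lit 24, nat_lit 20537151552), (nat_lit 60, nat_lit 21594116160)]⟩,
  ⟨V5_14111477760, nat_lit 8, [(nat_lit 31, nat_lit 15252328512),
  (nat_lit 40, nat_lit 16326070272), (nat_lit 18, nat_lit 16309293120),
  (nat_lit 88, nat_lit 17383034880), (nat_lit 108, nat_lit 17366257728),
  (nat_lit 95, nat_lit 18439999488), (nat_lit 16, nat_lit 18423222336),
  (nat_lit 107, nat_lit 19496964096), (nat_lit 110, nat_lit 19480186944),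
  (nat_lit 96, nat_lit 20553928704)]⟩,
  ⟨V5_15168442368, nat_lit 7, [(nat_lit 104, nat_lit 15252328512),
  (nat_lit 38, nat_lit 16326070272), (nat_lit 110, nat_lit 16309293120),
  (nat_lit 82, nat_lit 17383034880), (nat_lit 50, nat_lit 17366257728),
  (nat_lit 102, nat_lit 18439999488), (nat_lit 123, nat_lit 18423222336),
  (nat_lit 64, nat_lit 19496964096), (nat_lit 90, nat_lit 19480186944),
  (nat_lit 121, nat_lit 20553928704), (nat_lit 31, nat_lit 20537151552),
  (nat_lit 20, nat_lit 21610893312)]⟩,
  ⟨V5_14177538048, nat_lit 3, [(nat_lit 66, nat_lit 15252328512),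
  (nat_lit 13, nat_lit 16326070272), (nat_lit 118, nat_lit 16325808192),
  (nat_lit 123, nat_lit 17399549952), (nat_lit 72, nat_lit 17399287872),
  (nat_lit 75, nat_lit 18473029632), (nat_lit 38, nat_lit 18472767552),
  (nat_lit 77, nat_lit 19546509312), (nat_lit 90, nat_lit 19546247232),
  (nat_lit 12, nat_lit 20619988992)]⟩], [
  W6_15251017728, W6_15234502656, W6_15234240576, W6_15217987584, W6_15217725504, W6_15201472512,
  W6_15201210432, W6_15184957440, W6_15184695360, W6_15168442368, W6_15168180288, W6_15151665216,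
  W6_14177538048, W6_14177275968, W6_14161022976, W6_14160760896, W6_14144507904, W6_14144245824,
  W6_14127992832, W6_14127730752, W6_14111477760, W6_14111215680, W6_14094700608]⟩

theorem F6_15252328512_chk : fwdChk 6 ks6 F6_15252328512 = true := by decide +kernel

noncomputable def F6_15251816448 : Fwd := ⟨V6_15251816448, [
  ⟨V5_14161281024, nat_lit 5, [(nat_lit 25, nat_lit 15251816448),
  (nat_lit 120, nat_lit 16325554176), (nat_lit 81, nat_lit 16308781056),
  (nat_lit 111, nat_lit 17399291904), (nat_lit 72, nat_lit 17382518784),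
  (nat_lit 77, nat_lit 18473029632), (nat_lit 66, nat_lit 18456256512),
  (nat_lit 58, nat_lit 19546767360), (nat_lit 123, nat_lit 19529994240),
  (nat_lit 83, nat_lit 20603731968)]⟩,
  ⟨V5_14094188544, nat_lit 8, [(nat_lit 37, nat_lit 15251816448),
  (nat_lit 23, nat_lit 16308781056), (nat_lit 104, nat_lit 17365745664),
  (nat_lit 90, nat_lit 18422710272), (nat_lit 97, nat_lit 19479674880),
  (nat_lit 95, nat_lit 20536639488)]⟩,
  ⟨V5_15234760704, nat_lit 9, [(nat_lit 63, nat_lit 15251816448),
  (nat_lit 113, nat_lit 16325554176), (nat_lit 100, nat_lit 16325296128),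
  (nat_lit 98, nat_lit 16308781056), (nat_lit 91, nat_lit 17399291904),
  (nat_lit 8, nat_lit 17399033856), (nat_lit 66, nat_lit 17382518784),
  (nat_lit 94, nat_lit 17382260736), (nat_lit 40, nat_lit 18473029632),
  (nat_lit 5, nat_lit 18472771584), (nat_lit 76, nat_lit 18456256512),
  (nat_lit 87, nat_lit 18455998464), (nat_lit 104, nat_lit 19546767360),
  (nat_lit 27, nat_lit 19546509312), (nat_lit 120, nat_lit 19529994240),
  (nat_lit 29, nat_lit 19529736192), (nat_lit 89, nat_lit 20620247040),
  (nat_lit 85, nat_lit 20603731968), (nat_lit 109, nat_lit 20603473920),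
  (nat_lit 78, nat_lit 21677211648)]⟩,
  ⟨V5_15167668224, nat_lit 8, [(nat_lit 78, nat_lit 15251816448),
  (nat_lit 67, nat_lit 16325296128), (nat_lit 78, nat_lit 16308781056),
  (nat_lit 98, nat_lit 17382260736), (nat_lit 43, nat_lit 17365745664),
  (nat_lit 86, nat_lit 18439225344), (nat_lit 26, nat_lit 18422710272),
  (nat_lit 106, nat_lit 19496189952), (nat_lit 5, nat_lit 19479674880),
  (nat_lit 74, nat_lit 20553154560), (nat_lit 28, nat_lit 20536639488),
  (nat_lit 93, nat_lit 21610119168)]⟩,
  ⟨V5_15151153152, nat_lit 3, [(nat_lit 126, nat_lit 15251816448),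
  (nat_lit 4, nat_lit 16308781056), (nat_lit 56, nat_lit 17365745664),
  (nat_lit 8, nat_lit 18422710272), (nat_lit 122, nat_lit 19479674880),
  (nat_lit 38, nat_lit 20536639488), (nat_lit 95, nat_lit 21593604096)]⟩], [
  W6_15234760704, W6_15218245632, W6_15217987584, W6_15201472512, W6_15201214464, W6_15184699392,
  W6_15184441344, W6_15167926272, W6_15167668224, W6_15151153152, W6_14177796096, W6_14161281024,
  W6_14161022976, W6_14144507904, W6_14144249856, W6_14127734784, W6_14127476736, W6_14110961664,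
  W6_14110703616, W6_14094188544]⟩

theorem F6_15251816448_chk : fwdChk 6 ks6 F6_15251816448 = true := by decide +kernel

noncomputable def F6_15251288256 : Fwd := ⟨V6_15251288256, [
  ⟨V5_14143991808, nat_lit 1, [(nat_lit 9, nat_lit 15251288256),
  (nat_lit 118, nat_lit 16325030016), (nat_lit 61, nat_lit 16308252864),
  (nat_lit 121, nat_lit 17398771776), (nat_lit 80, nat_lit 17381994624),
  (nat_lit 100, nat_lit 17365217472), (nat_lit 26, nat_lit 18472513536),
  (nat_lit 84, nat_lit 18455736384), (nat_lit 29, nat_lit 18438959232),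
  (nat_lit 63, nat_lit 19529478144), (nat_lit 60, nat_lit 19512700992),
  (nat_lit 55, nat_lit 20586442752)]⟩], [
  W6_15200956416, W6_15184179264, W6_14143991808, W6_14127214656, W6_14110437504]⟩

theorem F6_15251288256_chk : fwdChk 6 ks6 F6_15251288256 = true := by decide +kernel

noncomputable def F6_15236333568 : Fwd := ⟨V6_15236333568, [
  ⟨V5_13087801344, nat_lit 5, [(nat_lit 83, nat_lit 15236333568),
  (nat_lit 28, nat_lit 16309813248), (nat_lit 69, nat_lit 17383292928),
  (nat_lit 54, nat_lit 18456772608), (nat_lit 35, nat_lit 19530252288)]⟩,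
  ⟨V5_15234760704, nat_lit 7, [(nat_lit 91, nat_lit 15236333568),
  (nat_lit 40, nat_lit 16309813248), (nat_lit 103, nat_lit 17383292928),
  (nat_lit 99, nat_lit 18456772608), (nat_lit 57, nat_lit 19530252288),
  (nat_lit 37, nat_lit 20603731968), (nat_lit 109, nat_lit 21677211648)]⟩], [
  W6_15234760704, W6_15218245632, W6_15201730560, W6_14161281024, W6_14144765952, W6_14128250880,
  W6_13087801344, W6_13071286272, W6_13054771200]⟩

theorem F6_15236333568_chk : fwdChk 6 ks6 F6_15236333568 = true := by decide +kernel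

noncomputable def F6_15235817472 : Fwd := ⟨V6_15235817472, [
  ⟨V5_15234244608, nat_lit 5, [(nat_lit 10, nat_lit 15235817472),
  (nat_lit 116, nat_lit 16309297152), (nat_lit 120, nat_lit 17382776832),
  (nat_lit 97, nat_lit 18456256512), (nat_lit 100, nat_lit 19529736192),
  (nat_lit 51, nat_lit 20603215872), (nat_lit 42, nat_lit 21676695552)]⟩,
  ⟨V5_13021224960, nat_lit 6, [(nat_lit 39, nat_lit 15235817472),
  (nat_lit 88, nat_lit 16292782080), (nat_lit 125, nat_lit 17349746688),
  (nat_lit 43, nat_lit 18406711296), (nat_lit 12, nat_lit 19463675904)]⟩,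
  ⟨V5_13087285248, nat_lit 5, [(nat_lit 38, nat_lit 15235817472),
  (nat_lit 68, nat_lit 16309297152), (nat_lit 81, nat_lit 17382776832),
  (nat_lit 30, nat_lit 18456256512), (nat_lit 42, nat_lit 19529736192)]⟩,
  ⟨V5_13087801344, nat_lit 5, [(nat_lit 45, nat_lit 15235817472),
  (nat_lit 9, nat_lit 16309555200), (nat_lit 68, nat_lit 16309297152),
  (nat_lit 85, nat_lit 17383292928), (nat_lit 16, nat_lit 17383034880),
  (nat_lit 36, nat_lit 17382776832), (nat_lit 117, nat_lit 18456772608),
  (nat_lit 99, nat_lit 18456514560), (nat_lit 43, nat_lit 19530252288)]⟩,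
  ⟨V5_15168700416, nat_lit 5, [(nat_lit 60, nat_lit 15235817472),
  (nat_lit 52, nat_lit 16309555200), (nat_lit 44, nat_lit 16292782080),
  (nat_lit 125, nat_lit 17383292928), (nat_lit 13, nat_lit 17366519808),
  (nat_lit 90, nat_lit 17349746688), (nat_lit 111, nat_lit 18440257536),
  (nat_lit 3, nat_lit 18423484416), (nat_lit 67, nat_lit 18406711296),
  (nat_lit 84, nat_lit 19497222144), (nat_lit 116, nat_lit 19480449024),
  (nat_lit 52, nat_lit 19463675904), (nat_lit 117, nat_lit 20554186752),
  (nat_lit 123, nat_lit 20537413632), (nat_lit 107, nat_lit 21611151360)]⟩,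
  ⟨V5_15234760704, nat_lit 9, [(nat_lit 78, nat_lit 15235817472),
  (nat_lit 87, nat_lit 16309555200), (nat_lit 97, nat_lit 16309297152),
  (nat_lit 114, nat_lit 17383292928), (nat_lit 102, nat_lit 17383034880),
  (nat_lit 54, nat_lit 17382776832), (nat_lit 24, nat_lit 18456772608),
  (nat_lit 10, nat_lit 18456514560), (nat_lit 35, nat_lit 18456256512),
  (nat_lit 41, nat_lit 19530252288), (nat_lit 63, nat_lit 19529994240),
  (nat_lit 111, nat_lit 19529736192), (nat_lit 32, nat_lit 20603731968),
  (nat_lit 15, nat_lit 20603473920), (nat_lit 16, nat_lit 21677211648)]⟩,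
  ⟨V5_13054771200, nat_lit 5, [(nat_lit 22, nat_lit 15235817472),
  (nat_lit 39, nat_lit 16309555200), (nat_lit 93, nat_lit 16292782080),
  (nat_lit 91, nat_lit 17383292928), (nat_lit 81, nat_lit 17366519808),
  (nat_lit 75, nat_lit 17349746688), (nat_lit 79, nat_lit 18440257536),
  (nat_lit 8, nat_lit 18423484416), (nat_lit 42, nat_lit 19497222144)]⟩,
  ⟨V5_15168184320, nat_lit 16, [(nat_lit 83, nat_lit 15235817472),
  (nat_lit 10, nat_lit 16309297152), (nat_lit 7, nat_lit 16292782080),
  (nat_lit 62, nat_lit 17382776832), (nat_lit 115, nat_lit 17366261760),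
  (nat_lit 89, nat_lit 17349746688), (nat_lit 102, nat_lit 18439741440),
  (nat_lit 84, nat_lit 18423226368), (nat_lit 54, nat_lit 18406711296),
  (nat_lit 50, nat_lit 19496706048), (nat_lit 103, nat_lit 19480190976),
  (nat_lit 122, nat_lit 19463675904), (nat_lit 15, nat_lit 20553670656),
  (nat_lit 50, nat_lit 20537155584), (nat_lit 72, nat_lit 21610635264)]⟩,
  ⟨V5_14160764928, nat_lit 2, [(nat_lit 95, nat_lit 15235817472),
  (nat_lit 68, nat_lit 16309297152), (nat_lit 69, nat_lit 17382776832),
  (nat_lit 59, nat_lit 18456256512), (nat_lit 113, nat_lit 19529736192),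
  (nat_lit 18, nat_lit 20603215872)]⟩], [
  W6_15234760704, W6_15234502656, W6_15234244608, W6_15218245632, W6_15217987584, W6_15217729536,
  W6_15201730560, W6_15201472512, W6_15201214464, W6_15185215488, W6_15184957440, W6_15184699392,
  W6_15168700416, W6_15168442368, W6_15168184320, W6_14161281024, W6_14161022976, W6_14160764928,
  W6_14144765952, W6_14144507904, W6_14144249856, W6_14128250880, W6_14127992832, W6_14127734784,
  W6_14111735808, W6_14111477760, W6_14111219712, W6_14094962688, W6_14094704640, W6_13087801344,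
  W6_13087543296, W6_13087285248, W6_13071286272, W6_13071028224, W6_13070770176, W6_13054771200,
  W6_13054513152, W6_13054255104, W6_13037998080, W6_13037740032, W6_13021224960]⟩

theorem F6_15235817472_chk : fwdChk 6 ks6 F6_15235817472 = true := by decide +kernel

noncomputable def F6_15235813440 : Fwd := ⟨V6_15235813440, [
  ⟨V5_14094962688, nat_lit 4, [(nat_lit 24, nat_lit 15235813440),
  (nat_lit 15, nat_lit 16309555200), (nat_lit 3, nat_lit 16292778048),
  (nat_lit 124, nat_lit 17366519808), (nat_lit 1, nat_lit 17349742656),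
  (nat_lit 95, nat_lit 18423484416), (nat_lit 103, nat_lit 18406707264),
  (nat_lit 54, nat_lit 19480449024), (nat_lit 69, nat_lit 19463671872),
  (nat_lit 3, nat_lit 20537413632)]⟩,
  ⟨V5_14161022976, nat_lit 6, [(nat_lit 60, nat_lit 15235813440),
  (nat_lit 8, nat_lit 16309555200), (nat_lit 56, nat_lit 16309293120),
  (nat_lit 99, nat_lit 17383034880), (nat_lit 26, nat_lit 17382772800),
  (nat_lit 13, nat_lit 18456514560), (nat_lit 91, nat_lit 18456252480),
  (nat_lit 61, nat_lit 19529994240), (nat_lit 104, nat_lit 19529732160),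
  (nat_lit 80, nat_lit 20603473920)]⟩,
  ⟨V5_13037998080, nat_lit 4, [(nat_lit 72, nat_lit 15235813440),
  (nat_lit 98, nat_lit 16309555200), (nat_lit 51, nat_lit 16292778048),
  (nat_lit 126, nat_lit 17366519808), (nat_lit 64, nat_lit 17349742656),
  (nat_lit 47, nat_lit 18423484416), (nat_lit 59, nat_lit 18406707264),
  (nat_lit 3, nat_lit 19480449024)]⟩,
  ⟨V5_15234502656, nat_lit 4, [(nat_lit 119, nat_lit 15235813440),
  (nat_lit 99, nat_lit 16309555200), (nat_lit 74, nat_lit 16309293120),
  (nat_lit 13, nat_lit 17383034880), (nat_lit 47, nat_lit 17382772800),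
  (nat_lit 93, nat_lit 18456514560), (nat_lit 126, nat_lit 18456252480),
  (nat_lit 63, nat_lit 19529994240), (nat_lit 12, nat_lit 19529732160),
  (nat_lit 86, nat_lit 20603473920), (nat_lit 88, nat_lit 20603211840),
  (nat_lit 29, nat_lit 21676953600)]⟩,
  ⟨V5_13087543296, nat_lit 2, [(nat_lit 44, nat_lit 15235813440),
  (nat_lit 32, nat_lit 16309555200), (nat_lit 1, nat_lit 16309293120),
  (nat_lit 55, nat_lit 17383034880), (nat_lit 77, nat_lit 17382772800),
  (nat_lit 83, nat_lit 18456514560), (nat_lit 21, nat_lit 18456252480),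
  (nat_lit 83, nat_lit 19529994240)]⟩,
  ⟨V5_15234240576, nat_lit 1, [(nat_lit 95, nat_lit 15235813440),
  (nat_lit 86, nat_lit 16309293120), (nat_lit 124, nat_lit 17382772800),
  (nat_lit 96, nat_lit 18456252480), (nat_lit 61, nat_lit 19529732160),
  (nat_lit 40, nat_lit 20603211840), (nat_lit 18, nat_lit 21676691520)]⟩,
  ⟨V5_13070766144, nat_lit 1, [(nat_lit 80, nat_lit 15235813440),
  (nat_lit 126, nat_lit 16309293120), (nat_lit 95, nat_lit 16292778048),
  (nat_lit 117, nat_lit 17382772800), (nat_lit 11, nat_lit 17366257728),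
  (nat_lit 73, nat_lit 18456252480), (nat_lit 95, nat_lit 18439737408),
  (nat_lit 103, nat_lit 19513217088)]⟩], [
  W6_15234502656, W6_15234240576, W6_15217987584, W6_15217725504, W6_15201472512, W6_15201210432,
  W6_15184957440, W6_15184695360, W6_15168442368, W6_15168180288, W6_14161022976, W6_14160760896,
  W6_14144507904, W6_14144245824, W6_14127992832, W6_14127730752, W6_14111477760, W6_14111215680,
  W6_14094962688, W6_14094700608, W6_13087543296, W6_13071028224, W6_13070766144, W6_13054513152,
  W6_13054251072, W6_13037998080, W6_13037736000]⟩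

theorem F6_15235813440_chk : fwdChk 6 ks6 F6_15235813440 = true := by decide +kernel

noncomputable def F6_15235293312 : Fwd := ⟨V6_15235293312, [
  ⟨V5_13087285248, nat_lit 5, [(nat_lit 77, nat_lit 15235293312),
  (nat_lit 30, nat_lit 16309035072), (nat_lit 20, nat_lit 16308772992),
  (nat_lit 109, nat_lit 17382776832), (nat_lit 82, nat_lit 17382514752),
  (nat_lit 53, nat_lit 17382252672), (nat_lit 99, nat_lit 18456256512),
  (nat_lit 102, nat_lit 18455994432), (nat_lit 111, nat_lit 19529736192)]⟩,
  ⟨V5_13054255104, nat_lit 13, [(nat_lit 53, nat_lit 15235293312),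
  (nat_lit 29, nat_lit 16309035072), (nat_lit 72, nat_lit 16292257920),
  (nat_lit 35, nat_lit 17382776832), (nat_lit 41, nat_lit 17365999680),
  (nat_lit 34, nat_lit 17349222528), (nat_lit 96, nat_lit 18439741440),
  (nat_lit 79, nat_lit 18422964288), (nat_lit 102, nat_lit 19496706048)]⟩,
  ⟨V5_15234244608, nat_lit 5, [(nat_lit 44, nat_lit 15235293312),
  (nat_lit 72, nat_lit 16309035072), (nat_lit 83, nat_lit 16308772992),
  (nat_lit 58, nat_lit 17382776832), (nat_lit 111, nat_lit 17382514752),
  (nat_lit 72, nat_lit 17382252672), (nat_lit 28, nat_lit 18456256512),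
  (nat_lit 85, nat_lit 18455994432), (nat_lit 41, nat_lit 18455732352),
  (nat_lit 101, nat_lit 19529736192), (nat_lit 14, nat_lit 19529474112),
  (nat_lit 62, nat_lit 19529212032), (nat_lit 69, nat_lit 20603215872),
  (nat_lit 109, nat_lit 20602953792), (nat_lit 36, nat_lit 21676695552)]⟩,
  ⟨V5_15168184320, nat_lit 15, [(nat_lit 114, nat_lit 15235293312),
  (nat_lit 2, nat_lit 16309035072), (nat_lit 45, nat_lit 16292257920),
  (nat_lit 85, nat_lit 17382776832), (nat_lit 52, nat_lit 17365999680),
  (nat_lit 64, nat_lit 17349222528), (nat_lit 20, nat_lit 18439741440),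
  (nat_lit 56, nat_lit 18422964288), (nat_lit 76, nat_lit 18406187136),
  (nat_lit 64, nat_lit 19496706048), (nat_lit 57, nat_lit 19479928896),
  (nat_lit 24, nat_lit 19463151744), (nat_lit 42, nat_lit 20553670656),
  (nat_lit 99, nat_lit 20536893504), (nat_lit 116, nat_lit 21610635264)]⟩,
  ⟨V5_13086761088, nat_lit 1, [(nat_lit 105, nat_lit 15235293312),
  (nat_lit 64, nat_lit 16308772992), (nat_lit 55, nat_lit 17382252672),
  (nat_lit 76, nat_lit 18455732352), (nat_lit 103, nat_lit 19529212032)]⟩,
  ⟨V5_15134630016, nat_lit 3, [(nat_lit 9, nat_lit 15235293312),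
  (nat_lit 23, nat_lit 16292257920), (nat_lit 81, nat_lit 17349222528),
  (nat_lit 37, nat_lit 18406187136), (nat_lit 76, nat_lit 19463151744),
  (nat_lit 75, nat_lit 20520116352), (nat_lit 3, nat_lit 21577080960)]⟩], [
  W6_15234244608, W6_15217729536, W6_15217467456, W6_15201214464, W6_15200952384, W6_15200690304,
  W6_15184699392, W6_15184437312, W6_15184175232, W6_15168184320, W6_15167922240, W6_15167660160,
  W6_15151407168, W6_15151145088, W6_15134630016, W6_14160764928, W6_14160502848, W6_14144249856,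
  W6_14143987776, W6_14127734784, W6_14127472704, W6_14127210624, W6_14111219712, W6_14110957632,
  W6_14110695552, W6_14094442560, W6_14094180480, W6_14077665408, W6_13087285248, W6_13087023168,
  W6_13086761088, W6_13070770176, W6_13070508096, W6_13070246016, W6_13054255104, W6_13053993024,
  W6_13053730944, W6_13037477952, W6_13037215872, W6_13020700800]⟩

theorem F6_15235293312_chk : fwdChk 6 ks6 F6_15235293312 = true := by decide +kernel

noncomputable def F6_15235043328 : Fwd := ⟨V6_15235043328, [
  ⟨V5_14161281024, nat_lit 5, [(nat_lit 13, nat_lit 15235043328),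
  (nat_lit 72, nat_lit 16308781056), (nat_lit 58, nat_lit 17382518784),
  (nat_lit 9, nat_lit 18456256512), (nat_lit 4, nat_lit 19529994240),
  (nat_lit 74, nat_lit 20603731968)]⟩,
  ⟨V5_15218245632, nat_lit 7, [(nat_lit 15, nat_lit 15235043328),
  (nat_lit 85, nat_lit 16308781056), (nat_lit 46, nat_lit 16292007936),
  (nat_lit 121, nat_lit 17382518784), (nat_lit 102, nat_lit 17365745664),
  (nat_lit 109, nat_lit 18456256512), (nat_lit 62, nat_lit 18439483392),
  (nat_lit 101, nat_lit 19529994240), (nat_lit 105, nat_lit 19513221120),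
  (nat_lit 9, nat_lit 20603731968), (nat_lit 95, nat_lit 20586958848),
  (nat_lit 120, nat_lit 21660696576)]⟩,
  ⟨V5_13087543296, nat_lit 2, [(nat_lit 45, nat_lit 15235043328),
  (nat_lit 96, nat_lit 16308781056), (nat_lit 32, nat_lit 17382518784),
  (nat_lit 93, nat_lit 18456256512), (nat_lit 122, nat_lit 19529994240)]⟩,
  ⟨V5_13070770176, nat_lit 6, [(nat_lit 28, nat_lit 15235043328),
  (nat_lit 37, nat_lit 16308781056), (nat_lit 33, nat_lit 16292007936),
  (nat_lit 109, nat_lit 17382518784), (nat_lit 78, nat_lit 17365745664),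
  (nat_lit 39, nat_lit 18456256512), (nat_lit 35, nat_lit 18439483392),
  (nat_lit 62, nat_lit 19513221120)]⟩], [
  W6_15218245632, W6_15201472512, W6_15184699392, W6_15167926272, W6_15151153152, W6_14161281024,
  W6_14144507904, W6_14127734784, W6_14110961664, W6_14094188544, W6_14077415424, W6_13087543296,
  W6_13070770176, W6_13053997056, W6_13037223936, W6_13020450816]⟩

theorem F6_15235043328_chk : fwdChk 6 ks6 F6_15235043328 = true := by decide +kernel

noncomputable def F6_15235031169 : Fwd := ⟨V6_15235031169, [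
  ⟨V5_13086761088, nat_lit 1, [(nat_lit 52, nat_lit 15235031169),
  (nat_lit 38, nat_lit 16308772992), (nat_lit 84, nat_lit 16308510849),
  (nat_lit 59, nat_lit 17382252672), (nat_lit 120, nat_lit 17381990529),
  (nat_lit 53, nat_lit 18455732352), (nat_lit 53, nat_lit 18455470209),
  (nat_lit 59, nat_lit 19529212032)]⟩,
  ⟨V5_13053993024, nat_lit 5, [(nat_lit 6, nat_lit 15235031169),
  (nat_lit 70, nat_lit 16308772992), (nat_lit 42, nat_lit 16308772929),
  (nat_lit 20, nat_lit 16291995777), (nat_lit 103, nat_lit 17382514752),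
  (nat_lit 28, nat_lit 17365737600), (nat_lit 35, nat_lit 17365737537),
  (nat_lit 77, nat_lit 17348960385), (nat_lit 23, nat_lit 18439479360),
  (nat_lit 112, nat_lit 18422702208), (nat_lit 38, nat_lit 18422702145),
  (nat_lit 66, nat_lit 19496443968)]⟩,
  ⟨V5_14094180480, nat_lit 3, [(nat_lit 84, nat_lit 15235031169),
  (nat_lit 116, nat_lit 16308772992), (nat_lit 24, nat_lit 16291995777),
  (nat_lit 78, nat_lit 17365737600), (nat_lit 122, nat_lit 17348960385),
  (nat_lit 26, nat_lit 18422702208), (nat_lit 99, nat_lit 18405924993),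
  (nat_lit 11, nat_lit 19479666816), (nat_lit 16, nat_lit 19462889601),
  (nat_lit 16, nat_lit 20536631424)]⟩,
  ⟨V5_13087023168, nat_lit 1, [(nat_lit 118, nat_lit 15235031169),
  (nat_lit 60, nat_lit 16308772992), (nat_lit 50, nat_lit 16308772929),
  (nat_lit 4, nat_lit 16308510849), (nat_lit 120, nat_lit 17382514752),
  (nat_lit 1, nat_lit 17382252672), (nat_lit 38, nat_lit 17382252609),
  (nat_lit 58, nat_lit 17381990529), (nat_lit 55, nat_lit 18455994432),
  (nat_lit 102, nat_lit 18455732352), (nat_lit 12, nat_lit 18455732289),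
  (nat_lit 15, nat_lit 19529474112)]⟩,
  ⟨V5_14160502848, nat_lit 1, [(nat_lit 111, nat_lit 15235031169),
  (nat_lit 6, nat_lit 16308772992), (nat_lit 1, nat_lit 16308772929),
  (nat_lit 73, nat_lit 16308510849), (nat_lit 63, nat_lit 17382514752),
  (nat_lit 106, nat_lit 17382252672), (nat_lit 69, nat_lit 17382252609),
  (nat_lit 30, nat_lit 17381990529), (nat_lit 64, nat_lit 18455994432),
  (nat_lit 12, nat_lit 18455732352), (nat_lit 72, nat_lit 18455732289),
  (nat_lit 77, nat_lit 18455470209), (nat_lit 13, nat_lit 19529474112),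
  (nat_lit 85, nat_lit 19529212032), (nat_lit 119, nat_lit 19529211969),
  (nat_lit 52, nat_lit 20602953792)]⟩], [
  W6_15217467456, W6_15200952384, W6_15200690304, W6_15184437312, W6_15184175232, W6_15167922240,
  W6_15167660160, W6_15151145088, W6_14160502848, W6_14143987776, W6_14127472704, W6_14127210624,
  W6_14110957632, W6_14110695552, W6_14094180480, W6_13087023168, W6_13086761088, W6_13070508096,
  W6_13070246016, W6_13053993024, W6_13053730944, W6_13037215872]⟩

theorem F6_15235031169_chk : fwdChk 6 ks6 F6_15235031169 = true := by decide +kernel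

noncomputable def F6_15234777216 : Fwd := ⟨V6_15234777216, [
  ⟨V5_13087285248, nat_lit 5, [(nat_lit 5, nat_lit 15234777216),
  (nat_lit 62, nat_lit 16308518976), (nat_lit 126, nat_lit 16308514944),
  (nat_lit 40, nat_lit 17382260736), (nat_lit 94, nat_lit 17382256704),
  (nat_lit 77, nat_lit 17382252672), (nat_lit 92, nat_lit 18455998464),
  (nat_lit 86, nat_lit 18455994432), (nat_lit 42, nat_lit 19529736192)]⟩,
  ⟨V5_13053739008, nat_lit 6, [(nat_lit 86, nat_lit 15234777216),
  (nat_lit 83, nat_lit 16308518976), (nat_lit 9, nat_lit 16291741824),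
  (nat_lit 52, nat_lit 17382260736), (nat_lit 21, nat_lit 17365483584),
  (nat_lit 36, nat_lit 17348706432), (nat_lit 12, nat_lit 18439225344),
  (nat_lit 121, nat_lit 18422448192), (nat_lit 108, nat_lit 19496189952)]⟩,
  ⟨V5_15167668224, nat_lit 8, [(nat_lit 83, nat_lit 15234777216),
  (nat_lit 124, nat_lit 16308518976), (nat_lit 123, nat_lit 16291741824),
  (nat_lit 63, nat_lit 17382260736), (nat_lit 49, nat_lit 17365483584),
  (nat_lit 31, nat_lit 17348706432), (nat_lit 97, nat_lit 18439225344),
  (nat_lit 43, nat_lit 18422448192), (nat_lit 13, nat_lit 18405671040),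
  (nat_lit 31, nat_lit 19496189952), (nat_lit 105, nat_lit 19479412800),
  (nat_lit 91, nat_lit 19462635648), (nat_lit 64, nat_lit 20553154560),
  (nat_lit 42, nat_lit 20536377408), (nat_lit 80, nat_lit 21610119168)]⟩,
  ⟨V5_13020184704, nat_lit 3, [(nat_lit 47, nat_lit 15234777216),
  (nat_lit 80, nat_lit 16291741824), (nat_lit 79, nat_lit 17348706432),
  (nat_lit 16, nat_lit 18405671040), (nat_lit 34, nat_lit 19462635648)]⟩,
  ⟨V5_13070512128, nat_lit 4, [(nat_lit 113, nat_lit 15234777216),
  (nat_lit 82, nat_lit 16308518976), (nat_lit 80, nat_lit 16308514944),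
  (nat_lit 2, nat_lit 16291741824), (nat_lit 93, nat_lit 17382260736),
  (nat_lit 126, nat_lit 17382256704), (nat_lit 115, nat_lit 17365483584),
  (nat_lit 46, nat_lit 17365479552), (nat_lit 88, nat_lit 18455998464),
  (nat_lit 67, nat_lit 18439225344), (nat_lit 7, nat_lit 18439221312),
  (nat_lit 122, nat_lit 19512963072)]⟩], [
  W6_15201214464, W6_15184441344, W6_15184437312, W6_15167668224, W6_15167664192, W6_15167660160,
  W6_15150891072, W6_15150887040, W6_15134113920, W6_14144249856, W6_14127476736, W6_14127472704,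
  W6_14110703616, W6_14110699584, W6_14110695552, W6_14093926464, W6_14093922432, W6_14077149312,
  W6_13087285248, W6_13070512128, W6_13070508096, W6_13053739008, W6_13053734976, W6_13053730944,
  W6_13036961856, W6_13036957824, W6_13020184704]⟩

theorem F6_15234777216_chk : fwdChk 6 ks6 F6_15234777216 = true := by decide +kernel

noncomputable def F6_15234773184 : Fwd := ⟨V6_15234773184, [
  ⟨V5_13070512128, nat_lit 4, [(nat_lit 70, nat_lit 15234773184),
  (nat_lit 46, nat_lit 16308514944), (nat_lit 121, nat_lit 16291737792),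
  (nat_lit 61, nat_lit 17382256704), (nat_lit 77, nat_lit 17365479552),
  (nat_lit 14, nat_lit 18455998464), (nat_lit 98, nat_lit 18439221312),
  (nat_lit 111, nat_lit 19512963072)]⟩,
  ⟨V5_14143991808, nat_lit 2, [(nat_lit 103, nat_lit 15234773184),
  (nat_lit 102, nat_lit 16308514944), (nat_lit 111, nat_lit 16308252864),
  (nat_lit 59, nat_lit 16291737792), (nat_lit 94, nat_lit 17382256704),
  (nat_lit 13, nat_lit 17381994624), (nat_lit 61, nat_lit 17365479552),
  (nat_lit 43, nat_lit 17365217472), (nat_lit 50, nat_lit 18455998464),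
  (nat_lit 126, nat_lit 18455736384), (nat_lit 123, nat_lit 18439221312),
  (nat_lit 11, nat_lit 18438959232), (nat_lit 84, nat_lit 19529478144),
  (nat_lit 125, nat_lit 19512963072), (nat_lit 12, nat_lit 19512700992),
  (nat_lit 38, nat_lit 20586442752)]⟩], [
  W6_15200956416, W6_15184441344, W6_15184179264, W6_15167664192, W6_15150887040, W6_14143991808,
  W6_14127476736, W6_14127214656, W6_14110699584, W6_14110437504, W6_14093922432, W6_13070512128,
  W6_13070250048, W6_13053734976, W6_13036957824]⟩

theorem F6_15234773184_chk : fwdChk 6 ks6 F6_15234773184 = true := by decide +kernel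

noncomputable def F6_15234511041 : Fwd := ⟨V6_15234511041, [
  ⟨V5_13070250048, nat_lit 1, [(nat_lit 106, nat_lit 15234511041),
  (nat_lit 26, nat_lit 16308252864), (nat_lit 47, nat_lit 16308252801),
  (nat_lit 15, nat_lit 16291475649), (nat_lit 57, nat_lit 17381994624),
  (nat_lit 64, nat_lit 17381994561), (nat_lit 103, nat_lit 17365217472),
  (nat_lit 97, nat_lit 17365217409), (nat_lit 117, nat_lit 18455736384),
  (nat_lit 54, nat_lit 18438959232), (nat_lit 6, nat_lit 18438959169),
  (nat_lit 11, nat_lit 19512700992)]⟩], [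
  W6_15184179264, W6_14127214656, W6_14110437504, W6_13070250048]⟩

theorem F6_15234511041_chk : fwdChk 6 ks6 F6_15234511041 = true := by decide +kernel

noncomputable def F6_15219302400 : Fwd := ⟨V6_15219302400, [
  ⟨V5_15217729536, nat_lit 7, [(nat_lit 74, nat_lit 15219302400),
  (nat_lit 56, nat_lit 16292782080), (nat_lit 59, nat_lit 17366261760),
  (nat_lit 107, nat_lit 18439741440), (nat_lit 106, nat_lit 19513221120),
  (nat_lit 122, nat_lit 20586700800), (nat_lit 118, nat_lit 21660180480)]⟩,
  ⟨V5_15201214464, nat_lit 13, [(nat_lit 103, nat_lit 15219302400),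
  (nat_lit 70, nat_lit 16292782080), (nat_lit 102, nat_lit 16276267008),
  (nat_lit 76, nat_lit 17366261760), (nat_lit 86, nat_lit 17349746688),
  (nat_lit 118, nat_lit 18439741440), (nat_lit 95, nat_lit 18423226368),
  (nat_lit 90, nat_lit 19513221120), (nat_lit 24, nat_lit 19496706048),
  (nat_lit 4, nat_lit 20586700800), (nat_lit 116, nat_lit 20570185728),
  (nat_lit 65, nat_lit 21643665408)]⟩,
  ⟨V5_13070770176, nat_lit 7, [(nat_lit 86, nat_lit 15219302400),
  (nat_lit 39, nat_lit 16292782080), (nat_lit 88, nat_lit 17366261760),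
  (nat_lit 69, nat_lit 18439741440), (nat_lit 126, nat_lit 19513221120)]⟩,
  ⟨V5_14144249856, nat_lit 8, [(nat_lit 49, nat_lit 15219302400),
  (nat_lit 102, nat_lit 16292782080), (nat_lit 53, nat_lit 17366261760),
  (nat_lit 110, nat_lit 18439741440), (nat_lit 82, nat_lit 19513221120),
  (nat_lit 71, nat_lit 20586700800)]⟩,
  ⟨V5_11997548544, nat_lit 3, [(nat_lit 68, nat_lit 15219302400),
  (nat_lit 57, nat_lit 16293040128), (nat_lit 114, nat_lit 16292782080),
  (nat_lit 80, nat_lit 17366519808), (nat_lit 115, nat_lit 17366261760),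
  (nat_lit 7, nat_lit 18439999488)]⟩], [
  W6_15218245632, W6_15217987584, W6_15217729536, W6_15201730560, W6_15201472512, W6_15201214464,
  W6_15185215488, W6_15184957440, W6_15184699392, W6_14144765952, W6_14144507904, W6_14144249856,
  W6_14128250880, W6_14127992832, W6_14127734784, W6_14111735808, W6_14111477760, W6_14111219712,
  W6_13071286272, W6_13071028224, W6_13070770176, W6_13054771200, W6_13054513152, W6_13054255104,
  W6_13037998080, W6_13037740032, W6_11997548544, W6_11997290496, W6_11981291520, W6_11981033472,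
  W6_11980775424, W6_11964518400, W6_11964260352]⟩

theorem F6_15219302400_chk : fwdChk 6 ks6 F6_15219302400 = true := by decide +kernel

noncomputable def F6_15218528256 : Fwd := ⟨V6_15218528256, [
  ⟨V5_15201730560, nat_lit 12, [(nat_lit 110, nat_lit 15218528256),
  (nat_lit 54, nat_lit 16292265984), (nat_lit 111, nat_lit 16275492864),
  (nat_lit 56, nat_lit 17366003712), (nat_lit 121, nat_lit 17349230592),
  (nat_lit 19, nat_lit 18439741440), (nat_lit 108, nat_lit 18422968320),
  (nat_lit 72, nat_lit 19513479168), (nat_lit 70, nat_lit 19496706048),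
  (nat_lit 7, nat_lit 20587216896), (nat_lit 87, nat_lit 20570443776),
  (nat_lit 92, nat_lit 21644181504)]⟩,
  ⟨V5_14144765952, nat_lit 6, [(nat_lit 44, nat_lit 15218528256),
  (nat_lit 19, nat_lit 16292265984), (nat_lit 40, nat_lit 17366003712),
  (nat_lit 50, nat_lit 18439741440), (nat_lit 121, nat_lit 19513479168),
  (nat_lit 16, nat_lit 20587216896)]⟩,
  ⟨V5_13071028224, nat_lit 6, [(nat_lit 69, nat_lit 15218528256),
  (nat_lit 71, nat_lit 16292265984), (nat_lit 66, nat_lit 17366003712),
  (nat_lit 41, nat_lit 18439741440), (nat_lit 77, nat_lit 19513479168)]⟩,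
  ⟨V5_15218245632, nat_lit 7, [(nat_lit 54, nat_lit 15218528256),
  (nat_lit 61, nat_lit 16292265984), (nat_lit 36, nat_lit 16292007936),
  (nat_lit 118, nat_lit 17366003712), (nat_lit 26, nat_lit 17365745664),
  (nat_lit 19, nat_lit 18439741440), (nat_lit 118, nat_lit 18439483392),
  (nat_lit 104, nat_lit 19513479168), (nat_lit 88, nat_lit 19513221120),
  (nat_lit 31, nat_lit 20587216896), (nat_lit 45, nat_lit 20586958848),
  (nat_lit 108, nat_lit 21660696576)]⟩,
  ⟨V5_14060900352, nat_lit 3, [(nat_lit 42, nat_lit 15218528256),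
  (nat_lit 1, nat_lit 16275492864), (nat_lit 41, nat_lit 17332457472),
  (nat_lit 7, nat_lit 18389422080), (nat_lit 45, nat_lit 19446386688),
  (nat_lit 120, nat_lit 20503351296)]⟩,
  ⟨V5_11946971136, nat_lit 4, [(nat_lit 121, nat_lit 15218528256),
  (nat_lit 29, nat_lit 16275492864), (nat_lit 75, nat_lit 17332457472),
  (nat_lit 80, nat_lit 18389422080)]⟩,
  ⟨V5_14144507904, nat_lit 7, [(nat_lit 43, nat_lit 15218528256),
  (nat_lit 64, nat_lit 16292265984), (nat_lit 33, nat_lit 16292007936),
  (nat_lit 54, nat_lit 17366003712), (nat_lit 33, nat_lit 17365745664),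
  (nat_lit 2, nat_lit 18439741440), (nat_lit 9, nat_lit 18439483392),
  (nat_lit 6, nat_lit 19513479168), (nat_lit 6, nat_lit 19513221120),
  (nat_lit 114, nat_lit 20586958848)]⟩,
  ⟨V5_15134638080, nat_lit 6, [(nat_lit 12, nat_lit 15218528256),
  (nat_lit 74, nat_lit 16292265984), (nat_lit 73, nat_lit 16275492864),
  (nat_lit 79, nat_lit 17349230592), (nat_lit 121, nat_lit 17332457472),
  (nat_lit 51, nat_lit 18406195200), (nat_lit 6, nat_lit 18389422080),
  (nat_lit 31, nat_lit 19463159808), (nat_lit 54, nat_lit 19446386688),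
  (nat_lit 116, nat_lit 20520124416), (nat_lit 115, nat_lit 20503351296),
  (nat_lit 44, nat_lit 21577089024)]⟩,
  ⟨V5_11997290496, nat_lit 1, [(nat_lit 3, nat_lit 15218528256),
  (nat_lit 111, nat_lit 16292265984), (nat_lit 84, nat_lit 17366003712),
  (nat_lit 98, nat_lit 18439741440)]⟩], [
  W6_15218245632, W6_15201730560, W6_15201472512, W6_15184957440, W6_15184699392, W6_15168184320,
  W6_15167926272, W6_15151411200, W6_15151153152, W6_15134638080, W6_14144765952, W6_14144507904,
  W6_14127992832, W6_14127734784, W6_14111219712, W6_14110961664, W6_14094446592, W6_14094188544,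
  W6_14077673472, W6_14077415424, W6_14060900352, W6_13071028224, W6_13070770176, W6_13054255104,
  W6_13053997056, W6_13037481984, W6_13037223936, W6_13020708864, W6_13020450816, W6_13003935744,
  W6_11997290496, W6_11997032448, W6_11980517376, W6_11980259328, W6_11963744256, W6_11963486208,
  W6_11946971136]⟩

theorem F6_15218528256_chk : fwdChk 6 ks6 F6_15218528256 = true := by decide +kernel

noncomputable def F6_15218258112 : Fwd := ⟨V6_15218258112, [
  ⟨V5_11997032448, nat_lit 3, [(nat_lit 42, nat_lit 15218258112),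
  (nat_lit 96, nat_lit 16291999872), (nat_lit 76, nat_lit 17365741632),
  (nat_lit 112, nat_lit 18439483392)]⟩,
  ⟨V5_13070512128, nat_lit 4, [(nat_lit 80, nat_lit 15218258112),
  (nat_lit 76, nat_lit 16291999872), (nat_lit 22, nat_lit 16291737792),
  (nat_lit 59, nat_lit 17365741632), (nat_lit 46, nat_lit 17365479552),
  (nat_lit 91, nat_lit 18439483392), (nat_lit 78, nat_lit 18439221312),
  (nat_lit 54, nat_lit 19512963072)]⟩,
  ⟨V5_14110961664, nat_lit 10, [(nat_lit 52, nat_lit 15218258112),
  (nat_lit 125, nat_lit 16291999872), (nat_lit 103, nat_lit 16275222720),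
  (nat_lit 121, nat_lit 17365741632), (nat_lit 125, nat_lit 17348964480),
  (nat_lit 112, nat_lit 17332187328), (nat_lit 84, nat_lit 18439483392),
  (nat_lit 73, nat_lit 18422706240), (nat_lit 9, nat_lit 18405929088),
  (nat_lit 62, nat_lit 19496448000), (nat_lit 45, nat_lit 19479670848),
  (nat_lit 43, nat_lit 20553412608)]⟩,
  ⟨V5_13003665600, nat_lit 1, [(nat_lit 65, nat_lit 15218258112),
  (nat_lit 23, nat_lit 16275222720), (nat_lit 78, nat_lit 17332187328),
  (nat_lit 61, nat_lit 18389151936), (nat_lit 50, nat_lit 19446116544)]⟩], [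
  W6_15200956416, W6_15184441344, W6_15184179264, W6_15167926272, W6_15167664192, W6_15151149120,
  W6_15150887040, W6_15134371968, W6_14143991808, W6_14127476736, W6_14127214656, W6_14110961664,
  W6_14110699584, W6_14110437504, W6_14094184512, W6_14093922432, W6_14077407360, W6_13070512128,
  W6_13070250048, W6_13053997056, W6_13053734976, W6_13037219904, W6_13036957824, W6_13020442752,
  W6_13003665600, W6_11997032448, W6_11996770368, W6_11980255296, W6_11979993216, W6_11963478144,
  W6_11963216064]⟩

theorem F6_15218258112_chk : fwdChk 6 ks6 F6_15218258112 = true := by decide +kernel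

noncomputable def F6_15218000064 : Fwd := ⟨V6_15218000064, [
  ⟨V5_13053739008, nat_lit 6, [(nat_lit 123, nat_lit 15218000064),
  (nat_lit 107, nat_lit 16291741824), (nat_lit 69, nat_lit 16274964672),
  (nat_lit 40, nat_lit 17365483584), (nat_lit 78, nat_lit 17348706432),
  (nat_lit 120, nat_lit 18439225344), (nat_lit 120, nat_lit 18422448192),
  (nat_lit 90, nat_lit 19496189952)]⟩,
  ⟨V5_13070512128, nat_lit 4, [(nat_lit 42, nat_lit 15218000064),
  (nat_lit 52, nat_lit 16291741824), (nat_lit 108, nat_lit 16291737792),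
  (nat_lit 86, nat_lit 17365483584), (nat_lit 15, nat_lit 17365479552),
  (nat_lit 35, nat_lit 18439225344), (nat_lit 114, nat_lit 18439221312),
  (nat_lit 17, nat_lit 19512963072)]⟩,
  ⟨V5_11996770368, nat_lit 2, [(nat_lit 11, nat_lit 15218000064),
  (nat_lit 87, nat_lit 16291741824), (nat_lit 75, nat_lit 16291737792),
  (nat_lit 60, nat_lit 17365483584), (nat_lit 52, nat_lit 17365479552),
  (nat_lit 71, nat_lit 18439221312)]⟩,
  ⟨V5_11979997248, nat_lit 2, [(nat_lit 5, nat_lit 15218000064),
  (nat_lit 74, nat_lit 16291741824), (nat_lit 45, nat_lit 16274964672),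
  (nat_lit 22, nat_lit 17365483584), (nat_lit 81, nat_lit 17348706432),
  (nat_lit 76, nat_lit 18422448192)]⟩,
  ⟨V5_14060372160, nat_lit 1, [(nat_lit 37, nat_lit 15218000064),
  (nat_lit 16, nat_lit 16274964672), (nat_lit 21, nat_lit 17331929280),
  (nat_lit 112, nat_lit 18388893888), (nat_lit 85, nat_lit 19445858496),
  (nat_lit 15, nat_lit 20502823104)]⟩], [
  W6_15184441344, W6_15167668224, W6_15167664192, W6_15150891072, W6_15150887040, W6_15134113920,
  W6_14127476736, W6_14110703616, W6_14110699584, W6_14093926464, W6_14093922432, W6_14077149312,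
  W6_14060372160, W6_13070512128, W6_13053739008, W6_13053734976, W6_13036961856, W6_13036957824,
  W6_13020184704, W6_13003407552, W6_11996770368, W6_11979997248, W6_11979993216, W6_11963220096,
  W6_11963216064, W6_11946442944]⟩

theorem F6_15218000064_chk : fwdChk 6 ks6 F6_15218000064 = true := by decide +kernel

noncomputable def F6_15202787328 : Fwd := ⟨V6_15202787328, [
  ⟨V5_10907811840, nat_lit 1, [(nat_lit 18, nat_lit 15202787328),
  (nat_lit 7, nat_lit 16276525056), (nat_lit 5, nat_lit 17350262784)]⟩,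
  ⟨V5_15201214464, nat_lit 15, [(nat_lit 62, nat_lit 15202787328),
  (nat_lit 44, nat_lit 16276267008), (nat_lit 126, nat_lit 17349746688),
  (nat_lit 20, nat_lit 18423226368), (nat_lit 50, nat_lit 19496706048),
  (nat_lit 28, nat_lit 20570185728), (nat_lit 31, nat_lit 21643665408)]⟩,
  ⟨V5_10907295744, nat_lit 3, [(nat_lit 46, nat_lit 15202787328),
  (nat_lit 10, nat_lit 16276267008), (nat_lit 14, nat_lit 17349746688)]⟩,
  ⟨V5_11980775424, nat_lit 4, [(nat_lit 101, nat_lit 15202787328),
  (nat_lit 106, nat_lit 16276267008), (nat_lit 74, nat_lit 17349746688),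
  (nat_lit 118, nat_lit 18423226368)]⟩], [
  W6_15201730560, W6_15201472512, W6_15201214464, W6_14128250880, W6_14127992832, W6_14127734784,
  W6_13054771200, W6_13054513152, W6_13054255104, W6_11981291520, W6_11981033472, W6_11980775424,
  W6_10907811840, W6_10907553792, W6_10907295744]⟩

theorem F6_15202787328_chk : fwdChk 6 ks6 F6_15202787328 = true := by decide +kernel

noncomputable def F6_15202783296 : Fwd := ⟨V6_15202783296, [
  ⟨V5_10907553792, nat_lit 1, [(nat_lit 72, nat_lit 15202783296),
  (nat_lit 22, nat_lit 16276525056), (nat_lit 126, nat_lit 16276262976),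
  (nat_lit 33, nat_lit 17350004736)]⟩,
  ⟨V5_11981033472, nat_lit 3, [(nat_lit 94, nat_lit 15202783296),
  (nat_lit 21, nat_lit 16276525056), (nat_lit 49, nat_lit 16276262976),
  (nat_lit 31, nat_lit 17350004736), (nat_lit 104, nat_lit 17349742656),
  (nat_lit 69, nat_lit 18423484416)]⟩,
  ⟨V5_11980771392, nat_lit 2, [(nat_lit 47, nat_lit 15202783296),
  (nat_lit 121, nat_lit 16276262976), (nat_lit 3, nat_lit 17349742656),
  (nat_lit 70, nat_lit 18423222336)]⟩], [
  W6_15201472512, W6_15201210432, W6_14127992832, W6_14127730752, W6_13054513152, W6_13054251072,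
  W6_11981033472, W6_11980771392, W6_10907553792]⟩

theorem F6_15202783296_chk : fwdChk 6 ks6 F6_15202783296 = true := by decide +kernel

noncomputable def F6_15202529280 : Fwd := ⟨V6_15202529280, [
  ⟨V5_10907295744, nat_lit 3, [(nat_lit 1, nat_lit 15202529280),
  (nat_lit 72, nat_lit 16276267008), (nat_lit 54, nat_lit 16276008960),
  (nat_lit 32, nat_lit 17349746688)]⟩,
  ⟨V5_13054771200, nat_lit 5, [(nat_lit 85, nat_lit 15202529280),
  (nat_lit 61, nat_lit 16276267008), (nat_lit 101, nat_lit 16276008960),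
  (nat_lit 37, nat_lit 17350004736), (nat_lit 80, nat_lit 17349746688),
  (nat_lit 12, nat_lit 18423742464), (nat_lit 41, nat_lit 18423484416),
  (nat_lit 84, nat_lit 19497222144)]⟩,
  ⟨V5_15201214464, nat_lit 15, [(nat_lit 82, nat_lit 15202529280),
  (nat_lit 12, nat_lit 16276267008), (nat_lit 98, nat_lit 16276008960),
  (nat_lit 34, nat_lit 17349746688), (nat_lit 126, nat_lit 17349488640),
  (nat_lit 46, nat_lit 18423226368), (nat_lit 123, nat_lit 18422968320),
  (nat_lit 107, nat_lit 19496706048), (nat_lit 60, nat_lit 19496448000),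
  (nat_lit 66, nat_lit 20570185728), (nat_lit 70, nat_lit 20569927680),
  (nat_lit 39, nat_lit 21643665408)]⟩,
  ⟨V5_15201730560, nat_lit 10, [(nat_lit 46, nat_lit 15202529280),
  (nat_lit 28, nat_lit 16276267008), (nat_lit 18, nat_lit 16276008960),
  (nat_lit 59, nat_lit 17350004736), (nat_lit 123, nat_lit 17349746688),
  (nat_lit 103, nat_lit 17349488640), (nat_lit 113, nat_lit 18423742464),
  (nat_lit 81, nat_lit 18423484416), (nat_lit 20, nat_lit 18423226368),
  (nat_lit 42, nat_lit 18422968320), (nat_lit 71, nat_lit 19497222144),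
  (nat_lit 39, nat_lit 19496964096), (nat_lit 117, nat_lit 19496706048),
  (nat_lit 74, nat_lit 20570701824), (nat_lit 38, nat_lit 20570443776),
  (nat_lit 31, nat_lit 21644181504)]⟩,
  ⟨V5_11980517376, nat_lit 6, [(nat_lit 49, nat_lit 15202529280),
  (nat_lit 117, nat_lit 16276008960), (nat_lit 62, nat_lit 17349488640),
  (nat_lit 13, nat_lit 18422968320)]⟩,
  ⟨V5_10907553792, nat_lit 1, [(nat_lit 83, nat_lit 15202529280),
  (nat_lit 101, nat_lit 16276267008), (nat_lit 1, nat_lit 17350004736)]⟩], [
  W6_15201730560, W6_15201472512, W6_15201214464, W6_15200956416, W6_15185215488, W6_15184957440,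
  W6_15184699392, W6_15184441344, W6_14128250880, W6_14127992832, W6_14127734784, W6_14127476736,
  W6_14111735808, W6_14111477760, W6_14111219712, W6_14110961664, W6_13054771200, W6_13054513152,
  W6_13054255104, W6_13053997056, W6_13037998080, W6_13037740032, W6_13037481984, W6_11981291520,
  W6_11981033472, W6_11980775424, W6_11980517376, W6_11964518400, W6_11964260352, W6_11964002304,
  W6_10907553792, W6_10907295744, W6_10907037696, W6_10890522624]⟩

theorem F6_15202529280_chk : fwdChk 6 ks6 F6_15202529280 = true := by decide +kernel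

noncomputable def F6_15202267200 : Fwd := ⟨V6_15202267200, [
  ⟨V5_10907295744, nat_lit 3, [(nat_lit 71, nat_lit 15202267200),
  (nat_lit 74, nat_lit 16276008960), (nat_lit 78, nat_lit 16276004928),
  (nat_lit 53, nat_lit 17349746688)]⟩,
  ⟨V5_11981033472, nat_lit 3, [(nat_lit 123, nat_lit 15202267200),
  (nat_lit 81, nat_lit 16276008960), (nat_lit 5, nat_lit 16276004928),
  (nat_lit 25, nat_lit 17349746688), (nat_lit 21, nat_lit 17349742656),
  (nat_lit 13, nat_lit 18423484416)]⟩,
  ⟨V5_13021224960, nat_lit 6, [(nat_lit 121, nat_lit 15202267200),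
  (nat_lit 31, nat_lit 16276008960), (nat_lit 84, nat_lit 16276004928),
  (nat_lit 106, nat_lit 16259231808), (nat_lit 115, nat_lit 17349746688),
  (nat_lit 24, nat_lit 17332973568), (nat_lit 104, nat_lit 17332969536),
  (nat_lit 42, nat_lit 17316196416), (nat_lit 84, nat_lit 18406711296),
  (nat_lit 104, nat_lit 18389938176), (nat_lit 81, nat_lit 18389934144),
  (nat_lit 17, nat_lit 19463675904)]⟩,
  ⟨V5_11980517376, nat_lit 6, [(nat_lit 103, nat_lit 15202267200),
  (nat_lit 118, nat_lit 16276008960), (nat_lit 119, nat_lit 16275746880),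
  (nat_lit 43, nat_lit 17349488640), (nat_lit 117, nat_lit 17349226560),
  (nat_lit 105, nat_lit 18422968320)]⟩,
  ⟨V5_15201214464, nat_lit 15, [(nat_lit 15, nat_lit 15202267200),
  (nat_lit 12, nat_lit 16276008960), (nat_lit 22, nat_lit 16276004928),
  (nat_lit 61, nat_lit 16275746880), (nat_lit 96, nat_lit 17349746688),
  (nat_lit 71, nat_lit 17349488640), (nat_lit 18, nat_lit 17349484608),
  (nat_lit 126, nat_lit 17349226560), (nat_lit 98, nat_lit 18423226368),
  (nat_lit 124, nat_lit 18422968320), (nat_lit 71, nat_lit 18422964288),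
  (nat_lit 41, nat_lit 18422706240), (nat_lit 65, nat_lit 19496706048),
  (nat_lit 70, nat_lit 19496448000), (nat_lit 53, nat_lit 19496443968),
  (nat_lit 53, nat_lit 19496185920), (nat_lit 5, nat_lit 20570185728),
  (nat_lit 59, nat_lit 20569927680), (nat_lit 31, nat_lit 20569923648),
  (nat_lit 117, nat_lit 21643665408)]⟩,
  ⟨V5_11947487232, nat_lit 3, [(nat_lit 29, nat_lit 15202267200),
  (nat_lit 40, nat_lit 16276008960), (nat_lit 99, nat_lit 16259231808),
  (nat_lit 121, nat_lit 17332973568), (nat_lit 122, nat_lit 17316196416),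
  (nat_lit 25, nat_lit 18389938176)]⟩,
  ⟨V5_13054255104, nat_lit 13, [(nat_lit 40, nat_lit 15202267200),
  (nat_lit 47, nat_lit 16276008960), (nat_lit 28, nat_lit 16276004928),
  (nat_lit 61, nat_lit 16275746880), (nat_lit 64, nat_lit 17349746688),
  (nat_lit 13, nat_lit 17349488640), (nat_lit 49, nat_lit 17349484608),
  (nat_lit 75, nat_lit 17349226560), (nat_lit 88, nat_lit 18423226368),
  (nat_lit 9, nat_lit 18422968320), (nat_lit 88, nat_lit 18422964288),
  (nat_lit 83, nat_lit 19496706048)]⟩,
  ⟨V5_14127476736, nat_lit 8, [(nat_lit 120, nat_lit 15202267200),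
  (nat_lit 16, nat_lit 16276008960), (nat_lit 112, nat_lit 16275746880),
  (nat_lit 71, nat_lit 17349488640), (nat_lit 52, nat_lit 17349226560),
  (nat_lit 26, nat_lit 18422968320), (nat_lit 55, nat_lit 18422706240),
  (nat_lit 122, nat_lit 19496448000), (nat_lit 81, nat_lit 19496185920),
  (nat_lit 33, nat_lit 20569927680)]⟩,
  ⟨V5_10890522624, nat_lit 2, [(nat_lit 68, nat_lit 15202267200),
  (nat_lit 42, nat_lit 16276008960), (nat_lit 23, nat_lit 16259231808),
  (nat_lit 27, nat_lit 17332973568)]⟩,
  ⟨V5_13054513152, nat_lit 7, [(nat_lit 40, nat_lit 15202267200),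
  (nat_lit 45, nat_lit 16276008960), (nat_lit 70, nat_lit 16276004928),
  (nat_lit 53, nat_lit 16275746880), (nat_lit 37, nat_lit 17349746688),
  (nat_lit 19, nat_lit 17349742656), (nat_lit 82, nat_lit 17349488640),
  (nat_lit 70, nat_lit 17349484608), (nat_lit 40, nat_lit 18423484416),
  (nat_lit 20, nat_lit 18423226368), (nat_lit 112, nat_lit 18423222336),
  (nat_lit 85, nat_lit 19496964096)]⟩,
  ⟨V5_14094962688, nat_lit 4, [(nat_lit 14, nat_lit 15202267200),
  (nat_lit 111, nat_lit 16276008960), (nat_lit 41, nat_lit 16276004928),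
  (nat_lit 38, nat_lit 16259231808), (nat_lit 38, nat_lit 17349746688),
  (nat_lit 115, nat_lit 17349742656), (nat_lit 99, nat_lit 17332973568),
  (nat_lit 68, nat_lit 17332969536), (nat_lit 92, nat_lit 17316196416),
  (nat_lit 75, nat_lit 18423484416), (nat_lit 84, nat_lit 18406711296),
  (nat_lit 64, nat_lit 18406707264), (nat_lit 109, nat_lit 18389938176),
  (nat_lit 76, nat_lit 18389934144), (nat_lit 83, nat_lit 19480449024),
  (nat_lit 73, nat_lit 19463675904), (nat_lit 53, nat_lit 19463671872),
  (nat_lit 30, nat_lit 20537413632)]⟩,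
  ⟨V5_10873745472, nat_lit 1, [(nat_lit 112, nat_lit 15202267200),
  (nat_lit 5, nat_lit 16259231808), (nat_lit 90, nat_lit 17316196416)]⟩], [
  W6_15201472512, W6_15201214464, W6_15201210432, W6_15200956416, W6_15200952384, W6_15184957440,
  W6_15184699392, W6_15184695360, W6_15184441344, W6_15184437312, W6_15184179264, W6_15168442368,
  W6_15168184320, W6_15168180288, W6_15167926272, W6_15167922240, W6_15167664192, W6_14127992832,
  W6_14127734784, W6_14127730752, W6_14127476736, W6_14127472704, W6_14127214656, W6_14111477760,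
  W6_14111219712, W6_14111215680, W6_14110961664, W6_14110957632, W6_14110699584, W6_14094962688,
  W6_14094704640, W6_14094700608, W6_14094446592, W6_14094442560, W6_14094184512, W6_13054513152,
  W6_13054255104, W6_13054251072, W6_13053997056, W6_13053993024, W6_13053734976, W6_13037998080,
  W6_13037740032, W6_13037736000, W6_13037481984, W6_13037477952, W6_13037219904, W6_13021224960,
  W6_13020966912, W6_13020962880, W6_13020704832, W6_11981033472, W6_11980775424, W6_11980771392,
  W6_11980517376, W6_11980513344, W6_11980255296, W6_11964260352, W6_11964256320, W6_11964002304,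
  W6_11963998272, W6_11963740224, W6_11947487232, W6_11947483200, W6_11947225152, W6_10907295744,
  W6_10907037696, W6_10907033664, W6_10906775616, W6_10890522624, W6_10890518592, W6_10890260544,
  W6_10873745472]⟩

theorem F6_15202267200_chk : fwdChk 6 ks6 F6_15202267200 = true := by decide +kernel

end Crest.Agent.R187.SN.Fwd
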