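import Crest.Agent.R187.SN.FwdDef
import Crest.Agent.R187.SN.TD.Ks
import Crest.Agent.R187.SN.TD.W6_0
import Crest.Agent.R187.SN.TD.W6_1
import Crest.Agent.R187.SN.TD.X5_0
import Crest.Agent.R187.SN.TD.X6_0
import Crest.Agent.R187.SN.TD.X6_1

/-!
# Row 187, PLAN S, certificate E3: forward records of level `(6, 6)`, part 7

`F6_<key> : Fwd` = sources (table of level `(6, 5)`, number of rows, quadrature record) and
`W` tables of the table `V6_<key>`; each record is checked by the kernel.
-/

set_option autoImplicit false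
set_option Elab.async false
set_option maxRecDepth 100000

namespace Crest.Agent.R187.SN.Fwd

open Crest.Agent.R187.SN.Top

noncomputable def F6_15202263168 : Fwd := ⟨V6_15202263168, [
  ⟨V5_10907295744, nat_lit 3, [(nat_lit 44, nat_lit 15202263168),
  (nat_lit 35, nat_lit 16276004928), (nat_lit 5, nat_lit 17349746688)]⟩,
  ⟨V5_10873741440, nat_lit 2, [(nat_lit 46, nat_lit 15202263168),
  (nat_lit 27, nat_lit 16259227776), (nat_lit 105, nat_lit 17316192384)]⟩,
  ⟨V5_13021224960, nat_lit 6, [(nat_lit 105, nat_lit 15202263168),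
  (nat_lit 67, nat_lit 16276004928), (nat_lit 26, nat_lit 16259227776),
  (nat_lit 42, nat_lit 17349746688), (nat_lit 8, nat_lit 17332969536),
  (nat_lit 31, nat_lit 17316192384), (nat_lit 102, nat_lit 18406711296),
  (nat_lit 72, nat_lit 18389934144), (nat_lit 43, nat_lit 19463675904)]⟩,
  ⟨V5_13054255104, nat_lit 13, [(nat_lit 119, nat_lit 15202263168),
  (nat_lit 107, nat_lit 16276004928), (nat_lit 98, nat_lit 16275742848),
  (nat_lit 30, nat_lit 17349746688), (nat_lit 9, nat_lit 17349484608),
  (nat_lit 121, nat_lit 17349222528), (nat_lit 3, nat_lit 18423226368),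
  (nat_lit 55, nat_lit 18422964288), (nat_lit 24, nat_lit 19496706048)]⟩,
  ⟨V5_15201214464, nat_lit 15, [(nat_lit 87, nat_lit 15202263168),
  (nat_lit 75, nat_lit 16276004928), (nat_lit 79, nat_lit 16275742848),
  (nat_lit 45, nat_lit 17349746688), (nat_lit 37, nat_lit 17349484608),
  (nat_lit 18, nat_lit 17349222528), (nat_lit 12, nat_lit 18423226368),
  (nat_lit 92, nat_lit 18422964288), (nat_lit 124, nat_lit 18422702208),
  (nat_lit 80, nat_lit 19496706048), (nat_lit 6, nat_lit 19496443968),
  (nat_lit 47, nat_lit 19496181888), (nat_lit 113, nat_lit 20570185728),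
  (nat_lit 82, nat_lit 20569923648), (nat_lit 108, nat_lit 21643665408)]⟩,
  ⟨V5_10906771584, nat_lit 1, [(nat_lit 86, nat_lit 15202263168),
  (nat_lit 107, nat_lit 16275742848), (nat_lit 5, nat_lit 17349222528)]⟩], [
  W6_15201214464, W6_15200952384, W6_15200690304, W6_15184699392, W6_15184437312, W6_15184175232,
  W6_15168184320, W6_15167922240, W6_15167660160, W6_14127734784, W6_14127472704, W6_14127210624,
  W6_14111219712, W6_14110957632, W6_14110695552, W6_14094704640, W6_14094442560, W6_14094180480,
  W6_13054255104, W6_13053993024, W6_13053730944, W6_13037740032, W6_13037477952, W6_13037215872,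
  W6_13021224960, W6_13020962880, W6_13020700800, W6_11980775424, W6_11980513344, W6_11980251264,
  W6_11964260352, W6_11963998272, W6_11963736192, W6_11947483200, W6_11947221120, W6_10907295744,
  W6_10907033664, W6_10906771584, W6_10890518592, W6_10873741440]⟩

theorem F6_15202263168_chk : fwdChk 6 ks6 F6_15202263168 = true := by decide +kernel

noncomputable def F6_15201755136 : Fwd := ⟨V6_15201755136, [
  ⟨V5_15201730560, nat_lit 12, [(nat_lit 22, nat_lit 15201755136),
  (nat_lit 6, nat_lit 16275492864), (nat_lit 35, nat_lit 17349230592),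
  (nat_lit 126, nat_lit 18422968320), (nat_lit 115, nat_lit 19496706048),
  (nat_lit 68, nat_lit 20570443776), (nat_lit 74, nat_lit 21644181504)]⟩,
  ⟨V5_12987162624, nat_lit 3, [(nat_lit 67, nat_lit 15201755136),
  (nat_lit 120, nat_lit 16258719744), (nat_lit 6, nat_lit 17315684352),
  (nat_lit 61, nat_lit 18372648960), (nat_lit 11, nat_lit 19429613568)]⟩,
  ⟨V5_10873233408, nat_lit 3, [(nat_lit 96, nat_lit 15201755136),
  (nat_lit 95, nat_lit 16258719744), (nat_lit 59, nat_lit 17315684352)]⟩,
  ⟨V5_14127992832, nat_lit 10, [(nat_lit 118, nat_lit 15201755136),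
  (nat_lit 101, nat_lit 16275492864), (nat_lit 44, nat_lit 17349230592),
  (nat_lit 53, nat_lit 18422968320), (nat_lit 49, nat_lit 19496706048),
  (nat_lit 20, nat_lit 20570443776)]⟩,
  ⟨V5_10906779648, nat_lit 4, [(nat_lit 58, nat_lit 15201755136),
  (nat_lit 17, nat_lit 16275492864), (nat_lit 112, nat_lit 17349230592)]⟩,
  ⟨V5_11930198016, nat_lit 1, [(nat_lit 115, nat_lit 15201755136),
  (nat_lit 12, nat_lit 16258719744), (nat_lit 13, nat_lit 17315684352),
  (nat_lit 19, nat_lit 18372648960)]⟩], [
  W6_15201730560, W6_15184957440, W6_15168184320, W6_15151411200, W6_15134638080, W6_14127992832,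
  W6_14111219712, W6_14094446592, W6_14077673472, W6_14060900352, W6_13054255104, W6_13037481984,
  W6_13020708864, W6_13003935744, W6_12987162624, W6_11980517376, W6_11963744256, W6_11946971136,
  W6_11930198016, W6_10906779648, W6_10890006528, W6_10873233408]⟩

theorem F6_15201755136_chk : fwdChk 6 ks6 F6_15201755136 = true := by decide +kernel

noncomputable def F6_15201222912 : Fwd := ⟨V6_15201222912, [
  ⟨V5_13053739008, nat_lit 6, [(nat_lit 73, nat_lit 15201222912),
  (nat_lit 122, nat_lit 16274964672), (nat_lit 18, nat_lit 17348706432),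
  (nat_lit 20, nat_lit 18422448192), (nat_lit 17, nat_lit 19496189952)]⟩,
  ⟨V5_10906255488, nat_lit 2, [(nat_lit 77, nat_lit 15201222912),
  (nat_lit 109, nat_lit 16274964672), (nat_lit 30, nat_lit 17348706432)]⟩,
  ⟨V5_15100559616, nat_lit 1, [(nat_lit 86, nat_lit 15201222912),
  (nat_lit 78, nat_lit 16258187520), (nat_lit 105, nat_lit 17315152128),
  (nat_lit 68, nat_lit 18372116736), (nat_lit 124, nat_lit 19429081344),
  (nat_lit 123, nat_lit 20486045952), (nat_lit 16, nat_lit 21543010560)]⟩,
  ⟨V5_10872701184, nat_lit 1, [(nat_lit 53, nat_lit 15201222912),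
  (nat_lit 67, nat_lit 16258187520), (nat_lit 63, nat_lit 17315152128)]⟩,
  ⟨V5_12986630400, nat_lit 1, [(nat_lit 3, nat_lit 15201222912),
  (nat_lit 121, nat_lit 16258187520), (nat_lit 114, nat_lit 17315152128),
  (nat_lit 16, nat_lit 18372116736), (nat_lit 82, nat_lit 19429081344)]⟩], [
  W6_15167668224, W6_15150891072, W6_15134113920, W6_15100559616, W6_14110703616, W6_14093926464,
  W6_14077149312, W6_14060372160, W6_13053739008, W6_13036961856, W6_13020184704, W6_13003407552,
  W6_12986630400, W6_11979997248, W6_11963220096, W6_11946442944, W6_10906255488, W6_10872701184]⟩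

theorem F6_15201222912_chk : fwdChk 6 ks6 F6_15201222912 = true := by decide +kernel

noncomputable def F6_15201218754 : Fwd := ⟨V6_15201218754, [
  ⟨V5_11963216064, nat_lit 1, [(nat_lit 94, nat_lit 15201218754),
  (nat_lit 40, nat_lit 16274960577), (nat_lit 34, nat_lit 16258183362),
  (nat_lit 97, nat_lit 17348702400), (nat_lit 114, nat_lit 17331925185),
  (nat_lit 58, nat_lit 18405667008)]⟩], [
  W6_15150887040, W6_14110437504, W6_14093922432, W6_13036957824, W6_11979993216, W6_11963216064]⟩

theorem F6_15201218754_chk : fwdChk 6 ks6 F6_15201218754 = true := by decide +kernel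

noncomputable def F6_15185756160 : Fwd := ⟨V6_15185756160, [
  ⟨V5_14110703616, nat_lit 5, [(nat_lit 68, nat_lit 15185756160),
  (nat_lit 126, nat_lit 16259235840), (nat_lit 58, nat_lit 17332715520),
  (nat_lit 106, nat_lit 18406195200), (nat_lit 49, nat_lit 19479674880),
  (nat_lit 13, nat_lit 20553154560)]⟩,
  ⟨V5_15184441344, nat_lit 8, [(nat_lit 79, nat_lit 15185756160),
  (nat_lit 80, nat_lit 16259493888), (nat_lit 118, nat_lit 16259235840),
  (nat_lit 88, nat_lit 17332973568), (nat_lit 70, nat_lit 17332715520),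
  (nat_lit 2, nat_lit 18406453248), (nat_lit 80, nat_lit 18406195200),
  (nat_lit 23, nat_lit 19479932928), (nat_lit 117, nat_lit 19479674880),
  (nat_lit 94, nat_lit 20553412608), (nat_lit 98, nat_lit 20553154560),
  (nat_lit 101, nat_lit 21626892288)]⟩,
  ⟨V5_14111735808, nat_lit 2, [(nat_lit 20, nat_lit 15185756160),
  (nat_lit 88, nat_lit 16259493888), (nat_lit 102, nat_lit 16259235840),
  (nat_lit 87, nat_lit 17333231616), (nat_lit 32, nat_lit 17332973568),
  (nat_lit 31, nat_lit 18406969344), (nat_lit 116, nat_lit 18406711296),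
  (nat_lit 101, nat_lit 19480707072), (nat_lit 1, nat_lit 19480449024),
  (nat_lit 124, nat_lit 20554186752)]⟩,
  ⟨V5_10890522624, nat_lit 2, [(nat_lit 81, nat_lit 15185756160),
  (nat_lit 70, nat_lit 16259493888), (nat_lit 36, nat_lit 16259235840),
  (nat_lit 32, nat_lit 17332973568)]⟩], [
  W6_15185215488, W6_15184957440, W6_15184699392, W6_15184441344, W6_14111735808, W6_14111477760,
  W6_14111219712, W6_14110961664, W6_14110703616, W6_13037998080, W6_13037740032, W6_13037481984,
  W6_13037223936, W6_11964518400, W6_11964260352, W6_11964002304, W6_11963744256, W6_10890522624,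
  W6_10890264576]⟩

theorem F6_15185756160_chk : fwdChk 6 ks6 F6_15185756160 = true := by decide +kernel

noncomputable def F6_15185752128 : Fwd := ⟨V6_15185752128, [
  ⟨V5_15184441344, nat_lit 9, [(nat_lit 7, nat_lit 15185752128),
  (nat_lit 99, nat_lit 16259493888), (nat_lit 6, nat_lit 16259231808),
  (nat_lit 122, nat_lit 17332973568), (nat_lit 54, nat_lit 17332711488),
  (nat_lit 10, nat_lit 18406453248), (nat_lit 12, nat_lit 18406191168),
  (nat_lit 26, nat_lit 19479932928), (nat_lit 35, nat_lit 19479670848),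
  (nat_lit 17, nat_lit 20553412608), (nat_lit 86, nat_lit 20553150528),
  (nat_lit 75, nat_lit 21626892288)]⟩,
  ⟨V5_13037481984, nat_lit 11, [(nat_lit 61, nat_lit 15185752128),
  (nat_lit 102, nat_lit 16259493888), (nat_lit 25, nat_lit 16259231808),
  (nat_lit 105, nat_lit 17332973568), (nat_lit 5, nat_lit 17332711488),
  (nat_lit 80, nat_lit 18406453248), (nat_lit 86, nat_lit 18406191168),
  (nat_lit 21, nat_lit 19479932928)]⟩,
  ⟨V5_9816780864, nat_lit 1, [(nat_lit 50, nat_lit 15185752128),
  (nat_lit 51, nat_lit 16259231808)]⟩,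
  ⟨V5_11964002304, nat_lit 5, [(nat_lit 25, nat_lit 15185752128),
  (nat_lit 55, nat_lit 16259493888), (nat_lit 36, nat_lit 16259231808),
  (nat_lit 80, nat_lit 17332973568), (nat_lit 3, nat_lit 17332711488),
  (nat_lit 102, nat_lit 18406453248)]⟩,
  ⟨V5_11964518400, nat_lit 1, [(nat_lit 81, nat_lit 15185752128),
  (nat_lit 106, nat_lit 16259493888), (nat_lit 121, nat_lit 16259489856),
  (nat_lit 97, nat_lit 17333231616), (nat_lit 51, nat_lit 17333227584),
  (nat_lit 86, nat_lit 18406969344)]⟩], [
  W6_15184957440, W6_15184699392, W6_15184695360, W6_15184441344, W6_15184437312, W6_15184179264,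
  W6_14111477760, W6_14111219712, W6_14111215680, W6_14110961664, W6_14110957632, W6_14110699584,
  W6_13037998080, W6_13037740032, W6_13037736000, W6_13037481984, W6_13037477952, W6_13037219904,
  W6_11964518400, W6_11964260352, W6_11964256320, W6_11964002304, W6_11963998272, W6_11963740224,
  W6_10890522624, W6_10890518592, W6_10890260544, W6_9816780864]⟩

theorem F6_15185752128_chk : fwdChk 6 ks6 F6_15185752128 = true := by decide +kernel

noncomputable def F6_15185748096 : Fwd := ⟨V6_15185748096, [
  ⟨V5_11964260352, nat_lit 3, [(nat_lit 76, nat_lit 15185748096),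
  (nat_lit 27, nat_lit 16259489856), (nat_lit 10, nat_lit 16259227776),
  (nat_lit 35, nat_lit 17333231616), (nat_lit 46, nat_lit 17332969536),
  (nat_lit 121, nat_lit 18406711296)]⟩,
  ⟨V5_13037740032, nat_lit 6, [(nat_lit 76, nat_lit 15185748096),
  (nat_lit 23, nat_lit 16259489856), (nat_lit 25, nat_lit 16259227776),
  (nat_lit 77, nat_lit 17333231616), (nat_lit 18, nat_lit 17332969536),
  (nat_lit 106, nat_lit 17332707456), (nat_lit 94, nat_lit 18406711296),
  (nat_lit 71, nat_lit 18406449216), (nat_lit 123, nat_lit 19480190976)]⟩], [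
  W6_15184699392, W6_15184437312, W6_15184175232, W6_14111219712, W6_14110957632, W6_14110695552,
  W6_13037740032, W6_13037477952, W6_13037215872, W6_11964260352, W6_11963998272, W6_11963736192,
  W6_10890518592]⟩

theorem F6_15185748096_chk : fwdChk 6 ks6 F6_15185748096 = true := by decide +kernel

noncomputable def F6_15185748033 : Fwd := ⟨V6_15185748033, [
  ⟨V5_15184437312, nat_lit 7, [(nat_lit 88, nat_lit 15185748033),
  (nat_lit 8, nat_lit 16259489856), (nat_lit 88, nat_lit 16259227713),
  (nat_lit 25, nat_lit 17332969536), (nat_lit 17, nat_lit 17332707393),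
  (nat_lit 98, nat_lit 18406449216), (nat_lit 110, nat_lit 18406187073),
  (nat_lit 50, nat_lit 19479928896), (nat_lit 39, nat_lit 19479666753),
  (nat_lit 40, nat_lit 20553408576), (nat_lit 39, nat_lit 20553146433),
  (nat_lit 62, nat_lit 21626888256)]⟩,
  ⟨V5_10890518592, nat_lit 1, [(nat_lit 52, nat_lit 15185748033),
  (nat_lit 63, nat_lit 16259489856), (nat_lit 48, nat_lit 16259227713),
  (nat_lit 1, nat_lit 17332969536)]⟩], [
  W6_15184695360, W6_15184437312, W6_14111215680, W6_14110957632, W6_13037736000, W6_13037477952,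
  W6_11964256320, W6_11963998272, W6_10890518592]⟩

theorem F6_15185748033_chk : fwdChk 6 ks6 F6_15185748033 = true := by decide +kernel

noncomputable def F6_15184707840 : Fwd := ⟨V6_15184707840, [
  ⟨V5_13037223936, nat_lit 5, [(nat_lit 117, nat_lit 15184707840),
  (nat_lit 32, nat_lit 16258449600), (nat_lit 88, nat_lit 17332191360),
  (nat_lit 126, nat_lit 18405933120), (nat_lit 69, nat_lit 19479674880)]⟩,
  ⟨V5_14094188544, nat_lit 8, [(nat_lit 56, nat_lit 15184707840),
  (nat_lit 118, nat_lit 16258449600), (nat_lit 67, nat_lit 16241672448),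
  (nat_lit 74, nat_lit 17332191360), (nat_lit 72, nat_lit 17315414208),
  (nat_lit 43, nat_lit 18405933120), (nat_lit 61, nat_lit 18389155968),
  (nat_lit 67, nat_lit 19479674880), (nat_lit 110, nat_lit 19462897728),
  (nat_lit 114, nat_lit 20536639488)]⟩,
  ⟨V5_10872701184, nat_lit 1, [(nat_lit 48, nat_lit 15184707840),
  (nat_lit 3, nat_lit 16258187520), (nat_lit 67, nat_lit 16241672448),
  (nat_lit 8, nat_lit 17315152128)]⟩,
  ⟨V5_12986630400, nat_lit 1, [(nat_lit 126, nat_lit 15184707840),
  (nat_lit 13, nat_lit 16258187520), (nat_lit 71, nat_lit 16241672448),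
  (nat_lit 81, nat_lit 17315152128), (nat_lit 12, nat_lit 17298637056),
  (nat_lit 123, nat_lit 18372116736), (nat_lit 67, nat_lit 18355601664),
  (nat_lit 86, nat_lit 19429081344)]⟩], [
  W6_15167668224, W6_15151153152, W6_15150891072, W6_15134376000, W6_15134113920, W6_14110703616,
  W6_14094188544, W6_14093926464, W6_14077411392, W6_14077149312, W6_14060634240, W6_14060372160,
  W6_13037223936, W6_13036961856, W6_13020446784, W6_13020184704, W6_13003669632, W6_13003407552,
  W6_12986630400, W6_11963482176, W6_11963220096, W6_11946705024, W6_11946442944, W6_11929927872,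
  W6_10889740416, W6_10872963264, W6_10872701184]⟩

theorem F6_15184707840_chk : fwdChk 6 ks6 F6_15184707840 = true := by decide +kernel

noncomputable def F6_15168724992 : Fwd := ⟨V6_15168724992, [
  ⟨V5_8726274048, nat_lit 1, [(nat_lit 91, nat_lit 15168724992)]⟩,
  ⟨V5_15168700416, nat_lit 5, [(nat_lit 25, nat_lit 15168724992),
  (nat_lit 53, nat_lit 16242462720), (nat_lit 34, nat_lit 17316200448),
  (nat_lit 97, nat_lit 18389938176), (nat_lit 21, nat_lit 19463675904),
  (nat_lit 8, nat_lit 20537413632), (nat_lit 61, nat_lit 21611151360)]⟩,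
  ⟨V5_10873233408, nat_lit 3, [(nat_lit 47, nat_lit 15168724992),
  (nat_lit 57, nat_lit 16242204672), (nat_lit 81, nat_lit 17315684352)]⟩,
  ⟨V5_13021224960, nat_lit 6, [(nat_lit 48, nat_lit 15168724992),
  (nat_lit 110, nat_lit 16242462720), (nat_lit 88, nat_lit 17316200448),
  (nat_lit 93, nat_lit 18389938176), (nat_lit 83, nat_lit 19463675904)]⟩,
  ⟨V5_14094962688, nat_lit 4, [(nat_lit 19, nat_lit 15168724992),
  (nat_lit 69, nat_lit 16242462720), (nat_lit 20, nat_lit 17316200448),
  (nat_lit 1, nat_lit 18389938176), (nat_lit 80, nat_lit 19463675904),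
  (nat_lit 113, nat_lit 20537413632)]⟩,
  ⟨V5_10873749504, nat_lit 2, [(nat_lit 97, nat_lit 15168724992),
  (nat_lit 35, nat_lit 16242462720), (nat_lit 126, nat_lit 17316200448)]⟩], [
  W6_15168700416, W6_15168442368, W6_15168184320, W6_14094962688, W6_14094704640, W6_14094446592,
  W6_13021224960, W6_13020966912, W6_13020708864, W6_11947487232, W6_11947229184, W6_11946971136,
  W6_10873749504, W6_10873491456, W6_10873233408, W6_9800011776, W6_8726274048]⟩

theorem F6_15168724992_chk : fwdChk 6 ks6 F6_15168724992 = true := by decide +kernel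

noncomputable def F6_15168720960 : Fwd := ⟨V6_15168720960, [
  ⟨V5_13021224960, nat_lit 6, [(nat_lit 121, nat_lit 15168720960),
  (nat_lit 2, nat_lit 16242462720), (nat_lit 85, nat_lit 16242458688),
  (nat_lit 4, nat_lit 17316200448), (nat_lit 73, nat_lit 17316196416),
  (nat_lit 20, nat_lit 18389938176), (nat_lit 70, nat_lit 18389934144),
  (nat_lit 119, nat_lit 19463675904)]⟩,
  ⟨V5_10873749504, nat_lit 3, [(nat_lit 10, nat_lit 15168720960),
  (nat_lit 93, nat_lit 16242462720), (nat_lit 61, nat_lit 16242458688),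
  (nat_lit 75, nat_lit 17316200448)]⟩,
  ⟨V5_14094962688, nat_lit 4, [(nat_lit 55, nat_lit 15168720960),
  (nat_lit 89, nat_lit 16242462720), (nat_lit 99, nat_lit 16242458688),
  (nat_lit 24, nat_lit 17316200448), (nat_lit 45, nat_lit 17316196416),
  (nat_lit 104, nat_lit 18389938176), (nat_lit 50, nat_lit 18389934144),
  (nat_lit 3, nat_lit 19463675904), (nat_lit 59, nat_lit 19463671872),
  (nat_lit 86, nat_lit 20537413632)]⟩,
  ⟨V5_11946971136, nat_lit 4, [(nat_lit 64, nat_lit 15168720960),
  (nat_lit 24, nat_lit 16242462720), (nat_lit 106, nat_lit 16242200640),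
  (nat_lit 97, nat_lit 17315942400), (nat_lit 69, nat_lit 17315680320),
  (nat_lit 101, nat_lit 18389422080)]⟩,
  ⟨V5_15168442368, nat_lit 7, [(nat_lit 6, nat_lit 15168720960),
  (nat_lit 110, nat_lit 16242462720), (nat_lit 25, nat_lit 16242458688),
  (nat_lit 54, nat_lit 16242200640), (nat_lit 10, nat_lit 17316200448),
  (nat_lit 6, nat_lit 17316196416), (nat_lit 34, nat_lit 17315942400),
  (nat_lit 113, nat_lit 17315938368), (nat_lit 94, nat_lit 18389938176),
  (nat_lit 57, nat_lit 18389934144), (nat_lit 21, nat_lit 18389680128),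
  (nat_lit 60, nat_lit 18389676096), (nat_lit 68, nat_lit 19463675904),
  (nat_lit 33, nat_lit 19463671872), (nat_lit 31, nat_lit 19463417856),
  (nat_lit 42, nat_lit 19463413824), (nat_lit 77, nat_lit 20537413632),
  (nat_lit 26, nat_lit 20537155584), (nat_lit 29, nat_lit 20537151552),
  (nat_lit 32, nat_lit 21610893312)]⟩,
  ⟨V5_11947487232, nat_lit 2, [(nat_lit 51, nat_lit 15168720960),
  (nat_lit 27, nat_lit 16242462720), (nat_lit 11, nat_lit 16242458688),
  (nat_lit 7, nat_lit 17316200448), (nat_lit 79, nat_lit 17316196416),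
  (nat_lit 39, nat_lit 18389938176)]⟩,
  ⟨V5_9800007744, nat_lit 1, [(nat_lit 118, nat_lit 15168720960),
  (nat_lit 83, nat_lit 16242458688)]⟩,
  ⟨V5_9799749696, nat_lit 1, [(nat_lit 77, nat_lit 15168720960),
  (nat_lit 59, nat_lit 16242200640)]⟩], [
  W6_15168442368, W6_15168184320, W6_15168180288, W6_15167926272, W6_15167922240, W6_14094962688,
  W6_14094704640, W6_14094700608, W6_14094446592, W6_14094442560, W6_14094188544, W6_14094184512,
  W6_13021224960, W6_13020966912, W6_13020962880, W6_13020708864, W6_13020704832, W6_13020450816,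
  W6_13020446784, W6_11947487232, W6_11947483200, W6_11947229184, W6_11947225152, W6_11946971136,
  W6_11946967104, W6_11946709056, W6_10873749504, W6_10873745472, W6_10873491456, W6_10873487424,
  W6_10873229376, W6_9800011776, W6_9800007744, W6_9799749696]⟩

theorem F6_15168720960_chk : fwdChk 6 ks6 F6_15168720960 = true := by decide +kernel

noncomputable def F6_15168712896 : Fwd := ⟨V6_15168712896, [
  ⟨V5_11947487232, nat_lit 3, [(nat_lit 103, nat_lit 15168712896),
  (nat_lit 54, nat_lit 16242454656), (nat_lit 11, nat_lit 17316196416),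
  (nat_lit 63, nat_lit 18389938176)]⟩,
  ⟨V5_13020966912, nat_lit 5, [(nat_lit 63, nat_lit 15168712896),
  (nat_lit 43, nat_lit 16242454656), (nat_lit 67, nat_lit 16242192576),
  (nat_lit 68, nat_lit 17316196416), (nat_lit 124, nat_lit 17315934336),
  (nat_lit 13, nat_lit 18389938176), (nat_lit 52, nat_lit 18389676096),
  (nat_lit 114, nat_lit 19463417856)]⟩,
  ⟨V5_10873745472, nat_lit 1, [(nat_lit 100, nat_lit 15168712896),
  (nat_lit 53, nat_lit 16242454656), (nat_lit 56, nat_lit 17316196416)]⟩], [
  W6_15167926272, W6_15167664192, W6_14094446592, W6_14094184512, W6_14093922432, W6_13020966912,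
  W6_13020704832, W6_13020442752, W6_11947487232, W6_11947225152, W6_11946963072, W6_10873745472,
  W6_10873483392]⟩

theorem F6_15168712896_chk : fwdChk 6 ks6 F6_15168712896 = true := by decide +kernel

noncomputable def F6_15168708738 : Fwd := ⟨V6_15168708738, [
  ⟨V5_10873741440, nat_lit 2, [(nat_lit 13, nat_lit 15168708738),
  (nat_lit 80, nat_lit 16242450561), (nat_lit 24, nat_lit 17316192384)]⟩,
  ⟨V5_13020700800, nat_lit 3, [(nat_lit 3, nat_lit 15168708738),
  (nat_lit 109, nat_lit 16242450561), (nat_lit 108, nat_lit 16242188418),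
  (nat_lit 109, nat_lit 17316192384), (nat_lit 17, nat_lit 17315930241),
  (nat_lit 48, nat_lit 17315668098), (nat_lit 30, nat_lit 18389672064),
  (nat_lit 63, nat_lit 18389409921), (nat_lit 50, nat_lit 19463151744)]⟩], [
  W6_15167660160, W6_14094180480, W6_13020700800, W6_11947221120, W6_10873741440]⟩

theorem F6_15168708738_chk : fwdChk 6 ks6 F6_15168708738 = true := by decide +kernel

noncomputable def F6_15168200769 : Fwd := ⟨V6_15168200769, [
  ⟨V5_11913420864, nat_lit 2, [(nat_lit 9, nat_lit 15168200769),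
  (nat_lit 27, nat_lit 16241942592), (nat_lit 71, nat_lit 16225165377),
  (nat_lit 110, nat_lit 17298907200), (nat_lit 3, nat_lit 17282129985),
  (nat_lit 115, nat_lit 18355871808)]⟩,
  ⟨V5_9799491648, nat_lit 1, [(nat_lit 90, nat_lit 15168200769),
  (nat_lit 32, nat_lit 16241942592)]⟩,
  ⟨V5_15168180288, nat_lit 3, [(nat_lit 78, nat_lit 15168200769),
  (nat_lit 40, nat_lit 16241942592), (nat_lit 45, nat_lit 16241938497),
  (nat_lit 26, nat_lit 17315680320), (nat_lit 118, nat_lit 17315676225),
  (nat_lit 44, nat_lit 18389418048), (nat_lit 108, nat_lit 18389413953),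
  (nat_lit 85, nat_lit 19463155776), (nat_lit 64, nat_lit 19463151681),
  (nat_lit 60, nat_lit 20536893504), (nat_lit 111, nat_lit 20536889409),
  (nat_lit 126, nat_lit 21610631232)]⟩,
  ⟨V5_10856456256, nat_lit 1, [(nat_lit 91, nat_lit 15168200769),
  (nat_lit 15, nat_lit 16241942592), (nat_lit 84, nat_lit 16225165377),
  (nat_lit 97, nat_lit 17298907200)]⟩], [
  W6_15168180288, W6_15151407168, W6_15134634048, W6_14094442560, W6_14077669440, W6_14060896320,
  W6_13020704832, W6_13003931712, W6_12987158592, W6_11946967104, W6_11930193984, W6_11913420864,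
  W6_10873229376, W6_10856456256, W6_9799491648]⟩

theorem F6_15168200769_chk : fwdChk 6 ks6 F6_15168200769 = true := by decide +kernel

noncomputable def F6_15151689792 : Fwd := ⟨V6_15151689792, [
  ⟨V5_15151665216, nat_lit 2, [(nat_lit 118, nat_lit 15151689792),
  (nat_lit 26, nat_lit 16225427520), (nat_lit 78, nat_lit 17299165248),
  (nat_lit 31, nat_lit 18372902976), (nat_lit 85, nat_lit 19446640704),
  (nat_lit 36, nat_lit 20520378432), (nat_lit 42, nat_lit 21594116160)]⟩], [
  W6_15151669248, W6_15151665216, W6_14077931520, W6_14077927488, W6_13004193792, W6_13004189760,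
  W6_11930456064, W6_11930452032]⟩

theorem F6_15151689792_chk : fwdChk 6 ks6 F6_15151689792 = true := by decide +kernel

noncomputable def F6_15151685760 : Fwd := ⟨V6_15151685760, [
  ⟨V5_10856456256, nat_lit 1, [(nat_lit 93, nat_lit 15151685760),
  (nat_lit 75, nat_lit 16225427520), (nat_lit 92, nat_lit 16225165440),
  (nat_lit 115, nat_lit 17298907200)]⟩,
  ⟨V5_14077931520, nat_lit 3, [(nat_lit 68, nat_lit 15151685760),
  (nat_lit 79, nat_lit 16225427520), (nat_lit 16, nat_lit 16225423488),
  (nat_lit 53, nat_lit 17299169280), (nat_lit 48, nat_lit 17299165248),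
  (nat_lit 9, nat_lit 17299161216), (nat_lit 87, nat_lit 18372907008),
  (nat_lit 105, nat_lit 18372902976), (nat_lit 32, nat_lit 18372898944),
  (nat_lit 102, nat_lit 19446644736), (nat_lit 39, nat_lit 19446640704),
  (nat_lit 105, nat_lit 20520382464)]⟩,
  ⟨V5_11930198016, nat_lit 1, [(nat_lit 82, nat_lit 15151685760),
  (nat_lit 75, nat_lit 16225427520), (nat_lit 71, nat_lit 16225165440),
  (nat_lit 120, nat_lit 17299169280), (nat_lit 60, nat_lit 17298907200),
  (nat_lit 31, nat_lit 18372648960)]⟩,
  ⟨V5_11930456064, nat_lit 1, [(nat_lit 19, nat_lit 15151685760),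
  (nat_lit 41, nat_lit 16225427520), (nat_lit 50, nat_lit 16225423488),
  (nat_lit 2, nat_lit 17299169280), (nat_lit 6, nat_lit 17299165248),
  (nat_lit 125, nat_lit 18372907008)]⟩], [
  W6_15151669248, W6_15151411200, W6_15151407168, W6_14077931520, W6_14077927488, W6_14077673472,
  W6_14077669440, W6_14077665408, W6_13004193792, W6_13004189760, W6_13003935744, W6_13003931712,
  W6_13003927680, W6_11930456064, W6_11930452032, W6_11930198016, W6_11930193984, W6_11930189952,
  W6_10856456256, W6_10856452224]⟩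

theorem F6_15151685760_chk : fwdChk 6 ks6 F6_15151685760 = true := by decide +kernel

noncomputable def F6_15151685697 : Fwd := ⟨V6_15151685697, [
  ⟨V5_15151665216, nat_lit 3, [(nat_lit 103, nat_lit 15151685697),
  (nat_lit 17, nat_lit 16225427520), (nat_lit 35, nat_lit 16225423425),
  (nat_lit 119, nat_lit 17299165248), (nat_lit 120, nat_lit 17299161153),
  (nat_lit 6, nat_lit 18372902976), (nat_lit 84, nat_lit 18372898881),
  (nat_lit 52, nat_lit 19446640704), (nat_lit 78, nat_lit 19446636609),
  (nat_lit 89, nat_lit 20520378432), (nat_lit 44, nat_lit 20520374337),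
  (nat_lit 98, nat_lit 21594116160)]⟩,
  ⟨V5_10856456256, nat_lit 1, [(nat_lit 35, nat_lit 15151685697),
  (nat_lit 61, nat_lit 16225427520), (nat_lit 37, nat_lit 16225165377),
  (nat_lit 53, nat_lit 17298907200)]⟩,
  ⟨V5_11930452032, nat_lit 1, [(nat_lit 66, nat_lit 15151685697),
  (nat_lit 64, nat_lit 16225427520), (nat_lit 99, nat_lit 16225423425),
  (nat_lit 98, nat_lit 17299165248), (nat_lit 109, nat_lit 17299161153),
  (nat_lit 14, nat_lit 18372902976)]⟩], [
  W6_15151665216, W6_15151407168, W6_14077927488, W6_14077669440, W6_13004189760, W6_13003931712,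
  W6_11930452032, W6_11930193984, W6_10856456256]⟩

theorem F6_15151685697_chk : fwdChk 6 ks6 F6_15151685697 = true := by decide +kernel

noncomputable def F6_15151681728 : Fwd := ⟨V6_15151681728, [
  ⟨V5_10856706240, nat_lit 1, [(nat_lit 65, nat_lit 15151681728),
  (nat_lit 47, nat_lit 16225419456), (nat_lit 62, nat_lit 17299157184)]⟩,
  ⟨V5_9782710464, nat_lit 1, [(nat_lit 48, nat_lit 15151681728),
  (nat_lit 57, nat_lit 16225161408)]⟩,
  ⟨V5_13003935744, nat_lit 3, [(nat_lit 40, nat_lit 15151681728),
  (nat_lit 14, nat_lit 16225423488), (nat_lit 85, nat_lit 16225161408),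
  (nat_lit 20, nat_lit 17299165248), (nat_lit 56, nat_lit 17298903168),
  (nat_lit 41, nat_lit 18372907008), (nat_lit 124, nat_lit 18372644928),
  (nat_lit 76, nat_lit 19446386688)]⟩,
  ⟨V5_11930456064, nat_lit 1, [(nat_lit 46, nat_lit 15151681728),
  (nat_lit 87, nat_lit 16225423488), (nat_lit 53, nat_lit 17299165248),
  (nat_lit 38, nat_lit 18372907008)]⟩,
  ⟨V5_14077931520, nat_lit 3, [(nat_lit 11, nat_lit 15151681728),
  (nat_lit 38, nat_lit 16225423488), (nat_lit 80, nat_lit 16225419456),
  (nat_lit 43, nat_lit 17299165248), (nat_lit 80, nat_lit 17299161216),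
  (nat_lit 5, nat_lit 17299157184), (nat_lit 125, nat_lit 18372907008),
  (nat_lit 52, nat_lit 18372902976), (nat_lit 49, nat_lit 18372898944),
  (nat_lit 28, nat_lit 19446644736), (nat_lit 116, nat_lit 19446640704),
  (nat_lit 79, nat_lit 20520382464)]⟩,
  ⟨V5_11930193984, nat_lit 2, [(nat_lit 33, nat_lit 15151681728),
  (nat_lit 54, nat_lit 16225423488), (nat_lit 126, nat_lit 16225161408),
  (nat_lit 41, nat_lit 17299165248), (nat_lit 92, nat_lit 17298903168),
  (nat_lit 57, nat_lit 18372644928)]⟩], [
  W6_15151411200, W6_15151153152, W6_15151149120, W6_14077931520, W6_14077673472, W6_14077669440,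
  W6_14077415424, W6_14077411392, W6_14077407360, W6_13004193792, W6_13004189760, W6_13003935744,
  W6_13003931712, W6_13003927680, W6_13003673664, W6_13003669632, W6_13003665600, W6_11930456064,
  W6_11930452032, W6_11930193984, W6_11930189952, W6_11930185920, W6_11929927872, W6_10856706240,
  W6_10856452224, W6_10856448192, W6_9782710464]⟩

theorem F6_15151681728_chk : fwdChk 6 ks6 F6_15151681728 = true := by decide +kernel

noncomputable def F6_15151681665 : Fwd := ⟨V6_15151681665, [
  ⟨V5_10856452224, nat_lit 1, [(nat_lit 38, nat_lit 15151681665),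
  (nat_lit 88, nat_lit 16225423488), (nat_lit 120, nat_lit 16225161345),
  (nat_lit 14, nat_lit 17298903168)]⟩,
  ⟨V5_11930193984, nat_lit 2, [(nat_lit 1, nat_lit 15151681665),
  (nat_lit 91, nat_lit 16225423488), (nat_lit 94, nat_lit 16225423425),
  (nat_lit 96, nat_lit 16225161345), (nat_lit 60, nat_lit 17299165248),
  (nat_lit 6, nat_lit 17298903168), (nat_lit 68, nat_lit 17298903105),
  (nat_lit 48, nat_lit 18372644928)]⟩,
  ⟨V5_13004189760, nat_lit 2, [(nat_lit 121, nat_lit 15151681665),
  (nat_lit 122, nat_lit 16225423488), (nat_lit 56, nat_lit 16225423425),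
  (nat_lit 33, nat_lit 16225419393), (nat_lit 34, nat_lit 17299165248),
  (nat_lit 119, nat_lit 17299161216), (nat_lit 44, nat_lit 17299161153),
  (nat_lit 99, nat_lit 17299157121), (nat_lit 14, nat_lit 18372902976),
  (nat_lit 102, nat_lit 18372898944), (nat_lit 85, nat_lit 18372898881),
  (nat_lit 77, nat_lit 19446640704)]⟩], [
  W6_15151407168, W6_15151149120, W6_15151145088, W6_14077927488, W6_14077669440, W6_14077665408,
  W6_14077411392, W6_14077407360, W6_13004189760, W6_13003931712, W6_13003927680, W6_13003673664,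
  W6_13003669632, W6_11930452032, W6_11930193984, W6_11930189952, W6_10856452224]⟩

theorem F6_15151681665_chk : fwdChk 6 ks6 F6_15151681665 = true := by decide +kernel

noncomputable def F6_15151677633 : Fwd := ⟨V6_15151677633, [
  ⟨V5_10856706240, nat_lit 1, [(nat_lit 44, nat_lit 15151677633),
  (nat_lit 77, nat_lit 16225419456), (nat_lit 35, nat_lit 16225415361),
  (nat_lit 81, nat_lit 17299157184)]⟩,
  ⟨V5_13003931712, nat_lit 4, [(nat_lit 119, nat_lit 15151677633),
  (nat_lit 27, nat_lit 16225419456), (nat_lit 85, nat_lit 16225419393),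
  (nat_lit 13, nat_lit 16225157313), (nat_lit 92, nat_lit 17299161216),
  (nat_lit 82, nat_lit 17299161153), (nat_lit 105, nat_lit 17298899136),
  (nat_lit 121, nat_lit 17298899073), (nat_lit 77, nat_lit 18372902976),
  (nat_lit 114, nat_lit 18372640896), (nat_lit 49, nat_lit 18372640833),
  (nat_lit 71, nat_lit 19446382656)]⟩,
  ⟨V5_10856448192, nat_lit 1, [(nat_lit 105, nat_lit 15151677633),
  (nat_lit 56, nat_lit 16225419456), (nat_lit 111, nat_lit 16225157313),
  (nat_lit 32, nat_lit 17298899136)]⟩,
  ⟨V5_11930452032, nat_lit 1, [(nat_lit 101, nat_lit 15151677633),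
  (nat_lit 67, nat_lit 16225419456), (nat_lit 52, nat_lit 16225419393),
  (nat_lit 8, nat_lit 17299161216), (nat_lit 15, nat_lit 17299161153),
  (nat_lit 91, nat_lit 18372902976)]⟩], [
  W6_15151149120, W6_15150891072, W6_15150887040, W6_14077669440, W6_14077411392, W6_14077407360,
  W6_14077149312, W6_13004189760, W6_13003931712, W6_13003927680, W6_13003669632, W6_13003665600,
  W6_13003407552, W6_11930452032, W6_11930189952, W6_11930185920, W6_11929927872, W6_10856706240,
  W6_10856448192]⟩

theorem F6_15151677633_chk : fwdChk 6 ks6 F6_15151677633 = true := by decide +kernel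

noncomputable def F6_15151419522 : Fwd := ⟨V6_15151419522, [
  ⟨V5_10856452224, nat_lit 1, [(nat_lit 50, nat_lit 15151419522),
  (nat_lit 83, nat_lit 16225161345), (nat_lit 63, nat_lit 17298903168)]⟩,
  ⟨V5_11930189952, nat_lit 2, [(nat_lit 62, nat_lit 15151419522),
  (nat_lit 95, nat_lit 16225161345), (nat_lit 63, nat_lit 16225157250),
  (nat_lit 64, nat_lit 17298903168), (nat_lit 3, nat_lit 17298899073),
  (nat_lit 41, nat_lit 18372640896)]⟩], [
  W6_15151145088, W6_15134630016, W6_15134371968, W6_14077665408, W6_14077407360, W6_14060892288,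
  W6_14060634240, W6_13003927680, W6_13003669632, W6_12987154560, W6_11930189952, W6_11913416832,
  W6_10856452224]⟩

theorem F6_15151419522_chk : fwdChk 6 ks6 F6_15151419522 = true := by decide +kernel

noncomputable def F6_15151157505 : Fwd := ⟨V6_15151157505, [
  ⟨V5_13003673664, nat_lit 1, [(nat_lit 81, nat_lit 15151157505),
  (nat_lit 3, nat_lit 16224899328), (nat_lit 11, nat_lit 16224899265),
  (nat_lit 92, nat_lit 17298641088), (nat_lit 41, nat_lit 17298641025),
  (nat_lit 126, nat_lit 18372382848), (nat_lit 13, nat_lit 18372382785),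
  (nat_lit 13, nat_lit 19446124608)]⟩], [
  W6_15134376000, W6_14077411392, W6_14060634240, W6_13003673664, W6_13003669632, W6_11929927872]⟩

theorem F6_15151157505_chk : fwdChk 6 ks6 F6_15151157505 = true := by decide +kernel

noncomputable def F6_15151157442 : Fwd := ⟨V6_15151157442, [
  ⟨V5_11929927872, nat_lit 1, [(nat_lit 11, nat_lit 15151157442),
  (nat_lit 23, nat_lit 16224899265), (nat_lit 46, nat_lit 16224895170),
  (nat_lit 81, nat_lit 17298641088), (nat_lit 105, nat_lit 17298636993),
  (nat_lit 38, nat_lit 18372378816)]⟩], [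
  W6_15134371968, W6_14077407360, W6_14060634240, W6_13003669632, W6_13003665600, W6_11929927872]⟩

theorem F6_15151157442_chk : fwdChk 6 ks6 F6_15151157442 = true := by decide +kernel

noncomputable def F6_15134646528 : Fwd := ⟨V6_15134646528, [
  ⟨V5_12987162624, nat_lit 3, [(nat_lit 122, nat_lit 15134646528),
  (nat_lit 16, nat_lit 16208388288), (nat_lit 44, nat_lit 17282130048),
  (nat_lit 63, nat_lit 18355871808), (nat_lit 98, nat_lit 19429613568)]⟩,
  ⟨V5_8692195584, nat_lit 1, [(nat_lit 5, nat_lit 15134646528)]⟩,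
  ⟨V5_10839679104, nat_lit 2, [(nat_lit 18, nat_lit 15134646528),
  (nat_lit 103, nat_lit 16208388288), (nat_lit 40, nat_lit 17282130048)]⟩,
  ⟨V5_10839671040, nat_lit 1, [(nat_lit 11, nat_lit 15134646528),
  (nat_lit 93, nat_lit 16208384256), (nat_lit 30, nat_lit 17282121984)]⟩], [
  W6_15134638080, W6_14060900352, W6_14060896320, W6_12987162624, W6_12987158592, W6_12987154560,
  W6_11913420864, W6_11913416832, W6_11913412800, W6_10839679104, W6_10839671040, W6_9765937344,
  W6_8692195584]⟩

theorem F6_15134646528_chk : fwdChk 6 ks6 F6_15134646528 = true := by decide +kernel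

noncomputable def F6_15134646465 : Fwd := ⟨V6_15134646465, [
  ⟨V5_9765937344, nat_lit 1, [(nat_lit 72, nat_lit 15134646465),
  (nat_lit 51, nat_lit 16208388288)]⟩,
  ⟨V5_10839679104, nat_lit 2, [(nat_lit 98, nat_lit 15134646465),
  (nat_lit 90, nat_lit 16208388288), (nat_lit 16, nat_lit 16208388225),
  (nat_lit 58, nat_lit 17282130048)]⟩,
  ⟨V5_11913420864, nat_lit 2, [(nat_lit 49, nat_lit 15134646465),
  (nat_lit 74, nat_lit 16208388288), (nat_lit 29, nat_lit 16208388225),
  (nat_lit 24, nat_lit 17282130048), (nat_lit 45, nat_lit 17282129985),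
  (nat_lit 19, nat_lit 18355871808)]⟩], [
  W6_15134634048, W6_14060896320, W6_14060892288, W6_12987158592, W6_12987154560, W6_11913420864,
  W6_11913416832, W6_11913412800, W6_10839679104, W6_9765937344]⟩

theorem F6_15134646465_chk : fwdChk 6 ks6 F6_15134646465 = true := by decide +kernel

noncomputable def F6_15134646402 : Fwd := ⟨V6_15134646402, [
  ⟨V5_10839679104, nat_lit 2, [(nat_lit 98, nat_lit 15134646402),
  (nat_lit 56, nat_lit 16208388225), (nat_lit 93, nat_lit 17282130048)]⟩,
  ⟨V5_15134630016, nat_lit 2, [(nat_lit 27, nat_lit 15134646402),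
  (nat_lit 110, nat_lit 16208388225), (nat_lit 122, nat_lit 16208384130),
  (nat_lit 13, nat_lit 17282130048), (nat_lit 100, nat_lit 17282125953),
  (nat_lit 39, nat_lit 17282121858), (nat_lit 1, nat_lit 18355867776),
  (nat_lit 13, nat_lit 18355863681), (nat_lit 118, nat_lit 18355859586),
  (nat_lit 37, nat_lit 19429605504), (nat_lit 73, nat_lit 19429601409),
  (nat_lit 67, nat_lit 19429597314), (nat_lit 111, nat_lit 20503343232),
  (nat_lit 103, nat_lit 20503339137), (nat_lit 126, nat_lit 21577080960)]⟩], [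
  W6_15134630016, W6_14060892288, W6_12987154560, W6_11913416832, W6_10839679104]⟩

theorem F6_15134646402_chk : fwdChk 6 ks6 F6_15134646402 = true := by decide +kernel

noncomputable def F6_15134642433 : Fwd := ⟨V6_15134642433, [
  ⟨V5_10839671040, nat_lit 1, [(nat_lit 91, nat_lit 15134642433),
  (nat_lit 109, nat_lit 16208384256), (nat_lit 104, nat_lit 16208380161),
  (nat_lit 68, nat_lit 17282121984)]⟩,
  ⟨V5_11913416832, nat_lit 1, [(nat_lit 19, nat_lit 15134642433),
  (nat_lit 56, nat_lit 16208384256), (nat_lit 71, nat_lit 16208384193),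
  (nat_lit 57, nat_lit 17282126016), (nat_lit 28, nat_lit 17282125953),
  (nat_lit 87, nat_lit 18355867776)]⟩], [
  W6_15134376000, W6_14060896320, W6_14060634240, W6_12987158592, W6_12987154560, W6_11913416832,
  W6_11913412800, W6_10839671040]⟩

theorem F6_15134642433_chk : fwdChk 6 ks6 F6_15134642433 = true := by decide +kernel

noncomputable def F6_15134642370 : Fwd := ⟨V6_15134642370, [
  ⟨V5_11913416832, nat_lit 1, [(nat_lit 71, nat_lit 15134642370),
  (nat_lit 100, nat_lit 16208384193), (nat_lit 84, nat_lit 16208384130),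
  (nat_lit 94, nat_lit 17282126016), (nat_lit 54, nat_lit 17282125953),
  (nat_lit 106, nat_lit 18355867776)]⟩], [
  W6_15134371968, W6_14060892288, W6_14060634240, W6_12987154560, W6_11913416832, W6_11913412800]⟩

theorem F6_15134642370_chk : fwdChk 6 ks6 F6_15134642370 = true := by decide +kernel

noncomputable def F6_15134638338 : Fwd := ⟨V6_15134638338, [
  ⟨V5_10839671040, nat_lit 1, [(nat_lit 101, nat_lit 15134638338),
  (nat_lit 94, nat_lit 16208380161), (nat_lit 79, nat_lit 17282121984)]⟩,
  ⟨V5_12986630400, nat_lit 1, [(nat_lit 26, nat_lit 15134638338),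
  (nat_lit 90, nat_lit 16208380161), (nat_lit 19, nat_lit 16208118018),
  (nat_lit 5, nat_lit 17282121984), (nat_lit 36, nat_lit 17281859841),
  (nat_lit 54, nat_lit 17281597698), (nat_lit 125, nat_lit 18355601664),
  (nat_lit 123, nat_lit 18355339521), (nat_lit 109, nat_lit 19429081344)]⟩,
  ⟨V5_11913412800, nat_lit 1, [(nat_lit 15, nat_lit 15134638338),
  (nat_lit 55, nat_lit 16208380161), (nat_lit 24, nat_lit 16208380098),
  (nat_lit 28, nat_lit 17282121984), (nat_lit 99, nat_lit 17282121921),
  (nat_lit 69, nat_lit 18355863744)]⟩], [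
  W6_15134113920, W6_14060634240, W6_14060372160, W6_12987154560, W6_12986630400, W6_11913412800,
  W6_10839671040]⟩

theorem F6_15134638338_chk : fwdChk 6 ks6 F6_15134638338 = true := by decide +kernel

noncomputable def F6_15134114052 : Fwd := ⟨V6_15134114052, [
  ⟨V5_12986630400, nat_lit 1, [(nat_lit 58, nat_lit 15134114052),
  (nat_lit 2, nat_lit 16207855875), (nat_lit 5, nat_lit 17281597698),
  (nat_lit 96, nat_lit 18355339521), (nat_lit 60, nat_lit 19429081344)]⟩], [
  W6_15100559616, W6_12986630400]⟩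

theorem F6_15134114052_chk : fwdChk 6 ks6 F6_15134114052 = true := by decide +kernel

noncomputable def F6_14179110912 : Fwd := ⟨V6_14179110912, [
  ⟨V5_14177538048, nat_lit 3, [(nat_lit 38, nat_lit 14179110912),
  (nat_lit 113, nat_lit 15252590592), (nat_lit 110, nat_lit 16326070272),
  (nat_lit 86, nat_lit 17399549952), (nat_lit 88, nat_lit 18473029632),
  (nat_lit 95, nat_lit 19546509312), (nat_lit 19, nat_lit 20619988992)]⟩,
  ⟨V5_14161022976, nat_lit 6, [(nat_lit 10, nat_lit 14179110912),
  (nat_lit 2, nat_lit 15252590592), (nat_lit 117, nat_lit 15236075520),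
  (nat_lit 50, nat_lit 16326070272), (nat_lit 72, nat_lit 16309555200),
  (nat_lit 101, nat_lit 17399549952), (nat_lit 19, nat_lit 17383034880),
  (nat_lit 15, nat_lit 18473029632), (nat_lit 84, nat_lit 18456514560),
  (nat_lit 63, nat_lit 19546509312), (nat_lit 68, nat_lit 19529994240),
  (nat_lit 72, nat_lit 20603473920)]⟩,
  ⟨V5_14177796096, nat_lit 3, [(nat_lit 35, nat_lit 14179110912),
  (nat_lit 123, nat_lit 15252848640), (nat_lit 45, nat_lit 15252590592),
  (nat_lit 110, nat_lit 16326328320), (nat_lit 90, nat_lit 16326070272),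
  (nat_lit 34, nat_lit 17399808000), (nat_lit 90, nat_lit 17399549952),
  (nat_lit 40, nat_lit 18473287680), (nat_lit 48, nat_lit 18473029632),
  (nat_lit 80, nat_lit 19546767360), (nat_lit 8, nat_lit 19546509312),
  (nat_lit 28, nat_lit 20620247040)]⟩], [
  W6_14177796096, W6_14177538048, W6_14161281024, W6_14161022976, W6_14144765952, W6_14144507904,
  W6_14128250880, W6_14127992832, W6_14111735808, W6_14111477760]⟩

theorem F6_14179110912_chk : fwdChk 6 ks6 F6_14179110912 = true := by decide +kernel

noncomputable def F6_14178852864 : Fwd := ⟨V6_14178852864, [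
  ⟨V5_14177538048, nat_lit 3, [(nat_lit 80, nat_lit 14178852864),
  (nat_lit 21, nat_lit 15252590592), (nat_lit 108, nat_lit 15252332544),
  (nat_lit 123, nat_lit 16326070272), (nat_lit 30, nat_lit 16325812224),
  (nat_lit 17, nat_lit 17399549952), (nat_lit 120, nat_lit 17399291904),
  (nat_lit 92, nat_lit 18473029632), (nat_lit 105, nat_lit 18472771584),
  (nat_lit 52, nat_lit 19546509312), (nat_lit 59, nat_lit 19546251264),
  (nat_lit 100, nat_lit 20619988992)]⟩,
  ⟨V5_14094704640, nat_lit 8, [(nat_lit 89, nat_lit 14178852864),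
  (nat_lit 32, nat_lit 15252332544), (nat_lit 5, nat_lit 15235817472),
  (nat_lit 31, nat_lit 16309297152), (nat_lit 119, nat_lit 16292782080),
  (nat_lit 33, nat_lit 17366261760), (nat_lit 71, nat_lit 17349746688),
  (nat_lit 94, nat_lit 18423226368), (nat_lit 123, nat_lit 18406711296),
  (nat_lit 96, nat_lit 19480190976), (nat_lit 1, nat_lit 19463675904),
  (nat_lit 95, nat_lit 20537155584)]⟩,
  ⟨V5_14094962688, nat_lit 4, [(nat_lit 55, nat_lit 14178852864),
  (nat_lit 14, nat_lit 15252590592), (nat_lit 18, nat_lit 15235817472),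
  (nat_lit 15, nat_lit 16309555200), (nat_lit 101, nat_lit 16292782080),
  (nat_lit 59, nat_lit 17366519808), (nat_lit 79, nat_lit 17349746688),
  (nat_lit 18, nat_lit 18423484416), (nat_lit 77, nat_lit 18406711296),
  (nat_lit 119, nat_lit 19480449024), (nat_lit 61, nat_lit 19463675904),
  (nat_lit 65, nat_lit 20537413632)]⟩,
  ⟨V5_14177796096, nat_lit 3, [(nat_lit 5, nat_lit 14178852864),
  (nat_lit 123, nat_lit 15252590592), (nat_lit 41, nat_lit 15252332544),
  (nat_lit 120, nat_lit 16326328320), (nat_lit 66, nat_lit 16326070272),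
  (nat_lit 40, nat_lit 16325812224), (nat_lit 75, nat_lit 17399808000),
  (nat_lit 68, nat_lit 17399549952), (nat_lit 68, nat_lit 17399291904),
  (nat_lit 114, nat_lit 18473287680), (nat_lit 4, nat_lit 18473029632),
  (nat_lit 23, nat_lit 18472771584), (nat_lit 126, nat_lit 19546767360),
  (nat_lit 114, nat_lit 19546509312), (nat_lit 10, nat_lit 20620247040)]⟩], [
  W6_14177796096, W6_14177538048, W6_14161281024, W6_14161022976, W6_14160764928, W6_14144765952,
  W6_14144507904, W6_14144249856, W6_14128250880, W6_14127992832, W6_14127734784, W6_14111735808,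
  W6_14111477760, W6_14111219712, W6_14094962688, W6_14094704640]⟩

theorem F6_14178852864_chk : fwdChk 6 ks6 F6_14178852864 = true := by decide +kernel

noncomputable def F6_14178848832 : Fwd := ⟨V6_14178848832, [
  ⟨V5_14094962688, nat_lit 4, [(nat_lit 79, nat_lit 14178848832),
  (nat_lit 60, nat_lit 15252590592), (nat_lit 1, nat_lit 15235813440),
  (nat_lit 57, nat_lit 16309555200), (nat_lit 53, nat_lit 16292778048),
  (nat_lit 94, nat_lit 17366519808), (nat_lit 50, nat_lit 17349742656),
  (nat_lit 3, nat_lit 18423484416), (nat_lit 63, nat_lit 18406707264),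
  (nat_lit 1, nat_lit 19480449024), (nat_lit 104, nat_lit 19463671872),
  (nat_lit 112, nat_lit 20537413632)]⟩,
  ⟨V5_14177538048, nat_lit 3, [(nat_lit 19, nat_lit 14178848832),
  (nat_lit 90, nat_lit 15252590592), (nat_lit 17, nat_lit 15252328512),
  (nat_lit 69, nat_lit 16326070272), (nat_lit 93, nat_lit 16325808192),
  (nat_lit 11, nat_lit 17399549952), (nat_lit 64, nat_lit 17399287872),
  (nat_lit 71, nat_lit 18473029632), (nat_lit 120, nat_lit 18472767552),
  (nat_lit 19, nat_lit 19546509312), (nat_lit 126, nat_lit 19546247232),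
  (nat_lit 120, nat_lit 20619988992)]⟩,
  ⟨V5_14177275968, nat_lit 1, [(nat_lit 111, nat_lit 14178848832),
  (nat_lit 84, nat_lit 15252328512), (nat_lit 25, nat_lit 16325808192),
  (nat_lit 97, nat_lit 17399287872), (nat_lit 32, nat_lit 18472767552),
  (nat_lit 56, nat_lit 19546247232), (nat_lit 50, nat_lit 20619726912)]⟩,
  ⟨V5_14094700608, nat_lit 3, [(nat_lit 22, nat_lit 14178848832),
  (nat_lit 55, nat_lit 15252328512), (nat_lit 84, nat_lit 15235813440),
  (nat_lit 89, nat_lit 16309293120), (nat_lit 18, nat_lit 16292778048),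
  (nat_lit 21, nat_lit 17366257728), (nat_lit 126, nat_lit 17349742656),
  (nat_lit 106, nat_lit 18423222336), (nat_lit 9, nat_lit 18406707264),
  (nat_lit 38, nat_lit 19480186944), (nat_lit 93, nat_lit 19463671872),
  (nat_lit 72, nat_lit 20537151552)]⟩,
  ⟨V5_14160760896, nat_lit 1, [(nat_lit 121, nat_lit 14178848832),
  (nat_lit 6, nat_lit 15252328512), (nat_lit 69, nat_lit 15235813440),
  (nat_lit 9, nat_lit 16325808192), (nat_lit 27, nat_lit 16309293120),
  (nat_lit 58, nat_lit 17399287872), (nat_lit 85, nat_lit 17382772800),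
  (nat_lit 101, nat_lit 18472767552), (nat_lit 59, nat_lit 18456252480),
  (nat_lit 97, nat_lit 19546247232), (nat_lit 74, nat_lit 19529732160),
  (nat_lit 30, nat_lit 20603211840)]⟩], [
  W6_14177538048, W6_14177275968, W6_14161022976, W6_14160760896, W6_14144507904, W6_14144245824,
  W6_14127992832, W6_14127730752, W6_14111477760, W6_14111215680, W6_14094962688, W6_14094700608]⟩

theorem F6_14178848832_chk : fwdChk 6 ks6 F6_14178848832 = true := by decide +kernel

noncomputable def F6_14178590784 : Fwd := ⟨V6_14178590784, [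
  ⟨V5_14094704640, nat_lit 8, [(nat_lit 28, nat_lit 14178590784),
  (nat_lit 92, nat_lit 15252332544), (nat_lit 10, nat_lit 15235555392),
  (nat_lit 62, nat_lit 16309297152), (nat_lit 22, nat_lit 16292520000),
  (nat_lit 51, nat_lit 17366261760), (nat_lit 119, nat_lit 17349484608),
  (nat_lit 30, nat_lit 18423226368), (nat_lit 122, nat_lit 18406449216),
  (nat_lit 10, nat_lit 19480190976), (nat_lit 24, nat_lit 19463413824),
  (nat_lit 104, nat_lit 20537155584)]⟩,
  ⟨V5_14177538048, nat_lit 3, [(nat_lit 125, nat_lit 14178590784),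
  (nat_lit 120, nat_lit 15252332544), (nat_lit 111, nat_lit 15252328512),
  (nat_lit 94, nat_lit 15252070464), (nat_lit 10, nat_lit 16326070272),
  (nat_lit 52, nat_lit 16325812224), (nat_lit 26, nat_lit 16325808192),
  (nat_lit 64, nat_lit 16325550144), (nat_lit 48, nat_lit 17399549952),
  (nat_lit 110, nat_lit 17399291904), (nat_lit 95, nat_lit 17399287872),
  (nat_lit 73, nat_lit 17399029824), (nat_lit 96, nat_lit 18473029632),
  (nat_lit 27, nat_lit 18472771584), (nat_lit 105, nat_lit 18472767552),
  (nat_lit 96, nat_lit 18472509504), (nat_lit 57, nat_lit 19546509312),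
  (nat_lit 77, nat_lit 19546251264), (nat_lit 44, nat_lit 19546247232),
  (nat_lit 40, nat_lit 20619988992)]⟩,
  ⟨V5_14177275968, nat_lit 1, [(nat_lit 60, nat_lit 14178590784),
  (nat_lit 33, nat_lit 15252328512), (nat_lit 84, nat_lit 15252070464),
  (nat_lit 78, nat_lit 16325808192), (nat_lit 37, nat_lit 16325550144),
  (nat_lit 15, nat_lit 17399287872), (nat_lit 33, nat_lit 17399029824),
  (nat_lit 28, nat_lit 18472767552), (nat_lit 1, nat_lit 18472509504),
  (nat_lit 76, nat_lit 19546247232), (nat_lit 115, nat_lit 19545989184),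
  (nat_lit 54, nat_lit 20619726912)]⟩,
  ⟨V5_14111477760, nat_lit 8, [(nat_lit 116, nat_lit 14178590784),
  (nat_lit 79, nat_lit 15252332544), (nat_lit 81, nat_lit 15252328512),
  (nat_lit 65, nat_lit 15235555392), (nat_lit 21, nat_lit 16326070272),
  (nat_lit 101, nat_lit 16309297152), (nat_lit 16, nat_lit 16309293120),
  (nat_lit 13, nat_lit 16292520000), (nat_lit 110, nat_lit 17383034880),
  (nat_lit 115, nat_lit 17366261760), (nat_lit 105, nat_lit 17366257728),
  (nat_lit 27, nat_lit 17349484608), (nat_lit 115, nat_lit 18439999488),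
  (nat_lit 111, nat_lit 18423226368), (nat_lit 99, nat_lit 18423222336),
  (nat_lit 45, nat_lit 18406449216), (nat_lit 77, nat_lit 19496964096),
  (nat_lit 14, nat_lit 19480190976), (nat_lit 82, nat_lit 19480186944),
  (nat_lit 66, nat_lit 20553928704)]⟩], [
  W6_14177538048, W6_14177275968, W6_14161022976, W6_14160764928, W6_14160760896, W6_14160502848,
  W6_14144507904, W6_14144249856, W6_14144245824, W6_14143987776, W6_14127992832, W6_14127734784,
  W6_14127730752, W6_14127472704, W6_14111477760, W6_14111219712, W6_14111215680, W6_14110957632,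
  W6_14094704640, W6_14094700608, W6_14094442560, W6_14077927488]⟩

theorem F6_14178590784_chk : fwdChk 6 ks6 F6_14178590784 = true := by decide +kernel

noncomputable def F6_14178336768 : Fwd := ⟨V6_14178336768, [
  ⟨V5_14077673472, nat_lit 7, [(nat_lit 123, nat_lit 14178336768),
  (nat_lit 12, nat_lit 15235301376), (nat_lit 107, nat_lit 16292265984),
  (nat_lit 20, nat_lit 17349230592), (nat_lit 115, nat_lit 18406195200),
  (nat_lit 4, nat_lit 19463159808), (nat_lit 72, nat_lit 20520124416)]⟩,
  ⟨V5_14094446592, nat_lit 12, [(nat_lit 36, nat_lit 14178336768),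
  (nat_lit 92, nat_lit 15252074496), (nat_lit 75, nat_lit 15235301376),
  (nat_lit 1, nat_lit 16309039104), (nat_lit 17, nat_lit 16292265984),
  (nat_lit 102, nat_lit 17366003712), (nat_lit 7, nat_lit 17349230592),
  (nat_lit 33, nat_lit 18422968320), (nat_lit 54, nat_lit 18406195200),
  (nat_lit 72, nat_lit 19479932928), (nat_lit 26, nat_lit 19463159808),
  (nat_lit 113, nat_lit 20536897536)]⟩,
  ⟨V5_14144765952, nat_lit 6, [(nat_lit 72, nat_lit 14178336768),
  (nat_lit 88, nat_lit 15252074496), (nat_lit 75, nat_lit 15235301376),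
  (nat_lit 43, nat_lit 16325812224), (nat_lit 6, nat_lit 16309039104),
  (nat_lit 92, nat_lit 16292265984), (nat_lit 82, nat_lit 17399549952),
  (nat_lit 87, nat_lit 17382776832), (nat_lit 10, nat_lit 17366003712),
  (nat_lit 123, nat_lit 18473287680), (nat_lit 40, nat_lit 18456514560),
  (nat_lit 88, nat_lit 18439741440), (nat_lit 31, nat_lit 19530252288),
  (nat_lit 97, nat_lit 19513479168), (nat_lit 18, nat_lit 20587216896)]⟩], [
  W6_14177796096, W6_14161281024, W6_14161022976, W6_14144765952, W6_14144507904, W6_14144249856,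
  W6_14127992832, W6_14127734784, W6_14127476736, W6_14111219712, W6_14110961664, W6_14110703616,
  W6_14094446592, W6_14094188544, W6_14077673472]⟩

theorem F6_14178336768_chk : fwdChk 6 ks6 F6_14178336768 = true := by decide +kernel

noncomputable def F6_14178078720 : Fwd := ⟨V6_14178078720, [
  ⟨V5_14161281024, nat_lit 5, [(nat_lit 95, nat_lit 14178078720),
  (nat_lit 5, nat_lit 15251816448), (nat_lit 24, nat_lit 15235043328),
  (nat_lit 52, nat_lit 16325554176), (nat_lit 27, nat_lit 16308781056),
  (nat_lit 116, nat_lit 17399291904), (nat_lit 52, nat_lit 17382518784),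
  (nat_lit 36, nat_lit 18473029632), (nat_lit 28, nat_lit 18456256512),
  (nat_lit 123, nat_lit 19546767360), (nat_lit 81, nat_lit 19529994240),
  (nat_lit 116, nat_lit 20603731968)]⟩,
  ⟨V5_14144507904, nat_lit 6, [(nat_lit 118, nat_lit 14178078720),
  (nat_lit 1, nat_lit 15251816448), (nat_lit 38, nat_lit 15235043328),
  (nat_lit 101, nat_lit 16325554176), (nat_lit 5, nat_lit 16308781056),
  (nat_lit 104, nat_lit 16292007936), (nat_lit 88, nat_lit 17399291904),
  (nat_lit 70, nat_lit 17382518784), (nat_lit 69, nat_lit 17365745664),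
  (nat_lit 122, nat_lit 18473029632), (nat_lit 56, nat_lit 18456256512),
  (nat_lit 106, nat_lit 18439483392), (nat_lit 106, nat_lit 19529994240),
  (nat_lit 11, nat_lit 19513221120), (nat_lit 74, nat_lit 20586958848)]⟩], [
  W6_14161281024, W6_14144507904, W6_14127734784, W6_14110961664, W6_14094188544, W6_14077415424]⟩

theorem F6_14178078720_chk : fwdChk 6 ks6 F6_14178078720 = true := by decide +kernel

noncomputable def F6_14178074688 : Fwd := ⟨V6_14178074688, [
  ⟨V5_14094188544, nat_lit 8, [(nat_lit 56, nat_lit 14178074688),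
  (nat_lit 57, nat_lit 15251816448), (nat_lit 20, nat_lit 15235039296),
  (nat_lit 124, nat_lit 16308781056), (nat_lit 44, nat_lit 16292003904),
  (nat_lit 102, nat_lit 17365745664), (nat_lit 111, nat_lit 17348968512),
  (nat_lit 60, nat_lit 18422710272), (nat_lit 117, nat_lit 18405933120),
  (nat_lit 20, nat_lit 19479674880), (nat_lit 48, nat_lit 19462897728),
  (nat_lit 81, nat_lit 20536639488)]⟩,
  ⟨V5_14144507904, nat_lit 9, [(nat_lit 112, nat_lit 14178074688),
  (nat_lit 18, nat_lit 15251816448), (nat_lit 86, nat_lit 15251812416),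
  (nat_lit 55, nat_lit 15235039296), (nat_lit 22, nat_lit 16325554176),
  (nat_lit 4, nat_lit 16325550144), (nat_lit 114, nat_lit 16308781056),
  (nat_lit 20, nat_lit 16308777024), (nat_lit 106, nat_lit 16292003904),
  (nat_lit 106, nat_lit 17399291904), (nat_lit 115, nat_lit 17399287872),
  (nat_lit 65, nat_lit 17382518784), (nat_lit 32, nat_lit 17382514752),
  (nat_lit 23, nat_lit 17365745664), (nat_lit 85, nat_lit 17365741632),
  (nat_lit 84, nat_lit 18473029632), (nat_lit 117, nat_lit 18456256512),
  (nat_lit 103, nat_lit 18456252480), (nat_lit 66, nat_lit 18439483392),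
  (nat_lit 44, nat_lit 18439479360), (nat_lit 10, nat_lit 19529994240),
  (nat_lit 22, nat_lit 19513221120), (nat_lit 84, nat_lit 19513217088),
  (nat_lit 56, nat_lit 20586958848)]⟩,
  ⟨V5_14077411392, nat_lit 1, [(nat_lit 83, nat_lit 14178074688),
  (nat_lit 5, nat_lit 15235039296), (nat_lit 34, nat_lit 16292003904),
  (nat_lit 93, nat_lit 17348968512), (nat_lit 122, nat_lit 18405933120),
  (nat_lit 44, nat_lit 19462897728), (nat_lit 30, nat_lit 20519862336)]⟩], [
  W6_14161022976, W6_14144507904, W6_14144249856, W6_14144245824, W6_14127734784, W6_14127730752,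
  W6_14127476736, W6_14127472704, W6_14110961664, W6_14110957632, W6_14110703616, W6_14110699584,
  W6_14094188544, W6_14094184512, W6_14093926464, W6_14077411392]⟩

theorem F6_14178074688_chk : fwdChk 6 ks6 F6_14178074688 = true := by decide +kernel

end Crest.Agent.R187.SN.Fwd
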