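import Crest.Agent.R187.SN.FwdDef
import Crest.Agent.R187.SN.TD.Ks
import Crest.Agent.R187.SN.TD.W6_0
import Crest.Agent.R187.SN.TD.X5_0
import Crest.Agent.R187.SN.TD.X6_0

/-!
# Row 187, PLAN S, certificate E3: forward records of level `(6, 6)`, part 8

`F6_<key> : Fwd` = sources (table of level `(6, 5)`, number of rows, quadrature record) and
`W` tables of the table `V6_<key>`; each record is checked by the kernel.
-/

set_option autoImplicit false
set_option Elab.async false
set_option maxRecDepth 100000

namespace Crest.Agent.R187.SN.Fwd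

open Crest.Agent.R187.SN.Top

noncomputable def F6_14178066561 : Fwd := ⟨V6_14178066561, [
  ⟨V5_14094180480, nat_lit 3, [(nat_lit 96, nat_lit 14178066561),
  (nat_lit 107, nat_lit 15251808384), (nat_lit 126, nat_lit 15235031169),
  (nat_lit 11, nat_lit 16308772992), (nat_lit 24, nat_lit 16291995777),
  (nat_lit 75, nat_lit 17365737600), (nat_lit 17, nat_lit 17348960385),
  (nat_lit 42, nat_lit 18422702208), (nat_lit 106, nat_lit 18405924993),
  (nat_lit 58, nat_lit 19479666816), (nat_lit 62, nat_lit 19462889601),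
  (nat_lit 1, nat_lit 20536631424)]⟩,
  ⟨V5_14160502848, nat_lit 1, [(nat_lit 63, nat_lit 14178066561),
  (nat_lit 119, nat_lit 15251808384), (nat_lit 106, nat_lit 15251808321),
  (nat_lit 33, nat_lit 15251546241), (nat_lit 103, nat_lit 15235031169),
  (nat_lit 60, nat_lit 16325550144), (nat_lit 31, nat_lit 16325288064),
  (nat_lit 15, nat_lit 16325288001), (nat_lit 125, nat_lit 16325025921),
  (nat_lit 121, nat_lit 16308772992), (nat_lit 38, nat_lit 16308772929),
  (nat_lit 29, nat_lit 16308510849), (nat_lit 115, nat_lit 17399029824),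
  (nat_lit 68, nat_lit 17398767744), (nat_lit 76, nat_lit 17398767681),
  (nat_lit 8, nat_lit 17398505601), (nat_lit 55, nat_lit 17382514752),
  (nat_lit 16, nat_lit 17382252672), (nat_lit 2, nat_lit 17382252609),
  (nat_lit 75, nat_lit 17381990529), (nat_lit 26, nat_lit 18472509504),
  (nat_lit 13, nat_lit 18472247424), (nat_lit 39, nat_lit 18472247361),
  (nat_lit 73, nat_lit 18455994432), (nat_lit 107, nat_lit 18455732352),
  (nat_lit 115, nat_lit 18455732289), (nat_lit 15, nat_lit 18455470209),
  (nat_lit 21, nat_lit 19545989184), (nat_lit 72, nat_lit 19529474112),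
  (nat_lit 17, nat_lit 19529212032), (nat_lit 10, nat_lit 19529211969),
  (nat_lit 1, nat_lit 20602953792)]⟩], [
  W6_14160502848, W6_14143987776, W6_14127472704, W6_14127210624, W6_14110957632, W6_14110695552,
  W6_14094180480]⟩

theorem F6_14178066561_chk : fwdChk 6 ks6 F6_14178066561 = true := by decide +kernel

noncomputable def F6_14177812608 : Fwd := ⟨V6_14177812608, [
  ⟨V5_14110703616, nat_lit 5, [(nat_lit 124, nat_lit 14177812608),
  (nat_lit 97, nat_lit 15251554368), (nat_lit 25, nat_lit 15234777216),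
  (nat_lit 100, nat_lit 16325296128), (nat_lit 108, nat_lit 16308518976),
  (nat_lit 20, nat_lit 16291741824), (nat_lit 33, nat_lit 17382260736),
  (nat_lit 47, nat_lit 17365483584), (nat_lit 73, nat_lit 17348706432),
  (nat_lit 25, nat_lit 18439225344), (nat_lit 39, nat_lit 18422448192),
  (nat_lit 22, nat_lit 18405671040), (nat_lit 118, nat_lit 19496189952),
  (nat_lit 65, nat_lit 19479412800), (nat_lit 119, nat_lit 20553154560)]⟩], [
  W6_14144249856, W6_14127476736, W6_14127472704, W6_14110703616, W6_14110699584, W6_14110695552,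
  W6_14093926464, W6_14093922432, W6_14077149312]⟩

theorem F6_14177812608_chk : fwdChk 6 ks6 F6_14177812608 = true := by decide +kernel

noncomputable def F6_14177808576 : Fwd := ⟨V6_14177808576, [
  ⟨V5_14127476736, nat_lit 4, [(nat_lit 37, nat_lit 14177808576),
  (nat_lit 18, nat_lit 15251550336), (nat_lit 88, nat_lit 15234773184),
  (nat_lit 99, nat_lit 16325292096), (nat_lit 21, nat_lit 16308514944),
  (nat_lit 96, nat_lit 16291737792), (nat_lit 14, nat_lit 17399033856),
  (nat_lit 120, nat_lit 17382256704), (nat_lit 33, nat_lit 17365479552),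
  (nat_lit 108, nat_lit 17348702400), (nat_lit 69, nat_lit 18455998464),
  (nat_lit 29, nat_lit 18439221312), (nat_lit 118, nat_lit 18422444160),
  (nat_lit 80, nat_lit 19512963072), (nat_lit 102, nat_lit 19496185920),
  (nat_lit 101, nat_lit 20569927680)]⟩], [
  W6_14143991808, W6_14127476736, W6_14127214656, W6_14110699584, W6_14110437504, W6_14093922432]⟩

theorem F6_14177808576_chk : fwdChk 6 ks6 F6_14177808576 = true := by decide +kernel

noncomputable def F6_14177546370 : Fwd := ⟨V6_14177546370, [
  ⟨V5_14110437504, nat_lit 1, [(nat_lit 102, nat_lit 14177546370),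
  (nat_lit 37, nat_lit 15251288193), (nat_lit 99, nat_lit 15234510978),
  (nat_lit 16, nat_lit 16325030016), (nat_lit 121, nat_lit 16308252801),
  (nat_lit 32, nat_lit 16291475586), (nat_lit 36, nat_lit 17381994624),
  (nat_lit 87, nat_lit 17365217409), (nat_lit 89, nat_lit 17348440194),
  (nat_lit 105, nat_lit 18438959232), (nat_lit 123, nat_lit 18422182017),
  (nat_lit 102, nat_lit 18405404802), (nat_lit 34, nat_lit 19495923840),
  (nat_lit 110, nat_lit 19479146625), (nat_lit 52, nat_lit 20552888448)]⟩], [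
  W6_14127210624, W6_14110437504]⟩

theorem F6_14177546370_chk : fwdChk 6 ks6 F6_14177546370 = true := by decide +kernel

noncomputable def F6_14162853888 : Fwd := ⟨V6_14162853888, [
  ⟨V5_13087801344, nat_lit 2, [(nat_lit 61, nat_lit 14162853888),
  (nat_lit 71, nat_lit 15236333568), (nat_lit 117, nat_lit 16309813248),
  (nat_lit 116, nat_lit 17383292928), (nat_lit 20, nat_lit 18456772608),
  (nat_lit 11, nat_lit 19530252288)]⟩,
  ⟨V5_14161281024, nat_lit 3, [(nat_lit 120, nat_lit 14162853888),
  (nat_lit 59, nat_lit 15236333568), (nat_lit 57, nat_lit 16309813248),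
  (nat_lit 80, nat_lit 17383292928), (nat_lit 11, nat_lit 18456772608),
  (nat_lit 61, nat_lit 19530252288), (nat_lit 48, nat_lit 20603731968)]⟩], [
  W6_14161281024, W6_14144765952, W6_13087801344, W6_13071286272]⟩

theorem F6_14162853888_chk : fwdChk 6 ks6 F6_14162853888 = true := by decide +kernel

noncomputable def F6_14161563648 : Fwd := ⟨V6_14161563648, [
  ⟨V5_13087801344, nat_lit 5, [(nat_lit 92, nat_lit 14161563648),
  (nat_lit 40, nat_lit 15235301376), (nat_lit 30, nat_lit 16309039104),
  (nat_lit 65, nat_lit 17382776832), (nat_lit 120, nat_lit 18456514560),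
  (nat_lit 106, nat_lit 19530252288)]⟩,
  ⟨V5_14060900352, nat_lit 3, [(nat_lit 75, nat_lit 14161563648),
  (nat_lit 81, nat_lit 15218528256), (nat_lit 118, nat_lit 16275492864),
  (nat_lit 35, nat_lit 17332457472), (nat_lit 121, nat_lit 18389422080),
  (nat_lit 71, nat_lit 19446386688), (nat_lit 114, nat_lit 20503351296)]⟩,
  ⟨V5_14161281024, nat_lit 5, [(nat_lit 78, nat_lit 14161563648),
  (nat_lit 107, nat_lit 15235301376), (nat_lit 21, nat_lit 15235043328),
  (nat_lit 93, nat_lit 16309039104), (nat_lit 84, nat_lit 16308781056),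
  (nat_lit 1, nat_lit 17382776832), (nat_lit 40, nat_lit 17382518784),
  (nat_lit 108, nat_lit 18456514560), (nat_lit 61, nat_lit 18456256512),
  (nat_lit 126, nat_lit 19530252288), (nat_lit 68, nat_lit 19529994240),
  (nat_lit 107, nat_lit 20603731968)]⟩,
  ⟨V5_13020708864, nat_lit 10, [(nat_lit 32, nat_lit 14161563648),
  (nat_lit 4, nat_lit 15235301376), (nat_lit 89, nat_lit 15218528256),
  (nat_lit 121, nat_lit 16292265984), (nat_lit 40, nat_lit 16275492864),
  (nat_lit 114, nat_lit 17349230592), (nat_lit 18, nat_lit 17332457472),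
  (nat_lit 23, nat_lit 18406195200), (nat_lit 60, nat_lit 18389422080),
  (nat_lit 97, nat_lit 19463159808)]⟩,
  ⟨V5_14144765952, nat_lit 6, [(nat_lit 5, nat_lit 14161563648),
  (nat_lit 69, nat_lit 15235301376), (nat_lit 103, nat_lit 15218528256),
  (nat_lit 112, nat_lit 16309039104), (nat_lit 99, nat_lit 16292265984),
  (nat_lit 44, nat_lit 17382776832), (nat_lit 39, nat_lit 17366003712),
  (nat_lit 111, nat_lit 18456514560), (nat_lit 87, nat_lit 18439741440),
  (nat_lit 120, nat_lit 19530252288), (nat_lit 27, nat_lit 19513479168),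
  (nat_lit 124, nat_lit 20587216896)]⟩,
  ⟨V5_13003935744, nat_lit 2, [(nat_lit 122, nat_lit 14161563648),
  (nat_lit 93, nat_lit 15218528256), (nat_lit 34, nat_lit 16275492864),
  (nat_lit 5, nat_lit 17332457472), (nat_lit 83, nat_lit 18389422080),
  (nat_lit 97, nat_lit 19446386688)]⟩,
  ⟨V5_13087543296, nat_lit 1, [(nat_lit 21, nat_lit 14161563648),
  (nat_lit 92, nat_lit 15235301376), (nat_lit 102, nat_lit 15235043328),
  (nat_lit 98, nat_lit 16309039104), (nat_lit 112, nat_lit 16308781056),
  (nat_lit 85, nat_lit 17382776832), (nat_lit 79, nat_lit 17382518784),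
  (nat_lit 53, nat_lit 18456514560), (nat_lit 80, nat_lit 18456256512),
  (nat_lit 42, nat_lit 19529994240)]⟩], [
  W6_14161281024, W6_14144765952, W6_14144507904, W6_14127992832, W6_14127734784, W6_14111219712,
  W6_14110961664, W6_14094446592, W6_14094188544, W6_14077673472, W6_14077415424, W6_14060900352,
  W6_13087801344, W6_13087543296, W6_13071028224, W6_13070770176, W6_13054255104, W6_13053997056,
  W6_13037481984, W6_13037223936, W6_13020708864, W6_13020450816, W6_13003935744]⟩

theorem F6_14161563648_chk : fwdChk 6 ks6 F6_14161563648 = true := by decide +kernel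

noncomputable def F6_14161293504 : Fwd := ⟨V6_14161293504, [
  ⟨V5_14110961664, nat_lit 8, [(nat_lit 124, nat_lit 14161293504),
  (nat_lit 19, nat_lit 15235035264), (nat_lit 71, nat_lit 15218258112),
  (nat_lit 73, nat_lit 16308777024), (nat_lit 17, nat_lit 16291999872),
  (nat_lit 65, nat_lit 16275222720), (nat_lit 56, nat_lit 17382518784),
  (nat_lit 18, nat_lit 17365741632), (nat_lit 90, nat_lit 17348964480),
  (nat_lit 96, nat_lit 17332187328), (nat_lit 123, nat_lit 18439483392),
  (nat_lit 6, nat_lit 18422706240), (nat_lit 57, nat_lit 18405929088),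
  (nat_lit 42, nat_lit 19496448000), (nat_lit 123, nat_lit 19479670848),
  (nat_lit 2, nat_lit 20553412608)]⟩,
  ⟨V5_13003665600, nat_lit 1, [(nat_lit 42, nat_lit 14161293504),
  (nat_lit 57, nat_lit 15218258112), (nat_lit 70, nat_lit 16275222720),
  (nat_lit 85, nat_lit 17332187328), (nat_lit 14, nat_lit 18389151936),
  (nat_lit 125, nat_lit 19446116544)]⟩], [
  W6_14143991808, W6_14127476736, W6_14127214656, W6_14110961664, W6_14110699584, W6_14110437504,
  W6_14094184512, W6_14093922432, W6_14077407360, W6_13070512128, W6_13070250048, W6_13053997056,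
  W6_13053734976, W6_13037219904, W6_13036957824, W6_13020442752, W6_13003665600]⟩

theorem F6_14161293504_chk : fwdChk 6 ks6 F6_14161293504 = true := by decide +kernel

noncomputable def F6_14161289346 : Fwd := ⟨V6_14161289346, [
  ⟨V5_13086761088, nat_lit 1, [(nat_lit 92, nat_lit 14161289346),
  (nat_lit 1, nat_lit 15235031169), (nat_lit 103, nat_lit 15234769026),
  (nat_lit 32, nat_lit 16308772992), (nat_lit 57, nat_lit 16308510849),
  (nat_lit 28, nat_lit 16308248706), (nat_lit 84, nat_lit 17382252672),
  (nat_lit 108, nat_lit 17381990529), (nat_lit 37, nat_lit 17381728386),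
  (nat_lit 22, nat_lit 18455732352), (nat_lit 47, nat_lit 18455470209),
  (nat_lit 121, nat_lit 19529212032)]⟩,
  ⟨V5_13070246016, nat_lit 1, [(nat_lit 25, nat_lit 14161289346),
  (nat_lit 57, nat_lit 15235031169), (nat_lit 10, nat_lit 15234769026),
  (nat_lit 103, nat_lit 15218253954), (nat_lit 96, nat_lit 16308772992),
  (nat_lit 22, nat_lit 16308510849), (nat_lit 103, nat_lit 16308248706),
  (nat_lit 116, nat_lit 16291995777), (nat_lit 35, nat_lit 16291733634),
  (nat_lit 20, nat_lit 17382252672), (nat_lit 72, nat_lit 17381990529),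
  (nat_lit 32, nat_lit 17365737600), (nat_lit 80, nat_lit 17365475457),
  (nat_lit 61, nat_lit 17365213314), (nat_lit 3, nat_lit 18455732352),
  (nat_lit 78, nat_lit 18439217280), (nat_lit 115, nat_lit 18438955137),
  (nat_lit 99, nat_lit 19512696960)]⟩], [
  W6_14127210624, W6_14110695552, W6_14094180480, W6_13086761088, W6_13070246016, W6_13053730944,
  W6_13037215872]⟩

theorem F6_14161289346_chk : fwdChk 6 ks6 F6_14161289346 = true := by decide +kernel

noncomputable def F6_14161035456 : Fwd := ⟨V6_14161035456, [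
  ⟨V5_13053739008, nat_lit 6, [(nat_lit 98, nat_lit 14161035456),
  (nat_lit 84, nat_lit 15234777216), (nat_lit 3, nat_lit 15218000064),
  (nat_lit 99, nat_lit 16308518976), (nat_lit 5, nat_lit 16291741824),
  (nat_lit 51, nat_lit 16274964672), (nat_lit 22, nat_lit 17382260736),
  (nat_lit 116, nat_lit 17365483584), (nat_lit 91, nat_lit 17348706432),
  (nat_lit 66, nat_lit 18439225344), (nat_lit 27, nat_lit 18422448192),
  (nat_lit 23, nat_lit 19496189952)]⟩,
  ⟨V5_13070512128, nat_lit 3, [(nat_lit 11, nat_lit 14161035456),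
  (nat_lit 7, nat_lit 15234777216), (nat_lit 45, nat_lit 15234773184),
  (nat_lit 32, nat_lit 15218000064), (nat_lit 6, nat_lit 16308518976),
  (nat_lit 119, nat_lit 16308514944), (nat_lit 114, nat_lit 16291741824),
  (nat_lit 85, nat_lit 16291737792), (nat_lit 54, nat_lit 17382260736),
  (nat_lit 83, nat_lit 17382256704), (nat_lit 97, nat_lit 17365483584),
  (nat_lit 118, nat_lit 17365479552), (nat_lit 111, nat_lit 18455998464),
  (nat_lit 51, nat_lit 18439225344), (nat_lit 67, nat_lit 18439221312),
  (nat_lit 58, nat_lit 19512963072)]⟩], [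
  W6_14127476736, W6_14110703616, W6_14110699584, W6_14093926464, W6_14093922432, W6_14077149312,
  W6_14060372160, W6_13070512128, W6_13053739008, W6_13053734976, W6_13036961856, W6_13036957824,
  W6_13020184704, W6_13003407552]⟩

theorem F6_14161035456_chk : fwdChk 6 ks6 F6_14161035456 = true := by decide +kernel

noncomputable def F6_14146080768 : Fwd := ⟨V6_14146080768, [
  ⟨V5_11997548544, nat_lit 3, [(nat_lit 60, nat_lit 14146080768),
  (nat_lit 31, nat_lit 15219560448), (nat_lit 72, nat_lit 16293040128),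
  (nat_lit 27, nat_lit 17366519808), (nat_lit 95, nat_lit 18439999488)]⟩,
  ⟨V5_13071286272, nat_lit 1, [(nat_lit 70, nat_lit 14146080768),
  (nat_lit 114, nat_lit 15219818496), (nat_lit 13, nat_lit 15219560448),
  (nat_lit 14, nat_lit 16293298176), (nat_lit 100, nat_lit 16293040128),
  (nat_lit 55, nat_lit 17366777856), (nat_lit 105, nat_lit 17366519808),
  (nat_lit 93, nat_lit 18440257536), (nat_lit 86, nat_lit 18439999488),
  (nat_lit 98, nat_lit 19513737216)]⟩], [
  W6_14144765952, W6_14144507904, W6_13071286272, W6_13071028224, W6_11997548544]⟩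

theorem F6_14146080768_chk : fwdChk 6 ks6 F6_14146080768 = true := by decide +kernel

noncomputable def F6_14145556545 : Fwd := ⟨V6_14145556545, [
  ⟨V5_11997286464, nat_lit 3, [(nat_lit 62, nat_lit 14145556545),
  (nat_lit 24, nat_lit 15219298368), (nat_lit 16, nat_lit 15219036225),
  (nat_lit 89, nat_lit 16292778048), (nat_lit 116, nat_lit 16292515905),
  (nat_lit 104, nat_lit 17366257728), (nat_lit 67, nat_lit 17365995585),
  (nat_lit 101, nat_lit 18439737408)]⟩,
  ⟨V5_11964256320, nat_lit 2, [(nat_lit 92, nat_lit 14145556545),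
  (nat_lit 92, nat_lit 15219298368), (nat_lit 65, nat_lit 15219036225),
  (nat_lit 25, nat_lit 15202521153), (nat_lit 92, nat_lit 16292778048),
  (nat_lit 87, nat_lit 16276262976), (nat_lit 9, nat_lit 16276000833),
  (nat_lit 31, nat_lit 16259485761), (nat_lit 82, nat_lit 17349742656),
  (nat_lit 13, nat_lit 17333227584), (nat_lit 86, nat_lit 17332965441),
  (nat_lit 83, nat_lit 18406707264)]⟩], [
  W6_14144245824, W6_14127730752, W6_14111215680, W6_13070766144, W6_13054251072, W6_13037736000,
  W6_11997286464, W6_11980771392, W6_11964256320]⟩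

theorem F6_14145556545_chk : fwdChk 6 ks6 F6_14145556545 = true := by decide +kernel

noncomputable def F6_14145298560 : Fwd := ⟨V6_14145298560, [
  ⟨V5_13021224960, nat_lit 6, [(nat_lit 89, nat_lit 14145298560),
  (nat_lit 34, nat_lit 15219040320), (nat_lit 3, nat_lit 15202263168),
  (nat_lit 8, nat_lit 16292782080), (nat_lit 36, nat_lit 16276004928),
  (nat_lit 81, nat_lit 16259227776), (nat_lit 32, nat_lit 17349746688),
  (nat_lit 53, nat_lit 17332969536), (nat_lit 80, nat_lit 17316192384),
  (nat_lit 43, nat_lit 18406711296), (nat_lit 117, nat_lit 18389934144),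
  (nat_lit 4, nat_lit 19463675904)]⟩,
  ⟨V5_14144249856, nat_lit 8, [(nat_lit 1, nat_lit 14145298560), (nat_lit 7, nat_lit 15219040320),
  (nat_lit 75, nat_lit 15218778240), (nat_lit 126, nat_lit 16292782080),
  (nat_lit 110, nat_lit 16292520000), (nat_lit 71, nat_lit 16292257920),
  (nat_lit 68, nat_lit 17366261760), (nat_lit 125, nat_lit 17365999680),
  (nat_lit 121, nat_lit 17365737600), (nat_lit 119, nat_lit 18439741440),
  (nat_lit 6, nat_lit 18439479360), (nat_lit 25, nat_lit 18439217280),
  (nat_lit 88, nat_lit 19513221120), (nat_lit 11, nat_lit 19512959040),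
  (nat_lit 97, nat_lit 20586700800)]⟩,
  ⟨V5_13070770176, nat_lit 7, [(nat_lit 38, nat_lit 14145298560),
  (nat_lit 14, nat_lit 15219040320), (nat_lit 36, nat_lit 15218778240),
  (nat_lit 93, nat_lit 16292782080), (nat_lit 87, nat_lit 16292520000),
  (nat_lit 91, nat_lit 16292257920), (nat_lit 53, nat_lit 17366261760),
  (nat_lit 62, nat_lit 17365999680), (nat_lit 89, nat_lit 17365737600),
  (nat_lit 25, nat_lit 18439741440), (nat_lit 2, nat_lit 18439479360),
  (nat_lit 33, nat_lit 19513221120)]⟩,
  ⟨V5_11980775424, nat_lit 5, [(nat_lit 47, nat_lit 14145298560),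
  (nat_lit 54, nat_lit 15219040320), (nat_lit 31, nat_lit 15218778240),
  (nat_lit 8, nat_lit 15202263168), (nat_lit 76, nat_lit 16292782080),
  (nat_lit 113, nat_lit 16292520000), (nat_lit 53, nat_lit 16276004928),
  (nat_lit 122, nat_lit 16275742848), (nat_lit 88, nat_lit 17366261760),
  (nat_lit 21, nat_lit 17349746688), (nat_lit 49, nat_lit 17349484608),
  (nat_lit 50, nat_lit 18423226368)]⟩], [
  W6_14144249856, W6_14143987776, W6_14127734784, W6_14127472704, W6_14127210624, W6_14111219712,
  W6_14110957632, W6_14110695552, W6_14094704640, W6_14094442560, W6_14094180480, W6_13070770176,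
  W6_13070508096, W6_13070246016, W6_13054255104, W6_13053993024, W6_13053730944, W6_13037740032,
  W6_13037477952, W6_13037215872, W6_13021224960, W6_13020962880, W6_13020700800, W6_11997290496,
  W6_11997028416, W6_11980775424, W6_11980513344, W6_11980251264, W6_11964260352, W6_11963998272,
  W6_11963736192, W6_11947483200, W6_11947221120]⟩

theorem F6_14145298560_chk : fwdChk 6 ks6 F6_14145298560 = true := by decide +kernel

noncomputable def F6_14144790528 : Fwd := ⟨V6_14144790528, [
  ⟨V5_12987162624, nat_lit 2, [(nat_lit 98, nat_lit 14144790528),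
  (nat_lit 9, nat_lit 15201755136), (nat_lit 40, nat_lit 16258719744),
  (nat_lit 58, nat_lit 17315684352), (nat_lit 70, nat_lit 18372648960),
  (nat_lit 53, nat_lit 19429613568)]⟩,
  ⟨V5_14144765952, nat_lit 6, [(nat_lit 90, nat_lit 14144790528),
  (nat_lit 121, nat_lit 15218528256), (nat_lit 109, nat_lit 16292265984),
  (nat_lit 71, nat_lit 17366003712), (nat_lit 39, nat_lit 18439741440),
  (nat_lit 21, nat_lit 19513479168), (nat_lit 88, nat_lit 20587216896)]⟩,
  ⟨V5_13071028224, nat_lit 6, [(nat_lit 15, nat_lit 14144790528),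
  (nat_lit 31, nat_lit 15218528256), (nat_lit 33, nat_lit 16292265984),
  (nat_lit 60, nat_lit 17366003712), (nat_lit 65, nat_lit 18439741440),
  (nat_lit 48, nat_lit 19513479168)]⟩,
  ⟨V5_14060900352, nat_lit 2, [(nat_lit 3, nat_lit 14144790528),
  (nat_lit 52, nat_lit 15218528256), (nat_lit 96, nat_lit 15201755136),
  (nat_lit 90, nat_lit 16275492864), (nat_lit 24, nat_lit 16258719744),
  (nat_lit 5, nat_lit 17332457472), (nat_lit 103, nat_lit 17315684352),
  (nat_lit 53, nat_lit 18389422080), (nat_lit 31, nat_lit 18372648960),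
  (nat_lit 6, nat_lit 19446386688), (nat_lit 124, nat_lit 19429613568),
  (nat_lit 27, nat_lit 20503351296)]⟩,
  ⟨V5_11997290496, nat_lit 2, [(nat_lit 18, nat_lit 14144790528),
  (nat_lit 40, nat_lit 15218528256), (nat_lit 82, nat_lit 16292265984),
  (nat_lit 111, nat_lit 17366003712), (nat_lit 112, nat_lit 18439741440)]⟩], [
  W6_14144765952, W6_14127992832, W6_14111219712, W6_14094446592, W6_14077673472, W6_14060900352,
  W6_13071028224, W6_13054255104, W6_13037481984, W6_13020708864, W6_13003935744, W6_12987162624,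
  W6_11997290496, W6_11980517376, W6_11963744256, W6_11946971136, W6_11930198016]⟩

theorem F6_14144790528_chk : fwdChk 6 ks6 F6_14144790528 = true := by decide +kernel

noncomputable def F6_14144774274 : Fwd := ⟨V6_14144774274, [
  ⟨V5_13070246016, nat_lit 1, [(nat_lit 34, nat_lit 14144774274),
  (nat_lit 2, nat_lit 15218516097), (nat_lit 62, nat_lit 15218253954),
  (nat_lit 70, nat_lit 16292257920), (nat_lit 108, nat_lit 16291995777),
  (nat_lit 94, nat_lit 16291733634), (nat_lit 30, nat_lit 17365737600),
  (nat_lit 20, nat_lit 17365475457), (nat_lit 34, nat_lit 17365213314),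
  (nat_lit 58, nat_lit 18439217280), (nat_lit 26, nat_lit 18438955137),
  (nat_lit 124, nat_lit 19512696960)]⟩,
  ⟨V5_11963736192, nat_lit 2, [(nat_lit 35, nat_lit 14144774274),
  (nat_lit 115, nat_lit 15218516097), (nat_lit 14, nat_lit 15201738882),
  (nat_lit 95, nat_lit 16292257920), (nat_lit 75, nat_lit 16275480705),
  (nat_lit 56, nat_lit 16258703490), (nat_lit 61, nat_lit 17349222528),
  (nat_lit 33, nat_lit 17332445313), (nat_lit 41, nat_lit 18406187136)]⟩], [
  W6_14127210624, W6_14110695552, W6_14094180480, W6_14077665408, W6_13070246016, W6_13053730944,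
  W6_13037215872, W6_13020700800, W6_11980251264, W6_11963736192]⟩

theorem F6_14144774274_chk : fwdChk 6 ks6 F6_14144774274 = true := by decide +kernel

noncomputable def F6_14144258304 : Fwd := ⟨V6_14144258304, [
  ⟨V5_13053739008, nat_lit 6, [(nat_lit 53, nat_lit 14144258304),
  (nat_lit 7, nat_lit 15218000064), (nat_lit 1, nat_lit 15201222912),
  (nat_lit 61, nat_lit 16291741824), (nat_lit 81, nat_lit 16274964672),
  (nat_lit 30, nat_lit 17365483584), (nat_lit 40, nat_lit 17348706432),
  (nat_lit 64, nat_lit 18439225344), (nat_lit 125, nat_lit 18422448192),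
  (nat_lit 109, nat_lit 19496189952)]⟩,
  ⟨V5_12986630400, nat_lit 1, [(nat_lit 48, nat_lit 14144258304),
  (nat_lit 7, nat_lit 15201222912), (nat_lit 17, nat_lit 16258187520),
  (nat_lit 31, nat_lit 17315152128), (nat_lit 125, nat_lit 18372116736),
  (nat_lit 13, nat_lit 19429081344)]⟩], [
  W6_14110703616, W6_14093926464, W6_14077149312, W6_14060372160, W6_13053739008, W6_13036961856,
  W6_13020184704, W6_13003407552, W6_12986630400, W6_11979997248, W6_11963220096, W6_11946442944]⟩

theorem F6_14144258304_chk : fwdChk 6 ks6 F6_14144258304 = true := by decide +kernel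

noncomputable def F6_14144258241 : Fwd := ⟨V6_14144258241, [
  ⟨V5_11996770368, nat_lit 2, [(nat_lit 41, nat_lit 14144258241),
  (nat_lit 5, nat_lit 15218000064), (nat_lit 24, nat_lit 15218000001),
  (nat_lit 22, nat_lit 15217995969), (nat_lit 121, nat_lit 16291741824),
  (nat_lit 22, nat_lit 16291741761), (nat_lit 49, nat_lit 16291737792),
  (nat_lit 107, nat_lit 16291737729), (nat_lit 35, nat_lit 17365483584),
  (nat_lit 74, nat_lit 17365479552), (nat_lit 27, nat_lit 17365479489),
  (nat_lit 70, nat_lit 18439221312)]⟩,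
  ⟨V5_11979997248, nat_lit 2, [(nat_lit 80, nat_lit 14144258241),
  (nat_lit 60, nat_lit 15218000064), (nat_lit 95, nat_lit 15218000001),
  (nat_lit 39, nat_lit 15201222849), (nat_lit 100, nat_lit 16291741824),
  (nat_lit 2, nat_lit 16291741761), (nat_lit 4, nat_lit 16274964672),
  (nat_lit 110, nat_lit 16274964609), (nat_lit 34, nat_lit 17365483584),
  (nat_lit 42, nat_lit 17348706432), (nat_lit 81, nat_lit 17348706369),
  (nat_lit 32, nat_lit 18422448192)]⟩,
  ⟨V5_14060372160, nat_lit 1, [(nat_lit 83, nat_lit 14144258241),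
  (nat_lit 63, nat_lit 15218000064), (nat_lit 77, nat_lit 15201222849),
  (nat_lit 24, nat_lit 16274964672), (nat_lit 8, nat_lit 16258187457),
  (nat_lit 60, nat_lit 17331929280), (nat_lit 21, nat_lit 17315152065),
  (nat_lit 84, nat_lit 18388893888), (nat_lit 71, nat_lit 18372116673),
  (nat_lit 62, nat_lit 19445858496), (nat_lit 120, nat_lit 19429081281),
  (nat_lit 122, nat_lit 20502823104)]⟩,
  ⟨V5_11946442944, nat_lit 1, [(nat_lit 38, nat_lit 14144258241),
  (nat_lit 87, nat_lit 15218000064), (nat_lit 101, nat_lit 15201222849),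
  (nat_lit 3, nat_lit 16274964672), (nat_lit 62, nat_lit 16258187457),
  (nat_lit 113, nat_lit 17331929280), (nat_lit 77, nat_lit 17315152065),
  (nat_lit 118, nat_lit 18388893888)]⟩,
  ⟨V5_13020184704, nat_lit 1, [(nat_lit 42, nat_lit 14144258241),
  (nat_lit 51, nat_lit 15218000064), (nat_lit 74, nat_lit 15218000001),
  (nat_lit 88, nat_lit 15201222849), (nat_lit 58, nat_lit 16291741824),
  (nat_lit 54, nat_lit 16274964672), (nat_lit 37, nat_lit 16274964609),
  (nat_lit 109, nat_lit 16258187457), (nat_lit 106, nat_lit 17348706432),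
  (nat_lit 16, nat_lit 17331929280), (nat_lit 6, nat_lit 17331929217),
  (nat_lit 113, nat_lit 17315152065), (nat_lit 121, nat_lit 18405671040),
  (nat_lit 112, nat_lit 18388893888), (nat_lit 46, nat_lit 18388893825),
  (nat_lit 94, nat_lit 19462635648)]⟩], [
  W6_14110699584, W6_14093926464, W6_14093922432, W6_14077149312, W6_14060372160, W6_13053734976,
  W6_13036961856, W6_13036957824, W6_13020184704, W6_13003407552, W6_11996770368, W6_11979997248,
  W6_11979993216, W6_11963220096, W6_11963216064, W6_11946442944]⟩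

theorem F6_14144258241_chk : fwdChk 6 ks6 F6_14144258241 = true := by decide +kernel

noncomputable def F6_14144258178 : Fwd := ⟨V6_14144258178, [
  ⟨V5_13020184704, nat_lit 3, [(nat_lit 105, nat_lit 14144258178),
  (nat_lit 54, nat_lit 15218000001), (nat_lit 126, nat_lit 15201222786),
  (nat_lit 90, nat_lit 16291741824), (nat_lit 67, nat_lit 16274964609),
  (nat_lit 115, nat_lit 16258187394), (nat_lit 33, nat_lit 17348706432),
  (nat_lit 124, nat_lit 17331929217), (nat_lit 7, nat_lit 17315152002),
  (nat_lit 2, nat_lit 18405671040), (nat_lit 65, nat_lit 18388893825),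
  (nat_lit 118, nat_lit 19462635648)]⟩], [
  W6_14110695552, W6_14093922432, W6_14077149312, W6_13053730944, W6_13036957824, W6_13020184704,
  W6_11979993216, W6_11963220096]⟩

theorem F6_14144258178_chk : fwdChk 6 ks6 F6_14144258178 = true := by decide +kernel

noncomputable def F6_14144254146 : Fwd := ⟨V6_14144254146, [
  ⟨V5_11963216064, nat_lit 1, [(nat_lit 52, nat_lit 14144254146),
  (nat_lit 62, nat_lit 15217995969), (nat_lit 97, nat_lit 15201218754),
  (nat_lit 123, nat_lit 16291737792), (nat_lit 57, nat_lit 16274960577),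
  (nat_lit 7, nat_lit 16258183362), (nat_lit 87, nat_lit 17348702400),
  (nat_lit 20, nat_lit 17331925185), (nat_lit 21, nat_lit 18405667008)]⟩], [
  W6_14110437504, W6_14093922432, W6_13036957824, W6_11979993216, W6_11963216064]⟩

theorem F6_14144254146_chk : fwdChk 6 ks6 F6_14144254146 = true := by decide +kernel

noncomputable def F6_14129041473 : Fwd := ⟨V6_14129041473, [
  ⟨V5_11980771392, nat_lit 2, [(nat_lit 51, nat_lit 14129041473),
  (nat_lit 111, nat_lit 15202783296), (nat_lit 60, nat_lit 15202521153),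
  (nat_lit 107, nat_lit 16276262976), (nat_lit 83, nat_lit 16276000833),
  (nat_lit 67, nat_lit 17349742656), (nat_lit 63, nat_lit 17349480513),
  (nat_lit 28, nat_lit 18423222336)]⟩], [
  W6_14127730752, W6_13054251072, W6_11980771392]⟩

theorem F6_14129041473_chk : fwdChk 6 ks6 F6_14129041473 = true := by decide +kernel

noncomputable def F6_14128787520 : Fwd := ⟨V6_14128787520, [
  ⟨V5_10907295744, nat_lit 3, [(nat_lit 12, nat_lit 14128787520),
  (nat_lit 120, nat_lit 15202529280), (nat_lit 55, nat_lit 15202525248),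
  (nat_lit 49, nat_lit 15202267200), (nat_lit 79, nat_lit 16276267008),
  (nat_lit 28, nat_lit 16276008960), (nat_lit 65, nat_lit 16276004928),
  (nat_lit 69, nat_lit 17349746688)]⟩,
  ⟨V5_14127476736, nat_lit 8, [(nat_lit 80, nat_lit 14128787520),
  (nat_lit 52, nat_lit 15202529280), (nat_lit 22, nat_lit 15202267200),
  (nat_lit 85, nat_lit 16276008960), (nat_lit 56, nat_lit 16275746880),
  (nat_lit 43, nat_lit 17349488640), (nat_lit 71, nat_lit 17349226560),
  (nat_lit 43, nat_lit 18422968320), (nat_lit 105, nat_lit 18422706240),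
  (nat_lit 6, nat_lit 19496448000), (nat_lit 47, nat_lit 19496185920),
  (nat_lit 1, nat_lit 20569927680)]⟩,
  ⟨V5_10907553792, nat_lit 1, [(nat_lit 91, nat_lit 14128787520),
  (nat_lit 54, nat_lit 15202529280), (nat_lit 123, nat_lit 15202525248),
  (nat_lit 102, nat_lit 16276267008), (nat_lit 53, nat_lit 16276262976),
  (nat_lit 103, nat_lit 17350004736)]⟩,
  ⟨V5_11980517376, nat_lit 6, [(nat_lit 87, nat_lit 14128787520),
  (nat_lit 38, nat_lit 15202529280), (nat_lit 21, nat_lit 15202267200),
  (nat_lit 103, nat_lit 16276008960), (nat_lit 123, nat_lit 16275746880),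
  (nat_lit 1, nat_lit 17349488640), (nat_lit 1, nat_lit 17349226560),
  (nat_lit 32, nat_lit 18422968320)]⟩,
  ⟨V5_13054255104, nat_lit 13, [(nat_lit 89, nat_lit 14128787520),
  (nat_lit 53, nat_lit 15202529280), (nat_lit 30, nat_lit 15202525248),
  (nat_lit 92, nat_lit 15202267200), (nat_lit 44, nat_lit 16276267008),
  (nat_lit 83, nat_lit 16276008960), (nat_lit 108, nat_lit 16276004928),
  (nat_lit 94, nat_lit 16275746880), (nat_lit 33, nat_lit 17349746688),
  (nat_lit 83, nat_lit 17349488640), (nat_lit 19, nat_lit 17349484608),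
  (nat_lit 56, nat_lit 17349226560), (nat_lit 92, nat_lit 18423226368),
  (nat_lit 10, nat_lit 18422968320), (nat_lit 87, nat_lit 18422964288),
  (nat_lit 60, nat_lit 19496706048)]⟩,
  ⟨V5_10907037696, nat_lit 2, [(nat_lit 23, nat_lit 14128787520),
  (nat_lit 95, nat_lit 15202529280), (nat_lit 40, nat_lit 15202267200),
  (nat_lit 97, nat_lit 16276008960), (nat_lit 3, nat_lit 16275746880),
  (nat_lit 64, nat_lit 17349488640)]⟩,
  ⟨V5_11981033472, nat_lit 3, [(nat_lit 55, nat_lit 14128787520),
  (nat_lit 91, nat_lit 15202529280), (nat_lit 36, nat_lit 15202525248),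
  (nat_lit 67, nat_lit 15202267200), (nat_lit 52, nat_lit 16276267008),
  (nat_lit 70, nat_lit 16276262976), (nat_lit 89, nat_lit 16276008960),
  (nat_lit 110, nat_lit 16276004928), (nat_lit 116, nat_lit 17350004736),
  (nat_lit 126, nat_lit 17349746688), (nat_lit 26, nat_lit 17349742656),
  (nat_lit 12, nat_lit 18423484416)]⟩,
  ⟨V5_10890522624, nat_lit 2, [(nat_lit 60, nat_lit 14128787520),
  (nat_lit 63, nat_lit 15202529280), (nat_lit 4, nat_lit 15202267200),
  (nat_lit 44, nat_lit 15185752128), (nat_lit 112, nat_lit 16276008960),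
  (nat_lit 111, nat_lit 16259493888), (nat_lit 66, nat_lit 16259231808),
  (nat_lit 122, nat_lit 17332973568)]⟩], [
  W6_14127992832, W6_14127734784, W6_14127730752, W6_14127476736, W6_14127472704, W6_14127214656,
  W6_14111477760, W6_14111219712, W6_14111215680, W6_14110961664, W6_14110957632, W6_14110699584,
  W6_13054513152, W6_13054255104, W6_13054251072, W6_13053997056, W6_13053993024, W6_13053734976,
  W6_13037998080, W6_13037740032, W6_13037736000, W6_13037481984, W6_13037477952, W6_13037219904,
  W6_11981033472, W6_11980775424, W6_11980771392, W6_11980517376, W6_11980513344, W6_11980255296,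
  W6_11964518400, W6_11964260352, W6_11964256320, W6_11964002304, W6_11963998272, W6_11963740224,
  W6_10907553792, W6_10907295744, W6_10907037696, W6_10907033664, W6_10906775616, W6_10890522624,
  W6_10890518592, W6_10890260544]⟩

theorem F6_14128787520_chk : fwdChk 6 ks6 F6_14128787520 = true := by decide +kernel

noncomputable def F6_14128013376 : Fwd := ⟨V6_14128013376, [
  ⟨V5_14127992832, nat_lit 12, [(nat_lit 81, nat_lit 14128013376),
  (nat_lit 62, nat_lit 15201755136), (nat_lit 90, nat_lit 15201751104),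
  (nat_lit 89, nat_lit 16275492864), (nat_lit 56, nat_lit 16275488832),
  (nat_lit 13, nat_lit 17349230592), (nat_lit 121, nat_lit 17349226560),
  (nat_lit 111, nat_lit 18422968320), (nat_lit 40, nat_lit 18422964288),
  (nat_lit 120, nat_lit 19496706048), (nat_lit 65, nat_lit 19496702016),
  (nat_lit 6, nat_lit 20570443776)]⟩,
  ⟨V5_13054255104, nat_lit 13, [(nat_lit 105, nat_lit 14128013376),
  (nat_lit 126, nat_lit 15201755136), (nat_lit 84, nat_lit 15201751104),
  (nat_lit 124, nat_lit 16275492864), (nat_lit 1, nat_lit 16275488832),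
  (nat_lit 92, nat_lit 17349230592), (nat_lit 40, nat_lit 17349226560),
  (nat_lit 73, nat_lit 18422968320), (nat_lit 43, nat_lit 18422964288),
  (nat_lit 99, nat_lit 19496706048)]⟩,
  ⟨V5_12987162624, nat_lit 3, [(nat_lit 17, nat_lit 14128013376),
  (nat_lit 117, nat_lit 15201755136), (nat_lit 32, nat_lit 15184977984),
  (nat_lit 107, nat_lit 16258719744), (nat_lit 69, nat_lit 16241942592),
  (nat_lit 22, nat_lit 17315684352), (nat_lit 109, nat_lit 17298907200),
  (nat_lit 112, nat_lit 18372648960), (nat_lit 99, nat_lit 18355871808),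
  (nat_lit 24, nat_lit 19429613568)]⟩,
  ⟨V5_10906779648, nat_lit 4, [(nat_lit 25, nat_lit 14128013376),
  (nat_lit 52, nat_lit 15201755136), (nat_lit 36, nat_lit 15201751104),
  (nat_lit 103, nat_lit 16275492864), (nat_lit 11, nat_lit 16275488832),
  (nat_lit 10, nat_lit 17349230592)]⟩,
  ⟨V5_11913420864, nat_lit 2, [(nat_lit 45, nat_lit 14128013376),
  (nat_lit 55, nat_lit 15184977984), (nat_lit 54, nat_lit 16241942592),
  (nat_lit 52, nat_lit 17298907200), (nat_lit 103, nat_lit 18355871808)]⟩,
  ⟨V5_10873233408, nat_lit 3, [(nat_lit 55, nat_lit 14128013376),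
  (nat_lit 16, nat_lit 15201755136), (nat_lit 82, nat_lit 15184977984),
  (nat_lit 90, nat_lit 16258719744), (nat_lit 89, nat_lit 16241942592),
  (nat_lit 47, nat_lit 17315684352)]⟩], [
  W6_14127992832, W6_14111219712, W6_14111215680, W6_14094446592, W6_14094442560, W6_14077673472,
  W6_14077669440, W6_14060900352, W6_14060896320, W6_13054255104, W6_13054251072, W6_13037481984,
  W6_13037477952, W6_13020708864, W6_13020704832, W6_13003935744, W6_13003931712, W6_12987162624,
  W6_12987158592, W6_11980517376, W6_11980513344, W6_11963744256, W6_11963740224, W6_11946971136,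
  W6_11946967104, W6_11930198016, W6_11930193984, W6_11913420864, W6_10906779648, W6_10906775616,
  W6_10890006528, W6_10890002496, W6_10873233408, W6_10873229376, W6_10856456256]⟩

theorem F6_14128013376_chk : fwdChk 6 ks6 F6_14128013376 = true := by decide +kernel

noncomputable def F6_14127481089 : Fwd := ⟨V6_14127481089, [
  ⟨V5_10906255488, nat_lit 2, [(nat_lit 60, nat_lit 14127481089),
  (nat_lit 19, nat_lit 15201222912), (nat_lit 38, nat_lit 15201222849),
  (nat_lit 115, nat_lit 16274964672), (nat_lit 4, nat_lit 16274964609),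
  (nat_lit 32, nat_lit 17348706432)]⟩,
  ⟨V5_11979997248, nat_lit 2, [(nat_lit 78, nat_lit 14127481089),
  (nat_lit 79, nat_lit 15201222912), (nat_lit 65, nat_lit 15201222849),
  (nat_lit 42, nat_lit 16274964672), (nat_lit 100, nat_lit 16274964609),
  (nat_lit 102, nat_lit 17348706432), (nat_lit 7, nat_lit 17348706369),
  (nat_lit 40, nat_lit 18422448192)]⟩,
  ⟨V5_10872701184, nat_lit 1, [(nat_lit 34, nat_lit 14127481089),
  (nat_lit 84, nat_lit 15201222912), (nat_lit 85, nat_lit 15184445697),
  (nat_lit 116, nat_lit 16258187520), (nat_lit 124, nat_lit 16241410305),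
  (nat_lit 2, nat_lit 17315152128)]⟩], [
  W6_14093926464, W6_14077149312, W6_14060372160, W6_13036961856, W6_13020184704, W6_13003407552,
  W6_12986630400, W6_11979997248, W6_11963220096, W6_11946442944, W6_10906255488, W6_10872701184]⟩

theorem F6_14127481089_chk : fwdChk 6 ks6 F6_14127481089 = true := by decide +kernel

noncomputable def F6_14127481026 : Fwd := ⟨V6_14127481026, [
  ⟨V5_10906255488, nat_lit 2, [(nat_lit 67, nat_lit 14127481026),
  (nat_lit 16, nat_lit 15201222849), (nat_lit 88, nat_lit 15201222786),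
  (nat_lit 57, nat_lit 16274964672), (nat_lit 107, nat_lit 16274964609),
  (nat_lit 27, nat_lit 17348706432)]⟩,
  ⟨V5_11963216064, nat_lit 1, [(nat_lit 40, nat_lit 14127481026),
  (nat_lit 7, nat_lit 15201222849), (nat_lit 28, nat_lit 15201218754),
  (nat_lit 106, nat_lit 15184445634), (nat_lit 76, nat_lit 16274964672),
  (nat_lit 12, nat_lit 16274960577), (nat_lit 59, nat_lit 16258187457),
  (nat_lit 2, nat_lit 16258183362), (nat_lit 45, nat_lit 17348702400),
  (nat_lit 15, nat_lit 17331929280), (nat_lit 44, nat_lit 17331925185),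
  (nat_lit 73, nat_lit 18405667008)]⟩], [
  W6_14093922432, W6_14077149312, W6_14060372160, W6_13036957824, W6_13020184704, W6_13003407552,
  W6_11979993216, W6_11963220096, W6_11963216064, W6_11946442944, W6_10906255488]⟩

theorem F6_14127481026_chk : fwdChk 6 ks6 F6_14127481026 = true := by decide +kernel

noncomputable def F6_14112018432 : Fwd := ⟨V6_14112018432, [
  ⟨V5_14111735808, nat_lit 3, [(nat_lit 89, nat_lit 14112018432),
  (nat_lit 97, nat_lit 15185756160), (nat_lit 47, nat_lit 15185498112),
  (nat_lit 95, nat_lit 16259493888), (nat_lit 108, nat_lit 16259235840),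
  (nat_lit 111, nat_lit 17333231616), (nat_lit 51, nat_lit 17332973568),
  (nat_lit 15, nat_lit 18406969344), (nat_lit 30, nat_lit 18406711296),
  (nat_lit 61, nat_lit 19480707072), (nat_lit 44, nat_lit 19480449024),
  (nat_lit 91, nat_lit 20554186752)]⟩,
  ⟨V5_9816526848, nat_lit 1, [(nat_lit 73, nat_lit 14112018432),
  (nat_lit 49, nat_lit 15185498112), (nat_lit 94, nat_lit 16258977792)]⟩,
  ⟨V5_14111477760, nat_lit 6, [(nat_lit 65, nat_lit 14112018432),
  (nat_lit 111, nat_lit 15185756160), (nat_lit 126, nat_lit 15185498112),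
  (nat_lit 5, nat_lit 16259493888), (nat_lit 124, nat_lit 16259235840),
  (nat_lit 112, nat_lit 16258977792), (nat_lit 79, nat_lit 17333231616),
  (nat_lit 69, nat_lit 17332973568), (nat_lit 79, nat_lit 17332715520),
  (nat_lit 110, nat_lit 18406969344), (nat_lit 35, nat_lit 18406711296),
  (nat_lit 7, nat_lit 18406453248), (nat_lit 22, nat_lit 19480449024),
  (nat_lit 92, nat_lit 19480190976), (nat_lit 4, nat_lit 20553928704)]⟩,
  ⟨V5_11963486208, nat_lit 2, [(nat_lit 93, nat_lit 14112018432),
  (nat_lit 114, nat_lit 15185498112), (nat_lit 36, nat_lit 16258977792),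
  (nat_lit 111, nat_lit 17332457472), (nat_lit 79, nat_lit 18405937152)]⟩,
  ⟨V5_11964518400, nat_lit 1, [(nat_lit 113, nat_lit 14112018432),
  (nat_lit 42, nat_lit 15185756160), (nat_lit 59, nat_lit 16259493888),
  (nat_lit 84, nat_lit 17333231616), (nat_lit 34, nat_lit 18406969344)]⟩], [
  W6_14111735808, W6_14111477760, W6_14111219712, W6_14110961664, W6_13037998080, W6_13037740032,
  W6_13037481984, W6_13037223936, W6_11964518400, W6_11964260352, W6_11964002304, W6_11963744256,
  W6_11963486208, W6_10890522624, W6_10890264576, W6_10890006528, W6_9816526848]⟩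

theorem F6_14112018432_chk : fwdChk 6 ks6 F6_14112018432 = true := by decide +kernel

noncomputable def F6_14112006273 : Fwd := ⟨V6_14112006273, [
  ⟨V5_11963998272, nat_lit 3, [(nat_lit 62, nat_lit 14112006273),
  (nat_lit 77, nat_lit 15185748096), (nat_lit 55, nat_lit 15185748033),
  (nat_lit 73, nat_lit 15185485953), (nat_lit 102, nat_lit 16259489856),
  (nat_lit 90, nat_lit 16259227776), (nat_lit 68, nat_lit 16259227713),
  (nat_lit 6, nat_lit 16258965633), (nat_lit 117, nat_lit 17332969536),
  (nat_lit 72, nat_lit 17332707456), (nat_lit 64, nat_lit 17332707393),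
  (nat_lit 8, nat_lit 18406449216)]⟩], [
  W6_14110957632, W6_14110695552, W6_13037477952, W6_13037215872, W6_11963998272, W6_11963736192,
  W6_10890518592]⟩

theorem F6_14112006273_chk : fwdChk 6 ks6 F6_14112006273 = true := by decide +kernel

noncomputable def F6_14111744130 : Fwd := ⟨V6_14111744130, [
  ⟨V5_10873741440, nat_lit 2, [(nat_lit 71, nat_lit 14111744130),
  (nat_lit 31, nat_lit 15185485953), (nat_lit 49, nat_lit 15168708738),
  (nat_lit 6, nat_lit 16259227776), (nat_lit 72, nat_lit 16242450561),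
  (nat_lit 23, nat_lit 17316192384)]⟩], [
  W6_14110695552, W6_14094180480, W6_13037215872, W6_13020700800, W6_11963736192, W6_11947221120,
  W6_10873741440]⟩

theorem F6_14111744130_chk : fwdChk 6 ks6 F6_14111744130 = true := by decide +kernel

noncomputable def F6_14111502336 : Fwd := ⟨V6_14111502336, [
  ⟨V5_14111477760, nat_lit 6, [(nat_lit 47, nat_lit 14111502336),
  (nat_lit 51, nat_lit 15185240064), (nat_lit 115, nat_lit 16258977792),
  (nat_lit 57, nat_lit 17332715520), (nat_lit 68, nat_lit 18406453248),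
  (nat_lit 109, nat_lit 19480190976), (nat_lit 79, nat_lit 20553928704)]⟩,
  ⟨V5_9816526848, nat_lit 1, [(nat_lit 81, nat_lit 14111502336),
  (nat_lit 46, nat_lit 15185240064), (nat_lit 126, nat_lit 16258977792)]⟩,
  ⟨V5_11930456064, nat_lit 1, [(nat_lit 87, nat_lit 14111502336),
  (nat_lit 28, nat_lit 15185240064), (nat_lit 60, nat_lit 15168466944),
  (nat_lit 47, nat_lit 16258977792), (nat_lit 6, nat_lit 16242204672),
  (nat_lit 44, nat_lit 16225431552), (nat_lit 91, nat_lit 17315942400),
  (nat_lit 24, nat_lit 17299169280), (nat_lit 75, nat_lit 18372907008)]⟩], [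
  W6_14111477760, W6_14094704640, W6_14077931520, W6_13037740032, W6_13020966912, W6_13004193792,
  W6_11964002304, W6_11947229184, W6_11930456064, W6_10890264576, W6_10873491456, W6_9816526848]⟩

theorem F6_14111502336_chk : fwdChk 6 ks6 F6_14111502336 = true := by decide +kernel

noncomputable def F6_14094987264 : Fwd := ⟨V6_14094987264, [
  ⟨V5_8726274048, nat_lit 1, [(nat_lit 29, nat_lit 14094987264),
  (nat_lit 90, nat_lit 15168724992)]⟩,
  ⟨V5_14094962688, nat_lit 4, [(nat_lit 77, nat_lit 14094987264),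
  (nat_lit 16, nat_lit 15168724992), (nat_lit 56, nat_lit 16242462720),
  (nat_lit 115, nat_lit 17316200448), (nat_lit 106, nat_lit 18389938176),
  (nat_lit 84, nat_lit 19463675904), (nat_lit 97, nat_lit 20537413632)]⟩,
  ⟨V5_10873749504, nat_lit 2, [(nat_lit 43, nat_lit 14094987264),
  (nat_lit 75, nat_lit 15168724992), (nat_lit 10, nat_lit 16242462720),
  (nat_lit 26, nat_lit 17316200448)]⟩], [
  W6_14094962688, W6_14094704640, W6_13021224960, W6_13020966912, W6_11947487232, W6_11947229184,
  W6_10873749504, W6_10873491456, W6_9800011776, W6_8726274048]⟩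

theorem F6_14094987264_chk : fwdChk 6 ks6 F6_14094987264 = true := by decide +kernel

noncomputable def F6_14094979137 : Fwd := ⟨V6_14094979137, [
  ⟨V5_9800007744, nat_lit 1, [(nat_lit 122, nat_lit 14094979137),
  (nat_lit 23, nat_lit 15168720960), (nat_lit 111, nat_lit 15168716865),
  (nat_lit 22, nat_lit 16242458688)]⟩,
  ⟨V5_11947483200, nat_lit 2, [(nat_lit 114, nat_lit 14094979137),
  (nat_lit 16, nat_lit 15168720960), (nat_lit 50, nat_lit 15168716865),
  (nat_lit 33, nat_lit 16242458688), (nat_lit 32, nat_lit 16242454593),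
  (nat_lit 22, nat_lit 17316196416), (nat_lit 50, nat_lit 17316192321),
  (nat_lit 79, nat_lit 18389934144)]⟩,
  ⟨V5_9799749696, nat_lit 1, [(nat_lit 14, nat_lit 14094979137),
  (nat_lit 29, nat_lit 15168720960), (nat_lit 99, nat_lit 15168458817),
  (nat_lit 62, nat_lit 16242200640)]⟩,
  ⟨V5_10873229376, nat_lit 2, [(nat_lit 73, nat_lit 14094979137),
  (nat_lit 59, nat_lit 15168720960), (nat_lit 34, nat_lit 15168458817),
  (nat_lit 5, nat_lit 16242200640), (nat_lit 24, nat_lit 16241938497),
  (nat_lit 54, nat_lit 17315680320)]⟩,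
  ⟨V5_10873745472, nat_lit 1, [(nat_lit 96, nat_lit 14094979137),
  (nat_lit 49, nat_lit 15168720960), (nat_lit 20, nat_lit 15168716865),
  (nat_lit 74, nat_lit 16242458688), (nat_lit 21, nat_lit 16242454593),
  (nat_lit 73, nat_lit 17316196416)]⟩,
  ⟨V5_11946709056, nat_lit 1, [(nat_lit 33, nat_lit 14094979137),
  (nat_lit 76, nat_lit 15168720960), (nat_lit 51, nat_lit 15168458817),
  (nat_lit 11, nat_lit 16242200640), (nat_lit 61, nat_lit 16241938497),
  (nat_lit 87, nat_lit 17315680320), (nat_lit 84, nat_lit 17315418177),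
  (nat_lit 53, nat_lit 18389160000)]⟩], [
  W6_14094700608, W6_14094442560, W6_14094184512, W6_13020962880, W6_13020704832, W6_13020446784,
  W6_11947483200, W6_11947225152, W6_11946967104, W6_11946709056, W6_10873745472, W6_10873487424,
  W6_10873229376, W6_9800007744, W6_9799749696]⟩

theorem F6_14094979137_chk : fwdChk 6 ks6 F6_14094979137 = true := by decide +kernel

noncomputable def F6_14094975168 : Fwd := ⟨V6_14094975168, [
  ⟨V5_8726265984, nat_lit 1, [(nat_lit 57, nat_lit 14094975168),
  (nat_lit 42, nat_lit 15168716928)]⟩,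
  ⟨V5_10873749504, nat_lit 3, [(nat_lit 29, nat_lit 14094975168),
  (nat_lit 114, nat_lit 15168716928), (nat_lit 105, nat_lit 16242458688),
  (nat_lit 33, nat_lit 17316200448)]⟩,
  ⟨V5_13020708864, nat_lit 10, [(nat_lit 113, nat_lit 14094975168),
  (nat_lit 26, nat_lit 15168716928), (nat_lit 30, nat_lit 15168454848),
  (nat_lit 102, nat_lit 16242458688), (nat_lit 86, nat_lit 16242196608),
  (nat_lit 46, nat_lit 16241934528), (nat_lit 19, nat_lit 17316200448),
  (nat_lit 112, nat_lit 17315938368), (nat_lit 50, nat_lit 17315676288),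
  (nat_lit 116, nat_lit 18389680128), (nat_lit 33, nat_lit 18389418048),
  (nat_lit 52, nat_lit 19463159808)]⟩,
  ⟨V5_9800007744, nat_lit 1, [(nat_lit 95, nat_lit 14094975168),
  (nat_lit 85, nat_lit 15168716928), (nat_lit 70, nat_lit 16242458688)]⟩,
  ⟨V5_9799483584, nat_lit 1, [(nat_lit 101, nat_lit 14094975168),
  (nat_lit 83, nat_lit 15168454848), (nat_lit 38, nat_lit 16241934528)]⟩], [
  W6_14094446592, W6_14094188544, W6_14094184512, W6_14093926464, W6_14093922432, W6_13020966912,
  W6_13020708864, W6_13020704832, W6_13020446784, W6_13020442752, W6_13020184704, W6_11947487232,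
  W6_11947229184, W6_11947225152, W6_11946967104, W6_11946963072, W6_11946705024, W6_11946442944,
  W6_10873749504, W6_10873745472, W6_10873487424, W6_10873483392, W6_10873225344, W6_10872963264,
  W6_9800007744, W6_9799745664, W6_9799483584, W6_8726265984]⟩

theorem F6_14094975168_chk : fwdChk 6 ks6 F6_14094975168 = true := by decide +kernel

noncomputable def F6_14094725184 : Fwd := ⟨V6_14094725184, [
  ⟨V5_14094700608, nat_lit 3, [(nat_lit 124, nat_lit 14094725184),
  (nat_lit 67, nat_lit 15168462912), (nat_lit 44, nat_lit 16242200640),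
  (nat_lit 45, nat_lit 17315938368), (nat_lit 47, nat_lit 18389676096),
  (nat_lit 66, nat_lit 19463413824), (nat_lit 49, nat_lit 20537151552)]⟩,
  ⟨V5_9799749696, nat_lit 1, [(nat_lit 86, nat_lit 14094725184),
  (nat_lit 41, nat_lit 15168462912), (nat_lit 35, nat_lit 16242200640)]⟩,
  ⟨V5_10873487424, nat_lit 2, [(nat_lit 103, nat_lit 14094725184),
  (nat_lit 94, nat_lit 15168462912), (nat_lit 21, nat_lit 16242200640),
  (nat_lit 80, nat_lit 17315938368)]⟩], [
  W6_14094704640, W6_14094700608, W6_14077931520, W6_14077927488, W6_13020966912, W6_13020962880,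
  W6_13004193792, W6_13004189760, W6_11947229184, W6_11947225152, W6_11930456064, W6_11930452032,
  W6_10873491456, W6_10873487424, W6_9799749696]⟩

theorem F6_14094725184_chk : fwdChk 6 ks6 F6_14094725184 = true := by decide +kernel

noncomputable def F6_14094192897 : Fwd := ⟨V6_14094192897, [
  ⟨V5_11946709056, nat_lit 1, [(nat_lit 105, nat_lit 14094192897),
  (nat_lit 121, nat_lit 15167934720), (nat_lit 24, nat_lit 15167934657),
  (nat_lit 37, nat_lit 16241676480), (nat_lit 76, nat_lit 16241676417),
  (nat_lit 108, nat_lit 17315418240), (nat_lit 112, nat_lit 17315418177),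
  (nat_lit 5, nat_lit 18389160000)]⟩,
  ⟨V5_10872963264, nat_lit 1, [(nat_lit 106, nat_lit 14094192897),
  (nat_lit 79, nat_lit 15167934720), (nat_lit 57, nat_lit 15167934657),
  (nat_lit 88, nat_lit 15167930625), (nat_lit 41, nat_lit 16241676480),
  (nat_lit 83, nat_lit 16241672448), (nat_lit 123, nat_lit 16241672385),
  (nat_lit 36, nat_lit 17315414208)]⟩], [
  W6_14077411392, W6_14060634240, W6_13020446784, W6_13003673664, W6_13003669632, W6_11946709056,
  W6_11946705024, W6_11929927872, W6_10872963264]⟩

theorem F6_14094192897_chk : fwdChk 6 ks6 F6_14094192897 = true := by decide +kernel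

noncomputable def F6_14094192834 : Fwd := ⟨V6_14094192834, [
  ⟨V5_10872963264, nat_lit 1, [(nat_lit 117, nat_lit 14094192834),
  (nat_lit 72, nat_lit 15167934657), (nat_lit 94, nat_lit 15167930562),
  (nat_lit 19, nat_lit 16241676480), (nat_lit 57, nat_lit 16241672385),
  (nat_lit 108, nat_lit 17315414208)]⟩], [
  W6_14077407360, W6_14060634240, W6_13020442752, W6_13003669632, W6_13003665600, W6_11946705024,
  W6_11929927872, W6_10872963264]⟩

theorem F6_14094192834_chk : fwdChk 6 ks6 F6_14094192834 = true := by decide +kernel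

noncomputable def F6_14077948032 : Fwd := ⟨V6_14077948032, [
  ⟨V5_11930456064, nat_lit 1, [(nat_lit 39, nat_lit 14077948032),
  (nat_lit 53, nat_lit 15151689792), (nat_lit 105, nat_lit 15151685760),
  (nat_lit 89, nat_lit 16225431552), (nat_lit 10, nat_lit 16225427520),
  (nat_lit 62, nat_lit 16225423488), (nat_lit 44, nat_lit 17299169280),
  (nat_lit 114, nat_lit 17299165248), (nat_lit 103, nat_lit 18372907008)]⟩], [
  W6_14077931520, W6_14077927488, W6_13004193792, W6_13004189760, W6_11930456064, W6_11930452032]⟩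

theorem F6_14077948032_chk : fwdChk 6 ks6 F6_14077948032 = true := by decide +kernel

noncomputable def F6_14077944000 : Fwd := ⟨V6_14077944000, [
  ⟨V5_10856706240, nat_lit 1, [(nat_lit 68, nat_lit 14077944000),
  (nat_lit 78, nat_lit 15151681728), (nat_lit 75, nat_lit 16225419456),
  (nat_lit 12, nat_lit 17299157184)]⟩,
  ⟨V5_14077931520, nat_lit 3, [(nat_lit 64, nat_lit 14077944000),
  (nat_lit 6, nat_lit 15151685760), (nat_lit 64, nat_lit 15151681728),
  (nat_lit 93, nat_lit 16225427520), (nat_lit 108, nat_lit 16225423488),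
  (nat_lit 52, nat_lit 16225419456), (nat_lit 90, nat_lit 17299169280),
  (nat_lit 61, nat_lit 17299165248), (nat_lit 63, nat_lit 17299161216),
  (nat_lit 87, nat_lit 17299157184), (nat_lit 121, nat_lit 18372907008),
  (nat_lit 69, nat_lit 18372902976), (nat_lit 121, nat_lit 18372898944),
  (nat_lit 109, nat_lit 19446644736), (nat_lit 106, nat_lit 19446640704),
  (nat_lit 71, nat_lit 20520382464)]⟩,
  ⟨V5_9782710464, nat_lit 1, [(nat_lit 119, nat_lit 14077944000),
  (nat_lit 83, nat_lit 15151681728), (nat_lit 90, nat_lit 15151423680),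
  (nat_lit 25, nat_lit 16225161408)]⟩,
  ⟨V5_11930198016, nat_lit 1, [(nat_lit 30, nat_lit 14077944000),
  (nat_lit 67, nat_lit 15151685760), (nat_lit 97, nat_lit 15151423680),
  (nat_lit 69, nat_lit 16225427520), (nat_lit 98, nat_lit 16225165440),
  (nat_lit 60, nat_lit 17299169280), (nat_lit 99, nat_lit 17298907200),
  (nat_lit 63, nat_lit 18372648960)]⟩], [
  W6_14077931520, W6_14077673472, W6_14077669440, W6_13004193792, W6_13004189760, W6_13003935744,
  W6_13003931712, W6_13003927680, W6_11930456064, W6_11930452032, W6_11930198016, W6_11930193984,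
  W6_11930189952, W6_11930185920, W6_10856706240, W6_10856456256, W6_10856452224, W6_10856448192,
  W6_9782710464]⟩

theorem F6_14077944000_chk : fwdChk 6 ks6 F6_14077944000 = true := by decide +kernel

noncomputable def F6_14077939968 : Fwd := ⟨V6_14077939968, [
  ⟨V5_13003935744, nat_lit 3, [(nat_lit 1, nat_lit 14077939968),
  (nat_lit 117, nat_lit 15151681728), (nat_lit 24, nat_lit 15151419648),
  (nat_lit 32, nat_lit 16225423488), (nat_lit 4, nat_lit 16225161408),
  (nat_lit 111, nat_lit 17299165248), (nat_lit 79, nat_lit 17298903168),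
  (nat_lit 89, nat_lit 18372907008), (nat_lit 88, nat_lit 18372644928),
  (nat_lit 45, nat_lit 19446386688)]⟩,
  ⟨V5_11930456064, nat_lit 1, [(nat_lit 122, nat_lit 14077939968),
  (nat_lit 52, nat_lit 15151681728), (nat_lit 90, nat_lit 16225423488),
  (nat_lit 110, nat_lit 17299165248), (nat_lit 67, nat_lit 18372907008)]⟩], [
  W6_14077673472, W6_14077415424, W6_14077411392, W6_13004193792, W6_13003935744, W6_13003931712,
  W6_13003673664, W6_13003669632, W6_11930456064, W6_11930452032, W6_11930193984, W6_11930189952,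
  W6_11929927872, W6_10856452224, W6_10856448192, W6_9782710464]⟩

theorem F6_14077939968_chk : fwdChk 6 ks6 F6_14077939968 = true := by decide +kernel

noncomputable def F6_14077939905 : Fwd := ⟨V6_14077939905, [
  ⟨V5_10856706240, nat_lit 1, [(nat_lit 2, nat_lit 14077939905),
  (nat_lit 46, nat_lit 15151681728), (nat_lit 11, nat_lit 15151677633),
  (nat_lit 28, nat_lit 16225419456), (nat_lit 56, nat_lit 16225415361),
  (nat_lit 110, nat_lit 17299157184)]⟩,
  ⟨V5_9782710464, nat_lit 1, [(nat_lit 81, nat_lit 14077939905),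
  (nat_lit 75, nat_lit 15151681728), (nat_lit 87, nat_lit 15151419585),
  (nat_lit 26, nat_lit 16225161408)]⟩,
  ⟨V5_11930193984, nat_lit 2, [(nat_lit 67, nat_lit 14077939905),
  (nat_lit 123, nat_lit 15151681728), (nat_lit 22, nat_lit 15151681665),
  (nat_lit 111, nat_lit 15151419585), (nat_lit 8, nat_lit 16225423488),
  (nat_lit 35, nat_lit 16225423425), (nat_lit 4, nat_lit 16225161408),
  (nat_lit 22, nat_lit 16225161345), (nat_lit 67, nat_lit 17299165248),
  (nat_lit 97, nat_lit 17298903168), (nat_lit 86, nat_lit 17298903105),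
  (nat_lit 63, nat_lit 18372644928)]⟩,
  ⟨V5_10856452224, nat_lit 1, [(nat_lit 117, nat_lit 14077939905),
  (nat_lit 106, nat_lit 15151681728), (nat_lit 74, nat_lit 15151681665),
  (nat_lit 118, nat_lit 15151419585), (nat_lit 51, nat_lit 16225423488),
  (nat_lit 55, nat_lit 16225161408), (nat_lit 91, nat_lit 16225161345),
  (nat_lit 57, nat_lit 17298903168)]⟩], [
  W6_14077669440, W6_14077411392, W6_14077407360, W6_13004189760, W6_13003931712, W6_13003927680,
  W6_13003673664, W6_13003669632, W6_13003665600, W6_11930452032, W6_11930193984, W6_11930189952,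
  W6_11930185920, W6_11929927872, W6_10856706240, W6_10856452224, W6_10856448192, W6_9782710464]⟩

theorem F6_14077939905_chk : fwdChk 6 ks6 F6_14077939905 = true := by decide +kernel

noncomputable def F6_14077939842 : Fwd := ⟨V6_14077939842, [
  ⟨V5_10856452224, nat_lit 1, [(nat_lit 114, nat_lit 14077939842),
  (nat_lit 23, nat_lit 15151681665), (nat_lit 69, nat_lit 15151419522),
  (nat_lit 14, nat_lit 16225423488), (nat_lit 83, nat_lit 16225161345),
  (nat_lit 117, nat_lit 17298903168)]⟩], [
  W6_14077665408, W6_14077407360, W6_13003927680, W6_13003669632, W6_11930189952, W6_10856452224]⟩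

theorem F6_14077939842_chk : fwdChk 6 ks6 F6_14077939842 = true := by decide +kernel

noncomputable def F6_14077931715 : Fwd := ⟨V6_14077931715, [
  ⟨V5_10856706240, nat_lit 1, [(nat_lit 44, nat_lit 14077931715),
  (nat_lit 28, nat_lit 15151673538), (nat_lit 1, nat_lit 16225415361),
  (nat_lit 75, nat_lit 17299157184)]⟩], [
  W6_13003665600, W6_11930185920, W6_10856706240]⟩

theorem F6_14077931715_chk : fwdChk 6 ks6 F6_14077931715 = true := by decide +kernel

noncomputable def F6_14077681794 : Fwd := ⟨V6_14077681794, [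
  ⟨V5_10839679104, nat_lit 2, [(nat_lit 21, nat_lit 14077681794),
  (nat_lit 86, nat_lit 15151423617), (nat_lit 93, nat_lit 15134646402),
  (nat_lit 8, nat_lit 16225165440), (nat_lit 123, nat_lit 16208388225),
  (nat_lit 122, nat_lit 17282130048)]⟩,
  ⟨V5_10856452224, nat_lit 1, [(nat_lit 2, nat_lit 14077681794),
  (nat_lit 112, nat_lit 15151423617), (nat_lit 6, nat_lit 15151419522),
  (nat_lit 5, nat_lit 16225165440), (nat_lit 117, nat_lit 16225161345),
  (nat_lit 111, nat_lit 17298903168)]⟩], [
  W6_14077665408, W6_14060892288, W6_13003927680, W6_12987154560, W6_11930189952, W6_11913416832,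
  W6_10856452224, W6_10839679104]⟩

theorem F6_14077681794_chk : fwdChk 6 ks6 F6_14077681794 = true := by decide +kernel

noncomputable def F6_14077677888 : Fwd := ⟨V6_14077677888, [
  ⟨V5_9782710464, nat_lit 1, [(nat_lit 19, nat_lit 14077677888),
  (nat_lit 45, nat_lit 15151419648), (nat_lit 108, nat_lit 16225161408)]⟩,
  ⟨V5_14077415424, nat_lit 1, [(nat_lit 96, nat_lit 14077677888),
  (nat_lit 27, nat_lit 15151419648), (nat_lit 49, nat_lit 15151157568),
  (nat_lit 103, nat_lit 16225161408), (nat_lit 16, nat_lit 16224899328),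
  (nat_lit 23, nat_lit 17298903168), (nat_lit 125, nat_lit 17298641088),
  (nat_lit 120, nat_lit 18372644928), (nat_lit 58, nat_lit 18372382848),
  (nat_lit 34, nat_lit 19446386688), (nat_lit 47, nat_lit 19446124608),
  (nat_lit 58, nat_lit 20519866368)]⟩], [
  W6_14077415424, W6_14060900352, W6_13003935744, W6_13003673664, W6_12987158592, W6_11930193984,
  W6_11913416832, W6_10856452224, W6_9782710464]⟩

theorem F6_14077677888_chk : fwdChk 6 ks6 F6_14077677888 = true := by decide +kernel

noncomputable def F6_14060904768 : Fwd := ⟨V6_14060904768, [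
  ⟨V5_12987162624, nat_lit 3, [(nat_lit 87, nat_lit 14060904768),
  (nat_lit 52, nat_lit 15134646528), (nat_lit 56, nat_lit 16208388288),
  (nat_lit 70, nat_lit 17282130048), (nat_lit 17, nat_lit 18355871808),
  (nat_lit 124, nat_lit 19429613568)]⟩], [
  W6_14060900352, W6_12987162624, W6_12987158592, W6_11913420864, W6_11913416832, W6_10839679104,
  W6_9765937344, W6_8692195584]⟩

theorem F6_14060904768_chk : fwdChk 6 ks6 F6_14060904768 = true := by decide +kernel

noncomputable def F6_14060904642 : Fwd := ⟨V6_14060904642, [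
  ⟨V5_9765937344, nat_lit 1, [(nat_lit 21, nat_lit 14060904642),
  (nat_lit 60, nat_lit 15134646465), (nat_lit 63, nat_lit 16208388288)]⟩,
  ⟨V5_10839679104, nat_lit 2, [(nat_lit 43, nat_lit 14060904642),
  (nat_lit 124, nat_lit 15134646465), (nat_lit 47, nat_lit 15134646402),
  (nat_lit 29, nat_lit 16208388288), (nat_lit 99, nat_lit 16208388225),
  (nat_lit 114, nat_lit 17282130048)]⟩], [
  W6_14060892288, W6_12987154560, W6_11913416832, W6_11913412800, W6_10839679104, W6_9765937344]⟩

theorem F6_14060904642_chk : fwdChk 6 ks6 F6_14060904642 = true := by decide +kernel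

noncomputable def F6_14060900610 : Fwd := ⟨V6_14060900610, [
  ⟨V5_10839671040, nat_lit 1, [(nat_lit 11, nat_lit 14060900610),
  (nat_lit 124, nat_lit 15134642433), (nat_lit 49, nat_lit 15134638338),
  (nat_lit 68, nat_lit 16208384256), (nat_lit 77, nat_lit 16208380161),
  (nat_lit 59, nat_lit 17282121984)]⟩], [
  W6_14060634240, W6_12987154560, W6_11913416832, W6_11913412800, W6_10839671040]⟩

theorem F6_14060900610_chk : fwdChk 6 ks6 F6_14060900610 = true := by decide +kernel

noncomputable def F6_14060896515 : Fwd := ⟨V6_14060896515, [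
  ⟨V5_10839671040, nat_lit 1, [(nat_lit 85, nat_lit 14060896515),
  (nat_lit 31, nat_lit 15134638338), (nat_lit 51, nat_lit 16208380161),
  (nat_lit 15, nat_lit 17282121984)]⟩], [
  W6_14060372160, W6_12986630400, W6_11913412800, W6_10839671040]⟩

theorem F6_14060896515_chk : fwdChk 6 ks6 F6_14060896515 = true := by decide +kernel

noncomputable def F6_13089374208 : Fwd := ⟨V6_13089374208, [
  ⟨V5_13087801344, nat_lit 5, [(nat_lit 25, nat_lit 13089374208),
  (nat_lit 27, nat_lit 14162853888), (nat_lit 124, nat_lit 15236333568),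
  (nat_lit 54, nat_lit 16309813248), (nat_lit 125, nat_lit 17383292928),
  (nat_lit 66, nat_lit 18456772608), (nat_lit 38, nat_lit 19530252288)]⟩], [
  W6_13087801344]⟩

theorem F6_13089374208_chk : fwdChk 6 ks6 F6_13089374208 = true := by decide +kernel

noncomputable def F6_13089116160 : Fwd := ⟨V6_13089116160, [
  ⟨V5_13087543296, nat_lit 1, [(nat_lit 10, nat_lit 13089116160),
  (nat_lit 82, nat_lit 14162595840), (nat_lit 90, nat_lit 15236075520),
  (nat_lit 27, nat_lit 16309555200), (nat_lit 28, nat_lit 17383034880),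
  (nat_lit 41, nat_lit 18456514560), (nat_lit 88, nat_lit 19529994240)]⟩], [
  W6_13087801344, W6_13087543296, W6_13071286272, W6_13071028224]⟩

theorem F6_13089116160_chk : fwdChk 6 ks6 F6_13089116160 = true := by decide +kernel

noncomputable def F6_13088858112 : Fwd := ⟨V6_13088858112, [
  ⟨V5_13087285248, nat_lit 5, [(nat_lit 111, nat_lit 13088858112),
  (nat_lit 26, nat_lit 14162337792), (nat_lit 94, nat_lit 15235817472),
  (nat_lit 74, nat_lit 16309297152), (nat_lit 7, nat_lit 17382776832),
  (nat_lit 85, nat_lit 18456256512), (nat_lit 19, nat_lit 19529736192)]⟩,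
  ⟨V5_13087801344, nat_lit 5, [(nat_lit 17, nat_lit 13088858112),
  (nat_lit 51, nat_lit 14162595840), (nat_lit 21, nat_lit 14162337792),
  (nat_lit 67, nat_lit 15236333568), (nat_lit 113, nat_lit 15236075520),
  (nat_lit 118, nat_lit 15235817472), (nat_lit 113, nat_lit 16309813248),
  (nat_lit 121, nat_lit 16309555200), (nat_lit 74, nat_lit 16309297152),
  (nat_lit 86, nat_lit 17383292928), (nat_lit 68, nat_lit 17383034880),
  (nat_lit 116, nat_lit 17382776832), (nat_lit 1, nat_lit 18456772608),
  (nat_lit 5, nat_lit 18456514560), (nat_lit 37, nat_lit 19530252288)]⟩,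
  ⟨V5_13087543296, nat_lit 2, [(nat_lit 79, nat_lit 13088858112),
  (nat_lit 44, nat_lit 14162595840), (nat_lit 44, nat_lit 14162337792),
  (nat_lit 56, nat_lit 15236075520), (nat_lit 108, nat_lit 15235817472),
  (nat_lit 105, nat_lit 16309555200), (nat_lit 86, nat_lit 16309297152),
  (nat_lit 22, nat_lit 17383034880), (nat_lit 54, nat_lit 17382776832),
  (nat_lit 71, nat_lit 18456514560), (nat_lit 85, nat_lit 18456256512),
  (nat_lit 83, nat_lit 19529994240)]⟩], [
  W6_13087801344, W6_13087543296, W6_13087285248, W6_13071286272, W6_13071028224, W6_13070770176,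
  W6_13054771200, W6_13054513152, W6_13054255104]⟩

theorem F6_13088858112_chk : fwdChk 6 ks6 F6_13088858112 = true := by decide +kernel

noncomputable def F6_13088854080 : Fwd := ⟨V6_13088854080, [
  ⟨V5_13087543296, nat_lit 2, [(nat_lit 33, nat_lit 13088854080),
  (nat_lit 126, nat_lit 14162595840), (nat_lit 110, nat_lit 14162333760),
  (nat_lit 106, nat_lit 15236075520), (nat_lit 10, nat_lit 15235813440),
  (nat_lit 53, nat_lit 16309555200), (nat_lit 57, nat_lit 16309293120),
  (nat_lit 26, nat_lit 17383034880), (nat_lit 92, nat_lit 17382772800),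
  (nat_lit 114, nat_lit 18456514560), (nat_lit 120, nat_lit 18456252480),
  (nat_lit 109, nat_lit 19529994240)]⟩], [
  W6_13087543296, W6_13071028224, W6_13070766144, W6_13054513152, W6_13054251072]⟩

theorem F6_13088854080_chk : fwdChk 6 ks6 F6_13088854080 = true := by decide +kernel

noncomputable def F6_13088591937 : Fwd := ⟨V6_13088591937, [
  ⟨V5_13070766144, nat_lit 2, [(nat_lit 77, nat_lit 13088591937),
  (nat_lit 73, nat_lit 14162333760), (nat_lit 44, nat_lit 14162071617),
  (nat_lit 11, nat_lit 14145556545), (nat_lit 85, nat_lit 15235813440),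
  (nat_lit 9, nat_lit 15235551297), (nat_lit 76, nat_lit 15219298368),
  (nat_lit 95, nat_lit 15219036225), (nat_lit 48, nat_lit 16309293120),
  (nat_lit 41, nat_lit 16309030977), (nat_lit 48, nat_lit 16292778048),
  (nat_lit 74, nat_lit 16292515905), (nat_lit 69, nat_lit 17382772800),
  (nat_lit 91, nat_lit 17382510657), (nat_lit 88, nat_lit 17366257728),
  (nat_lit 100, nat_lit 17365995585), (nat_lit 42, nat_lit 18456252480),
  (nat_lit 14, nat_lit 18439737408), (nat_lit 121, nat_lit 18439475265),
  (nat_lit 11, nat_lit 19513217088)]⟩], [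
  W6_13070766144, W6_13054251072, W6_13037736000]⟩

theorem F6_13088591937_chk : fwdChk 6 ks6 F6_13088591937 = true := by decide +kernel

noncomputable def F6_13088342016 : Fwd := ⟨V6_13088342016, [
  ⟨V5_13087801344, nat_lit 5, [(nat_lit 90, nat_lit 13088342016),
  (nat_lit 56, nat_lit 14162079744), (nat_lit 67, nat_lit 14161821696),
  (nat_lit 46, nat_lit 15235817472), (nat_lit 74, nat_lit 15235559424),
  (nat_lit 116, nat_lit 15235301376), (nat_lit 41, nat_lit 16309555200),
  (nat_lit 76, nat_lit 16309297152), (nat_lit 41, nat_lit 16309039104),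
  (nat_lit 123, nat_lit 17383292928), (nat_lit 68, nat_lit 17383034880),
  (nat_lit 39, nat_lit 17382776832), (nat_lit 50, nat_lit 18456772608),
  (nat_lit 59, nat_lit 18456514560), (nat_lit 113, nat_lit 19530252288)]⟩,
  ⟨V5_13054771200, nat_lit 5, [(nat_lit 41, nat_lit 13088342016),
  (nat_lit 66, nat_lit 14162079744), (nat_lit 95, nat_lit 14145306624),
  (nat_lit 62, nat_lit 15235817472), (nat_lit 76, nat_lit 15219044352),
  (nat_lit 6, nat_lit 15202271232), (nat_lit 93, nat_lit 16309555200),
  (nat_lit 48, nat_lit 16292782080), (nat_lit 109, nat_lit 16276008960),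
  (nat_lit 51, nat_lit 17383292928), (nat_lit 13, nat_lit 17366519808),
  (nat_lit 11, nat_lit 17349746688), (nat_lit 11, nat_lit 18440257536),
  (nat_lit 91, nat_lit 18423484416), (nat_lit 58, nat_lit 19497222144)]⟩,
  ⟨V5_13087285248, nat_lit 4, [(nat_lit 69, nat_lit 13088342016),
  (nat_lit 89, nat_lit 14162079744), (nat_lit 126, nat_lit 14161821696),
  (nat_lit 84, nat_lit 15235817472), (nat_lit 63, nat_lit 15235559424),
  (nat_lit 125, nat_lit 15235301376), (nat_lit 76, nat_lit 16309297152),
  (nat_lit 109, nat_lit 16309039104), (nat_lit 118, nat_lit 16308781056),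
  (nat_lit 56, nat_lit 17382776832), (nat_lit 20, nat_lit 17382518784),
  (nat_lit 112, nat_lit 17382260736), (nat_lit 23, nat_lit 18456256512),
  (nat_lit 115, nat_lit 18455998464), (nat_lit 121, nat_lit 19529736192)]⟩,
  ⟨V5_13021224960, nat_lit 5, [(nat_lit 73, nat_lit 13088342016),
  (nat_lit 34, nat_lit 14162079744), (nat_lit 28, nat_lit 14145306624),
  (nat_lit 6, nat_lit 15235817472), (nat_lit 110, nat_lit 15219044352),
  (nat_lit 121, nat_lit 15202271232), (nat_lit 70, nat_lit 16292782080),
  (nat_lit 102, nat_lit 16276008960), (nat_lit 99, nat_lit 16259235840),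
  (nat_lit 103, nat_lit 17349746688), (nat_lit 32, nat_lit 17332973568),
  (nat_lit 58, nat_lit 17316200448), (nat_lit 88, nat_lit 18406711296),
  (nat_lit 17, nat_lit 18389938176), (nat_lit 112, nat_lit 19463675904)]⟩,
  ⟨V5_13053739008, nat_lit 1, [(nat_lit 60, nat_lit 13088342016),
  (nat_lit 58, nat_lit 14161821696), (nat_lit 19, nat_lit 14145306624),
  (nat_lit 108, nat_lit 15235301376), (nat_lit 50, nat_lit 15218786304),
  (nat_lit 72, nat_lit 15202271232), (nat_lit 45, nat_lit 16308781056),
  (nat_lit 82, nat_lit 16292265984), (nat_lit 35, nat_lit 16275750912),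
  (nat_lit 44, nat_lit 17382260736), (nat_lit 90, nat_lit 17365745664),
  (nat_lit 118, nat_lit 17349230592), (nat_lit 39, nat_lit 18439225344),
  (nat_lit 4, nat_lit 18422710272), (nat_lit 12, nat_lit 19496189952)]⟩,
  ⟨V5_13037998080, nat_lit 2, [(nat_lit 104, nat_lit 13088342016),
  (nat_lit 3, nat_lit 14162079744), (nat_lit 102, nat_lit 14145306624),
  (nat_lit 109, nat_lit 15235817472), (nat_lit 98, nat_lit 15219044352),
  (nat_lit 121, nat_lit 15202271232), (nat_lit 45, nat_lit 16309555200),
  (nat_lit 4, nat_lit 16292782080), (nat_lit 115, nat_lit 16276008960),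
  (nat_lit 10, nat_lit 16259235840), (nat_lit 37, nat_lit 17366519808),
  (nat_lit 31, nat_lit 17349746688), (nat_lit 107, nat_lit 17332973568),
  (nat_lit 19, nat_lit 18423484416), (nat_lit 92, nat_lit 18406711296),
  (nat_lit 93, nat_lit 19480449024)]⟩,
  ⟨V5_13087543296, nat_lit 1, [(nat_lit 125, nat_lit 13088342016),
  (nat_lit 53, nat_lit 14162079744), (nat_lit 30, nat_lit 14161821696),
  (nat_lit 83, nat_lit 15235817472), (nat_lit 45, nat_lit 15235559424),
  (nat_lit 89, nat_lit 15235301376), (nat_lit 108, nat_lit 16309555200),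
  (nat_lit 54, nat_lit 16309297152), (nat_lit 117, nat_lit 16309039104),
  (nat_lit 126, nat_lit 16308781056), (nat_lit 22, nat_lit 17383034880),
  (nat_lit 51, nat_lit 17382776832), (nat_lit 49, nat_lit 17382518784),
  (nat_lit 25, nat_lit 18456514560), (nat_lit 23, nat_lit 18456256512),
  (nat_lit 5, nat_lit 19529994240)]⟩,
  ⟨V5_13020708864, nat_lit 1, [(nat_lit 105, nat_lit 13088342016),
  (nat_lit 91, nat_lit 14161821696), (nat_lit 87, nat_lit 14145306624),
  (nat_lit 37, nat_lit 15235301376), (nat_lit 105, nat_lit 15218786304),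
  (nat_lit 60, nat_lit 15202271232), (nat_lit 16, nat_lit 16292265984),
  (nat_lit 86, nat_lit 16275750912), (nat_lit 77, nat_lit 16259235840),
  (nat_lit 58, nat_lit 17349230592), (nat_lit 94, nat_lit 17332715520),
  (nat_lit 20, nat_lit 17316200448), (nat_lit 69, nat_lit 18406195200),
  (nat_lit 43, nat_lit 18389680128), (nat_lit 111, nat_lit 19463159808)]⟩], [
  W6_13087801344, W6_13087543296, W6_13087285248, W6_13071286272, W6_13071028224, W6_13070770176,
  W6_13070512128, W6_13054771200, W6_13054513152, W6_13054255104, W6_13053997056, W6_13053739008,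
  W6_13037998080, W6_13037740032, W6_13037481984, W6_13037223936, W6_13021224960, W6_13020966912,
  W6_13020708864]⟩

theorem F6_13088342016_chk : fwdChk 6 ks6 F6_13088342016 = true := by decide +kernel

noncomputable def F6_13088333952 : Fwd := ⟨V6_13088333952, [
  ⟨V5_13021224960, nat_lit 6, [(nat_lit 48, nat_lit 13088333952),
  (nat_lit 106, nat_lit 14162075712), (nat_lit 26, nat_lit 14145298560),
  (nat_lit 11, nat_lit 15235817472), (nat_lit 17, nat_lit 15219040320),
  (nat_lit 12, nat_lit 15202263168), (nat_lit 59, nat_lit 16292782080),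
  (nat_lit 12, nat_lit 16276004928), (nat_lit 16, nat_lit 16259227776),
  (nat_lit 115, nat_lit 17349746688), (nat_lit 50, nat_lit 17332969536),
  (nat_lit 113, nat_lit 17316192384), (nat_lit 58, nat_lit 18406711296),
  (nat_lit 61, nat_lit 18389934144), (nat_lit 110, nat_lit 19463675904)]⟩,
  ⟨V5_13086761088, nat_lit 1, [(nat_lit 120, nat_lit 13088333952),
  (nat_lit 36, nat_lit 14161813632), (nat_lit 80, nat_lit 15235293312),
  (nat_lit 51, nat_lit 16308772992), (nat_lit 64, nat_lit 17382252672),
  (nat_lit 46, nat_lit 18455732352), (nat_lit 60, nat_lit 19529212032)]⟩,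
  ⟨V5_13087285248, nat_lit 5, [(nat_lit 24, nat_lit 13088333952),
  (nat_lit 3, nat_lit 14162075712), (nat_lit 6, nat_lit 14161813632),
  (nat_lit 27, nat_lit 15235817472), (nat_lit 31, nat_lit 15235555392),
  (nat_lit 101, nat_lit 15235293312), (nat_lit 65, nat_lit 16309297152),
  (nat_lit 86, nat_lit 16309035072), (nat_lit 8, nat_lit 16308772992),
  (nat_lit 45, nat_lit 17382776832), (nat_lit 18, nat_lit 17382514752),
  (nat_lit 94, nat_lit 17382252672), (nat_lit 5, nat_lit 18456256512),
  (nat_lit 6, nat_lit 18455994432), (nat_lit 38, nat_lit 19529736192)]⟩,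
  ⟨V5_13053730944, nat_lit 3, [(nat_lit 124, nat_lit 13088333952),
  (nat_lit 86, nat_lit 14161813632), (nat_lit 107, nat_lit 14145298560),
  (nat_lit 20, nat_lit 15235293312), (nat_lit 61, nat_lit 15218778240),
  (nat_lit 98, nat_lit 15202263168), (nat_lit 93, nat_lit 16308772992),
  (nat_lit 34, nat_lit 16292257920), (nat_lit 30, nat_lit 16275742848),
  (nat_lit 74, nat_lit 17382252672), (nat_lit 59, nat_lit 17365737600),
  (nat_lit 83, nat_lit 17349222528), (nat_lit 106, nat_lit 18439217280),
  (nat_lit 76, nat_lit 18422702208), (nat_lit 101, nat_lit 19496181888)]⟩], [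
  W6_13087285248, W6_13087023168, W6_13086761088, W6_13070770176, W6_13070508096, W6_13070246016,
  W6_13054255104, W6_13053993024, W6_13053730944, W6_13037740032, W6_13037477952, W6_13037215872,
  W6_13021224960, W6_13020962880, W6_13020700800]⟩

theorem F6_13088333952_chk : fwdChk 6 ks6 F6_13088333952 = true := by decide +kernel

noncomputable def F6_13088083968 : Fwd := ⟨V6_13088083968, [
  ⟨V5_13087801344, nat_lit 3, [(nat_lit 13, nat_lit 13088083968),
  (nat_lit 103, nat_lit 14161821696), (nat_lit 12, nat_lit 14161563648),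
  (nat_lit 33, nat_lit 15235559424), (nat_lit 63, nat_lit 15235301376),
  (nat_lit 87, nat_lit 16309297152), (nat_lit 60, nat_lit 16309039104),
  (nat_lit 82, nat_lit 17383034880), (nat_lit 32, nat_lit 17382776832),
  (nat_lit 58, nat_lit 18456772608), (nat_lit 8, nat_lit 18456514560),
  (nat_lit 124, nat_lit 19530252288)]⟩,
  ⟨V5_13054513152, nat_lit 7, [(nat_lit 47, nat_lit 13088083968),
  (nat_lit 89, nat_lit 14161821696), (nat_lit 45, nat_lit 14145048576),
  (nat_lit 118, nat_lit 15235559424), (nat_lit 27, nat_lit 15218786304),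
  (nat_lit 41, nat_lit 15202013184), (nat_lit 104, nat_lit 16309297152),
  (nat_lit 97, nat_lit 16292524032), (nat_lit 77, nat_lit 16275750912),
  (nat_lit 122, nat_lit 17383034880), (nat_lit 25, nat_lit 17366261760),
  (nat_lit 88, nat_lit 17349488640), (nat_lit 71, nat_lit 18439999488),
  (nat_lit 20, nat_lit 18423226368), (nat_lit 114, nat_lit 19496964096)]⟩,
  ⟨V5_13071286272, nat_lit 3, [(nat_lit 34, nat_lit 13088083968),
  (nat_lit 14, nat_lit 14161821696), (nat_lit 30, nat_lit 14145048576),
  (nat_lit 15, nat_lit 15235559424), (nat_lit 62, nat_lit 15218786304),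
  (nat_lit 78, nat_lit 16309297152), (nat_lit 66, nat_lit 16292524032),
  (nat_lit 87, nat_lit 17383034880), (nat_lit 120, nat_lit 17366261760),
  (nat_lit 87, nat_lit 18456772608), (nat_lit 3, nat_lit 18439999488),
  (nat_lit 96, nat_lit 19513737216)]⟩], [
  W6_13087801344, W6_13087543296, W6_13071286272, W6_13071028224, W6_13070770176, W6_13054513152,
  W6_13054255104, W6_13053997056, W6_13037740032, W6_13037481984, W6_13037223936, W6_13020966912,
  W6_13020708864, W6_13020450816, W6_13004193792, W6_13003935744]⟩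

theorem F6_13088083968_chk : fwdChk 6 ks6 F6_13088083968 = true := by decide +kernel

noncomputable def F6_13088071809 : Fwd := ⟨V6_13088071809, [
  ⟨V5_13086761088, nat_lit 1, [(nat_lit 1, nat_lit 13088071809),
  (nat_lit 105, nat_lit 14161813632), (nat_lit 41, nat_lit 14161551489),
  (nat_lit 17, nat_lit 15235293312), (nat_lit 45, nat_lit 15235031169),
  (nat_lit 34, nat_lit 16308772992), (nat_lit 117, nat_lit 16308510849),
  (nat_lit 104, nat_lit 17382252672), (nat_lit 13, nat_lit 17381990529),
  (nat_lit 1, nat_lit 18455732352), (nat_lit 20, nat_lit 18455470209),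
  (nat_lit 13, nat_lit 19529212032)]⟩,
  ⟨V5_13020962880, nat_lit 4, [(nat_lit 80, nat_lit 13088071809),
  (nat_lit 72, nat_lit 14161813632), (nat_lit 69, nat_lit 14161813569),
  (nat_lit 93, nat_lit 14145036417), (nat_lit 32, nat_lit 15235555392),
  (nat_lit 39, nat_lit 15218778240), (nat_lit 103, nat_lit 15218778177),
  (nat_lit 44, nat_lit 15202001025), (nat_lit 89, nat_lit 16292520000),
  (nat_lit 18, nat_lit 16275742848), (nat_lit 33, nat_lit 16275742785),
  (nat_lit 23, nat_lit 16258965633), (nat_lit 18, nat_lit 17349484608),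
  (nat_lit 24, nat_lit 17332707456), (nat_lit 42, nat_lit 17332707393),
  (nat_lit 123, nat_lit 17315930241), (nat_lit 75, nat_lit 18406449216),
  (nat_lit 106, nat_lit 18389672064), (nat_lit 4, nat_lit 18389672001),
  (nat_lit 28, nat_lit 19463413824)]⟩], [
  W6_13087023168, W6_13086761088, W6_13070508096, W6_13070246016, W6_13053993024, W6_13053730944,
  W6_13037477952, W6_13037215872, W6_13020962880, W6_13020700800]⟩

theorem F6_13088071809_chk : fwdChk 6 ks6 F6_13088071809 = true := by decide +kernel

noncomputable def F6_13087825920 : Fwd := ⟨V6_13087825920, [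
  ⟨V5_13087801344, nat_lit 5, [(nat_lit 124, nat_lit 13087825920),
  (nat_lit 67, nat_lit 14161563648), (nat_lit 44, nat_lit 15235301376),
  (nat_lit 45, nat_lit 16309039104), (nat_lit 47, nat_lit 17382776832),
  (nat_lit 66, nat_lit 18456514560), (nat_lit 49, nat_lit 19530252288)]⟩,
  ⟨V5_12987162624, nat_lit 3, [(nat_lit 46, nat_lit 13087825920),
  (nat_lit 116, nat_lit 14144790528), (nat_lit 103, nat_lit 15201755136),
  (nat_lit 24, nat_lit 16258719744), (nat_lit 11, nat_lit 17315684352),
  (nat_lit 81, nat_lit 18372648960), (nat_lit 61, nat_lit 19429613568)]⟩,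
  ⟨V5_13071028224, nat_lit 6, [(nat_lit 25, nat_lit 13087825920),
  (nat_lit 100, nat_lit 14161563648), (nat_lit 67, nat_lit 14144790528),
  (nat_lit 9, nat_lit 15235301376), (nat_lit 113, nat_lit 15218528256),
  (nat_lit 91, nat_lit 16309039104), (nat_lit 46, nat_lit 16292265984),
  (nat_lit 8, nat_lit 17382776832), (nat_lit 4, nat_lit 17366003712),
  (nat_lit 70, nat_lit 18456514560), (nat_lit 96, nat_lit 18439741440),
  (nat_lit 67, nat_lit 19513479168)]⟩,
  ⟨V5_13054255104, nat_lit 1, [(nat_lit 87, nat_lit 13087825920),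
  (nat_lit 108, nat_lit 14161563648), (nat_lit 60, nat_lit 14144790528),
  (nat_lit 24, nat_lit 15235301376), (nat_lit 35, nat_lit 15218528256),
  (nat_lit 23, nat_lit 15201755136), (nat_lit 56, nat_lit 16309039104),
  (nat_lit 119, nat_lit 16292265984), (nat_lit 88, nat_lit 16275492864),
  (nat_lit 96, nat_lit 17382776832), (nat_lit 109, nat_lit 17366003712),
  (nat_lit 31, nat_lit 17349230592), (nat_lit 85, nat_lit 18439741440),
  (nat_lit 48, nat_lit 18422968320), (nat_lit 108, nat_lit 19496706048)]⟩], [
  W6_13087801344, W6_13071028224, W6_13054255104, W6_13037481984, W6_13020708864, W6_13003935744,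
  W6_12987162624]⟩

theorem F6_13087825920_chk : fwdChk 6 ks6 F6_13087825920 = true := by decide +kernel

noncomputable def F6_13087821888 : Fwd := ⟨V6_13087821888, [
  ⟨V5_13071028224, nat_lit 6, [(nat_lit 16, nat_lit 13087821888),
  (nat_lit 97, nat_lit 14161563648), (nat_lit 38, nat_lit 14161559616),
  (nat_lit 36, nat_lit 14144786496), (nat_lit 25, nat_lit 15235301376),
  (nat_lit 96, nat_lit 15235297344), (nat_lit 108, nat_lit 15218528256),
  (nat_lit 108, nat_lit 15218524224), (nat_lit 54, nat_lit 16309039104),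
  (nat_lit 122, nat_lit 16309035072), (nat_lit 20, nat_lit 16292265984),
  (nat_lit 117, nat_lit 16292261952), (nat_lit 103, nat_lit 17382776832),
  (nat_lit 41, nat_lit 17382772800), (nat_lit 9, nat_lit 17366003712),
  (nat_lit 39, nat_lit 17365999680), (nat_lit 110, nat_lit 18456514560),
  (nat_lit 51, nat_lit 18439741440), (nat_lit 119, nat_lit 18439737408),
  (nat_lit 87, nat_lit 19513479168)]⟩,
  ⟨V5_13020708864, nat_lit 10, [(nat_lit 112, nat_lit 13087821888),
  (nat_lit 67, nat_lit 14161563648), (nat_lit 113, nat_lit 14161559616),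
  (nat_lit 72, nat_lit 14144786496), (nat_lit 111, nat_lit 15235301376),
  (nat_lit 98, nat_lit 15218528256), (nat_lit 2, nat_lit 15218524224),
  (nat_lit 30, nat_lit 15201751104), (nat_lit 29, nat_lit 16292265984),
  (nat_lit 79, nat_lit 16275492864), (nat_lit 105, nat_lit 16275488832),
  (nat_lit 54, nat_lit 16258715712), (nat_lit 79, nat_lit 17349230592),
  (nat_lit 86, nat_lit 17332457472), (nat_lit 58, nat_lit 17332453440),
  (nat_lit 74, nat_lit 17315680320), (nat_lit 19, nat_lit 18406195200),
  (nat_lit 99, nat_lit 18389422080), (nat_lit 37, nat_lit 18389418048),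
  (nat_lit 123, nat_lit 19463159808)]⟩], [
  W6_13087543296, W6_13071028224, W6_13070770176, W6_13070766144, W6_13054255104, W6_13054251072,
  W6_13053997056, W6_13053993024, W6_13037481984, W6_13037477952, W6_13037223936, W6_13037219904,
  W6_13020708864, W6_13020704832, W6_13020450816, W6_13020446784, W6_13003935744, W6_13003931712,
  W6_13003673664, W6_12987158592]⟩

theorem F6_13087821888_chk : fwdChk 6 ks6 F6_13087821888 = true := by decide +kernel

noncomputable def F6_13087813824 : Fwd := ⟨V6_13087813824, [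
  ⟨V5_13070512128, nat_lit 4, [(nat_lit 114, nat_lit 13087813824),
  (nat_lit 24, nat_lit 14161555584), (nat_lit 45, nat_lit 14161293504),
  (nat_lit 49, nat_lit 14144778432), (nat_lit 80, nat_lit 15235297344),
  (nat_lit 60, nat_lit 15235035264), (nat_lit 95, nat_lit 15234773184),
  (nat_lit 26, nat_lit 15218520192), (nat_lit 101, nat_lit 15218258112),
  (nat_lit 21, nat_lit 16309039104), (nat_lit 115, nat_lit 16308777024),
  (nat_lit 121, nat_lit 16308514944), (nat_lit 64, nat_lit 16292261952),
  (nat_lit 69, nat_lit 16291999872), (nat_lit 69, nat_lit 16291737792),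
  (nat_lit 71, nat_lit 17382518784), (nat_lit 33, nat_lit 17382256704),
  (nat_lit 29, nat_lit 17366003712), (nat_lit 41, nat_lit 17365741632),
  (nat_lit 45, nat_lit 17365479552), (nat_lit 6, nat_lit 18455998464),
  (nat_lit 41, nat_lit 18439483392), (nat_lit 81, nat_lit 18439221312),
  (nat_lit 18, nat_lit 19512963072)]⟩,
  ⟨V5_13003665600, nat_lit 1, [(nat_lit 58, nat_lit 13087813824),
  (nat_lit 78, nat_lit 14161293504), (nat_lit 52, nat_lit 14144778432),
  (nat_lit 90, nat_lit 15218258112), (nat_lit 32, nat_lit 15201743040),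
  (nat_lit 110, nat_lit 16275222720), (nat_lit 22, nat_lit 16258707648),
  (nat_lit 8, nat_lit 17332187328), (nat_lit 116, nat_lit 17315672256),
  (nat_lit 55, nat_lit 18389151936), (nat_lit 73, nat_lit 18372636864),
  (nat_lit 18, nat_lit 19446116544)]⟩], [
  W6_13070512128, W6_13070250048, W6_13053997056, W6_13053734976, W6_13037481984, W6_13037219904,
  W6_13036957824, W6_13020704832, W6_13020442752, W6_13003927680, W6_13003665600]⟩

theorem F6_13087813824_chk : fwdChk 6 ks6 F6_13087813824 = true := by decide +kernel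

noncomputable def F6_13087809666 : Fwd := ⟨V6_13087809666, [
  ⟨V5_13086761088, nat_lit 1, [(nat_lit 57, nat_lit 13087809666),
  (nat_lit 88, nat_lit 14161551489), (nat_lit 66, nat_lit 14161289346),
  (nat_lit 54, nat_lit 15235293312), (nat_lit 55, nat_lit 15235031169),
  (nat_lit 59, nat_lit 15234769026), (nat_lit 125, nat_lit 16308772992),
  (nat_lit 105, nat_lit 16308510849), (nat_lit 50, nat_lit 16308248706),
  (nat_lit 113, nat_lit 17382252672), (nat_lit 90, nat_lit 17381990529),
  (nat_lit 86, nat_lit 17381728386), (nat_lit 82, nat_lit 18455732352),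
  (nat_lit 94, nat_lit 18455470209), (nat_lit 41, nat_lit 19529212032)]⟩,
  ⟨V5_13020700800, nat_lit 3, [(nat_lit 4, nat_lit 13087809666),
  (nat_lit 40, nat_lit 14161551489), (nat_lit 9, nat_lit 14144774274),
  (nat_lit 36, nat_lit 15235293312), (nat_lit 110, nat_lit 15218516097),
  (nat_lit 58, nat_lit 15201738882), (nat_lit 83, nat_lit 16292257920),
  (nat_lit 22, nat_lit 16275480705), (nat_lit 72, nat_lit 16258703490),
  (nat_lit 9, nat_lit 17349222528), (nat_lit 75, nat_lit 17332445313),
  (nat_lit 13, nat_lit 17315668098), (nat_lit 12, nat_lit 18406187136),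
  (nat_lit 125, nat_lit 18389409921), (nat_lit 53, nat_lit 19463151744)]⟩], [
  W6_13086761088, W6_13070246016, W6_13053730944, W6_13037215872, W6_13020700800]⟩

theorem F6_13087809666_chk : fwdChk 6 ks6 F6_13087809666 = true := by decide +kernel

noncomputable def F6_13087559808 : Fwd := ⟨V6_13087559808, [
  ⟨V5_13070770176, nat_lit 7, [(nat_lit 5, nat_lit 13087559808),
  (nat_lit 76, nat_lit 14161301568), (nat_lit 28, nat_lit 14161297536),
  (nat_lit 45, nat_lit 14144524416), (nat_lit 48, nat_lit 15235043328),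
  (nat_lit 117, nat_lit 15235039296), (nat_lit 25, nat_lit 15235035264),
  (nat_lit 44, nat_lit 15218266176), (nat_lit 71, nat_lit 15218262144),
  (nat_lit 87, nat_lit 16308781056), (nat_lit 75, nat_lit 16308777024),
  (nat_lit 2, nat_lit 16308772992), (nat_lit 5, nat_lit 16292007936),
  (nat_lit 5, nat_lit 16292003904), (nat_lit 106, nat_lit 16291999872),
  (nat_lit 66, nat_lit 17382518784), (nat_lit 8, nat_lit 17382514752),
  (nat_lit 95, nat_lit 17365745664), (nat_lit 16, nat_lit 17365741632),
  (nat_lit 90, nat_lit 17365737600), (nat_lit 13, nat_lit 18456256512),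
  (nat_lit 11, nat_lit 18439483392), (nat_lit 90, nat_lit 18439479360),
  (nat_lit 20, nat_lit 19513221120)]⟩], [
  W6_13070770176, W6_13053997056, W6_13053993024, W6_13037223936, W6_13037219904, W6_13037215872,
  W6_13020450816, W6_13020446784, W6_13020442752, W6_13003673664, W6_13003669632]⟩

theorem F6_13087559808_chk : fwdChk 6 ks6 F6_13087559808 = true := by decide +kernel

noncomputable def F6_13087555776 : Fwd := ⟨V6_13087555776, [
  ⟨V5_13053739008, nat_lit 5, [(nat_lit 57, nat_lit 13087555776),
  (nat_lit 106, nat_lit 14161297536), (nat_lit 43, nat_lit 14161035456),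
  (nat_lit 27, nat_lit 14144520384), (nat_lit 50, nat_lit 15235039296),
  (nat_lit 29, nat_lit 15234777216), (nat_lit 111, nat_lit 15218262144),
  (nat_lit 120, nat_lit 15218000064), (nat_lit 10, nat_lit 15201484992),
  (nat_lit 41, nat_lit 16308781056), (nat_lit 109, nat_lit 16308518976),
  (nat_lit 70, nat_lit 16292003904), (nat_lit 117, nat_lit 16291741824),
  (nat_lit 5, nat_lit 16275226752), (nat_lit 83, nat_lit 16274964672),
  (nat_lit 78, nat_lit 17382260736), (nat_lit 25, nat_lit 17365745664),
  (nat_lit 76, nat_lit 17365483584), (nat_lit 73, nat_lit 17348968512),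
  (nat_lit 112, nat_lit 17348706432), (nat_lit 2, nat_lit 18439225344),
  (nat_lit 36, nat_lit 18422710272), (nat_lit 10, nat_lit 18422448192),
  (nat_lit 102, nat_lit 19496189952)]⟩,
  ⟨V5_13003665600, nat_lit 1, [(nat_lit 11, nat_lit 13087555776),
  (nat_lit 32, nat_lit 14161293504), (nat_lit 65, nat_lit 14144520384),
  (nat_lit 24, nat_lit 15218258112), (nat_lit 26, nat_lit 15201484992),
  (nat_lit 91, nat_lit 16275222720), (nat_lit 113, nat_lit 16258449600),
  (nat_lit 49, nat_lit 17332187328), (nat_lit 108, nat_lit 17315414208),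
  (nat_lit 11, nat_lit 18389151936), (nat_lit 106, nat_lit 18372378816),
  (nat_lit 74, nat_lit 19446116544)]⟩,
  ⟨V5_13037223936, nat_lit 1, [(nat_lit 89, nat_lit 13087555776),
  (nat_lit 93, nat_lit 14161297536), (nat_lit 103, nat_lit 14144520384),
  (nat_lit 70, nat_lit 15235039296), (nat_lit 34, nat_lit 15218262144),
  (nat_lit 55, nat_lit 15201484992), (nat_lit 86, nat_lit 16308781056),
  (nat_lit 46, nat_lit 16292003904), (nat_lit 33, nat_lit 16275226752),
  (nat_lit 125, nat_lit 16258449600), (nat_lit 9, nat_lit 17365745664),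
  (nat_lit 103, nat_lit 17348968512), (nat_lit 95, nat_lit 17332191360),
  (nat_lit 43, nat_lit 18422710272), (nat_lit 15, nat_lit 18405933120),
  (nat_lit 28, nat_lit 19479674880)]⟩], [
  W6_13070512128, W6_13053997056, W6_13053739008, W6_13053734976, W6_13037223936, W6_13037219904,
  W6_13036961856, W6_13036957824, W6_13020446784, W6_13020442752, W6_13020184704, W6_13003669632,
  W6_13003665600, W6_13003407552]⟩

theorem F6_13087555776_chk : fwdChk 6 ks6 F6_13087555776 = true := by decide +kernel

end Crest.Agent.R187.SN.Fwd
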