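import Crest.Agent.R187.SN.FwdDef
import Crest.Agent.R187.SN.TD.Ks
import Crest.Agent.R187.SN.TD.W6_0
import Crest.Agent.R187.SN.TD.X5_0
import Crest.Agent.R187.SN.TD.X6_0

/-!
# Row 187, PLAN S, certificate E3: forward records of level `(6, 6)`, part 9

`F6_<key> : Fwd` = sources (table of level `(6, 5)`, number of rows, quadrature record) and
`W` tables of the table `V6_<key>`; each record is checked by the kernel.
-/

set_option autoImplicit false
set_option Elab.async false
set_option maxRecDepth 100000

namespace Crest.Agent.R187.SN.Fwd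

open Crest.Agent.R187.SN.Top

noncomputable def F6_13072343040 : Fwd := ⟨V6_13072343040, [
  ⟨V5_11997290496, nat_lit 2, [(nat_lit 121, nat_lit 13072343040),
  (nat_lit 15, nat_lit 14145822720), (nat_lit 109, nat_lit 15219302400),
  (nat_lit 12, nat_lit 16292782080), (nat_lit 32, nat_lit 17366261760),
  (nat_lit 46, nat_lit 18439741440)]⟩], [
  W6_13071286272, W6_13071028224, W6_13070770176, W6_11997548544, W6_11997290496]⟩

theorem F6_13072343040_chk : fwdChk 6 ks6 F6_13072343040 = true := by decide +kernel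

noncomputable def F6_13072339008 : Fwd := ⟨V6_13072339008, [
  ⟨V5_11997286464, nat_lit 2, [(nat_lit 31, nat_lit 13072339008),
  (nat_lit 113, nat_lit 14145818688), (nat_lit 93, nat_lit 15219298368),
  (nat_lit 65, nat_lit 16292778048), (nat_lit 4, nat_lit 17366257728),
  (nat_lit 101, nat_lit 18439737408)]⟩,
  ⟨V5_11997548544, nat_lit 2, [(nat_lit 67, nat_lit 13072339008),
  (nat_lit 35, nat_lit 14146080768), (nat_lit 3, nat_lit 14145818688),
  (nat_lit 16, nat_lit 15219560448), (nat_lit 34, nat_lit 15219298368),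
  (nat_lit 101, nat_lit 16293040128), (nat_lit 37, nat_lit 16292778048),
  (nat_lit 5, nat_lit 17366519808), (nat_lit 36, nat_lit 17366257728),
  (nat_lit 71, nat_lit 18439999488)]⟩], [
  W6_13071028224, W6_13070766144, W6_11997548544, W6_11997286464]⟩

theorem F6_13072339008_chk : fwdChk 6 ks6 F6_13072339008 = true := by decide +kernel

noncomputable def F6_13072084992 : Fwd := ⟨V6_13072084992, [
  ⟨V5_13070512128, nat_lit 4, [(nat_lit 62, nat_lit 13072084992),
  (nat_lit 58, nat_lit 14145564672), (nat_lit 112, nat_lit 15219044352),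
  (nat_lit 126, nat_lit 16292524032), (nat_lit 84, nat_lit 17366003712),
  (nat_lit 4, nat_lit 18439483392), (nat_lit 101, nat_lit 19512963072)]⟩,
  ⟨V5_11997032448, nat_lit 3, [(nat_lit 117, nat_lit 13072084992),
  (nat_lit 30, nat_lit 14145564672), (nat_lit 87, nat_lit 15219044352),
  (nat_lit 83, nat_lit 16292524032), (nat_lit 80, nat_lit 17366003712),
  (nat_lit 44, nat_lit 18439483392)]⟩,
  ⟨V5_11997548544, nat_lit 3, [(nat_lit 78, nat_lit 13072084992),
  (nat_lit 108, nat_lit 14145822720), (nat_lit 15, nat_lit 14145564672),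
  (nat_lit 78, nat_lit 15219560448), (nat_lit 116, nat_lit 15219302400),
  (nat_lit 96, nat_lit 15219044352), (nat_lit 88, nat_lit 16293040128),
  (nat_lit 89, nat_lit 16292782080), (nat_lit 30, nat_lit 16292524032),
  (nat_lit 77, nat_lit 17366519808), (nat_lit 15, nat_lit 17366261760),
  (nat_lit 59, nat_lit 18439999488)]⟩,
  ⟨V5_11981291520, nat_lit 1, [(nat_lit 80, nat_lit 13072084992),
  (nat_lit 55, nat_lit 14145822720), (nat_lit 94, nat_lit 14145564672),
  (nat_lit 75, nat_lit 14129049600), (nat_lit 101, nat_lit 15219560448),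
  (nat_lit 110, nat_lit 15219302400), (nat_lit 105, nat_lit 15202787328),
  (nat_lit 54, nat_lit 15202529280), (nat_lit 126, nat_lit 16293298176),
  (nat_lit 68, nat_lit 16293040128), (nat_lit 96, nat_lit 16276525056),
  (nat_lit 26, nat_lit 16276267008), (nat_lit 73, nat_lit 17366777856),
  (nat_lit 43, nat_lit 17350262784), (nat_lit 56, nat_lit 17350004736),
  (nat_lit 48, nat_lit 18423742464)]⟩], [
  W6_13071286272, W6_13071028224, W6_13070770176, W6_13070512128, W6_13054771200, W6_13054513152,
  W6_13054255104, W6_13053997056, W6_11997548544, W6_11997290496, W6_11997032448, W6_11981291520,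
  W6_11981033472, W6_11980775424, W6_11980517376]⟩

theorem F6_13072084992_chk : fwdChk 6 ks6 F6_13072084992 = true := by decide +kernel

noncomputable def F6_13072076865 : Fwd := ⟨V6_13072076865, [
  ⟨V5_11997286464, nat_lit 1, [(nat_lit 38, nat_lit 13072076865),
  (nat_lit 15, nat_lit 14145818688), (nat_lit 79, nat_lit 14145556545),
  (nat_lit 30, nat_lit 15219298368), (nat_lit 87, nat_lit 15219036225),
  (nat_lit 94, nat_lit 16292778048), (nat_lit 27, nat_lit 16292515905),
  (nat_lit 86, nat_lit 17366257728), (nat_lit 42, nat_lit 17365995585),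
  (nat_lit 91, nat_lit 18439737408)]⟩], [
  W6_13070766144, W6_13054251072, W6_11997286464, W6_11980771392]⟩

theorem F6_13072076865_chk : fwdChk 6 ks6 F6_13072076865 = true := by decide +kernel

noncomputable def F6_13071568896 : Fwd := ⟨V6_13071568896, [
  ⟨V5_13054771200, nat_lit 5, [(nat_lit 87, nat_lit 13071568896),
  (nat_lit 9, nat_lit 14145306624), (nat_lit 1, nat_lit 14128533504),
  (nat_lit 70, nat_lit 15219044352), (nat_lit 105, nat_lit 15202271232),
  (nat_lit 20, nat_lit 16292782080), (nat_lit 49, nat_lit 16276008960),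
  (nat_lit 13, nat_lit 17366519808), (nat_lit 77, nat_lit 17349746688),
  (nat_lit 72, nat_lit 18440257536), (nat_lit 81, nat_lit 18423484416),
  (nat_lit 81, nat_lit 19497222144)]⟩,
  ⟨V5_13021224960, nat_lit 6, [(nat_lit 124, nat_lit 13071568896),
  (nat_lit 8, nat_lit 14145306624), (nat_lit 40, nat_lit 14128533504),
  (nat_lit 108, nat_lit 15219044352), (nat_lit 22, nat_lit 15202271232),
  (nat_lit 66, nat_lit 15185498112), (nat_lit 8, nat_lit 16292782080),
  (nat_lit 61, nat_lit 16276008960), (nat_lit 95, nat_lit 16259235840),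
  (nat_lit 126, nat_lit 16242462720), (nat_lit 86, nat_lit 17349746688),
  (nat_lit 31, nat_lit 17332973568), (nat_lit 48, nat_lit 17316200448),
  (nat_lit 62, nat_lit 18406711296), (nat_lit 20, nat_lit 18389938176),
  (nat_lit 87, nat_lit 19463675904)]⟩,
  ⟨V5_11997548544, nat_lit 3, [(nat_lit 120, nat_lit 13071568896),
  (nat_lit 98, nat_lit 14145306624), (nat_lit 10, nat_lit 14145048576),
  (nat_lit 29, nat_lit 15219044352), (nat_lit 20, nat_lit 15218786304),
  (nat_lit 96, nat_lit 16292782080), (nat_lit 85, nat_lit 16292524032),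
  (nat_lit 99, nat_lit 17366519808), (nat_lit 118, nat_lit 17366261760),
  (nat_lit 89, nat_lit 18439999488)]⟩,
  ⟨V5_13071028224, nat_lit 6, [(nat_lit 115, nat_lit 13071568896),
  (nat_lit 68, nat_lit 14145306624), (nat_lit 23, nat_lit 14145048576),
  (nat_lit 109, nat_lit 15219044352), (nat_lit 67, nat_lit 15218786304),
  (nat_lit 85, nat_lit 15218528256), (nat_lit 66, nat_lit 16292782080),
  (nat_lit 123, nat_lit 16292524032), (nat_lit 57, nat_lit 16292265984),
  (nat_lit 118, nat_lit 17366519808), (nat_lit 55, nat_lit 17366261760),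
  (nat_lit 43, nat_lit 17366003712), (nat_lit 36, nat_lit 18439999488),
  (nat_lit 76, nat_lit 18439741440), (nat_lit 48, nat_lit 19513479168)]⟩,
  ⟨V5_13071286272, nat_lit 3, [(nat_lit 6, nat_lit 13071568896),
  (nat_lit 95, nat_lit 14145306624), (nat_lit 61, nat_lit 14145048576),
  (nat_lit 30, nat_lit 15219044352), (nat_lit 113, nat_lit 15218786304),
  (nat_lit 16, nat_lit 16292782080), (nat_lit 99, nat_lit 16292524032),
  (nat_lit 4, nat_lit 17366519808), (nat_lit 71, nat_lit 17366261760),
  (nat_lit 62, nat_lit 18440257536), (nat_lit 118, nat_lit 18439999488),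
  (nat_lit 76, nat_lit 19513737216)]⟩,
  ⟨V5_11981033472, nat_lit 3, [(nat_lit 89, nat_lit 13071568896),
  (nat_lit 28, nat_lit 14145306624), (nat_lit 19, nat_lit 14128533504),
  (nat_lit 110, nat_lit 15219044352), (nat_lit 14, nat_lit 15202271232),
  (nat_lit 120, nat_lit 16292782080), (nat_lit 16, nat_lit 16276008960),
  (nat_lit 36, nat_lit 17366519808), (nat_lit 96, nat_lit 17349746688),
  (nat_lit 90, nat_lit 18423484416)]⟩,
  ⟨V5_11963486208, nat_lit 1, [(nat_lit 84, nat_lit 13071568896),
  (nat_lit 37, nat_lit 14145048576), (nat_lit 29, nat_lit 14128533504),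
  (nat_lit 104, nat_lit 15218528256), (nat_lit 112, nat_lit 15202013184),
  (nat_lit 49, nat_lit 15185498112), (nat_lit 120, nat_lit 16292007936),
  (nat_lit 11, nat_lit 16275492864), (nat_lit 64, nat_lit 16258977792),
  (nat_lit 94, nat_lit 17348972544), (nat_lit 95, nat_lit 17332457472),
  (nat_lit 100, nat_lit 18405937152)]⟩], [
  W6_13071286272, W6_13071028224, W6_13070770176, W6_13054771200, W6_13054513152, W6_13054255104,
  W6_13053997056, W6_13037998080, W6_13037740032, W6_13037481984, W6_13037223936, W6_13021224960,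
  W6_13020966912, W6_13020708864, W6_13020450816, W6_11997548544, W6_11997290496, W6_11997032448,
  W6_11981033472, W6_11980775424, W6_11980517376, W6_11980259328, W6_11964260352, W6_11964002304,
  W6_11963744256, W6_11963486208, W6_11947487232, W6_11947229184, W6_11946971136]⟩

theorem F6_13071568896_chk : fwdChk 6 ks6 F6_13071568896 = true := by decide +kernel

noncomputable def F6_13071310848 : Fwd := ⟨V6_13071310848, [
  ⟨V5_11997548544, nat_lit 3, [(nat_lit 69, nat_lit 13071310848),
  (nat_lit 105, nat_lit 14145048576), (nat_lit 36, nat_lit 15218786304),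
  (nat_lit 97, nat_lit 16292524032), (nat_lit 42, nat_lit 17366261760),
  (nat_lit 69, nat_lit 18439999488)]⟩,
  ⟨V5_13071286272, nat_lit 3, [(nat_lit 86, nat_lit 13071310848),
  (nat_lit 69, nat_lit 14145048576), (nat_lit 51, nat_lit 15218786304),
  (nat_lit 107, nat_lit 16292524032), (nat_lit 92, nat_lit 17366261760),
  (nat_lit 13, nat_lit 18439999488), (nat_lit 77, nat_lit 19513737216)]⟩,
  ⟨V5_13071028224, nat_lit 6, [(nat_lit 62, nat_lit 13071310848),
  (nat_lit 51, nat_lit 14145048576), (nat_lit 80, nat_lit 14144790528),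
  (nat_lit 19, nat_lit 15218786304), (nat_lit 14, nat_lit 15218528256),
  (nat_lit 106, nat_lit 16292524032), (nat_lit 4, nat_lit 16292265984),
  (nat_lit 82, nat_lit 17366261760), (nat_lit 14, nat_lit 17366003712),
  (nat_lit 75, nat_lit 18439999488), (nat_lit 63, nat_lit 18439741440),
  (nat_lit 19, nat_lit 19513479168)]⟩,
  ⟨V5_11980775424, nat_lit 5, [(nat_lit 74, nat_lit 13071310848),
  (nat_lit 22, nat_lit 14145048576), (nat_lit 58, nat_lit 14128275456),
  (nat_lit 24, nat_lit 15218786304), (nat_lit 117, nat_lit 15202013184),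
  (nat_lit 54, nat_lit 16292524032), (nat_lit 34, nat_lit 16275750912),
  (nat_lit 126, nat_lit 17366261760), (nat_lit 110, nat_lit 17349488640),
  (nat_lit 57, nat_lit 18423226368)]⟩], [
  W6_13071286272, W6_13071028224, W6_13054513152, W6_13054255104, W6_13037740032, W6_13037481984,
  W6_13020966912, W6_13020708864, W6_13004193792, W6_13003935744, W6_11997548544, W6_11997290496,
  W6_11980775424, W6_11980517376, W6_11964002304, W6_11963744256, W6_11947229184, W6_11946971136,
  W6_11930456064, W6_11930198016]⟩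

theorem F6_13071310848_chk : fwdChk 6 ks6 F6_13071310848 = true := by decide +kernel

noncomputable def F6_13071294594 : Fwd := ⟨V6_13071294594, [
  ⟨V5_13070246016, nat_lit 1, [(nat_lit 41, nat_lit 13071294594),
  (nat_lit 33, nat_lit 14145036417), (nat_lit 27, nat_lit 14144774274),
  (nat_lit 86, nat_lit 15218778240), (nat_lit 65, nat_lit 15218516097),
  (nat_lit 117, nat_lit 15218253954), (nat_lit 121, nat_lit 16292257920),
  (nat_lit 45, nat_lit 16291995777), (nat_lit 8, nat_lit 16291733634),
  (nat_lit 53, nat_lit 17365737600), (nat_lit 119, nat_lit 17365475457),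
  (nat_lit 9, nat_lit 17365213314), (nat_lit 52, nat_lit 18439217280),
  (nat_lit 70, nat_lit 18438955137), (nat_lit 40, nat_lit 19512696960)]⟩,
  ⟨V5_11947221120, nat_lit 1, [(nat_lit 119, nat_lit 13071294594),
  (nat_lit 1, nat_lit 14145036417), (nat_lit 19, nat_lit 14128259202),
  (nat_lit 25, nat_lit 15218778240), (nat_lit 51, nat_lit 15202001025),
  (nat_lit 63, nat_lit 15185223810), (nat_lit 119, nat_lit 16275742848),
  (nat_lit 18, nat_lit 16258965633), (nat_lit 59, nat_lit 16242188418),
  (nat_lit 74, nat_lit 17332707456), (nat_lit 30, nat_lit 17315930241),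
  (nat_lit 94, nat_lit 18389672064)]⟩], [
  W6_13070246016, W6_13053730944, W6_13037215872, W6_13020700800, W6_11980251264, W6_11963736192,
  W6_11947221120]⟩

theorem F6_13071294594_chk : fwdChk 6 ks6 F6_13071294594 = true := by decide +kernel

noncomputable def F6_13070774466 : Fwd := ⟨V6_13070774466, [
  ⟨V5_13003665600, nat_lit 1, [(nat_lit 29, nat_lit 13070774466),
  (nat_lit 115, nat_lit 14144516289), (nat_lit 28, nat_lit 14127739074),
  (nat_lit 67, nat_lit 15218258112), (nat_lit 19, nat_lit 15201480897),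
  (nat_lit 122, nat_lit 15184703682), (nat_lit 102, nat_lit 16275222720),
  (nat_lit 101, nat_lit 16258445505), (nat_lit 7, nat_lit 16241668290),
  (nat_lit 52, nat_lit 17332187328), (nat_lit 82, nat_lit 17315410113),
  (nat_lit 30, nat_lit 17298632898), (nat_lit 48, nat_lit 18389151936),
  (nat_lit 46, nat_lit 18372374721), (nat_lit 16, nat_lit 19446116544)]⟩], [
  W6_13036957824, W6_13020442752, W6_13003665600, W6_11979993216, W6_11963478144, W6_11963216064]⟩

theorem F6_13070774466_chk : fwdChk 6 ks6 F6_13070774466 = true := by decide +kernel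

noncomputable def F6_13070516418 : Fwd := ⟨V6_13070516418, [
  ⟨V5_11946442944, nat_lit 1, [(nat_lit 124, nat_lit 13070516418),
  (nat_lit 48, nat_lit 14144258241), (nat_lit 23, nat_lit 14127481026),
  (nat_lit 57, nat_lit 15218000064), (nat_lit 35, nat_lit 15201222849),
  (nat_lit 103, nat_lit 15184445634), (nat_lit 124, nat_lit 16274964672),
  (nat_lit 102, nat_lit 16258187457), (nat_lit 38, nat_lit 16241410242),
  (nat_lit 123, nat_lit 17331929280), (nat_lit 43, nat_lit 17315152065),
  (nat_lit 67, nat_lit 18388893888)]⟩,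
  ⟨V5_13003407552, nat_lit 1, [(nat_lit 9, nat_lit 13070516418),
  (nat_lit 97, nat_lit 14144258241), (nat_lit 70, nat_lit 14127481026),
  (nat_lit 104, nat_lit 15218000064), (nat_lit 111, nat_lit 15201222849),
  (nat_lit 51, nat_lit 15184445634), (nat_lit 1, nat_lit 16274964672),
  (nat_lit 62, nat_lit 16258187457), (nat_lit 81, nat_lit 16241410242),
  (nat_lit 3, nat_lit 17331929280), (nat_lit 78, nat_lit 17315152065),
  (nat_lit 75, nat_lit 17298374850), (nat_lit 120, nat_lit 18388893888),
  (nat_lit 115, nat_lit 18372116673), (nat_lit 40, nat_lit 19445858496)]⟩], [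
  W6_13036957824, W6_13020184704, W6_13003407552, W6_11979993216, W6_11963220096, W6_11963216064,
  W6_11946442944]⟩

theorem F6_13070516418_chk : fwdChk 6 ks6 F6_13070516418 = true := by decide +kernel

noncomputable def F6_13055311872 : Fwd := ⟨V6_13055311872, [
  ⟨V5_10907811840, nat_lit 1, [(nat_lit 33, nat_lit 13055311872),
  (nat_lit 28, nat_lit 14129049600), (nat_lit 124, nat_lit 15202787328),
  (nat_lit 56, nat_lit 16276525056), (nat_lit 65, nat_lit 17350262784)]⟩,
  ⟨V5_13053739008, nat_lit 6, [(nat_lit 85, nat_lit 13055311872),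
  (nat_lit 100, nat_lit 14128791552), (nat_lit 88, nat_lit 15202271232),
  (nat_lit 99, nat_lit 16275750912), (nat_lit 66, nat_lit 17349230592),
  (nat_lit 112, nat_lit 18422710272), (nat_lit 34, nat_lit 19496189952)]⟩,
  ⟨V5_10906779648, nat_lit 4, [(nat_lit 53, nat_lit 13055311872),
  (nat_lit 93, nat_lit 14128791552), (nat_lit 89, nat_lit 15202271232),
  (nat_lit 81, nat_lit 16275750912), (nat_lit 31, nat_lit 17349230592)]⟩,
  ⟨V5_11980259328, nat_lit 3, [(nat_lit 12, nat_lit 13055311872),
  (nat_lit 91, nat_lit 14128791552), (nat_lit 48, nat_lit 15202271232),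
  (nat_lit 2, nat_lit 16275750912), (nat_lit 31, nat_lit 17349230592),
  (nat_lit 125, nat_lit 18422710272)]⟩,
  ⟨V5_11981291520, nat_lit 1, [(nat_lit 47, nat_lit 13055311872),
  (nat_lit 29, nat_lit 14129049600), (nat_lit 21, nat_lit 14128791552),
  (nat_lit 49, nat_lit 15202787328), (nat_lit 34, nat_lit 15202529280),
  (nat_lit 88, nat_lit 16276525056), (nat_lit 17, nat_lit 16276267008),
  (nat_lit 120, nat_lit 17350262784), (nat_lit 111, nat_lit 17350004736),
  (nat_lit 7, nat_lit 18423742464)]⟩], [
  W6_13054771200, W6_13054513152, W6_13054255104, W6_13053997056, W6_13053739008, W6_11981291520,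
  W6_11981033472, W6_11980775424, W6_11980517376, W6_11980259328, W6_10907811840, W6_10907553792,
  W6_10907295744, W6_10907037696, W6_10906779648]⟩

theorem F6_13055311872_chk : fwdChk 6 ks6 F6_13055311872 = true := by decide +kernel

noncomputable def F6_13055053824 : Fwd := ⟨V6_13055053824, [
  ⟨V5_13054771200, nat_lit 5, [(nat_lit 84, nat_lit 13055053824),
  (nat_lit 64, nat_lit 14128791552), (nat_lit 114, nat_lit 14128533504),
  (nat_lit 1, nat_lit 15202529280), (nat_lit 30, nat_lit 15202271232),
  (nat_lit 2, nat_lit 16276267008), (nat_lit 98, nat_lit 16276008960),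
  (nat_lit 23, nat_lit 17350004736), (nat_lit 126, nat_lit 17349746688),
  (nat_lit 88, nat_lit 18423742464), (nat_lit 75, nat_lit 18423484416),
  (nat_lit 89, nat_lit 19497222144)]⟩,
  ⟨V5_10906779648, nat_lit 4, [(nat_lit 96, nat_lit 13055053824),
  (nat_lit 106, nat_lit 14128791552), (nat_lit 5, nat_lit 14128533504),
  (nat_lit 87, nat_lit 15202271232), (nat_lit 69, nat_lit 15202013184),
  (nat_lit 97, nat_lit 16275750912), (nat_lit 2, nat_lit 16275492864),
  (nat_lit 57, nat_lit 17349230592)]⟩,
  ⟨V5_10907295744, nat_lit 3, [(nat_lit 98, nat_lit 13055053824),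
  (nat_lit 46, nat_lit 14128791552), (nat_lit 74, nat_lit 14128533504),
  (nat_lit 3, nat_lit 15202529280), (nat_lit 4, nat_lit 15202271232),
  (nat_lit 44, nat_lit 16276267008), (nat_lit 70, nat_lit 16276008960),
  (nat_lit 25, nat_lit 17349746688)]⟩,
  ⟨V5_11981291520, nat_lit 1, [(nat_lit 17, nat_lit 13055053824),
  (nat_lit 69, nat_lit 14128791552), (nat_lit 12, nat_lit 15202529280),
  (nat_lit 68, nat_lit 16276267008), (nat_lit 116, nat_lit 17350004736),
  (nat_lit 29, nat_lit 18423742464)]⟩,
  ⟨V5_10907553792, nat_lit 1, [(nat_lit 2, nat_lit 13055053824),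
  (nat_lit 75, nat_lit 14128791552), (nat_lit 122, nat_lit 15202529280),
  (nat_lit 97, nat_lit 16276267008), (nat_lit 83, nat_lit 17350004736)]⟩,
  ⟨V5_11981033472, nat_lit 3, [(nat_lit 100, nat_lit 13055053824),
  (nat_lit 73, nat_lit 14128791552), (nat_lit 7, nat_lit 14128533504),
  (nat_lit 88, nat_lit 15202529280), (nat_lit 4, nat_lit 15202271232),
  (nat_lit 37, nat_lit 16276267008), (nat_lit 32, nat_lit 16276008960),
  (nat_lit 1, nat_lit 17350004736), (nat_lit 7, nat_lit 17349746688),
  (nat_lit 41, nat_lit 18423484416)]⟩], [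
  W6_13054771200, W6_13054513152, W6_13054255104, W6_13053997056, W6_13037998080, W6_13037740032,
  W6_13037481984, W6_13037223936, W6_11981291520, W6_11981033472, W6_11980775424, W6_11980517376,
  W6_11980259328, W6_11964518400, W6_11964260352, W6_11964002304, W6_11963744256, W6_11963486208,
  W6_10907553792, W6_10907295744, W6_10907037696, W6_10906779648, W6_10890522624, W6_10890264576,
  W6_10890006528]⟩

theorem F6_13055053824_chk : fwdChk 6 ks6 F6_13055053824 = true := by decide +kernel

noncomputable def F6_13054779522 : Fwd := ⟨V6_13054779522, [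
  ⟨V5_10873741440, nat_lit 2, [(nat_lit 85, nat_lit 13054779522),
  (nat_lit 41, nat_lit 14128521345), (nat_lit 88, nat_lit 14111744130),
  (nat_lit 11, nat_lit 15202263168), (nat_lit 7, nat_lit 15185485953),
  (nat_lit 30, nat_lit 15168708738), (nat_lit 57, nat_lit 16259227776),
  (nat_lit 54, nat_lit 16242450561), (nat_lit 93, nat_lit 17316192384)]⟩,
  ⟨V5_10906771584, nat_lit 1, [(nat_lit 12, nat_lit 13054779522),
  (nat_lit 6, nat_lit 14128521345), (nat_lit 80, nat_lit 14128259202),
  (nat_lit 4, nat_lit 15202263168), (nat_lit 104, nat_lit 15202001025),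
  (nat_lit 64, nat_lit 15201738882), (nat_lit 85, nat_lit 16275742848),
  (nat_lit 120, nat_lit 16275480705), (nat_lit 1, nat_lit 17349222528)]⟩,
  ⟨V5_11980251264, nat_lit 1, [(nat_lit 72, nat_lit 13054779522),
  (nat_lit 43, nat_lit 14128521345), (nat_lit 11, nat_lit 14128259202),
  (nat_lit 11, nat_lit 15202263168), (nat_lit 64, nat_lit 15202001025),
  (nat_lit 77, nat_lit 15201738882), (nat_lit 93, nat_lit 16275742848),
  (nat_lit 60, nat_lit 16275480705), (nat_lit 59, nat_lit 16275218562),
  (nat_lit 60, nat_lit 17349222528), (nat_lit 96, nat_lit 17348960385),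
  (nat_lit 31, nat_lit 18422702208)]⟩], [
  W6_13053730944, W6_13037215872, W6_13020700800, W6_11980251264, W6_11963736192, W6_11947221120,
  W6_10906771584, W6_10873741440]⟩

theorem F6_13054779522_chk : fwdChk 6 ks6 F6_13054779522 = true := by decide +kernel

noncomputable def F6_13054537728 : Fwd := ⟨V6_13054537728, [
  ⟨V5_13054513152, nat_lit 7, [(nat_lit 56, nat_lit 13054537728),
  (nat_lit 40, nat_lit 14128275456), (nat_lit 37, nat_lit 15202013184),
  (nat_lit 86, nat_lit 16275750912), (nat_lit 52, nat_lit 17349488640),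
  (nat_lit 57, nat_lit 18423226368), (nat_lit 32, nat_lit 19496964096)]⟩], [
  W6_13054513152, W6_13037740032, W6_13020966912, W6_13004193792, W6_11980775424, W6_11964002304,
  W6_11947229184, W6_11930456064, W6_10907037696, W6_10890264576, W6_10873491456]⟩

theorem F6_13054537728_chk : fwdChk 6 ks6 F6_13054537728 = true := by decide +kernel

noncomputable def F6_13038280704 : Fwd := ⟨V6_13038280704, [
  ⟨V5_13037998080, nat_lit 4, [(nat_lit 14, nat_lit 13038280704),
  (nat_lit 48, nat_lit 14112018432), (nat_lit 69, nat_lit 14111760384),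
  (nat_lit 11, nat_lit 15185756160), (nat_lit 31, nat_lit 15185498112),
  (nat_lit 11, nat_lit 16259493888), (nat_lit 30, nat_lit 16259235840),
  (nat_lit 11, nat_lit 17333231616), (nat_lit 49, nat_lit 17332973568),
  (nat_lit 76, nat_lit 18406969344), (nat_lit 95, nat_lit 18406711296),
  (nat_lit 71, nat_lit 19480449024)]⟩,
  ⟨V5_11964518400, nat_lit 1, [(nat_lit 9, nat_lit 13038280704),
  (nat_lit 91, nat_lit 14112018432), (nat_lit 82, nat_lit 15185756160),
  (nat_lit 101, nat_lit 16259493888), (nat_lit 11, nat_lit 17333231616),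
  (nat_lit 9, nat_lit 18406969344)]⟩], [
  W6_13037998080, W6_13037740032, W6_13037481984, W6_11964518400, W6_11964260352, W6_11964002304,
  W6_11963744256, W6_10890522624, W6_10890264576, W6_10890006528, W6_9816526848]⟩

theorem F6_13038280704_chk : fwdChk 6 ks6 F6_13038280704 = true := by decide +kernel

noncomputable def F6_13038268608 : Fwd := ⟨V6_13038268608, [
  ⟨V5_13037481984, nat_lit 9, [(nat_lit 86, nat_lit 13038268608),
  (nat_lit 102, nat_lit 14112010368), (nat_lit 6, nat_lit 14111748288),
  (nat_lit 72, nat_lit 15185752128), (nat_lit 49, nat_lit 15185490048),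
  (nat_lit 73, nat_lit 15185227968), (nat_lit 16, nat_lit 16259493888),
  (nat_lit 72, nat_lit 16259231808), (nat_lit 34, nat_lit 16258969728),
  (nat_lit 103, nat_lit 16258707648), (nat_lit 88, nat_lit 17332973568),
  (nat_lit 90, nat_lit 17332711488), (nat_lit 99, nat_lit 17332449408),
  (nat_lit 32, nat_lit 18406453248), (nat_lit 42, nat_lit 18406191168),
  (nat_lit 2, nat_lit 19479932928)]⟩,
  ⟨V5_9816256704, nat_lit 1, [(nat_lit 114, nat_lit 13038268608),
  (nat_lit 13, nat_lit 14111748288), (nat_lit 67, nat_lit 15185227968),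
  (nat_lit 10, nat_lit 16258707648)]⟩], [
  W6_13037481984, W6_13037219904, W6_13036957824, W6_11964002304, W6_11963740224, W6_11963478144,
  W6_11963216064, W6_10890522624, W6_10890260544, W6_10889998464, W6_10889736384, W6_9816780864,
  W6_9816518784, W6_9816256704]⟩

theorem F6_13038268608_chk : fwdChk 6 ks6 F6_13038268608 = true := by decide +kernel

noncomputable def F6_13037760576 : Fwd := ⟨V6_13037760576, [
  ⟨V5_13037736000, nat_lit 3, [(nat_lit 75, nat_lit 13037760576),
  (nat_lit 108, nat_lit 14111498304), (nat_lit 11, nat_lit 15185236032),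
  (nat_lit 29, nat_lit 16258973760), (nat_lit 115, nat_lit 17332711488),
  (nat_lit 65, nat_lit 18406449216), (nat_lit 61, nat_lit 19480186944)]⟩,
  ⟨V5_9816526848, nat_lit 1, [(nat_lit 90, nat_lit 13037760576),
  (nat_lit 106, nat_lit 14111502336), (nat_lit 49, nat_lit 14111498304),
  (nat_lit 126, nat_lit 15185240064), (nat_lit 40, nat_lit 15185236032),
  (nat_lit 41, nat_lit 16258977792)]⟩,
  ⟨V5_11963998272, nat_lit 3, [(nat_lit 25, nat_lit 13037760576),
  (nat_lit 58, nat_lit 14111498304), (nat_lit 85, nat_lit 15185236032),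
  (nat_lit 69, nat_lit 16258973760), (nat_lit 3, nat_lit 17332711488),
  (nat_lit 105, nat_lit 18406449216)]⟩], [
  W6_13037740032, W6_13037736000, W6_13020966912, W6_13020962880, W6_13004193792, W6_13004189760,
  W6_11964002304, W6_11963998272, W6_11947229184, W6_11947225152, W6_11930456064, W6_11930452032,
  W6_10890264576, W6_10890260544, W6_10873491456, W6_10873487424, W6_9816526848, W6_9799749696]⟩

theorem F6_13037760576_chk : fwdChk 6 ks6 F6_13037760576 = true := by decide +kernel

noncomputable def F6_13037482179 : Fwd := ⟨V6_13037482179, [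
  ⟨V5_9816256704, nat_lit 1, [(nat_lit 76, nat_lit 13037482179),
  (nat_lit 36, nat_lit 14111224002), (nat_lit 100, nat_lit 15184965825),
  (nat_lit 104, nat_lit 16258707648)]⟩], [
  W6_13003665600, W6_11963216064, W6_11930185920, W6_10889736384, W6_9816256704]⟩

theorem F6_13037482179_chk : fwdChk 6 ks6 F6_13037482179 = true := by decide +kernel

noncomputable def F6_13037228352 : Fwd := ⟨V6_13037228352, [
  ⟨V5_9816002688, nat_lit 1, [(nat_lit 41, nat_lit 13037228352),
  (nat_lit 45, nat_lit 14110970112), (nat_lit 47, nat_lit 15184711872),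
  (nat_lit 13, nat_lit 16258453632)]⟩], [
  W6_13020450816, W6_13003673664, W6_11963486208, W6_11946709056, W6_9816002688]⟩

theorem F6_13037228352_chk : fwdChk 6 ks6 F6_13037228352 = true := by decide +kernel

noncomputable def F6_13021249536 : Fwd := ⟨V6_13021249536, [
  ⟨V5_8726274048, nat_lit 1, [(nat_lit 85, nat_lit 13021249536),
  (nat_lit 95, nat_lit 14094987264), (nat_lit 120, nat_lit 15168724992)]⟩,
  ⟨V5_13021224960, nat_lit 4, [(nat_lit 77, nat_lit 13021249536),
  (nat_lit 72, nat_lit 14094987264), (nat_lit 94, nat_lit 15168724992),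
  (nat_lit 65, nat_lit 16242462720), (nat_lit 100, nat_lit 17316200448),
  (nat_lit 48, nat_lit 18389938176), (nat_lit 61, nat_lit 19463675904)]⟩], [
  W6_13021224960, W6_11947487232, W6_10873749504, W6_9800011776, W6_8726274048]⟩

theorem F6_13021249536_chk : fwdChk 6 ks6 F6_13021249536 = true := by decide +kernel

noncomputable def F6_13021245504 : Fwd := ⟨V6_13021245504, [
  ⟨V5_8726274048, nat_lit 1, [(nat_lit 68, nat_lit 13021245504),
  (nat_lit 96, nat_lit 14094987264), (nat_lit 34, nat_lit 14094983232),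
  (nat_lit 49, nat_lit 15168724992)]⟩,
  ⟨V5_13021224960, nat_lit 5, [(nat_lit 19, nat_lit 13021245504),
  (nat_lit 38, nat_lit 14094987264), (nat_lit 95, nat_lit 14094983232),
  (nat_lit 104, nat_lit 15168724992), (nat_lit 118, nat_lit 15168720960),
  (nat_lit 70, nat_lit 16242462720), (nat_lit 56, nat_lit 16242458688),
  (nat_lit 59, nat_lit 17316200448), (nat_lit 42, nat_lit 17316196416),
  (nat_lit 98, nat_lit 18389938176), (nat_lit 60, nat_lit 18389934144),
  (nat_lit 94, nat_lit 19463675904)]⟩], [
  W6_13021224960, W6_13020966912, W6_13020962880, W6_11947487232, W6_11947483200, W6_11947229184,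
  W6_11947225152, W6_10873749504, W6_10873745472, W6_10873491456, W6_10873487424, W6_9800011776,
  W6_9800007744, W6_9799749696, W6_8726274048]⟩

theorem F6_13021245504_chk : fwdChk 6 ks6 F6_13021245504 = true := by decide +kernel

noncomputable def F6_13021241409 : Fwd := ⟨V6_13021241409, [
  ⟨V5_11947483200, nat_lit 2, [(nat_lit 118, nat_lit 13021241409),
  (nat_lit 124, nat_lit 14094983232), (nat_lit 120, nat_lit 14094979137),
  (nat_lit 62, nat_lit 15168720960), (nat_lit 36, nat_lit 15168716865),
  (nat_lit 38, nat_lit 16242458688), (nat_lit 103, nat_lit 16242454593),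
  (nat_lit 23, nat_lit 17316196416), (nat_lit 21, nat_lit 17316192321),
  (nat_lit 114, nat_lit 18389934144)]⟩,
  ⟨V5_9799491648, nat_lit 1, [(nat_lit 96, nat_lit 13021241409),
  (nat_lit 10, nat_lit 14094983232), (nat_lit 51, nat_lit 14094721089),
  (nat_lit 57, nat_lit 15168462912), (nat_lit 7, nat_lit 15168200769),
  (nat_lit 107, nat_lit 16241942592)]⟩], [
  W6_13020962880, W6_13020704832, W6_11947483200, W6_11947225152, W6_11946967104, W6_10873745472,
  W6_10873487424, W6_10873229376, W6_9800007744, W6_9799749696, W6_9799491648]⟩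

theorem F6_13021241409_chk : fwdChk 6 ks6 F6_13021241409 = true := by decide +kernel

noncomputable def F6_13021233408 : Fwd := ⟨V6_13021233408, [
  ⟨V5_10873749504, nat_lit 3, [(nat_lit 36, nat_lit 13021233408),
  (nat_lit 26, nat_lit 14094975168), (nat_lit 51, nat_lit 15168716928),
  (nat_lit 49, nat_lit 16242458688), (nat_lit 123, nat_lit 17316200448)]⟩,
  ⟨V5_8726265984, nat_lit 1, [(nat_lit 28, nat_lit 13021233408),
  (nat_lit 73, nat_lit 14094975168), (nat_lit 99, nat_lit 15168716928)]⟩,
  ⟨V5_8725741824, nat_lit 1, [(nat_lit 17, nat_lit 13021233408),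
  (nat_lit 81, nat_lit 14094713088), (nat_lit 88, nat_lit 15168192768)]⟩,
  ⟨V5_11947229184, nat_lit 4, [(nat_lit 61, nat_lit 13021233408),
  (nat_lit 108, nat_lit 14094975168), (nat_lit 6, nat_lit 14094713088),
  (nat_lit 65, nat_lit 15168716928), (nat_lit 44, nat_lit 15168454848),
  (nat_lit 13, nat_lit 16242458688), (nat_lit 14, nat_lit 16242196608),
  (nat_lit 1, nat_lit 17316200448), (nat_lit 48, nat_lit 17315938368),
  (nat_lit 35, nat_lit 18389680128)]⟩,
  ⟨V5_10872701184, nat_lit 1, [(nat_lit 90, nat_lit 13021233408),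
  (nat_lit 12, nat_lit 14094713088), (nat_lit 84, nat_lit 15168192768),
  (nat_lit 5, nat_lit 16241672448), (nat_lit 15, nat_lit 17315152128)]⟩,
  ⟨V5_9800007744, nat_lit 1, [(nat_lit 1, nat_lit 13021233408), (nat_lit 37, nat_lit 14094975168),
  (nat_lit 28, nat_lit 15168716928), (nat_lit 75, nat_lit 16242458688)]⟩], [
  W6_13020708864, W6_13020446784, W6_13020184704, W6_11947229184, W6_11946967104, W6_11946705024,
  W6_11946442944, W6_10873749504, W6_10873487424, W6_10873225344, W6_10872963264, W6_10872701184,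
  W6_9800007744, W6_9799745664, W6_9799483584, W6_8726265984, W6_8725741824]⟩

theorem F6_13021233408_chk : fwdChk 6 ks6 F6_13021233408 = true := by decide +kernel

noncomputable def F6_13020983424 : Fwd := ⟨V6_13020983424, [
  ⟨V5_9799745664, nat_lit 1, [(nat_lit 9, nat_lit 13020983424),
  (nat_lit 112, nat_lit 14094721152), (nat_lit 9, nat_lit 15168458880),
  (nat_lit 102, nat_lit 16242196608)]⟩,
  ⟨V5_9799749696, nat_lit 1, [(nat_lit 93, nat_lit 13020983424),
  (nat_lit 90, nat_lit 14094725184), (nat_lit 77, nat_lit 14094721152),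
  (nat_lit 7, nat_lit 15168462912), (nat_lit 18, nat_lit 15168458880),
  (nat_lit 45, nat_lit 16242200640)]⟩], [
  W6_13020966912, W6_13020962880, W6_13004193792, W6_13004189760, W6_11947229184, W6_11947225152,
  W6_11947221120, W6_11930456064, W6_11930452032, W6_10873491456, W6_10873487424, W6_10873483392,
  W6_9799749696, W6_9799745664]⟩

theorem F6_13020983424_chk : fwdChk 6 ks6 F6_13020983424 = true := by decide +kernel

noncomputable def F6_13020983361 : Fwd := ⟨V6_13020983361, [
  ⟨V5_13020962880, nat_lit 3, [(nat_lit 72, nat_lit 13020983361),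
  (nat_lit 124, nat_lit 14094725184), (nat_lit 21, nat_lit 14094721089),
  (nat_lit 112, nat_lit 15168462912), (nat_lit 33, nat_lit 15168458817),
  (nat_lit 95, nat_lit 16242200640), (nat_lit 92, nat_lit 16242196545),
  (nat_lit 58, nat_lit 17315938368), (nat_lit 51, nat_lit 17315934273),
  (nat_lit 107, nat_lit 18389676096), (nat_lit 125, nat_lit 18389672001),
  (nat_lit 44, nat_lit 19463413824)]⟩], [
  W6_13020962880, W6_13004189760, W6_11947225152, W6_11930452032, W6_10873487424, W6_9799749696]⟩

theorem F6_13020983361_chk : fwdChk 6 ks6 F6_13020983361 = true := by decide +kernel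

noncomputable def F6_13004198082 : Fwd := ⟨V6_13004198082, [
  ⟨V5_10856706240, nat_lit 1, [(nat_lit 28, nat_lit 13004198082),
  (nat_lit 87, nat_lit 14077939905), (nat_lit 100, nat_lit 14077935810),
  (nat_lit 6, nat_lit 15151681728), (nat_lit 81, nat_lit 15151677633),
  (nat_lit 39, nat_lit 15151673538), (nat_lit 10, nat_lit 16225419456),
  (nat_lit 53, nat_lit 16225415361), (nat_lit 89, nat_lit 17299157184)]⟩,
  ⟨V5_9782710464, nat_lit 1, [(nat_lit 55, nat_lit 13004198082),
  (nat_lit 31, nat_lit 14077939905), (nat_lit 45, nat_lit 14077677762),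
  (nat_lit 65, nat_lit 15151681728), (nat_lit 67, nat_lit 15151419585),
  (nat_lit 58, nat_lit 16225161408)]⟩], [
  W6_13003927680, W6_13003669632, W6_13003665600, W6_11930189952, W6_11930185920, W6_11929927872,
  W6_10856706240, W6_10856452224, W6_10856448192, W6_9782710464]⟩

theorem F6_13004198082_chk : fwdChk 6 ks6 F6_13004198082 = true := by decide +kernel

noncomputable def F6_13003940034 : Fwd := ⟨V6_13003940034, [
  ⟨V5_9765937344, nat_lit 1, [(nat_lit 5, nat_lit 13003940034), (nat_lit 78, nat_lit 14077681857),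
  (nat_lit 76, nat_lit 14060904642), (nat_lit 77, nat_lit 15151423680),
  (nat_lit 126, nat_lit 15134646465), (nat_lit 54, nat_lit 16208388288)]⟩,
  ⟨V5_10839679104, nat_lit 2, [(nat_lit 98, nat_lit 13003940034),
  (nat_lit 28, nat_lit 14077681857), (nat_lit 122, nat_lit 14077681794),
  (nat_lit 77, nat_lit 14060904642), (nat_lit 14, nat_lit 15151423680),
  (nat_lit 113, nat_lit 15151423617), (nat_lit 108, nat_lit 15134646465),
  (nat_lit 37, nat_lit 15134646402), (nat_lit 8, nat_lit 16225165440),
  (nat_lit 43, nat_lit 16208388288), (nat_lit 56, nat_lit 16208388225),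
  (nat_lit 78, nat_lit 17282130048)]⟩,
  ⟨V5_9782710464, nat_lit 1, [(nat_lit 4, nat_lit 13003940034),
  (nat_lit 122, nat_lit 14077681857), (nat_lit 73, nat_lit 14077677762),
  (nat_lit 55, nat_lit 15151423680), (nat_lit 15, nat_lit 15151419585),
  (nat_lit 30, nat_lit 16225161408)]⟩], [
  W6_13003927680, W6_12987154560, W6_11930189952, W6_11930185920, W6_11913416832, W6_11913412800,
  W6_10856452224, W6_10856448192, W6_10839679104, W6_9782710464, W6_9765937344]⟩

theorem F6_13003940034_chk : fwdChk 6 ks6 F6_13003940034 = true := by decide +kernel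

noncomputable def F6_12987162882 : Fwd := ⟨V6_12987162882, [
  ⟨V5_8692195584, nat_lit 1, [(nat_lit 31, nat_lit 12987162882), (nat_lit 5, nat_lit 14060904705),
  (nat_lit 58, nat_lit 15134646528)]⟩,
  ⟨V5_10839679104, nat_lit 2, [(nat_lit 17, nat_lit 12987162882),
  (nat_lit 49, nat_lit 14060904705), (nat_lit 2, nat_lit 14060904642),
  (nat_lit 31, nat_lit 15134646528), (nat_lit 98, nat_lit 15134646465),
  (nat_lit 71, nat_lit 15134646402), (nat_lit 100, nat_lit 16208388288),
  (nat_lit 109, nat_lit 16208388225), (nat_lit 118, nat_lit 17282130048)]⟩], [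
  W6_12987154560, W6_11913416832, W6_11913412800, W6_10839679104, W6_10839671040, W6_9765937344,
  W6_8692195584]⟩

theorem F6_12987162882_chk : fwdChk 6 ks6 F6_12987162882 = true := by decide +kernel

noncomputable def F6_12987154692 : Fwd := ⟨V6_12987154692, [
  ⟨V5_10839671040, nat_lit 1, [(nat_lit 16, nat_lit 12987154692),
  (nat_lit 113, nat_lit 14060896515), (nat_lit 93, nat_lit 15134638338),
  (nat_lit 29, nat_lit 16208380161), (nat_lit 65, nat_lit 17282121984)]⟩], [
  W6_12986630400, W6_10839671040]⟩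

theorem F6_12987154692_chk : fwdChk 6 ks6 F6_12987154692 = true := by decide +kernel

noncomputable def F6_11998605312 : Fwd := ⟨V6_11998605312, [
  ⟨V5_11997032448, nat_lit 2, [(nat_lit 46, nat_lit 11998605312),
  (nat_lit 70, nat_lit 13072084992), (nat_lit 91, nat_lit 14145564672),
  (nat_lit 13, nat_lit 15219044352), (nat_lit 103, nat_lit 16292524032),
  (nat_lit 30, nat_lit 17366003712), (nat_lit 75, nat_lit 18439483392)]⟩], [
  W6_11997548544, W6_11997290496, W6_11997032448]⟩

theorem F6_11998605312_chk : fwdChk 6 ks6 F6_11998605312 = true := by decide +kernel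

noncomputable def F6_11998597185 : Fwd := ⟨V6_11998597185, [
  ⟨V5_11997286464, nat_lit 3, [(nat_lit 103, nat_lit 11998597185),
  (nat_lit 92, nat_lit 13072339008), (nat_lit 8, nat_lit 13072076865),
  (nat_lit 77, nat_lit 14145818688), (nat_lit 114, nat_lit 14145556545),
  (nat_lit 1, nat_lit 15219298368), (nat_lit 76, nat_lit 15219036225),
  (nat_lit 55, nat_lit 16292778048), (nat_lit 71, nat_lit 16292515905),
  (nat_lit 118, nat_lit 17366257728), (nat_lit 53, nat_lit 17365995585),
  (nat_lit 48, nat_lit 18439737408)]⟩], [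
  W6_11997286464]⟩

theorem F6_11998597185_chk : fwdChk 6 ks6 F6_11998597185 = true := by decide +kernel

noncomputable def F6_11998347264 : Fwd := ⟨V6_11998347264, [
  ⟨V5_11997032448, nat_lit 3, [(nat_lit 78, nat_lit 11998347264),
  (nat_lit 82, nat_lit 13072084992), (nat_lit 83, nat_lit 13071826944),
  (nat_lit 54, nat_lit 14145564672), (nat_lit 116, nat_lit 14145306624),
  (nat_lit 3, nat_lit 15219044352), (nat_lit 11, nat_lit 15218786304),
  (nat_lit 108, nat_lit 16292524032), (nat_lit 44, nat_lit 16292265984),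
  (nat_lit 29, nat_lit 17366003712), (nat_lit 49, nat_lit 17365745664),
  (nat_lit 67, nat_lit 18439483392)]⟩], [
  W6_11997548544, W6_11997290496, W6_11997032448, W6_11981291520, W6_11981033472, W6_11980775424,
  W6_11980517376, W6_11980259328]⟩

theorem F6_11998347264_chk : fwdChk 6 ks6 F6_11998347264 = true := by decide +kernel

noncomputable def F6_11998343232 : Fwd := ⟨V6_11998343232, [
  ⟨V5_11996770368, nat_lit 2, [(nat_lit 111, nat_lit 11998343232),
  (nat_lit 72, nat_lit 13071822912), (nat_lit 110, nat_lit 14145302592),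
  (nat_lit 33, nat_lit 15218782272), (nat_lit 6, nat_lit 16292261952),
  (nat_lit 36, nat_lit 17365741632), (nat_lit 37, nat_lit 18439221312)]⟩,
  ⟨V5_11997286464, nat_lit 3, [(nat_lit 29, nat_lit 11998343232),
  (nat_lit 111, nat_lit 13072080960), (nat_lit 50, nat_lit 13071822912),
  (nat_lit 79, nat_lit 14145818688), (nat_lit 67, nat_lit 14145560640),
  (nat_lit 68, nat_lit 14145302592), (nat_lit 40, nat_lit 15219298368),
  (nat_lit 31, nat_lit 15219040320), (nat_lit 39, nat_lit 15218782272),
  (nat_lit 63, nat_lit 16292778048), (nat_lit 55, nat_lit 16292520000),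
  (nat_lit 1, nat_lit 16292261952), (nat_lit 78, nat_lit 17366257728),
  (nat_lit 86, nat_lit 17365999680), (nat_lit 111, nat_lit 18439737408)]⟩,
  ⟨V5_11997032448, nat_lit 2, [(nat_lit 47, nat_lit 11998343232),
  (nat_lit 110, nat_lit 13072084992), (nat_lit 4, nat_lit 13071822912),
  (nat_lit 86, nat_lit 14145564672), (nat_lit 59, nat_lit 14145302592),
  (nat_lit 87, nat_lit 15219044352), (nat_lit 110, nat_lit 15218782272),
  (nat_lit 101, nat_lit 16292524032), (nat_lit 15, nat_lit 16292261952),
  (nat_lit 119, nat_lit 17366003712), (nat_lit 124, nat_lit 17365741632),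
  (nat_lit 99, nat_lit 18439483392)]⟩], [
  W6_11997548544, W6_11997290496, W6_11997286464, W6_11997032448, W6_11997028416, W6_11996770368,
  W6_11981033472, W6_11980775424, W6_11980771392, W6_11980517376, W6_11980513344, W6_11980255296]⟩

theorem F6_11998343232_chk : fwdChk 6 ks6 F6_11998343232 = true := by decide +kernel

noncomputable def F6_11998339137 : Fwd := ⟨V6_11998339137, [
  ⟨V5_11997286464, nat_lit 2, [(nat_lit 102, nat_lit 11998339137),
  (nat_lit 21, nat_lit 13072080960), (nat_lit 54, nat_lit 13072076865),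
  (nat_lit 55, nat_lit 13071818817), (nat_lit 62, nat_lit 14145818688),
  (nat_lit 16, nat_lit 14145560640), (nat_lit 1, nat_lit 14145556545),
  (nat_lit 46, nat_lit 14145298497), (nat_lit 95, nat_lit 15219298368),
  (nat_lit 88, nat_lit 15219040320), (nat_lit 110, nat_lit 15219036225),
  (nat_lit 111, nat_lit 15218778177), (nat_lit 49, nat_lit 16292778048),
  (nat_lit 47, nat_lit 16292520000), (nat_lit 18, nat_lit 16292515905),
  (nat_lit 75, nat_lit 16292257857), (nat_lit 6, nat_lit 17366257728),
  (nat_lit 86, nat_lit 17365999680), (nat_lit 13, nat_lit 17365995585),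
  (nat_lit 79, nat_lit 18439737408)]⟩,
  ⟨V5_11997028416, nat_lit 1, [(nat_lit 71, nat_lit 11998339137),
  (nat_lit 110, nat_lit 13072080960), (nat_lit 37, nat_lit 13071818817),
  (nat_lit 58, nat_lit 14145560640), (nat_lit 7, nat_lit 14145298497),
  (nat_lit 30, nat_lit 15219040320), (nat_lit 110, nat_lit 15218778177),
  (nat_lit 71, nat_lit 16292520000), (nat_lit 123, nat_lit 16292257857),
  (nat_lit 27, nat_lit 17365999680), (nat_lit 50, nat_lit 17365737537),
  (nat_lit 20, nat_lit 18439479360)]⟩], [
  W6_11997286464, W6_11997028416, W6_11980771392, W6_11980513344]⟩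

theorem F6_11998339137_chk : fwdChk 6 ks6 F6_11998339137 = true := by decide +kernel

noncomputable def F6_11998085184 : Fwd := ⟨V6_11998085184, [
  ⟨V5_11997286464, nat_lit 3, [(nat_lit 22, nat_lit 11998085184),
  (nat_lit 97, nat_lit 13071822912), (nat_lit 124, nat_lit 13071564864),
  (nat_lit 52, nat_lit 14145560640), (nat_lit 24, nat_lit 14145302592),
  (nat_lit 4, nat_lit 14145044544), (nat_lit 117, nat_lit 15219298368),
  (nat_lit 93, nat_lit 15219040320), (nat_lit 9, nat_lit 15218782272),
  (nat_lit 125, nat_lit 15218524224), (nat_lit 13, nat_lit 16292778048),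
  (nat_lit 103, nat_lit 16292520000), (nat_lit 46, nat_lit 16292261952),
  (nat_lit 71, nat_lit 17366257728), (nat_lit 98, nat_lit 17365999680),
  (nat_lit 32, nat_lit 18439737408)]⟩,
  ⟨V5_11997548544, nat_lit 3, [(nat_lit 21, nat_lit 11998085184),
  (nat_lit 118, nat_lit 13071826944), (nat_lit 10, nat_lit 13071822912),
  (nat_lit 36, nat_lit 13071564864), (nat_lit 68, nat_lit 14145564672),
  (nat_lit 84, nat_lit 14145560640), (nat_lit 24, nat_lit 14145306624),
  (nat_lit 28, nat_lit 14145302592), (nat_lit 58, nat_lit 14145044544),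
  (nat_lit 33, nat_lit 15219302400), (nat_lit 10, nat_lit 15219298368),
  (nat_lit 82, nat_lit 15219044352), (nat_lit 75, nat_lit 15219040320),
  (nat_lit 109, nat_lit 15218786304), (nat_lit 27, nat_lit 15218782272),
  (nat_lit 102, nat_lit 16293040128), (nat_lit 60, nat_lit 16292782080),
  (nat_lit 109, nat_lit 16292778048), (nat_lit 55, nat_lit 16292524032),
  (nat_lit 7, nat_lit 16292520000), (nat_lit 57, nat_lit 17366519808),
  (nat_lit 106, nat_lit 17366261760), (nat_lit 4, nat_lit 17366257728),
  (nat_lit 111, nat_lit 18439999488)]⟩,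
  ⟨V5_11996770368, nat_lit 2, [(nat_lit 87, nat_lit 11998085184),
  (nat_lit 33, nat_lit 13071822912), (nat_lit 102, nat_lit 13071564864),
  (nat_lit 121, nat_lit 14145302592), (nat_lit 50, nat_lit 14145044544),
  (nat_lit 76, nat_lit 15218782272), (nat_lit 19, nat_lit 15218524224),
  (nat_lit 22, nat_lit 16292261952), (nat_lit 63, nat_lit 16292003904),
  (nat_lit 57, nat_lit 17365741632), (nat_lit 34, nat_lit 17365483584),
  (nat_lit 39, nat_lit 18439221312)]⟩,
  ⟨V5_11979997248, nat_lit 2, [(nat_lit 32, nat_lit 11998085184),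
  (nat_lit 84, nat_lit 13071564864), (nat_lit 42, nat_lit 13055049792),
  (nat_lit 22, nat_lit 14145044544), (nat_lit 1, nat_lit 14128529472),
  (nat_lit 72, nat_lit 15218524224), (nat_lit 41, nat_lit 15202009152),
  (nat_lit 69, nat_lit 16292003904), (nat_lit 7, nat_lit 16275488832),
  (nat_lit 4, nat_lit 17365483584), (nat_lit 45, nat_lit 17348968512),
  (nat_lit 120, nat_lit 18422448192)]⟩,
  ⟨V5_11997032448, nat_lit 3, [(nat_lit 112, nat_lit 11998085184),
  (nat_lit 19, nat_lit 13071826944), (nat_lit 23, nat_lit 13071822912),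
  (nat_lit 87, nat_lit 13071564864), (nat_lit 9, nat_lit 14145564672),
  (nat_lit 67, nat_lit 14145306624), (nat_lit 103, nat_lit 14145302592),
  (nat_lit 109, nat_lit 14145044544), (nat_lit 114, nat_lit 15219044352),
  (nat_lit 6, nat_lit 15218786304), (nat_lit 84, nat_lit 15218782272),
  (nat_lit 19, nat_lit 15218524224), (nat_lit 4, nat_lit 16292524032),
  (nat_lit 91, nat_lit 16292265984), (nat_lit 55, nat_lit 16292261952),
  (nat_lit 36, nat_lit 16292003904), (nat_lit 76, nat_lit 17366003712),
  (nat_lit 44, nat_lit 17365745664), (nat_lit 27, nat_lit 17365741632),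
  (nat_lit 86, nat_lit 18439483392)]⟩], [
  W6_11997548544, W6_11997290496, W6_11997286464, W6_11997032448, W6_11997028416, W6_11996770368,
  W6_11981033472, W6_11980775424, W6_11980771392, W6_11980517376, W6_11980513344, W6_11980259328,
  W6_11980255296, W6_11979997248, W6_11964518400, W6_11964260352, W6_11964256320, W6_11964002304,
  W6_11963998272, W6_11963744256, W6_11963740224, W6_11963482176]⟩

theorem F6_11998085184_chk : fwdChk 6 ks6 F6_11998085184 = true := by decide +kernel

noncomputable def F6_11998081089 : Fwd := ⟨V6_11998081089, [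
  ⟨V5_11997286464, nat_lit 3, [(nat_lit 45, nat_lit 11998081089),
  (nat_lit 103, nat_lit 13071822912), (nat_lit 59, nat_lit 13071818817),
  (nat_lit 25, nat_lit 13071560769), (nat_lit 94, nat_lit 14145560640),
  (nat_lit 75, nat_lit 14145556545), (nat_lit 43, nat_lit 14145302592),
  (nat_lit 12, nat_lit 14145298497), (nat_lit 40, nat_lit 14145040449),
  (nat_lit 79, nat_lit 15219298368), (nat_lit 21, nat_lit 15219040320),
  (nat_lit 73, nat_lit 15219036225), (nat_lit 99, nat_lit 15218782272),
  (nat_lit 72, nat_lit 15218778177), (nat_lit 81, nat_lit 15218520129),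
  (nat_lit 108, nat_lit 16292778048), (nat_lit 58, nat_lit 16292520000),
  (nat_lit 82, nat_lit 16292515905), (nat_lit 38, nat_lit 16292261952),
  (nat_lit 9, nat_lit 16292257857), (nat_lit 114, nat_lit 17366257728),
  (nat_lit 76, nat_lit 17365999680), (nat_lit 94, nat_lit 17365995585),
  (nat_lit 4, nat_lit 18439737408)]⟩,
  ⟨V5_11996770368, nat_lit 2, [(nat_lit 94, nat_lit 11998081089),
  (nat_lit 1, nat_lit 13071822912), (nat_lit 17, nat_lit 13071560769),
  (nat_lit 21, nat_lit 14145302592), (nat_lit 117, nat_lit 14145040449),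
  (nat_lit 74, nat_lit 15218782272), (nat_lit 70, nat_lit 15218520129),
  (nat_lit 101, nat_lit 16292261952), (nat_lit 35, nat_lit 16291999809),
  (nat_lit 13, nat_lit 17365741632), (nat_lit 7, nat_lit 17365479489),
  (nat_lit 18, nat_lit 18439221312)]⟩], [
  W6_11997286464, W6_11997028416, W6_11996770368, W6_11980771392, W6_11980513344, W6_11980255296,
  W6_11964256320, W6_11963998272, W6_11963740224]⟩

theorem F6_11998081089_chk : fwdChk 6 ks6 F6_11998081089 = true := by decide +kernel

noncomputable def F6_11998077057 : Fwd := ⟨V6_11998077057, [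
  ⟨V5_11997028416, nat_lit 2, [(nat_lit 114, nat_lit 11998077057),
  (nat_lit 23, nat_lit 13071818880), (nat_lit 66, nat_lit 13071818817),
  (nat_lit 112, nat_lit 13071556737), (nat_lit 69, nat_lit 14145560640),
  (nat_lit 6, nat_lit 14145298560), (nat_lit 71, nat_lit 14145298497),
  (nat_lit 49, nat_lit 14145036417), (nat_lit 123, nat_lit 15219040320),
  (nat_lit 70, nat_lit 15218778240), (nat_lit 88, nat_lit 15218778177),
  (nat_lit 35, nat_lit 15218516097), (nat_lit 89, nat_lit 16292520000),
  (nat_lit 3, nat_lit 16292257920), (nat_lit 43, nat_lit 16292257857),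
  (nat_lit 79, nat_lit 16291995777), (nat_lit 92, nat_lit 17365999680),
  (nat_lit 15, nat_lit 17365737600), (nat_lit 51, nat_lit 17365737537),
  (nat_lit 74, nat_lit 18439479360)]⟩], [
  W6_11997028416, W6_11980513344, W6_11980251264, W6_11963998272, W6_11963736192]⟩

theorem F6_11998077057_chk : fwdChk 6 ks6 F6_11998077057 = true := by decide +kernel

noncomputable def F6_11997819072 : Fwd := ⟨V6_11997819072, [
  ⟨V5_11947487232, nat_lit 3, [(nat_lit 2, nat_lit 11997819072),
  (nat_lit 91, nat_lit 13071560832), (nat_lit 77, nat_lit 13054783680),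
  (nat_lit 16, nat_lit 14145302592), (nat_lit 82, nat_lit 14128525440),
  (nat_lit 1, nat_lit 14111748288), (nat_lit 121, nat_lit 15219044352),
  (nat_lit 53, nat_lit 15202267200), (nat_lit 24, nat_lit 15185490048),
  (nat_lit 42, nat_lit 15168712896), (nat_lit 126, nat_lit 16276008960),
  (nat_lit 81, nat_lit 16259231808), (nat_lit 30, nat_lit 16242454656),
  (nat_lit 15, nat_lit 17332973568), (nat_lit 33, nat_lit 17316196416),
  (nat_lit 102, nat_lit 18389938176)]⟩,
  ⟨V5_11997032448, nat_lit 3, [(nat_lit 38, nat_lit 11997819072),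
  (nat_lit 25, nat_lit 13071560832), (nat_lit 82, nat_lit 13071298752),
  (nat_lit 66, nat_lit 14145302592), (nat_lit 102, nat_lit 14145040512),
  (nat_lit 76, nat_lit 14144778432), (nat_lit 23, nat_lit 15219044352),
  (nat_lit 66, nat_lit 15218782272), (nat_lit 116, nat_lit 15218520192),
  (nat_lit 100, nat_lit 15218258112), (nat_lit 9, nat_lit 16292524032),
  (nat_lit 76, nat_lit 16292261952), (nat_lit 120, nat_lit 16291999872),
  (nat_lit 82, nat_lit 17366003712), (nat_lit 89, nat_lit 17365741632),
  (nat_lit 19, nat_lit 18439483392)]⟩,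
  ⟨V5_11996770368, nat_lit 2, [(nat_lit 111, nat_lit 11997819072),
  (nat_lit 95, nat_lit 13071560832), (nat_lit 123, nat_lit 13071298752),
  (nat_lit 80, nat_lit 14145302592), (nat_lit 13, nat_lit 14145040512),
  (nat_lit 25, nat_lit 14144778432), (nat_lit 96, nat_lit 15218782272),
  (nat_lit 116, nat_lit 15218520192), (nat_lit 96, nat_lit 15218258112),
  (nat_lit 5, nat_lit 16292261952), (nat_lit 83, nat_lit 16291999872),
  (nat_lit 95, nat_lit 16291737792), (nat_lit 75, nat_lit 17365741632),
  (nat_lit 10, nat_lit 17365479552), (nat_lit 71, nat_lit 18439221312)]⟩], [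
  W6_11997032448, W6_11996770368, W6_11980517376, W6_11980255296, W6_11979993216, W6_11964002304,
  W6_11963740224, W6_11963478144, W6_11963216064, W6_11947487232, W6_11947225152, W6_11946963072]⟩

theorem F6_11997819072_chk : fwdChk 6 ks6 F6_11997819072 = true := by decide +kernel

noncomputable def F6_11997573120 : Fwd := ⟨V6_11997573120, [
  ⟨V5_11997548544, nat_lit 3, [(nat_lit 28, nat_lit 11997573120),
  (nat_lit 107, nat_lit 13071310848), (nat_lit 115, nat_lit 14145048576),
  (nat_lit 116, nat_lit 15218786304), (nat_lit 71, nat_lit 16292524032),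
  (nat_lit 29, nat_lit 17366261760), (nat_lit 103, nat_lit 18439999488)]⟩,
  ⟨V5_11980775424, nat_lit 2, [(nat_lit 119, nat_lit 11997573120),
  (nat_lit 8, nat_lit 13071310848), (nat_lit 92, nat_lit 13054537728),
  (nat_lit 12, nat_lit 14145048576), (nat_lit 36, nat_lit 14128275456),
  (nat_lit 35, nat_lit 15218786304), (nat_lit 71, nat_lit 15202013184),
  (nat_lit 50, nat_lit 16292524032), (nat_lit 121, nat_lit 16275750912),
  (nat_lit 87, nat_lit 17366261760), (nat_lit 14, nat_lit 17349488640),
  (nat_lit 40, nat_lit 18423226368)]⟩], [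
  W6_11997548544, W6_11980775424, W6_11964002304, W6_11947229184, W6_11930456064]⟩

theorem F6_11997573120_chk : fwdChk 6 ks6 F6_11997573120 = true := by decide +kernel

noncomputable def F6_11997569088 : Fwd := ⟨V6_11997569088, [
  ⟨V5_11997548544, nat_lit 3, [(nat_lit 120, nat_lit 11997569088),
  (nat_lit 66, nat_lit 13071310848), (nat_lit 41, nat_lit 13071306816),
  (nat_lit 29, nat_lit 14145048576), (nat_lit 74, nat_lit 14145044544),
  (nat_lit 30, nat_lit 15218786304), (nat_lit 66, nat_lit 15218782272),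
  (nat_lit 56, nat_lit 16292524032), (nat_lit 2, nat_lit 16292520000),
  (nat_lit 25, nat_lit 17366261760), (nat_lit 103, nat_lit 17366257728),
  (nat_lit 108, nat_lit 18439999488)]⟩,
  ⟨V5_11997286464, nat_lit 3, [(nat_lit 26, nat_lit 11997569088),
  (nat_lit 41, nat_lit 13071306816), (nat_lit 49, nat_lit 13071048768),
  (nat_lit 27, nat_lit 14145044544), (nat_lit 90, nat_lit 14144786496),
  (nat_lit 22, nat_lit 15218782272), (nat_lit 69, nat_lit 15218524224),
  (nat_lit 102, nat_lit 16292520000), (nat_lit 123, nat_lit 16292261952),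
  (nat_lit 82, nat_lit 17366257728), (nat_lit 125, nat_lit 17365999680),
  (nat_lit 50, nat_lit 18439737408)]⟩,
  ⟨V5_11980775424, nat_lit 5, [(nat_lit 101, nat_lit 11997569088),
  (nat_lit 126, nat_lit 13071310848), (nat_lit 36, nat_lit 13071306816),
  (nat_lit 22, nat_lit 13054533696), (nat_lit 98, nat_lit 14145048576),
  (nat_lit 62, nat_lit 14145044544), (nat_lit 115, nat_lit 14128275456),
  (nat_lit 113, nat_lit 14128271424), (nat_lit 20, nat_lit 15218786304),
  (nat_lit 69, nat_lit 15218782272), (nat_lit 121, nat_lit 15202013184),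
  (nat_lit 10, nat_lit 15202009152), (nat_lit 77, nat_lit 16292524032),
  (nat_lit 35, nat_lit 16292520000), (nat_lit 9, nat_lit 16275750912),
  (nat_lit 74, nat_lit 16275746880), (nat_lit 75, nat_lit 17366261760),
  (nat_lit 5, nat_lit 17349488640), (nat_lit 50, nat_lit 17349484608),
  (nat_lit 54, nat_lit 18423226368)]⟩,
  ⟨V5_11930198016, nat_lit 1, [(nat_lit 49, nat_lit 11997569088),
  (nat_lit 6, nat_lit 13071310848), (nat_lit 35, nat_lit 13071048768),
  (nat_lit 100, nat_lit 13054533696), (nat_lit 32, nat_lit 14144790528),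
  (nat_lit 86, nat_lit 14128275456), (nat_lit 23, nat_lit 14128013376),
  (nat_lit 108, nat_lit 14111498304), (nat_lit 125, nat_lit 15201755136),
  (nat_lit 79, nat_lit 15185240064), (nat_lit 122, nat_lit 15184977984),
  (nat_lit 60, nat_lit 15168462912), (nat_lit 26, nat_lit 16258719744),
  (nat_lit 86, nat_lit 16242204672), (nat_lit 108, nat_lit 16241942592),
  (nat_lit 31, nat_lit 16225427520), (nat_lit 23, nat_lit 17315684352),
  (nat_lit 56, nat_lit 17299169280), (nat_lit 49, nat_lit 17298907200),
  (nat_lit 18, nat_lit 18372648960)]⟩], [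
  W6_11997548544, W6_11997290496, W6_11997286464, W6_11980775424, W6_11980771392, W6_11980517376,
  W6_11980513344, W6_11964002304, W6_11963998272, W6_11963744256, W6_11963740224, W6_11947229184,
  W6_11947225152, W6_11946971136, W6_11946967104, W6_11930456064, W6_11930452032, W6_11930198016,
  W6_11930193984]⟩

theorem F6_11997569088_chk : fwdChk 6 ks6 F6_11997569088 = true := by decide +kernel

noncomputable def F6_11997306945 : Fwd := ⟨V6_11997306945, [
  ⟨V5_11997286464, nat_lit 3, [(nat_lit 3, nat_lit 11997306945), (nat_lit 6, nat_lit 13071048768),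
  (nat_lit 15, nat_lit 13071044673), (nat_lit 110, nat_lit 14144786496),
  (nat_lit 32, nat_lit 14144782401), (nat_lit 118, nat_lit 15218524224),
  (nat_lit 69, nat_lit 15218520129), (nat_lit 16, nat_lit 16292261952),
  (nat_lit 20, nat_lit 16292257857), (nat_lit 89, nat_lit 17365999680),
  (nat_lit 83, nat_lit 17365995585), (nat_lit 75, nat_lit 18439737408)]⟩,
  ⟨V5_11913420864, nat_lit 2, [(nat_lit 16, nat_lit 11997306945),
  (nat_lit 72, nat_lit 13071048768), (nat_lit 66, nat_lit 13054271553),
  (nat_lit 109, nat_lit 14128013376), (nat_lit 42, nat_lit 14111236161),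
  (nat_lit 26, nat_lit 15184977984), (nat_lit 77, nat_lit 15168200769),
  (nat_lit 48, nat_lit 16241942592), (nat_lit 68, nat_lit 16225165377),
  (nat_lit 50, nat_lit 17298907200), (nat_lit 123, nat_lit 17282129985),
  (nat_lit 66, nat_lit 18355871808)]⟩,
  ⟨V5_11930193984, nat_lit 1, [(nat_lit 24, nat_lit 11997306945),
  (nat_lit 121, nat_lit 13071048768), (nat_lit 101, nat_lit 13071044673),
  (nat_lit 76, nat_lit 13054271553), (nat_lit 45, nat_lit 14144786496),
  (nat_lit 5, nat_lit 14128013376), (nat_lit 65, nat_lit 14128009281),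
  (nat_lit 25, nat_lit 14111236161), (nat_lit 53, nat_lit 15201751104),
  (nat_lit 66, nat_lit 15184977984), (nat_lit 43, nat_lit 15184973889),
  (nat_lit 79, nat_lit 15168200769), (nat_lit 20, nat_lit 16258715712),
  (nat_lit 33, nat_lit 16241942592), (nat_lit 41, nat_lit 16241938497),
  (nat_lit 117, nat_lit 16225165377), (nat_lit 21, nat_lit 17315680320),
  (nat_lit 83, nat_lit 17298907200), (nat_lit 122, nat_lit 17298903105),
  (nat_lit 4, nat_lit 18372644928)]⟩], [
  W6_11997286464, W6_11980513344, W6_11963740224, W6_11946967104, W6_11930193984, W6_11913420864]⟩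

theorem F6_11997306945_chk : fwdChk 6 ks6 F6_11997306945 = true := by decide +kernel

noncomputable def F6_11997040833 : Fwd := ⟨V6_11997040833, [
  ⟨V5_11929927872, nat_lit 1, [(nat_lit 22, nat_lit 11997040833),
  (nat_lit 7, nat_lit 13070782656), (nat_lit 71, nat_lit 13070778561),
  (nat_lit 15, nat_lit 13054005441), (nat_lit 14, nat_lit 14144520384),
  (nat_lit 27, nat_lit 14127747264), (nat_lit 119, nat_lit 14127743169),
  (nat_lit 89, nat_lit 14110970049), (nat_lit 73, nat_lit 15201484992),
  (nat_lit 21, nat_lit 15184711872), (nat_lit 111, nat_lit 15184707777),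
  (nat_lit 54, nat_lit 15167934657), (nat_lit 100, nat_lit 16258449600),
  (nat_lit 79, nat_lit 16241676480), (nat_lit 112, nat_lit 16241672385),
  (nat_lit 87, nat_lit 16224899265), (nat_lit 50, nat_lit 17315414208),
  (nat_lit 97, nat_lit 17298641088), (nat_lit 108, nat_lit 17298636993),
  (nat_lit 18, nat_lit 18372378816)]⟩], [
  W6_11980255296, W6_11963482176, W6_11963478144, W6_11946709056, W6_11946705024, W6_11929927872]⟩

theorem F6_11997040833_chk : fwdChk 6 ks6 F6_11997040833 = true := by decide +kernel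

noncomputable def F6_11997036801 : Fwd := ⟨V6_11997036801, [
  ⟨V5_11929927872, nat_lit 1, [(nat_lit 73, nat_lit 11997036801),
  (nat_lit 115, nat_lit 13070778624), (nat_lit 53, nat_lit 13070778561),
  (nat_lit 91, nat_lit 13054001409), (nat_lit 85, nat_lit 14144520384),
  (nat_lit 89, nat_lit 14127743232), (nat_lit 25, nat_lit 14127743169),
  (nat_lit 4, nat_lit 14110966017), (nat_lit 94, nat_lit 15201484992),
  (nat_lit 121, nat_lit 15184707840), (nat_lit 21, nat_lit 15184707777),
  (nat_lit 69, nat_lit 15167930625), (nat_lit 68, nat_lit 16258449600),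
  (nat_lit 21, nat_lit 16241672448), (nat_lit 114, nat_lit 16241672385),
  (nat_lit 122, nat_lit 16224895233), (nat_lit 111, nat_lit 17315414208),
  (nat_lit 76, nat_lit 17298637056), (nat_lit 1, nat_lit 17298636993),
  (nat_lit 82, nat_lit 18372378816)]⟩], [
  W6_11979997248, W6_11963482176, W6_11963220096, W6_11946705024, W6_11946442944, W6_11929927872]⟩

theorem F6_11997036801_chk : fwdChk 6 ks6 F6_11997036801 = true := by decide +kernel

noncomputable def F6_11981574144 : Fwd := ⟨V6_11981574144, [
  ⟨V5_10907811840, nat_lit 1, [(nat_lit 18, nat_lit 11981574144),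
  (nat_lit 55, nat_lit 13055311872), (nat_lit 37, nat_lit 14129049600),
  (nat_lit 75, nat_lit 15202787328), (nat_lit 22, nat_lit 16276525056),
  (nat_lit 18, nat_lit 17350262784)]⟩,
  ⟨V5_10906779648, nat_lit 4, [(nat_lit 18, nat_lit 11981574144),
  (nat_lit 46, nat_lit 13055311872), (nat_lit 85, nat_lit 13055053824),
  (nat_lit 42, nat_lit 14128791552), (nat_lit 86, nat_lit 14128533504),
  (nat_lit 48, nat_lit 15202271232), (nat_lit 51, nat_lit 15202013184),
  (nat_lit 28, nat_lit 16275750912), (nat_lit 6, nat_lit 16275492864),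
  (nat_lit 56, nat_lit 17349230592)]⟩], [
  W6_11981291520, W6_11981033472, W6_11980775424, W6_11980517376, W6_11980259328, W6_10907811840,
  W6_10907553792, W6_10907295744, W6_10907037696, W6_10906779648]⟩

theorem F6_11981574144_chk : fwdChk 6 ks6 F6_11981574144 = true := by decide +kernel

noncomputable def F6_11981561985 : Fwd := ⟨V6_11981561985, [
  ⟨V5_11980251264, nat_lit 1, [(nat_lit 101, nat_lit 11981561985),
  (nat_lit 42, nat_lit 13055303808), (nat_lit 58, nat_lit 13055041665),
  (nat_lit 36, nat_lit 14128783488), (nat_lit 35, nat_lit 14128521345),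
  (nat_lit 23, nat_lit 15202263168), (nat_lit 42, nat_lit 15202001025),
  (nat_lit 101, nat_lit 16275742848), (nat_lit 107, nat_lit 16275480705),
  (nat_lit 8, nat_lit 17349222528), (nat_lit 123, nat_lit 17348960385),
  (nat_lit 100, nat_lit 18422702208)]⟩], [
  W6_11980513344, W6_11980251264, W6_10907033664, W6_10906771584]⟩

theorem F6_11981561985_chk : fwdChk 6 ks6 F6_11981561985 = true := by decide +kernel

noncomputable def F6_11981058048 : Fwd := ⟨V6_11981058048, [
  ⟨V5_10907295744, nat_lit 3, [(nat_lit 42, nat_lit 11981058048),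
  (nat_lit 33, nat_lit 13054795776), (nat_lit 118, nat_lit 14128533504),
  (nat_lit 58, nat_lit 15202271232), (nat_lit 34, nat_lit 16276008960),
  (nat_lit 79, nat_lit 17349746688)]⟩,
  ⟨V5_11981033472, nat_lit 3, [(nat_lit 14, nat_lit 11981058048),
  (nat_lit 117, nat_lit 13054795776), (nat_lit 121, nat_lit 14128533504),
  (nat_lit 58, nat_lit 15202271232), (nat_lit 99, nat_lit 16276008960),
  (nat_lit 78, nat_lit 17349746688), (nat_lit 115, nat_lit 18423484416)]⟩], [
  W6_11981033472, W6_11980775424, W6_11964260352, W6_11964002304, W6_11947487232, W6_11947229184,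
  W6_10907295744, W6_10907037696, W6_10890522624, W6_10890264576, W6_10873749504, W6_10873491456]⟩

theorem F6_11981058048_chk : fwdChk 6 ks6 F6_11981058048 = true := by decide +kernel

noncomputable def F6_11964268800 : Fwd := ⟨V6_11964268800, [
  ⟨V5_10873749504, nat_lit 3, [(nat_lit 62, nat_lit 11964268800),
  (nat_lit 52, nat_lit 13038010560), (nat_lit 17, nat_lit 13021233408),
  (nat_lit 26, nat_lit 14111752320), (nat_lit 39, nat_lit 14094975168),
  (nat_lit 110, nat_lit 15185494080), (nat_lit 38, nat_lit 15168716928),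
  (nat_lit 63, nat_lit 16259235840), (nat_lit 5, nat_lit 16242458688),
  (nat_lit 14, nat_lit 17316200448)]⟩,
  ⟨V5_11963744256, nat_lit 4, [(nat_lit 111, nat_lit 11964268800),
  (nat_lit 25, nat_lit 13038010560), (nat_lit 115, nat_lit 13037748480),
  (nat_lit 126, nat_lit 14111752320), (nat_lit 110, nat_lit 14111490240),
  (nat_lit 2, nat_lit 14111228160), (nat_lit 5, nat_lit 15185494080),
  (nat_lit 77, nat_lit 15185232000), (nat_lit 25, nat_lit 15184969920),
  (nat_lit 72, nat_lit 16259235840), (nat_lit 4, nat_lit 16258973760),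
  (nat_lit 18, nat_lit 16258711680), (nat_lit 38, nat_lit 17332715520),
  (nat_lit 76, nat_lit 17332453440), (nat_lit 40, nat_lit 18406195200)]⟩], [
  W6_11963744256, W6_11963482176, W6_11963220096, W6_11947229184, W6_11946967104, W6_11946705024,
  W6_11946442944, W6_10890264576, W6_10890002496, W6_10889740416, W6_10873749504, W6_10873487424,
  W6_10873225344, W6_10872963264, W6_10872701184, W6_9800007744, W6_9799745664, W6_9799483584]⟩

theorem F6_11964268800_chk : fwdChk 6 ks6 F6_11964268800 = true := by decide +kernel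

noncomputable def F6_11963748672 : Fwd := ⟨V6_11963748672, [
  ⟨V5_10890006528, nat_lit 2, [(nat_lit 25, nat_lit 11963748672),
  (nat_lit 94, nat_lit 13037490432), (nat_lit 55, nat_lit 14111232192),
  (nat_lit 100, nat_lit 15184973952), (nat_lit 66, nat_lit 16258715712),
  (nat_lit 80, nat_lit 17332457472)]⟩,
  ⟨V5_9816002688, nat_lit 1, [(nat_lit 54, nat_lit 11963748672),
  (nat_lit 60, nat_lit 13037490432), (nat_lit 123, nat_lit 13037228352),
  (nat_lit 125, nat_lit 14111232192), (nat_lit 122, nat_lit 14110970112),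
  (nat_lit 46, nat_lit 15184973952), (nat_lit 3, nat_lit 15184711872),
  (nat_lit 71, nat_lit 16258453632)]⟩], [
  W6_11963486208, W6_11946971136, W6_11946709056, W6_11930193984, W6_11913416832, W6_10890006528,
  W6_10873229376, W6_10856452224, W6_9816264768, W6_9816002688, W6_9799487616, W6_9782710464]⟩

theorem F6_11963748672_chk : fwdChk 6 ks6 F6_11963748672 = true := by decide +kernel

noncomputable def F6_11963486466 : Fwd := ⟨V6_11963486466, [
  ⟨V5_9816002688, nat_lit 1, [(nat_lit 76, nat_lit 11963486466),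
  (nat_lit 78, nat_lit 13037228289), (nat_lit 64, nat_lit 13037228226),
  (nat_lit 4, nat_lit 14110970112), (nat_lit 114, nat_lit 14110970049),
  (nat_lit 68, nat_lit 14110969986), (nat_lit 115, nat_lit 15184711872),
  (nat_lit 98, nat_lit 15184711809), (nat_lit 92, nat_lit 16258453632)]⟩], [
  W6_11946705024, W6_11929927872, W6_10889740416, W6_10872963264, W6_9816002688]⟩

theorem F6_11963486466_chk : fwdChk 6 ks6 F6_11963486466 = true := by decide +kernel

noncomputable def F6_11947499712 : Fwd := ⟨V6_11947499712, [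
  ⟨V5_8726274048, nat_lit 1, [(nat_lit 66, nat_lit 11947499712),
  (nat_lit 29, nat_lit 13021241472), (nat_lit 70, nat_lit 14094983232),
  (nat_lit 124, nat_lit 15168724992)]⟩,
  ⟨V5_10873233408, nat_lit 3, [(nat_lit 37, nat_lit 11947499712),
  (nat_lit 32, nat_lit 13021241472), (nat_lit 117, nat_lit 13020979392),
  (nat_lit 52, nat_lit 14094983232), (nat_lit 93, nat_lit 14094721152),
  (nat_lit 87, nat_lit 14094459072), (nat_lit 78, nat_lit 15168724992),
  (nat_lit 87, nat_lit 15168462912), (nat_lit 125, nat_lit 15168200832),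
  (nat_lit 98, nat_lit 16242204672), (nat_lit 86, nat_lit 16241942592),
  (nat_lit 71, nat_lit 17315684352)]⟩,
  ⟨V5_8726265984, nat_lit 1, [(nat_lit 73, nat_lit 11947499712),
  (nat_lit 48, nat_lit 13021241472), (nat_lit 75, nat_lit 13021237440),
  (nat_lit 70, nat_lit 14094979200), (nat_lit 97, nat_lit 14094975168),
  (nat_lit 32, nat_lit 15168716928)]⟩,
  ⟨V5_8725749888, nat_lit 1, [(nat_lit 2, nat_lit 11947499712), (nat_lit 66, nat_lit 13021241472),
  (nat_lit 65, nat_lit 13020979392), (nat_lit 118, nat_lit 14094721152),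
  (nat_lit 79, nat_lit 14094459072), (nat_lit 64, nat_lit 15168200832)]⟩,
  ⟨V5_9800011776, nat_lit 1, [(nat_lit 52, nat_lit 11947499712),
  (nat_lit 37, nat_lit 13021241472), (nat_lit 24, nat_lit 13021237440),
  (nat_lit 111, nat_lit 14094983232), (nat_lit 112, nat_lit 14094979200),
  (nat_lit 60, nat_lit 15168724992), (nat_lit 96, nat_lit 15168720960),
  (nat_lit 47, nat_lit 16242462720)]⟩,
  ⟨V5_9799491648, nat_lit 1, [(nat_lit 54, nat_lit 11947499712),
  (nat_lit 23, nat_lit 13021241472), (nat_lit 112, nat_lit 13020979392),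
  (nat_lit 76, nat_lit 14094983232), (nat_lit 73, nat_lit 14094721152),
  (nat_lit 42, nat_lit 14094459072), (nat_lit 68, nat_lit 15168462912),
  (nat_lit 59, nat_lit 15168200832), (nat_lit 49, nat_lit 16241942592)]⟩], [
  W6_11947487232, W6_11947229184, W6_11947225152, W6_11946971136, W6_11946967104, W6_11946963072,
  W6_10873749504, W6_10873745472, W6_10873491456, W6_10873487424, W6_10873483392, W6_10873233408,
  W6_10873229376, W6_10873225344, W6_9800011776, W6_9800007744, W6_9799749696, W6_9799745664,
  W6_9799491648, W6_9799487616, W6_9799483584, W6_8726274048, W6_8726265984, W6_8725749888]⟩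

theorem F6_11947499712_chk : fwdChk 6 ks6 F6_11947499712 = true := by decide +kernel

noncomputable def F6_11947495680 : Fwd := ⟨V6_11947495680, [
  ⟨V5_10873749504, nat_lit 3, [(nat_lit 27, nat_lit 11947495680),
  (nat_lit 82, nat_lit 13021237440), (nat_lit 113, nat_lit 13021233408),
  (nat_lit 126, nat_lit 14094979200), (nat_lit 17, nat_lit 14094975168),
  (nat_lit 73, nat_lit 15168720960), (nat_lit 29, nat_lit 15168716928),
  (nat_lit 50, nat_lit 16242462720), (nat_lit 121, nat_lit 16242458688),
  (nat_lit 54, nat_lit 17316200448)]⟩,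
  ⟨V5_8726265984, nat_lit 1, [(nat_lit 42, nat_lit 11947495680),
  (nat_lit 99, nat_lit 13021237440), (nat_lit 102, nat_lit 13021233408),
  (nat_lit 26, nat_lit 14094979200), (nat_lit 121, nat_lit 14094975168),
  (nat_lit 4, nat_lit 15168716928)]⟩,
  ⟨V5_8725741824, nat_lit 1, [(nat_lit 102, nat_lit 11947495680),
  (nat_lit 71, nat_lit 13021233408), (nat_lit 42, nat_lit 13020975360),
  (nat_lit 78, nat_lit 14094713088), (nat_lit 115, nat_lit 14094455040),
  (nat_lit 111, nat_lit 15168192768)]⟩,
  ⟨V5_9800007744, nat_lit 1, [(nat_lit 99, nat_lit 11947495680),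
  (nat_lit 95, nat_lit 13021237440), (nat_lit 49, nat_lit 13021233408),
  (nat_lit 62, nat_lit 14094979200), (nat_lit 117, nat_lit 14094975168),
  (nat_lit 74, nat_lit 15168720960), (nat_lit 123, nat_lit 15168716928),
  (nat_lit 123, nat_lit 16242458688)]⟩], [
  W6_11947229184, W6_11946971136, W6_11946967104, W6_11946709056, W6_11946705024, W6_10873749504,
  W6_10873491456, W6_10873487424, W6_10873229376, W6_10873225344, W6_10872963264, W6_9800011776,
  W6_9800007744, W6_9799749696, W6_9799745664, W6_9799487616, W6_9799483584, W6_8726265984,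
  W6_8725741824]⟩

theorem F6_11947495680_chk : fwdChk 6 ks6 F6_11947495680 = true := by decide +kernel

noncomputable def F6_11947495554 : Fwd := ⟨V6_11947495554, [
  ⟨V5_8726265984, nat_lit 1, [(nat_lit 33, nat_lit 11947495554), (nat_lit 7, nat_lit 13021237377),
  (nat_lit 18, nat_lit 13021233282), (nat_lit 101, nat_lit 14094979200),
  (nat_lit 105, nat_lit 14094975105), (nat_lit 125, nat_lit 15168716928)]⟩,
  ⟨V5_10873741440, nat_lit 2, [(nat_lit 20, nat_lit 11947495554),
  (nat_lit 20, nat_lit 13021237377), (nat_lit 9, nat_lit 13021233282),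
  (nat_lit 75, nat_lit 14094979200), (nat_lit 57, nat_lit 14094975105),
  (nat_lit 64, nat_lit 14094971010), (nat_lit 111, nat_lit 15168716928),
  (nat_lit 57, nat_lit 15168712833), (nat_lit 8, nat_lit 15168708738),
  (nat_lit 68, nat_lit 16242454656), (nat_lit 10, nat_lit 16242450561),
  (nat_lit 61, nat_lit 17316192384)]⟩], [
  W6_11947221120, W6_11946963072, W6_11946705024, W6_10873741440, W6_10873483392, W6_10873225344,
  W6_9799745664, W6_9799487616, W6_8726265984]⟩

theorem F6_11947495554_chk : fwdChk 6 ks6 F6_11947495554 = true := by decide +kernel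

noncomputable def F6_11947491585 : Fwd := ⟨V6_11947491585, [
  ⟨V5_8726265984, nat_lit 1, [(nat_lit 41, nat_lit 11947491585),
  (nat_lit 64, nat_lit 13021233408), (nat_lit 101, nat_lit 13021233345),
  (nat_lit 112, nat_lit 14094975168), (nat_lit 12, nat_lit 14094975105),
  (nat_lit 20, nat_lit 15168716928)]⟩,
  ⟨V5_8725741824, nat_lit 1, [(nat_lit 32, nat_lit 11947491585),
  (nat_lit 57, nat_lit 13021233408), (nat_lit 112, nat_lit 13020971265),
  (nat_lit 113, nat_lit 14094713088), (nat_lit 58, nat_lit 14094450945),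
  (nat_lit 51, nat_lit 15168192768)]⟩,
  ⟨V5_10872701184, nat_lit 1, [(nat_lit 41, nat_lit 11947491585),
  (nat_lit 115, nat_lit 13021233408), (nat_lit 66, nat_lit 13020971265),
  (nat_lit 92, nat_lit 14094713088), (nat_lit 121, nat_lit 14094450945),
  (nat_lit 66, nat_lit 15168192768), (nat_lit 51, nat_lit 15167930625),
  (nat_lit 53, nat_lit 16241672448), (nat_lit 31, nat_lit 16241410305),
  (nat_lit 65, nat_lit 17315152128)]⟩,
  ⟨V5_9800007744, nat_lit 1, [(nat_lit 99, nat_lit 11947491585),
  (nat_lit 93, nat_lit 13021233408), (nat_lit 47, nat_lit 13021233345),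
  (nat_lit 102, nat_lit 14094975168), (nat_lit 56, nat_lit 14094975105),
  (nat_lit 107, nat_lit 15168716928), (nat_lit 105, nat_lit 15168716865),
  (nat_lit 77, nat_lit 16242458688)]⟩], [
  W6_11946967104, W6_11946705024, W6_11946442944, W6_10873487424, W6_10873225344, W6_10872963264,
  W6_10872701184, W6_9800007744, W6_9799745664, W6_9799483584, W6_8726265984, W6_8725741824]⟩

theorem F6_11947491585_chk : fwdChk 6 ks6 F6_11947491585 = true := by decide +kernel

noncomputable def F6_11947491522 : Fwd := ⟨V6_11947491522, [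
  ⟨V5_8726265984, nat_lit 1, [(nat_lit 121, nat_lit 11947491522),
  (nat_lit 106, nat_lit 13021233345), (nat_lit 106, nat_lit 13021233282),
  (nat_lit 37, nat_lit 14094975168), (nat_lit 29, nat_lit 14094975105),
  (nat_lit 99, nat_lit 15168716928)]⟩,
  ⟨V5_9799483584, nat_lit 1, [(nat_lit 91, nat_lit 11947491522),
  (nat_lit 121, nat_lit 13021233345), (nat_lit 44, nat_lit 13020971202),
  (nat_lit 21, nat_lit 14094975168), (nat_lit 36, nat_lit 14094713025),
  (nat_lit 75, nat_lit 14094450882), (nat_lit 69, nat_lit 15168454848),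
  (nat_lit 31, nat_lit 15168192705), (nat_lit 55, nat_lit 16241934528)]⟩], [
  W6_11946963072, W6_11946705024, W6_11946442944, W6_10873483392, W6_10873225344, W6_10872963264,
  W6_9799745664, W6_9799483584, W6_8726265984]⟩

theorem F6_11947491522_chk : fwdChk 6 ks6 F6_11947491522 = true := by decide +kernel

noncomputable def F6_11947237506 : Fwd := ⟨V6_11947237506, [
  ⟨V5_8725749888, nat_lit 1, [(nat_lit 10, nat_lit 11947237506),
  (nat_lit 93, nat_lit 13020979329), (nat_lit 40, nat_lit 13020717186),
  (nat_lit 96, nat_lit 14094721152), (nat_lit 9, nat_lit 14094459009),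
  (nat_lit 43, nat_lit 15168200832)]⟩,
  ⟨V5_9799745664, nat_lit 1, [(nat_lit 16, nat_lit 11947237506),
  (nat_lit 93, nat_lit 13020979329), (nat_lit 28, nat_lit 13020975234),
  (nat_lit 11, nat_lit 14094721152), (nat_lit 15, nat_lit 14094717057),
  (nat_lit 32, nat_lit 14094712962), (nat_lit 98, nat_lit 15168458880),
  (nat_lit 36, nat_lit 15168454785), (nat_lit 120, nat_lit 16242196608)]⟩], [
  W6_11947221120, W6_11946963072, W6_11930189952, W6_10873483392, W6_10873225344, W6_10856452224,
  W6_9799745664, W6_9799487616, W6_8725749888]⟩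

theorem F6_11947237506_chk : fwdChk 6 ks6 F6_11947237506 = true := by decide +kernel

noncomputable def F6_11930460480 : Fwd := ⟨V6_11930460480, [
  ⟨V5_11930456064, nat_lit 1, [(nat_lit 25, nat_lit 11930460480),
  (nat_lit 24, nat_lit 13004202240), (nat_lit 21, nat_lit 13004198208),
  (nat_lit 13, nat_lit 14077944000), (nat_lit 98, nat_lit 14077939968),
  (nat_lit 118, nat_lit 15151685760), (nat_lit 24, nat_lit 15151681728),
  (nat_lit 36, nat_lit 16225427520), (nat_lit 121, nat_lit 16225423488),
  (nat_lit 96, nat_lit 17299169280), (nat_lit 25, nat_lit 17299165248),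
  (nat_lit 123, nat_lit 18372907008)]⟩], [
  W6_11930456064, W6_11930198016, W6_11930193984, W6_10856456256, W6_10856452224, W6_9782710464]⟩

theorem F6_11930460480_chk : fwdChk 6 ks6 F6_11930460480 = true := by decide +kernel

noncomputable def F6_11930456259 : Fwd := ⟨V6_11930456259, [
  ⟨V5_10856706240, nat_lit 1, [(nat_lit 123, nat_lit 11930456259),
  (nat_lit 114, nat_lit 13004198082), (nat_lit 62, nat_lit 13004193987),
  (nat_lit 22, nat_lit 14077939905), (nat_lit 71, nat_lit 14077935810),
  (nat_lit 7, nat_lit 14077931715), (nat_lit 31, nat_lit 15151681728),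
  (nat_lit 115, nat_lit 15151677633), (nat_lit 40, nat_lit 15151673538),
  (nat_lit 104, nat_lit 16225419456), (nat_lit 118, nat_lit 16225415361),
  (nat_lit 113, nat_lit 17299157184)]⟩], [
  W6_11930185920, W6_11929927872, W6_10856706240, W6_10856448192, W6_9782710464]⟩

theorem F6_11930456259_chk : fwdChk 6 ks6 F6_11930456259 = true := by decide +kernel

noncomputable def F6_11930198400 : Fwd := ⟨V6_11930198400, [
  ⟨V5_8692195584, nat_lit 1, [(nat_lit 96, nat_lit 11930198400),
  (nat_lit 66, nat_lit 13003940160), (nat_lit 79, nat_lit 12987163008),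
  (nat_lit 34, nat_lit 14077681920), (nat_lit 41, nat_lit 14060904768),
  (nat_lit 94, nat_lit 15134646528)]⟩], [
  W6_11930198016, W6_11913420864, W6_10856456256, W6_10839679104, W6_9765937344, W6_8692195584]⟩

theorem F6_11930198400_chk : fwdChk 6 ks6 F6_11930198400 = true := by decide +kernel

noncomputable def F6_11930198274 : Fwd := ⟨V6_11930198274, [
  ⟨V5_8692195584, nat_lit 1, [(nat_lit 8, nat_lit 11930198274), (nat_lit 78, nat_lit 13003940097),
  (nat_lit 72, nat_lit 12987162882), (nat_lit 34, nat_lit 14077681920),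
  (nat_lit 98, nat_lit 14060904705), (nat_lit 7, nat_lit 15134646528)]⟩,
  ⟨V5_10839671040, nat_lit 1, [(nat_lit 64, nat_lit 11930198274),
  (nat_lit 76, nat_lit 13003940097), (nat_lit 73, nat_lit 13003936002),
  (nat_lit 15, nat_lit 12987162882), (nat_lit 58, nat_lit 14077681920),
  (nat_lit 81, nat_lit 14077677825), (nat_lit 43, nat_lit 14077673730),
  (nat_lit 86, nat_lit 14060904705), (nat_lit 19, nat_lit 14060900610),
  (nat_lit 103, nat_lit 15151419648), (nat_lit 36, nat_lit 15151415553),
  (nat_lit 117, nat_lit 15134646528), (nat_lit 91, nat_lit 15134642433),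
  (nat_lit 24, nat_lit 15134638338), (nat_lit 87, nat_lit 16225157376),
  (nat_lit 101, nat_lit 16208384256), (nat_lit 93, nat_lit 16208380161),
  (nat_lit 109, nat_lit 17282121984)]⟩], [
  W6_11930189952, W6_11913416832, W6_11913412800, W6_10856452224, W6_10856448192, W6_10839679104,
  W6_10839671040, W6_9782710464, W6_9765937344, W6_8692195584]⟩

theorem F6_11930198274_chk : fwdChk 6 ks6 F6_11930198274 = true := by decide +kernel

noncomputable def F6_11930194179 : Fwd := ⟨V6_11930194179, [
  ⟨V5_9782710464, nat_lit 1, [(nat_lit 51, nat_lit 11930194179),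
  (nat_lit 17, nat_lit 13003936002), (nat_lit 79, nat_lit 13003935939),
  (nat_lit 101, nat_lit 14077677825), (nat_lit 21, nat_lit 14077677762),
  (nat_lit 41, nat_lit 15151419648), (nat_lit 89, nat_lit 15151419585),
  (nat_lit 4, nat_lit 16225161408)]⟩], [
  W6_11929927872, W6_11913412800, W6_10856448192, W6_10839671040, W6_9782710464]⟩

theorem F6_11930194179_chk : fwdChk 6 ks6 F6_11930194179 = true := by decide +kernel

noncomputable def F6_11913421122 : Fwd := ⟨V6_11913421122, [
  ⟨V5_8692195584, nat_lit 1, [(nat_lit 91, nat_lit 11913421122),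
  (nat_lit 65, nat_lit 12987162945), (nat_lit 69, nat_lit 12987162882),
  (nat_lit 44, nat_lit 14060904768), (nat_lit 107, nat_lit 14060904705),
  (nat_lit 38, nat_lit 15134646528)]⟩], [
  W6_11913416832, W6_10839679104, W6_9765937344, W6_8692195584]⟩

theorem F6_11913421122_chk : fwdChk 6 ks6 F6_11913421122 = true := by decide +kernel

noncomputable def F6_10907832384 : Fwd := ⟨V6_10907832384, [
  ⟨V5_10907553792, nat_lit 1, [(nat_lit 94, nat_lit 10907832384),
  (nat_lit 60, nat_lit 11981574144), (nat_lit 75, nat_lit 11981570112),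
  (nat_lit 40, nat_lit 11981312064), (nat_lit 60, nat_lit 13055311872),
  (nat_lit 48, nat_lit 13055307840), (nat_lit 96, nat_lit 13055053824),
  (nat_lit 17, nat_lit 13055049792), (nat_lit 107, nat_lit 14129049600),
  (nat_lit 120, nat_lit 14129045568), (nat_lit 106, nat_lit 14128791552),
  (nat_lit 89, nat_lit 14128787520), (nat_lit 39, nat_lit 15202787328),
  (nat_lit 48, nat_lit 15202783296), (nat_lit 68, nat_lit 15202529280),
  (nat_lit 95, nat_lit 15202525248), (nat_lit 97, nat_lit 16276525056),
  (nat_lit 31, nat_lit 16276267008), (nat_lit 48, nat_lit 16276262976),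
  (nat_lit 65, nat_lit 17350004736)]⟩,
  ⟨V5_10906517568, nat_lit 1, [(nat_lit 19, nat_lit 10907832384),
  (nat_lit 16, nat_lit 11981570112), (nat_lit 39, nat_lit 11981312064),
  (nat_lit 63, nat_lit 13055049792), (nat_lit 6, nat_lit 13054791744),
  (nat_lit 120, nat_lit 14128529472), (nat_lit 121, nat_lit 14128271424),
  (nat_lit 126, nat_lit 15202009152), (nat_lit 88, nat_lit 15201751104),
  (nat_lit 80, nat_lit 16275488832), (nat_lit 108, nat_lit 16275230784),
  (nat_lit 27, nat_lit 17348968512)]⟩], [
  W6_10907553792, W6_10907295744, W6_10907037696, W6_10907033664, W6_10906779648, W6_10906775616,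
  W6_10906517568]⟩

theorem F6_10907832384_chk : fwdChk 6 ks6 F6_10907832384 = true := by decide +kernel

noncomputable def F6_10907828352 : Fwd := ⟨V6_10907828352, [
  ⟨V5_10906255488, nat_lit 2, [(nat_lit 23, nat_lit 10907828352),
  (nat_lit 35, nat_lit 11981308032), (nat_lit 109, nat_lit 13054787712),
  (nat_lit 70, nat_lit 14128267392), (nat_lit 115, nat_lit 15201747072),
  (nat_lit 15, nat_lit 16275226752), (nat_lit 101, nat_lit 17348706432)]⟩,
  ⟨V5_10906771584, nat_lit 1, [(nat_lit 97, nat_lit 10907828352),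
  (nat_lit 5, nat_lit 11981566080), (nat_lit 121, nat_lit 11981308032),
  (nat_lit 97, nat_lit 13055303808), (nat_lit 46, nat_lit 13055045760),
  (nat_lit 9, nat_lit 13054787712), (nat_lit 22, nat_lit 14128783488),
  (nat_lit 27, nat_lit 14128525440), (nat_lit 39, nat_lit 14128267392),
  (nat_lit 86, nat_lit 15202263168), (nat_lit 106, nat_lit 15202005120),
  (nat_lit 91, nat_lit 15201747072), (nat_lit 109, nat_lit 16275742848),
  (nat_lit 7, nat_lit 16275484800), (nat_lit 38, nat_lit 17349222528)]⟩,
  ⟨V5_10906517568, nat_lit 1, [(nat_lit 92, nat_lit 10907828352),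
  (nat_lit 65, nat_lit 11981570112), (nat_lit 86, nat_lit 11981308032),
  (nat_lit 65, nat_lit 13055049792), (nat_lit 26, nat_lit 13054787712),
  (nat_lit 57, nat_lit 14128529472), (nat_lit 2, nat_lit 14128267392),
  (nat_lit 64, nat_lit 15202009152), (nat_lit 120, nat_lit 15201747072),
  (nat_lit 110, nat_lit 16275488832), (nat_lit 103, nat_lit 16275226752),
  (nat_lit 108, nat_lit 17348968512)]⟩], [
  W6_10907295744, W6_10907037696, W6_10907033664, W6_10906779648, W6_10906775616, W6_10906771584,
  W6_10906517568, W6_10906255488]⟩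

theorem F6_10907828352_chk : fwdChk 6 ks6 F6_10907828352 = true := by decide +kernel

noncomputable def F6_10907820162 : Fwd := ⟨V6_10907820162, [
  ⟨V5_10906771584, nat_lit 2, [(nat_lit 7, nat_lit 10907820162),
  (nat_lit 61, nat_lit 11981561985), (nat_lit 78, nat_lit 11981299842),
  (nat_lit 29, nat_lit 13055303808), (nat_lit 15, nat_lit 13055041665),
  (nat_lit 9, nat_lit 13054779522), (nat_lit 85, nat_lit 14128783488),
  (nat_lit 95, nat_lit 14128521345), (nat_lit 28, nat_lit 14128259202),
  (nat_lit 26, nat_lit 15202263168), (nat_lit 77, nat_lit 15202001025),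
  (nat_lit 125, nat_lit 15201738882), (nat_lit 25, nat_lit 16275742848),
  (nat_lit 69, nat_lit 16275480705), (nat_lit 50, nat_lit 17349222528)]⟩], [
  W6_10906771584]⟩

theorem F6_10907820162_chk : fwdChk 6 ks6 F6_10907820162 = true := by decide +kernel

noncomputable def F6_10907578368 : Fwd := ⟨V6_10907578368, [
  ⟨V5_10907553792, nat_lit 1, [(nat_lit 47, nat_lit 10907578368),
  (nat_lit 103, nat_lit 11981316096), (nat_lit 116, nat_lit 13055053824),
  (nat_lit 93, nat_lit 14128791552), (nat_lit 42, nat_lit 15202529280),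
  (nat_lit 54, nat_lit 16276267008), (nat_lit 87, nat_lit 17350004736)]⟩], [
  W6_10907553792, W6_10907295744, W6_10907037696, W6_10890522624, W6_10890264576]⟩

theorem F6_10907578368_chk : fwdChk 6 ks6 F6_10907578368 = true := by decide +kernel

noncomputable def F6_10907566272 : Fwd := ⟨V6_10907566272, [
  ⟨V5_10906255488, nat_lit 2, [(nat_lit 85, nat_lit 10907566272),
  (nat_lit 70, nat_lit 11981308032), (nat_lit 74, nat_lit 11981045952),
  (nat_lit 81, nat_lit 13054787712), (nat_lit 57, nat_lit 13054525632),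
  (nat_lit 52, nat_lit 14128267392), (nat_lit 61, nat_lit 14128005312),
  (nat_lit 75, nat_lit 15201747072), (nat_lit 92, nat_lit 15201484992),
  (nat_lit 46, nat_lit 16275226752), (nat_lit 91, nat_lit 16274964672),
  (nat_lit 57, nat_lit 17348706432)]⟩,
  ⟨V5_10906779648, nat_lit 2, [(nat_lit 113, nat_lit 10907566272),
  (nat_lit 32, nat_lit 11981308032), (nat_lit 83, nat_lit 11981045952),
  (nat_lit 78, nat_lit 13055049792), (nat_lit 99, nat_lit 13054787712),
  (nat_lit 14, nat_lit 13054525632), (nat_lit 72, nat_lit 14128791552),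
  (nat_lit 121, nat_lit 14128529472), (nat_lit 75, nat_lit 14128267392),
  (nat_lit 100, nat_lit 14128005312), (nat_lit 77, nat_lit 15202271232),
  (nat_lit 120, nat_lit 15202009152), (nat_lit 113, nat_lit 15201747072),
  (nat_lit 60, nat_lit 16275750912), (nat_lit 11, nat_lit 16275488832),
  (nat_lit 58, nat_lit 17349230592)]⟩], [
  W6_10907037696, W6_10906779648, W6_10906775616, W6_10906517568, W6_10906255488, W6_10890522624,
  W6_10890264576, W6_10890260544, W6_10890002496, W6_10889998464, W6_10889740416, W6_10889736384]⟩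

theorem F6_10907566272_chk : fwdChk 6 ks6 F6_10907566272 = true := by decide +kernel

noncomputable def F6_10907566209 : Fwd := ⟨V6_10907566209, [
  ⟨V5_10906255488, nat_lit 2, [(nat_lit 73, nat_lit 10907566209),
  (nat_lit 106, nat_lit 11981308032), (nat_lit 117, nat_lit 11981045889),
  (nat_lit 39, nat_lit 13054787712), (nat_lit 43, nat_lit 13054525569),
  (nat_lit 100, nat_lit 14128267392), (nat_lit 106, nat_lit 14128005249),
  (nat_lit 65, nat_lit 15201747072), (nat_lit 26, nat_lit 15201484929),
  (nat_lit 20, nat_lit 16275226752), (nat_lit 71, nat_lit 16274964609),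
  (nat_lit 70, nat_lit 17348706432)]⟩,
  ⟨V5_10906771584, nat_lit 1, [(nat_lit 66, nat_lit 10907566209),
  (nat_lit 29, nat_lit 11981308032), (nat_lit 10, nat_lit 11981303937),
  (nat_lit 38, nat_lit 11981045889), (nat_lit 15, nat_lit 13055045760),
  (nat_lit 5, nat_lit 13055041665), (nat_lit 44, nat_lit 13054787712),
  (nat_lit 62, nat_lit 13054783617), (nat_lit 5, nat_lit 13054525569),
  (nat_lit 8, nat_lit 14128783488), (nat_lit 116, nat_lit 14128525440),
  (nat_lit 29, nat_lit 14128521345), (nat_lit 92, nat_lit 14128267392),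
  (nat_lit 94, nat_lit 14128263297), (nat_lit 80, nat_lit 14128005249),
  (nat_lit 18, nat_lit 15202263168), (nat_lit 66, nat_lit 15202005120),
  (nat_lit 43, nat_lit 15202001025), (nat_lit 68, nat_lit 15201747072),
  (nat_lit 21, nat_lit 15201742977), (nat_lit 103, nat_lit 16275742848),
  (nat_lit 94, nat_lit 16275484800), (nat_lit 73, nat_lit 16275480705),
  (nat_lit 76, nat_lit 17349222528)]⟩], [
  W6_10907033664, W6_10906775616, W6_10906771584, W6_10906517568, W6_10906255488, W6_10890518592,
  W6_10890260544, W6_10890002496, W6_10889998464, W6_10889740416]⟩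

theorem F6_10907566209_chk : fwdChk 6 ks6 F6_10907566209 = true := by decide +kernel

noncomputable def F6_10907562177 : Fwd := ⟨V6_10907562177, [
  ⟨V5_10889736384, nat_lit 1, [(nat_lit 95, nat_lit 10907562177),
  (nat_lit 106, nat_lit 11981304000), (nat_lit 87, nat_lit 11981041857),
  (nat_lit 81, nat_lit 11964526785), (nat_lit 41, nat_lit 13054783680),
  (nat_lit 86, nat_lit 13054521537), (nat_lit 50, nat_lit 13038268608),
  (nat_lit 8, nat_lit 13038006465), (nat_lit 20, nat_lit 14128263360),
  (nat_lit 106, nat_lit 14128001217), (nat_lit 17, nat_lit 14111748288),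
  (nat_lit 114, nat_lit 14111486145), (nat_lit 70, nat_lit 15201743040),
  (nat_lit 112, nat_lit 15201480897), (nat_lit 110, nat_lit 15185227968),
  (nat_lit 66, nat_lit 15184965825), (nat_lit 77, nat_lit 16275222720),
  (nat_lit 72, nat_lit 16258707648), (nat_lit 99, nat_lit 16258445505),
  (nat_lit 19, nat_lit 17332187328)]⟩], [
  W6_10906775616, W6_10890260544, W6_10889998464, W6_10889736384]⟩

theorem F6_10907562177_chk : fwdChk 6 ks6 F6_10907562177 = true := by decide +kernel

noncomputable def F6_10907320320 : Fwd := ⟨V6_10907320320, [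
  ⟨V5_10907295744, nat_lit 3, [(nat_lit 78, nat_lit 10907320320),
  (nat_lit 118, nat_lit 11981058048), (nat_lit 110, nat_lit 13054795776),
  (nat_lit 41, nat_lit 14128533504), (nat_lit 15, nat_lit 15202271232),
  (nat_lit 20, nat_lit 16276008960), (nat_lit 47, nat_lit 17349746688)]⟩], [
  W6_10907295744, W6_10890522624, W6_10873749504]⟩

theorem F6_10907320320_chk : fwdChk 6 ks6 F6_10907320320 = true := by decide +kernel

noncomputable def F6_10907316288 : Fwd := ⟨V6_10907316288, [
  ⟨V5_10907295744, nat_lit 3, [(nat_lit 9, nat_lit 10907316288),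
  (nat_lit 65, nat_lit 11981058048), (nat_lit 57, nat_lit 11981054016),
  (nat_lit 56, nat_lit 13054795776), (nat_lit 90, nat_lit 13054791744),
  (nat_lit 111, nat_lit 14128533504), (nat_lit 31, nat_lit 14128529472),
  (nat_lit 46, nat_lit 15202271232), (nat_lit 54, nat_lit 15202267200),
  (nat_lit 74, nat_lit 16276008960), (nat_lit 10, nat_lit 16276004928),
  (nat_lit 26, nat_lit 17349746688)]⟩], [
  W6_10907295744, W6_10907037696, W6_10907033664, W6_10890522624, W6_10890518592, W6_10890264576,
  W6_10890260544, W6_10873749504, W6_10873745472, W6_10873491456, W6_10873487424]⟩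

theorem F6_10907316288_chk : fwdChk 6 ks6 F6_10907316288 = true := by decide +kernel

noncomputable def F6_10907312256 : Fwd := ⟨V6_10907312256, [
  ⟨V5_10907295744, nat_lit 3, [(nat_lit 5, nat_lit 10907312256),
  (nat_lit 47, nat_lit 11981054016), (nat_lit 39, nat_lit 11981049984),
  (nat_lit 91, nat_lit 13054795776), (nat_lit 112, nat_lit 13054791744),
  (nat_lit 49, nat_lit 13054787712), (nat_lit 62, nat_lit 14128533504),
  (nat_lit 32, nat_lit 14128529472), (nat_lit 78, nat_lit 14128525440),
  (nat_lit 88, nat_lit 15202271232), (nat_lit 91, nat_lit 15202267200),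
  (nat_lit 80, nat_lit 15202263168), (nat_lit 123, nat_lit 16276008960),
  (nat_lit 68, nat_lit 16276004928), (nat_lit 72, nat_lit 17349746688)]⟩,
  ⟨V5_10873741440, nat_lit 2, [(nat_lit 74, nat_lit 10907312256),
  (nat_lit 39, nat_lit 11981049984), (nat_lit 46, nat_lit 11964276864),
  (nat_lit 108, nat_lit 13054787712), (nat_lit 42, nat_lit 13038014592),
  (nat_lit 74, nat_lit 13021241472), (nat_lit 53, nat_lit 14128525440),
  (nat_lit 65, nat_lit 14111752320), (nat_lit 69, nat_lit 14094979200),
  (nat_lit 49, nat_lit 15202263168), (nat_lit 61, nat_lit 15185490048),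
  (nat_lit 58, nat_lit 15168716928), (nat_lit 115, nat_lit 16259227776),
  (nat_lit 83, nat_lit 16242454656), (nat_lit 8, nat_lit 17316192384)]⟩,
  ⟨V5_10873233408, nat_lit 3, [(nat_lit 79, nat_lit 10907312256),
  (nat_lit 105, nat_lit 11981054016), (nat_lit 32, nat_lit 11980791936),
  (nat_lit 83, nat_lit 11964276864), (nat_lit 76, nat_lit 13054795776),
  (nat_lit 70, nat_lit 13054533696), (nat_lit 64, nat_lit 13054271616),
  (nat_lit 19, nat_lit 13038018624), (nat_lit 33, nat_lit 13037756544),
  (nat_lit 86, nat_lit 13021241472), (nat_lit 64, nat_lit 14128275456),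
  (nat_lit 90, nat_lit 14128013376), (nat_lit 102, nat_lit 14111760384),
  (nat_lit 46, nat_lit 14111498304), (nat_lit 45, nat_lit 14111236224),
  (nat_lit 18, nat_lit 14094983232), (nat_lit 41, nat_lit 14094721152),
  (nat_lit 81, nat_lit 15201755136), (nat_lit 110, nat_lit 15185240064),
  (nat_lit 103, nat_lit 15184977984), (nat_lit 58, nat_lit 15168724992),
  (nat_lit 18, nat_lit 15168462912), (nat_lit 73, nat_lit 15168200832),
  (nat_lit 85, nat_lit 16258719744), (nat_lit 100, nat_lit 16242204672),
  (nat_lit 6, nat_lit 16241942592), (nat_lit 9, nat_lit 17315684352)]⟩,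
  ⟨V5_10906771584, nat_lit 2, [(nat_lit 39, nat_lit 10907312256),
  (nat_lit 18, nat_lit 11981049984), (nat_lit 83, nat_lit 11980791936),
  (nat_lit 115, nat_lit 13054787712), (nat_lit 26, nat_lit 13054529664),
  (nat_lit 55, nat_lit 13054271616), (nat_lit 111, nat_lit 14128525440),
  (nat_lit 69, nat_lit 14128267392), (nat_lit 126, nat_lit 14128009344),
  (nat_lit 64, nat_lit 15202263168), (nat_lit 117, nat_lit 15202005120),
  (nat_lit 77, nat_lit 15201747072), (nat_lit 23, nat_lit 16275742848),
  (nat_lit 20, nat_lit 16275484800), (nat_lit 5, nat_lit 17349222528)]⟩], [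
  W6_10907295744, W6_10907037696, W6_10907033664, W6_10906779648, W6_10906775616, W6_10906771584,
  W6_10890522624, W6_10890518592, W6_10890264576, W6_10890260544, W6_10890006528, W6_10890002496,
  W6_10889998464, W6_10873749504, W6_10873745472, W6_10873741440, W6_10873491456, W6_10873487424,
  W6_10873483392, W6_10873233408, W6_10873229376, W6_10873225344]⟩

theorem F6_10907312256_chk : fwdChk 6 ks6 F6_10907312256 = true := by decide +kernel

noncomputable def F6_10907308161 : Fwd := ⟨V6_10907308161, [
  ⟨V5_10873741440, nat_lit 2, [(nat_lit 1, nat_lit 10907308161),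
  (nat_lit 124, nat_lit 11981049984), (nat_lit 26, nat_lit 11981045889),
  (nat_lit 18, nat_lit 11964272769), (nat_lit 25, nat_lit 13054787712),
  (nat_lit 78, nat_lit 13054783617), (nat_lit 50, nat_lit 13038014592),
  (nat_lit 65, nat_lit 13038010497), (nat_lit 22, nat_lit 13021237377),
  (nat_lit 94, nat_lit 14128525440), (nat_lit 113, nat_lit 14128521345),
  (nat_lit 95, nat_lit 14111752320), (nat_lit 59, nat_lit 14111748225),
  (nat_lit 42, nat_lit 14094979200), (nat_lit 118, nat_lit 14094975105),
  (nat_lit 48, nat_lit 15202263168), (nat_lit 100, nat_lit 15185490048),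
  (nat_lit 91, nat_lit 15185485953), (nat_lit 77, nat_lit 15168716928),
  (nat_lit 99, nat_lit 15168712833), (nat_lit 49, nat_lit 16259227776),
  (nat_lit 12, nat_lit 16242454656), (nat_lit 97, nat_lit 16242450561),
  (nat_lit 50, nat_lit 17316192384)]⟩,
  ⟨V5_10906771584, nat_lit 2, [(nat_lit 70, nat_lit 10907308161),
  (nat_lit 67, nat_lit 11981049984), (nat_lit 4, nat_lit 11981045889),
  (nat_lit 13, nat_lit 11980787841), (nat_lit 96, nat_lit 13054787712),
  (nat_lit 35, nat_lit 13054783617), (nat_lit 102, nat_lit 13054529664),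
  (nat_lit 17, nat_lit 13054525569), (nat_lit 35, nat_lit 13054267521),
  (nat_lit 113, nat_lit 14128525440), (nat_lit 63, nat_lit 14128521345),
  (nat_lit 85, nat_lit 14128267392), (nat_lit 106, nat_lit 14128263297),
  (nat_lit 79, nat_lit 14128009344), (nat_lit 104, nat_lit 14128005249),
  (nat_lit 29, nat_lit 15202263168), (nat_lit 97, nat_lit 15202005120),
  (nat_lit 17, nat_lit 15202001025), (nat_lit 82, nat_lit 15201747072),
  (nat_lit 108, nat_lit 15201742977), (nat_lit 38, nat_lit 16275742848),
  (nat_lit 2, nat_lit 16275484800), (nat_lit 45, nat_lit 16275480705),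
  (nat_lit 15, nat_lit 17349222528)]⟩], [
  W6_10907033664, W6_10906775616, W6_10906771584, W6_10906517568, W6_10890518592, W6_10890260544,
  W6_10890002496, W6_10889998464, W6_10889740416, W6_10873745472, W6_10873741440, W6_10873487424,
  W6_10873483392, W6_10873229376, W6_10873225344]⟩

theorem F6_10907308161_chk : fwdChk 6 ks6 F6_10907308161 = true := by decide +kernel

noncomputable def F6_10907304192 : Fwd := ⟨V6_10907304192, [
  ⟨V5_10906779648, nat_lit 4, [(nat_lit 93, nat_lit 10907304192),
  (nat_lit 17, nat_lit 11981045952), (nat_lit 6, nat_lit 11980783872),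
  (nat_lit 40, nat_lit 13054787712), (nat_lit 84, nat_lit 13054525632),
  (nat_lit 59, nat_lit 13054263552), (nat_lit 89, nat_lit 14128529472),
  (nat_lit 15, nat_lit 14128267392), (nat_lit 109, nat_lit 14128005312),
  (nat_lit 88, nat_lit 15202271232), (nat_lit 46, nat_lit 15202009152),
  (nat_lit 90, nat_lit 15201747072), (nat_lit 92, nat_lit 16275750912),
  (nat_lit 123, nat_lit 16275488832), (nat_lit 8, nat_lit 17349230592)]⟩,
  ⟨V5_10906255488, nat_lit 2, [(nat_lit 44, nat_lit 10907304192),
  (nat_lit 58, nat_lit 11981045952), (nat_lit 7, nat_lit 11980783872),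
  (nat_lit 102, nat_lit 13054787712), (nat_lit 88, nat_lit 13054525632),
  (nat_lit 83, nat_lit 13054263552), (nat_lit 112, nat_lit 14128267392),
  (nat_lit 83, nat_lit 14128005312), (nat_lit 74, nat_lit 14127743232),
  (nat_lit 44, nat_lit 15201747072), (nat_lit 62, nat_lit 15201484992),
  (nat_lit 18, nat_lit 15201222912), (nat_lit 73, nat_lit 16275226752),
  (nat_lit 47, nat_lit 16274964672), (nat_lit 103, nat_lit 17348706432)]⟩], [
  W6_10906779648, W6_10906517568, W6_10906255488, W6_10890264576, W6_10890002496, W6_10889740416,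
  W6_10873749504, W6_10873487424, W6_10873225344, W6_10872963264, W6_10872701184]⟩

theorem F6_10907304192_chk : fwdChk 6 ks6 F6_10907304192 = true := by decide +kernel

noncomputable def F6_10907304066 : Fwd := ⟨V6_10907304066, [
  ⟨V5_10906255488, nat_lit 2, [(nat_lit 28, nat_lit 10907304066),
  (nat_lit 84, nat_lit 11981045889), (nat_lit 57, nat_lit 11980783746),
  (nat_lit 73, nat_lit 13054787712), (nat_lit 89, nat_lit 13054525569),
  (nat_lit 30, nat_lit 13054263426), (nat_lit 89, nat_lit 14128267392),
  (nat_lit 20, nat_lit 14128005249), (nat_lit 92, nat_lit 14127743106),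
  (nat_lit 52, nat_lit 15201747072), (nat_lit 112, nat_lit 15201484929),
  (nat_lit 79, nat_lit 15201222786), (nat_lit 39, nat_lit 16275226752),
  (nat_lit 68, nat_lit 16274964609), (nat_lit 46, nat_lit 17348706432)]⟩,
  ⟨V5_10906771584, nat_lit 2, [(nat_lit 102, nat_lit 10907304066),
  (nat_lit 11, nat_lit 11981045889), (nat_lit 104, nat_lit 11981041794),
  (nat_lit 12, nat_lit 11980783746), (nat_lit 27, nat_lit 13054787712),
  (nat_lit 45, nat_lit 13054783617), (nat_lit 95, nat_lit 13054779522),
  (nat_lit 96, nat_lit 13054525569), (nat_lit 75, nat_lit 13054521474),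
  (nat_lit 70, nat_lit 13054263426), (nat_lit 53, nat_lit 14128525440),
  (nat_lit 87, nat_lit 14128521345), (nat_lit 26, nat_lit 14128267392),
  (nat_lit 5, nat_lit 14128263297), (nat_lit 60, nat_lit 14128259202),
  (nat_lit 75, nat_lit 14128005249), (nat_lit 1, nat_lit 14128001154),
  (nat_lit 41, nat_lit 15202263168), (nat_lit 110, nat_lit 15202005120),
  (nat_lit 68, nat_lit 15202001025), (nat_lit 29, nat_lit 15201747072),
  (nat_lit 110, nat_lit 15201742977), (nat_lit 22, nat_lit 15201738882),
  (nat_lit 4, nat_lit 16275742848), (nat_lit 69, nat_lit 16275484800),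
  (nat_lit 119, nat_lit 16275480705), (nat_lit 69, nat_lit 17349222528)]⟩], [
  W6_10906771584, W6_10906255488, W6_10889998464, W6_10889740416, W6_10873741440, W6_10873483392,
  W6_10873225344]⟩

theorem F6_10907304066_chk : fwdChk 6 ks6 F6_10907304066 = true := by decide +kernel

noncomputable def F6_10907046018 : Fwd := ⟨V6_10907046018, [
  ⟨V5_10906771584, nat_lit 2, [(nat_lit 76, nat_lit 10907046018),
  (nat_lit 103, nat_lit 11980787841), (nat_lit 110, nat_lit 11980783746),
  (nat_lit 11, nat_lit 11980525698), (nat_lit 84, nat_lit 13054529664),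
  (nat_lit 34, nat_lit 13054525569), (nat_lit 95, nat_lit 13054521474),
  (nat_lit 77, nat_lit 13054267521), (nat_lit 20, nat_lit 13054263426),
  (nat_lit 30, nat_lit 14128267392), (nat_lit 9, nat_lit 14128263297),
  (nat_lit 45, nat_lit 14128259202), (nat_lit 74, nat_lit 14128009344),
  (nat_lit 40, nat_lit 14128005249), (nat_lit 80, nat_lit 14128001154),
  (nat_lit 125, nat_lit 15202005120), (nat_lit 19, nat_lit 15202001025),
  (nat_lit 32, nat_lit 15201747072), (nat_lit 86, nat_lit 15201742977),
  (nat_lit 113, nat_lit 15201738882), (nat_lit 51, nat_lit 16275742848),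
  (nat_lit 114, nat_lit 16275484800), (nat_lit 68, nat_lit 16275480705),
  (nat_lit 4, nat_lit 17349222528)]⟩], [
  W6_10906771584, W6_10889998464, W6_10889740416, W6_10873483392, W6_10873225344, W6_10856452224]⟩

theorem F6_10907046018_chk : fwdChk 6 ks6 F6_10907046018 = true := by decide +kernel

noncomputable def F6_10907042049 : Fwd := ⟨V6_10907042049, [
  ⟨V5_10906255488, nat_lit 2, [(nat_lit 5, nat_lit 10907042049),
  (nat_lit 69, nat_lit 11980783872), (nat_lit 7, nat_lit 11980783809),
  (nat_lit 37, nat_lit 11980521729), (nat_lit 37, nat_lit 13054525632),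
  (nat_lit 79, nat_lit 13054525569), (nat_lit 22, nat_lit 13054263552),
  (nat_lit 91, nat_lit 13054263489), (nat_lit 44, nat_lit 13054001409),
  (nat_lit 23, nat_lit 14128267392), (nat_lit 6, nat_lit 14128005312),
  (nat_lit 73, nat_lit 14128005249), (nat_lit 118, nat_lit 14127743232),
  (nat_lit 12, nat_lit 14127743169), (nat_lit 32, nat_lit 14127481089),
  (nat_lit 26, nat_lit 15201747072), (nat_lit 2, nat_lit 15201484992),
  (nat_lit 114, nat_lit 15201484929), (nat_lit 103, nat_lit 15201222912),
  (nat_lit 56, nat_lit 15201222849), (nat_lit 69, nat_lit 16275226752),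
  (nat_lit 6, nat_lit 16274964672), (nat_lit 51, nat_lit 16274964609),
  (nat_lit 43, nat_lit 17348706432)]⟩,
  ⟨V5_10872701184, nat_lit 1, [(nat_lit 39, nat_lit 10907042049),
  (nat_lit 98, nat_lit 11980783872), (nat_lit 94, nat_lit 11980521729),
  (nat_lit 117, nat_lit 11964006657), (nat_lit 13, nat_lit 13054263552),
  (nat_lit 20, nat_lit 13054001409), (nat_lit 10, nat_lit 13037748480),
  (nat_lit 123, nat_lit 13037486337), (nat_lit 106, nat_lit 13020971265),
  (nat_lit 81, nat_lit 14127743232), (nat_lit 52, nat_lit 14127481089),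
  (nat_lit 112, nat_lit 14111228160), (nat_lit 109, nat_lit 14110966017),
  (nat_lit 62, nat_lit 14094713088), (nat_lit 35, nat_lit 14094450945),
  (nat_lit 61, nat_lit 15201222912), (nat_lit 4, nat_lit 15184707840),
  (nat_lit 15, nat_lit 15184445697), (nat_lit 70, nat_lit 15168192768),
  (nat_lit 41, nat_lit 15167930625), (nat_lit 16, nat_lit 16258187520),
  (nat_lit 45, nat_lit 16241672448), (nat_lit 87, nat_lit 16241410305),
  (nat_lit 124, nat_lit 17315152128)]⟩], [
  W6_10906517568, W6_10906255488, W6_10890002496, W6_10889740416, W6_10873487424, W6_10873225344,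
  W6_10872963264, W6_10872701184, W6_10856448192]⟩

theorem F6_10907042049_chk : fwdChk 6 ks6 F6_10907042049 = true := by decide +kernel

noncomputable def F6_10907041986 : Fwd := ⟨V6_10907041986, [
  ⟨V5_10906255488, nat_lit 2, [(nat_lit 70, nat_lit 10907041986),
  (nat_lit 7, nat_lit 11980783809), (nat_lit 84, nat_lit 11980783746),
  (nat_lit 57, nat_lit 11980521666), (nat_lit 39, nat_lit 13054525632),
  (nat_lit 62, nat_lit 13054525569), (nat_lit 7, nat_lit 13054263489),
  (nat_lit 66, nat_lit 13054263426), (nat_lit 20, nat_lit 13054001346),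
  (nat_lit 121, nat_lit 14128267392), (nat_lit 76, nat_lit 14128005312),
  (nat_lit 42, nat_lit 14128005249), (nat_lit 35, nat_lit 14127743169),
  (nat_lit 62, nat_lit 14127743106), (nat_lit 82, nat_lit 14127481026),
  (nat_lit 5, nat_lit 15201747072), (nat_lit 1, nat_lit 15201484992),
  (nat_lit 60, nat_lit 15201484929), (nat_lit 46, nat_lit 15201222849),
  (nat_lit 29, nat_lit 15201222786), (nat_lit 11, nat_lit 16275226752),
  (nat_lit 104, nat_lit 16274964672), (nat_lit 95, nat_lit 16274964609),
  (nat_lit 18, nat_lit 17348706432)]⟩], [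
  W6_10906255488, W6_10889998464, W6_10889740416, W6_10889736384, W6_10873483392, W6_10873225344,
  W6_10872963264, W6_10856706240, W6_10856448192]⟩

theorem F6_10907041986_chk : fwdChk 6 ks6 F6_10907041986 = true := by decide +kernel

noncomputable def F6_10907037891 : Fwd := ⟨V6_10907037891, [
  ⟨V5_10856706240, nat_lit 1, [(nat_lit 113, nat_lit 10907037891),
  (nat_lit 125, nat_lit 11980779714), (nat_lit 96, nat_lit 11964002499),
  (nat_lit 15, nat_lit 13054521537), (nat_lit 61, nat_lit 13037744322),
  (nat_lit 120, nat_lit 13020967107), (nat_lit 42, nat_lit 14128263360),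
  (nat_lit 10, nat_lit 14111486145), (nat_lit 86, nat_lit 14094708930),
  (nat_lit 87, nat_lit 14077931715), (nat_lit 7, nat_lit 15185227968),
  (nat_lit 68, nat_lit 15168450753), (nat_lit 44, nat_lit 15151673538),
  (nat_lit 22, nat_lit 16242192576), (nat_lit 23, nat_lit 16225415361),
  (nat_lit 48, nat_lit 17299157184)]⟩], [
  W6_10889736384, W6_10856706240]⟩

theorem F6_10907037891_chk : fwdChk 6 ks6 F6_10907037891 = true := by decide +kernel

noncomputable def F6_10890801216 : Fwd := ⟨V6_10890801216, [
  ⟨V5_9816780864, nat_lit 1, [(nat_lit 123, nat_lit 10890801216),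
  (nat_lit 56, nat_lit 11964538944), (nat_lit 47, nat_lit 11964280896),
  (nat_lit 48, nat_lit 13038276672), (nat_lit 117, nat_lit 13038018624),
  (nat_lit 45, nat_lit 14112014400), (nat_lit 9, nat_lit 14111756352),
  (nat_lit 56, nat_lit 15185752128), (nat_lit 109, nat_lit 15185494080),
  (nat_lit 43, nat_lit 16259231808)]⟩], [
  W6_10890522624, W6_10890518592, W6_10890264576, W6_10890260544, W6_9816780864, W6_9816526848]⟩

theorem F6_10890801216_chk : fwdChk 6 ks6 F6_10890801216 = true := by decide +kernel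

noncomputable def F6_10890539073 : Fwd := ⟨V6_10890539073, [
  ⟨V5_9816780864, nat_lit 1, [(nat_lit 13, nat_lit 10890539073),
  (nat_lit 24, nat_lit 11964280896), (nat_lit 58, nat_lit 11964276801),
  (nat_lit 59, nat_lit 13038018624), (nat_lit 125, nat_lit 13038014529),
  (nat_lit 121, nat_lit 14111756352), (nat_lit 31, nat_lit 14111752257),
  (nat_lit 63, nat_lit 15185494080), (nat_lit 84, nat_lit 15185489985),
  (nat_lit 16, nat_lit 16259231808)]⟩], [
  W6_10890518592, W6_10890260544, W6_10873745472, W6_10873487424, W6_9816780864, W6_9800007744,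
  W6_9799749696]⟩

theorem F6_10890539073_chk : fwdChk 6 ks6 F6_10890539073 = true := by decide +kernel

noncomputable def F6_10890526977 : Fwd := ⟨V6_10890526977, [
  ⟨V5_10872701184, nat_lit 1, [(nat_lit 120, nat_lit 10890526977),
  (nat_lit 40, nat_lit 11964268800), (nat_lit 119, nat_lit 11964006657),
  (nat_lit 121, nat_lit 11947491585), (nat_lit 70, nat_lit 13037748480),
  (nat_lit 125, nat_lit 13037486337), (nat_lit 109, nat_lit 13021233408),
  (nat_lit 9, nat_lit 13020971265), (nat_lit 109, nat_lit 14111228160),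
  (nat_lit 69, nat_lit 14110966017), (nat_lit 85, nat_lit 14094713088),
  (nat_lit 70, nat_lit 14094450945), (nat_lit 14, nat_lit 15184707840),
  (nat_lit 37, nat_lit 15184445697), (nat_lit 82, nat_lit 15168192768),
  (nat_lit 91, nat_lit 15167930625), (nat_lit 49, nat_lit 16258187520),
  (nat_lit 122, nat_lit 16241672448), (nat_lit 71, nat_lit 16241410305),
  (nat_lit 122, nat_lit 17315152128)]⟩,
  ⟨V5_9800007744, nat_lit 1, [(nat_lit 109, nat_lit 10890526977),
  (nat_lit 102, nat_lit 11964268800), (nat_lit 101, nat_lit 11964268737),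
  (nat_lit 1, nat_lit 11947491585), (nat_lit 112, nat_lit 13038010560),
  (nat_lit 10, nat_lit 13038010497), (nat_lit 76, nat_lit 13021233408),
  (nat_lit 55, nat_lit 13021233345), (nat_lit 59, nat_lit 14111752320),
  (nat_lit 89, nat_lit 14111752257), (nat_lit 56, nat_lit 14094975168),
  (nat_lit 72, nat_lit 14094975105), (nat_lit 99, nat_lit 15185494080),
  (nat_lit 64, nat_lit 15168716928), (nat_lit 70, nat_lit 15168716865),
  (nat_lit 3, nat_lit 16242458688)]⟩], [
  W6_10890002496, W6_10889740416, W6_10873487424, W6_10873225344, W6_10872963264, W6_10872701184,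
  W6_9800007744, W6_9799745664, W6_9799483584]⟩

theorem F6_10890526977_chk : fwdChk 6 ks6 F6_10890526977 = true := by decide +kernel

noncomputable def F6_10890010944 : Fwd := ⟨V6_10890010944, [
  ⟨V5_10873233408, nat_lit 3, [(nat_lit 38, nat_lit 10890010944),
  (nat_lit 53, nat_lit 11963752704), (nat_lit 11, nat_lit 11946975552),
  (nat_lit 60, nat_lit 13037494464), (nat_lit 44, nat_lit 13020717312),
  (nat_lit 64, nat_lit 14111236224), (nat_lit 70, nat_lit 14094459072),
  (nat_lit 118, nat_lit 15184977984), (nat_lit 101, nat_lit 15168200832),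
  (nat_lit 51, nat_lit 16258719744), (nat_lit 34, nat_lit 16241942592),
  (nat_lit 107, nat_lit 17315684352)]⟩], [
  W6_10890006528, W6_10873233408, W6_10873229376, W6_10856456256, W6_10856452224, W6_10839679104,
  W6_9816264768, W6_9799491648, W6_9799487616, W6_9782710464, W6_9765937344]⟩

theorem F6_10890010944_chk : fwdChk 6 ks6 F6_10890010944 = true := by decide +kernel

noncomputable def F6_10890006849 : Fwd := ⟨V6_10890006849, [
  ⟨V5_9816002688, nat_lit 1, [(nat_lit 121, nat_lit 10890006849),
  (nat_lit 45, nat_lit 11963748672), (nat_lit 42, nat_lit 11963748609),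
  (nat_lit 55, nat_lit 11963486529), (nat_lit 37, nat_lit 13037490432),
  (nat_lit 102, nat_lit 13037490369), (nat_lit 95, nat_lit 13037228352),
  (nat_lit 59, nat_lit 13037228289), (nat_lit 39, nat_lit 14111232192),
  (nat_lit 125, nat_lit 14111232129), (nat_lit 72, nat_lit 14110970112),
  (nat_lit 21, nat_lit 14110970049), (nat_lit 114, nat_lit 15184973952),
  (nat_lit 48, nat_lit 15184711872), (nat_lit 97, nat_lit 15184711809),
  (nat_lit 68, nat_lit 16258453632)]⟩], [
  W6_10873229376, W6_10856452224, W6_9816264768, W6_9816002688, W6_9799487616, W6_9782710464]⟩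

theorem F6_10890006849_chk : fwdChk 6 ks6 F6_10890006849 = true := by decide +kernel

noncomputable def F6_10873761984 : Fwd := ⟨V6_10873761984, [
  ⟨V5_8726274048, nat_lit 1, [(nat_lit 78, nat_lit 10873761984),
  (nat_lit 12, nat_lit 11947503744), (nat_lit 121, nat_lit 11947499712),
  (nat_lit 90, nat_lit 13021245504), (nat_lit 43, nat_lit 13021241472),
  (nat_lit 42, nat_lit 14094987264), (nat_lit 114, nat_lit 14094983232),
  (nat_lit 85, nat_lit 15168724992)]⟩,
  ⟨V5_8726265984, nat_lit 1, [(nat_lit 64, nat_lit 10873761984),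
  (nat_lit 57, nat_lit 11947503744), (nat_lit 28, nat_lit 11947499712),
  (nat_lit 23, nat_lit 13021241472), (nat_lit 121, nat_lit 13021237440),
  (nat_lit 2, nat_lit 14094979200), (nat_lit 30, nat_lit 14094975168),
  (nat_lit 84, nat_lit 15168716928)]⟩], [
  W6_10873749504, W6_10873745472, W6_10873491456, W6_10873487424, W6_10873483392, W6_9800011776,
  W6_9800007744, W6_9799749696, W6_9799745664, W6_8726274048, W6_8726265984]⟩

theorem F6_10873761984_chk : fwdChk 6 ks6 F6_10873761984 = true := by decide +kernel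

noncomputable def F6_10873757952 : Fwd := ⟨V6_10873757952, [
  ⟨V5_8726274048, nat_lit 1, [(nat_lit 7, nat_lit 10873757952), (nat_lit 72, nat_lit 11947499712),
  (nat_lit 46, nat_lit 13021241472), (nat_lit 22, nat_lit 14094983232),
  (nat_lit 100, nat_lit 15168724992)]⟩,
  ⟨V5_10873233408, nat_lit 3, [(nat_lit 104, nat_lit 10873757952),
  (nat_lit 75, nat_lit 11947499712), (nat_lit 19, nat_lit 11947237632),
  (nat_lit 42, nat_lit 13021241472), (nat_lit 12, nat_lit 13020979392),
  (nat_lit 81, nat_lit 13020717312), (nat_lit 49, nat_lit 14094983232),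
  (nat_lit 111, nat_lit 14094721152), (nat_lit 70, nat_lit 14094459072),
  (nat_lit 67, nat_lit 15168724992), (nat_lit 61, nat_lit 15168462912),
  (nat_lit 31, nat_lit 15168200832), (nat_lit 122, nat_lit 16242204672),
  (nat_lit 72, nat_lit 16241942592), (nat_lit 110, nat_lit 17315684352)]⟩,
  ⟨V5_8725741824, nat_lit 1, [(nat_lit 33, nat_lit 10873757952),
  (nat_lit 18, nat_lit 11947495680), (nat_lit 83, nat_lit 11947237632),
  (nat_lit 124, nat_lit 13021233408), (nat_lit 100, nat_lit 13020975360),
  (nat_lit 22, nat_lit 13020717312), (nat_lit 81, nat_lit 14094713088),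
  (nat_lit 18, nat_lit 14094455040), (nat_lit 98, nat_lit 15168192768)]⟩,
  ⟨V5_8726265984, nat_lit 1, [(nat_lit 58, nat_lit 10873757952),
  (nat_lit 45, nat_lit 11947499712), (nat_lit 112, nat_lit 11947495680),
  (nat_lit 63, nat_lit 13021241472), (nat_lit 89, nat_lit 13021237440),
  (nat_lit 10, nat_lit 13021233408), (nat_lit 33, nat_lit 14094979200),
  (nat_lit 62, nat_lit 14094975168), (nat_lit 94, nat_lit 15168716928)]⟩], [
  W6_10873749504, W6_10873491456, W6_10873487424, W6_10873233408, W6_10873229376, W6_10873225344,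
  W6_9800011776, W6_9800007744, W6_9799749696, W6_9799745664, W6_9799491648, W6_9799487616,
  W6_9799483584, W6_8726274048, W6_8726265984, W6_8725749888, W6_8725741824]⟩

theorem F6_10873757952_chk : fwdChk 6 ks6 F6_10873757952 = true := by decide +kernel

noncomputable def F6_10873753857 : Fwd := ⟨V6_10873753857, [
  ⟨V5_8726265984, nat_lit 1, [(nat_lit 26, nat_lit 10873753857),
  (nat_lit 76, nat_lit 11947495680), (nat_lit 11, nat_lit 11947495617),
  (nat_lit 16, nat_lit 11947491585), (nat_lit 61, nat_lit 13021237440),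
  (nat_lit 81, nat_lit 13021237377), (nat_lit 107, nat_lit 13021233408),
  (nat_lit 123, nat_lit 13021233345), (nat_lit 120, nat_lit 14094979200),
  (nat_lit 90, nat_lit 14094975168), (nat_lit 65, nat_lit 14094975105),
  (nat_lit 93, nat_lit 15168716928)]⟩,
  ⟨V5_8725741824, nat_lit 1, [(nat_lit 44, nat_lit 10873753857),
  (nat_lit 112, nat_lit 11947495680), (nat_lit 124, nat_lit 11947491585),
  (nat_lit 104, nat_lit 11947233537), (nat_lit 6, nat_lit 13021233408),
  (nat_lit 59, nat_lit 13020975360), (nat_lit 34, nat_lit 13020971265),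
  (nat_lit 112, nat_lit 13020713217), (nat_lit 7, nat_lit 14094713088),
  (nat_lit 89, nat_lit 14094455040), (nat_lit 7, nat_lit 14094450945),
  (nat_lit 3, nat_lit 15168192768)]⟩,
  ⟨V5_9800007744, nat_lit 1, [(nat_lit 95, nat_lit 10873753857),
  (nat_lit 34, nat_lit 11947495680), (nat_lit 26, nat_lit 11947495617),
  (nat_lit 82, nat_lit 11947491585), (nat_lit 106, nat_lit 13021237440),
  (nat_lit 56, nat_lit 13021237377), (nat_lit 90, nat_lit 13021233408),
  (nat_lit 17, nat_lit 13021233345), (nat_lit 81, nat_lit 14094979200),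
  (nat_lit 119, nat_lit 14094979137), (nat_lit 23, nat_lit 14094975168),
  (nat_lit 7, nat_lit 14094975105), (nat_lit 39, nat_lit 15168720960),
  (nat_lit 34, nat_lit 15168716928), (nat_lit 109, nat_lit 15168716865),
  (nat_lit 83, nat_lit 16242458688)]⟩], [
  W6_10873487424, W6_10873229376, W6_10873225344, W6_10872963264, W6_9800007744, W6_9799749696,
  W6_9799745664, W6_9799487616, W6_9799483584, W6_8726265984, W6_8725741824]⟩

theorem F6_10873753857_chk : fwdChk 6 ks6 F6_10873753857 = true := by decide +kernel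

noncomputable def F6_10873753794 : Fwd := ⟨V6_10873753794, [
  ⟨V5_8726265984, nat_lit 1, [(nat_lit 49, nat_lit 10873753794),
  (nat_lit 20, nat_lit 11947495617), (nat_lit 78, nat_lit 11947495554),
  (nat_lit 114, nat_lit 11947491522), (nat_lit 52, nat_lit 13021237440),
  (nat_lit 58, nat_lit 13021237377), (nat_lit 7, nat_lit 13021233345),
  (nat_lit 94, nat_lit 13021233282), (nat_lit 49, nat_lit 14094979200),
  (nat_lit 100, nat_lit 14094975168), (nat_lit 53, nat_lit 14094975105),
  (nat_lit 117, nat_lit 15168716928)]⟩], [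
  W6_10873483392, W6_10873225344, W6_10872963264, W6_9799745664, W6_9799487616, W6_9799483584,
  W6_8726265984]⟩

theorem F6_10873753794_chk : fwdChk 6 ks6 F6_10873753794 = true := by decide +kernel

noncomputable def F6_10873499841 : Fwd := ⟨V6_10873499841, [
  ⟨V5_10856706240, nat_lit 1, [(nat_lit 57, nat_lit 10873499841),
  (nat_lit 22, nat_lit 11947241664), (nat_lit 53, nat_lit 11947237569),
  (nat_lit 99, nat_lit 11930464449), (nat_lit 111, nat_lit 13020979392),
  (nat_lit 115, nat_lit 13020975297), (nat_lit 91, nat_lit 13004206272),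
  (nat_lit 81, nat_lit 13004202177), (nat_lit 66, nat_lit 14094717120),
  (nat_lit 112, nat_lit 14094713025), (nat_lit 41, nat_lit 14077944000),
  (nat_lit 106, nat_lit 14077939905), (nat_lit 103, nat_lit 15168454848),
  (nat_lit 51, nat_lit 15168450753), (nat_lit 99, nat_lit 15151681728),
  (nat_lit 56, nat_lit 15151677633), (nat_lit 85, nat_lit 16242192576),
  (nat_lit 26, nat_lit 16225419456), (nat_lit 48, nat_lit 16225415361),
  (nat_lit 123, nat_lit 17299157184)]⟩], [
  W6_10873487424, W6_10873483392, W6_10856706240, W6_9799749696, W6_9799745664]⟩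

theorem F6_10873499841_chk : fwdChk 6 ks6 F6_10873499841 = true := by decide +kernel

noncomputable def F6_10873233792 : Fwd := ⟨V6_10873233792, [
  ⟨V5_10873233408, nat_lit 3, [(nat_lit 11, nat_lit 10873233792),
  (nat_lit 26, nat_lit 11946975552), (nat_lit 5, nat_lit 13020717312),
  (nat_lit 94, nat_lit 14094459072), (nat_lit 110, nat_lit 15168200832),
  (nat_lit 18, nat_lit 16241942592), (nat_lit 97, nat_lit 17315684352)]⟩], [
  W6_10873233408, W6_10856456256, W6_10839679104, W6_9799491648, W6_9765937344, W6_8725749888,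
  W6_8692195584]⟩

theorem F6_10873233792_chk : fwdChk 6 ks6 F6_10873233792 = true := by decide +kernel

noncomputable def F6_10873233729 : Fwd := ⟨V6_10873233729, [
  ⟨V5_8692195584, nat_lit 1, [(nat_lit 17, nat_lit 10873233729),
  (nat_lit 83, nat_lit 11946975552), (nat_lit 87, nat_lit 11946975489),
  (nat_lit 70, nat_lit 11930198337), (nat_lit 68, nat_lit 13020717312),
  (nat_lit 24, nat_lit 13003940160), (nat_lit 107, nat_lit 13003940097),
  (nat_lit 12, nat_lit 12987162945), (nat_lit 11, nat_lit 14077681920),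
  (nat_lit 19, nat_lit 14060904768), (nat_lit 69, nat_lit 14060904705),
  (nat_lit 4, nat_lit 15134646528)]⟩,
  ⟨V5_8725749888, nat_lit 1, [(nat_lit 4, nat_lit 10873233729), (nat_lit 80, nat_lit 11946975552),
  (nat_lit 122, nat_lit 11946975489), (nat_lit 44, nat_lit 13020717312),
  (nat_lit 120, nat_lit 13020717249), (nat_lit 42, nat_lit 14094459072),
  (nat_lit 87, nat_lit 14094459009), (nat_lit 16, nat_lit 15168200832)]⟩], [
  W6_10873229376, W6_10856456256, W6_10856452224, W6_10839679104, W6_9799491648, W6_9799487616,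
  W6_9782710464, W6_9765937344, W6_8725749888, W6_8692195584]⟩

theorem F6_10873233729_chk : fwdChk 6 ks6 F6_10873233729 = true := by decide +kernel

noncomputable def F6_10873225476 : Fwd := ⟨V6_10873225476, [
  ⟨V5_8725741824, nat_lit 1, [(nat_lit 8, nat_lit 10873225476),
  (nat_lit 103, nat_lit 11946967299), (nat_lit 57, nat_lit 13020709122),
  (nat_lit 79, nat_lit 14094450945), (nat_lit 35, nat_lit 15168192768)]⟩], [
  W6_10872701184, W6_10839671040, W6_8725741824]⟩

theorem F6_10873225476_chk : fwdChk 6 ks6 F6_10873225476 = true := by decide +kernel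

noncomputable def F6_10856456451 : Fwd := ⟨V6_10856456451, [
  ⟨V5_8692195584, nat_lit 1, [(nat_lit 27, nat_lit 10856456451),
  (nat_lit 114, nat_lit 11930198274), (nat_lit 55, nat_lit 11913421059),
  (nat_lit 126, nat_lit 13003940097), (nat_lit 50, nat_lit 12987162882),
  (nat_lit 112, nat_lit 14077681920), (nat_lit 10, nat_lit 14060904705),
  (nat_lit 63, nat_lit 15134646528)]⟩], [
  W6_10856448192, W6_10839671040, W6_9782710464, W6_9765937344, W6_8692195584]⟩

theorem F6_10856456451_chk : fwdChk 6 ks6 F6_10856456451 = true := by decide +kernel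

noncomputable def F6_10839679236 : Fwd := ⟨V6_10839679236, [
  ⟨V5_8692195584, nat_lit 1, [(nat_lit 121, nat_lit 10839679236),
  (nat_lit 18, nat_lit 11913421059), (nat_lit 116, nat_lit 12987162882),
  (nat_lit 36, nat_lit 14060904705), (nat_lit 69, nat_lit 15134646528)]⟩], [
  W6_10839671040, W6_8692195584]⟩

theorem F6_10839679236_chk : fwdChk 6 ks6 F6_10839679236 = true := by decide +kernel

noncomputable def F6_9817055424 : Fwd := ⟨V6_9817055424, [
  ⟨V5_9816256704, nat_lit 1, [(nat_lit 75, nat_lit 9817055424),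
  (nat_lit 106, nat_lit 10890793152), (nat_lit 55, nat_lit 10890535104),
  (nat_lit 1, nat_lit 11964530880), (nat_lit 53, nat_lit 11964272832),
  (nat_lit 108, nat_lit 11964014784), (nat_lit 61, nat_lit 13038268608),
  (nat_lit 109, nat_lit 13038010560), (nat_lit 109, nat_lit 13037752512),
  (nat_lit 55, nat_lit 13037494464), (nat_lit 10, nat_lit 14111748288),
  (nat_lit 7, nat_lit 14111490240), (nat_lit 16, nat_lit 14111232192),
  (nat_lit 13, nat_lit 15185227968), (nat_lit 120, nat_lit 15184969920),
  (nat_lit 20, nat_lit 16258707648)]⟩], [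
  W6_9816780864, W6_9816526848, W6_9816518784, W6_9816264768, W6_9816256704]⟩

theorem F6_9817055424_chk : fwdChk 6 ks6 F6_9817055424 = true := by decide +kernel

noncomputable def F6_9817051329 : Fwd := ⟨V6_9817051329, [
  ⟨V5_9816002688, nat_lit 1, [(nat_lit 69, nat_lit 9817051329), (nat_lit 19, nat_lit 10890793152),
  (nat_lit 39, nat_lit 10890793089), (nat_lit 109, nat_lit 10890531009),
  (nat_lit 39, nat_lit 11964534912), (nat_lit 77, nat_lit 11964272832),
  (nat_lit 93, nat_lit 11964272769), (nat_lit 69, nat_lit 11964010689),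
  (nat_lit 116, nat_lit 13038014592), (nat_lit 17, nat_lit 13037752512),
  (nat_lit 111, nat_lit 13037752449), (nat_lit 84, nat_lit 13037490369),
  (nat_lit 106, nat_lit 14111494272), (nat_lit 77, nat_lit 14111232192),
  (nat_lit 65, nat_lit 14111232129), (nat_lit 24, nat_lit 14110970049),
  (nat_lit 71, nat_lit 15184973952), (nat_lit 105, nat_lit 15184711872),
  (nat_lit 39, nat_lit 15184711809), (nat_lit 59, nat_lit 16258453632)]⟩], [
  W6_9816780864, W6_9816518784, W6_9816264768, W6_9816256704, W6_9816002688]⟩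

theorem F6_9817051329_chk : fwdChk 6 ks6 F6_9817051329 = true := by decide +kernel

noncomputable def F6_9817051266 : Fwd := ⟨V6_9817051266, [
  ⟨V5_9816002688, nat_lit 1, [(nat_lit 48, nat_lit 9817051266),
  (nat_lit 109, nat_lit 10890793089), (nat_lit 75, nat_lit 10890530946),
  (nat_lit 115, nat_lit 11964534912), (nat_lit 12, nat_lit 11964272769),
  (nat_lit 8, nat_lit 11964010626), (nat_lit 25, nat_lit 13038014592),
  (nat_lit 46, nat_lit 13037752449), (nat_lit 37, nat_lit 13037490306),
  (nat_lit 72, nat_lit 14111494272), (nat_lit 73, nat_lit 14111232129),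
  (nat_lit 74, nat_lit 14110969986), (nat_lit 74, nat_lit 15184973952),
  (nat_lit 112, nat_lit 15184711809), (nat_lit 50, nat_lit 16258453632)]⟩], [
  W6_9816518784, W6_9816002688]⟩

theorem F6_9817051266_chk : fwdChk 6 ks6 F6_9817051266 = true := by decide +kernel

noncomputable def F6_9816793344 : Fwd := ⟨V6_9816793344, [
  ⟨V5_9816526848, nat_lit 1, [(nat_lit 61, nat_lit 9816793344), (nat_lit 5, nat_lit 10890535104),
  (nat_lit 88, nat_lit 10890531072), (nat_lit 110, nat_lit 10890273024),
  (nat_lit 102, nat_lit 11964276864), (nat_lit 56, nat_lit 11964272832),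
  (nat_lit 64, nat_lit 11964014784), (nat_lit 89, nat_lit 11964010752),
  (nat_lit 113, nat_lit 13038018624), (nat_lit 40, nat_lit 13038014592),
  (nat_lit 12, nat_lit 13037756544), (nat_lit 19, nat_lit 13037752512),
  (nat_lit 99, nat_lit 14111760384), (nat_lit 108, nat_lit 14111756352),
  (nat_lit 39, nat_lit 14111498304), (nat_lit 80, nat_lit 14111494272),
  (nat_lit 48, nat_lit 15185498112), (nat_lit 25, nat_lit 15185240064),
  (nat_lit 38, nat_lit 15185236032), (nat_lit 106, nat_lit 16258977792)]⟩], [
  W6_9816526848, W6_9816264768, W6_9800011776, W6_9800007744, W6_9799749696, W6_9799745664,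
  W6_9799491648, W6_9799487616, W6_9799483584]⟩

theorem F6_9816793344_chk : fwdChk 6 ks6 F6_9816793344 = true := by decide +kernel

noncomputable def F6_9816789312 : Fwd := ⟨V6_9816789312, [
  ⟨V5_9800011776, nat_lit 1, [(nat_lit 54, nat_lit 9816789312), (nat_lit 12, nat_lit 10890531072),
  (nat_lit 117, nat_lit 10873753920), (nat_lit 70, nat_lit 11964272832),
  (nat_lit 53, nat_lit 11947495680), (nat_lit 73, nat_lit 13038014592),
  (nat_lit 93, nat_lit 13021237440), (nat_lit 108, nat_lit 14111756352),
  (nat_lit 74, nat_lit 14094979200), (nat_lit 92, nat_lit 15185498112),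
  (nat_lit 75, nat_lit 15168720960), (nat_lit 85, nat_lit 16242462720)]⟩,
  ⟨V5_9816526848, nat_lit 1, [(nat_lit 73, nat_lit 9816789312), (nat_lit 65, nat_lit 10890531072),
  (nat_lit 81, nat_lit 10890268992), (nat_lit 93, nat_lit 11964272832),
  (nat_lit 81, nat_lit 11964010752), (nat_lit 10, nat_lit 13038014592),
  (nat_lit 100, nat_lit 13037752512), (nat_lit 37, nat_lit 14111756352),
  (nat_lit 59, nat_lit 14111494272), (nat_lit 5, nat_lit 15185498112),
  (nat_lit 23, nat_lit 15185236032), (nat_lit 63, nat_lit 16258977792)]⟩], [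
  W6_9816526848, W6_9816264768, W6_9816002688, W6_9800011776, W6_9799749696, W6_9799487616]⟩

theorem F6_9816789312_chk : fwdChk 6 ks6 F6_9816789312 = true := by decide +kernel

noncomputable def F6_9816785091 : Fwd := ⟨V6_9816785091, [
  ⟨V5_9816256704, nat_lit 1, [(nat_lit 81, nat_lit 9816785091), (nat_lit 95, nat_lit 10890526914),
  (nat_lit 66, nat_lit 10890522819), (nat_lit 44, nat_lit 10890264771),
  (nat_lit 27, nat_lit 11964268737), (nat_lit 13, nat_lit 11964264642),
  (nat_lit 124, nat_lit 11964006594), (nat_lit 64, nat_lit 11964002499),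
  (nat_lit 23, nat_lit 11963744451), (nat_lit 44, nat_lit 13038010560),
  (nat_lit 1, nat_lit 13038006465), (nat_lit 55, nat_lit 13037748417),
  (nat_lit 99, nat_lit 13037744322), (nat_lit 26, nat_lit 13037486274),
  (nat_lit 48, nat_lit 13037482179), (nat_lit 26, nat_lit 14111748288),
  (nat_lit 32, nat_lit 14111490240), (nat_lit 96, nat_lit 14111486145),
  (nat_lit 11, nat_lit 14111228097), (nat_lit 50, nat_lit 14111224002),
  (nat_lit 12, nat_lit 15185227968), (nat_lit 103, nat_lit 15184969920),
  (nat_lit 117, nat_lit 15184965825), (nat_lit 92, nat_lit 16258707648)]⟩], [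
  W6_9816256704, W6_9799483584]⟩

theorem F6_9816785091_chk : fwdChk 6 ks6 F6_9816785091 = true := by decide +kernel

noncomputable def F6_9800024256 : Fwd := ⟨V6_9800024256, [
  ⟨V5_8726274048, nat_lit 1, [(nat_lit 44, nat_lit 9800024256), (nat_lit 55, nat_lit 10873766016),
  (nat_lit 124, nat_lit 10873761984), (nat_lit 61, nat_lit 11947507776),
  (nat_lit 105, nat_lit 11947503744), (nat_lit 27, nat_lit 11947499712),
  (nat_lit 97, nat_lit 13021249536), (nat_lit 46, nat_lit 13021245504),
  (nat_lit 111, nat_lit 13021241472), (nat_lit 83, nat_lit 14094987264),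
  (nat_lit 10, nat_lit 14094983232), (nat_lit 68, nat_lit 15168724992)]⟩], [
  W6_9800011776, W6_9800007744, W6_8726274048, W6_8726265984]⟩

theorem F6_9800024256_chk : fwdChk 6 ks6 F6_9800024256 = true := by decide +kernel

noncomputable def F6_9800016192 : Fwd := ⟨V6_9800016192, [
  ⟨V5_8726274048, nat_lit 1, [(nat_lit 42, nat_lit 9800016192), (nat_lit 6, nat_lit 10873757952),
  (nat_lit 92, nat_lit 11947499712), (nat_lit 121, nat_lit 13021241472),
  (nat_lit 66, nat_lit 14094983232), (nat_lit 24, nat_lit 15168724992)]⟩], [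
  W6_9800011776, W6_9799749696, W6_9799491648, W6_9799487616, W6_8726274048, W6_8725749888]⟩

theorem F6_9800016192_chk : fwdChk 6 ks6 F6_9800016192 = true := by decide +kernel

noncomputable def F6_9799753986 : Fwd := ⟨V6_9799753986, [
  ⟨V5_8725741824, nat_lit 1, [(nat_lit 109, nat_lit 9799753986), (nat_lit 8, nat_lit 10873495809),
  (nat_lit 126, nat_lit 10873491714), (nat_lit 27, nat_lit 10873233666),
  (nat_lit 111, nat_lit 11947237632), (nat_lit 44, nat_lit 11947233537),
  (nat_lit 121, nat_lit 11947229442), (nat_lit 12, nat_lit 11946975489),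
  (nat_lit 2, nat_lit 11946971394), (nat_lit 16, nat_lit 13020975360),
  (nat_lit 21, nat_lit 13020971265), (nat_lit 90, nat_lit 13020717312),
  (nat_lit 88, nat_lit 13020713217), (nat_lit 77, nat_lit 13020709122),
  (nat_lit 121, nat_lit 14094713088), (nat_lit 7, nat_lit 14094455040),
  (nat_lit 79, nat_lit 14094450945), (nat_lit 3, nat_lit 15168192768)]⟩], [
  W6_9799745664, W6_9799487616, W6_9799483584, W6_9782710464, W6_8725749888, W6_8725741824]⟩

theorem F6_9799753986_chk : fwdChk 6 ks6 F6_9799753986 = true := by decide +kernel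

noncomputable def F6_9765937539 : Fwd := ⟨V6_9765937539, [
  ⟨V5_6544712064, nat_lit 1, [(nat_lit 53, nat_lit 9765937539), (nat_lit 21, nat_lit 10839679362),
  (nat_lit 5, nat_lit 11913421185), (nat_lit 23, nat_lit 12987163008)]⟩], [
  W6_9765937344, W6_8692195584, W6_6544712064]⟩

theorem F6_9765937539_chk : fwdChk 6 ks6 F6_9765937539 = true := by decide +kernel

noncomputable def F6_8726282496 : Fwd := ⟨V6_8726282496, [
  ⟨V5_8726274048, nat_lit 1, [(nat_lit 119, nat_lit 8726282496), (nat_lit 34, nat_lit 9800024256),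
  (nat_lit 47, nat_lit 9800020224), (nat_lit 71, nat_lit 10873766016),
  (nat_lit 79, nat_lit 10873761984), (nat_lit 64, nat_lit 10873757952),
  (nat_lit 5, nat_lit 11947507776), (nat_lit 35, nat_lit 11947503744),
  (nat_lit 107, nat_lit 11947499712), (nat_lit 17, nat_lit 13021249536),
  (nat_lit 15, nat_lit 13021245504), (nat_lit 110, nat_lit 13021241472),
  (nat_lit 76, nat_lit 14094987264), (nat_lit 77, nat_lit 14094983232),
  (nat_lit 73, nat_lit 15168724992)]⟩], [
  W6_8726274048, W6_8726265984]⟩

theorem F6_8726282496_chk : fwdChk 6 ks6 F6_8726282496 = true := by decide +kernel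

noncomputable def F6_8726274432 : Fwd := ⟨V6_8726274432, [
  ⟨V5_8726274048, nat_lit 1, [(nat_lit 120, nat_lit 8726274432), (nat_lit 36, nat_lit 9800016192),
  (nat_lit 80, nat_lit 10873757952), (nat_lit 51, nat_lit 11947499712),
  (nat_lit 64, nat_lit 13021241472), (nat_lit 46, nat_lit 14094983232),
  (nat_lit 60, nat_lit 15168724992)]⟩], [
  W6_8726274048, W6_8725749888]⟩

theorem F6_8726274432_chk : fwdChk 6 ks6 F6_8726274432 = true := by decide +kernel

noncomputable def F6_8692195716 : Fwd := ⟨V6_8692195716, [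
  ⟨V5_6544712064, nat_lit 1, [(nat_lit 19, nat_lit 8692195716), (nat_lit 23, nat_lit 9765937539),
  (nat_lit 125, nat_lit 10839679362), (nat_lit 1, nat_lit 11913421185),
  (nat_lit 34, nat_lit 12987163008)]⟩], [
  W6_8692195584, W6_6544712064]⟩

theorem F6_8692195716_chk : fwdChk 6 ks6 F6_8692195716 = true := by decide +kernel

noncomputable def F6_6544712070 : Fwd := ⟨V6_6544712070, [
  ⟨V5_6544712064, nat_lit 1, [(nat_lit 78, nat_lit 6544712070), (nat_lit 118, nat_lit 7618453893),
  (nat_lit 110, nat_lit 8692195716), (nat_lit 41, nat_lit 9765937539),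
  (nat_lit 15, nat_lit 10839679362), (nat_lit 20, nat_lit 11913421185),
  (nat_lit 47, nat_lit 12987163008)]⟩], [
  W6_6544712064]⟩

theorem F6_6544712070_chk : fwdChk 6 ks6 F6_6544712070 = true := by decide +kernel

end Crest.Agent.R187.SN.Fwd
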