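import Crest.Agent.R187.SN.FwdDef
import Crest.Agent.R187.SN.TD.Ks
import Crest.Agent.R187.SN.TD.W5_0
import Crest.Agent.R187.SN.TD.X4
import Crest.Agent.R187.SN.TD.X5_0
import Crest.Agent.R187.SN.TD.X5_1

/-!
# Row 187, PLAN S, certificate E3: forward records of level `(6, 5)`, part 0

`F5_<key> : Fwd` = sources (table of level `(6, 4)`, number of rows, quadrature record) and
`W` tables of the table `V5_<key>`; each record is checked by the kernel.
-/

set_option autoImplicit false
set_option Elab.async false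
set_option maxRecDepth 100000

namespace Crest.Agent.R187.SN.Fwd

open Crest.Agent.R187.SN.Top

noncomputable def F5_32212254720 : Fwd := ⟨V5_32212254720, [
  ⟨V4_25769803776, nat_lit 1, [(nat_lit 95, nat_lit 32212254720)]⟩], [
  W5_26843545600]⟩

theorem F5_32212254720_chk : fwdChk 5 ks5 F5_32212254720 = true := by decide +kernel

noncomputable def F5_27951366144 : Fwd := ⟨V5_27951366144, [
  ⟨V4_21508915200, nat_lit 1, [(nat_lit 99, nat_lit 27951366144)]⟩], [
  W5_24729616384, W5_22582657024]⟩

theorem F5_27951366144_chk : fwdChk 5 ks5 F5_27951366144 = true := by decide +kernel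

noncomputable def F5_26927431680 : Fwd := ⟨V5_26927431680, [
  ⟨V4_21541945344, nat_lit 2, [(nat_lit 95, nat_lit 26927431680),
  (nat_lit 81, nat_lit 27984396288)]⟩], [
  W5_26843545600, W5_24729616384, W5_23672651776, W5_22615687168, W5_21558722560]⟩

theorem F5_26927431680_chk : fwdChk 5 ks5 F5_26927431680 = true := by decide +kernel

noncomputable def F5_26910916608 : Fwd := ⟨V5_26910916608, [
  ⟨V4_20468465664, nat_lit 1, [(nat_lit 35, nat_lit 26910916608)]⟩], [
  W5_24729616384, W5_23672651776, W5_22615687168, W5_21542207488]⟩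

theorem F5_26910916608_chk : fwdChk 5 ks5 F5_26910916608 = true := by decide +kernel

noncomputable def F5_25870467072 : Fwd := ⟨V5_25870467072, [
  ⟨V4_19428016128, nat_lit 3, [(nat_lit 121, nat_lit 25870467072)]⟩], [
  W5_24729616384, W5_23672651776, W5_22615687168, W5_21558722560, W5_20501757952]⟩

theorem F5_25870467072_chk : fwdChk 5 ks5 F5_25870467072 = true := by decide +kernel

noncomputable def F5_25803890688 : Fwd := ⟨V5_25803890688, [
  ⟨V4_19361439744, nat_lit 1, [(nat_lit 76, nat_lit 25803890688)]⟩], [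
  W5_22582657024, W5_20435181568]⟩

theorem F5_25803890688_chk : fwdChk 5 ks5 F5_25803890688 = true := by decide +kernel

noncomputable def F5_24763957248 : Fwd := ⟨V5_24763957248, [
  ⟨V4_18321506304, nat_lit 1, [(nat_lit 27, nat_lit 24763957248)]⟩,
  ⟨V4_20468465664, nat_lit 1, [(nat_lit 31, nat_lit 24763957248),
  (nat_lit 84, nat_lit 25837436928), (nat_lit 62, nat_lit 26910916608)]⟩], [
  W5_23672651776, W5_22615687168, W5_21542207488, W5_21525692416, W5_20468727808, W5_19395248128]⟩

theorem F5_24763957248_chk : fwdChk 5 ks5 F5_24763957248 = true := by decide +kernel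

noncomputable def F5_24763699200 : Fwd := ⟨V5_24763699200, [
  ⟨V4_21508915200, nat_lit 1, [(nat_lit 64, nat_lit 24763699200),
  (nat_lit 116, nat_lit 25837436928), (nat_lit 97, nat_lit 25820663808),
  (nat_lit 116, nat_lit 26894401536), (nat_lit 24, nat_lit 26877628416),
  (nat_lit 6, nat_lit 27951366144)]⟩], [
  W5_22582657024, W5_21542207488, W5_21525692416, W5_20468727808, W5_19394990080]⟩

theorem F5_24763699200_chk : fwdChk 5 ks5 F5_24763699200 = true := by decide +kernel

noncomputable def F5_23756537856 : Fwd := ⟨V5_23756537856, [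
  ⟨V4_17314086912, nat_lit 3, [(nat_lit 19, nat_lit 23756537856)]⟩,
  ⟨V4_18371051520, nat_lit 2, [(nat_lit 91, nat_lit 23756537856),
  (nat_lit 86, nat_lit 24813502464)]⟩], [
  W5_23672651776, W5_22615687168, W5_21558722560, W5_20501757952, W5_19444793344, W5_18387828736]⟩

theorem F5_23756537856_chk : fwdChk 5 ks5 F5_23756537856 = true := by decide +kernel

noncomputable def F5_23740022784 : Fwd := ⟨V5_23740022784, [
  ⟨V4_19428016128, nat_lit 3, [(nat_lit 88, nat_lit 23740022784),
  (nat_lit 31, nat_lit 24813502464), (nat_lit 40, nat_lit 24796987392),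
  (nat_lit 94, nat_lit 25870467072)]⟩], [
  W5_23672651776, W5_22615687168, W5_21558722560, W5_21542207488, W5_20501757952, W5_20485242880,
  W5_19444793344, W5_19428278272, W5_18371313664]⟩

theorem F5_23740022784_chk : fwdChk 5 ks5 F5_23740022784 = true := by decide +kernel

noncomputable def F5_23723507712 : Fwd := ⟨V5_23723507712, [
  ⟨V4_17281056768, nat_lit 4, [(nat_lit 68, nat_lit 23723507712)]⟩,
  ⟨V4_19428016128, nat_lit 3, [(nat_lit 123, nat_lit 23723507712),
  (nat_lit 67, nat_lit 24796987392), (nat_lit 119, nat_lit 25870467072)]⟩], [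
  W5_23672651776, W5_22615687168, W5_22582657024, W5_21558722560, W5_21542207488, W5_21525692416,
  W5_20501757952, W5_20485242880, W5_20468727808, W5_19428278272, W5_19411763200, W5_18354798592]⟩

theorem F5_23723507712_chk : fwdChk 5 ks5 F5_23723507712 = true := by decide +kernel

noncomputable def F5_23706734592 : Fwd := ⟨V5_23706734592, [
  ⟨V4_18338021376, nat_lit 2, [(nat_lit 35, nat_lit 23706734592),
  (nat_lit 75, nat_lit 24780472320)]⟩], [
  W5_22582657024, W5_21542207488, W5_21525692416, W5_20485242880, W5_20468727808, W5_19411763200,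
  W5_19394990080, W5_18338025472]⟩

theorem F5_23706734592_chk : fwdChk 5 ks5 F5_23706734592 = true := by decide +kernel

noncomputable def F5_23690477568 : Fwd := ⟨V5_23690477568, [
  ⟨V4_17248026624, nat_lit 2, [(nat_lit 101, nat_lit 23690477568)]⟩,
  ⟨V4_20468465664, nat_lit 1, [(nat_lit 119, nat_lit 23690477568),
  (nat_lit 92, nat_lit 24763957248), (nat_lit 121, nat_lit 25837436928),
  (nat_lit 90, nat_lit 26910916608)]⟩], [
  W5_22615687168, W5_21542207488, W5_20468727808, W5_19395248128, W5_18321768448]⟩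

theorem F5_23690477568_chk : fwdChk 5 ks5 F5_23690477568 = true := by decide +kernel

noncomputable def F5_23689961472 : Fwd := ⟨V5_23689961472, [
  ⟨V4_19361439744, nat_lit 1, [(nat_lit 94, nat_lit 23689961472),
  (nat_lit 113, nat_lit 24746926080), (nat_lit 90, nat_lit 25803890688)]⟩,
  ⟨V4_17247510528, nat_lit 1, [(nat_lit 116, nat_lit 23689961472)]⟩], [
  W5_22582657024, W5_21525692416, W5_20468727808, W5_20435181568, W5_19394990080, W5_19378216960,
  W5_18321252352]⟩

theorem F5_23689961472_chk : fwdChk 5 ks5 F5_23689961472 = true := by decide +kernel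

noncomputable def F5_23656407168 : Fwd := ⟨V5_23656407168, [
  ⟨V4_19361439744, nat_lit 1, [(nat_lit 91, nat_lit 23656407168),
  (nat_lit 83, nat_lit 24730148928), (nat_lit 8, nat_lit 25803890688)]⟩], [
  W5_20435181568, W5_18287698048]⟩

theorem F5_23656407168_chk : fwdChk 5 ks5 F5_23656407168 = true := by decide +kernel

noncomputable def F5_22699573248 : Fwd := ⟨V5_22699573248, [
  ⟨V4_17314086912, nat_lit 3, [(nat_lit 73, nat_lit 22699573248),
  (nat_lit 49, nat_lit 23756537856)]⟩], [
  W5_22615687168, W5_21558722560, W5_20501757952, W5_19444793344, W5_18387828736, W5_17330864128]⟩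

theorem F5_22699573248_chk : fwdChk 5 ks5 F5_22699573248 = true := by decide +kernel

noncomputable def F5_22666285056 : Fwd := ⟨V5_22666285056, [
  ⟨V4_16223834112, nat_lit 1, [(nat_lit 4, nat_lit 22666285056)]⟩], [
  W5_21542207488, W5_20485242880, W5_19428278272, W5_18371313664, W5_17297575936]⟩

theorem F5_22666285056_chk : fwdChk 5 ks5 F5_22666285056 = true := by decide +kernel

noncomputable def F5_22649769984 : Fwd := ⟨V5_22649769984, [
  ⟨V4_17281056768, nat_lit 4, [(nat_lit 115, nat_lit 22649769984),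
  (nat_lit 9, nat_lit 23723507712)]⟩], [
  W5_22582657024, W5_21542207488, W5_21525692416, W5_20485242880, W5_20468727808, W5_19428278272,
  W5_19411763200, W5_19394990080, W5_18354798592, W5_18338025472, W5_17281060864]⟩

theorem F5_22649769984_chk : fwdChk 5 ks5 F5_22649769984 = true := by decide +kernel

noncomputable def F5_22632996864 : Fwd := ⟨V5_22632996864, [
  ⟨V4_19361439744, nat_lit 1, [(nat_lit 29, nat_lit 22632996864),
  (nat_lit 17, nat_lit 23689961472), (nat_lit 20, nat_lit 24746926080),
  (nat_lit 37, nat_lit 25803890688)]⟩,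
  ⟨V4_16190545920, nat_lit 1, [(nat_lit 14, nat_lit 22632996864)]⟩,
  ⟨V4_17247510528, nat_lit 1, [(nat_lit 55, nat_lit 22632996864),
  (nat_lit 48, nat_lit 23689961472)]⟩], [
  W5_22582657024, W5_21525692416, W5_20468727808, W5_20435181568, W5_19411763200, W5_19394990080,
  W5_19378216960, W5_18338025472, W5_18321252352, W5_17264287744]⟩

theorem F5_22632996864_chk : fwdChk 5 ks5 F5_22632996864 = true := by decide +kernel

noncomputable def F5_22616481792 : Fwd := ⟨V5_22616481792, [
  ⟨V4_17247510528, nat_lit 1, [(nat_lit 115, nat_lit 22616481792),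
  (nat_lit 63, nat_lit 23689961472)]⟩], [
  W5_21525692416, W5_20468727808, W5_19395248128, W5_19394990080, W5_19378216960, W5_18321510400,
  W5_18321252352, W5_17247772672]⟩

theorem F5_22616481792_chk : fwdChk 5 ks5 F5_22616481792 = true := by decide +kernel

noncomputable def F5_22616219712 : Fwd := ⟨V5_22616219712, [
  ⟨V4_19361439744, nat_lit 1, [(nat_lit 11, nat_lit 22616219712),
  (nat_lit 4, nat_lit 23689961472), (nat_lit 80, nat_lit 23673184320),
  (nat_lit 86, nat_lit 24746926080), (nat_lit 114, nat_lit 24730148928),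
  (nat_lit 84, nat_lit 25803890688)]⟩], [
  W5_20435181568, W5_19394990080, W5_19378216960, W5_18321252352, W5_17247510592]⟩

theorem F5_22616219712_chk : fwdChk 5 ks5 F5_22616219712 = true := by decide +kernel

noncomputable def F5_21642608640 : Fwd := ⟨V5_21642608640, [
  ⟨V4_15200157696, nat_lit 2, [(nat_lit 9, nat_lit 21642608640)]⟩,
  ⟨V4_17314086912, nat_lit 3, [(nat_lit 90, nat_lit 21642608640),
  (nat_lit 22, nat_lit 22699573248), (nat_lit 3, nat_lit 23756537856)]⟩], [
  W5_21558722560, W5_20501757952, W5_19444793344, W5_18387828736, W5_17330864128, W5_16273899520]⟩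

theorem F5_21642608640_chk : fwdChk 5 ks5 F5_21642608640 = true := by decide +kernel

noncomputable def F5_21609578496 : Fwd := ⟨V5_21609578496, [
  ⟨V4_15167127552, nat_lit 4, [(nat_lit 108, nat_lit 21609578496)]⟩,
  ⟨V4_17281056768, nat_lit 3, [(nat_lit 69, nat_lit 21609578496),
  (nat_lit 2, nat_lit 22666543104), (nat_lit 84, nat_lit 23723507712)]⟩,
  ⟨V4_16240607232, nat_lit 1, [(nat_lit 44, nat_lit 21609578496),
  (nat_lit 23, nat_lit 22683058176)]⟩,
  ⟨V4_21508915200, nat_lit 1, [(nat_lit 10, nat_lit 21609578496),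
  (nat_lit 35, nat_lit 22666543104), (nat_lit 3, nat_lit 23723507712),
  (nat_lit 28, nat_lit 24780472320), (nat_lit 40, nat_lit 25837436928),
  (nat_lit 126, nat_lit 26894401536), (nat_lit 67, nat_lit 27951366144)]⟩], [
  W5_21558722560, W5_21542207488, W5_21525692416, W5_20501757952, W5_20485242880, W5_20468727808,
  W5_19444793344, W5_19428278272, W5_19411763200, W5_18387828736, W5_18371313664, W5_18354798592,
  W5_17314349056, W5_17297833984, W5_16240869376]⟩

theorem F5_21609578496_chk : fwdChk 5 ks5 F5_21609578496 = true := by decide +kernel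

noncomputable def F5_21609320448 : Fwd := ⟨V5_21609320448, [
  ⟨V4_16223834112, nat_lit 1, [(nat_lit 96, nat_lit 21609320448),
  (nat_lit 54, nat_lit 22666285056)]⟩], [
  W5_21542207488, W5_20485242880, W5_19428278272, W5_18371313664, W5_17314349056, W5_17297575936,
  W5_16240611328]⟩

theorem F5_21609320448_chk : fwdChk 5 ks5 F5_21609320448 = true := by decide +kernel

noncomputable def F5_21592805376 : Fwd := ⟨V5_21592805376, [
  ⟨V4_15150354432, nat_lit 2, [(nat_lit 36, nat_lit 21592805376)]⟩,
  ⟨V4_16223834112, nat_lit 1, [(nat_lit 20, nat_lit 21592805376),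
  (nat_lit 22, nat_lit 22666285056)]⟩,
  ⟨V4_21508915200, nat_lit 1, [(nat_lit 74, nat_lit 21592805376),
  (nat_lit 48, nat_lit 22666543104), (nat_lit 56, nat_lit 22649769984),
  (nat_lit 125, nat_lit 23723507712), (nat_lit 7, nat_lit 23706734592),
  (nat_lit 52, nat_lit 24780472320), (nat_lit 72, nat_lit 24763699200),
  (nat_lit 10, nat_lit 25837436928), (nat_lit 10, nat_lit 25820663808),
  (nat_lit 77, nat_lit 26894401536), (nat_lit 11, nat_lit 26877628416),
  (nat_lit 26, nat_lit 27951366144)]⟩,
  ⟨V4_16207319040, nat_lit 1, [(nat_lit 118, nat_lit 21592805376),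
  (nat_lit 107, nat_lit 22649769984)]⟩], [
  W5_21542207488, W5_21525692416, W5_20485242880, W5_20468727808, W5_19428278272, W5_19411763200,
  W5_19394990080, W5_18371313664, W5_18354798592, W5_18338025472, W5_17297833984, W5_17297575936,
  W5_17281060864, W5_16224096256]⟩

theorem F5_21592805376_chk : fwdChk 5 ks5 F5_21592805376 = true := by decide +kernel

noncomputable def F5_21576548352 : Fwd := ⟨V5_21576548352, [
  ⟨V4_15134097408, nat_lit 4, [(nat_lit 21, nat_lit 21576548352)]⟩,
  ⟨V4_17281056768, nat_lit 4, [(nat_lit 121, nat_lit 21576548352),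
  (nat_lit 69, nat_lit 22650028032), (nat_lit 117, nat_lit 23723507712)]⟩,
  ⟨V4_17248026624, nat_lit 1, [(nat_lit 13, nat_lit 21576548352),
  (nat_lit 125, nat_lit 22633512960), (nat_lit 53, nat_lit 23690477568)]⟩], [
  W5_21558722560, W5_21542207488, W5_20501757952, W5_20485242880, W5_20468727808, W5_19428278272,
  W5_19411763200, W5_19395248128, W5_18354798592, W5_18338283520, W5_18321768448, W5_17281318912,
  W5_17264803840, W5_16207839232]⟩

theorem F5_21576548352_chk : fwdChk 5 ks5 F5_21576548352 = true := by decide +kernel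

noncomputable def F5_21576032256 : Fwd := ⟨V5_21576032256, [
  ⟨V4_15133581312, nat_lit 2, [(nat_lit 105, nat_lit 21576032256)]⟩,
  ⟨V4_19361439744, nat_lit 1, [(nat_lit 111, nat_lit 21576032256),
  (nat_lit 52, nat_lit 22632996864), (nat_lit 3, nat_lit 23689961472),
  (nat_lit 83, nat_lit 24746926080), (nat_lit 36, nat_lit 25803890688)]⟩,
  ⟨V4_16190545920, nat_lit 1, [(nat_lit 1, nat_lit 21576032256),
  (nat_lit 47, nat_lit 22632996864)]⟩,
  ⟨V4_16207319040, nat_lit 1, [(nat_lit 126, nat_lit 21576032256),
  (nat_lit 70, nat_lit 22649769984)]⟩], [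
  W5_21525692416, W5_20468727808, W5_20435181568, W5_19411763200, W5_19394990080, W5_19378216960,
  W5_18354798592, W5_18338025472, W5_18321252352, W5_17281060864, W5_17264287744, W5_16207323136]⟩

theorem F5_21576032256_chk : fwdChk 5 ks5 F5_21576032256 = true := by decide +kernel

noncomputable def F5_21559513152 : Fwd := ⟨V5_21559513152, [
  ⟨V4_16190803968, nat_lit 1, [(nat_lit 2, nat_lit 21559513152),
  (nat_lit 62, nat_lit 22633254912)]⟩], [
  W5_19394990080, W5_18338025472, W5_18321510400, W5_17264545792, W5_16190804032]⟩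

theorem F5_21559513152_chk : fwdChk 5 ks5 F5_21559513152 = true := by decide +kernel

noncomputable def F5_21543002112 : Fwd := ⟨V5_21543002112, [
  ⟨V4_17248026624, nat_lit 2, [(nat_lit 117, nat_lit 21543002112),
  (nat_lit 27, nat_lit 22616739840), (nat_lit 6, nat_lit 23690477568)]⟩,
  ⟨V4_15100551168, nat_lit 1, [(nat_lit 10, nat_lit 21543002112)]⟩], [
  W5_20468727808, W5_19395248128, W5_19394990080, W5_18321768448, W5_18321510400, W5_18321252352,
  W5_17248030720, W5_17247772672, W5_16174292992]⟩

theorem F5_21543002112_chk : fwdChk 5 ks5 F5_21543002112 = true := by decide +kernel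

noncomputable def F5_21542477952 : Fwd := ⟨V5_21542477952, [
  ⟨V4_17247510528, nat_lit 1, [(nat_lit 69, nat_lit 21542477952),
  (nat_lit 19, nat_lit 22616219712), (nat_lit 11, nat_lit 23689961472)]⟩], [
  W5_20435181568, W5_19378216960, W5_18321252352, W5_18287698048, W5_17247510592, W5_16173768832]⟩

theorem F5_21542477952_chk : fwdChk 5 ks5 F5_21542477952 = true := by decide +kernel

noncomputable def F5_20585644032 : Fwd := ⟨V5_20585644032, [
  ⟨V4_15200157696, nat_lit 2, [(nat_lit 68, nat_lit 20585644032),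
  (nat_lit 49, nat_lit 21642608640)]⟩], [
  W5_20501757952, W5_19444793344, W5_18387828736, W5_17330864128, W5_16273899520, W5_15216934912]⟩

theorem F5_20585644032_chk : fwdChk 5 ks5 F5_20585644032 = true := by decide +kernel

noncomputable def F5_20569128960 : Fwd := ⟨V5_20569128960, [
  ⟨V4_14126678016, nat_lit 2, [(nat_lit 78, nat_lit 20569128960)]⟩,
  ⟨V4_15200157696, nat_lit 2, [(nat_lit 3, nat_lit 20569128960),
  (nat_lit 16, nat_lit 21642608640)]⟩,
  ⟨V4_15183642624, nat_lit 1, [(nat_lit 70, nat_lit 20569128960),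
  (nat_lit 49, nat_lit 21626093568)]⟩], [
  W5_20501757952, W5_20485242880, W5_19444793344, W5_19428278272, W5_18387828736, W5_18371313664,
  W5_17330864128, W5_17314349056, W5_16273899520, W5_16257384448, W5_15200419840]⟩

theorem F5_20569128960_chk : fwdChk 5 ks5 F5_20569128960 = true := by decide +kernel

noncomputable def F5_20552613888 : Fwd := ⟨V5_20552613888, [
  ⟨V4_15167127552, nat_lit 4, [(nat_lit 93, nat_lit 20552613888),
  (nat_lit 17, nat_lit 21609578496)]⟩,
  ⟨V4_14110162944, nat_lit 2, [(nat_lit 71, nat_lit 20552613888)]⟩,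
  ⟨V4_15183642624, nat_lit 2, [(nat_lit 1, nat_lit 20552613888),
  (nat_lit 12, nat_lit 21626093568)]⟩,
  ⟨V4_20451950592, nat_lit 1, [(nat_lit 76, nat_lit 20552613888),
  (nat_lit 90, nat_lit 21609578496), (nat_lit 17, nat_lit 22666543104),
  (nat_lit 112, nat_lit 23723507712), (nat_lit 74, nat_lit 24780472320),
  (nat_lit 4, nat_lit 25837436928), (nat_lit 94, nat_lit 26894401536)]⟩], [
  W5_20501757952, W5_20485242880, W5_20468727808, W5_19444793344, W5_19428278272, W5_19411763200,
  W5_18387828736, W5_18371313664, W5_18354798592, W5_17330864128, W5_17314349056, W5_17297833984,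
  W5_16257384448, W5_16240869376, W5_15183904768]⟩

theorem F5_20552613888_chk : fwdChk 5 ks5 F5_20552613888 = true := by decide +kernel

noncomputable def F5_20552355840 : Fwd := ⟨V5_20552355840, [
  ⟨V4_14109904896, nat_lit 1, [(nat_lit 64, nat_lit 20552355840)]⟩,
  ⟨V4_15183642624, nat_lit 1, [(nat_lit 3, nat_lit 20552355840),
  (nat_lit 44, nat_lit 21626093568)]⟩], [
  W5_20485242880, W5_19428278272, W5_18371313664, W5_17314349056, W5_17297575936, W5_16257384448,
  W5_16240611328, W5_15183646720]⟩

theorem F5_20552355840_chk : fwdChk 5 ks5 F5_20552355840 = true := by decide +kernel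

noncomputable def F5_20519583744 : Fwd := ⟨V5_20519583744, [
  ⟨V4_14077132800, nat_lit 3, [(nat_lit 87, nat_lit 20519583744)]⟩,
  ⟨V4_15134097408, nat_lit 4, [(nat_lit 81, nat_lit 20519583744),
  (nat_lit 117, nat_lit 21576548352)]⟩,
  ⟨V4_17248026624, nat_lit 2, [(nat_lit 17, nat_lit 20519583744),
  (nat_lit 18, nat_lit 21576548352), (nat_lit 63, nat_lit 22633512960),
  (nat_lit 16, nat_lit 23690477568)]⟩,
  ⟨V4_18371051520, nat_lit 2, [(nat_lit 79, nat_lit 20519583744),
  (nat_lit 33, nat_lit 21593063424), (nat_lit 92, nat_lit 22666543104),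
  (nat_lit 41, nat_lit 23740022784), (nat_lit 91, nat_lit 24813502464)]⟩], [
  W5_20501757952, W5_20485242880, W5_20468727808, W5_19444793344, W5_19428278272, W5_19411763200,
  W5_19395248128, W5_18371313664, W5_18354798592, W5_18338283520, W5_18321768448, W5_17297833984,
  W5_17281318912, W5_17264803840, W5_16224354304, W5_16207839232, W5_15150874624]⟩

theorem F5_20519583744_chk : fwdChk 5 ks5 F5_20519583744 = true := by decide +kernel

noncomputable def F5_20519067648 : Fwd := ⟨V5_20519067648, [
  ⟨V4_15133581312, nat_lit 2, [(nat_lit 10, nat_lit 20519067648),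
  (nat_lit 85, nat_lit 21576032256)]⟩,
  ⟨V4_19361439744, nat_lit 1, [(nat_lit 51, nat_lit 20519067648),
  (nat_lit 108, nat_lit 21576032256), (nat_lit 16, nat_lit 22632996864),
  (nat_lit 113, nat_lit 23689961472), (nat_lit 51, nat_lit 24746926080),
  (nat_lit 101, nat_lit 25803890688)]⟩,
  ⟨V4_15150354432, nat_lit 2, [(nat_lit 59, nat_lit 20519067648),
  (nat_lit 103, nat_lit 21592805376)]⟩], [
  W5_20468727808, W5_20435181568, W5_19411763200, W5_19394990080, W5_19378216960, W5_18354798592,
  W5_18338025472, W5_18321252352, W5_17297833984, W5_17281060864, W5_17264287744, W5_16224096256,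
  W5_16207323136, W5_15150358528]⟩

theorem F5_20519067648_chk : fwdChk 5 ks5 F5_20519067648 = true := by decide +kernel

noncomputable def F5_20519063616 : Fwd := ⟨V5_20519063616, [
  ⟨V4_16223834112, nat_lit 1, [(nat_lit 20, nat_lit 20519063616),
  (nat_lit 100, nat_lit 21592805376), (nat_lit 107, nat_lit 21592543296),
  (nat_lit 78, nat_lit 22666285056)]⟩], [
  W5_19394990080, W5_18338025472, W5_17297575936, W5_17281060864, W5_16224096256, W5_15150354496]⟩

theorem F5_20519063616_chk : fwdChk 5 ks5 F5_20519063616 = true := by decide +kernel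

noncomputable def F5_20486295552 : Fwd := ⟨V5_20486295552, [
  ⟨V4_15117324288, nat_lit 1, [(nat_lit 82, nat_lit 20486295552),
  (nat_lit 59, nat_lit 21559775232)]⟩], [
  W5_20485242880, W5_19411763200, W5_18338283520, W5_18338025472, W5_17264803840, W5_17264545792,
  W5_16191066112, W5_15117586432]⟩

theorem F5_20486295552_chk : fwdChk 5 ks5 F5_20486295552 = true := by decide +kernel

noncomputable def F5_20486037504 : Fwd := ⟨V5_20486037504, [
  ⟨V4_17248026624, nat_lit 2, [(nat_lit 21, nat_lit 20486037504),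
  (nat_lit 49, nat_lit 21559775232), (nat_lit 124, nat_lit 21543002112),
  (nat_lit 67, nat_lit 22633512960), (nat_lit 125, nat_lit 22616739840),
  (nat_lit 4, nat_lit 23690477568)]⟩,
  ⟨V4_14043586560, nat_lit 1, [(nat_lit 34, nat_lit 20486037504)]⟩,
  ⟨V4_15100551168, nat_lit 1, [(nat_lit 46, nat_lit 20486037504),
  (nat_lit 3, nat_lit 21543002112)]⟩], [
  W5_20468727808, W5_19411763200, W5_19395248128, W5_19394990080, W5_18338283520, W5_18338025472,
  W5_18321768448, W5_18321510400, W5_18321252352, W5_17264803840, W5_17264545792, W5_17264287744,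
  W5_17248030720, W5_17247772672, W5_16191066112, W5_16190808064, W5_16174292992, W5_15117328384]⟩

theorem F5_20486037504_chk : fwdChk 5 ks5 F5_20486037504 = true := by decide +kernel

noncomputable def F5_20486033472 : Fwd := ⟨V5_20486033472, [
  ⟨V4_16174288896, nat_lit 1, [(nat_lit 79, nat_lit 20486033472),
  (nat_lit 18, nat_lit 21559775232), (nat_lit 74, nat_lit 21542998080),
  (nat_lit 57, nat_lit 22616739840)]⟩], [
  W5_19394990080, W5_18338025472, W5_18321510400, W5_17264545792, W5_17248030720, W5_16191066112,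
  W5_16190804032, W5_15117324352]⟩

theorem F5_20486033472_chk : fwdChk 5 ks5 F5_20486033472 = true := by decide +kernel

noncomputable def F5_20469264384 : Fwd := ⟨V5_20469264384, [
  ⟨V4_15100551168, nat_lit 1, [(nat_lit 13, nat_lit 20469264384),
  (nat_lit 29, nat_lit 21543002112)]⟩], [
  W5_19395248128, W5_18321768448, W5_18321510400, W5_17248030720, W5_17247772672, W5_16174292992,
  W5_15100555264]⟩

theorem F5_20469264384_chk : fwdChk 5 ks5 F5_20469264384 = true := by decide +kernel

noncomputable def F5_19528679424 : Fwd := ⟨V5_19528679424, [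
  ⟨V4_13086228480, nat_lit 2, [(nat_lit 73, nat_lit 19528679424)]⟩,
  ⟨V4_15200157696, nat_lit 2, [(nat_lit 89, nat_lit 19528679424),
  (nat_lit 92, nat_lit 20585644032), (nat_lit 36, nat_lit 21642608640)]⟩], [
  W5_19444793344, W5_18387828736, W5_17330864128, W5_16273899520, W5_15216934912, W5_14159970304]⟩

theorem F5_19528679424_chk : fwdChk 5 ks5 F5_19528679424 = true := by decide +kernel

noncomputable def F5_19512164352 : Fwd := ⟨V5_19512164352, [
  ⟨V4_14126678016, nat_lit 2, [(nat_lit 43, nat_lit 19512164352),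
  (nat_lit 28, nat_lit 20569128960)]⟩,
  ⟨V4_15200157696, nat_lit 2, [(nat_lit 126, nat_lit 19512164352),
  (nat_lit 18, nat_lit 20585644032), (nat_lit 89, nat_lit 20569128960),
  (nat_lit 42, nat_lit 21642608640)]⟩], [
  W5_19444793344, W5_19428278272, W5_18387828736, W5_18371313664, W5_17330864128, W5_17314349056,
  W5_16273899520, W5_16257384448, W5_15216934912, W5_15200419840, W5_14143455232]⟩

theorem F5_19512164352_chk : fwdChk 5 ks5 F5_19512164352 = true := by decide +kernel

noncomputable def F5_19495649280 : Fwd := ⟨V5_19495649280, [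
  ⟨V4_13053198336, nat_lit 3, [(nat_lit 98, nat_lit 19495649280)]⟩,
  ⟨V4_15200157696, nat_lit 2, [(nat_lit 55, nat_lit 19495649280),
  (nat_lit 66, nat_lit 20569128960), (nat_lit 7, nat_lit 21642608640)]⟩,
  ⟨V4_14126678016, nat_lit 2, [(nat_lit 32, nat_lit 19495649280),
  (nat_lit 65, nat_lit 20569128960)]⟩,
  ⟨V4_14110162944, nat_lit 2, [(nat_lit 122, nat_lit 19495649280),
  (nat_lit 2, nat_lit 20552613888)]⟩,
  ⟨V4_16257122304, nat_lit 1, [(nat_lit 51, nat_lit 19495649280),
  (nat_lit 22, nat_lit 20569128960), (nat_lit 115, nat_lit 20552613888),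
  (nat_lit 114, nat_lit 21642608640), (nat_lit 124, nat_lit 21626093568),
  (nat_lit 105, nat_lit 22699573248)]⟩], [
  W5_19444793344, W5_19428278272, W5_19411763200, W5_18387828736, W5_18371313664, W5_18354798592,
  W5_17330864128, W5_17314349056, W5_17297833984, W5_16273899520, W5_16257384448, W5_16240869376,
  W5_15200419840, W5_15183904768, W5_14126940160]⟩

theorem F5_19495649280_chk : fwdChk 5 ks5 F5_19495649280 = true := by decide +kernel

noncomputable def F5_19495391232 : Fwd := ⟨V5_19495391232, [
  ⟨V4_14126678016, nat_lit 2, [(nat_lit 67, nat_lit 19495391232),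
  (nat_lit 61, nat_lit 20569128960)]⟩], [
  W5_19428278272, W5_18371313664, W5_17314349056, W5_17297575936, W5_16257384448, W5_16240611328,
  W5_15200419840, W5_15183646720, W5_14126682112]⟩

theorem F5_19495391232_chk : fwdChk 5 ks5 F5_19495391232 = true := by decide +kernel

noncomputable def F5_19479134208 : Fwd := ⟨V5_19479134208, [
  ⟨V4_13036683264, nat_lit 2, [(nat_lit 12, nat_lit 19479134208)]⟩,
  ⟨V4_14093647872, nat_lit 3, [(nat_lit 109, nat_lit 19479134208),
  (nat_lit 89, nat_lit 20536098816)]⟩,
  ⟨V4_14110162944, nat_lit 2, [(nat_lit 43, nat_lit 19479134208),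
  (nat_lit 56, nat_lit 20552613888)]⟩,
  ⟨V4_15183642624, nat_lit 1, [(nat_lit 30, nat_lit 19479134208),
  (nat_lit 126, nat_lit 20552613888), (nat_lit 114, nat_lit 21626093568)]⟩,
  ⟨V4_18321506304, nat_lit 1, [(nat_lit 101, nat_lit 19479134208),
  (nat_lit 14, nat_lit 20536098816), (nat_lit 19, nat_lit 21593063424),
  (nat_lit 23, nat_lit 22650028032), (nat_lit 99, nat_lit 23706992640),
  (nat_lit 120, nat_lit 24763957248)]⟩], [
  W5_19444793344, W5_19428278272, W5_19411763200, W5_19395248128, W5_18387828736, W5_18371313664,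
  W5_18354798592, W5_18338283520, W5_17330864128, W5_17314349056, W5_17297833984, W5_17281318912,
  W5_16257384448, W5_16240869376, W5_16224354304, W5_15183904768, W5_15167389696, W5_14110425088]⟩

theorem F5_19479134208_chk : fwdChk 5 ks5 F5_19479134208 = true := by decide +kernel

noncomputable def F5_19478876160 : Fwd := ⟨V5_19478876160, [
  ⟨V4_14110162944, nat_lit 2, [(nat_lit 14, nat_lit 19478876160),
  (nat_lit 117, nat_lit 20552613888)]⟩,
  ⟨V4_15167127552, nat_lit 4, [(nat_lit 75, nat_lit 19478876160),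
  (nat_lit 3, nat_lit 20552613888), (nat_lit 82, nat_lit 20535840768),
  (nat_lit 79, nat_lit 21609578496)]⟩,
  ⟨V4_14109904896, nat_lit 1, [(nat_lit 62, nat_lit 19478876160),
  (nat_lit 118, nat_lit 20552355840)]⟩], [
  W5_19428278272, W5_19411763200, W5_19394990080, W5_18371313664, W5_18354798592, W5_18338025472,
  W5_17314349056, W5_17297833984, W5_17297575936, W5_17281060864, W5_16257384448, W5_16240869376,
  W5_16240611328, W5_16224096256, W5_15183904768, W5_15183646720, W5_15167131648, W5_14110167040]⟩

theorem F5_19478876160_chk : fwdChk 5 ks5 F5_19478876160 = true := by decide +kernel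

noncomputable def F5_19462619136 : Fwd := ⟨V5_19462619136, [
  ⟨V4_13020168192, nat_lit 4, [(nat_lit 28, nat_lit 19462619136)]⟩,
  ⟨V4_14077132800, nat_lit 3, [(nat_lit 20, nat_lit 19462619136),
  (nat_lit 117, nat_lit 20519583744)]⟩,
  ⟨V4_15167127552, nat_lit 4, [(nat_lit 30, nat_lit 19462619136),
  (nat_lit 122, nat_lit 20536098816), (nat_lit 90, nat_lit 21609578496)]⟩,
  ⟨V4_17248026624, nat_lit 2, [(nat_lit 115, nat_lit 19462619136),
  (nat_lit 36, nat_lit 20519583744), (nat_lit 105, nat_lit 21576548352),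
  (nat_lit 72, nat_lit 22633512960), (nat_lit 11, nat_lit 23690477568)]⟩], [
  W5_19444793344, W5_19428278272, W5_19411763200, W5_19395248128, W5_18387828736, W5_18371313664,
  W5_18354798592, W5_18338283520, W5_18321768448, W5_17314349056, W5_17297833984, W5_17281318912,
  W5_17264803840, W5_16240869376, W5_16224354304, W5_16207839232, W5_15167389696, W5_15150874624,
  W5_14093910016]⟩

theorem F5_19462619136_chk : fwdChk 5 ks5 F5_19462619136 = true := by decide +kernel

noncomputable def F5_19462361088 : Fwd := ⟨V5_19462361088, [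
  ⟨V4_14093647872, nat_lit 3, [(nat_lit 82, nat_lit 19462361088),
  (nat_lit 14, nat_lit 20536098816)]⟩,
  ⟨V4_15167127552, nat_lit 4, [(nat_lit 82, nat_lit 19462361088),
  (nat_lit 41, nat_lit 20536098816), (nat_lit 1, nat_lit 20535840768),
  (nat_lit 72, nat_lit 21609578496)]⟩,
  ⟨V4_14093389824, nat_lit 2, [(nat_lit 31, nat_lit 19462361088),
  (nat_lit 64, nat_lit 20535840768)]⟩,
  ⟨V4_14076874752, nat_lit 1, [(nat_lit 80, nat_lit 19462361088),
  (nat_lit 87, nat_lit 20519325696)]⟩], [
  W5_19428278272, W5_19411763200, W5_19395248128, W5_19394990080, W5_18371313664, W5_18354798592,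
  W5_18338283520, W5_18338025472, W5_18321510400, W5_17314349056, W5_17297833984, W5_17297575936,
  W5_17281318912, W5_17281060864, W5_17264545792, W5_16240869376, W5_16240611328, W5_16224354304,
  W5_16224096256, W5_16207581184, W5_15167389696, W5_15167131648, W5_15150616576, W5_14093651968]⟩

theorem F5_19462361088_chk : fwdChk 5 ks5 F5_19462361088 = true := by decide +kernel

noncomputable def F5_19462103040 : Fwd := ⟨V5_19462103040, [
  ⟨V4_13019652096, nat_lit 2, [(nat_lit 11, nat_lit 19462103040)]⟩,
  ⟨V4_15167127552, nat_lit 4, [(nat_lit 20, nat_lit 19462103040),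
  (nat_lit 97, nat_lit 20535840768), (nat_lit 84, nat_lit 21609578496)]⟩,
  ⟨V4_19361439744, nat_lit 1, [(nat_lit 120, nat_lit 19462103040),
  (nat_lit 102, nat_lit 20519067648), (nat_lit 87, nat_lit 21576032256),
  (nat_lit 110, nat_lit 22632996864), (nat_lit 50, nat_lit 23689961472),
  (nat_lit 13, nat_lit 24746926080), (nat_lit 115, nat_lit 25803890688)]⟩,
  ⟨V4_14093389824, nat_lit 2, [(nat_lit 94, nat_lit 19462103040),
  (nat_lit 112, nat_lit 20535840768)]⟩], [
  W5_19411763200, W5_19394990080, W5_19378216960, W5_18354798592, W5_18338025472, W5_18321252352,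
  W5_17297833984, W5_17281060864, W5_17264287744, W5_16240869376, W5_16224096256, W5_16207323136,
  W5_15167131648, W5_15150358528, W5_14093393920]⟩

theorem F5_19462103040_chk : fwdChk 5 ks5 F5_19462103040 = true := by decide +kernel

noncomputable def F5_19462099008 : Fwd := ⟨V5_19462099008, [
  ⟨V4_14093389824, nat_lit 2, [(nat_lit 7, nat_lit 19462099008),
  (nat_lit 18, nat_lit 20535840768)]⟩], [
  W5_19394990080, W5_18338025472, W5_17297575936, W5_17281060864, W5_16240611328, W5_16224096256,
  W5_15167131648, W5_15150354496, W5_14093389888]⟩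

theorem F5_19462099008_chk : fwdChk 5 ks5 F5_19462099008 = true := by decide +kernel

noncomputable def F5_19446104064 : Fwd := ⟨V5_19446104064, [
  ⟨V4_14077132800, nat_lit 3, [(nat_lit 68, nat_lit 19446104064),
  (nat_lit 21, nat_lit 20519583744)]⟩,
  ⟨V4_14060617728, nat_lit 2, [(nat_lit 45, nat_lit 19446104064),
  (nat_lit 93, nat_lit 20503068672)]⟩,
  ⟨V4_18371051520, nat_lit 2, [(nat_lit 106, nat_lit 19446104064),
  (nat_lit 76, nat_lit 20519583744), (nat_lit 90, nat_lit 21593063424),
  (nat_lit 47, nat_lit 22666543104), (nat_lit 116, nat_lit 23740022784),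
  (nat_lit 35, nat_lit 24813502464)]⟩], [
  W5_19444793344, W5_19428278272, W5_19411763200, W5_18371313664, W5_18354798592, W5_18338283520,
  W5_17297833984, W5_17281318912, W5_17264803840, W5_16224354304, W5_16207839232, W5_15150874624,
  W5_15134359552, W5_14077394944]⟩

theorem F5_19446104064_chk : fwdChk 5 ks5 F5_19446104064 = true := by decide +kernel

noncomputable def F5_19445583936 : Fwd := ⟨V5_19445583936, [
  ⟨V4_14076874752, nat_lit 2, [(nat_lit 20, nat_lit 19445583936),
  (nat_lit 124, nat_lit 20519325696)]⟩], [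
  W5_19394990080, W5_18338025472, W5_18321510400, W5_17297575936, W5_17281060864, W5_17264545792,
  W5_16224096256, W5_16207581184, W5_16190804032, W5_15150616576, W5_15150354496, W5_14076874816]⟩

theorem F5_19445583936_chk : fwdChk 5 ks5 F5_19445583936 = true := by decide +kernel

noncomputable def F5_19429588992 : Fwd := ⟨V5_19429588992, [
  ⟨V4_12987138048, nat_lit 3, [(nat_lit 109, nat_lit 19429588992)]⟩,
  ⟨V4_14060617728, nat_lit 2, [(nat_lit 103, nat_lit 19429588992),
  (nat_lit 116, nat_lit 20503068672)]⟩,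
  ⟨V4_19428016128, nat_lit 2, [(nat_lit 91, nat_lit 19429588992),
  (nat_lit 100, nat_lit 20503068672), (nat_lit 99, nat_lit 21576548352),
  (nat_lit 70, nat_lit 22650028032), (nat_lit 88, nat_lit 23723507712),
  (nat_lit 99, nat_lit 24796987392), (nat_lit 51, nat_lit 25870467072)]⟩], [
  W5_19428278272, W5_18354798592, W5_17281318912, W5_16207839232, W5_15134359552, W5_14060879872]⟩

theorem F5_19429588992_chk : fwdChk 5 ks5 F5_19429588992 = true := by decide +kernel

noncomputable def F5_19429072896 : Fwd := ⟨V5_19429072896, [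
  ⟨V4_15134097408, nat_lit 4, [(nat_lit 32, nat_lit 19429072896),
  (nat_lit 79, nat_lit 20502810624), (nat_lit 109, nat_lit 21576548352)]⟩,
  ⟨V4_12986621952, nat_lit 2, [(nat_lit 87, nat_lit 19429072896)]⟩,
  ⟨V4_15133581312, nat_lit 2, [(nat_lit 23, nat_lit 19429072896),
  (nat_lit 102, nat_lit 20502552576), (nat_lit 69, nat_lit 21576032256)]⟩,
  ⟨V4_15100551168, nat_lit 1, [(nat_lit 45, nat_lit 19429072896),
  (nat_lit 51, nat_lit 20486037504), (nat_lit 110, nat_lit 21543002112)]⟩], [
  W5_19411763200, W5_19395248128, W5_19394990080, W5_18354798592, W5_18338283520, W5_18338025472,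
  W5_18321768448, W5_18321510400, W5_18321252352, W5_17281318912, W5_17281060864, W5_17264803840,
  W5_17264545792, W5_17264287744, W5_17248030720, W5_17247772672, W5_16207839232, W5_16207581184,
  W5_16207323136, W5_16191066112, W5_16190808064, W5_16174292992, W5_15134101504, W5_15133843456,
  W5_15117328384, W5_14060363776]⟩

theorem F5_19429072896_chk : fwdChk 5 ks5 F5_19429072896 = true := by decide +kernel

noncomputable def F5_19428548736 : Fwd := ⟨V5_19428548736, [
  ⟨V4_15133581312, nat_lit 2, [(nat_lit 7, nat_lit 19428548736),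
  (nat_lit 74, nat_lit 20502290496), (nat_lit 58, nat_lit 21576032256)]⟩], [
  W5_19378216960, W5_18321252352, W5_18287698048, W5_17264287744, W5_17247510592, W5_16207323136,
  W5_16190545984, W5_16173768832, W5_15133581376, W5_15116804224, W5_14059839616]⟩

theorem F5_19428548736_chk : fwdChk 5 ks5 F5_19428548736 = true := by decide +kernel

noncomputable def F5_19412553792 : Fwd := ⟨V5_19412553792, [
  ⟨V4_15117324288, nat_lit 1, [(nat_lit 35, nat_lit 19412553792),
  (nat_lit 40, nat_lit 20486295552), (nat_lit 5, nat_lit 20486033472),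
  (nat_lit 94, nat_lit 21559775232)]⟩], [
  W5_18338025472, W5_17264545792, W5_16191066112, W5_16190804032, W5_15117586432, W5_15117324352,
  W5_14043844672]⟩

theorem F5_19412553792_chk : fwdChk 5 ks5 F5_19412553792 = true := by decide +kernel

noncomputable def F5_19412299776 : Fwd := ⟨V5_19412299776, [
  ⟨V4_17248026624, nat_lit 2, [(nat_lit 124, nat_lit 19412299776),
  (nat_lit 126, nat_lit 20486037504), (nat_lit 55, nat_lit 20469264384),
  (nat_lit 21, nat_lit 21559775232), (nat_lit 76, nat_lit 21543002112),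
  (nat_lit 122, nat_lit 22633512960), (nat_lit 52, nat_lit 22616739840),
  (nat_lit 8, nat_lit 23690477568)]⟩], [
  W5_19395248128, W5_18338283520, W5_18321768448, W5_18321510400, W5_17264803840, W5_17264545792,
  W5_17248030720, W5_17247772672, W5_16191066112, W5_16190808064, W5_16174292992, W5_15117328384,
  W5_15100555264, W5_14043590656]⟩

theorem F5_19412299776_chk : fwdChk 5 ks5 F5_19412299776 = true := by decide +kernel

noncomputable def F5_19395526656 : Fwd := ⟨V5_19395526656, [
  ⟨V4_12953075712, nat_lit 1, [(nat_lit 126, nat_lit 19395526656)]⟩,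
  ⟨V4_17248026624, nat_lit 1, [(nat_lit 56, nat_lit 19395526656),
  (nat_lit 25, nat_lit 20469264384), (nat_lit 62, nat_lit 21543002112),
  (nat_lit 58, nat_lit 22616739840), (nat_lit 42, nat_lit 23690477568)]⟩], [
  W5_18321768448, W5_17248030720, W5_16174292992, W5_15100555264, W5_14026817536]⟩

theorem F5_19395526656_chk : fwdChk 5 ks5 F5_19395526656 = true := by decide +kernel

noncomputable def F5_19395518592 : Fwd := ⟨V5_19395518592, [
  ⟨V4_15100551168, nat_lit 1, [(nat_lit 97, nat_lit 19395518592),
  (nat_lit 82, nat_lit 20469260352), (nat_lit 78, nat_lit 21543002112)]⟩], [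
  W5_18321252352, W5_17247772672, W5_17247510592, W5_16174292992, W5_16173768832, W5_15100551232,
  W5_14026809472]⟩

theorem F5_19395518592_chk : fwdChk 5 ks5 F5_19395518592 = true := by decide +kernel

noncomputable def F5_18471714816 : Fwd := ⟨V5_18471714816, [
  ⟨V4_15200157696, nat_lit 1, [(nat_lit 114, nat_lit 18471714816),
  (nat_lit 13, nat_lit 19528679424), (nat_lit 67, nat_lit 20585644032),
  (nat_lit 10, nat_lit 21642608640)]⟩], [
  W5_18387828736, W5_17330864128, W5_16273899520, W5_15216934912, W5_14159970304]⟩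

theorem F5_18471714816_chk : fwdChk 5 ks5 F5_18471714816 = true := by decide +kernel

noncomputable def F5_18455199744 : Fwd := ⟨V5_18455199744, [
  ⟨V4_13086228480, nat_lit 2, [(nat_lit 24, nat_lit 18455199744),
  (nat_lit 17, nat_lit 19528679424)]⟩,
  ⟨V4_14126678016, nat_lit 2, [(nat_lit 98, nat_lit 18455199744),
  (nat_lit 71, nat_lit 19512164352), (nat_lit 74, nat_lit 20569128960)]⟩], [
  W5_18387828736, W5_18371313664, W5_17330864128, W5_17314349056, W5_16273899520, W5_16257384448,
  W5_15216934912, W5_15200419840, W5_14159970304, W5_14143455232, W5_13086490624]⟩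

theorem F5_18455199744_chk : fwdChk 5 ks5 F5_18455199744 = true := by decide +kernel

noncomputable def F5_18438684672 : Fwd := ⟨V5_18438684672, [
  ⟨V4_13053198336, nat_lit 3, [(nat_lit 24, nat_lit 18438684672),
  (nat_lit 121, nat_lit 19495649280)]⟩,
  ⟨V4_17281056768, nat_lit 3, [(nat_lit 76, nat_lit 18438684672),
  (nat_lit 96, nat_lit 19495649280), (nat_lit 20, nat_lit 20552613888),
  (nat_lit 111, nat_lit 21609578496), (nat_lit 122, nat_lit 22666543104),
  (nat_lit 22, nat_lit 23723507712)]⟩,
  ⟨V4_15200157696, nat_lit 1, [(nat_lit 73, nat_lit 18438684672),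
  (nat_lit 101, nat_lit 19512164352), (nat_lit 7, nat_lit 19495649280),
  (nat_lit 126, nat_lit 20585644032), (nat_lit 35, nat_lit 20569128960),
  (nat_lit 50, nat_lit 21642608640)]⟩], [
  W5_18387828736, W5_18371313664, W5_18354798592, W5_17330864128, W5_17314349056, W5_17297833984,
  W5_16273899520, W5_16257384448, W5_16240869376, W5_15216934912, W5_15200419840, W5_15183904768,
  W5_14143455232, W5_14126940160, W5_13069975552]⟩

theorem F5_18438684672_chk : fwdChk 5 ks5 F5_18438684672 = true := by decide +kernel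

noncomputable def F5_18438426624 : Fwd := ⟨V5_18438426624, [
  ⟨V4_11995975680, nat_lit 1, [(nat_lit 97, nat_lit 18438426624)]⟩,
  ⟨V4_14109904896, nat_lit 1, [(nat_lit 10, nat_lit 18438426624),
  (nat_lit 56, nat_lit 19495391232), (nat_lit 44, nat_lit 20552355840)]⟩], [
  W5_18371313664, W5_17314349056, W5_17297575936, W5_16257384448, W5_16240611328, W5_15200419840,
  W5_15183646720, W5_14143455232, W5_14126682112]⟩

theorem F5_18438426624_chk : fwdChk 5 ks5 F5_18438426624 = true := by decide +kernel

noncomputable def F5_18421911552 : Fwd := ⟨V5_18421911552, [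
  ⟨V4_13053198336, nat_lit 3, [(nat_lit 55, nat_lit 18421911552),
  (nat_lit 25, nat_lit 19495649280)]⟩,
  ⟨V4_11979460608, nat_lit 1, [(nat_lit 61, nat_lit 18421911552)]⟩,
  ⟨V4_14126678016, nat_lit 2, [(nat_lit 94, nat_lit 18421911552),
  (nat_lit 60, nat_lit 19495649280), (nat_lit 4, nat_lit 19495391232),
  (nat_lit 125, nat_lit 20569128960)]⟩,
  ⟨V4_14093389824, nat_lit 2, [(nat_lit 56, nat_lit 18421911552),
  (nat_lit 49, nat_lit 19478876160), (nat_lit 83, nat_lit 20535840768)]⟩], [
  W5_18371313664, W5_18354798592, W5_18338025472, W5_17314349056, W5_17297833984, W5_17297575936,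
  W5_17281060864, W5_16257384448, W5_16240869376, W5_16240611328, W5_16224096256, W5_15200419840,
  W5_15183904768, W5_15183646720, W5_15167131648, W5_14126940160, W5_14126682112, W5_14110167040,
  W5_13053202432]⟩

theorem F5_18421911552_chk : fwdChk 5 ks5 F5_18421911552 = true := by decide +kernel

noncomputable def F5_18405654528 : Fwd := ⟨V5_18405654528, [
  ⟨V4_13020168192, nat_lit 4, [(nat_lit 105, nat_lit 18405654528),
  (nat_lit 85, nat_lit 19462619136)]⟩,
  ⟨V4_15134097408, nat_lit 4, [(nat_lit 108, nat_lit 18405654528),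
  (nat_lit 85, nat_lit 19462619136), (nat_lit 96, nat_lit 20519583744),
  (nat_lit 21, nat_lit 21576548352)]⟩,
  ⟨V4_17248026624, nat_lit 2, [(nat_lit 59, nat_lit 18405654528),
  (nat_lit 18, nat_lit 19462619136), (nat_lit 86, nat_lit 20519583744),
  (nat_lit 13, nat_lit 21576548352), (nat_lit 58, nat_lit 22633512960),
  (nat_lit 59, nat_lit 23690477568)]⟩,
  ⟨V4_13036683264, nat_lit 2, [(nat_lit 64, nat_lit 18405654528),
  (nat_lit 87, nat_lit 19479134208)]⟩], [
  W5_18387828736, W5_18371313664, W5_18354798592, W5_18338283520, W5_18321768448, W5_17330864128,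
  W5_17314349056, W5_17297833984, W5_17281318912, W5_17264803840, W5_16257384448, W5_16240869376,
  W5_16224354304, W5_16207839232, W5_15183904768, W5_15167389696, W5_15150874624, W5_14110425088,
  W5_14093910016, W5_13036945408]⟩

theorem F5_18405654528_chk : fwdChk 5 ks5 F5_18405654528 = true := by decide +kernel

noncomputable def F5_18405396480 : Fwd := ⟨V5_18405396480, [
  ⟨V4_11962945536, nat_lit 2, [(nat_lit 126, nat_lit 18405396480)]⟩,
  ⟨V4_13036683264, nat_lit 2, [(nat_lit 13, nat_lit 18405396480),
  (nat_lit 29, nat_lit 19479134208)]⟩,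
  ⟨V4_14109904896, nat_lit 1, [(nat_lit 98, nat_lit 18405396480),
  (nat_lit 26, nat_lit 19478876160), (nat_lit 40, nat_lit 20552355840)]⟩,
  ⟨V4_14093647872, nat_lit 3, [(nat_lit 8, nat_lit 18405396480),
  (nat_lit 20, nat_lit 19479134208), (nat_lit 21, nat_lit 19462361088),
  (nat_lit 3, nat_lit 20536098816)]⟩,
  ⟨V4_14110162944, nat_lit 2, [(nat_lit 25, nat_lit 18405396480),
  (nat_lit 51, nat_lit 19479134208), (nat_lit 96, nat_lit 19478876160),
  (nat_lit 73, nat_lit 20552613888)]⟩], [
  W5_18371313664, W5_18354798592, W5_18338283520, W5_18338025472, W5_18321510400, W5_17314349056,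
  W5_17297833984, W5_17297575936, W5_17281318912, W5_17281060864, W5_17264545792, W5_16257384448,
  W5_16240869376, W5_16240611328, W5_16224354304, W5_16224096256, W5_16207581184, W5_15183904768,
  W5_15183646720, W5_15167389696, W5_15167131648, W5_15150616576, W5_14110425088, W5_14110167040,
  W5_14093651968, W5_13036687360]⟩

theorem F5_18405396480_chk : fwdChk 5 ks5 F5_18405396480 = true := by decide +kernel

noncomputable def F5_18405138432 : Fwd := ⟨V5_18405138432, [
  ⟨V4_13019652096, nat_lit 2, [(nat_lit 37, nat_lit 18405138432),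
  (nat_lit 36, nat_lit 19462103040)]⟩,
  ⟨V4_14110162944, nat_lit 2, [(nat_lit 66, nat_lit 18405138432),
  (nat_lit 3, nat_lit 19478876160), (nat_lit 110, nat_lit 20552613888)]⟩,
  ⟨V4_15133581312, nat_lit 2, [(nat_lit 79, nat_lit 18405138432),
  (nat_lit 61, nat_lit 19462103040), (nat_lit 42, nat_lit 20519067648),
  (nat_lit 33, nat_lit 21576032256)]⟩], [
  W5_18354798592, W5_18338025472, W5_18321252352, W5_17297833984, W5_17281060864, W5_17264287744,
  W5_16240869376, W5_16224096256, W5_16207323136, W5_15183904768, W5_15167131648, W5_15150358528,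
  W5_14110167040, W5_14093393920, W5_13036429312]⟩

theorem F5_18405138432_chk : fwdChk 5 ks5 F5_18405138432 = true := by decide +kernel

noncomputable def F5_18405134400 : Fwd := ⟨V5_18405134400, [
  ⟨V4_14109904896, nat_lit 1, [(nat_lit 125, nat_lit 18405134400),
  (nat_lit 126, nat_lit 19478876160), (nat_lit 96, nat_lit 19478614080),
  (nat_lit 54, nat_lit 20552355840)]⟩,
  ⟨V4_13036425216, nat_lit 1, [(nat_lit 27, nat_lit 18405134400),
  (nat_lit 17, nat_lit 19478876160)]⟩], [
  W5_18338025472, W5_17297575936, W5_17281060864, W5_16240611328, W5_16224096256, W5_15183646720,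
  W5_15167131648, W5_15150354496, W5_14110167040, W5_14093389888, W5_13036425280]⟩

theorem F5_18405134400_chk : fwdChk 5 ks5 F5_18405134400 = true := by decide +kernel

noncomputable def F5_18389139456 : Fwd := ⟨V5_18389139456, [
  ⟨V4_11946688512, nat_lit 2, [(nat_lit 27, nat_lit 18389139456)]⟩,
  ⟨V4_13020168192, nat_lit 4, [(nat_lit 47, nat_lit 18389139456),
  (nat_lit 48, nat_lit 19462619136)]⟩,
  ⟨V4_17314086912, nat_lit 3, [(nat_lit 88, nat_lit 18389139456),
  (nat_lit 42, nat_lit 19462619136), (nat_lit 117, nat_lit 20536098816),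
  (nat_lit 91, nat_lit 21609578496), (nat_lit 16, nat_lit 22683058176),
  (nat_lit 72, nat_lit 23756537856)]⟩,
  ⟨V4_13003653120, nat_lit 1, [(nat_lit 27, nat_lit 18389139456),
  (nat_lit 57, nat_lit 19446104064)]⟩], [
  W5_18387828736, W5_18371313664, W5_18354798592, W5_18338283520, W5_17314349056, W5_17297833984,
  W5_17281318912, W5_17264803840, W5_16240869376, W5_16224354304, W5_16207839232, W5_15167389696,
  W5_15150874624, W5_15134359552, W5_14093910016, W5_14077394944, W5_13020430336]⟩

theorem F5_18389139456_chk : fwdChk 5 ks5 F5_18389139456 = true := by decide +kernel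

noncomputable def F5_18388623360 : Fwd := ⟨V5_18388623360, [
  ⟨V4_13019652096, nat_lit 2, [(nat_lit 24, nat_lit 18388623360),
  (nat_lit 104, nat_lit 19462103040)]⟩,
  ⟨V4_14093647872, nat_lit 3, [(nat_lit 102, nat_lit 18388623360),
  (nat_lit 97, nat_lit 19462361088), (nat_lit 43, nat_lit 20536098816)]⟩,
  ⟨V4_15167127552, nat_lit 4, [(nat_lit 38, nat_lit 18388623360),
  (nat_lit 97, nat_lit 19462361088), (nat_lit 39, nat_lit 19462103040),
  (nat_lit 8, nat_lit 20536098816), (nat_lit 106, nat_lit 20535840768),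
  (nat_lit 19, nat_lit 21609578496)]⟩,
  ⟨V4_13003137024, nat_lit 1, [(nat_lit 43, nat_lit 18388623360),
  (nat_lit 119, nat_lit 19445587968)]⟩], [
  W5_18354798592, W5_18338283520, W5_18338025472, W5_18321510400, W5_18321252352, W5_17297833984,
  W5_17281318912, W5_17281060864, W5_17264545792, W5_17264287744, W5_17247772672, W5_16240869376,
  W5_16224354304, W5_16224096256, W5_16207581184, W5_16207323136, W5_16190808064, W5_15167389696,
  W5_15167131648, W5_15150616576, W5_15150358528, W5_15133843456, W5_14093651968, W5_14093393920,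
  W5_14076878848, W5_13019914240]⟩

theorem F5_18388623360_chk : fwdChk 5 ks5 F5_18388623360 = true := by decide +kernel

noncomputable def F5_18372624384 : Fwd := ⟨V5_18372624384, [
  ⟨V4_12987138048, nat_lit 3, [(nat_lit 26, nat_lit 18372624384),
  (nat_lit 114, nat_lit 19429588992)]⟩,
  ⟨V4_11930173440, nat_lit 1, [(nat_lit 89, nat_lit 18372624384)]⟩,
  ⟨V4_14077132800, nat_lit 3, [(nat_lit 90, nat_lit 18372624384),
  (nat_lit 102, nat_lit 19446104064), (nat_lit 93, nat_lit 20519583744)]⟩], [
  W5_18371313664, W5_18354798592, W5_17297833984, W5_17281318912, W5_16224354304, W5_16207839232,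
  W5_15150874624, W5_15134359552, W5_14077394944, W5_14060879872, W5_13003915264]⟩

theorem F5_18372624384_chk : fwdChk 5 ks5 F5_18372624384 = true := by decide +kernel

noncomputable def F5_18372366336 : Fwd := ⟨V5_18372366336, [
  ⟨V4_11929915392, nat_lit 2, [(nat_lit 49, nat_lit 18372366336)]⟩,
  ⟨V4_14077132800, nat_lit 3, [(nat_lit 83, nat_lit 18372366336),
  (nat_lit 1, nat_lit 19446104064), (nat_lit 86, nat_lit 19445846016),
  (nat_lit 105, nat_lit 20519583744)]⟩,
  ⟨V4_13003395072, nat_lit 2, [(nat_lit 83, nat_lit 18372366336),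
  (nat_lit 1, nat_lit 19445846016)]⟩,
  ⟨V4_14060617728, nat_lit 2, [(nat_lit 15, nat_lit 18372366336),
  (nat_lit 10, nat_lit 19446104064), (nat_lit 10, nat_lit 19429330944),
  (nat_lit 78, nat_lit 20503068672)]⟩], [
  W5_18371313664, W5_18354798592, W5_18338283520, W5_18338025472, W5_17297833984, W5_17297575936,
  W5_17281318912, W5_17281060864, W5_17264803840, W5_17264545792, W5_16224354304, W5_16224096256,
  W5_16207839232, W5_16207581184, W5_16191066112, W5_15150874624, W5_15150616576, W5_15134359552,
  W5_15134101504, W5_15117586432, W5_14077394944, W5_14077136896, W5_14060621824, W5_13003657216]⟩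

theorem F5_18372366336_chk : fwdChk 5 ks5 F5_18372366336 = true := by decide +kernel

noncomputable def F5_18371850240 : Fwd := ⟨V5_18371850240, [
  ⟨V4_15150612480, nat_lit 2, [(nat_lit 32, nat_lit 18371850240),
  (nat_lit 10, nat_lit 19445587968), (nat_lit 79, nat_lit 20519325696),
  (nat_lit 89, nat_lit 21593063424)]⟩], [
  W5_18338283520, W5_18321510400, W5_17281318912, W5_17264545792, W5_17247772672, W5_16224354304,
  W5_16207581184, W5_16190808064, W5_15150616576, W5_15133843456, W5_14076878848, W5_14060105728,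
  W5_13003141120]⟩

theorem F5_18371850240_chk : fwdChk 5 ks5 F5_18371850240 = true := by decide +kernel

noncomputable def F5_18371584128 : Fwd := ⟨V5_18371584128, [
  ⟨V4_15133581312, nat_lit 2, [(nat_lit 84, nat_lit 18371584128),
  (nat_lit 111, nat_lit 19445325888), (nat_lit 57, nat_lit 19428548736),
  (nat_lit 79, nat_lit 20519067648), (nat_lit 29, nat_lit 20502290496),
  (nat_lit 23, nat_lit 21576032256)]⟩], [
  W5_18321252352, W5_18287698048, W5_17264287744, W5_17247510592, W5_16207323136, W5_16190545984,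
  W5_16173768832, W5_15150358528, W5_15133581376, W5_15116804224, W5_14059839616, W5_13002875008]⟩

theorem F5_18371584128_chk : fwdChk 5 ks5 F5_18371584128 = true := by decide +kernel

noncomputable def F5_18355851264 : Fwd := ⟨V5_18355851264, [
  ⟨V4_12987138048, nat_lit 3, [(nat_lit 107, nat_lit 18355851264),
  (nat_lit 14, nat_lit 19429588992)]⟩,
  ⟨V4_14060617728, nat_lit 2, [(nat_lit 4, nat_lit 18355851264),
  (nat_lit 61, nat_lit 19429588992), (nat_lit 124, nat_lit 19429330944),
  (nat_lit 11, nat_lit 20503068672)]⟩], [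
  W5_18354798592, W5_17281318912, W5_17281060864, W5_16207839232, W5_16207581184, W5_15134359552,
  W5_15134101504, W5_14060879872, W5_14060621824, W5_12987142144]⟩

theorem F5_18355851264_chk : fwdChk 5 ks5 F5_18355851264 = true := by decide +kernel

noncomputable def F5_18355593216 : Fwd := ⟨V5_18355593216, [
  ⟨V4_14060617728, nat_lit 2, [(nat_lit 14, nat_lit 18355593216),
  (nat_lit 93, nat_lit 19429330944), (nat_lit 108, nat_lit 20503068672)]⟩,
  ⟨V4_15134097408, nat_lit 4, [(nat_lit 78, nat_lit 18355593216),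
  (nat_lit 48, nat_lit 19429330944), (nat_lit 92, nat_lit 19429072896),
  (nat_lit 71, nat_lit 20503068672), (nat_lit 91, nat_lit 20502810624),
  (nat_lit 12, nat_lit 21576548352)]⟩,
  ⟨V4_11913142272, nat_lit 1, [(nat_lit 120, nat_lit 18355593216)]⟩], [
  W5_18354798592, W5_18338283520, W5_18338025472, W5_17281318912, W5_17281060864, W5_17264803840,
  W5_17264545792, W5_17264287744, W5_16207839232, W5_16207581184, W5_16207323136, W5_16191066112,
  W5_16190808064, W5_15134359552, W5_15134101504, W5_15133843456, W5_15117586432, W5_15117328384,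
  W5_14060621824, W5_14060363776, W5_14043848704, W5_12986884096]⟩

theorem F5_18355593216_chk : fwdChk 5 ks5 F5_18355593216 = true := by decide +kernel

noncomputable def F5_18355589184 : Fwd := ⟨V5_18355589184, [
  ⟨V4_12986880000, nat_lit 1, [(nat_lit 41, nat_lit 18355589184),
  (nat_lit 7, nat_lit 19429330944)]⟩], [
  W5_18338025472, W5_17281060864, W5_17264545792, W5_16207581184, W5_16191066112, W5_16190804032,
  W5_15134101504, W5_15117586432, W5_15117324352, W5_14060621824, W5_14060359744, W5_14043844672,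
  W5_12986880064]⟩

theorem F5_18355589184_chk : fwdChk 5 ks5 F5_18355589184 = true := by decide +kernel

noncomputable def F5_18355335168 : Fwd := ⟨V5_18355335168, [
  ⟨V4_15134097408, nat_lit 4, [(nat_lit 29, nat_lit 18355335168),
  (nat_lit 17, nat_lit 19429072896), (nat_lit 20, nat_lit 20502810624),
  (nat_lit 37, nat_lit 21576548352)]⟩,
  ⟨V4_11912884224, nat_lit 1, [(nat_lit 40, nat_lit 18355335168)]⟩], [
  W5_18338283520, W5_18321768448, W5_18321510400, W5_17281318912, W5_17264803840, W5_17264545792,
  W5_17248030720, W5_17247772672, W5_16207839232, W5_16207581184, W5_16191066112, W5_16190808064,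
  W5_16174292992, W5_15134101504, W5_15133843456, W5_15117328384, W5_15100555264, W5_14060363776,
  W5_14060105728, W5_14043590656, W5_12986626048]⟩

theorem F5_18355335168_chk : fwdChk 5 ks5 F5_18355335168 = true := by decide +kernel

noncomputable def F5_18338562048 : Fwd := ⟨V5_18338562048, [
  ⟨V4_12953075712, nat_lit 1, [(nat_lit 107, nat_lit 18338562048),
  (nat_lit 84, nat_lit 19395526656)]⟩,
  ⟨V4_14043586560, nat_lit 1, [(nat_lit 108, nat_lit 18338562048),
  (nat_lit 109, nat_lit 19412299776), (nat_lit 70, nat_lit 20486037504)]⟩], [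
  W5_18321768448, W5_17264803840, W5_17248030720, W5_16191066112, W5_16174292992, W5_15117328384,
  W5_15100555264, W5_14043590656, W5_14026817536, W5_12969852928]⟩

theorem F5_18338562048_chk : fwdChk 5 ks5 F5_18338562048 = true := by decide +kernel

noncomputable def F5_18321784896 : Fwd := ⟨V5_18321784896, [
  ⟨V4_12953075712, nat_lit 1, [(nat_lit 50, nat_lit 18321784896),
  (nat_lit 55, nat_lit 19395526656)]⟩], [
  W5_17248030720, W5_16174292992, W5_15100555264, W5_15100551232, W5_14026817536, W5_12953075776]⟩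

theorem F5_18321784896_chk : fwdChk 5 ks5 F5_18321784896 = true := by decide +kernel

noncomputable def F5_17414750208 : Fwd := ⟨V5_17414750208, [
  ⟨V4_15200157696, nat_lit 2, [(nat_lit 85, nat_lit 17414750208),
  (nat_lit 42, nat_lit 18471714816), (nat_lit 51, nat_lit 19528679424),
  (nat_lit 110, nat_lit 20585644032), (nat_lit 75, nat_lit 21642608640)]⟩], [
  W5_17330864128, W5_16273899520, W5_15216934912]⟩

theorem F5_17414750208_chk : fwdChk 5 ks5 F5_17414750208 = true := by decide +kernel

noncomputable def F5_17398235136 : Fwd := ⟨V5_17398235136, [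
  ⟨V4_14126678016, nat_lit 2, [(nat_lit 49, nat_lit 17398235136),
  (nat_lit 123, nat_lit 18455199744), (nat_lit 86, nat_lit 19512164352),
  (nat_lit 24, nat_lit 20569128960)]⟩,
  ⟨V4_15200157696, nat_lit 1, [(nat_lit 106, nat_lit 17398235136),
  (nat_lit 33, nat_lit 18471714816), (nat_lit 33, nat_lit 18455199744),
  (nat_lit 46, nat_lit 19528679424), (nat_lit 125, nat_lit 19512164352),
  (nat_lit 125, nat_lit 20585644032), (nat_lit 40, nat_lit 20569128960),
  (nat_lit 125, nat_lit 21642608640)]⟩], [
  W5_17330864128, W5_17314349056, W5_16273899520, W5_16257384448, W5_15216934912, W5_15200419840,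
  W5_14159970304, W5_14143455232]⟩

theorem F5_17398235136_chk : fwdChk 5 ks5 F5_17398235136 = true := by decide +kernel

noncomputable def F5_17381720064 : Fwd := ⟨V5_17381720064, [
  ⟨V4_13086228480, nat_lit 2, [(nat_lit 49, nat_lit 17381720064),
  (nat_lit 13, nat_lit 18455199744), (nat_lit 20, nat_lit 19528679424)]⟩,
  ⟨V4_13053198336, nat_lit 3, [(nat_lit 65, nat_lit 17381720064),
  (nat_lit 63, nat_lit 18438684672), (nat_lit 118, nat_lit 19495649280)]⟩,
  ⟨V4_15200157696, nat_lit 2, [(nat_lit 54, nat_lit 17381720064),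
  (nat_lit 78, nat_lit 18455199744), (nat_lit 17, nat_lit 18438684672),
  (nat_lit 47, nat_lit 19528679424), (nat_lit 15, nat_lit 19512164352),
  (nat_lit 74, nat_lit 19495649280), (nat_lit 96, nat_lit 20585644032),
  (nat_lit 8, nat_lit 20569128960), (nat_lit 33, nat_lit 21642608640)]⟩,
  ⟨V4_14110162944, nat_lit 1, [(nat_lit 119, nat_lit 17381720064),
  (nat_lit 8, nat_lit 18438684672), (nat_lit 51, nat_lit 19495649280),
  (nat_lit 55, nat_lit 20552613888)]⟩], [
  W5_17330864128, W5_17314349056, W5_17297833984, W5_16273899520, W5_16257384448, W5_16240869376,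
  W5_15216934912, W5_15200419840, W5_15183904768, W5_14159970304, W5_14143455232, W5_14126940160,
  W5_13086490624, W5_13069975552]⟩

theorem F5_17381720064_chk : fwdChk 5 ks5 F5_17381720064 = true := by decide +kernel

noncomputable def F5_17381462016 : Fwd := ⟨V5_17381462016, [
  ⟨V4_14109904896, nat_lit 1, [(nat_lit 103, nat_lit 17381462016),
  (nat_lit 24, nat_lit 18438426624), (nat_lit 26, nat_lit 19495391232),
  (nat_lit 38, nat_lit 20552355840)]⟩], [
  W5_17314349056, W5_17297575936, W5_16257384448, W5_16240611328, W5_15200419840, W5_15183646720,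
  W5_14143455232, W5_14126682112, W5_13086490624]⟩

theorem F5_17381462016_chk : fwdChk 5 ks5 F5_17381462016 = true := by decide +kernel

noncomputable def F5_17365204992 : Fwd := ⟨V5_17365204992, [
  ⟨V4_13053198336, nat_lit 3, [(nat_lit 31, nat_lit 17365204992),
  (nat_lit 101, nat_lit 18438684672), (nat_lit 97, nat_lit 18422169600),
  (nat_lit 90, nat_lit 19495649280)]⟩,
  ⟨V4_11979718656, nat_lit 1, [(nat_lit 89, nat_lit 17365204992),
  (nat_lit 78, nat_lit 18422169600)]⟩,
  ⟨V4_15200157696, nat_lit 2, [(nat_lit 100, nat_lit 17365204992),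
  (nat_lit 122, nat_lit 18438684672), (nat_lit 75, nat_lit 18422169600),
  (nat_lit 56, nat_lit 19512164352), (nat_lit 22, nat_lit 19495649280),
  (nat_lit 50, nat_lit 20585644032), (nat_lit 118, nat_lit 20569128960),
  (nat_lit 124, nat_lit 21642608640)]⟩,
  ⟨V4_13036683264, nat_lit 2, [(nat_lit 94, nat_lit 17365204992),
  (nat_lit 37, nat_lit 18422169600), (nat_lit 1, nat_lit 19479134208)]⟩], [
  W5_17330864128, W5_17314349056, W5_17297833984, W5_17281318912, W5_16273899520, W5_16257384448,
  W5_16240869376, W5_16224354304, W5_15216934912, W5_15200419840, W5_15183904768, W5_15167389696,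
  W5_14143455232, W5_14126940160, W5_14110425088, W5_13069975552, W5_13053460480]⟩

theorem F5_17365204992_chk : fwdChk 5 ks5 F5_17365204992 = true := by decide +kernel

noncomputable def F5_17364946944 : Fwd := ⟨V5_17364946944, [
  ⟨V4_11995975680, nat_lit 1, [(nat_lit 94, nat_lit 17364946944),
  (nat_lit 111, nat_lit 18438426624)]⟩,
  ⟨V4_13053198336, nat_lit 3, [(nat_lit 29, nat_lit 17364946944),
  (nat_lit 35, nat_lit 18438684672), (nat_lit 115, nat_lit 18421911552),
  (nat_lit 93, nat_lit 19495649280)]⟩,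
  ⟨V4_11979460608, nat_lit 1, [(nat_lit 77, nat_lit 17364946944),
  (nat_lit 116, nat_lit 18421911552)]⟩,
  ⟨V4_14093389824, nat_lit 2, [(nat_lit 68, nat_lit 17364946944),
  (nat_lit 94, nat_lit 18421911552), (nat_lit 80, nat_lit 19478876160),
  (nat_lit 4, nat_lit 20535840768)]⟩], [
  W5_17314349056, W5_17297833984, W5_17297575936, W5_17281060864, W5_16257384448, W5_16240869376,
  W5_16240611328, W5_16224096256, W5_15200419840, W5_15183904768, W5_15183646720, W5_15167131648,
  W5_14143455232, W5_14126940160, W5_14126682112, W5_14110167040, W5_13069975552, W5_13053202432,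
  W5_11996237824]⟩

theorem F5_17364946944_chk : fwdChk 5 ks5 F5_17364946944 = true := by decide +kernel

noncomputable def F5_17364684864 : Fwd := ⟨V5_17364684864, [
  ⟨V4_11995975680, nat_lit 1, [(nat_lit 22, nat_lit 17364684864),
  (nat_lit 10, nat_lit 18438426624)]⟩], [
  W5_17297575936, W5_16240611328, W5_15183646720, W5_14126682112, W5_11995975744]⟩

theorem F5_17364684864_chk : fwdChk 5 ks5 F5_17364684864 = true := by decide +kernel

noncomputable def F5_17348689920 : Fwd := ⟨V5_17348689920, [
  ⟨V4_10906238976, nat_lit 2, [(nat_lit 6, nat_lit 17348689920)]⟩,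
  ⟨V4_13053198336, nat_lit 3, [(nat_lit 24, nat_lit 17348689920),
  (nat_lit 95, nat_lit 18422169600), (nat_lit 11, nat_lit 19495649280)]⟩,
  ⟨V4_15200157696, nat_lit 2, [(nat_lit 102, nat_lit 17348689920),
  (nat_lit 80, nat_lit 18422169600), (nat_lit 93, nat_lit 19495649280),
  (nat_lit 61, nat_lit 20569128960), (nat_lit 109, nat_lit 21642608640)]⟩,
  ⟨V4_13020168192, nat_lit 4, [(nat_lit 94, nat_lit 17348689920),
  (nat_lit 120, nat_lit 18405654528), (nat_lit 58, nat_lit 19462619136)]⟩,
  ⟨V4_17248026624, nat_lit 2, [(nat_lit 58, nat_lit 17348689920),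
  (nat_lit 13, nat_lit 18405654528), (nat_lit 84, nat_lit 19462619136),
  (nat_lit 77, nat_lit 20519583744), (nat_lit 11, nat_lit 21576548352),
  (nat_lit 51, nat_lit 22633512960), (nat_lit 41, nat_lit 23690477568)]⟩,
  ⟨V4_11979718656, nat_lit 1, [(nat_lit 73, nat_lit 17348689920),
  (nat_lit 7, nat_lit 18422169600)]⟩], [
  W5_17330864128, W5_17314349056, W5_17297833984, W5_17281318912, W5_17264803840, W5_16273899520,
  W5_16257384448, W5_16240869376, W5_16224354304, W5_16207839232, W5_15200419840, W5_15183904768,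
  W5_15167389696, W5_15150874624, W5_14126940160, W5_14110425088, W5_14093910016, W5_13053460480,
  W5_13036945408, W5_11979980800]⟩

theorem F5_17348689920_chk : fwdChk 5 ks5 F5_17348689920 = true := by decide +kernel

noncomputable def F5_17348431872 : Fwd := ⟨V5_17348431872, [
  ⟨V4_13053198336, nat_lit 3, [(nat_lit 93, nat_lit 17348431872),
  (nat_lit 88, nat_lit 18422169600), (nat_lit 10, nat_lit 18421911552),
  (nat_lit 68, nat_lit 19495649280)]⟩,
  ⟨V4_11962945536, nat_lit 2, [(nat_lit 27, nat_lit 17348431872),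
  (nat_lit 25, nat_lit 18405396480)]⟩,
  ⟨V4_11979718656, nat_lit 1, [(nat_lit 55, nat_lit 17348431872),
  (nat_lit 76, nat_lit 18422169600)]⟩,
  ⟨V4_11979460608, nat_lit 1, [(nat_lit 70, nat_lit 17348431872),
  (nat_lit 115, nat_lit 18421911552)]⟩,
  ⟨V4_14126678016, nat_lit 2, [(nat_lit 3, nat_lit 17348431872),
  (nat_lit 46, nat_lit 18422169600), (nat_lit 121, nat_lit 18421911552),
  (nat_lit 87, nat_lit 19495649280), (nat_lit 52, nat_lit 19495391232),
  (nat_lit 53, nat_lit 20569128960)]⟩,
  ⟨V4_16190803968, nat_lit 1, [(nat_lit 124, nat_lit 17348431872),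
  (nat_lit 43, nat_lit 18405396480), (nat_lit 46, nat_lit 19462361088),
  (nat_lit 14, nat_lit 20519325696), (nat_lit 52, nat_lit 21576290304),
  (nat_lit 76, nat_lit 22633254912)]⟩], [
  W5_17314349056, W5_17297833984, W5_17297575936, W5_17281318912, W5_17281060864, W5_17264545792,
  W5_16257384448, W5_16240869376, W5_16240611328, W5_16224354304, W5_16224096256, W5_16207581184,
  W5_15200419840, W5_15183904768, W5_15183646720, W5_15167389696, W5_15167131648, W5_15150616576,
  W5_14126940160, W5_14126682112, W5_14110425088, W5_14110167040, W5_14093651968, W5_13053460480,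
  W5_13053202432, W5_13036687360, W5_11979722752]⟩

theorem F5_17348431872_chk : fwdChk 5 ks5 F5_17348431872 = true := by decide +kernel

noncomputable def F5_17348173824 : Fwd := ⟨V5_17348173824, [
  ⟨V4_10905722880, nat_lit 1, [(nat_lit 78, nat_lit 17348173824)]⟩,
  ⟨V4_13053198336, nat_lit 3, [(nat_lit 43, nat_lit 17348173824),
  (nat_lit 79, nat_lit 18421911552), (nat_lit 11, nat_lit 19495649280)]⟩,
  ⟨V4_13019652096, nat_lit 2, [(nat_lit 116, nat_lit 17348173824),
  (nat_lit 40, nat_lit 18405138432), (nat_lit 104, nat_lit 19462103040)]⟩,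
  ⟨V4_11979460608, nat_lit 1, [(nat_lit 66, nat_lit 17348173824),
  (nat_lit 83, nat_lit 18421911552)]⟩,
  ⟨V4_17247510528, nat_lit 1, [(nat_lit 25, nat_lit 17348173824),
  (nat_lit 91, nat_lit 18405138432), (nat_lit 80, nat_lit 19462103040),
  (nat_lit 31, nat_lit 20519067648), (nat_lit 77, nat_lit 21576032256),
  (nat_lit 103, nat_lit 22632996864), (nat_lit 33, nat_lit 23689961472)]⟩], [
  W5_17297833984, W5_17281060864, W5_17264287744, W5_16240869376, W5_16224096256, W5_16207323136,
  W5_15183904768, W5_15167131648, W5_15150358528, W5_14126940160, W5_14110167040, W5_14093393920,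
  W5_13053202432, W5_13036429312, W5_11979464704]⟩

theorem F5_17348173824_chk : fwdChk 5 ks5 F5_17348173824 = true := by decide +kernel

noncomputable def F5_17348169792 : Fwd := ⟨V5_17348169792, [
  ⟨V4_11979460608, nat_lit 1, [(nat_lit 102, nat_lit 17348169792),
  (nat_lit 81, nat_lit 18421911552)]⟩], [
  W5_17297575936, W5_17281060864, W5_16240611328, W5_16224096256, W5_15183646720, W5_15167131648,
  W5_15150354496, W5_14126682112, W5_14110167040, W5_14093389888, W5_13053202432, W5_13036425280]⟩

theorem F5_17348169792_chk : fwdChk 5 ks5 F5_17348169792 = true := by decide +kernel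

noncomputable def F5_17332174848 : Fwd := ⟨V5_17332174848, [
  ⟨V4_10889723904, nat_lit 1, [(nat_lit 126, nat_lit 17332174848)]⟩,
  ⟨V4_11946688512, nat_lit 2, [(nat_lit 26, nat_lit 17332174848),
  (nat_lit 76, nat_lit 18389139456)]⟩,
  ⟨V4_13020168192, nat_lit 4, [(nat_lit 13, nat_lit 17332174848),
  (nat_lit 55, nat_lit 18405654528), (nat_lit 10, nat_lit 18389139456),
  (nat_lit 40, nat_lit 19462619136)]⟩,
  ⟨V4_17314086912, nat_lit 3, [(nat_lit 30, nat_lit 17332174848),
  (nat_lit 70, nat_lit 18405654528), (nat_lit 116, nat_lit 18389139456),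
  (nat_lit 4, nat_lit 19479134208), (nat_lit 35, nat_lit 19462619136),
  (nat_lit 24, nat_lit 20552613888), (nat_lit 71, nat_lit 20536098816),
  (nat_lit 20, nat_lit 21626093568), (nat_lit 38, nat_lit 21609578496),
  (nat_lit 28, nat_lit 22699573248), (nat_lit 53, nat_lit 22683058176),
  (nat_lit 71, nat_lit 23756537856)]⟩], [
  W5_17330864128, W5_17314349056, W5_17297833984, W5_17281318912, W5_17264803840, W5_16257384448,
  W5_16240869376, W5_16224354304, W5_16207839232, W5_15183904768, W5_15167389696, W5_15150874624,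
  W5_15134359552, W5_14110425088, W5_14093910016, W5_14077394944, W5_13036945408, W5_13020430336,
  W5_11963465728]⟩

theorem F5_17332174848_chk : fwdChk 5 ks5 F5_17332174848 = true := by decide +kernel

noncomputable def F5_17331396672 : Fwd := ⟨V5_17331396672, [
  ⟨V4_13019652096, nat_lit 2, [(nat_lit 37, nat_lit 17331396672),
  (nat_lit 96, nat_lit 18405138432), (nat_lit 9, nat_lit 18388361280),
  (nat_lit 97, nat_lit 19462103040)]⟩,
  ⟨V4_13036425216, nat_lit 1, [(nat_lit 80, nat_lit 17331396672),
  (nat_lit 97, nat_lit 18405138432), (nat_lit 125, nat_lit 18405134400),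
  (nat_lit 1, nat_lit 19478876160)]⟩], [
  W5_17281060864, W5_17264287744, W5_17247510592, W5_16224096256, W5_16207323136, W5_16190545984,
  W5_15167131648, W5_15150358528, W5_15150354496, W5_15133581376, W5_14110167040, W5_14093393920,
  W5_14093389888, W5_13036429312, W5_13036425280, W5_13019652160, W5_11962687552]⟩

theorem F5_17331396672_chk : fwdChk 5 ks5 F5_17331396672 = true := by decide +kernel

noncomputable def F5_17315659776 : Fwd := ⟨V5_17315659776, [
  ⟨V4_10873208832, nat_lit 2, [(nat_lit 63, nat_lit 17315659776)]⟩,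
  ⟨V4_12987138048, nat_lit 3, [(nat_lit 9, nat_lit 17315659776),
  (nat_lit 118, nat_lit 18372624384), (nat_lit 14, nat_lit 19429588992)]⟩,
  ⟨V4_17314086912, nat_lit 3, [(nat_lit 124, nat_lit 17315659776),
  (nat_lit 85, nat_lit 18389139456), (nat_lit 34, nat_lit 19462619136),
  (nat_lit 48, nat_lit 20536098816), (nat_lit 125, nat_lit 21609578496),
  (nat_lit 65, nat_lit 22683058176), (nat_lit 125, nat_lit 23756537856)]⟩,
  ⟨V4_13020168192, nat_lit 4, [(nat_lit 70, nat_lit 17315659776),
  (nat_lit 119, nat_lit 18389139456), (nat_lit 57, nat_lit 19462619136)]⟩], [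
  W5_17314349056, W5_17297833984, W5_17281318912, W5_16240869376, W5_16224354304, W5_16207839232,
  W5_15167389696, W5_15150874624, W5_15134359552, W5_14093910016, W5_14077394944, W5_14060879872,
  W5_13020430336, W5_13003915264, W5_11946950656]⟩

theorem F5_17315659776_chk : fwdChk 5 ks5 F5_17315659776 = true := by decide +kernel

noncomputable def F5_17315143680 : Fwd := ⟨V5_17315143680, [
  ⟨V4_10872692736, nat_lit 2, [(nat_lit 24, nat_lit 17315143680)]⟩,
  ⟨V4_13020168192, nat_lit 4, [(nat_lit 56, nat_lit 17315143680),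
  (nat_lit 32, nat_lit 18388881408), (nat_lit 35, nat_lit 19462619136)]⟩,
  ⟨V4_13019652096, nat_lit 2, [(nat_lit 24, nat_lit 17315143680),
  (nat_lit 95, nat_lit 18388623360), (nat_lit 11, nat_lit 19462103040)]⟩,
  ⟨V4_11946430464, nat_lit 2, [(nat_lit 63, nat_lit 17315143680),
  (nat_lit 85, nat_lit 18388881408)]⟩,
  ⟨V4_15167127552, nat_lit 4, [(nat_lit 19, nat_lit 17315143680),
  (nat_lit 60, nat_lit 18388881408), (nat_lit 34, nat_lit 18388623360),
  (nat_lit 101, nat_lit 19462619136), (nat_lit 74, nat_lit 19462361088),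
  (nat_lit 20, nat_lit 19462103040), (nat_lit 7, nat_lit 20536098816),
  (nat_lit 68, nat_lit 20535840768), (nat_lit 51, nat_lit 21609578496)]⟩,
  ⟨V4_12986621952, nat_lit 2, [(nat_lit 108, nat_lit 17315143680),
  (nat_lit 19, nat_lit 18372108288), (nat_lit 41, nat_lit 19429072896)]⟩], [
  W5_17297833984, W5_17281318912, W5_17281060864, W5_17264803840, W5_17264545792, W5_17264287744,
  W5_17248030720, W5_17247772672, W5_16240869376, W5_16224354304, W5_16224096256, W5_16207839232,
  W5_16207581184, W5_16207323136, W5_16191066112, W5_16190808064, W5_16174292992, W5_15167389696,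
  W5_15167131648, W5_15150874624, W5_15150616576, W5_15150358528, W5_15134101504, W5_15133843456,
  W5_15117328384, W5_14093910016, W5_14093651968, W5_14093393920, W5_14077136896, W5_14076878848,
  W5_14060363776, W5_13020172288, W5_13019914240, W5_13003399168, W5_11946434560]⟩

theorem F5_17315143680_chk : fwdChk 5 ks5 F5_17315143680 = true := by decide +kernel

noncomputable def F5_17314885632 : Fwd := ⟨V5_17314885632, [
  ⟨V4_14093647872, nat_lit 3, [(nat_lit 114, nat_lit 17314885632),
  (nat_lit 112, nat_lit 18388623360), (nat_lit 54, nat_lit 19462361088),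
  (nat_lit 66, nat_lit 20536098816)]⟩], [
  W5_17281318912, W5_17264545792, W5_17247772672, W5_16224354304, W5_16207581184, W5_16190808064,
  W5_15167389696, W5_15150616576, W5_15133843456, W5_14093651968, W5_14076878848, W5_14060105728,
  W5_13019914240, W5_13003141120, W5_11946176512]⟩

theorem F5_17314885632_chk : fwdChk 5 ks5 F5_17314885632 = true := by decide +kernel

noncomputable def F5_17314619520 : Fwd := ⟨V5_17314619520, [
  ⟨V4_13019652096, nat_lit 2, [(nat_lit 47, nat_lit 17314619520),
  (nat_lit 31, nat_lit 18388361280), (nat_lit 36, nat_lit 19462103040)]⟩], [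
  W5_17264287744, W5_17247510592, W5_16207323136, W5_16190545984, W5_16173768832, W5_15150358528,
  W5_15133581376, W5_15116804224, W5_14093393920, W5_14059839616, W5_13019652160, W5_13002875008,
  W5_11945910400]⟩

theorem F5_17314619520_chk : fwdChk 5 ks5 F5_17314619520 = true := by decide +kernel

noncomputable def F5_17299144704 : Fwd := ⟨V5_17299144704, [
  ⟨V4_11930173440, nat_lit 1, [(nat_lit 26, nat_lit 17299144704),
  (nat_lit 114, nat_lit 18372624384)]⟩], [
  W5_17297833984, W5_16224354304, W5_15150874624, W5_14077394944, W5_13003915264]⟩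

theorem F5_17299144704_chk : fwdChk 5 ks5 F5_17299144704 = true := by decide +kernel

noncomputable def F5_17298886656 : Fwd := ⟨V5_17298886656, [
  ⟨V4_12987138048, nat_lit 3, [(nat_lit 28, nat_lit 17298886656),
  (nat_lit 2, nat_lit 18372624384), (nat_lit 29, nat_lit 18355851264),
  (nat_lit 7, nat_lit 19429588992)]⟩,
  ⟨V4_10856435712, nat_lit 1, [(nat_lit 95, nat_lit 17298886656)]⟩,
  ⟨V4_11929915392, nat_lit 2, [(nat_lit 109, nat_lit 17298886656),
  (nat_lit 39, nat_lit 18372366336)]⟩,
  ⟨V4_11930173440, nat_lit 1, [(nat_lit 120, nat_lit 17298886656),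
  (nat_lit 85, nat_lit 18372624384)]⟩,
  ⟨V4_16223834112, nat_lit 1, [(nat_lit 105, nat_lit 17298886656),
  (nat_lit 54, nat_lit 18372366336), (nat_lit 107, nat_lit 19445846016),
  (nat_lit 102, nat_lit 20519325696), (nat_lit 3, nat_lit 21592805376),
  (nat_lit 119, nat_lit 22666285056)]⟩,
  ⟨V4_13003653120, nat_lit 1, [(nat_lit 106, nat_lit 17298886656),
  (nat_lit 53, nat_lit 18372624384), (nat_lit 103, nat_lit 18372366336),
  (nat_lit 82, nat_lit 19446104064)]⟩], [
  W5_17297833984, W5_17297575936, W5_17281318912, W5_17281060864, W5_16224354304, W5_16224096256,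
  W5_16207839232, W5_16207581184, W5_15150874624, W5_15150616576, W5_15134359552, W5_15134101504,
  W5_14077394944, W5_14077136896, W5_14060879872, W5_14060621824, W5_13003915264, W5_13003657216,
  W5_12987142144, W5_11930177536]⟩

theorem F5_17298886656_chk : fwdChk 5 ks5 F5_17298886656 = true := by decide +kernel

noncomputable def F5_17298624576 : Fwd := ⟨V5_17298624576, [
  ⟨V4_11929915392, nat_lit 2, [(nat_lit 105, nat_lit 17298624576),
  (nat_lit 117, nat_lit 18372366336)]⟩,
  ⟨V4_16223834112, nat_lit 1, [(nat_lit 95, nat_lit 17298624576),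
  (nat_lit 35, nat_lit 18372366336), (nat_lit 1, nat_lit 18372104256),
  (nat_lit 110, nat_lit 19445846016), (nat_lit 34, nat_lit 19445583936),
  (nat_lit 107, nat_lit 20519325696), (nat_lit 44, nat_lit 20519063616),
  (nat_lit 72, nat_lit 21592805376), (nat_lit 2, nat_lit 21592543296),
  (nat_lit 21, nat_lit 22666285056)]⟩,
  ⟨V4_12986880000, nat_lit 1, [(nat_lit 2, nat_lit 17298624576),
  (nat_lit 41, nat_lit 18372366336), (nat_lit 95, nat_lit 18355589184),
  (nat_lit 47, nat_lit 19429330944)]⟩], [
  W5_17297575936, W5_17281060864, W5_17264545792, W5_16224096256, W5_16207581184, W5_16191066112,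
  W5_16190804032, W5_15150616576, W5_15150354496, W5_15134101504, W5_15117586432, W5_15117324352,
  W5_14077136896, W5_14076874816, W5_14060621824, W5_14060359744, W5_14043844672, W5_13003657216,
  W5_13003395136, W5_12986880064, W5_11929915456]⟩

theorem F5_17298624576_chk : fwdChk 5 ks5 F5_17298624576 = true := by decide +kernel

noncomputable def F5_17298370560 : Fwd := ⟨V5_17298370560, [
  ⟨V4_10855919616, nat_lit 1, [(nat_lit 89, nat_lit 17298370560)]⟩,
  ⟨V4_14077132800, nat_lit 3, [(nat_lit 113, nat_lit 17298370560),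
  (nat_lit 62, nat_lit 18372108288), (nat_lit 107, nat_lit 19445846016),
  (nat_lit 32, nat_lit 20519583744)]⟩,
  ⟨V4_11912884224, nat_lit 1, [(nat_lit 43, nat_lit 17298370560),
  (nat_lit 119, nat_lit 18355335168)]⟩,
  ⟨V4_13003395072, nat_lit 2, [(nat_lit 122, nat_lit 17298370560),
  (nat_lit 22, nat_lit 18372108288), (nat_lit 112, nat_lit 19445846016)]⟩], [
  W5_17281318912, W5_17264803840, W5_17264545792, W5_17248030720, W5_17247772672, W5_16224354304,
  W5_16207839232, W5_16207581184, W5_16191066112, W5_16190808064, W5_16174292992, W5_15150874624,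
  W5_15150616576, W5_15134101504, W5_15133843456, W5_15117328384, W5_15100555264, W5_14077136896,
  W5_14076878848, W5_14060363776, W5_14060105728, W5_14043590656, W5_13003399168, W5_13003141120,
  W5_12986626048, W5_11929661440]⟩

theorem F5_17298370560_chk : fwdChk 5 ks5 F5_17298370560 = true := by decide +kernel

noncomputable def F5_17298108480 : Fwd := ⟨V5_17298108480, [
  ⟨V4_13003137024, nat_lit 1, [(nat_lit 103, nat_lit 17298108480),
  (nat_lit 12, nat_lit 18371850240), (nat_lit 45, nat_lit 18371846208),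
  (nat_lit 62, nat_lit 19445587968)]⟩], [
  W5_17264545792, W5_17247772672, W5_16207581184, W5_16190808064, W5_16190804032, W5_15150616576,
  W5_15133843456, W5_15117066304, W5_14076878848, W5_14076874816, W5_14060105728, W5_14060101696,
  W5_13003141120, W5_13003137088, W5_11929399360]⟩

theorem F5_17298108480_chk : fwdChk 5 ks5 F5_17298108480 = true := by decide +kernel

noncomputable def F5_17282113536 : Fwd := ⟨V5_17282113536, [
  ⟨V4_10839662592, nat_lit 2, [(nat_lit 1, nat_lit 17282113536)]⟩,
  ⟨V4_12987138048, nat_lit 3, [(nat_lit 37, nat_lit 17282113536),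
  (nat_lit 3, nat_lit 18355851264), (nat_lit 39, nat_lit 19429588992)]⟩,
  ⟨V4_15133581312, nat_lit 2, [(nat_lit 35, nat_lit 17282113536),
  (nat_lit 117, nat_lit 18355593216), (nat_lit 39, nat_lit 19429072896),
  (nat_lit 30, nat_lit 20502552576), (nat_lit 109, nat_lit 21576032256)]⟩,
  ⟨V4_11913142272, nat_lit 1, [(nat_lit 115, nat_lit 17282113536),
  (nat_lit 26, nat_lit 18355593216)]⟩], [
  W5_17281318912, W5_17281060864, W5_16207839232, W5_16207581184, W5_16207323136, W5_15134359552,
  W5_15134101504, W5_15133843456, W5_14060879872, W5_14060621824, W5_14060363776, W5_12987142144,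
  W5_12986884096, W5_11913404416]⟩

theorem F5_17282113536_chk : fwdChk 5 ks5 F5_17282113536 = true := by decide +kernel

noncomputable def F5_17281597440 : Fwd := ⟨V5_17281597440, [
  ⟨V4_10839146496, nat_lit 1, [(nat_lit 17, nat_lit 17281597440)]⟩,
  ⟨V4_15134097408, nat_lit 4, [(nat_lit 70, nat_lit 17281597440),
  (nat_lit 90, nat_lit 18355335168), (nat_lit 98, nat_lit 19429072896),
  (nat_lit 2, nat_lit 20502810624), (nat_lit 33, nat_lit 21576548352)]⟩], [
  W5_17264803840, W5_17248030720, W5_16207839232, W5_16191066112, W5_16174292992, W5_15134101504,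
  W5_15117328384, W5_15100555264, W5_14060363776, W5_14043590656, W5_14026817536, W5_12986626048,
  W5_12969852928, W5_11912888320]⟩

theorem F5_17281597440_chk : fwdChk 5 ks5 F5_17281597440 = true := by decide +kernel

noncomputable def F5_17281589376 : Fwd := ⟨V5_17281589376, [
  ⟨V4_12986621952, nat_lit 2, [(nat_lit 110, nat_lit 17281589376),
  (nat_lit 5, nat_lit 18355331136), (nat_lit 14, nat_lit 19429072896)]⟩,
  ⟨V4_15100551168, nat_lit 1, [(nat_lit 99, nat_lit 17281589376),
  (nat_lit 27, nat_lit 18355331136), (nat_lit 54, nat_lit 18338553984),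
  (nat_lit 16, nat_lit 19429072896), (nat_lit 54, nat_lit 19412295744),
  (nat_lit 70, nat_lit 19395518592), (nat_lit 95, nat_lit 20486037504),
  (nat_lit 72, nat_lit 20469260352), (nat_lit 27, nat_lit 21543002112)]⟩], [
  W5_17264287744, W5_17247772672, W5_17247510592, W5_16207323136, W5_16190808064, W5_16190545984,
  W5_16174292992, W5_16173768832, W5_15133843456, W5_15133581376, W5_15117328384, W5_15117066304,
  W5_15116804224, W5_15100551232, W5_14060363776, W5_14060101696, W5_14059839616, W5_14043586624,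
  W5_14026809472, W5_12986622016, W5_12969844864, W5_11912880256]⟩

theorem F5_17281589376_chk : fwdChk 5 ks5 F5_17281589376 = true := by decide +kernel

noncomputable def F5_17264820288 : Fwd := ⟨V5_17264820288, [
  ⟨V4_12953075712, nat_lit 1, [(nat_lit 89, nat_lit 17264820288),
  (nat_lit 97, nat_lit 18338562048), (nat_lit 3, nat_lit 18321784896),
  (nat_lit 2, nat_lit 19395526656)]⟩], [
  W5_17248030720, W5_16191066112, W5_16174292992, W5_15117328384, W5_15117324352, W5_15100555264,
  W5_15100551232, W5_14043590656, W5_14043586624, W5_14026817536, W5_12969852928, W5_12953075776]⟩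

theorem F5_17264820288_chk : fwdChk 5 ks5 F5_17264820288 = true := by decide +kernel

noncomputable def F5_17248043136 : Fwd := ⟨V5_17248043136, [
  ⟨V4_12953075712, nat_lit 1, [(nat_lit 9, nat_lit 17248043136),
  (nat_lit 87, nat_lit 18321784896), (nat_lit 15, nat_lit 19395526656)]⟩], [
  W5_16174292992, W5_15100555264, W5_15100551232, W5_14026817536, W5_14026809472, W5_12953075776,
  W5_11879334016]⟩

theorem F5_17248043136_chk : fwdChk 5 ks5 F5_17248043136 = true := by decide +kernel

noncomputable def F5_16341270528 : Fwd := ⟨V5_16341270528, [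
  ⟨V4_15200157696, nat_lit 1, [(nat_lit 14, nat_lit 16341270528),
  (nat_lit 36, nat_lit 17414750208), (nat_lit 107, nat_lit 17398235136),
  (nat_lit 46, nat_lit 18471714816), (nat_lit 65, nat_lit 18455199744),
  (nat_lit 42, nat_lit 19528679424), (nat_lit 120, nat_lit 19512164352),
  (nat_lit 14, nat_lit 20585644032), (nat_lit 59, nat_lit 20569128960),
  (nat_lit 44, nat_lit 21642608640)]⟩], [
  W5_16273899520, W5_16257384448, W5_15216934912, W5_15200419840]⟩

theorem F5_16341270528_chk : fwdChk 5 ks5 F5_16341270528 = true := by decide +kernel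

noncomputable def F5_16324755456 : Fwd := ⟨V5_16324755456, [
  ⟨V4_15167127552, nat_lit 4, [(nat_lit 31, nat_lit 16324755456),
  (nat_lit 113, nat_lit 17381720064), (nat_lit 93, nat_lit 18438684672),
  (nat_lit 65, nat_lit 19495649280), (nat_lit 4, nat_lit 20552613888),
  (nat_lit 101, nat_lit 21609578496)]⟩], [
  W5_16273899520, W5_16257384448, W5_16240869376, W5_15216934912, W5_15200419840, W5_15183904768,
  W5_14159970304, W5_14143455232, W5_14126940160]⟩

theorem F5_16324755456_chk : fwdChk 5 ks5 F5_16324755456 = true := by decide +kernel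

noncomputable def F5_16324497408 : Fwd := ⟨V5_16324497408, [
  ⟨V4_14126678016, nat_lit 2, [(nat_lit 120, nat_lit 16324497408),
  (nat_lit 121, nat_lit 17398235136), (nat_lit 85, nat_lit 17381462016),
  (nat_lit 83, nat_lit 18455199744), (nat_lit 22, nat_lit 18438426624),
  (nat_lit 36, nat_lit 19512164352), (nat_lit 56, nat_lit 19495391232),
  (nat_lit 5, nat_lit 20569128960)]⟩], [
  W5_16257384448, W5_16240611328, W5_15200419840, W5_15183646720, W5_14143455232, W5_14126682112]⟩

theorem F5_16324497408_chk : fwdChk 5 ks5 F5_16324497408 = true := by decide +kernel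

noncomputable def F5_16308240384 : Fwd := ⟨V5_16308240384, [
  ⟨V4_13086228480, nat_lit 2, [(nat_lit 51, nat_lit 16308240384),
  (nat_lit 91, nat_lit 17381720064), (nat_lit 27, nat_lit 18455199744),
  (nat_lit 23, nat_lit 19528679424)]⟩,
  ⟨V4_13053198336, nat_lit 3, [(nat_lit 47, nat_lit 16308240384),
  (nat_lit 30, nat_lit 17381720064), (nat_lit 86, nat_lit 17365204992),
  (nat_lit 29, nat_lit 18438684672), (nat_lit 17, nat_lit 18422169600),
  (nat_lit 66, nat_lit 19495649280)]⟩,
  ⟨V4_13036683264, nat_lit 1, [(nat_lit 1, nat_lit 16308240384),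
  (nat_lit 101, nat_lit 17365204992), (nat_lit 51, nat_lit 18422169600),
  (nat_lit 29, nat_lit 19479134208)]⟩,
  ⟨V4_15200157696, nat_lit 1, [(nat_lit 106, nat_lit 16308240384),
  (nat_lit 64, nat_lit 17381720064), (nat_lit 48, nat_lit 17365204992),
  (nat_lit 35, nat_lit 18455199744), (nat_lit 30, nat_lit 18438684672),
  (nat_lit 21, nat_lit 18422169600), (nat_lit 35, nat_lit 19528679424),
  (nat_lit 22, nat_lit 19512164352), (nat_lit 50, nat_lit 19495649280),
  (nat_lit 71, nat_lit 20585644032), (nat_lit 117, nat_lit 20569128960),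
  (nat_lit 68, nat_lit 21642608640)]⟩], [
  W5_16273899520, W5_16257384448, W5_16240869376, W5_16224354304, W5_15216934912, W5_15200419840,
  W5_15183904768, W5_15167389696, W5_14159970304, W5_14143455232, W5_14126940160, W5_14110425088,
  W5_13086490624, W5_13069975552, W5_13053460480]⟩

theorem F5_16308240384_chk : fwdChk 5 ks5 F5_16308240384 = true := by decide +kernel

noncomputable def F5_16307982336 : Fwd := ⟨V5_16307982336, [
  ⟨V4_13053198336, nat_lit 3, [(nat_lit 49, nat_lit 16307982336),
  (nat_lit 9, nat_lit 17381720064), (nat_lit 59, nat_lit 17364946944),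
  (nat_lit 85, nat_lit 18438684672), (nat_lit 104, nat_lit 18421911552),
  (nat_lit 100, nat_lit 19495649280)]⟩,
  ⟨V4_14093389824, nat_lit 2, [(nat_lit 69, nat_lit 16307982336),
  (nat_lit 42, nat_lit 17364946944), (nat_lit 32, nat_lit 18421911552),
  (nat_lit 12, nat_lit 19478876160), (nat_lit 14, nat_lit 20535840768)]⟩], [
  W5_16257384448, W5_16240869376, W5_16240611328, W5_16224096256, W5_15200419840, W5_15183904768,
  W5_15183646720, W5_15167131648, W5_14143455232, W5_14126940160, W5_14126682112, W5_14110167040,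
  W5_13086490624, W5_13069975552, W5_13053202432]⟩

theorem F5_16307982336_chk : fwdChk 5 ks5 F5_16307982336 = true := by decide +kernel

noncomputable def F5_16291467264 : Fwd := ⟨V5_16291467264, [
  ⟨V4_11995975680, nat_lit 1, [(nat_lit 103, nat_lit 16291467264),
  (nat_lit 32, nat_lit 17364946944), (nat_lit 116, nat_lit 18438426624)]⟩,
  ⟨V4_11962945536, nat_lit 2, [(nat_lit 27, nat_lit 16291467264),
  (nat_lit 118, nat_lit 17348431872), (nat_lit 92, nat_lit 18405396480)]⟩,
  ⟨V4_13053198336, nat_lit 3, [(nat_lit 46, nat_lit 16291467264),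
  (nat_lit 102, nat_lit 17365204992), (nat_lit 45, nat_lit 17364946944),
  (nat_lit 96, nat_lit 17348431872), (nat_lit 95, nat_lit 18438684672),
  (nat_lit 55, nat_lit 18422169600), (nat_lit 73, nat_lit 18421911552),
  (nat_lit 117, nat_lit 19495649280)]⟩,
  ⟨V4_11979718656, nat_lit 1, [(nat_lit 82, nat_lit 16291467264),
  (nat_lit 88, nat_lit 17365204992), (nat_lit 24, nat_lit 17348431872),
  (nat_lit 111, nat_lit 18422169600)]⟩,
  ⟨V4_11979460608, nat_lit 1, [(nat_lit 126, nat_lit 16291467264),
  (nat_lit 10, nat_lit 17364946944), (nat_lit 19, nat_lit 17348431872),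
  (nat_lit 14, nat_lit 18421911552)]⟩,
  ⟨V4_16190803968, nat_lit 1, [(nat_lit 76, nat_lit 16291467264),
  (nat_lit 1, nat_lit 17348431872), (nat_lit 16, nat_lit 18405396480),
  (nat_lit 66, nat_lit 19462361088), (nat_lit 83, nat_lit 20519325696),
  (nat_lit 26, nat_lit 21576290304), (nat_lit 23, nat_lit 22633254912)]⟩], [
  W5_16257384448, W5_16240869376, W5_16240611328, W5_16224354304, W5_16224096256, W5_16207581184,
  W5_15200419840, W5_15183904768, W5_15183646720, W5_15167389696, W5_15167131648, W5_15150616576,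
  W5_14143455232, W5_14126940160, W5_14126682112, W5_14110425088, W5_14110167040, W5_14093651968,
  W5_13069975552, W5_13053460480, W5_13053202432, W5_13036687360, W5_11996237824, W5_11979722752]⟩

theorem F5_16291467264_chk : fwdChk 5 ks5 F5_16291467264 = true := by decide +kernel

noncomputable def F5_16291209216 : Fwd := ⟨V5_16291209216, [
  ⟨V4_13053198336, nat_lit 3, [(nat_lit 46, nat_lit 16291209216),
  (nat_lit 97, nat_lit 17364946944), (nat_lit 55, nat_lit 17348173824),
  (nat_lit 113, nat_lit 18438684672), (nat_lit 86, nat_lit 18421911552),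
  (nat_lit 31, nat_lit 19495649280)]⟩,
  ⟨V4_13019652096, nat_lit 2, [(nat_lit 82, nat_lit 16291209216),
  (nat_lit 45, nat_lit 17348173824), (nat_lit 17, nat_lit 18405138432),
  (nat_lit 103, nat_lit 19462103040)]⟩], [
  W5_16240869376, W5_16224096256, W5_16207323136, W5_15183904768, W5_15167131648, W5_15150358528,
  W5_14126940160, W5_14110167040, W5_14093393920, W5_13069975552, W5_13053202432, W5_13036429312,
  W5_11996237824, W5_11979464704]⟩

theorem F5_16291209216_chk : fwdChk 5 ks5 F5_16291209216 = true := by decide +kernel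

noncomputable def F5_16291205184 : Fwd := ⟨V5_16291205184, [
  ⟨V4_11995975680, nat_lit 1, [(nat_lit 6, nat_lit 16291205184),
  (nat_lit 104, nat_lit 17364946944), (nat_lit 58, nat_lit 17364684864),
  (nat_lit 115, nat_lit 18438426624)]⟩,
  ⟨V4_11979460608, nat_lit 1, [(nat_lit 4, nat_lit 16291205184),
  (nat_lit 96, nat_lit 17364946944), (nat_lit 110, nat_lit 17348169792),
  (nat_lit 25, nat_lit 18421911552)]⟩], [
  W5_16240611328, W5_16224096256, W5_15183646720, W5_15167131648, W5_15150354496, W5_14126682112,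
  W5_14110167040, W5_14093389888, W5_13053202432, W5_13036425280, W5_11996237824, W5_11995975744]⟩

theorem F5_16291205184_chk : fwdChk 5 ks5 F5_16291205184 = true := by decide +kernel

noncomputable def F5_16275210240 : Fwd := ⟨V5_16275210240, [
  ⟨V4_10906238976, nat_lit 2, [(nat_lit 86, nat_lit 16275210240),
  (nat_lit 110, nat_lit 17348689920)]⟩,
  ⟨V4_15200157696, nat_lit 2, [(nat_lit 66, nat_lit 16275210240),
  (nat_lit 92, nat_lit 17348689920), (nat_lit 60, nat_lit 18422169600),
  (nat_lit 75, nat_lit 19495649280), (nat_lit 118, nat_lit 20569128960),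
  (nat_lit 24, nat_lit 21642608640)]⟩,
  ⟨V4_13053198336, nat_lit 3, [(nat_lit 108, nat_lit 16275210240),
  (nat_lit 59, nat_lit 17348689920), (nat_lit 103, nat_lit 18422169600),
  (nat_lit 99, nat_lit 19495649280)]⟩,
  ⟨V4_10889723904, nat_lit 1, [(nat_lit 35, nat_lit 16275210240),
  (nat_lit 122, nat_lit 17332174848)]⟩,
  ⟨V4_11946688512, nat_lit 2, [(nat_lit 90, nat_lit 16275210240),
  (nat_lit 3, nat_lit 17332174848), (nat_lit 55, nat_lit 18389139456)]⟩,
  ⟨V4_11979718656, nat_lit 1, [(nat_lit 90, nat_lit 16275210240),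
  (nat_lit 26, nat_lit 17348689920), (nat_lit 37, nat_lit 18422169600)]⟩], [
  W5_16273899520, W5_16257384448, W5_16240869376, W5_16224354304, W5_16207839232, W5_15200419840,
  W5_15183904768, W5_15167389696, W5_15150874624, W5_15134359552, W5_14126940160, W5_14110425088,
  W5_14093910016, W5_14077394944, W5_13053460480, W5_13036945408, W5_13020430336, W5_11979980800,
  W5_11963465728, W5_10906501120]⟩

theorem F5_16275210240_chk : fwdChk 5 ks5 F5_16275210240 = true := by decide +kernel

noncomputable def F5_16274952192 : Fwd := ⟨V5_16274952192, [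
  ⟨V4_10906238976, nat_lit 2, [(nat_lit 55, nat_lit 16274952192),
  (nat_lit 48, nat_lit 17348689920)]⟩,
  ⟨V4_13053198336, nat_lit 3, [(nat_lit 105, nat_lit 16274952192),
  (nat_lit 65, nat_lit 17348689920), (nat_lit 3, nat_lit 17348431872),
  (nat_lit 106, nat_lit 18422169600), (nat_lit 7, nat_lit 18421911552),
  (nat_lit 56, nat_lit 19495649280)]⟩,
  ⟨V4_13020168192, nat_lit 4, [(nat_lit 52, nat_lit 16274952192),
  (nat_lit 117, nat_lit 17348689920), (nat_lit 19, nat_lit 17331916800),
  (nat_lit 82, nat_lit 18405654528), (nat_lit 17, nat_lit 18388881408),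
  (nat_lit 76, nat_lit 19462619136)]⟩,
  ⟨V4_10889465856, nat_lit 1, [(nat_lit 87, nat_lit 16274952192),
  (nat_lit 42, nat_lit 17331916800)]⟩,
  ⟨V4_16174288896, nat_lit 1, [(nat_lit 26, nat_lit 16274952192),
  (nat_lit 84, nat_lit 17331916800), (nat_lit 102, nat_lit 18388881408),
  (nat_lit 119, nat_lit 19445846016), (nat_lit 107, nat_lit 20502810624),
  (nat_lit 65, nat_lit 21559775232), (nat_lit 13, nat_lit 22616739840)]⟩,
  ⟨V4_14126678016, nat_lit 2, [(nat_lit 46, nat_lit 16274952192),
  (nat_lit 1, nat_lit 17348689920), (nat_lit 123, nat_lit 17348431872),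
  (nat_lit 15, nat_lit 18422169600), (nat_lit 72, nat_lit 18421911552),
  (nat_lit 109, nat_lit 19495649280), (nat_lit 66, nat_lit 19495391232),
  (nat_lit 105, nat_lit 20569128960)]⟩,
  ⟨V4_11979460608, nat_lit 1, [(nat_lit 82, nat_lit 16274952192),
  (nat_lit 76, nat_lit 17348431872), (nat_lit 17, nat_lit 18421911552)]⟩], [
  W5_16257384448, W5_16240869376, W5_16240611328, W5_16224354304, W5_16224096256, W5_16207839232,
  W5_16207581184, W5_16191066112, W5_15200419840, W5_15183904768, W5_15183646720, W5_15167389696,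
  W5_15167131648, W5_15150874624, W5_15150616576, W5_15134101504, W5_14126940160, W5_14126682112,
  W5_14110425088, W5_14110167040, W5_14093910016, W5_14093651968, W5_14077136896, W5_13053460480,
  W5_13053202432, W5_13036945408, W5_13036687360, W5_13020172288, W5_11979980800, W5_11979722752,
  W5_11963207680, W5_10906243072]⟩

theorem F5_16274952192_chk : fwdChk 5 ks5 F5_16274952192 = true := by decide +kernel

noncomputable def F5_16274694144 : Fwd := ⟨V5_16274694144, [
  ⟨V4_10905722880, nat_lit 1, [(nat_lit 3, nat_lit 16274694144),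
  (nat_lit 49, nat_lit 17348173824)]⟩,
  ⟨V4_13053198336, nat_lit 3, [(nat_lit 12, nat_lit 16274694144),
  (nat_lit 73, nat_lit 17348431872), (nat_lit 84, nat_lit 17348173824),
  (nat_lit 14, nat_lit 18422169600), (nat_lit 4, nat_lit 18421911552),
  (nat_lit 20, nat_lit 19495649280)]⟩,
  ⟨V4_11979718656, nat_lit 1, [(nat_lit 81, nat_lit 16274694144),
  (nat_lit 50, nat_lit 17348431872), (nat_lit 116, nat_lit 18422169600)]⟩,
  ⟨V4_11962945536, nat_lit 2, [(nat_lit 123, nat_lit 16274694144),
  (nat_lit 13, nat_lit 17348431872), (nat_lit 121, nat_lit 17331658752),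
  (nat_lit 12, nat_lit 18405396480)]⟩,
  ⟨V4_13036683264, nat_lit 2, [(nat_lit 57, nat_lit 16274694144),
  (nat_lit 59, nat_lit 17348431872), (nat_lit 36, nat_lit 17331658752),
  (nat_lit 42, nat_lit 18422169600), (nat_lit 98, nat_lit 18405396480),
  (nat_lit 105, nat_lit 19479134208)]⟩], [
  W5_16240869376, W5_16224354304, W5_16224096256, W5_16207581184, W5_16207323136, W5_16190808064,
  W5_15183904768, W5_15167389696, W5_15167131648, W5_15150616576, W5_15150358528, W5_15133843456,
  W5_14126940160, W5_14110425088, W5_14110167040, W5_14093651968, W5_14093393920, W5_14076878848,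
  W5_13053460480, W5_13053202432, W5_13036687360, W5_13036429312, W5_13019914240, W5_11979722752,
  W5_11979464704, W5_11962949632, W5_10905985024]⟩

theorem F5_16274694144_chk : fwdChk 5 ks5 F5_16274694144 = true := by decide +kernel

noncomputable def F5_16274690112 : Fwd := ⟨V5_16274690112, [
  ⟨V4_11962945536, nat_lit 2, [(nat_lit 54, nat_lit 16274690112),
  (nat_lit 17, nat_lit 17348431872), (nat_lit 74, nat_lit 17331654720),
  (nat_lit 125, nat_lit 18405396480)]⟩,
  ⟨V4_11979460608, nat_lit 1, [(nat_lit 30, nat_lit 16274690112),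
  (nat_lit 77, nat_lit 17348431872), (nat_lit 102, nat_lit 17348169792),
  (nat_lit 115, nat_lit 18421911552)]⟩], [
  W5_16240611328, W5_16224096256, W5_16207581184, W5_16190804032, W5_15183646720, W5_15167131648,
  W5_15150616576, W5_15150354496, W5_14126682112, W5_14110167040, W5_14093651968, W5_14093389888,
  W5_14076874816, W5_13053202432, W5_13036687360, W5_13036425280, W5_13019910208, W5_11979722752,
  W5_11962945600]⟩

theorem F5_16274690112_chk : fwdChk 5 ks5 F5_16274690112 = true := by decide +kernel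

noncomputable def F5_16274432064 : Fwd := ⟨V5_16274432064, [
  ⟨V4_10905722880, nat_lit 1, [(nat_lit 107, nat_lit 16274432064),
  (nat_lit 7, nat_lit 17348173824)]⟩,
  ⟨V4_11979460608, nat_lit 1, [(nat_lit 23, nat_lit 16274432064),
  (nat_lit 45, nat_lit 17348173824), (nat_lit 13, nat_lit 17348169792),
  (nat_lit 56, nat_lit 18421911552)]⟩,
  ⟨V4_16190545920, nat_lit 1, [(nat_lit 6, nat_lit 16274432064),
  (nat_lit 117, nat_lit 17348173824), (nat_lit 81, nat_lit 17331396672),
  (nat_lit 55, nat_lit 18405138432), (nat_lit 7, nat_lit 18388361280),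
  (nat_lit 37, nat_lit 19462103040), (nat_lit 75, nat_lit 19445325888),
  (nat_lit 103, nat_lit 20519067648), (nat_lit 26, nat_lit 20502290496),
  (nat_lit 82, nat_lit 21576032256), (nat_lit 12, nat_lit 21559255104),
  (nat_lit 11, nat_lit 22632996864)]⟩], [
  W5_16224096256, W5_16207323136, W5_16190545984, W5_15167131648, W5_15150358528, W5_15150354496,
  W5_15133581376, W5_14110167040, W5_14093393920, W5_14093389888, W5_13053202432, W5_13036429312,
  W5_13036425280, W5_13019652160, W5_11979464704, W5_11962687552, W5_10905722944]⟩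

theorem F5_16274432064_chk : fwdChk 5 ks5 F5_16274432064 = true := by decide +kernel

noncomputable def F5_16258695168 : Fwd := ⟨V5_16258695168, [
  ⟨V4_12987138048, nat_lit 3, [(nat_lit 91, nat_lit 16258695168),
  (nat_lit 54, nat_lit 17315659776), (nat_lit 97, nat_lit 18372624384),
  (nat_lit 6, nat_lit 19429588992)]⟩,
  ⟨V4_10873208832, nat_lit 2, [(nat_lit 12, nat_lit 16258695168),
  (nat_lit 124, nat_lit 17315659776)]⟩,
  ⟨V4_16257122304, nat_lit 1, [(nat_lit 75, nat_lit 16258695168),
  (nat_lit 32, nat_lit 17332174848), (nat_lit 102, nat_lit 18405654528),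
  (nat_lit 37, nat_lit 19479134208), (nat_lit 63, nat_lit 20552613888),
  (nat_lit 24, nat_lit 21626093568), (nat_lit 56, nat_lit 22699573248)]⟩,
  ⟨V4_10889723904, nat_lit 1, [(nat_lit 8, nat_lit 16258695168),
  (nat_lit 123, nat_lit 17332174848)]⟩,
  ⟨V4_15183642624, nat_lit 2, [(nat_lit 120, nat_lit 16258695168),
  (nat_lit 8, nat_lit 17332174848), (nat_lit 6, nat_lit 18405654528),
  (nat_lit 13, nat_lit 19479134208), (nat_lit 24, nat_lit 20552613888),
  (nat_lit 72, nat_lit 21626093568)]⟩,
  ⟨V4_11930173440, nat_lit 1, [(nat_lit 97, nat_lit 16258695168),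
  (nat_lit 86, nat_lit 17315659776), (nat_lit 122, nat_lit 18372624384)]⟩], [
  W5_16257384448, W5_16240869376, W5_16224354304, W5_16207839232, W5_15183904768, W5_15167389696,
  W5_15150874624, W5_15134359552, W5_14110425088, W5_14093910016, W5_14077394944, W5_14060879872,
  W5_13036945408, W5_13020430336, W5_13003915264, W5_11963465728, W5_11946950656, W5_10889986048]⟩

theorem F5_16258695168_chk : fwdChk 5 ks5 F5_16258695168 = true := by decide +kernel

noncomputable def F5_16258437120 : Fwd := ⟨V5_16258437120, [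
  ⟨V4_10889723904, nat_lit 1, [(nat_lit 105, nat_lit 16258437120),
  (nat_lit 57, nat_lit 17332174848)]⟩,
  ⟨V4_11962945536, nat_lit 2, [(nat_lit 123, nat_lit 16258437120),
  (nat_lit 44, nat_lit 17331916800), (nat_lit 4, nat_lit 18405396480)]⟩,
  ⟨V4_11946688512, nat_lit 2, [(nat_lit 121, nat_lit 16258437120),
  (nat_lit 42, nat_lit 17332174848), (nat_lit 12, nat_lit 17315401728),
  (nat_lit 46, nat_lit 18389139456)]⟩,
  ⟨V4_11929915392, nat_lit 2, [(nat_lit 57, nat_lit 16258437120),
  (nat_lit 116, nat_lit 17315401728), (nat_lit 73, nat_lit 18372366336)]⟩,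
  ⟨V4_10889465856, nat_lit 1, [(nat_lit 18, nat_lit 16258437120),
  (nat_lit 88, nat_lit 17331916800)]⟩,
  ⟨V4_14109904896, nat_lit 1, [(nat_lit 52, nat_lit 16258437120),
  (nat_lit 94, nat_lit 17331916800), (nat_lit 116, nat_lit 18405396480),
  (nat_lit 99, nat_lit 19478876160), (nat_lit 93, nat_lit 20552355840)]⟩,
  ⟨V4_13020168192, nat_lit 4, [(nat_lit 26, nat_lit 16258437120),
  (nat_lit 21, nat_lit 17332174848), (nat_lit 64, nat_lit 17331916800),
  (nat_lit 120, nat_lit 17315401728), (nat_lit 5, nat_lit 18405654528),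
  (nat_lit 113, nat_lit 18389139456), (nat_lit 83, nat_lit 18388881408),
  (nat_lit 120, nat_lit 19462619136)]⟩], [
  W5_16257384448, W5_16240869376, W5_16240611328, W5_16224354304, W5_16224096256, W5_16207839232,
  W5_16207581184, W5_16191066112, W5_15183904768, W5_15183646720, W5_15167389696, W5_15167131648,
  W5_15150874624, W5_15150616576, W5_15134359552, W5_15134101504, W5_15117586432, W5_14110425088,
  W5_14110167040, W5_14093910016, W5_14093651968, W5_14077394944, W5_14077136896, W5_14060621824,
  W5_13036945408, W5_13036687360, W5_13020430336, W5_13020172288, W5_13003657216, W5_11963465728,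
  W5_11963207680, W5_11946692608, W5_10889728000]⟩

theorem F5_16258437120_chk : fwdChk 5 ks5 F5_16258437120 = true := by decide +kernel

noncomputable def F5_16258179072 : Fwd := ⟨V5_16258179072, [
  ⟨V4_10872692736, nat_lit 2, [(nat_lit 8, nat_lit 16258179072),
  (nat_lit 125, nat_lit 17315143680)]⟩,
  ⟨V4_13020168192, nat_lit 4, [(nat_lit 100, nat_lit 16258179072),
  (nat_lit 89, nat_lit 17331916800), (nat_lit 80, nat_lit 17315143680),
  (nat_lit 26, nat_lit 18405654528), (nat_lit 114, nat_lit 18388881408),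
  (nat_lit 79, nat_lit 19462619136)]⟩,
  ⟨V4_10889465856, nat_lit 1, [(nat_lit 49, nat_lit 16258179072),
  (nat_lit 43, nat_lit 17331916800)]⟩,
  ⟨V4_11962945536, nat_lit 2, [(nat_lit 121, nat_lit 16258179072),
  (nat_lit 85, nat_lit 17331916800), (nat_lit 114, nat_lit 17331658752),
  (nat_lit 104, nat_lit 18405396480)]⟩,
  ⟨V4_15134097408, nat_lit 4, [(nat_lit 43, nat_lit 16258179072),
  (nat_lit 54, nat_lit 17331916800), (nat_lit 104, nat_lit 17315143680),
  (nat_lit 34, nat_lit 18405654528), (nat_lit 33, nat_lit 18388881408),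
  (nat_lit 40, nat_lit 18372108288), (nat_lit 79, nat_lit 19462619136),
  (nat_lit 85, nat_lit 19445846016), (nat_lit 77, nat_lit 19429072896),
  (nat_lit 48, nat_lit 20519583744), (nat_lit 2, nat_lit 20502810624),
  (nat_lit 93, nat_lit 21576548352)]⟩,
  ⟨V4_15100551168, nat_lit 1, [(nat_lit 78, nat_lit 16258179072),
  (nat_lit 25, nat_lit 17315143680), (nat_lit 74, nat_lit 18372108288),
  (nat_lit 17, nat_lit 19429072896), (nat_lit 45, nat_lit 20486037504),
  (nat_lit 56, nat_lit 21543002112)]⟩], [
  W5_16240869376, W5_16224354304, W5_16224096256, W5_16207839232, W5_16207581184, W5_16207323136,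
  W5_16191066112, W5_16190808064, W5_16174292992, W5_15183904768, W5_15167389696, W5_15167131648,
  W5_15150874624, W5_15150616576, W5_15150358528, W5_15134101504, W5_15133843456, W5_15117328384,
  W5_14110425088, W5_14110167040, W5_14093910016, W5_14093651968, W5_14093393920, W5_14077136896,
  W5_14076878848, W5_14060363776, W5_13036945408, W5_13036687360, W5_13036429312, W5_13020172288,
  W5_13019914240, W5_13003399168, W5_11963207680, W5_11962949632, W5_11946434560, W5_10889469952]⟩

theorem F5_16258179072_chk : fwdChk 5 ks5 F5_16258179072 = true := by decide +kernel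

noncomputable def F5_16258175040 : Fwd := ⟨V5_16258175040, [
  ⟨V4_10889465856, nat_lit 1, [(nat_lit 92, nat_lit 16258175040),
  (nat_lit 44, nat_lit 17331916800)]⟩,
  ⟨V4_11962945536, nat_lit 2, [(nat_lit 67, nat_lit 16258175040),
  (nat_lit 22, nat_lit 17331916800), (nat_lit 10, nat_lit 17331654720),
  (nat_lit 5, nat_lit 18405396480)]⟩,
  ⟨V4_14109904896, nat_lit 1, [(nat_lit 47, nat_lit 16258175040),
  (nat_lit 47, nat_lit 17331916800), (nat_lit 63, nat_lit 17331654720),
  (nat_lit 18, nat_lit 18405396480), (nat_lit 64, nat_lit 18405134400),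
  (nat_lit 57, nat_lit 19478876160), (nat_lit 118, nat_lit 19478614080),
  (nat_lit 84, nat_lit 20552355840)]⟩,
  ⟨V4_16174288896, nat_lit 1, [(nat_lit 79, nat_lit 16258175040),
  (nat_lit 88, nat_lit 17331916800), (nat_lit 79, nat_lit 17315139648),
  (nat_lit 21, nat_lit 18388881408), (nat_lit 60, nat_lit 18372104256),
  (nat_lit 62, nat_lit 19445846016), (nat_lit 67, nat_lit 19429068864),
  (nat_lit 42, nat_lit 20502810624), (nat_lit 48, nat_lit 20486033472),
  (nat_lit 59, nat_lit 21559775232), (nat_lit 48, nat_lit 21542998080),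
  (nat_lit 47, nat_lit 22616739840)]⟩], [
  W5_16240611328, W5_16224096256, W5_16207581184, W5_16191066112, W5_16190804032, W5_15183646720,
  W5_15167131648, W5_15150616576, W5_15150354496, W5_15134101504, W5_15117324352, W5_14110167040,
  W5_14093651968, W5_14093389888, W5_14077136896, W5_14076874816, W5_14060359744, W5_13036687360,
  W5_13036425280, W5_13020172288, W5_13019910208, W5_13003395136, W5_11963207680, W5_11962945600,
  W5_11946430528, W5_10889465920]⟩

theorem F5_16258175040_chk : fwdChk 5 ks5 F5_16258175040 = true := by decide +kernel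

noncomputable def F5_16257921024 : Fwd := ⟨V5_16257921024, [
  ⟨V4_9815470080, nat_lit 1, [(nat_lit 39, nat_lit 16257921024)]⟩,
  ⟨V4_13036683264, nat_lit 2, [(nat_lit 61, nat_lit 16257921024),
  (nat_lit 85, nat_lit 17331658752), (nat_lit 62, nat_lit 18405396480),
  (nat_lit 78, nat_lit 19479134208)]⟩,
  ⟨V4_11962945536, nat_lit 1, [(nat_lit 18, nat_lit 16257921024),
  (nat_lit 7, nat_lit 17331658752), (nat_lit 5, nat_lit 18405396480)]⟩], [
  W5_16224354304, W5_16207581184, W5_16190808064, W5_15167389696, W5_15150616576, W5_15133843456,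
  W5_14110425088, W5_14093651968, W5_14076878848, W5_14060105728, W5_13036687360, W5_13019914240,
  W5_13003141120, W5_11962949632, W5_11946176512, W5_10889211904]⟩

theorem F5_16257921024_chk : fwdChk 5 ks5 F5_16257921024 = true := by decide +kernel

noncomputable def F5_16257654912 : Fwd := ⟨V5_16257654912, [
  ⟨V4_13019652096, nat_lit 2, [(nat_lit 29, nat_lit 16257654912),
  (nat_lit 61, nat_lit 17331396672), (nat_lit 8, nat_lit 17314619520),
  (nat_lit 17, nat_lit 18405138432), (nat_lit 40, nat_lit 18388361280),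
  (nat_lit 39, nat_lit 19462103040)]⟩], [
  W5_16207323136, W5_16190545984, W5_16173768832, W5_15150358528, W5_15133581376, W5_15116804224,
  W5_14093393920, W5_14059839616, W5_13036429312, W5_13019652160, W5_13002875008, W5_11962687552,
  W5_11945910400]⟩

theorem F5_16257654912_chk : fwdChk 5 ks5 F5_16257654912 = true := by decide +kernel

noncomputable def F5_16242180096 : Fwd := ⟨V5_16242180096, [
  ⟨V4_10873208832, nat_lit 2, [(nat_lit 122, nat_lit 16242180096),
  (nat_lit 60, nat_lit 17315659776)]⟩,
  ⟨V4_13020168192, nat_lit 3, [(nat_lit 82, nat_lit 16242180096),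
  (nat_lit 109, nat_lit 17315659776), (nat_lit 12, nat_lit 18389139456),
  (nat_lit 7, nat_lit 19462619136)]⟩], [
  W5_16240869376, W5_16224354304, W5_15167389696, W5_15150874624, W5_14093910016, W5_14077394944,
  W5_13020430336, W5_13003915264, W5_11946950656, W5_10873470976]⟩

theorem F5_16242180096_chk : fwdChk 5 ks5 F5_16242180096 = true := by decide +kernel

noncomputable def F5_16241922048 : Fwd := ⟨V5_16241922048, [
  ⟨V4_10873208832, nat_lit 2, [(nat_lit 70, nat_lit 16241922048),
  (nat_lit 38, nat_lit 17315659776)]⟩,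
  ⟨V4_9799471104, nat_lit 1, [(nat_lit 75, nat_lit 16241922048)]⟩,
  ⟨V4_12987138048, nat_lit 3, [(nat_lit 81, nat_lit 16241922048),
  (nat_lit 78, nat_lit 17315659776), (nat_lit 27, nat_lit 17298886656),
  (nat_lit 93, nat_lit 18372624384), (nat_lit 2, nat_lit 18355851264),
  (nat_lit 106, nat_lit 19429588992)]⟩,
  ⟨V4_13020168192, nat_lit 4, [(nat_lit 100, nat_lit 16241922048),
  (nat_lit 14, nat_lit 17315659776), (nat_lit 42, nat_lit 17315401728),
  (nat_lit 3, nat_lit 18389139456), (nat_lit 6, nat_lit 18388881408),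
  (nat_lit 39, nat_lit 19462619136)]⟩,
  ⟨V4_11946688512, nat_lit 2, [(nat_lit 41, nat_lit 16241922048),
  (nat_lit 40, nat_lit 17315659776), (nat_lit 55, nat_lit 17315401728),
  (nat_lit 99, nat_lit 18389139456)]⟩,
  ⟨V4_10856435712, nat_lit 1, [(nat_lit 20, nat_lit 16241922048),
  (nat_lit 78, nat_lit 17298886656)]⟩], [
  W5_16240869376, W5_16240611328, W5_16224354304, W5_16224096256, W5_16207839232, W5_16207581184,
  W5_15167389696, W5_15167131648, W5_15150874624, W5_15150616576, W5_15134359552, W5_15134101504,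
  W5_14093910016, W5_14093651968, W5_14077394944, W5_14077136896, W5_14060879872, W5_14060621824,
  W5_13020430336, W5_13020172288, W5_13003915264, W5_13003657216, W5_12987142144, W5_11946950656,
  W5_11946692608, W5_11930177536, W5_10873212928]⟩

theorem F5_16241922048_chk : fwdChk 5 ks5 F5_16241922048 = true := by decide +kernel

noncomputable def F5_16241664000 : Fwd := ⟨V5_16241664000, [
  ⟨V4_9799213056, nat_lit 1, [(nat_lit 43, nat_lit 16241664000)]⟩,
  ⟨V4_10872692736, nat_lit 2, [(nat_lit 9, nat_lit 16241664000),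
  (nat_lit 44, nat_lit 17315143680)]⟩,
  ⟨V4_11946688512, nat_lit 2, [(nat_lit 6, nat_lit 16241664000),
  (nat_lit 126, nat_lit 17315401728), (nat_lit 18, nat_lit 18389139456)]⟩,
  ⟨V4_13020168192, nat_lit 4, [(nat_lit 25, nat_lit 16241664000),
  (nat_lit 117, nat_lit 17315401728), (nat_lit 18, nat_lit 17315143680),
  (nat_lit 116, nat_lit 18389139456), (nat_lit 99, nat_lit 18388881408),
  (nat_lit 42, nat_lit 19462619136)]⟩,
  ⟨V4_13019652096, nat_lit 2, [(nat_lit 87, nat_lit 16241664000),
  (nat_lit 44, nat_lit 17315143680), (nat_lit 23, nat_lit 18388623360),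
  (nat_lit 48, nat_lit 19462103040)]⟩,
  ⟨V4_10872950784, nat_lit 1, [(nat_lit 106, nat_lit 16241664000),
  (nat_lit 36, nat_lit 17315401728)]⟩,
  ⟨V4_11929915392, nat_lit 2, [(nat_lit 60, nat_lit 16241664000),
  (nat_lit 75, nat_lit 17315401728), (nat_lit 97, nat_lit 17298628608),
  (nat_lit 101, nat_lit 18372366336)]⟩], [
  W5_16240869376, W5_16224354304, W5_16224096256, W5_16207839232, W5_16207581184, W5_16207323136,
  W5_16191066112, W5_16190808064, W5_15167389696, W5_15167131648, W5_15150874624, W5_15150616576,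
  W5_15150358528, W5_15134359552, W5_15134101504, W5_15133843456, W5_15117586432, W5_15117328384,
  W5_14093910016, W5_14093651968, W5_14093393920, W5_14077394944, W5_14077136896, W5_14076878848,
  W5_14060621824, W5_14060363776, W5_14043848704, W5_13020430336, W5_13020172288, W5_13019914240,
  W5_13003657216, W5_13003399168, W5_12986884096, W5_11946692608, W5_11946434560, W5_11929919488,
  W5_10872954880]⟩

theorem F5_16241664000_chk : fwdChk 5 ks5 F5_16241664000 = true := by decide +kernel

noncomputable def F5_16241659968 : Fwd := ⟨V5_16241659968, [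
  ⟨V4_10872950784, nat_lit 1, [(nat_lit 90, nat_lit 16241659968),
  (nat_lit 32, nat_lit 17315401728)]⟩,
  ⟨V4_11929915392, nat_lit 2, [(nat_lit 9, nat_lit 16241659968),
  (nat_lit 109, nat_lit 17315401728), (nat_lit 21, nat_lit 17298624576),
  (nat_lit 23, nat_lit 18372366336)]⟩,
  ⟨V4_16223834112, nat_lit 1, [(nat_lit 61, nat_lit 16241659968),
  (nat_lit 111, nat_lit 17315401728), (nat_lit 96, nat_lit 17315139648),
  (nat_lit 19, nat_lit 17298624576), (nat_lit 18, nat_lit 18388881408),
  (nat_lit 40, nat_lit 18388619328), (nat_lit 110, nat_lit 18372366336),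
  (nat_lit 126, nat_lit 18372104256), (nat_lit 111, nat_lit 19462361088),
  (nat_lit 7, nat_lit 19462099008), (nat_lit 122, nat_lit 19445846016),
  (nat_lit 15, nat_lit 19445583936), (nat_lit 102, nat_lit 20535840768),
  (nat_lit 14, nat_lit 20535578688), (nat_lit 94, nat_lit 20519325696),
  (nat_lit 117, nat_lit 20519063616), (nat_lit 39, nat_lit 21609320448),
  (nat_lit 15, nat_lit 21592805376), (nat_lit 96, nat_lit 21592543296),
  (nat_lit 92, nat_lit 22666285056)]⟩], [
  W5_16240611328, W5_16224096256, W5_16207581184, W5_16191066112, W5_16190804032, W5_15167131648,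
  W5_15150616576, W5_15150354496, W5_15134101504, W5_15117586432, W5_15117324352, W5_14093651968,
  W5_14093389888, W5_14077136896, W5_14076874816, W5_14060621824, W5_14060359744, W5_14043844672,
  W5_13020172288, W5_13019910208, W5_13003657216, W5_13003395136, W5_12986880064, W5_11946692608,
  W5_11946430528, W5_11929915456, W5_10872950848]⟩

theorem F5_16241659968_chk : fwdChk 5 ks5 F5_16241659968 = true := by decide +kernel

noncomputable def F5_16241405952 : Fwd := ⟨V5_16241405952, [
  ⟨V4_13020168192, nat_lit 4, [(nat_lit 116, nat_lit 16241405952),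
  (nat_lit 120, nat_lit 17315143680), (nat_lit 95, nat_lit 18388881408),
  (nat_lit 13, nat_lit 19462619136)]⟩,
  ⟨V4_10872692736, nat_lit 2, [(nat_lit 81, nat_lit 16241405952),
  (nat_lit 124, nat_lit 17315143680)]⟩,
  ⟨V4_10855919616, nat_lit 1, [(nat_lit 25, nat_lit 16241405952),
  (nat_lit 34, nat_lit 17298370560)]⟩,
  ⟨V4_11946430464, nat_lit 1, [(nat_lit 75, nat_lit 16241405952),
  (nat_lit 8, nat_lit 17315143680), (nat_lit 42, nat_lit 18388881408)]⟩,
  ⟨V4_11912884224, nat_lit 1, [(nat_lit 126, nat_lit 16241405952),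
  (nat_lit 15, nat_lit 17298370560), (nat_lit 28, nat_lit 18355335168)]⟩], [
  W5_16224354304, W5_16207839232, W5_16207581184, W5_16191066112, W5_16190808064, W5_16174292992,
  W5_15167389696, W5_15150874624, W5_15150616576, W5_15134101504, W5_15133843456, W5_15117328384,
  W5_15100555264, W5_14093910016, W5_14093651968, W5_14077136896, W5_14076878848, W5_14060363776,
  W5_14060105728, W5_14043590656, W5_13020172288, W5_13019914240, W5_13003399168, W5_13003141120,
  W5_12986626048, W5_11946434560, W5_11946176512, W5_11929661440, W5_10872696832]⟩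

theorem F5_16241405952_chk : fwdChk 5 ks5 F5_16241405952 = true := by decide +kernel

noncomputable def F5_16241139840 : Fwd := ⟨V5_16241139840, [
  ⟨V4_13019652096, nat_lit 2, [(nat_lit 98, nat_lit 16241139840),
  (nat_lit 63, nat_lit 17314881600), (nat_lit 106, nat_lit 17314619520),
  (nat_lit 39, nat_lit 18388623360), (nat_lit 88, nat_lit 18388361280),
  (nat_lit 19, nat_lit 19462103040)]⟩], [
  W5_16207323136, W5_16190808064, W5_16190545984, W5_16173768832, W5_15150358528, W5_15133843456,
  W5_15133581376, W5_15117066304, W5_15116804224, W5_14093393920, W5_14076878848, W5_14060101696,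
  W5_14059839616, W5_13019914240, W5_13019652160, W5_13003137088, W5_13002875008, W5_11946172480,
  W5_11945910400, W5_10872430720]⟩

theorem F5_16241139840_chk : fwdChk 5 ks5 F5_16241139840 = true := by decide +kernel

noncomputable def F5_16225406976 : Fwd := ⟨V5_16225406976, [
  ⟨V4_10856435712, nat_lit 1, [(nat_lit 40, nat_lit 16225406976),
  (nat_lit 28, nat_lit 17298886656)]⟩,
  ⟨V4_11929915392, nat_lit 2, [(nat_lit 57, nat_lit 16225406976),
  (nat_lit 111, nat_lit 17298886656), (nat_lit 47, nat_lit 18372366336)]⟩,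
  ⟨V4_16223834112, nat_lit 1, [(nat_lit 124, nat_lit 16225406976),
  (nat_lit 51, nat_lit 17298886656), (nat_lit 26, nat_lit 18372366336),
  (nat_lit 95, nat_lit 19445846016), (nat_lit 113, nat_lit 20519325696),
  (nat_lit 12, nat_lit 21592805376), (nat_lit 14, nat_lit 22666285056)]⟩], [
  W5_16224354304, W5_16224096256, W5_15150874624, W5_15150616576, W5_14077394944, W5_14077136896,
  W5_13003915264, W5_13003657216, W5_11930177536, W5_10856697856]⟩

theorem F5_16225406976_chk : fwdChk 5 ks5 F5_16225406976 = true := by decide +kernel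

noncomputable def F5_16225148928 : Fwd := ⟨V5_16225148928, [
  ⟨V4_10839662592, nat_lit 2, [(nat_lit 92, nat_lit 16225148928),
  (nat_lit 14, nat_lit 17282113536)]⟩,
  ⟨V4_12987138048, nat_lit 3, [(nat_lit 67, nat_lit 16225148928),
  (nat_lit 100, nat_lit 17298886656), (nat_lit 10, nat_lit 17282113536),
  (nat_lit 33, nat_lit 18372624384), (nat_lit 80, nat_lit 18355851264),
  (nat_lit 126, nat_lit 19429588992)]⟩,
  ⟨V4_10856435712, nat_lit 1, [(nat_lit 109, nat_lit 16225148928),
  (nat_lit 49, nat_lit 17298886656)]⟩,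
  ⟨V4_11930173440, nat_lit 1, [(nat_lit 23, nat_lit 16225148928),
  (nat_lit 102, nat_lit 17298886656), (nat_lit 69, nat_lit 18372624384)]⟩,
  ⟨V4_11929915392, nat_lit 2, [(nat_lit 39, nat_lit 16225148928),
  (nat_lit 99, nat_lit 17298886656), (nat_lit 87, nat_lit 17298628608),
  (nat_lit 31, nat_lit 18372366336)]⟩,
  ⟨V4_11913142272, nat_lit 1, [(nat_lit 97, nat_lit 16225148928),
  (nat_lit 104, nat_lit 17298628608), (nat_lit 86, nat_lit 17282113536),
  (nat_lit 23, nat_lit 18355593216)]⟩], [
  W5_16224354304, W5_16224096256, W5_16207839232, W5_16207581184, W5_16207323136, W5_15150874624,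
  W5_15150616576, W5_15150358528, W5_15134359552, W5_15134101504, W5_15133843456, W5_14077394944,
  W5_14077136896, W5_14076878848, W5_14060879872, W5_14060621824, W5_14060363776, W5_13003915264,
  W5_13003657216, W5_13003399168, W5_12987142144, W5_12986884096, W5_11930177536, W5_11929919488,
  W5_11913404416, W5_10856439808]⟩

theorem F5_16225148928_chk : fwdChk 5 ks5 F5_16225148928 = true := by decide +kernel

noncomputable def F5_16225144896 : Fwd := ⟨V5_16225144896, [
  ⟨V4_10856435712, nat_lit 1, [(nat_lit 3, nat_lit 16225144896),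
  (nat_lit 18, nat_lit 17298886656)]⟩,
  ⟨V4_16223834112, nat_lit 1, [(nat_lit 117, nat_lit 16225144896),
  (nat_lit 60, nat_lit 17298886656), (nat_lit 4, nat_lit 17298624576),
  (nat_lit 39, nat_lit 18372366336), (nat_lit 50, nat_lit 18372104256),
  (nat_lit 66, nat_lit 19445846016), (nat_lit 35, nat_lit 19445583936),
  (nat_lit 64, nat_lit 20519325696), (nat_lit 96, nat_lit 20519063616),
  (nat_lit 90, nat_lit 21592805376), (nat_lit 103, nat_lit 21592543296),
  (nat_lit 62, nat_lit 22666285056)]⟩,
  ⟨V4_11913400320, nat_lit 1, [(nat_lit 62, nat_lit 16225144896),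
  (nat_lit 50, nat_lit 17298886656), (nat_lit 22, nat_lit 17282109504),
  (nat_lit 83, nat_lit 18355851264)]⟩], [
  W5_16224096256, W5_16207581184, W5_15150616576, W5_15150354496, W5_15134101504, W5_14077136896,
  W5_14076874816, W5_14060621824, W5_14060359744, W5_13003657216, W5_13003395136, W5_12987142144,
  W5_12986880064, W5_11930177536, W5_11929915456, W5_10856435776]⟩

theorem F5_16225144896_chk : fwdChk 5 ks5 F5_16225144896 = true := by decide +kernel

end Crest.Agent.R187.SN.Fwd
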