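import Crest.Agent.R187.SN.FwdDef
import Crest.Agent.R187.SN.TD.Ks
import Crest.Agent.R187.SN.TD.W5_0
import Crest.Agent.R187.SN.TD.X4
import Crest.Agent.R187.SN.TD.X5_0

/-!
# Row 187, PLAN S, certificate E3: forward records of level `(6, 5)`, part 1

`F5_<key> : Fwd` = sources (table of level `(6, 4)`, number of rows, quadrature record) and
`W` tables of the table `V5_<key>`; each record is checked by the kernel.
-/

set_option autoImplicit false
set_option Elab.async false
set_option maxRecDepth 100000

namespace Crest.Agent.R187.SN.Fwd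

open Crest.Agent.R187.SN.Top

noncomputable def F5_16224632832 : Fwd := ⟨V5_16224632832, [
  ⟨V4_10839146496, nat_lit 1, [(nat_lit 38, nat_lit 16224632832),
  (nat_lit 61, nat_lit 17281597440)]⟩,
  ⟨V4_12953075712, nat_lit 1, [(nat_lit 36, nat_lit 16224632832),
  (nat_lit 113, nat_lit 17281597440), (nat_lit 32, nat_lit 18338562048),
  (nat_lit 7, nat_lit 19395526656)]⟩,
  ⟨V4_14077132800, nat_lit 3, [(nat_lit 115, nat_lit 16224632832),
  (nat_lit 13, nat_lit 17298370560), (nat_lit 4, nat_lit 18372108288),
  (nat_lit 75, nat_lit 19445846016), (nat_lit 32, nat_lit 20519583744)]⟩], [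
  W5_16207839232, W5_16191066112, W5_16174292992, W5_15150874624, W5_15134101504, W5_15117328384,
  W5_15100555264, W5_14077136896, W5_14060363776, W5_14043590656, W5_14026817536, W5_13003399168,
  W5_12986626048, W5_12969852928, W5_11929661440, W5_11912888320, W5_10855923712]⟩

theorem F5_16224632832_chk : fwdChk 5 ks5 F5_16224632832 = true := by decide +kernel

noncomputable def F5_16208375808 : Fwd := ⟨V5_16208375808, [
  ⟨V4_12987138048, nat_lit 3, [(nat_lit 113, nat_lit 16208375808),
  (nat_lit 95, nat_lit 17282113536), (nat_lit 17, nat_lit 18355851264),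
  (nat_lit 5, nat_lit 19429588992)]⟩,
  ⟨V4_9765924864, nat_lit 1, [(nat_lit 59, nat_lit 16208375808)]⟩,
  ⟨V4_10839662592, nat_lit 2, [(nat_lit 92, nat_lit 16208375808),
  (nat_lit 6, nat_lit 17282113536)]⟩,
  ⟨V4_11912884224, nat_lit 1, [(nat_lit 52, nat_lit 16208375808),
  (nat_lit 24, nat_lit 17281855488), (nat_lit 61, nat_lit 18355335168)]⟩], [
  W5_16207839232, W5_16207581184, W5_15134359552, W5_15134101504, W5_15133843456, W5_14060879872,
  W5_14060621824, W5_14060363776, W5_14060105728, W5_12987142144, W5_12986884096, W5_12986626048,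
  W5_11913404416, W5_11913146368, W5_10839666688]⟩

theorem F5_16208375808_chk : fwdChk 5 ks5 F5_16208375808 = true := by decide +kernel

noncomputable def F5_16208371776 : Fwd := ⟨V5_16208371776, [
  ⟨V4_10839662592, nat_lit 2, [(nat_lit 5, nat_lit 16208371776),
  (nat_lit 30, nat_lit 17282113536)]⟩,
  ⟨V4_11913142272, nat_lit 1, [(nat_lit 62, nat_lit 16208371776),
  (nat_lit 21, nat_lit 17282113536), (nat_lit 1, nat_lit 17281851456),
  (nat_lit 118, nat_lit 18355593216)]⟩], [
  W5_16207581184, W5_16207323136, W5_15134101504, W5_15133843456, W5_15133581376, W5_14060621824,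
  W5_14060363776, W5_14060359744, W5_14060101696, W5_12987142144, W5_12986884096, W5_12986880064,
  W5_12986622016, W5_11913404416, W5_11913142336, W5_10839662656]⟩

theorem F5_16208371776_chk : fwdChk 5 ks5 F5_16208371776 = true := by decide +kernel

noncomputable def F5_16208117760 : Fwd := ⟨V5_16208117760, [
  ⟨V4_10839146496, nat_lit 1, [(nat_lit 81, nat_lit 16208117760),
  (nat_lit 15, nat_lit 17281597440)]⟩,
  ⟨V4_14060617728, nat_lit 2, [(nat_lit 39, nat_lit 16208117760),
  (nat_lit 53, nat_lit 17281855488), (nat_lit 114, nat_lit 18355593216),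
  (nat_lit 42, nat_lit 19429330944), (nat_lit 23, nat_lit 20503068672)]⟩], [
  W5_16207839232, W5_16191066112, W5_15134359552, W5_15134101504, W5_15117586432, W5_15117328384,
  W5_14060621824, W5_14060363776, W5_14043848704, W5_14043590656, W5_12986884096, W5_12986626048,
  W5_12969852928, W5_11913146368, W5_11912888320, W5_10839408640]⟩

theorem F5_16208117760_chk : fwdChk 5 ks5 F5_16208117760 = true := by decide +kernel

noncomputable def F5_16208109696 : Fwd := ⟨V5_16208109696, [
  ⟨V4_11913142272, nat_lit 1, [(nat_lit 19, nat_lit 16208109696),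
  (nat_lit 29, nat_lit 17281851456), (nat_lit 123, nat_lit 18355593216)]⟩,
  ⟨V4_12986621952, nat_lit 2, [(nat_lit 125, nat_lit 16208109696),
  (nat_lit 42, nat_lit 17281851456), (nat_lit 84, nat_lit 17281589376),
  (nat_lit 43, nat_lit 18355593216), (nat_lit 4, nat_lit 18355331136),
  (nat_lit 97, nat_lit 19429072896)]⟩], [
  W5_16207323136, W5_16190808064, W5_16190545984, W5_15133843456, W5_15133581376, W5_15117328384,
  W5_15117066304, W5_15116804224, W5_14060363776, W5_14060101696, W5_14059839616, W5_14043848704,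
  W5_14043586624, W5_12986884096, W5_12986622016, W5_12970106944, W5_12969844864, W5_11913142336,
  W5_11912880256, W5_10839400576]⟩

theorem F5_16208109696_chk : fwdChk 5 ks5 F5_16208109696 = true := by decide +kernel

noncomputable def F5_16207855680 : Fwd := ⟨V5_16207855680, [
  ⟨V4_10839146496, nat_lit 1, [(nat_lit 53, nat_lit 16207855680),
  (nat_lit 64, nat_lit 17281597440)]⟩,
  ⟨V4_12953075712, nat_lit 1, [(nat_lit 98, nat_lit 16207855680),
  (nat_lit 79, nat_lit 17281597440), (nat_lit 4, nat_lit 17264820288),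
  (nat_lit 116, nat_lit 18338562048), (nat_lit 65, nat_lit 18321784896),
  (nat_lit 96, nat_lit 19395526656)]⟩,
  ⟨V4_11912884224, nat_lit 1, [(nat_lit 88, nat_lit 16207855680),
  (nat_lit 65, nat_lit 17281597440), (nat_lit 96, nat_lit 17281593408),
  (nat_lit 41, nat_lit 18355335168)]⟩], [
  W5_16191066112, W5_16174292992, W5_15134101504, W5_15117328384, W5_15117324352, W5_15100555264,
  W5_15100551232, W5_14060363776, W5_14060359744, W5_14043590656, W5_14043586624, W5_14026817536,
  W5_12986626048, W5_12986622016, W5_12969852928, W5_12953075776, W5_11912888320, W5_11912884288,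
  W5_10839146560]⟩

theorem F5_16207855680_chk : fwdChk 5 ks5 F5_16207855680 = true := by decide +kernel

noncomputable def F5_16207851648 : Fwd := ⟨V5_16207851648, [
  ⟨V4_11912884224, nat_lit 1, [(nat_lit 116, nat_lit 16207851648),
  (nat_lit 30, nat_lit 17281593408), (nat_lit 9, nat_lit 18355335168)]⟩], [
  W5_16190808064, W5_16174292992, W5_15133843456, W5_15117328384, W5_15117066304, W5_15100555264,
  W5_15100551232, W5_14060363776, W5_14060105728, W5_14060101696, W5_14043590656, W5_14043586624,
  W5_14026809472, W5_12986626048, W5_12986622016, W5_12969844864, W5_11912884288, W5_11912880256,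
  W5_10839142528]⟩

theorem F5_16207851648_chk : fwdChk 5 ks5 F5_16207851648 = true := by decide +kernel

noncomputable def F5_16191078528 : Fwd := ⟨V5_16191078528, [
  ⟨V4_12953075712, nat_lit 1, [(nat_lit 13, nat_lit 16191078528),
  (nat_lit 49, nat_lit 17264820288), (nat_lit 59, nat_lit 17248043136),
  (nat_lit 77, nat_lit 18338562048), (nat_lit 6, nat_lit 18321784896),
  (nat_lit 89, nat_lit 19395526656)]⟩], [
  W5_16174292992, W5_15117328384, W5_15100555264, W5_15100551232, W5_14043590656, W5_14043586624,
  W5_14026817536, W5_14026809472, W5_12969852928, W5_12969844864, W5_12953075776, W5_11879334016,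
  W5_10822369408]⟩

theorem F5_16191078528_chk : fwdChk 5 ks5 F5_16191078528 = true := by decide +kernel

noncomputable def F5_15267790848 : Fwd := ⟨V5_15267790848, [
  ⟨V4_15167127552, nat_lit 3, [(nat_lit 104, nat_lit 15267790848),
  (nat_lit 69, nat_lit 16324755456), (nat_lit 12, nat_lit 17381720064),
  (nat_lit 115, nat_lit 18438684672), (nat_lit 58, nat_lit 19495649280),
  (nat_lit 23, nat_lit 20552613888), (nat_lit 33, nat_lit 21609578496)]⟩], [
  W5_15216934912, W5_15200419840, W5_15183904768]⟩

theorem F5_15267790848_chk : fwdChk 5 ks5 F5_15267790848 = true := by decide +kernel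

noncomputable def F5_15251275776 : Fwd := ⟨V5_15251275776, [
  ⟨V4_15200157696, nat_lit 2, [(nat_lit 33, nat_lit 15251275776),
  (nat_lit 42, nat_lit 16324755456), (nat_lit 43, nat_lit 16308240384),
  (nat_lit 123, nat_lit 17398235136), (nat_lit 70, nat_lit 17381720064),
  (nat_lit 120, nat_lit 17365204992), (nat_lit 84, nat_lit 18471714816),
  (nat_lit 67, nat_lit 18455199744), (nat_lit 85, nat_lit 18438684672),
  (nat_lit 42, nat_lit 18422169600), (nat_lit 61, nat_lit 19528679424),
  (nat_lit 49, nat_lit 19512164352), (nat_lit 71, nat_lit 19495649280),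
  (nat_lit 66, nat_lit 20585644032), (nat_lit 63, nat_lit 20569128960),
  (nat_lit 52, nat_lit 21642608640)]⟩,
  ⟨V4_15150612480, nat_lit 1, [(nat_lit 74, nat_lit 15251275776),
  (nat_lit 85, nat_lit 16308240384), (nat_lit 47, nat_lit 17365204992),
  (nat_lit 43, nat_lit 18422169600), (nat_lit 116, nat_lit 19479134208),
  (nat_lit 109, nat_lit 20536098816), (nat_lit 82, nat_lit 21593063424)]⟩], [
  W5_15216934912, W5_15200419840, W5_15183904768, W5_15167389696, W5_14159970304, W5_14143455232,
  W5_14126940160, W5_14110425088]⟩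

theorem F5_15251275776_chk : fwdChk 5 ks5 F5_15251275776 = true := by decide +kernel

noncomputable def F5_15251017728 : Fwd := ⟨V5_15251017728, [
  ⟨V4_14093389824, nat_lit 2, [(nat_lit 22, nat_lit 15251017728),
  (nat_lit 48, nat_lit 16307982336), (nat_lit 79, nat_lit 17364946944),
  (nat_lit 105, nat_lit 18421911552), (nat_lit 92, nat_lit 19478876160),
  (nat_lit 5, nat_lit 20535840768)]⟩,
  ⟨V4_15150354432, nat_lit 1, [(nat_lit 30, nat_lit 15251017728),
  (nat_lit 7, nat_lit 16307982336), (nat_lit 98, nat_lit 17364946944),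
  (nat_lit 14, nat_lit 18421911552), (nat_lit 23, nat_lit 19478876160),
  (nat_lit 3, nat_lit 20535840768), (nat_lit 71, nat_lit 21592805376)]⟩], [
  W5_15200419840, W5_15183904768, W5_15183646720, W5_15167131648, W5_14143455232, W5_14126940160,
  W5_14126682112, W5_14110167040]⟩

theorem F5_15251017728_chk : fwdChk 5 ks5 F5_15251017728 = true := by decide +kernel

noncomputable def F5_15234760704 : Fwd := ⟨V5_15234760704, [
  ⟨V4_13086228480, nat_lit 2, [(nat_lit 5, nat_lit 15234760704),
  (nat_lit 53, nat_lit 16308240384), (nat_lit 60, nat_lit 17381720064),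
  (nat_lit 95, nat_lit 18455199744), (nat_lit 70, nat_lit 19528679424)]⟩,
  ⟨V4_15134097408, nat_lit 4, [(nat_lit 50, nat_lit 15234760704),
  (nat_lit 29, nat_lit 16291725312), (nat_lit 69, nat_lit 17348689920),
  (nat_lit 8, nat_lit 18405654528), (nat_lit 13, nat_lit 19462619136),
  (nat_lit 78, nat_lit 20519583744), (nat_lit 59, nat_lit 21576548352)]⟩,
  ⟨V4_13020168192, nat_lit 3, [(nat_lit 74, nat_lit 15234760704),
  (nat_lit 53, nat_lit 16291725312), (nat_lit 19, nat_lit 17348689920),
  (nat_lit 36, nat_lit 18405654528), (nat_lit 13, nat_lit 19462619136)]⟩], [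
  W5_15216934912, W5_15200419840, W5_15183904768, W5_15167389696, W5_15150874624, W5_14159970304,
  W5_14143455232, W5_14126940160, W5_14110425088, W5_14093910016, W5_13086490624, W5_13069975552,
  W5_13053460480, W5_13036945408]⟩

theorem F5_15234760704_chk : fwdChk 5 ks5 F5_15234760704 = true := by decide +kernel

noncomputable def F5_15234502656 : Fwd := ⟨V5_15234502656, [
  ⟨V4_13053198336, nat_lit 3, [(nat_lit 46, nat_lit 15234502656),
  (nat_lit 2, nat_lit 16308240384), (nat_lit 57, nat_lit 16307982336),
  (nat_lit 47, nat_lit 16291467264), (nat_lit 9, nat_lit 17381720064),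
  (nat_lit 93, nat_lit 17365204992), (nat_lit 18, nat_lit 17364946944),
  (nat_lit 71, nat_lit 17348431872), (nat_lit 111, nat_lit 18438684672),
  (nat_lit 116, nat_lit 18422169600), (nat_lit 48, nat_lit 18421911552),
  (nat_lit 124, nat_lit 19495649280)]⟩,
  ⟨V4_14076874752, nat_lit 2, [(nat_lit 102, nat_lit 15234502656),
  (nat_lit 126, nat_lit 16291467264), (nat_lit 52, nat_lit 17348431872),
  (nat_lit 50, nat_lit 18405396480), (nat_lit 91, nat_lit 19462361088),
  (nat_lit 107, nat_lit 20519325696)]⟩], [
  W5_15200419840, W5_15183904768, W5_15183646720, W5_15167389696, W5_15167131648, W5_15150616576,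
  W5_14143455232, W5_14126940160, W5_14126682112, W5_14110425088, W5_14110167040, W5_14093651968,
  W5_13086490624, W5_13069975552, W5_13053460480, W5_13053202432, W5_13036687360]⟩

theorem F5_15234502656_chk : fwdChk 5 ks5 F5_15234502656 = true := by decide +kernel

noncomputable def F5_15234244608 : Fwd := ⟨V5_15234244608, [
  ⟨V4_13053198336, nat_lit 3, [(nat_lit 72, nat_lit 15234244608),
  (nat_lit 93, nat_lit 16307982336), (nat_lit 85, nat_lit 16291209216),
  (nat_lit 90, nat_lit 17381720064), (nat_lit 115, nat_lit 17364946944),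
  (nat_lit 3, nat_lit 17348173824), (nat_lit 120, nat_lit 18438684672),
  (nat_lit 107, nat_lit 18421911552), (nat_lit 22, nat_lit 19495649280)]⟩,
  ⟨V4_13019652096, nat_lit 2, [(nat_lit 108, nat_lit 15234244608),
  (nat_lit 19, nat_lit 16291209216), (nat_lit 14, nat_lit 17348173824),
  (nat_lit 80, nat_lit 18405138432), (nat_lit 43, nat_lit 19462103040)]⟩], [
  W5_15183904768, W5_15167131648, W5_15150358528, W5_14126940160, W5_14110167040, W5_14093393920,
  W5_13069975552, W5_13053202432, W5_13036429312]⟩

theorem F5_15234244608_chk : fwdChk 5 ks5 F5_15234244608 = true := by decide +kernel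

noncomputable def F5_15234240576 : Fwd := ⟨V5_15234240576, [
  ⟨V4_14109904896, nat_lit 1, [(nat_lit 59, nat_lit 15234240576),
  (nat_lit 117, nat_lit 16307982336), (nat_lit 110, nat_lit 16307720256),
  (nat_lit 45, nat_lit 16291205184), (nat_lit 21, nat_lit 17381462016),
  (nat_lit 94, nat_lit 17364946944), (nat_lit 55, nat_lit 17364684864),
  (nat_lit 11, nat_lit 17348169792), (nat_lit 34, nat_lit 18438426624),
  (nat_lit 89, nat_lit 18421911552), (nat_lit 81, nat_lit 18421649472),
  (nat_lit 65, nat_lit 18405134400), (nat_lit 46, nat_lit 19495391232),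
  (nat_lit 115, nat_lit 19478876160), (nat_lit 113, nat_lit 19478614080),
  (nat_lit 126, nat_lit 20552355840)]⟩], [
  W5_15183646720, W5_15167131648, W5_15150354496, W5_14126682112, W5_14110167040, W5_14093389888,
  W5_13053202432, W5_13036425280]⟩

theorem F5_15234240576_chk : fwdChk 5 ks5 F5_15234240576 = true := by decide +kernel

noncomputable def F5_15218245632 : Fwd := ⟨V5_15218245632, [
  ⟨V4_15200157696, nat_lit 2, [(nat_lit 82, nat_lit 15218245632),
  (nat_lit 77, nat_lit 16291725312), (nat_lit 98, nat_lit 16275210240),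
  (nat_lit 71, nat_lit 17365204992), (nat_lit 70, nat_lit 17348689920),
  (nat_lit 18, nat_lit 18438684672), (nat_lit 74, nat_lit 18422169600),
  (nat_lit 28, nat_lit 19512164352), (nat_lit 96, nat_lit 19495649280),
  (nat_lit 1, nat_lit 20585644032), (nat_lit 17, nat_lit 20569128960),
  (nat_lit 7, nat_lit 21642608640)]⟩,
  ⟨V4_11946688512, nat_lit 2, [(nat_lit 89, nat_lit 15218245632),
  (nat_lit 99, nat_lit 16275210240), (nat_lit 94, nat_lit 17332174848),
  (nat_lit 41, nat_lit 18389139456)]⟩,
  ⟨V4_13053198336, nat_lit 3, [(nat_lit 8, nat_lit 15218245632),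
  (nat_lit 39, nat_lit 16291725312), (nat_lit 68, nat_lit 16275210240),
  (nat_lit 69, nat_lit 17365204992), (nat_lit 9, nat_lit 17348689920),
  (nat_lit 119, nat_lit 18438684672), (nat_lit 72, nat_lit 18422169600),
  (nat_lit 81, nat_lit 19495649280)]⟩], [
  W5_15216934912, W5_15200419840, W5_15183904768, W5_15167389696, W5_15150874624, W5_15134359552,
  W5_14143455232, W5_14126940160, W5_14110425088, W5_14093910016, W5_14077394944, W5_13069975552,
  W5_13053460480, W5_13036945408, W5_13020430336, W5_11979980800, W5_11963465728]⟩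

theorem F5_15218245632_chk : fwdChk 5 ks5 F5_15218245632 = true := by decide +kernel

noncomputable def F5_15217987584 : Fwd := ⟨V5_15217987584, [
  ⟨V4_11995975680, nat_lit 1, [(nat_lit 14, nat_lit 15217987584),
  (nat_lit 10, nat_lit 16291467264), (nat_lit 11, nat_lit 17364946944),
  (nat_lit 34, nat_lit 18438426624)]⟩,
  ⟨V4_15134097408, nat_lit 4, [(nat_lit 40, nat_lit 15217987584),
  (nat_lit 115, nat_lit 16291725312), (nat_lit 123, nat_lit 16274952192),
  (nat_lit 87, nat_lit 17348689920), (nat_lit 65, nat_lit 17331916800),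
  (nat_lit 31, nat_lit 18405654528), (nat_lit 102, nat_lit 18388881408),
  (nat_lit 37, nat_lit 19462619136), (nat_lit 88, nat_lit 19445846016),
  (nat_lit 82, nat_lit 20519583744), (nat_lit 84, nat_lit 20502810624),
  (nat_lit 118, nat_lit 21576548352)]⟩,
  ⟨V4_13020168192, nat_lit 4, [(nat_lit 28, nat_lit 15217987584),
  (nat_lit 35, nat_lit 16291725312), (nat_lit 116, nat_lit 16274952192),
  (nat_lit 35, nat_lit 17348689920), (nat_lit 6, nat_lit 17331916800),
  (nat_lit 76, nat_lit 18405654528), (nat_lit 6, nat_lit 18388881408),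
  (nat_lit 37, nat_lit 19462619136)]⟩,
  ⟨V4_11946430464, nat_lit 2, [(nat_lit 101, nat_lit 15217987584),
  (nat_lit 41, nat_lit 16274952192), (nat_lit 71, nat_lit 17331916800),
  (nat_lit 8, nat_lit 18388881408)]⟩], [
  W5_15200419840, W5_15183904768, W5_15183646720, W5_15167389696, W5_15167131648, W5_15150874624,
  W5_15150616576, W5_15134101504, W5_14143455232, W5_14126940160, W5_14126682112, W5_14110425088,
  W5_14110167040, W5_14093910016, W5_14093651968, W5_14077136896, W5_13069975552, W5_13053460480,
  W5_13053202432, W5_13036945408, W5_13036687360, W5_13020172288, W5_11996237824, W5_11979980800,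
  W5_11979722752, W5_11963207680]⟩

theorem F5_15217987584_chk : fwdChk 5 ks5 F5_15217987584 = true := by decide +kernel

noncomputable def F5_15217729536 : Fwd := ⟨V5_15217729536, [
  ⟨V4_13053198336, nat_lit 3, [(nat_lit 50, nat_lit 15217729536),
  (nat_lit 41, nat_lit 16291467264), (nat_lit 37, nat_lit 16291209216),
  (nat_lit 111, nat_lit 16274694144), (nat_lit 15, nat_lit 17365204992),
  (nat_lit 54, nat_lit 17364946944), (nat_lit 86, nat_lit 17348431872),
  (nat_lit 19, nat_lit 17348173824), (nat_lit 23, nat_lit 18438684672),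
  (nat_lit 119, nat_lit 18422169600), (nat_lit 12, nat_lit 18421911552),
  (nat_lit 46, nat_lit 19495649280)]⟩,
  ⟨V4_11962945536, nat_lit 2, [(nat_lit 16, nat_lit 15217729536),
  (nat_lit 71, nat_lit 16291467264), (nat_lit 90, nat_lit 16274694144),
  (nat_lit 111, nat_lit 17348431872), (nat_lit 47, nat_lit 17331658752),
  (nat_lit 50, nat_lit 18405396480)]⟩,
  ⟨V4_13019652096, nat_lit 2, [(nat_lit 107, nat_lit 15217729536),
  (nat_lit 77, nat_lit 16291209216), (nat_lit 69, nat_lit 16274694144),
  (nat_lit 4, nat_lit 17348173824), (nat_lit 112, nat_lit 17331658752),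
  (nat_lit 34, nat_lit 18405138432), (nat_lit 24, nat_lit 18388623360),
  (nat_lit 63, nat_lit 19462103040)]⟩], [
  W5_15183904768, W5_15167389696, W5_15167131648, W5_15150616576, W5_15150358528, W5_15133843456,
  W5_14126940160, W5_14110425088, W5_14110167040, W5_14093651968, W5_14093393920, W5_14076878848,
  W5_13069975552, W5_13053460480, W5_13053202432, W5_13036687360, W5_13036429312, W5_13019914240,
  W5_11996237824, W5_11979722752, W5_11979464704, W5_11962949632]⟩

theorem F5_15217729536_chk : fwdChk 5 ks5 F5_15217729536 = true := by decide +kernel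

noncomputable def F5_15217725504 : Fwd := ⟨V5_15217725504, [
  ⟨V4_11995975680, nat_lit 1, [(nat_lit 48, nat_lit 15217725504),
  (nat_lit 66, nat_lit 16291467264), (nat_lit 5, nat_lit 16291205184),
  (nat_lit 92, nat_lit 17364946944), (nat_lit 54, nat_lit 17364684864),
  (nat_lit 51, nat_lit 18438426624)]⟩,
  ⟨V4_11962945536, nat_lit 2, [(nat_lit 72, nat_lit 15217725504),
  (nat_lit 21, nat_lit 16291467264), (nat_lit 53, nat_lit 16274690112),
  (nat_lit 29, nat_lit 17348431872), (nat_lit 31, nat_lit 17331654720),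
  (nat_lit 64, nat_lit 18405396480)]⟩], [
  W5_15183646720, W5_15167131648, W5_15150616576, W5_15150354496, W5_14126682112, W5_14110167040,
  W5_14093651968, W5_14093389888, W5_14076874816, W5_13053202432, W5_13036687360, W5_13036425280,
  W5_13019910208, W5_11996237824, W5_11995975744, W5_11979722752, W5_11962945600]⟩

theorem F5_15217725504_chk : fwdChk 5 ks5 F5_15217725504 = true := by decide +kernel

noncomputable def F5_15201730560 : Fwd := ⟨V5_15201730560, [
  ⟨V4_12987138048, nat_lit 3, [(nat_lit 118, nat_lit 15201730560),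
  (nat_lit 18, nat_lit 16258695168), (nat_lit 39, nat_lit 17315659776),
  (nat_lit 79, nat_lit 18372624384), (nat_lit 8, nat_lit 19429588992)]⟩,
  ⟨V4_10906238976, nat_lit 2, [(nat_lit 114, nat_lit 15201730560),
  (nat_lit 95, nat_lit 16275210240), (nat_lit 94, nat_lit 17348689920)]⟩,
  ⟨V4_15200157696, nat_lit 2, [(nat_lit 11, nat_lit 15201730560),
  (nat_lit 67, nat_lit 16275210240), (nat_lit 74, nat_lit 17348689920),
  (nat_lit 75, nat_lit 18422169600), (nat_lit 9, nat_lit 19495649280),
  (nat_lit 83, nat_lit 20569128960), (nat_lit 118, nat_lit 21642608640)]⟩,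
  ⟨V4_10873208832, nat_lit 2, [(nat_lit 18, nat_lit 15201730560),
  (nat_lit 121, nat_lit 16258695168), (nat_lit 19, nat_lit 17315659776)]⟩,
  ⟨V4_13053198336, nat_lit 3, [(nat_lit 2, nat_lit 15201730560),
  (nat_lit 75, nat_lit 16275210240), (nat_lit 122, nat_lit 17348689920),
  (nat_lit 97, nat_lit 18422169600), (nat_lit 83, nat_lit 19495649280)]⟩], [
  W5_15200419840, W5_15183904768, W5_15167389696, W5_15150874624, W5_15134359552, W5_14126940160,
  W5_14110425088, W5_14093910016, W5_14077394944, W5_14060879872, W5_13053460480, W5_13036945408,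
  W5_13020430336, W5_13003915264, W5_11979980800, W5_11963465728, W5_11946950656, W5_10906501120,
  W5_10889986048]⟩

theorem F5_15201730560_chk : fwdChk 5 ks5 F5_15201730560 = true := by decide +kernel

noncomputable def F5_15201472512 : Fwd := ⟨V5_15201472512, [
  ⟨V4_10906238976, nat_lit 2, [(nat_lit 110, nat_lit 15201472512),
  (nat_lit 35, nat_lit 16275210240), (nat_lit 50, nat_lit 16274952192),
  (nat_lit 120, nat_lit 17348689920)]⟩,
  ⟨V4_13053198336, nat_lit 3, [(nat_lit 125, nat_lit 15201472512),
  (nat_lit 41, nat_lit 16275210240), (nat_lit 107, nat_lit 16274952192),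
  (nat_lit 99, nat_lit 17348689920), (nat_lit 29, nat_lit 17348431872),
  (nat_lit 45, nat_lit 18422169600), (nat_lit 6, nat_lit 18421911552),
  (nat_lit 5, nat_lit 19495649280)]⟩,
  ⟨V4_14126678016, nat_lit 2, [(nat_lit 105, nat_lit 15201472512),
  (nat_lit 101, nat_lit 16275210240), (nat_lit 88, nat_lit 16274952192),
  (nat_lit 66, nat_lit 17348689920), (nat_lit 46, nat_lit 17348431872),
  (nat_lit 113, nat_lit 18422169600), (nat_lit 98, nat_lit 18421911552),
  (nat_lit 12, nat_lit 19495649280), (nat_lit 38, nat_lit 19495391232),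
  (nat_lit 71, nat_lit 20569128960)]⟩,
  ⟨V4_11929915392, nat_lit 2, [(nat_lit 73, nat_lit 15201472512),
  (nat_lit 54, nat_lit 16258437120), (nat_lit 122, nat_lit 17315401728),
  (nat_lit 22, nat_lit 18372366336)]⟩,
  ⟨V4_10889723904, nat_lit 1, [(nat_lit 1, nat_lit 15201472512),
  (nat_lit 125, nat_lit 16275210240), (nat_lit 46, nat_lit 16258437120),
  (nat_lit 30, nat_lit 17332174848)]⟩,
  ⟨V4_11979460608, nat_lit 1, [(nat_lit 32, nat_lit 15201472512),
  (nat_lit 63, nat_lit 16274952192), (nat_lit 15, nat_lit 17348431872),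
  (nat_lit 69, nat_lit 18421911552)]⟩,
  ⟨V4_11946688512, nat_lit 2, [(nat_lit 78, nat_lit 15201472512),
  (nat_lit 13, nat_lit 16275210240), (nat_lit 1, nat_lit 16258437120),
  (nat_lit 109, nat_lit 17332174848), (nat_lit 17, nat_lit 17315401728),
  (nat_lit 95, nat_lit 18389139456)]⟩], [
  W5_15200419840, W5_15183904768, W5_15183646720, W5_15167389696, W5_15167131648, W5_15150874624,
  W5_15150616576, W5_15134359552, W5_15134101504, W5_15117586432, W5_14126940160, W5_14126682112,
  W5_14110425088, W5_14110167040, W5_14093910016, W5_14093651968, W5_14077394944, W5_14077136896,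
  W5_14060621824, W5_13053460480, W5_13053202432, W5_13036945408, W5_13036687360, W5_13020430336,
  W5_13020172288, W5_13003657216, W5_11979980800, W5_11979722752, W5_11963465728, W5_11963207680,
  W5_11946692608, W5_10906501120, W5_10906243072, W5_10889728000]⟩

theorem F5_15201472512_chk : fwdChk 5 ks5 F5_15201472512 = true := by decide +kernel

noncomputable def F5_15201214464 : Fwd := ⟨V5_15201214464, [
  ⟨V4_10906238976, nat_lit 2, [(nat_lit 65, nat_lit 15201214464),
  (nat_lit 117, nat_lit 16274952192), (nat_lit 11, nat_lit 17348689920)]⟩,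
  ⟨V4_10905722880, nat_lit 1, [(nat_lit 45, nat_lit 15201214464),
  (nat_lit 13, nat_lit 16274694144), (nat_lit 82, nat_lit 17348173824)]⟩,
  ⟨V4_13053198336, nat_lit 3, [(nat_lit 61, nat_lit 15201214464),
  (nat_lit 4, nat_lit 16274952192), (nat_lit 52, nat_lit 16274694144),
  (nat_lit 44, nat_lit 17348689920), (nat_lit 8, nat_lit 17348431872),
  (nat_lit 68, nat_lit 17348173824), (nat_lit 60, nat_lit 18422169600),
  (nat_lit 40, nat_lit 18421911552), (nat_lit 20, nat_lit 19495649280)]⟩,
  ⟨V4_10872692736, nat_lit 2, [(nat_lit 100, nat_lit 15201214464),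
  (nat_lit 9, nat_lit 16258179072), (nat_lit 35, nat_lit 17315143680)]⟩,
  ⟨V4_15100551168, nat_lit 1, [(nat_lit 65, nat_lit 15201214464),
  (nat_lit 56, nat_lit 16258179072), (nat_lit 7, nat_lit 17315143680),
  (nat_lit 13, nat_lit 18372108288), (nat_lit 76, nat_lit 19429072896),
  (nat_lit 59, nat_lit 20486037504), (nat_lit 18, nat_lit 21543002112)]⟩,
  ⟨V4_13020168192, nat_lit 4, [(nat_lit 65, nat_lit 15201214464),
  (nat_lit 106, nat_lit 16274952192), (nat_lit 49, nat_lit 16258179072),
  (nat_lit 3, nat_lit 17348689920), (nat_lit 37, nat_lit 17331916800),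
  (nat_lit 124, nat_lit 17315143680), (nat_lit 81, nat_lit 18405654528),
  (nat_lit 118, nat_lit 18388881408), (nat_lit 89, nat_lit 19462619136)]⟩,
  ⟨V4_12986621952, nat_lit 2, [(nat_lit 76, nat_lit 15201214464),
  (nat_lit 102, nat_lit 16258179072), (nat_lit 94, nat_lit 17315143680),
  (nat_lit 109, nat_lit 18372108288), (nat_lit 3, nat_lit 19429072896)]⟩], [
  W5_15183904768, W5_15167389696, W5_15167131648, W5_15150874624, W5_15150616576, W5_15150358528,
  W5_15134101504, W5_15133843456, W5_15117328384, W5_14126940160, W5_14110425088, W5_14110167040,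
  W5_14093910016, W5_14093651968, W5_14093393920, W5_14077136896, W5_14076878848, W5_14060363776,
  W5_13053460480, W5_13053202432, W5_13036945408, W5_13036687360, W5_13036429312, W5_13020172288,
  W5_13019914240, W5_13003399168, W5_11979980800, W5_11979722752, W5_11979464704, W5_11963207680,
  W5_11962949632, W5_11946434560, W5_10906243072, W5_10905985024, W5_10889469952]⟩

theorem F5_15201214464_chk : fwdChk 5 ks5 F5_15201214464 = true := by decide +kernel

noncomputable def F5_15201210432 : Fwd := ⟨V5_15201210432, [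
  ⟨V4_10889465856, nat_lit 1, [(nat_lit 99, nat_lit 15201210432),
  (nat_lit 35, nat_lit 16274952192), (nat_lit 125, nat_lit 16258175040),
  (nat_lit 86, nat_lit 17331916800)]⟩,
  ⟨V4_11979460608, nat_lit 1, [(nat_lit 122, nat_lit 15201210432),
  (nat_lit 87, nat_lit 16274952192), (nat_lit 106, nat_lit 16274690112),
  (nat_lit 79, nat_lit 17348431872), (nat_lit 57, nat_lit 17348169792),
  (nat_lit 41, nat_lit 18421911552)]⟩,
  ⟨V4_14109904896, nat_lit 1, [(nat_lit 65, nat_lit 15201210432),
  (nat_lit 87, nat_lit 16274952192), (nat_lit 48, nat_lit 16274690112),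
  (nat_lit 68, nat_lit 16258175040), (nat_lit 106, nat_lit 17348431872),
  (nat_lit 82, nat_lit 17348169792), (nat_lit 63, nat_lit 17331916800),
  (nat_lit 20, nat_lit 17331654720), (nat_lit 21, nat_lit 18421911552),
  (nat_lit 6, nat_lit 18421649472), (nat_lit 80, nat_lit 18405396480),
  (nat_lit 114, nat_lit 18405134400), (nat_lit 54, nat_lit 19495391232),
  (nat_lit 80, nat_lit 19478876160), (nat_lit 57, nat_lit 19478614080),
  (nat_lit 45, nat_lit 20552355840)]⟩], [
  W5_15183646720, W5_15167131648, W5_15150616576, W5_15150354496, W5_15134101504, W5_15117324352,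
  W5_14126682112, W5_14110167040, W5_14093651968, W5_14093389888, W5_14077136896, W5_14076874816,
  W5_14060359744, W5_13053202432, W5_13036687360, W5_13036425280, W5_13020172288, W5_13019910208,
  W5_13003395136, W5_11979722752, W5_11963207680, W5_11962945600, W5_11946430528, W5_10906243072,
  W5_10889465920]⟩

theorem F5_15201210432_chk : fwdChk 5 ks5 F5_15201210432 = true := by decide +kernel

noncomputable def F5_15200956416 : Fwd := ⟨V5_15200956416, [
  ⟨V4_11979718656, nat_lit 1, [(nat_lit 34, nat_lit 15200956416),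
  (nat_lit 103, nat_lit 16274694144), (nat_lit 18, nat_lit 17348431872),
  (nat_lit 100, nat_lit 18422169600)]⟩,
  ⟨V4_13036683264, nat_lit 1, [(nat_lit 82, nat_lit 15200956416),
  (nat_lit 96, nat_lit 16274694144), (nat_lit 30, nat_lit 16257921024),
  (nat_lit 6, nat_lit 17348431872), (nat_lit 113, nat_lit 17331658752),
  (nat_lit 80, nat_lit 18422169600), (nat_lit 19, nat_lit 18405396480),
  (nat_lit 72, nat_lit 19479134208)]⟩], [
  W5_15167389696, W5_15150616576, W5_15133843456, W5_14110425088, W5_14093651968, W5_14076878848,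
  W5_14060105728, W5_13053460480, W5_13036687360, W5_13019914240, W5_13003141120, W5_11979722752,
  W5_11962949632, W5_11946176512, W5_10905985024, W5_10889211904]⟩

theorem F5_15200956416_chk : fwdChk 5 ks5 F5_15200956416 = true := by decide +kernel

noncomputable def F5_15200952384 : Fwd := ⟨V5_15200952384, [
  ⟨V4_10905722880, nat_lit 1, [(nat_lit 123, nat_lit 15200952384),
  (nat_lit 108, nat_lit 16274694144), (nat_lit 103, nat_lit 16274432064),
  (nat_lit 107, nat_lit 17348173824)]⟩,
  ⟨V4_11962945536, nat_lit 2, [(nat_lit 18, nat_lit 15200952384),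
  (nat_lit 110, nat_lit 16274694144), (nat_lit 4, nat_lit 16274690112),
  (nat_lit 50, nat_lit 16257916992), (nat_lit 42, nat_lit 17348431872),
  (nat_lit 83, nat_lit 17331658752), (nat_lit 47, nat_lit 17331654720),
  (nat_lit 60, nat_lit 18405396480)]⟩,
  ⟨V4_11979460608, nat_lit 1, [(nat_lit 18, nat_lit 15200952384),
  (nat_lit 90, nat_lit 16274694144), (nat_lit 101, nat_lit 16274690112),
  (nat_lit 53, nat_lit 16274432064), (nat_lit 123, nat_lit 17348431872),
  (nat_lit 71, nat_lit 17348173824), (nat_lit 119, nat_lit 17348169792),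
  (nat_lit 56, nat_lit 18421911552)]⟩], [
  W5_15167131648, W5_15150616576, W5_15150358528, W5_15150354496, W5_15133843456, W5_15133581376,
  W5_15117066304, W5_14110167040, W5_14093651968, W5_14093393920, W5_14093389888, W5_14076878848,
  W5_14076874816, W5_14060101696, W5_13053202432, W5_13036687360, W5_13036429312, W5_13036425280,
  W5_13019914240, W5_13019910208, W5_13019652160, W5_13003137088, W5_11979722752, W5_11979464704,
  W5_11962949632, W5_11962945600, W5_11962687552, W5_11946172480, W5_10905985024, W5_10905722944,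
  W5_10889207872]⟩

theorem F5_15200952384_chk : fwdChk 5 ks5 F5_15200952384 = true := by decide +kernel

noncomputable def F5_15200690304 : Fwd := ⟨V5_15200690304, [
  ⟨V4_10905722880, nat_lit 1, [(nat_lit 65, nat_lit 15200690304),
  (nat_lit 95, nat_lit 16274432064), (nat_lit 68, nat_lit 17348173824)]⟩,
  ⟨V4_13019652096, nat_lit 1, [(nat_lit 90, nat_lit 15200690304),
  (nat_lit 3, nat_lit 16274432064), (nat_lit 113, nat_lit 16257654912),
  (nat_lit 36, nat_lit 17348173824), (nat_lit 25, nat_lit 17331396672),
  (nat_lit 81, nat_lit 17314619520), (nat_lit 33, nat_lit 18405138432),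
  (nat_lit 98, nat_lit 18388361280), (nat_lit 55, nat_lit 19462103040)]⟩], [
  W5_15150358528, W5_15133581376, W5_15116804224, W5_14093393920, W5_14059839616, W5_13036429312,
  W5_13019652160, W5_13002875008, W5_11979464704, W5_11962687552, W5_11945910400, W5_10905722944]⟩

theorem F5_15200690304_chk : fwdChk 5 ks5 F5_15200690304 = true := by decide +kernel

noncomputable def F5_15185215488 : Fwd := ⟨V5_15185215488, [
  ⟨V4_10873208832, nat_lit 2, [(nat_lit 100, nat_lit 15185215488),
  (nat_lit 9, nat_lit 16258695168), (nat_lit 101, nat_lit 16242180096),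
  (nat_lit 105, nat_lit 17315659776)]⟩,
  ⟨V4_15183642624, nat_lit 2, [(nat_lit 68, nat_lit 15185215488),
  (nat_lit 90, nat_lit 16258695168), (nat_lit 61, nat_lit 17332174848),
  (nat_lit 123, nat_lit 18405654528), (nat_lit 120, nat_lit 19479134208),
  (nat_lit 28, nat_lit 20552613888), (nat_lit 117, nat_lit 21626093568)]⟩,
  ⟨V4_10889723904, nat_lit 1, [(nat_lit 121, nat_lit 15185215488),
  (nat_lit 6, nat_lit 16258695168), (nat_lit 33, nat_lit 17332174848)]⟩], [
  W5_15183904768, W5_15167389696, W5_15150874624, W5_14110425088, W5_14093910016, W5_14077394944,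
  W5_13036945408, W5_13020430336, W5_13003915264, W5_11963465728, W5_11946950656, W5_10889986048,
  W5_10873470976]⟩

theorem F5_15185215488_chk : fwdChk 5 ks5 F5_15185215488 = true := by decide +kernel

noncomputable def F5_15184957440 : Fwd := ⟨V5_15184957440, [
  ⟨V4_12987138048, nat_lit 3, [(nat_lit 44, nat_lit 15184957440),
  (nat_lit 9, nat_lit 16258695168), (nat_lit 15, nat_lit 16241922048),
  (nat_lit 1, nat_lit 17315659776), (nat_lit 106, nat_lit 17298886656),
  (nat_lit 37, nat_lit 18372624384), (nat_lit 37, nat_lit 18355851264),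
  (nat_lit 41, nat_lit 19429588992)]⟩,
  ⟨V4_10873208832, nat_lit 2, [(nat_lit 40, nat_lit 15184957440),
  (nat_lit 124, nat_lit 16258695168), (nat_lit 60, nat_lit 16241922048),
  (nat_lit 7, nat_lit 17315659776)]⟩,
  ⟨V4_9799471104, nat_lit 1, [(nat_lit 58, nat_lit 15184957440),
  (nat_lit 28, nat_lit 16241922048)]⟩,
  ⟨V4_14109904896, nat_lit 1, [(nat_lit 73, nat_lit 15184957440),
  (nat_lit 117, nat_lit 16258437120), (nat_lit 59, nat_lit 17331916800),
  (nat_lit 38, nat_lit 18405396480), (nat_lit 20, nat_lit 19478876160),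
  (nat_lit 5, nat_lit 20552355840)]⟩,
  ⟨V4_15183642624, nat_lit 2, [(nat_lit 96, nat_lit 15184957440),
  (nat_lit 97, nat_lit 16258695168), (nat_lit 22, nat_lit 16258437120),
  (nat_lit 2, nat_lit 17332174848), (nat_lit 104, nat_lit 17331916800),
  (nat_lit 6, nat_lit 18405654528), (nat_lit 7, nat_lit 18405396480),
  (nat_lit 61, nat_lit 19479134208), (nat_lit 38, nat_lit 19478876160),
  (nat_lit 114, nat_lit 20552613888), (nat_lit 30, nat_lit 20552355840),
  (nat_lit 120, nat_lit 21626093568)]⟩,
  ⟨V4_11962945536, nat_lit 2, [(nat_lit 41, nat_lit 15184957440),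
  (nat_lit 118, nat_lit 16258437120), (nat_lit 6, nat_lit 17331916800),
  (nat_lit 67, nat_lit 18405396480)]⟩,
  ⟨V4_10856435712, nat_lit 1, [(nat_lit 97, nat_lit 15184957440),
  (nat_lit 126, nat_lit 16241922048), (nat_lit 24, nat_lit 17298886656)]⟩,
  ⟨V4_10889723904, nat_lit 1, [(nat_lit 105, nat_lit 15184957440),
  (nat_lit 125, nat_lit 16258695168), (nat_lit 14, nat_lit 16258437120),
  (nat_lit 126, nat_lit 17332174848)]⟩], [
  W5_15183904768, W5_15183646720, W5_15167389696, W5_15167131648, W5_15150874624, W5_15150616576,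
  W5_15134359552, W5_15134101504, W5_14110425088, W5_14110167040, W5_14093910016, W5_14093651968,
  W5_14077394944, W5_14077136896, W5_14060879872, W5_14060621824, W5_13036945408, W5_13036687360,
  W5_13020430336, W5_13020172288, W5_13003915264, W5_13003657216, W5_12987142144, W5_11963465728,
  W5_11963207680, W5_11946950656, W5_11946692608, W5_11930177536, W5_10889986048, W5_10889728000,
  W5_10873212928, W5_9816248320]⟩

theorem F5_15184957440_chk : fwdChk 5 ks5 F5_15184957440 = true := by decide +kernel

noncomputable def F5_15184699392 : Fwd := ⟨V5_15184699392, [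
  ⟨V4_9799213056, nat_lit 1, [(nat_lit 126, nat_lit 15184699392),
  (nat_lit 109, nat_lit 16241664000)]⟩,
  ⟨V4_10889723904, nat_lit 1, [(nat_lit 49, nat_lit 15184699392),
  (nat_lit 12, nat_lit 16258437120), (nat_lit 63, nat_lit 17332174848)]⟩,
  ⟨V4_10872692736, nat_lit 2, [(nat_lit 42, nat_lit 15184699392),
  (nat_lit 82, nat_lit 16258179072), (nat_lit 11, nat_lit 16241664000),
  (nat_lit 7, nat_lit 17315143680)]⟩,
  ⟨V4_11946688512, nat_lit 2, [(nat_lit 113, nat_lit 15184699392),
  (nat_lit 61, nat_lit 16258437120), (nat_lit 92, nat_lit 16241664000),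
  (nat_lit 13, nat_lit 17332174848), (nat_lit 79, nat_lit 17315401728),
  (nat_lit 52, nat_lit 18389139456)]⟩,
  ⟨V4_13020168192, nat_lit 4, [(nat_lit 117, nat_lit 15184699392),
  (nat_lit 32, nat_lit 16258437120), (nat_lit 9, nat_lit 16258179072),
  (nat_lit 87, nat_lit 16241664000), (nat_lit 70, nat_lit 17332174848),
  (nat_lit 15, nat_lit 17331916800), (nat_lit 28, nat_lit 17315401728),
  (nat_lit 101, nat_lit 17315143680), (nat_lit 57, nat_lit 18405654528),
  (nat_lit 67, nat_lit 18389139456), (nat_lit 99, nat_lit 18388881408),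
  (nat_lit 126, nat_lit 19462619136)]⟩,
  ⟨V4_13019652096, nat_lit 2, [(nat_lit 57, nat_lit 15184699392),
  (nat_lit 126, nat_lit 16258179072), (nat_lit 64, nat_lit 16241664000),
  (nat_lit 56, nat_lit 17331658752), (nat_lit 7, nat_lit 17315143680),
  (nat_lit 60, nat_lit 18405138432), (nat_lit 54, nat_lit 18388623360),
  (nat_lit 67, nat_lit 19462103040)]⟩,
  ⟨V4_10889465856, nat_lit 1, [(nat_lit 124, nat_lit 15184699392),
  (nat_lit 71, nat_lit 16258437120), (nat_lit 26, nat_lit 16258179072),
  (nat_lit 100, nat_lit 17331916800)]⟩], [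
  W5_15183904768, W5_15167389696, W5_15167131648, W5_15150874624, W5_15150616576, W5_15150358528,
  W5_15134359552, W5_15134101504, W5_15133843456, W5_15117586432, W5_15117328384, W5_14110425088,
  W5_14110167040, W5_14093910016, W5_14093651968, W5_14093393920, W5_14077394944, W5_14077136896,
  W5_14076878848, W5_14060621824, W5_14060363776, W5_14043848704, W5_13036945408, W5_13036687360,
  W5_13036429312, W5_13020430336, W5_13020172288, W5_13019914240, W5_13003657216, W5_13003399168,
  W5_12986884096, W5_11963465728, W5_11963207680, W5_11962949632, W5_11946692608, W5_11946434560,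
  W5_11929919488, W5_10889728000, W5_10889469952, W5_10872954880, W5_9815990272]⟩

theorem F5_15184699392_chk : fwdChk 5 ks5 F5_15184699392 = true := by decide +kernel

noncomputable def F5_15184695360 : Fwd := ⟨V5_15184695360, [
  ⟨V4_14109904896, nat_lit 1, [(nat_lit 62, nat_lit 15184695360),
  (nat_lit 71, nat_lit 16258437120), (nat_lit 27, nat_lit 16258175040),
  (nat_lit 97, nat_lit 17331916800), (nat_lit 123, nat_lit 17331654720),
  (nat_lit 94, nat_lit 18405396480), (nat_lit 21, nat_lit 18405134400),
  (nat_lit 7, nat_lit 19478876160), (nat_lit 104, nat_lit 19478614080),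
  (nat_lit 39, nat_lit 20552355840)]⟩,
  ⟨V4_11962945536, nat_lit 2, [(nat_lit 21, nat_lit 15184695360),
  (nat_lit 102, nat_lit 16258437120), (nat_lit 52, nat_lit 16258175040),
  (nat_lit 40, nat_lit 17331916800), (nat_lit 80, nat_lit 17331654720),
  (nat_lit 12, nat_lit 18405396480)]⟩,
  ⟨V4_11929915392, nat_lit 2, [(nat_lit 116, nat_lit 15184695360),
  (nat_lit 7, nat_lit 16258437120), (nat_lit 101, nat_lit 16241659968),
  (nat_lit 95, nat_lit 17315401728), (nat_lit 77, nat_lit 17298624576),
  (nat_lit 23, nat_lit 18372366336)]⟩], [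
  W5_15183646720, W5_15167131648, W5_15150616576, W5_15150354496, W5_15134101504, W5_15117586432,
  W5_15117324352, W5_14110167040, W5_14093651968, W5_14093389888, W5_14077136896, W5_14076874816,
  W5_14060621824, W5_14060359744, W5_14043844672, W5_13036687360, W5_13036425280, W5_13020172288,
  W5_13019910208, W5_13003657216, W5_13003395136, W5_12986880064, W5_11963207680, W5_11962945600,
  W5_11946692608, W5_11946430528, W5_11929915456, W5_10889728000, W5_10889465920, W5_10872950848,
  W5_9815986240]⟩

theorem F5_15184695360_chk : fwdChk 5 ks5 F5_15184695360 = true := by decide +kernel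

noncomputable def F5_15184441344 : Fwd := ⟨V5_15184441344, [
  ⟨V4_9815470080, nat_lit 1, [(nat_lit 34, nat_lit 15184441344),
  (nat_lit 11, nat_lit 16257921024)]⟩,
  ⟨V4_13020168192, nat_lit 4, [(nat_lit 91, nat_lit 15184441344),
  (nat_lit 101, nat_lit 16258179072), (nat_lit 119, nat_lit 16241405952),
  (nat_lit 47, nat_lit 17331916800), (nat_lit 34, nat_lit 17315143680),
  (nat_lit 87, nat_lit 18405654528), (nat_lit 18, nat_lit 18388881408),
  (nat_lit 113, nat_lit 19462619136)]⟩,
  ⟨V4_10872692736, nat_lit 2, [(nat_lit 13, nat_lit 15184441344),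
  (nat_lit 3, nat_lit 16258179072), (nat_lit 82, nat_lit 16241405952),
  (nat_lit 69, nat_lit 17315143680)]⟩,
  ⟨V4_13036683264, nat_lit 2, [(nat_lit 30, nat_lit 15184441344),
  (nat_lit 91, nat_lit 16258179072), (nat_lit 40, nat_lit 16257921024),
  (nat_lit 83, nat_lit 17331916800), (nat_lit 63, nat_lit 17331658752),
  (nat_lit 24, nat_lit 18405654528), (nat_lit 39, nat_lit 18405396480),
  (nat_lit 102, nat_lit 19479134208)]⟩], [
  W5_15167389696, W5_15150874624, W5_15150616576, W5_15134101504, W5_15133843456, W5_15117328384,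
  W5_15100555264, W5_14110425088, W5_14093910016, W5_14093651968, W5_14077136896, W5_14076878848,
  W5_14060363776, W5_14060105728, W5_14043590656, W5_13036945408, W5_13036687360, W5_13020172288,
  W5_13019914240, W5_13003399168, W5_13003141120, W5_12986626048, W5_11963207680, W5_11962949632,
  W5_11946434560, W5_11946176512, W5_11929661440, W5_10889469952, W5_10889211904, W5_10872696832,
  W5_9815732224]⟩

theorem F5_15184441344_chk : fwdChk 5 ks5 F5_15184441344 = true := by decide +kernel

noncomputable def F5_15184437312 : Fwd := ⟨V5_15184437312, [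
  ⟨V4_10872692736, nat_lit 2, [(nat_lit 42, nat_lit 15184437312),
  (nat_lit 34, nat_lit 16258179072), (nat_lit 10, nat_lit 16241401920),
  (nat_lit 51, nat_lit 17315143680)]⟩,
  ⟨V4_10889465856, nat_lit 1, [(nat_lit 29, nat_lit 15184437312),
  (nat_lit 113, nat_lit 16258179072), (nat_lit 109, nat_lit 16258175040),
  (nat_lit 51, nat_lit 17331916800)]⟩,
  ⟨V4_15100551168, nat_lit 1, [(nat_lit 55, nat_lit 15184437312),
  (nat_lit 14, nat_lit 16258179072), (nat_lit 15, nat_lit 16241401920),
  (nat_lit 61, nat_lit 17315143680), (nat_lit 114, nat_lit 17298366528),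
  (nat_lit 86, nat_lit 18372108288), (nat_lit 5, nat_lit 18355331136),
  (nat_lit 41, nat_lit 19429072896), (nat_lit 57, nat_lit 19412295744),
  (nat_lit 66, nat_lit 20486037504), (nat_lit 3, nat_lit 20469260352),
  (nat_lit 113, nat_lit 21543002112)]⟩,
  ⟨V4_11962945536, nat_lit 2, [(nat_lit 23, nat_lit 15184437312),
  (nat_lit 38, nat_lit 16258179072), (nat_lit 78, nat_lit 16258175040),
  (nat_lit 39, nat_lit 16257916992), (nat_lit 89, nat_lit 17331916800),
  (nat_lit 5, nat_lit 17331658752), (nat_lit 106, nat_lit 17331654720),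
  (nat_lit 42, nat_lit 18405396480)]⟩,
  ⟨V4_14043586560, nat_lit 1, [(nat_lit 30, nat_lit 15184437312),
  (nat_lit 60, nat_lit 16258179072), (nat_lit 17, nat_lit 16241401920),
  (nat_lit 11, nat_lit 17315143680), (nat_lit 25, nat_lit 17298366528),
  (nat_lit 18, nat_lit 18372108288), (nat_lit 18, nat_lit 18355331136),
  (nat_lit 53, nat_lit 19429072896), (nat_lit 15, nat_lit 19412295744),
  (nat_lit 104, nat_lit 20486037504)]⟩], [
  W5_15167131648, W5_15150616576, W5_15150358528, W5_15150354496, W5_15134101504, W5_15133843456,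
  W5_15133581376, W5_15117328384, W5_15117324352, W5_15117066304, W5_15100551232, W5_14110167040,
  W5_14093651968, W5_14093393920, W5_14093389888, W5_14077136896, W5_14076878848, W5_14076874816,
  W5_14060363776, W5_14060359744, W5_14060101696, W5_14043586624, W5_13036687360, W5_13036429312,
  W5_13036425280, W5_13020172288, W5_13019914240, W5_13019910208, W5_13019652160, W5_13003399168,
  W5_13003395136, W5_13003137088, W5_12986622016, W5_11963207680, W5_11962949632, W5_11962945600,
  W5_11962687552, W5_11946434560, W5_11946430528, W5_11946172480, W5_11929657408, W5_10889469952,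
  W5_10889465920, W5_10889207872, W5_10872692800, W5_9815728192]⟩

theorem F5_15184437312_chk : fwdChk 5 ks5 F5_15184437312 = true := by decide +kernel

noncomputable def F5_15184179264 : Fwd := ⟨V5_15184179264, [
  ⟨V4_9815470080, nat_lit 1, [(nat_lit 113, nat_lit 15184179264),
  (nat_lit 94, nat_lit 16257921024)]⟩,
  ⟨V4_11962945536, nat_lit 1, [(nat_lit 42, nat_lit 15184179264),
  (nat_lit 102, nat_lit 16257921024), (nat_lit 11, nat_lit 16257916992),
  (nat_lit 55, nat_lit 17331658752), (nat_lit 97, nat_lit 17331654720),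
  (nat_lit 54, nat_lit 18405396480)]⟩], [
  W5_15150616576, W5_15133843456, W5_15117066304, W5_14093651968, W5_14076878848, W5_14076874816,
  W5_14060105728, W5_14060101696, W5_13036687360, W5_13019914240, W5_13019910208, W5_13003141120,
  W5_13003137088, W5_11962949632, W5_11962945600, W5_11946176512, W5_11946172480, W5_11929399360,
  W5_10889211904, W5_10889207872, W5_9815470144]⟩

theorem F5_15184179264_chk : fwdChk 5 ks5 F5_15184179264 = true := by decide +kernel

noncomputable def F5_15184175232 : Fwd := ⟨V5_15184175232, [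
  ⟨V4_11946172416, nat_lit 1, [(nat_lit 9, nat_lit 15184175232),
  (nat_lit 16, nat_lit 16257916992), (nat_lit 126, nat_lit 16241139840),
  (nat_lit 20, nat_lit 17331658752), (nat_lit 89, nat_lit 17314881600),
  (nat_lit 50, nat_lit 18388623360)]⟩], [
  W5_15150358528, W5_15133843456, W5_15133581376, W5_15117066304, W5_15116804224, W5_14093393920,
  W5_14076878848, W5_14060101696, W5_14059839616, W5_13036429312, W5_13019914240, W5_13019652160,
  W5_13003137088, W5_13002875008, W5_11962949632, W5_11962687552, W5_11946172480, W5_11945910400,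
  W5_10889207872, W5_10872430720]⟩

theorem F5_15184175232_chk : fwdChk 5 ks5 F5_15184175232 = true := by decide +kernel

noncomputable def F5_15168700416 : Fwd := ⟨V5_15168700416, [
  ⟨V4_8726249472, nat_lit 1, [(nat_lit 63, nat_lit 15168700416)]⟩,
  ⟨V4_15167127552, nat_lit 4, [(nat_lit 78, nat_lit 15168700416),
  (nat_lit 92, nat_lit 16242180096), (nat_lit 47, nat_lit 17315659776),
  (nat_lit 20, nat_lit 18389139456), (nat_lit 18, nat_lit 19462619136),
  (nat_lit 93, nat_lit 20536098816), (nat_lit 99, nat_lit 21609578496)]⟩], [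
  W5_15167389696, W5_14093910016, W5_13020430336, W5_11946950656, W5_10873470976, W5_9799991296]⟩

theorem F5_15168700416_chk : fwdChk 5 ks5 F5_15168700416 = true := by decide +kernel

noncomputable def F5_15168442368 : Fwd := ⟨V5_15168442368, [
  ⟨V4_10873208832, nat_lit 2, [(nat_lit 73, nat_lit 15168442368),
  (nat_lit 22, nat_lit 16242180096), (nat_lit 49, nat_lit 16241922048),
  (nat_lit 93, nat_lit 17315659776)]⟩,
  ⟨V4_9799471104, nat_lit 1, [(nat_lit 91, nat_lit 15168442368),
  (nat_lit 116, nat_lit 16241922048)]⟩,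
  ⟨V4_15167127552, nat_lit 4, [(nat_lit 117, nat_lit 15168442368),
  (nat_lit 87, nat_lit 16242180096), (nat_lit 124, nat_lit 16241922048),
  (nat_lit 83, nat_lit 17315659776), (nat_lit 41, nat_lit 17315401728),
  (nat_lit 96, nat_lit 18389139456), (nat_lit 120, nat_lit 18388881408),
  (nat_lit 17, nat_lit 19462619136), (nat_lit 48, nat_lit 19462361088),
  (nat_lit 97, nat_lit 20536098816), (nat_lit 126, nat_lit 20535840768),
  (nat_lit 90, nat_lit 21609578496)]⟩], [
  W5_15167389696, W5_15167131648, W5_15150874624, W5_15150616576, W5_14093910016, W5_14093651968,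
  W5_14077394944, W5_14077136896, W5_13020430336, W5_13020172288, W5_13003915264, W5_13003657216,
  W5_11946950656, W5_11946692608, W5_11930177536, W5_10873470976, W5_10873212928, W5_10856697856,
  W5_9799733248]⟩

theorem F5_15168442368_chk : fwdChk 5 ks5 F5_15168442368 = true := by decide +kernel

noncomputable def F5_15168184320 : Fwd := ⟨V5_15168184320, [
  ⟨V4_8725733376, nat_lit 1, [(nat_lit 14, nat_lit 15168184320)]⟩,
  ⟨V4_10873208832, nat_lit 2, [(nat_lit 110, nat_lit 15168184320),
  (nat_lit 71, nat_lit 16241922048), (nat_lit 87, nat_lit 17315659776)]⟩,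
  ⟨V4_10839662592, nat_lit 2, [(nat_lit 6, nat_lit 15168184320),
  (nat_lit 59, nat_lit 16225148928), (nat_lit 1, nat_lit 17282113536)]⟩,
  ⟨V4_12987138048, nat_lit 3, [(nat_lit 18, nat_lit 15168184320),
  (nat_lit 113, nat_lit 16241922048), (nat_lit 83, nat_lit 16225148928),
  (nat_lit 85, nat_lit 17315659776), (nat_lit 121, nat_lit 17298886656),
  (nat_lit 37, nat_lit 17282113536), (nat_lit 4, nat_lit 18372624384),
  (nat_lit 82, nat_lit 18355851264), (nat_lit 97, nat_lit 19429588992)]⟩,
  ⟨V4_9799471104, nat_lit 1, [(nat_lit 96, nat_lit 15168184320),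
  (nat_lit 67, nat_lit 16241922048)]⟩,
  ⟨V4_15167127552, nat_lit 4, [(nat_lit 9, nat_lit 15168184320),
  (nat_lit 76, nat_lit 16241922048), (nat_lit 35, nat_lit 16241664000),
  (nat_lit 8, nat_lit 17315659776), (nat_lit 28, nat_lit 17315401728),
  (nat_lit 31, nat_lit 17315143680), (nat_lit 118, nat_lit 18389139456),
  (nat_lit 40, nat_lit 18388881408), (nat_lit 118, nat_lit 18388623360),
  (nat_lit 100, nat_lit 19462619136), (nat_lit 32, nat_lit 19462361088),
  (nat_lit 45, nat_lit 19462103040), (nat_lit 43, nat_lit 20536098816),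
  (nat_lit 83, nat_lit 20535840768), (nat_lit 122, nat_lit 21609578496)]⟩,
  ⟨V4_13019652096, nat_lit 2, [(nat_lit 110, nat_lit 15168184320),
  (nat_lit 61, nat_lit 16241664000), (nat_lit 106, nat_lit 17315143680),
  (nat_lit 1, nat_lit 18388623360), (nat_lit 120, nat_lit 19462103040)]⟩,
  ⟨V4_9799213056, nat_lit 1, [(nat_lit 56, nat_lit 15168184320),
  (nat_lit 90, nat_lit 16241664000)]⟩], [
  W5_15167389696, W5_15167131648, W5_15150874624, W5_15150616576, W5_15150358528, W5_15134359552,
  W5_15134101504, W5_15133843456, W5_14093910016, W5_14093651968, W5_14093393920, W5_14077394944,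
  W5_14077136896, W5_14076878848, W5_14060879872, W5_14060621824, W5_14060363776, W5_13020430336,
  W5_13020172288, W5_13019914240, W5_13003915264, W5_13003657216, W5_13003399168, W5_12987142144,
  W5_12986884096, W5_11946950656, W5_11946692608, W5_11946434560, W5_11930177536, W5_11929919488,
  W5_11913404416, W5_10873212928, W5_10872954880, W5_10856439808, W5_9799475200]⟩

theorem F5_15168184320_chk : fwdChk 5 ks5 F5_15168184320 = true := by decide +kernel

noncomputable def F5_15168180288 : Fwd := ⟨V5_15168180288, [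
  ⟨V4_9799471104, nat_lit 1, [(nat_lit 64, nat_lit 15168180288),
  (nat_lit 42, nat_lit 16241922048)]⟩,
  ⟨V4_10856435712, nat_lit 1, [(nat_lit 100, nat_lit 15168180288),
  (nat_lit 62, nat_lit 16241922048), (nat_lit 54, nat_lit 16225144896),
  (nat_lit 80, nat_lit 17298886656)]⟩,
  ⟨V4_10872950784, nat_lit 1, [(nat_lit 89, nat_lit 15168180288),
  (nat_lit 84, nat_lit 16241922048), (nat_lit 121, nat_lit 16241659968),
  (nat_lit 62, nat_lit 17315401728)]⟩], [
  W5_15167131648, W5_15150616576, W5_15150354496, W5_15134101504, W5_14093651968, W5_14093389888,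
  W5_14077136896, W5_14076874816, W5_14060621824, W5_14060359744, W5_13020172288, W5_13019910208,
  W5_13003657216, W5_13003395136, W5_12987142144, W5_12986880064, W5_11946692608, W5_11946430528,
  W5_11930177536, W5_11929915456, W5_10873212928, W5_10872950848, W5_10856435776, W5_9799471168]⟩

theorem F5_15168180288_chk : fwdChk 5 ks5 F5_15168180288 = true := by decide +kernel

noncomputable def F5_15167926272 : Fwd := ⟨V5_15167926272, [
  ⟨V4_9782439936, nat_lit 1, [(nat_lit 33, nat_lit 15167926272),
  (nat_lit 87, nat_lit 16224890880)]⟩,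
  ⟨V4_11946688512, nat_lit 2, [(nat_lit 120, nat_lit 15167926272),
  (nat_lit 117, nat_lit 16241664000), (nat_lit 71, nat_lit 17315401728),
  (nat_lit 84, nat_lit 18389139456)]⟩,
  ⟨V4_13020168192, nat_lit 4, [(nat_lit 116, nat_lit 15167926272),
  (nat_lit 43, nat_lit 16241664000), (nat_lit 80, nat_lit 16241405952),
  (nat_lit 75, nat_lit 17315401728), (nat_lit 110, nat_lit 17315143680),
  (nat_lit 118, nat_lit 18389139456), (nat_lit 119, nat_lit 18388881408),
  (nat_lit 1, nat_lit 19462619136)]⟩,
  ⟨V4_9799213056, nat_lit 1, [(nat_lit 63, nat_lit 15167926272),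
  (nat_lit 13, nat_lit 16241664000)]⟩,
  ⟨V4_10872692736, nat_lit 2, [(nat_lit 2, nat_lit 15167926272),
  (nat_lit 112, nat_lit 16241664000), (nat_lit 69, nat_lit 16241405952),
  (nat_lit 29, nat_lit 17315143680)]⟩], [
  W5_15167389696, W5_15150874624, W5_15150616576, W5_15134359552, W5_15134101504, W5_15133843456,
  W5_15117586432, W5_15117328384, W5_14093910016, W5_14093651968, W5_14077394944, W5_14077136896,
  W5_14076878848, W5_14060621824, W5_14060363776, W5_14060105728, W5_14043848704, W5_14043590656,
  W5_13020430336, W5_13020172288, W5_13019914240, W5_13003657216, W5_13003399168, W5_13003141120,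
  W5_12986884096, W5_12986626048, W5_11946692608, W5_11946434560, W5_11946176512, W5_11929919488,
  W5_11929661440, W5_11913146368, W5_10872954880, W5_10872696832, W5_10856181760, W5_9799217152]⟩

theorem F5_15167926272_chk : fwdChk 5 ks5 F5_15167926272 = true := by decide +kernel

noncomputable def F5_15167668224 : Fwd := ⟨V5_15167668224, [
  ⟨V4_8725217280, nat_lit 1, [(nat_lit 66, nat_lit 15167668224)]⟩,
  ⟨V4_13020168192, nat_lit 4, [(nat_lit 109, nat_lit 15167668224),
  (nat_lit 111, nat_lit 16241405952), (nat_lit 70, nat_lit 17315143680),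
  (nat_lit 15, nat_lit 18388881408), (nat_lit 38, nat_lit 19462619136)]⟩,
  ⟨V4_12953075712, nat_lit 1, [(nat_lit 69, nat_lit 15167668224),
  (nat_lit 18, nat_lit 16224632832), (nat_lit 109, nat_lit 17281597440),
  (nat_lit 110, nat_lit 18338562048), (nat_lit 107, nat_lit 19395526656)]⟩,
  ⟨V4_10872692736, nat_lit 2, [(nat_lit 70, nat_lit 15167668224),
  (nat_lit 37, nat_lit 16241405952), (nat_lit 30, nat_lit 17315143680)]⟩], [
  W5_15150874624, W5_15134101504, W5_15117328384, W5_15100555264, W5_14093910016, W5_14077136896,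
  W5_14060363776, W5_14043590656, W5_14026817536, W5_13020172288, W5_13003399168, W5_12986626048,
  W5_12969852928, W5_11946434560, W5_11929661440, W5_11912888320, W5_10872696832, W5_10855923712,
  W5_9798959104]⟩

theorem F5_15167668224_chk : fwdChk 5 ks5 F5_15167668224 = true := by decide +kernel

noncomputable def F5_15151669248 : Fwd := ⟨V5_15151669248, [
  ⟨V4_10856435712, nat_lit 1, [(nat_lit 9, nat_lit 15151669248),
  (nat_lit 102, nat_lit 16225406976), (nat_lit 90, nat_lit 16225148928),
  (nat_lit 15, nat_lit 17298886656)]⟩,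
  ⟨V4_11930173440, nat_lit 1, [(nat_lit 112, nat_lit 15151669248),
  (nat_lit 114, nat_lit 16225406976), (nat_lit 12, nat_lit 16225148928),
  (nat_lit 16, nat_lit 17299144704), (nat_lit 39, nat_lit 17298886656),
  (nat_lit 78, nat_lit 18372624384)]⟩], [
  W5_15150874624, W5_15150616576, W5_15150358528, W5_14077394944, W5_14077136896, W5_14076878848,
  W5_13003915264, W5_13003657216, W5_13003399168, W5_11930177536, W5_11929919488, W5_10856697856,
  W5_10856439808]⟩

theorem F5_15151669248_chk : fwdChk 5 ks5 F5_15151669248 = true := by decide +kernel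

noncomputable def F5_15151665216 : Fwd := ⟨V5_15151665216, [
  ⟨V4_10856435712, nat_lit 1, [(nat_lit 83, nat_lit 15151665216),
  (nat_lit 116, nat_lit 16225406976), (nat_lit 120, nat_lit 16225144896),
  (nat_lit 97, nat_lit 17298886656)]⟩,
  ⟨V4_11929915392, nat_lit 2, [(nat_lit 94, nat_lit 15151665216),
  (nat_lit 51, nat_lit 16225406976), (nat_lit 89, nat_lit 16225144896),
  (nat_lit 126, nat_lit 17298886656), (nat_lit 60, nat_lit 17298624576),
  (nat_lit 86, nat_lit 18372366336)]⟩], [
  W5_15150616576, W5_15150354496, W5_14077136896, W5_14076874816, W5_13003657216, W5_13003395136,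
  W5_11930177536, W5_11929915456, W5_10856697856, W5_10856435776, W5_9782956096]⟩

theorem F5_15151665216_chk : fwdChk 5 ks5 F5_15151665216 = true := by decide +kernel

noncomputable def F5_15151411200 : Fwd := ⟨V5_15151411200, [
  ⟨V4_12987138048, nat_lit 3, [(nat_lit 55, nat_lit 15151411200),
  (nat_lit 17, nat_lit 16225148928), (nat_lit 72, nat_lit 16208375808),
  (nat_lit 63, nat_lit 17298886656), (nat_lit 95, nat_lit 17282113536),
  (nat_lit 110, nat_lit 18372624384), (nat_lit 118, nat_lit 18355851264),
  (nat_lit 52, nat_lit 19429588992)]⟩,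
  ⟨V4_9765924864, nat_lit 1, [(nat_lit 112, nat_lit 15151411200),
  (nat_lit 5, nat_lit 16208375808)]⟩,
  ⟨V4_10839662592, nat_lit 2, [(nat_lit 52, nat_lit 15151411200),
  (nat_lit 84, nat_lit 16225148928), (nat_lit 53, nat_lit 16208375808),
  (nat_lit 6, nat_lit 17282113536)]⟩,
  ⟨V4_9782439936, nat_lit 1, [(nat_lit 27, nat_lit 15151411200),
  (nat_lit 57, nat_lit 16224890880)]⟩,
  ⟨V4_11930173440, nat_lit 1, [(nat_lit 2, nat_lit 15151411200),
  (nat_lit 21, nat_lit 16225148928), (nat_lit 16, nat_lit 17298886656),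
  (nat_lit 103, nat_lit 18372624384)]⟩,
  ⟨V4_10856435712, nat_lit 1, [(nat_lit 120, nat_lit 15151411200),
  (nat_lit 94, nat_lit 16225148928), (nat_lit 55, nat_lit 17298886656)]⟩], [
  W5_15150874624, W5_15150616576, W5_15134359552, W5_15134101504, W5_15133843456, W5_14077394944,
  W5_14077136896, W5_14076878848, W5_14060879872, W5_14060621824, W5_14060363776, W5_14060105728,
  W5_13003915264, W5_13003657216, W5_13003399168, W5_13003141120, W5_12987142144, W5_12986884096,
  W5_12986626048, W5_11930177536, W5_11929919488, W5_11929661440, W5_11913404416, W5_11913146368,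
  W5_10856439808, W5_10856181760, W5_10839666688, W5_9782702080]⟩

theorem F5_15151411200_chk : fwdChk 5 ks5 F5_15151411200 = true := by decide +kernel

noncomputable def F5_15151407168 : Fwd := ⟨V5_15151407168, [
  ⟨V4_10839662592, nat_lit 2, [(nat_lit 87, nat_lit 15151407168),
  (nat_lit 10, nat_lit 16225148928), (nat_lit 37, nat_lit 16208371776),
  (nat_lit 122, nat_lit 17282113536)]⟩,
  ⟨V4_10856435712, nat_lit 1, [(nat_lit 36, nat_lit 15151407168),
  (nat_lit 114, nat_lit 16225148928), (nat_lit 74, nat_lit 16225144896),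
  (nat_lit 2, nat_lit 17298886656)]⟩,
  ⟨V4_11929915392, nat_lit 2, [(nat_lit 106, nat_lit 15151407168),
  (nat_lit 7, nat_lit 16225148928), (nat_lit 57, nat_lit 16225144896),
  (nat_lit 113, nat_lit 16224886848), (nat_lit 17, nat_lit 17298886656),
  (nat_lit 3, nat_lit 17298628608), (nat_lit 29, nat_lit 17298624576),
  (nat_lit 28, nat_lit 18372366336)]⟩], [
  W5_15150616576, W5_15150358528, W5_15150354496, W5_15134101504, W5_15133843456, W5_15133581376,
  W5_14077136896, W5_14076878848, W5_14076874816, W5_14060621824, W5_14060363776, W5_14060359744,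
  W5_14060101696, W5_13003657216, W5_13003399168, W5_13003395136, W5_13003137088, W5_12987142144,
  W5_12986884096, W5_12986880064, W5_12986622016, W5_11930177536, W5_11929919488, W5_11929915456,
  W5_11929657408, W5_11913404416, W5_11913142336, W5_10856439808, W5_10856435776, W5_10856177728,
  W5_10839662656, W5_9782698048]⟩

theorem F5_15151407168_chk : fwdChk 5 ks5 F5_15151407168 = true := by decide +kernel

noncomputable def F5_15151153152 : Fwd := ⟨V5_15151153152, [
  ⟨V4_9782439936, nat_lit 1, [(nat_lit 82, nat_lit 15151153152),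
  (nat_lit 62, nat_lit 16224890880)]⟩,
  ⟨V4_11929915392, nat_lit 2, [(nat_lit 103, nat_lit 15151153152),
  (nat_lit 124, nat_lit 16224890880), (nat_lit 53, nat_lit 17298628608),
  (nat_lit 82, nat_lit 18372366336)]⟩,
  ⟨V4_10839146496, nat_lit 1, [(nat_lit 46, nat_lit 15151153152),
  (nat_lit 95, nat_lit 16224632832), (nat_lit 48, nat_lit 16208117760),
  (nat_lit 106, nat_lit 17281597440)]⟩,
  ⟨V4_13003653120, nat_lit 1, [(nat_lit 84, nat_lit 15151153152),
  (nat_lit 117, nat_lit 16224890880), (nat_lit 12, nat_lit 17298628608),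
  (nat_lit 57, nat_lit 18372366336), (nat_lit 119, nat_lit 19446104064)]⟩], [
  W5_15150874624, W5_15134359552, W5_15134101504, W5_15117586432, W5_15117328384, W5_14077394944,
  W5_14077136896, W5_14060621824, W5_14060363776, W5_14043848704, W5_14043590656, W5_13003657216,
  W5_13003399168, W5_12986884096, W5_12986626048, W5_12969852928, W5_11929919488, W5_11929661440,
  W5_11913146368, W5_11912888320, W5_10856181760, W5_10855923712, W5_10839408640, W5_9782444032]⟩

theorem F5_15151153152_chk : fwdChk 5 ks5 F5_15151153152 = true := by decide +kernel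

noncomputable def F5_15150891072 : Fwd := ⟨V5_15150891072, [
  ⟨V4_12953075712, nat_lit 1, [(nat_lit 46, nat_lit 15150891072),
  (nat_lit 45, nat_lit 16224632832), (nat_lit 53, nat_lit 16207855680),
  (nat_lit 121, nat_lit 17281597440), (nat_lit 17, nat_lit 17264820288),
  (nat_lit 81, nat_lit 18338562048), (nat_lit 97, nat_lit 18321784896),
  (nat_lit 81, nat_lit 19395526656)]⟩,
  ⟨V4_10839146496, nat_lit 1, [(nat_lit 64, nat_lit 15150891072),
  (nat_lit 111, nat_lit 16224632832), (nat_lit 17, nat_lit 16207855680),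
  (nat_lit 8, nat_lit 17281597440)]⟩,
  ⟨V4_10855919616, nat_lit 1, [(nat_lit 45, nat_lit 15150891072),
  (nat_lit 55, nat_lit 16224632832), (nat_lit 16, nat_lit 16224628800),
  (nat_lit 98, nat_lit 17298370560)]⟩], [
  W5_15134101504, W5_15117328384, W5_15117324352, W5_15100555264, W5_15100551232, W5_14077136896,
  W5_14060363776, W5_14060359744, W5_14043590656, W5_14043586624, W5_14026817536, W5_13003399168,
  W5_13003395136, W5_12986626048, W5_12986622016, W5_12969852928, W5_12953075776, W5_11929661440,
  W5_11929657408, W5_11912888320, W5_11912884288, W5_10855923712, W5_10855919680, W5_10839146560,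
  W5_9782181952]⟩

theorem F5_15150891072_chk : fwdChk 5 ks5 F5_15150891072 = true := by decide +kernel

noncomputable def F5_15134638080 : Fwd := ⟨V5_15134638080, [
  ⟨V4_8692187136, nat_lit 1, [(nat_lit 81, nat_lit 15134638080)]⟩,
  ⟨V4_12987138048, nat_lit 3, [(nat_lit 29, nat_lit 15134638080),
  (nat_lit 54, nat_lit 16208375808), (nat_lit 113, nat_lit 17282113536),
  (nat_lit 124, nat_lit 18355851264), (nat_lit 94, nat_lit 19429588992)]⟩,
  ⟨V4_10839662592, nat_lit 2, [(nat_lit 22, nat_lit 15134638080),
  (nat_lit 8, nat_lit 16208375808), (nat_lit 82, nat_lit 17282113536)]⟩], [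
  W5_15134359552, W5_15134101504, W5_14060879872, W5_14060621824, W5_14060363776, W5_12987142144,
  W5_12986884096, W5_12986626048, W5_11913404416, W5_11913146368, W5_11912888320, W5_10839666688,
  W5_10839408640, W5_9765928960]⟩

theorem F5_15134638080_chk : fwdChk 5 ks5 F5_15134638080 = true := by decide +kernel

noncomputable def F5_15134634048 : Fwd := ⟨V5_15134634048, [
  ⟨V4_9765924864, nat_lit 1, [(nat_lit 38, nat_lit 15134634048),
  (nat_lit 17, nat_lit 16208375808)]⟩,
  ⟨V4_10839662592, nat_lit 2, [(nat_lit 38, nat_lit 15134634048),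
  (nat_lit 104, nat_lit 16208375808), (nat_lit 65, nat_lit 16208371776),
  (nat_lit 23, nat_lit 17282113536)]⟩], [
  W5_15134101504, W5_15133843456, W5_14060621824, W5_14060363776, W5_14060359744, W5_14060105728,
  W5_14060101696, W5_12987142144, W5_12986884096, W5_12986880064, W5_12986626048, W5_12986622016,
  W5_11913404416, W5_11913146368, W5_11913142336, W5_11912884288, W5_10839666688, W5_10839662656,
  W5_10839404608, W5_9765924928]⟩

theorem F5_15134634048_chk : fwdChk 5 ks5 F5_15134634048 = true := by decide +kernel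

noncomputable def F5_15134630016 : Fwd := ⟨V5_15134630016, [
  ⟨V4_10839662592, nat_lit 2, [(nat_lit 64, nat_lit 15134630016),
  (nat_lit 74, nat_lit 16208371776), (nat_lit 65, nat_lit 17282113536)]⟩,
  ⟨V4_11913142272, nat_lit 1, [(nat_lit 69, nat_lit 15134630016),
  (nat_lit 54, nat_lit 16208371776), (nat_lit 80, nat_lit 16208109696),
  (nat_lit 109, nat_lit 17282113536), (nat_lit 36, nat_lit 17281851456),
  (nat_lit 83, nat_lit 18355593216)]⟩], [
  W5_15133843456, W5_15133581376, W5_14060363776, W5_14060101696, W5_14059839616, W5_12986884096,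
  W5_12986622016, W5_11913404416, W5_11913142336, W5_11912880256, W5_10839662656, W5_10839400576,
  W5_9765920896]⟩

theorem F5_15134630016_chk : fwdChk 5 ks5 F5_15134630016 = true := by decide +kernel

noncomputable def F5_15134376000 : Fwd := ⟨V5_15134376000, [
  ⟨V4_10839146496, nat_lit 1, [(nat_lit 120, nat_lit 15134376000),
  (nat_lit 83, nat_lit 16208117760), (nat_lit 3, nat_lit 16207855680),
  (nat_lit 107, nat_lit 17281597440)]⟩,
  ⟨V4_11913142272, nat_lit 1, [(nat_lit 44, nat_lit 15134376000),
  (nat_lit 124, nat_lit 16208117760), (nat_lit 121, nat_lit 16208113728),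
  (nat_lit 42, nat_lit 17281855488), (nat_lit 113, nat_lit 17281851456),
  (nat_lit 15, nat_lit 18355593216)]⟩], [
  W5_15134101504, W5_15117586432, W5_15117328384, W5_15117324352, W5_14060621824, W5_14060363776,
  W5_14060359744, W5_14043848704, W5_14043844672, W5_14043590656, W5_14043586624, W5_12986884096,
  W5_12986880064, W5_12986626048, W5_12986622016, W5_12970106944, W5_12969852928, W5_11913146368,
  W5_11913142336, W5_11912888320, W5_11912884288, W5_11896369216, W5_10839408640, W5_10839404608,
  W5_10839146560, W5_9765666880]⟩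

theorem F5_15134376000_chk : fwdChk 5 ks5 F5_15134376000 = true := by decide +kernel

noncomputable def F5_15100559616 : Fwd := ⟨V5_15100559616, [
  ⟨V4_12953075712, nat_lit 1, [(nat_lit 67, nat_lit 15100559616),
  (nat_lit 65, nat_lit 16174301376), (nat_lit 20, nat_lit 17248043136),
  (nat_lit 121, nat_lit 18321784896), (nat_lit 33, nat_lit 19395526656)]⟩], [
  W5_14026817536, W5_12953075776, W5_11879334016, W5_9731850496]⟩

theorem F5_15100559616_chk : fwdChk 5 ks5 F5_15100559616 = true := by decide +kernel

noncomputable def F5_14177796096 : Fwd := ⟨V5_14177796096, [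
  ⟨V4_14077132800, nat_lit 3, [(nat_lit 58, nat_lit 14177796096),
  (nat_lit 80, nat_lit 15234760704), (nat_lit 36, nat_lit 16291725312),
  (nat_lit 91, nat_lit 17348689920), (nat_lit 47, nat_lit 18405654528),
  (nat_lit 69, nat_lit 19462619136), (nat_lit 99, nat_lit 20519583744)]⟩], [
  W5_14159970304, W5_14143455232, W5_14126940160, W5_14110425088, W5_14093910016]⟩

theorem F5_14177796096_chk : fwdChk 5 ks5 F5_14177796096 = true := by decide +kernel

noncomputable def F5_14177538048 : Fwd := ⟨V5_14177538048, [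
  ⟨V4_14076874752, nat_lit 2, [(nat_lit 66, nat_lit 14177538048),
  (nat_lit 56, nat_lit 15234502656), (nat_lit 76, nat_lit 16291467264),
  (nat_lit 51, nat_lit 17348431872), (nat_lit 71, nat_lit 18405396480),
  (nat_lit 61, nat_lit 19462361088), (nat_lit 82, nat_lit 20519325696)]⟩,
  ⟨V4_14109904896, nat_lit 1, [(nat_lit 32, nat_lit 14177538048),
  (nat_lit 45, nat_lit 15251017728), (nat_lit 86, nat_lit 15234502656),
  (nat_lit 104, nat_lit 16324497408), (nat_lit 115, nat_lit 16307982336),
  (nat_lit 100, nat_lit 16291467264), (nat_lit 106, nat_lit 17381462016),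
  (nat_lit 3, nat_lit 17364946944), (nat_lit 80, nat_lit 17348431872),
  (nat_lit 68, nat_lit 18438426624), (nat_lit 118, nat_lit 18421911552),
  (nat_lit 107, nat_lit 18405396480), (nat_lit 21, nat_lit 19495391232),
  (nat_lit 93, nat_lit 19478876160), (nat_lit 20, nat_lit 20552355840)]⟩], [
  W5_14143455232, W5_14126940160, W5_14126682112, W5_14110425088, W5_14110167040, W5_14093651968]⟩

theorem F5_14177538048_chk : fwdChk 5 ks5 F5_14177538048 = true := by decide +kernel

noncomputable def F5_14177275968 : Fwd := ⟨V5_14177275968, [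
  ⟨V4_14109904896, nat_lit 1, [(nat_lit 50, nat_lit 14177275968),
  (nat_lit 60, nat_lit 15251017728), (nat_lit 120, nat_lit 15250755648),
  (nat_lit 82, nat_lit 15234240576), (nat_lit 35, nat_lit 16324497408),
  (nat_lit 24, nat_lit 16307982336), (nat_lit 44, nat_lit 16307720256),
  (nat_lit 46, nat_lit 16291205184), (nat_lit 126, nat_lit 17381462016),
  (nat_lit 2, nat_lit 17364946944), (nat_lit 57, nat_lit 17364684864),
  (nat_lit 47, nat_lit 17348169792), (nat_lit 9, nat_lit 18438426624),
  (nat_lit 93, nat_lit 18421911552), (nat_lit 18, nat_lit 18421649472),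
  (nat_lit 71, nat_lit 18405134400), (nat_lit 111, nat_lit 19495391232),
  (nat_lit 116, nat_lit 19478876160), (nat_lit 48, nat_lit 19478614080),
  (nat_lit 124, nat_lit 20552355840)]⟩], [
  W5_14126682112, W5_14110167040, W5_14093389888]⟩

theorem F5_14177275968_chk : fwdChk 5 ks5 F5_14177275968 = true := by decide +kernel

noncomputable def F5_14161281024 : Fwd := ⟨V5_14161281024, [
  ⟨V4_13086228480, nat_lit 2, [(nat_lit 107, nat_lit 14161281024),
  (nat_lit 1, nat_lit 15234760704), (nat_lit 83, nat_lit 16308240384),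
  (nat_lit 47, nat_lit 17381720064), (nat_lit 125, nat_lit 18455199744),
  (nat_lit 63, nat_lit 19528679424)]⟩,
  ⟨V4_14060617728, nat_lit 2, [(nat_lit 73, nat_lit 14161281024),
  (nat_lit 89, nat_lit 15218245632), (nat_lit 103, nat_lit 16275210240),
  (nat_lit 51, nat_lit 17332174848), (nat_lit 111, nat_lit 18389139456),
  (nat_lit 20, nat_lit 19446104064), (nat_lit 50, nat_lit 20503068672)]⟩,
  ⟨V4_13003653120, nat_lit 1, [(nat_lit 65, nat_lit 14161281024),
  (nat_lit 61, nat_lit 15218245632), (nat_lit 66, nat_lit 16275210240),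
  (nat_lit 62, nat_lit 17332174848), (nat_lit 64, nat_lit 18389139456),
  (nat_lit 9, nat_lit 19446104064)]⟩], [
  W5_14159970304, W5_14143455232, W5_14126940160, W5_14110425088, W5_14093910016, W5_14077394944,
  W5_13086490624, W5_13069975552, W5_13053460480, W5_13036945408, W5_13020430336]⟩

theorem F5_14161281024_chk : fwdChk 5 ks5 F5_14161281024 = true := by decide +kernel

noncomputable def F5_14161022976 : Fwd := ⟨V5_14161022976, [
  ⟨V4_13020168192, nat_lit 4, [(nat_lit 107, nat_lit 14161022976),
  (nat_lit 17, nat_lit 15234760704), (nat_lit 45, nat_lit 15217987584),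
  (nat_lit 46, nat_lit 16291725312), (nat_lit 19, nat_lit 16274952192),
  (nat_lit 124, nat_lit 17348689920), (nat_lit 91, nat_lit 17331916800),
  (nat_lit 108, nat_lit 18405654528), (nat_lit 32, nat_lit 18388881408),
  (nat_lit 107, nat_lit 19462619136)]⟩,
  ⟨V4_14060359680, nat_lit 2, [(nat_lit 111, nat_lit 14161022976),
  (nat_lit 64, nat_lit 15217987584), (nat_lit 7, nat_lit 16274952192),
  (nat_lit 1, nat_lit 17331916800), (nat_lit 47, nat_lit 18388881408),
  (nat_lit 100, nat_lit 19445846016), (nat_lit 123, nat_lit 20502810624)]⟩], [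
  W5_14143455232, W5_14126940160, W5_14126682112, W5_14110425088, W5_14110167040, W5_14093910016,
  W5_14093651968, W5_14077136896, W5_13086490624, W5_13069975552, W5_13053460480, W5_13053202432,
  W5_13036945408, W5_13036687360, W5_13020172288]⟩

theorem F5_14161022976_chk : fwdChk 5 ks5 F5_14161022976 = true := by decide +kernel

noncomputable def F5_14160764928 : Fwd := ⟨V5_14160764928, [
  ⟨V4_13053198336, nat_lit 3, [(nat_lit 41, nat_lit 14160764928),
  (nat_lit 48, nat_lit 15234502656), (nat_lit 50, nat_lit 15234244608),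
  (nat_lit 51, nat_lit 15217729536), (nat_lit 37, nat_lit 16308240384),
  (nat_lit 13, nat_lit 16307982336), (nat_lit 113, nat_lit 16291467264),
  (nat_lit 54, nat_lit 16291209216), (nat_lit 66, nat_lit 16274694144),
  (nat_lit 46, nat_lit 17381720064), (nat_lit 78, nat_lit 17365204992),
  (nat_lit 40, nat_lit 17364946944), (nat_lit 104, nat_lit 17348431872),
  (nat_lit 104, nat_lit 17348173824), (nat_lit 94, nat_lit 18438684672),
  (nat_lit 101, nat_lit 18422169600), (nat_lit 62, nat_lit 18421911552),
  (nat_lit 54, nat_lit 19495649280)]⟩,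
  ⟨V4_14060101632, nat_lit 1, [(nat_lit 74, nat_lit 14160764928),
  (nat_lit 85, nat_lit 15217729536), (nat_lit 47, nat_lit 16274694144),
  (nat_lit 43, nat_lit 17331658752), (nat_lit 116, nat_lit 18388623360),
  (nat_lit 109, nat_lit 19445587968), (nat_lit 82, nat_lit 20502552576)]⟩], [
  W5_14126940160, W5_14110425088, W5_14110167040, W5_14093651968, W5_14093393920, W5_14076878848,
  W5_13069975552, W5_13053460480, W5_13053202432, W5_13036687360, W5_13036429312, W5_13019914240]⟩

theorem F5_14160764928_chk : fwdChk 5 ks5 F5_14160764928 = true := by decide +kernel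

noncomputable def F5_14160760896 : Fwd := ⟨V5_14160760896, [
  ⟨V4_14109904896, nat_lit 1, [(nat_lit 88, nat_lit 14160760896),
  (nat_lit 103, nat_lit 15234502656), (nat_lit 63, nat_lit 15234240576),
  (nat_lit 64, nat_lit 15217725504), (nat_lit 14, nat_lit 16307982336),
  (nat_lit 64, nat_lit 16307720256), (nat_lit 21, nat_lit 16291467264),
  (nat_lit 125, nat_lit 16291205184), (nat_lit 28, nat_lit 16274690112),
  (nat_lit 16, nat_lit 17381462016), (nat_lit 12, nat_lit 17364946944),
  (nat_lit 38, nat_lit 17364684864), (nat_lit 40, nat_lit 17348431872),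
  (nat_lit 39, nat_lit 17348169792), (nat_lit 4, nat_lit 17331654720),
  (nat_lit 61, nat_lit 18438426624), (nat_lit 5, nat_lit 18421911552),
  (nat_lit 52, nat_lit 18421649472), (nat_lit 124, nat_lit 18405396480),
  (nat_lit 67, nat_lit 18405134400), (nat_lit 71, nat_lit 19495391232),
  (nat_lit 48, nat_lit 19478876160), (nat_lit 46, nat_lit 19478614080),
  (nat_lit 111, nat_lit 20552355840)]⟩], [
  W5_14126682112, W5_14110167040, W5_14093651968, W5_14093389888, W5_14076874816, W5_13053202432,
  W5_13036687360, W5_13036425280, W5_13019910208]⟩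

theorem F5_14160760896_chk : fwdChk 5 ks5 F5_14160760896 = true := by decide +kernel

noncomputable def F5_14160502848 : Fwd := ⟨V5_14160502848, [
  ⟨V4_13019652096, nat_lit 1, [(nat_lit 101, nat_lit 14160502848),
  (nat_lit 42, nat_lit 15234244608), (nat_lit 19, nat_lit 15217467456),
  (nat_lit 96, nat_lit 16291209216), (nat_lit 97, nat_lit 16274432064),
  (nat_lit 49, nat_lit 17348173824), (nat_lit 13, nat_lit 17331396672),
  (nat_lit 101, nat_lit 18405138432), (nat_lit 90, nat_lit 18388361280),
  (nat_lit 9, nat_lit 19462103040)]⟩], [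
  W5_14110167040, W5_14093393920, W5_14093389888, W5_13053202432, W5_13036429312, W5_13036425280,
  W5_13019652160]⟩

theorem F5_14160502848_chk : fwdChk 5 ks5 F5_14160502848 = true := by decide +kernel

noncomputable def F5_14144765952 : Fwd := ⟨V5_14144765952, [
  ⟨V4_12987138048, nat_lit 3, [(nat_lit 27, nat_lit 14144765952),
  (nat_lit 123, nat_lit 15201730560), (nat_lit 81, nat_lit 16258695168),
  (nat_lit 73, nat_lit 17315659776), (nat_lit 110, nat_lit 18372624384),
  (nat_lit 47, nat_lit 19429588992)]⟩,
  ⟨V4_13053198336, nat_lit 3, [(nat_lit 109, nat_lit 14144765952),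
  (nat_lit 48, nat_lit 15218245632), (nat_lit 15, nat_lit 15201730560),
  (nat_lit 93, nat_lit 16291725312), (nat_lit 104, nat_lit 16275210240),
  (nat_lit 13, nat_lit 17365204992), (nat_lit 125, nat_lit 17348689920),
  (nat_lit 54, nat_lit 18438684672), (nat_lit 59, nat_lit 18422169600),
  (nat_lit 53, nat_lit 19495649280)]⟩], [
  W5_14143455232, W5_14126940160, W5_14110425088, W5_14093910016, W5_14077394944, W5_14060879872,
  W5_13069975552, W5_13053460480, W5_13036945408, W5_13020430336, W5_13003915264, W5_11979980800,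
  W5_11963465728, W5_11946950656]⟩

theorem F5_14144765952_chk : fwdChk 5 ks5 F5_14144765952 = true := by decide +kernel

noncomputable def F5_14144507904 : Fwd := ⟨V5_14144507904, [
  ⟨V4_11995975680, nat_lit 1, [(nat_lit 57, nat_lit 14144507904),
  (nat_lit 42, nat_lit 15217987584), (nat_lit 48, nat_lit 16291467264),
  (nat_lit 34, nat_lit 17364946944), (nat_lit 16, nat_lit 18438426624)]⟩,
  ⟨V4_11929915392, nat_lit 2, [(nat_lit 92, nat_lit 14144507904),
  (nat_lit 35, nat_lit 15201472512), (nat_lit 106, nat_lit 16258437120),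
  (nat_lit 7, nat_lit 17315401728), (nat_lit 126, nat_lit 18372366336)]⟩,
  ⟨V4_13053198336, nat_lit 3, [(nat_lit 45, nat_lit 14144507904),
  (nat_lit 57, nat_lit 15218245632), (nat_lit 114, nat_lit 15217987584),
  (nat_lit 6, nat_lit 15201472512), (nat_lit 34, nat_lit 16291725312),
  (nat_lit 35, nat_lit 16291467264), (nat_lit 43, nat_lit 16275210240),
  (nat_lit 115, nat_lit 16274952192), (nat_lit 101, nat_lit 17365204992),
  (nat_lit 24, nat_lit 17364946944), (nat_lit 48, nat_lit 17348689920),
  (nat_lit 124, nat_lit 17348431872), (nat_lit 38, nat_lit 18438684672),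
  (nat_lit 89, nat_lit 18422169600), (nat_lit 44, nat_lit 18421911552),
  (nat_lit 119, nat_lit 19495649280)]⟩,
  ⟨V4_14060617728, nat_lit 2, [(nat_lit 32, nat_lit 14144507904),
  (nat_lit 46, nat_lit 15218245632), (nat_lit 124, nat_lit 15201472512),
  (nat_lit 112, nat_lit 16275210240), (nat_lit 123, nat_lit 16258437120),
  (nat_lit 1, nat_lit 17332174848), (nat_lit 46, nat_lit 17315401728),
  (nat_lit 32, nat_lit 18389139456), (nat_lit 93, nat_lit 18372366336),
  (nat_lit 39, nat_lit 19446104064), (nat_lit 44, nat_lit 19429330944),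
  (nat_lit 43, nat_lit 20503068672)]⟩,
  ⟨V4_11979460608, nat_lit 1, [(nat_lit 91, nat_lit 14144507904),
  (nat_lit 3, nat_lit 15217987584), (nat_lit 31, nat_lit 15201472512),
  (nat_lit 2, nat_lit 16291467264), (nat_lit 114, nat_lit 16274952192),
  (nat_lit 90, nat_lit 17364946944), (nat_lit 51, nat_lit 17348431872),
  (nat_lit 125, nat_lit 18421911552)]⟩], [
  W5_14143455232, W5_14126940160, W5_14126682112, W5_14110425088, W5_14110167040, W5_14093910016,
  W5_14093651968, W5_14077394944, W5_14077136896, W5_14060621824, W5_13069975552, W5_13053460480,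
  W5_13053202432, W5_13036945408, W5_13036687360, W5_13020430336, W5_13020172288, W5_13003657216,
  W5_11996237824, W5_11979980800, W5_11979722752, W5_11963465728, W5_11963207680, W5_11946692608]⟩

theorem F5_14144507904_chk : fwdChk 5 ks5 F5_14144507904 = true := by decide +kernel

end Crest.Agent.R187.SN.Fwd
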