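import Crest.Agent.R187.SN.FwdDef
import Crest.Agent.R187.SN.TD.Ks
import Crest.Agent.R187.SN.TD.W5_0
import Crest.Agent.R187.SN.TD.X4
import Crest.Agent.R187.SN.TD.X5_0

/-!
# Row 187, PLAN S, certificate E3: forward records of level `(6, 5)`, part 2

`F5_<key> : Fwd` = sources (table of level `(6, 4)`, number of rows, quadrature record) and
`W` tables of the table `V5_<key>`; each record is checked by the kernel.
-/

set_option autoImplicit false
set_option Elab.async false
set_option maxRecDepth 100000

namespace Crest.Agent.R187.SN.Fwd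

open Crest.Agent.R187.SN.Top

noncomputable def F5_14144249856 : Fwd := ⟨V5_14144249856, [
  ⟨V4_13020168192, nat_lit 4, [(nat_lit 76, nat_lit 14144249856),
  (nat_lit 92, nat_lit 15217987584), (nat_lit 50, nat_lit 15201214464),
  (nat_lit 73, nat_lit 16291725312), (nat_lit 7, nat_lit 16274952192),
  (nat_lit 91, nat_lit 16258179072), (nat_lit 21, nat_lit 17348689920),
  (nat_lit 18, nat_lit 17331916800), (nat_lit 38, nat_lit 17315143680),
  (nat_lit 10, nat_lit 18405654528), (nat_lit 103, nat_lit 18388881408),
  (nat_lit 96, nat_lit 19462619136)]⟩,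
  ⟨V4_13053198336, nat_lit 3, [(nat_lit 77, nat_lit 14144249856),
  (nat_lit 16, nat_lit 15217987584), (nat_lit 118, nat_lit 15217729536),
  (nat_lit 86, nat_lit 15201214464), (nat_lit 55, nat_lit 16291725312),
  (nat_lit 115, nat_lit 16291467264), (nat_lit 124, nat_lit 16291209216),
  (nat_lit 41, nat_lit 16274952192), (nat_lit 15, nat_lit 16274694144),
  (nat_lit 83, nat_lit 17365204992), (nat_lit 37, nat_lit 17364946944),
  (nat_lit 54, nat_lit 17348689920), (nat_lit 126, nat_lit 17348431872),
  (nat_lit 13, nat_lit 17348173824), (nat_lit 105, nat_lit 18438684672),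
  (nat_lit 94, nat_lit 18422169600), (nat_lit 44, nat_lit 18421911552),
  (nat_lit 46, nat_lit 19495649280)]⟩,
  ⟨V4_14043586560, nat_lit 1, [(nat_lit 110, nat_lit 14144249856),
  (nat_lit 13, nat_lit 15201214464), (nat_lit 101, nat_lit 16258179072),
  (nat_lit 43, nat_lit 17315143680), (nat_lit 54, nat_lit 18372108288),
  (nat_lit 70, nat_lit 19429072896), (nat_lit 79, nat_lit 20486037504)]⟩], [
  W5_14126940160, W5_14110425088, W5_14110167040, W5_14093910016, W5_14093651968, W5_14093393920,
  W5_14077136896, W5_14076878848, W5_14060363776, W5_13069975552, W5_13053460480, W5_13053202432,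
  W5_13036945408, W5_13036687360, W5_13036429312, W5_13020172288, W5_13019914240, W5_13003399168,
  W5_11996237824, W5_11979980800, W5_11979722752, W5_11979464704, W5_11963207680, W5_11962949632,
  W5_11946434560]⟩

theorem F5_14144249856_chk : fwdChk 5 ks5 F5_14144249856 = true := by decide +kernel

noncomputable def F5_14144245824 : Fwd := ⟨V5_14144245824, [
  ⟨V4_11995975680, nat_lit 1, [(nat_lit 87, nat_lit 14144245824),
  (nat_lit 58, nat_lit 15217987584), (nat_lit 108, nat_lit 15217725504),
  (nat_lit 75, nat_lit 16291467264), (nat_lit 72, nat_lit 16291205184),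
  (nat_lit 11, nat_lit 17364946944), (nat_lit 120, nat_lit 17364684864),
  (nat_lit 100, nat_lit 18438426624)]⟩,
  ⟨V4_14060359680, nat_lit 2, [(nat_lit 51, nat_lit 14144245824),
  (nat_lit 117, nat_lit 15217987584), (nat_lit 92, nat_lit 15201210432),
  (nat_lit 120, nat_lit 16274952192), (nat_lit 103, nat_lit 16258175040),
  (nat_lit 33, nat_lit 17331916800), (nat_lit 68, nat_lit 17315139648),
  (nat_lit 65, nat_lit 18388881408), (nat_lit 26, nat_lit 18372104256),
  (nat_lit 90, nat_lit 19445846016), (nat_lit 2, nat_lit 19429068864),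
  (nat_lit 18, nat_lit 20502810624)]⟩,
  ⟨V4_11979460608, nat_lit 1, [(nat_lit 6, nat_lit 14144245824),
  (nat_lit 113, nat_lit 15217987584), (nat_lit 35, nat_lit 15217725504),
  (nat_lit 103, nat_lit 15201210432), (nat_lit 19, nat_lit 16291467264),
  (nat_lit 48, nat_lit 16291205184), (nat_lit 14, nat_lit 16274952192),
  (nat_lit 13, nat_lit 16274690112), (nat_lit 59, nat_lit 17364946944),
  (nat_lit 19, nat_lit 17348431872), (nat_lit 42, nat_lit 17348169792),
  (nat_lit 1, nat_lit 18421911552)]⟩], [
  W5_14126682112, W5_14110167040, W5_14093651968, W5_14093389888, W5_14077136896, W5_14076874816,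
  W5_14060359744, W5_13053202432, W5_13036687360, W5_13036425280, W5_13020172288, W5_13019910208,
  W5_13003395136, W5_11996237824, W5_11995975744, W5_11979722752, W5_11963207680, W5_11962945600,
  W5_11946430528]⟩

theorem F5_14144245824_chk : fwdChk 5 ks5 F5_14144245824 = true := by decide +kernel

noncomputable def F5_14143991808 : Fwd := ⟨V5_14143991808, [
  ⟨V4_11979718656, nat_lit 1, [(nat_lit 96, nat_lit 14143991808),
  (nat_lit 83, nat_lit 15217729536), (nat_lit 45, nat_lit 15200956416),
  (nat_lit 32, nat_lit 16291467264), (nat_lit 85, nat_lit 16274694144),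
  (nat_lit 112, nat_lit 17365204992), (nat_lit 107, nat_lit 17348431872),
  (nat_lit 5, nat_lit 18422169600)]⟩,
  ⟨V4_13036683264, nat_lit 2, [(nat_lit 28, nat_lit 14143991808),
  (nat_lit 44, nat_lit 15217729536), (nat_lit 116, nat_lit 15200956416),
  (nat_lit 45, nat_lit 16291467264), (nat_lit 41, nat_lit 16274694144),
  (nat_lit 106, nat_lit 16257921024), (nat_lit 124, nat_lit 17365204992),
  (nat_lit 78, nat_lit 17348431872), (nat_lit 125, nat_lit 17331658752),
  (nat_lit 4, nat_lit 18422169600), (nat_lit 72, nat_lit 18405396480),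
  (nat_lit 119, nat_lit 19479134208)]⟩], [
  W5_14110425088, W5_14093651968, W5_14076878848, W5_14060105728, W5_13053460480, W5_13036687360,
  W5_13019914240, W5_13003141120, W5_11979722752, W5_11962949632, W5_11946176512]⟩

theorem F5_14143991808_chk : fwdChk 5 ks5 F5_14143991808 = true := by decide +kernel

noncomputable def F5_14143987776 : Fwd := ⟨V5_14143987776, [
  ⟨V4_11962945536, nat_lit 2, [(nat_lit 119, nat_lit 14143987776),
  (nat_lit 66, nat_lit 15217729536), (nat_lit 121, nat_lit 15217725504),
  (nat_lit 42, nat_lit 15200952384), (nat_lit 66, nat_lit 16291467264),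
  (nat_lit 88, nat_lit 16274694144), (nat_lit 27, nat_lit 16274690112),
  (nat_lit 70, nat_lit 16257916992), (nat_lit 21, nat_lit 17348431872),
  (nat_lit 50, nat_lit 17331658752), (nat_lit 57, nat_lit 17331654720),
  (nat_lit 18, nat_lit 18405396480)]⟩,
  ⟨V4_11979460608, nat_lit 1, [(nat_lit 11, nat_lit 14143987776),
  (nat_lit 21, nat_lit 15217729536), (nat_lit 121, nat_lit 15217725504),
  (nat_lit 38, nat_lit 15217467456), (nat_lit 42, nat_lit 15200952384),
  (nat_lit 54, nat_lit 16291467264), (nat_lit 82, nat_lit 16291209216),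
  (nat_lit 7, nat_lit 16291205184), (nat_lit 72, nat_lit 16274694144),
  (nat_lit 15, nat_lit 16274690112), (nat_lit 114, nat_lit 16274432064),
  (nat_lit 9, nat_lit 17364946944), (nat_lit 125, nat_lit 17348431872),
  (nat_lit 125, nat_lit 17348173824), (nat_lit 18, nat_lit 17348169792),
  (nat_lit 33, nat_lit 18421911552)]⟩], [
  W5_14110167040, W5_14093651968, W5_14093393920, W5_14093389888, W5_14076878848, W5_14076874816,
  W5_14060101696, W5_13053202432, W5_13036687360, W5_13036429312, W5_13036425280, W5_13019914240,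
  W5_13019910208, W5_13019652160, W5_13003137088, W5_11996237824, W5_11979722752, W5_11979464704,
  W5_11962949632, W5_11962945600, W5_11962687552, W5_11946172480]⟩

theorem F5_14143987776_chk : fwdChk 5 ks5 F5_14143987776 = true := by decide +kernel

noncomputable def F5_14128250880 : Fwd := ⟨V5_14128250880, [
  ⟨V4_10906238976, nat_lit 2, [(nat_lit 10, nat_lit 14128250880),
  (nat_lit 68, nat_lit 15201730560), (nat_lit 10, nat_lit 16275210240),
  (nat_lit 71, nat_lit 17348689920)]⟩,
  ⟨V4_13053198336, nat_lit 3, [(nat_lit 44, nat_lit 14128250880),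
  (nat_lit 97, nat_lit 15201730560), (nat_lit 48, nat_lit 16275210240),
  (nat_lit 30, nat_lit 17348689920), (nat_lit 51, nat_lit 18422169600),
  (nat_lit 7, nat_lit 19495649280)]⟩,
  ⟨V4_14126678016, nat_lit 1, [(nat_lit 78, nat_lit 14128250880),
  (nat_lit 92, nat_lit 15201730560), (nat_lit 47, nat_lit 16275210240),
  (nat_lit 20, nat_lit 17348689920), (nat_lit 18, nat_lit 18422169600),
  (nat_lit 93, nat_lit 19495649280), (nat_lit 99, nat_lit 20569128960)]⟩], [
  W5_14126940160, W5_14110425088, W5_14093910016, W5_14077394944, W5_13053460480, W5_13036945408,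
  W5_13020430336, W5_13003915264, W5_11979980800, W5_11963465728, W5_11946950656, W5_10906501120,
  W5_10889986048, W5_10873470976]⟩

theorem F5_14128250880_chk : fwdChk 5 ks5 F5_14128250880 = true := by decide +kernel

noncomputable def F5_14127992832 : Fwd := ⟨V5_14127992832, [
  ⟨V4_12987138048, nat_lit 3, [(nat_lit 99, nat_lit 14127992832),
  (nat_lit 56, nat_lit 15201730560), (nat_lit 71, nat_lit 15184957440),
  (nat_lit 96, nat_lit 16258695168), (nat_lit 87, nat_lit 16241922048),
  (nat_lit 105, nat_lit 17315659776), (nat_lit 85, nat_lit 17298886656),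
  (nat_lit 39, nat_lit 18372624384), (nat_lit 118, nat_lit 18355851264),
  (nat_lit 37, nat_lit 19429588992)]⟩,
  ⟨V4_10906238976, nat_lit 2, [(nat_lit 64, nat_lit 14127992832),
  (nat_lit 95, nat_lit 15201730560), (nat_lit 12, nat_lit 15201472512),
  (nat_lit 41, nat_lit 16275210240), (nat_lit 67, nat_lit 16274952192),
  (nat_lit 14, nat_lit 17348689920)]⟩,
  ⟨V4_13053198336, nat_lit 3, [(nat_lit 85, nat_lit 14127992832),
  (nat_lit 44, nat_lit 15201730560), (nat_lit 106, nat_lit 15201472512),
  (nat_lit 19, nat_lit 16275210240), (nat_lit 24, nat_lit 16274952192),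
  (nat_lit 56, nat_lit 17348689920), (nat_lit 68, nat_lit 17348431872),
  (nat_lit 62, nat_lit 18422169600), (nat_lit 72, nat_lit 18421911552),
  (nat_lit 100, nat_lit 19495649280)]⟩,
  ⟨V4_10873208832, nat_lit 2, [(nat_lit 32, nat_lit 14127992832),
  (nat_lit 15, nat_lit 15201730560), (nat_lit 53, nat_lit 15184957440),
  (nat_lit 95, nat_lit 16258695168), (nat_lit 94, nat_lit 16241922048),
  (nat_lit 100, nat_lit 17315659776)]⟩,
  ⟨V4_14126678016, nat_lit 2, [(nat_lit 44, nat_lit 14127992832),
  (nat_lit 9, nat_lit 15201730560), (nat_lit 23, nat_lit 15201472512),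
  (nat_lit 53, nat_lit 16275210240), (nat_lit 123, nat_lit 16274952192),
  (nat_lit 122, nat_lit 17348689920), (nat_lit 121, nat_lit 17348431872),
  (nat_lit 119, nat_lit 18422169600), (nat_lit 33, nat_lit 18421911552),
  (nat_lit 113, nat_lit 19495649280), (nat_lit 28, nat_lit 19495391232),
  (nat_lit 56, nat_lit 20569128960)]⟩], [
  W5_14126940160, W5_14126682112, W5_14110425088, W5_14110167040, W5_14093910016, W5_14093651968,
  W5_14077394944, W5_14077136896, W5_14060879872, W5_14060621824, W5_13053460480, W5_13053202432,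
  W5_13036945408, W5_13036687360, W5_13020430336, W5_13020172288, W5_13003915264, W5_13003657216,
  W5_12987142144, W5_11979980800, W5_11979722752, W5_11963465728, W5_11963207680, W5_11946950656,
  W5_11946692608, W5_11930177536, W5_10906501120, W5_10906243072, W5_10889986048, W5_10889728000,
  W5_10873212928]⟩

theorem F5_14127992832_chk : fwdChk 5 ks5 F5_14127992832 = true := by decide +kernel

noncomputable def F5_14127734784 : Fwd := ⟨V5_14127734784, [
  ⟨V4_10906238976, nat_lit 2, [(nat_lit 85, nat_lit 14127734784),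
  (nat_lit 97, nat_lit 15201472512), (nat_lit 17, nat_lit 15201214464),
  (nat_lit 9, nat_lit 16275210240), (nat_lit 19, nat_lit 16274952192),
  (nat_lit 2, nat_lit 17348689920)]⟩,
  ⟨V4_10905722880, nat_lit 1, [(nat_lit 5, nat_lit 14127734784), (nat_lit 2, nat_lit 15201214464),
  (nat_lit 41, nat_lit 16274694144), (nat_lit 98, nat_lit 17348173824)]⟩,
  ⟨V4_13053198336, nat_lit 3, [(nat_lit 84, nat_lit 14127734784),
  (nat_lit 116, nat_lit 15201472512), (nat_lit 14, nat_lit 15201214464),
  (nat_lit 94, nat_lit 16275210240), (nat_lit 94, nat_lit 16274952192),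
  (nat_lit 37, nat_lit 16274694144), (nat_lit 8, nat_lit 17348689920),
  (nat_lit 123, nat_lit 17348431872), (nat_lit 41, nat_lit 17348173824),
  (nat_lit 29, nat_lit 18422169600), (nat_lit 41, nat_lit 18421911552),
  (nat_lit 122, nat_lit 19495649280)]⟩,
  ⟨V4_10889723904, nat_lit 1, [(nat_lit 17, nat_lit 14127734784),
  (nat_lit 69, nat_lit 15201472512), (nat_lit 1, nat_lit 15184699392),
  (nat_lit 14, nat_lit 16275210240), (nat_lit 41, nat_lit 16258437120),
  (nat_lit 101, nat_lit 17332174848)]⟩,
  ⟨V4_10872692736, nat_lit 2, [(nat_lit 50, nat_lit 14127734784),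
  (nat_lit 75, nat_lit 15201214464), (nat_lit 19, nat_lit 15184699392),
  (nat_lit 91, nat_lit 16258179072), (nat_lit 47, nat_lit 16241664000),
  (nat_lit 71, nat_lit 17315143680)]⟩,
  ⟨V4_14060617728, nat_lit 2, [(nat_lit 79, nat_lit 14127734784),
  (nat_lit 69, nat_lit 15201472512), (nat_lit 37, nat_lit 15184699392),
  (nat_lit 44, nat_lit 16275210240), (nat_lit 21, nat_lit 16258437120),
  (nat_lit 74, nat_lit 16241664000), (nat_lit 17, nat_lit 17332174848),
  (nat_lit 33, nat_lit 17315401728), (nat_lit 56, nat_lit 17298628608),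
  (nat_lit 29, nat_lit 18389139456), (nat_lit 78, nat_lit 18372366336),
  (nat_lit 16, nat_lit 18355593216), (nat_lit 72, nat_lit 19446104064),
  (nat_lit 118, nat_lit 19429330944), (nat_lit 106, nat_lit 20503068672)]⟩,
  ⟨V4_11979460608, nat_lit 1, [(nat_lit 9, nat_lit 14127734784),
  (nat_lit 49, nat_lit 15201472512), (nat_lit 114, nat_lit 15201214464),
  (nat_lit 123, nat_lit 16274952192), (nat_lit 13, nat_lit 16274694144),
  (nat_lit 68, nat_lit 17348431872), (nat_lit 122, nat_lit 17348173824),
  (nat_lit 27, nat_lit 18421911552)]⟩], [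
  W5_14126940160, W5_14110425088, W5_14110167040, W5_14093910016, W5_14093651968, W5_14093393920,
  W5_14077394944, W5_14077136896, W5_14076878848, W5_14060621824, W5_14060363776, W5_14043848704,
  W5_13053460480, W5_13053202432, W5_13036945408, W5_13036687360, W5_13036429312, W5_13020430336,
  W5_13020172288, W5_13019914240, W5_13003657216, W5_13003399168, W5_12986884096, W5_11979980800,
  W5_11979722752, W5_11979464704, W5_11963465728, W5_11963207680, W5_11962949632, W5_11946692608,
  W5_11946434560, W5_11929919488, W5_10906501120, W5_10906243072, W5_10905985024, W5_10889728000,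
  W5_10889469952, W5_10872954880]⟩

theorem F5_14127734784_chk : fwdChk 5 ks5 F5_14127734784 = true := by decide +kernel

noncomputable def F5_14127730752 : Fwd := ⟨V5_14127730752, [
  ⟨V4_11979460608, nat_lit 1, [(nat_lit 85, nat_lit 14127730752),
  (nat_lit 92, nat_lit 15201472512), (nat_lit 3, nat_lit 15201210432),
  (nat_lit 57, nat_lit 16274952192), (nat_lit 10, nat_lit 16274690112),
  (nat_lit 18, nat_lit 17348431872), (nat_lit 101, nat_lit 17348169792),
  (nat_lit 72, nat_lit 18421911552)]⟩,
  ⟨V4_11929915392, nat_lit 2, [(nat_lit 79, nat_lit 14127730752),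
  (nat_lit 67, nat_lit 15201472512), (nat_lit 37, nat_lit 15184695360),
  (nat_lit 67, nat_lit 16258437120), (nat_lit 26, nat_lit 16241659968),
  (nat_lit 33, nat_lit 17315401728), (nat_lit 26, nat_lit 17298624576),
  (nat_lit 118, nat_lit 18372366336)]⟩,
  ⟨V4_14109904896, nat_lit 1, [(nat_lit 68, nat_lit 14127730752),
  (nat_lit 51, nat_lit 15201472512), (nat_lit 88, nat_lit 15201210432),
  (nat_lit 57, nat_lit 15184695360), (nat_lit 57, nat_lit 16274952192),
  (nat_lit 86, nat_lit 16274690112), (nat_lit 99, nat_lit 16258437120),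
  (nat_lit 116, nat_lit 16258175040), (nat_lit 119, nat_lit 17348431872),
  (nat_lit 74, nat_lit 17348169792), (nat_lit 47, nat_lit 17331916800),
  (nat_lit 77, nat_lit 17331654720), (nat_lit 9, nat_lit 18421911552),
  (nat_lit 110, nat_lit 18421649472), (nat_lit 33, nat_lit 18405396480),
  (nat_lit 108, nat_lit 18405134400), (nat_lit 97, nat_lit 19495391232),
  (nat_lit 53, nat_lit 19478876160), (nat_lit 57, nat_lit 19478614080),
  (nat_lit 91, nat_lit 20552355840)]⟩], [
  W5_14126682112, W5_14110167040, W5_14093651968, W5_14093389888, W5_14077136896, W5_14076874816,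
  W5_14060621824, W5_14060359744, W5_14043844672, W5_13053202432, W5_13036687360, W5_13036425280,
  W5_13020172288, W5_13019910208, W5_13003657216, W5_13003395136, W5_12986880064, W5_11979722752,
  W5_11963207680, W5_11962945600, W5_11946692608, W5_11946430528, W5_11929915456, W5_10906243072,
  W5_10889728000, W5_10889465920, W5_10872950848]⟩

theorem F5_14127730752_chk : fwdChk 5 ks5 F5_14127730752 = true := by decide +kernel

noncomputable def F5_14127476736 : Fwd := ⟨V5_14127476736, [
  ⟨V4_10906238976, nat_lit 2, [(nat_lit 94, nat_lit 14127476736),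
  (nat_lit 107, nat_lit 15201214464), (nat_lit 57, nat_lit 16274952192),
  (nat_lit 81, nat_lit 17348689920)]⟩,
  ⟨V4_13020168192, nat_lit 4, [(nat_lit 10, nat_lit 14127476736),
  (nat_lit 107, nat_lit 15201214464), (nat_lit 111, nat_lit 15184441344),
  (nat_lit 107, nat_lit 16274952192), (nat_lit 7, nat_lit 16258179072),
  (nat_lit 92, nat_lit 16241405952), (nat_lit 126, nat_lit 17348689920),
  (nat_lit 102, nat_lit 17331916800), (nat_lit 72, nat_lit 17315143680),
  (nat_lit 8, nat_lit 18405654528), (nat_lit 39, nat_lit 18388881408),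
  (nat_lit 99, nat_lit 19462619136)]⟩,
  ⟨V4_10872692736, nat_lit 1, [(nat_lit 114, nat_lit 14127476736),
  (nat_lit 106, nat_lit 15201214464), (nat_lit 34, nat_lit 15184441344),
  (nat_lit 92, nat_lit 16258179072), (nat_lit 73, nat_lit 16241405952),
  (nat_lit 49, nat_lit 17315143680)]⟩,
  ⟨V4_10855919616, nat_lit 1, [(nat_lit 86, nat_lit 14127476736),
  (nat_lit 50, nat_lit 15184441344), (nat_lit 68, nat_lit 16241405952),
  (nat_lit 81, nat_lit 17298370560)]⟩], [
  W5_14110425088, W5_14093910016, W5_14093651968, W5_14077136896, W5_14076878848, W5_14060363776,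
  W5_14060105728, W5_14043590656, W5_13053460480, W5_13036945408, W5_13036687360, W5_13020172288,
  W5_13019914240, W5_13003399168, W5_13003141120, W5_12986626048, W5_11979980800, W5_11979722752,
  W5_11963207680, W5_11962949632, W5_11946434560, W5_11946176512, W5_11929661440, W5_10906243072,
  W5_10905985024, W5_10889469952, W5_10889211904, W5_10872696832]⟩

theorem F5_14127476736_chk : fwdChk 5 ks5 F5_14127476736 = true := by decide +kernel

noncomputable def F5_14127472704 : Fwd := ⟨V5_14127472704, [
  ⟨V4_10905722880, nat_lit 1, [(nat_lit 115, nat_lit 14127472704),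
  (nat_lit 7, nat_lit 15201214464), (nat_lit 70, nat_lit 15200952384),
  (nat_lit 73, nat_lit 16274694144), (nat_lit 21, nat_lit 16274432064),
  (nat_lit 64, nat_lit 17348173824)]⟩,
  ⟨V4_10872692736, nat_lit 2, [(nat_lit 57, nat_lit 14127472704),
  (nat_lit 72, nat_lit 15201214464), (nat_lit 115, nat_lit 15184437312),
  (nat_lit 24, nat_lit 16258179072), (nat_lit 83, nat_lit 16241401920),
  (nat_lit 21, nat_lit 17315143680)]⟩,
  ⟨V4_12986621952, nat_lit 2, [(nat_lit 99, nat_lit 14127472704),
  (nat_lit 9, nat_lit 15201214464), (nat_lit 22, nat_lit 15184437312),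
  (nat_lit 18, nat_lit 16258179072), (nat_lit 103, nat_lit 16241401920),
  (nat_lit 31, nat_lit 17315143680), (nat_lit 67, nat_lit 17298366528),
  (nat_lit 77, nat_lit 18372108288), (nat_lit 76, nat_lit 18355331136),
  (nat_lit 80, nat_lit 19429072896)]⟩,
  ⟨V4_11979460608, nat_lit 1, [(nat_lit 36, nat_lit 14127472704),
  (nat_lit 18, nat_lit 15201214464), (nat_lit 11, nat_lit 15201210432),
  (nat_lit 66, nat_lit 15200952384), (nat_lit 92, nat_lit 16274952192),
  (nat_lit 82, nat_lit 16274694144), (nat_lit 110, nat_lit 16274690112),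
  (nat_lit 33, nat_lit 16274432064), (nat_lit 27, nat_lit 17348431872),
  (nat_lit 103, nat_lit 17348173824), (nat_lit 31, nat_lit 17348169792),
  (nat_lit 70, nat_lit 18421911552)]⟩], [
  W5_14110167040, W5_14093651968, W5_14093393920, W5_14093389888, W5_14077136896, W5_14076878848,
  W5_14076874816, W5_14060363776, W5_14060359744, W5_14060101696, W5_14043586624, W5_13053202432,
  W5_13036687360, W5_13036429312, W5_13036425280, W5_13020172288, W5_13019914240, W5_13019910208,
  W5_13019652160, W5_13003399168, W5_13003395136, W5_13003137088, W5_12986622016, W5_11979722752,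
  W5_11979464704, W5_11963207680, W5_11962949632, W5_11962945600, W5_11962687552, W5_11946434560,
  W5_11946430528, W5_11946172480, W5_11929657408, W5_10906243072, W5_10905985024, W5_10905722944,
  W5_10889469952, W5_10889465920, W5_10889207872, W5_10872692800]⟩

theorem F5_14127472704_chk : fwdChk 5 ks5 F5_14127472704 = true := by decide +kernel

noncomputable def F5_14127210624 : Fwd := ⟨V5_14127210624, [
  ⟨V4_10905722880, nat_lit 1, [(nat_lit 30, nat_lit 14127210624),
  (nat_lit 97, nat_lit 15200952384), (nat_lit 24, nat_lit 15200690304),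
  (nat_lit 3, nat_lit 16274694144), (nat_lit 100, nat_lit 16274432064),
  (nat_lit 74, nat_lit 17348173824)]⟩], [
  W5_14093393920, W5_14076878848, W5_14060101696, W5_14059839616, W5_13036429312, W5_13019914240,
  W5_13019652160, W5_13003137088, W5_13002875008, W5_11979464704, W5_11962949632, W5_11962687552,
  W5_11946172480, W5_11945910400, W5_10905985024, W5_10905722944, W5_10889207872, W5_10872430720]⟩

theorem F5_14127210624_chk : fwdChk 5 ks5 F5_14127210624 = true := by decide +kernel

noncomputable def F5_14111735808 : Fwd := ⟨V5_14111735808, [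
  ⟨V4_10873208832, nat_lit 2, [(nat_lit 34, nat_lit 14111735808),
  (nat_lit 110, nat_lit 15185215488), (nat_lit 62, nat_lit 15168700416),
  (nat_lit 69, nat_lit 16258695168), (nat_lit 1, nat_lit 16242180096),
  (nat_lit 58, nat_lit 17315659776)]⟩,
  ⟨V4_10889723904, nat_lit 1, [(nat_lit 106, nat_lit 14111735808),
  (nat_lit 95, nat_lit 15185215488), (nat_lit 46, nat_lit 16258695168),
  (nat_lit 67, nat_lit 17332174848)]⟩], [
  W5_14110425088, W5_14093910016, W5_13036945408, W5_13020430336, W5_11963465728, W5_11946950656,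
  W5_10889986048, W5_10873470976, W5_9799991296]⟩

theorem F5_14111735808_chk : fwdChk 5 ks5 F5_14111735808 = true := by decide +kernel

noncomputable def F5_14111477760 : Fwd := ⟨V5_14111477760, [
  ⟨V4_14109904896, nat_lit 1, [(nat_lit 95, nat_lit 14111477760),
  (nat_lit 86, nat_lit 15184957440), (nat_lit 124, nat_lit 16258437120),
  (nat_lit 96, nat_lit 17331916800), (nat_lit 61, nat_lit 18405396480),
  (nat_lit 40, nat_lit 19478876160), (nat_lit 18, nat_lit 20552355840)]⟩,
  ⟨V4_10873208832, nat_lit 2, [(nat_lit 87, nat_lit 14111477760),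
  (nat_lit 5, nat_lit 15185215488), (nat_lit 68, nat_lit 15184957440),
  (nat_lit 76, nat_lit 15168442368), (nat_lit 117, nat_lit 16258695168),
  (nat_lit 43, nat_lit 16242180096), (nat_lit 115, nat_lit 16241922048),
  (nat_lit 62, nat_lit 17315659776)]⟩,
  ⟨V4_9799471104, nat_lit 1, [(nat_lit 26, nat_lit 14111477760),
  (nat_lit 124, nat_lit 15184957440), (nat_lit 93, nat_lit 15168442368),
  (nat_lit 96, nat_lit 16241922048)]⟩,
  ⟨V4_11962945536, nat_lit 2, [(nat_lit 58, nat_lit 14111477760),
  (nat_lit 57, nat_lit 15184957440), (nat_lit 10, nat_lit 16258437120),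
  (nat_lit 126, nat_lit 17331916800), (nat_lit 24, nat_lit 18405396480)]⟩,
  ⟨V4_14110162944, nat_lit 2, [(nat_lit 37, nat_lit 14111477760),
  (nat_lit 74, nat_lit 15185215488), (nat_lit 58, nat_lit 15184957440),
  (nat_lit 2, nat_lit 16258695168), (nat_lit 56, nat_lit 16258437120),
  (nat_lit 16, nat_lit 17332174848), (nat_lit 89, nat_lit 17331916800),
  (nat_lit 28, nat_lit 18405654528), (nat_lit 35, nat_lit 18405396480),
  (nat_lit 124, nat_lit 19479134208), (nat_lit 50, nat_lit 19478876160),
  (nat_lit 36, nat_lit 20552613888)]⟩], [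
  W5_14110425088, W5_14110167040, W5_14093910016, W5_14093651968, W5_14077394944, W5_14077136896,
  W5_13036945408, W5_13036687360, W5_13020430336, W5_13020172288, W5_13003915264, W5_13003657216,
  W5_11963465728, W5_11963207680, W5_11946950656, W5_11946692608, W5_11930177536, W5_10889986048,
  W5_10889728000, W5_10873470976, W5_10873212928, W5_10856697856, W5_9816248320, W5_9799733248]⟩

theorem F5_14111477760_chk : fwdChk 5 ks5 F5_14111477760 = true := by decide +kernel

noncomputable def F5_14111219712 : Fwd := ⟨V5_14111219712, [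
  ⟨V4_10839662592, nat_lit 2, [(nat_lit 13, nat_lit 14111219712),
  (nat_lit 114, nat_lit 15168184320), (nat_lit 60, nat_lit 16225148928),
  (nat_lit 117, nat_lit 17282113536)]⟩,
  ⟨V4_12987138048, nat_lit 3, [(nat_lit 91, nat_lit 14111219712),
  (nat_lit 67, nat_lit 15184957440), (nat_lit 88, nat_lit 15168184320),
  (nat_lit 66, nat_lit 16258695168), (nat_lit 85, nat_lit 16241922048),
  (nat_lit 121, nat_lit 16225148928), (nat_lit 89, nat_lit 17315659776),
  (nat_lit 26, nat_lit 17298886656), (nat_lit 11, nat_lit 17282113536),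
  (nat_lit 66, nat_lit 18372624384), (nat_lit 51, nat_lit 18355851264),
  (nat_lit 105, nat_lit 19429588992)]⟩,
  ⟨V4_10873208832, nat_lit 2, [(nat_lit 77, nat_lit 14111219712),
  (nat_lit 84, nat_lit 15184957440), (nat_lit 58, nat_lit 15168184320),
  (nat_lit 105, nat_lit 16258695168), (nat_lit 86, nat_lit 16241922048),
  (nat_lit 115, nat_lit 17315659776)]⟩,
  ⟨V4_9799471104, nat_lit 1, [(nat_lit 31, nat_lit 14111219712),
  (nat_lit 71, nat_lit 15184957440), (nat_lit 46, nat_lit 15168184320),
  (nat_lit 74, nat_lit 16241922048)]⟩,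
  ⟨V4_13019652096, nat_lit 2, [(nat_lit 20, nat_lit 14111219712),
  (nat_lit 79, nat_lit 15184699392), (nat_lit 58, nat_lit 15168184320),
  (nat_lit 91, nat_lit 16258179072), (nat_lit 9, nat_lit 16241664000),
  (nat_lit 59, nat_lit 17331658752), (nat_lit 11, nat_lit 17315143680),
  (nat_lit 117, nat_lit 18405138432), (nat_lit 25, nat_lit 18388623360),
  (nat_lit 72, nat_lit 19462103040)]⟩,
  ⟨V4_14110162944, nat_lit 2, [(nat_lit 21, nat_lit 14111219712),
  (nat_lit 109, nat_lit 15184957440), (nat_lit 11, nat_lit 15184699392),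
  (nat_lit 106, nat_lit 16258695168), (nat_lit 31, nat_lit 16258437120),
  (nat_lit 41, nat_lit 16258179072), (nat_lit 88, nat_lit 17332174848),
  (nat_lit 94, nat_lit 17331916800), (nat_lit 97, nat_lit 17331658752),
  (nat_lit 54, nat_lit 18405654528), (nat_lit 14, nat_lit 18405396480),
  (nat_lit 92, nat_lit 18405138432), (nat_lit 61, nat_lit 19479134208),
  (nat_lit 50, nat_lit 19478876160), (nat_lit 75, nat_lit 20552613888)]⟩,
  ⟨V4_9799213056, nat_lit 1, [(nat_lit 49, nat_lit 14111219712),
  (nat_lit 61, nat_lit 15184699392), (nat_lit 48, nat_lit 15168184320),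
  (nat_lit 57, nat_lit 16241664000)]⟩], [
  W5_14110425088, W5_14110167040, W5_14093910016, W5_14093651968, W5_14093393920, W5_14077394944,
  W5_14077136896, W5_14076878848, W5_14060879872, W5_14060621824, W5_14060363776, W5_13036945408,
  W5_13036687360, W5_13036429312, W5_13020430336, W5_13020172288, W5_13019914240, W5_13003915264,
  W5_13003657216, W5_13003399168, W5_12987142144, W5_12986884096, W5_11963465728, W5_11963207680,
  W5_11962949632, W5_11946950656, W5_11946692608, W5_11946434560, W5_11930177536, W5_11929919488,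
  W5_11913404416, W5_10889986048, W5_10889728000, W5_10889469952, W5_10873212928, W5_10872954880,
  W5_10856439808, W5_9816248320, W5_9815990272, W5_9799475200]⟩

theorem F5_14111219712_chk : fwdChk 5 ks5 F5_14111219712 = true := by decide +kernel

noncomputable def F5_14111215680 : Fwd := ⟨V5_14111215680, [
  ⟨V4_14109904896, nat_lit 1, [(nat_lit 48, nat_lit 14111215680),
  (nat_lit 65, nat_lit 15184957440), (nat_lit 116, nat_lit 15184695360),
  (nat_lit 8, nat_lit 16258437120), (nat_lit 108, nat_lit 16258175040),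
  (nat_lit 98, nat_lit 17331916800), (nat_lit 59, nat_lit 17331654720),
  (nat_lit 20, nat_lit 18405396480), (nat_lit 49, nat_lit 18405134400),
  (nat_lit 17, nat_lit 19478876160), (nat_lit 81, nat_lit 19478614080),
  (nat_lit 76, nat_lit 20552355840)]⟩,
  ⟨V4_9799471104, nat_lit 1, [(nat_lit 89, nat_lit 14111215680),
  (nat_lit 76, nat_lit 15184957440), (nat_lit 30, nat_lit 15168180288),
  (nat_lit 3, nat_lit 16241922048)]⟩,
  ⟨V4_11962945536, nat_lit 2, [(nat_lit 84, nat_lit 14111215680),
  (nat_lit 80, nat_lit 15184957440), (nat_lit 27, nat_lit 15184695360),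
  (nat_lit 58, nat_lit 16258437120), (nat_lit 81, nat_lit 16258175040),
  (nat_lit 81, nat_lit 17331916800), (nat_lit 90, nat_lit 17331654720),
  (nat_lit 62, nat_lit 18405396480)]⟩,
  ⟨V4_10856435712, nat_lit 1, [(nat_lit 5, nat_lit 14111215680),
  (nat_lit 22, nat_lit 15184957440), (nat_lit 31, nat_lit 15168180288),
  (nat_lit 77, nat_lit 16241922048), (nat_lit 19, nat_lit 16225144896),
  (nat_lit 24, nat_lit 17298886656)]⟩], [
  W5_14110167040, W5_14093651968, W5_14093389888, W5_14077136896, W5_14076874816, W5_14060621824,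
  W5_14060359744, W5_13036687360, W5_13036425280, W5_13020172288, W5_13019910208, W5_13003657216,
  W5_13003395136, W5_12987142144, W5_12986880064, W5_11963207680, W5_11962945600, W5_11946692608,
  W5_11946430528, W5_11930177536, W5_11929915456, W5_10889728000, W5_10889465920, W5_10873212928,
  W5_10872950848, W5_10856435776, W5_9816248320, W5_9815986240, W5_9799471168]⟩

theorem F5_14111215680_chk : fwdChk 5 ks5 F5_14111215680 = true := by decide +kernel

noncomputable def F5_14110961664 : Fwd := ⟨V5_14110961664, [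
  ⟨V4_9815470080, nat_lit 1, [(nat_lit 82, nat_lit 14110961664),
  (nat_lit 26, nat_lit 15184441344), (nat_lit 3, nat_lit 16257921024)]⟩,
  ⟨V4_9782439936, nat_lit 1, [(nat_lit 29, nat_lit 14110961664),
  (nat_lit 75, nat_lit 15167926272), (nat_lit 80, nat_lit 16224890880)]⟩,
  ⟨V4_10889723904, nat_lit 1, [(nat_lit 101, nat_lit 14110961664),
  (nat_lit 92, nat_lit 15184699392), (nat_lit 68, nat_lit 16258437120),
  (nat_lit 110, nat_lit 17332174848)]⟩,
  ⟨V4_11946688512, nat_lit 2, [(nat_lit 126, nat_lit 14110961664),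
  (nat_lit 10, nat_lit 15184699392), (nat_lit 88, nat_lit 15167926272),
  (nat_lit 7, nat_lit 16258437120), (nat_lit 118, nat_lit 16241664000),
  (nat_lit 61, nat_lit 17332174848), (nat_lit 103, nat_lit 17315401728),
  (nat_lit 29, nat_lit 18389139456)]⟩,
  ⟨V4_13020168192, nat_lit 4, [(nat_lit 92, nat_lit 14110961664),
  (nat_lit 116, nat_lit 15184699392), (nat_lit 92, nat_lit 15184441344),
  (nat_lit 102, nat_lit 15167926272), (nat_lit 12, nat_lit 16258437120),
  (nat_lit 67, nat_lit 16258179072), (nat_lit 26, nat_lit 16241664000),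
  (nat_lit 11, nat_lit 16241405952), (nat_lit 94, nat_lit 17332174848),
  (nat_lit 116, nat_lit 17331916800), (nat_lit 14, nat_lit 17315401728),
  (nat_lit 90, nat_lit 17315143680), (nat_lit 54, nat_lit 18405654528),
  (nat_lit 74, nat_lit 18389139456), (nat_lit 81, nat_lit 18388881408),
  (nat_lit 99, nat_lit 19462619136)]⟩,
  ⟨V4_9799213056, nat_lit 1, [(nat_lit 33, nat_lit 14110961664),
  (nat_lit 37, nat_lit 15184699392), (nat_lit 97, nat_lit 15167926272),
  (nat_lit 126, nat_lit 16241664000)]⟩], [
  W5_14110425088, W5_14093910016, W5_14093651968, W5_14077394944, W5_14077136896, W5_14076878848,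
  W5_14060621824, W5_14060363776, W5_14060105728, W5_14043848704, W5_14043590656, W5_13036945408,
  W5_13036687360, W5_13020430336, W5_13020172288, W5_13019914240, W5_13003657216, W5_13003399168,
  W5_13003141120, W5_12986884096, W5_12986626048, W5_11963465728, W5_11963207680, W5_11962949632,
  W5_11946692608, W5_11946434560, W5_11946176512, W5_11929919488, W5_11929661440, W5_11913146368,
  W5_10889728000, W5_10889469952, W5_10889211904, W5_10872954880, W5_10872696832, W5_10856181760,
  W5_9815990272, W5_9815732224, W5_9799217152]⟩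

theorem F5_14110961664_chk : fwdChk 5 ks5 F5_14110961664 = true := by decide +kernel

noncomputable def F5_14110703616 : Fwd := ⟨V5_14110703616, [
  ⟨V4_12953075712, nat_lit 1, [(nat_lit 100, nat_lit 14110703616),
  (nat_lit 90, nat_lit 15167668224), (nat_lit 71, nat_lit 16224632832),
  (nat_lit 42, nat_lit 17281597440), (nat_lit 26, nat_lit 18338562048),
  (nat_lit 6, nat_lit 19395526656)]⟩,
  ⟨V4_13020168192, nat_lit 4, [(nat_lit 45, nat_lit 14110703616),
  (nat_lit 76, nat_lit 15184441344), (nat_lit 98, nat_lit 15167668224),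
  (nat_lit 105, nat_lit 16258179072), (nat_lit 81, nat_lit 16241405952),
  (nat_lit 106, nat_lit 17331916800), (nat_lit 107, nat_lit 17315143680),
  (nat_lit 72, nat_lit 18405654528), (nat_lit 112, nat_lit 18388881408),
  (nat_lit 47, nat_lit 19462619136)]⟩], [
  W5_14093910016, W5_14077136896, W5_14060363776, W5_14043590656, W5_14026817536, W5_13036945408,
  W5_13020172288, W5_13003399168, W5_12986626048, W5_12969852928, W5_11963207680, W5_11946434560,
  W5_11929661440, W5_11912888320, W5_10889469952, W5_10872696832, W5_10855923712, W5_9815732224,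
  W5_9798959104]⟩

theorem F5_14110703616_chk : fwdChk 5 ks5 F5_14110703616 = true := by decide +kernel

noncomputable def F5_14110699584 : Fwd := ⟨V5_14110699584, [
  ⟨V4_9815470080, nat_lit 1, [(nat_lit 33, nat_lit 14110699584),
  (nat_lit 74, nat_lit 15184441344), (nat_lit 15, nat_lit 15184179264),
  (nat_lit 36, nat_lit 16257921024)]⟩,
  ⟨V4_10872692736, nat_lit 2, [(nat_lit 85, nat_lit 14110699584),
  (nat_lit 103, nat_lit 15184441344), (nat_lit 35, nat_lit 15184437312),
  (nat_lit 98, nat_lit 15167664192), (nat_lit 86, nat_lit 16258179072),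
  (nat_lit 48, nat_lit 16241405952), (nat_lit 124, nat_lit 16241401920),
  (nat_lit 45, nat_lit 17315143680)]⟩,
  ⟨V4_10889465856, nat_lit 1, [(nat_lit 27, nat_lit 14110699584),
  (nat_lit 23, nat_lit 15184441344), (nat_lit 3, nat_lit 15184437312),
  (nat_lit 114, nat_lit 16258179072), (nat_lit 119, nat_lit 16258175040),
  (nat_lit 18, nat_lit 17331916800)]⟩,
  ⟨V4_11962945536, nat_lit 1, [(nat_lit 25, nat_lit 14110699584),
  (nat_lit 124, nat_lit 15184441344), (nat_lit 125, nat_lit 15184437312),
  (nat_lit 82, nat_lit 15184179264), (nat_lit 126, nat_lit 16258179072),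
  (nat_lit 77, nat_lit 16258175040), (nat_lit 85, nat_lit 16257921024),
  (nat_lit 81, nat_lit 16257916992), (nat_lit 9, nat_lit 17331916800),
  (nat_lit 66, nat_lit 17331658752), (nat_lit 8, nat_lit 17331654720),
  (nat_lit 62, nat_lit 18405396480)]⟩], [
  W5_14093651968, W5_14077136896, W5_14076878848, W5_14076874816, W5_14060363776, W5_14060359744,
  W5_14060105728, W5_14060101696, W5_14043590656, W5_14043586624, W5_13036687360, W5_13020172288,
  W5_13019914240, W5_13019910208, W5_13003399168, W5_13003395136, W5_13003141120, W5_13003137088,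
  W5_12986626048, W5_12986622016, W5_11963207680, W5_11962949632, W5_11962945600, W5_11946434560,
  W5_11946430528, W5_11946176512, W5_11946172480, W5_11929661440, W5_11929657408, W5_11929399360,
  W5_11912884288, W5_10889469952, W5_10889465920, W5_10889211904, W5_10889207872, W5_10872696832,
  W5_10872692800, W5_10855919680, W5_9815732224, W5_9815728192, W5_9815470144, W5_9798955072]⟩

theorem F5_14110699584_chk : fwdChk 5 ks5 F5_14110699584 = true := by decide +kernel

noncomputable def F5_14110437504 : Fwd := ⟨V5_14110437504, [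
  ⟨V4_9815470080, nat_lit 1, [(nat_lit 97, nat_lit 14110437504),
  (nat_lit 73, nat_lit 15184179264), (nat_lit 34, nat_lit 16257921024)]⟩], [
  W5_14076878848, W5_14060105728, W5_14060101696, W5_13019914240, W5_13003141120, W5_13003137088,
  W5_11962949632, W5_11946176512, W5_11946172480, W5_11929399360, W5_10889211904, W5_10889207872,
  W5_10872430720, W5_9815470144]⟩

theorem F5_14110437504_chk : fwdChk 5 ks5 F5_14110437504 = true := by decide +kernel

noncomputable def F5_14094962688 : Fwd := ⟨V5_14094962688, [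
  ⟨V4_8726249472, nat_lit 1, [(nat_lit 44, nat_lit 14094962688),
  (nat_lit 36, nat_lit 15168700416)]⟩,
  ⟨V4_10873208832, nat_lit 2, [(nat_lit 22, nat_lit 14094962688),
  (nat_lit 67, nat_lit 15168700416), (nat_lit 7, nat_lit 15168442368),
  (nat_lit 123, nat_lit 16242180096), (nat_lit 26, nat_lit 16241922048),
  (nat_lit 6, nat_lit 17315659776)]⟩,
  ⟨V4_9799471104, nat_lit 1, [(nat_lit 22, nat_lit 14094962688),
  (nat_lit 47, nat_lit 15168442368), (nat_lit 46, nat_lit 16241922048)]⟩], [
  W5_14093910016, W5_14093651968, W5_13020430336, W5_13020172288, W5_11946950656, W5_11946692608,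
  W5_10873470976, W5_10873212928, W5_9799991296, W5_9799733248]⟩

theorem F5_14094962688_chk : fwdChk 5 ks5 F5_14094962688 = true := by decide +kernel

noncomputable def F5_14094704640 : Fwd := ⟨V5_14094704640, [
  ⟨V4_8725733376, nat_lit 1, [(nat_lit 72, nat_lit 14094704640),
  (nat_lit 103, nat_lit 15168184320)]⟩,
  ⟨V4_13019652096, nat_lit 2, [(nat_lit 77, nat_lit 14094704640),
  (nat_lit 11, nat_lit 15168184320), (nat_lit 84, nat_lit 16241664000),
  (nat_lit 116, nat_lit 17315143680), (nat_lit 121, nat_lit 18388623360),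
  (nat_lit 44, nat_lit 19462103040)]⟩,
  ⟨V4_10873208832, nat_lit 2, [(nat_lit 55, nat_lit 14094704640),
  (nat_lit 88, nat_lit 15168442368), (nat_lit 11, nat_lit 15168184320),
  (nat_lit 8, nat_lit 16242180096), (nat_lit 66, nat_lit 16241922048),
  (nat_lit 22, nat_lit 17315659776)]⟩,
  ⟨V4_10872692736, nat_lit 2, [(nat_lit 70, nat_lit 14094704640),
  (nat_lit 95, nat_lit 15168184320), (nat_lit 70, nat_lit 16241664000),
  (nat_lit 116, nat_lit 17315143680)]⟩,
  ⟨V4_9799213056, nat_lit 1, [(nat_lit 108, nat_lit 14094704640),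
  (nat_lit 31, nat_lit 15168184320), (nat_lit 24, nat_lit 16241664000)]⟩], [
  W5_14093910016, W5_14093651968, W5_14093393920, W5_14077394944, W5_14077136896, W5_14076878848,
  W5_13020430336, W5_13020172288, W5_13019914240, W5_13003915264, W5_13003657216, W5_13003399168,
  W5_11946950656, W5_11946692608, W5_11946434560, W5_11930177536, W5_11929919488, W5_10873470976,
  W5_10873212928, W5_10872954880, W5_10856697856, W5_10856439808, W5_9799733248, W5_9799475200,
  W5_8725995520]⟩

theorem F5_14094704640_chk : fwdChk 5 ks5 F5_14094704640 = true := by decide +kernel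

noncomputable def F5_14094700608 : Fwd := ⟨V5_14094700608, [
  ⟨V4_9799471104, nat_lit 1, [(nat_lit 74, nat_lit 14094700608),
  (nat_lit 29, nat_lit 15168442368), (nat_lit 90, nat_lit 15168180288),
  (nat_lit 78, nat_lit 16241922048)]⟩,
  ⟨V4_14093389824, nat_lit 2, [(nat_lit 75, nat_lit 14094700608),
  (nat_lit 108, nat_lit 15168442368), (nat_lit 6, nat_lit 15168180288),
  (nat_lit 32, nat_lit 16241922048), (nat_lit 82, nat_lit 16241659968),
  (nat_lit 9, nat_lit 17315401728), (nat_lit 117, nat_lit 17315139648),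
  (nat_lit 71, nat_lit 18388881408), (nat_lit 69, nat_lit 18388619328),
  (nat_lit 85, nat_lit 19462361088), (nat_lit 72, nat_lit 19462099008),
  (nat_lit 67, nat_lit 20535840768)]⟩], [
  W5_14093651968, W5_14093389888, W5_14077136896, W5_14076874816, W5_13020172288, W5_13019910208,
  W5_13003657216, W5_13003395136, W5_11946692608, W5_11946430528, W5_11930177536, W5_11929915456,
  W5_10873212928, W5_10872950848, W5_10856697856, W5_10856435776, W5_9799733248, W5_9799471168,
  W5_9782956096]⟩

theorem F5_14094700608_chk : fwdChk 5 ks5 F5_14094700608 = true := by decide +kernel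

noncomputable def F5_14094446592 : Fwd := ⟨V5_14094446592, [
  ⟨V4_8725733376, nat_lit 1, [(nat_lit 64, nat_lit 14094446592),
  (nat_lit 36, nat_lit 15168184320)]⟩,
  ⟨V4_10873208832, nat_lit 2, [(nat_lit 122, nat_lit 14094446592),
  (nat_lit 47, nat_lit 15168184320), (nat_lit 101, nat_lit 16241922048),
  (nat_lit 70, nat_lit 17315659776)]⟩,
  ⟨V4_12987138048, nat_lit 3, [(nat_lit 51, nat_lit 14094446592),
  (nat_lit 10, nat_lit 15168184320), (nat_lit 124, nat_lit 15151411200),
  (nat_lit 57, nat_lit 16241922048), (nat_lit 85, nat_lit 16225148928),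
  (nat_lit 89, nat_lit 16208375808), (nat_lit 10, nat_lit 17315659776),
  (nat_lit 87, nat_lit 17298886656), (nat_lit 37, nat_lit 17282113536),
  (nat_lit 33, nat_lit 18372624384), (nat_lit 103, nat_lit 18355851264),
  (nat_lit 31, nat_lit 19429588992)]⟩,
  ⟨V4_9765924864, nat_lit 1, [(nat_lit 13, nat_lit 14094446592),
  (nat_lit 47, nat_lit 15151411200), (nat_lit 15, nat_lit 16208375808)]⟩,
  ⟨V4_10839662592, nat_lit 2, [(nat_lit 112, nat_lit 14094446592),
  (nat_lit 88, nat_lit 15168184320), (nat_lit 108, nat_lit 15151411200),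
  (nat_lit 39, nat_lit 16225148928), (nat_lit 32, nat_lit 16208375808),
  (nat_lit 1, nat_lit 17282113536)]⟩,
  ⟨V4_9799471104, nat_lit 1, [(nat_lit 62, nat_lit 14094446592),
  (nat_lit 11, nat_lit 15168184320), (nat_lit 81, nat_lit 16241922048)]⟩,
  ⟨V4_11946688512, nat_lit 2, [(nat_lit 68, nat_lit 14094446592),
  (nat_lit 34, nat_lit 15168184320), (nat_lit 31, nat_lit 15167926272),
  (nat_lit 90, nat_lit 16241922048), (nat_lit 25, nat_lit 16241664000),
  (nat_lit 67, nat_lit 17315659776), (nat_lit 68, nat_lit 17315401728),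
  (nat_lit 84, nat_lit 18389139456)]⟩], [
  W5_14093910016, W5_14093651968, W5_14077394944, W5_14077136896, W5_14076878848, W5_14060879872,
  W5_14060621824, W5_14060363776, W5_14060105728, W5_13020430336, W5_13020172288, W5_13019914240,
  W5_13003915264, W5_13003657216, W5_13003399168, W5_13003141120, W5_12987142144, W5_12986884096,
  W5_12986626048, W5_11946950656, W5_11946692608, W5_11946434560, W5_11946176512, W5_11930177536,
  W5_11929919488, W5_11929661440, W5_11913404416, W5_11913146368, W5_10873212928, W5_10872954880,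
  W5_10872696832, W5_10856439808, W5_10856181760, W5_10839666688, W5_9799475200, W5_9799217152,
  W5_9782702080, W5_8725737472]⟩

theorem F5_14094446592_chk : fwdChk 5 ks5 F5_14094446592 = true := by decide +kernel

noncomputable def F5_14094442560 : Fwd := ⟨V5_14094442560, [
  ⟨V4_8725733376, nat_lit 1, [(nat_lit 62, nat_lit 14094442560),
  (nat_lit 57, nat_lit 15168184320)]⟩,
  ⟨V4_10839662592, nat_lit 2, [(nat_lit 93, nat_lit 14094442560),
  (nat_lit 97, nat_lit 15168184320), (nat_lit 101, nat_lit 15151407168),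
  (nat_lit 83, nat_lit 16225148928), (nat_lit 106, nat_lit 16208371776),
  (nat_lit 60, nat_lit 17282113536)]⟩,
  ⟨V4_9799471104, nat_lit 1, [(nat_lit 90, nat_lit 14094442560),
  (nat_lit 28, nat_lit 15168184320), (nat_lit 37, nat_lit 15168180288),
  (nat_lit 5, nat_lit 16241922048)]⟩,
  ⟨V4_13019652096, nat_lit 2, [(nat_lit 1, nat_lit 14094442560),
  (nat_lit 85, nat_lit 15168184320), (nat_lit 29, nat_lit 15167922240),
  (nat_lit 106, nat_lit 16241664000), (nat_lit 123, nat_lit 16241401920),
  (nat_lit 24, nat_lit 17315143680), (nat_lit 45, nat_lit 17314881600),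
  (nat_lit 68, nat_lit 18388623360), (nat_lit 40, nat_lit 18388361280),
  (nat_lit 72, nat_lit 19462103040)]⟩,
  ⟨V4_9799213056, nat_lit 1, [(nat_lit 110, nat_lit 14094442560),
  (nat_lit 101, nat_lit 15168184320), (nat_lit 46, nat_lit 15167922240),
  (nat_lit 121, nat_lit 16241664000)]⟩], [
  W5_14093651968, W5_14093393920, W5_14093389888, W5_14077136896, W5_14076878848, W5_14076874816,
  W5_14060621824, W5_14060363776, W5_14060359744, W5_14060101696, W5_13020172288, W5_13019914240,
  W5_13019910208, W5_13019652160, W5_13003657216, W5_13003399168, W5_13003395136, W5_13003137088,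
  W5_12987142144, W5_12986884096, W5_12986880064, W5_12986622016, W5_11946692608, W5_11946434560,
  W5_11946430528, W5_11946172480, W5_11930177536, W5_11929919488, W5_11929915456, W5_11929657408,
  W5_11913404416, W5_11913142336, W5_10873212928, W5_10872954880, W5_10872950848, W5_10872692800,
  W5_10856439808, W5_10856435776, W5_10856177728, W5_10839662656, W5_9799475200, W5_9799471168,
  W5_9799213120, W5_9782698048, W5_8725733440]⟩

theorem F5_14094442560_chk : fwdChk 5 ks5 F5_14094442560 = true := by decide +kernel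

noncomputable def F5_14094188544 : Fwd := ⟨V5_14094188544, [
  ⟨V4_8725217280, nat_lit 1, [(nat_lit 19, nat_lit 14094188544),
  (nat_lit 26, nat_lit 15167668224)]⟩,
  ⟨V4_11946688512, nat_lit 2, [(nat_lit 25, nat_lit 14094188544),
  (nat_lit 11, nat_lit 15167926272), (nat_lit 46, nat_lit 16241664000),
  (nat_lit 94, nat_lit 17315401728), (nat_lit 96, nat_lit 18389139456)]⟩,
  ⟨V4_13020168192, nat_lit 4, [(nat_lit 17, nat_lit 14094188544),
  (nat_lit 108, nat_lit 15167926272), (nat_lit 16, nat_lit 15167668224),
  (nat_lit 107, nat_lit 16241664000), (nat_lit 16, nat_lit 16241405952),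
  (nat_lit 51, nat_lit 17315401728), (nat_lit 39, nat_lit 17315143680),
  (nat_lit 26, nat_lit 18389139456), (nat_lit 26, nat_lit 18388881408),
  (nat_lit 113, nat_lit 19462619136)]⟩,
  ⟨V4_9799213056, nat_lit 1, [(nat_lit 9, nat_lit 14094188544), (nat_lit 28, nat_lit 15167926272),
  (nat_lit 118, nat_lit 16241664000)]⟩], [
  W5_14093910016, W5_14077394944, W5_14077136896, W5_14060621824, W5_14060363776, W5_14043848704,
  W5_14043590656, W5_13020430336, W5_13020172288, W5_13003657216, W5_13003399168, W5_12986884096,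
  W5_12986626048, W5_12969852928, W5_11946692608, W5_11946434560, W5_11929919488, W5_11929661440,
  W5_11913146368, W5_11912888320, W5_10872954880, W5_10872696832, W5_10856181760, W5_10855923712,
  W5_10839408640, W5_9799217152, W5_9798959104, W5_9782444032, W5_8725479424]⟩

theorem F5_14094188544_chk : fwdChk 5 ks5 F5_14094188544 = true := by decide +kernel

noncomputable def F5_14094180480 : Fwd := ⟨V5_14094180480, [
  ⟨V4_9799213056, nat_lit 1, [(nat_lit 104, nat_lit 14094180480),
  (nat_lit 111, nat_lit 15167922240), (nat_lit 43, nat_lit 16241664000)]⟩,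
  ⟨V4_10872692736, nat_lit 2, [(nat_lit 4, nat_lit 14094180480),
  (nat_lit 46, nat_lit 15167922240), (nat_lit 38, nat_lit 15167660160),
  (nat_lit 9, nat_lit 16241664000), (nat_lit 16, nat_lit 16241401920),
  (nat_lit 78, nat_lit 17315143680)]⟩], [
  W5_14093393920, W5_14076878848, W5_14060363776, W5_14060101696, W5_14059839616, W5_14043848704,
  W5_14043586624, W5_13019914240, W5_13019652160, W5_13003399168, W5_13003137088, W5_13002875008,
  W5_12986884096, W5_12986622016, W5_12970106944, W5_12969844864, W5_11946434560, W5_11946172480,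
  W5_11945910400, W5_11929919488, W5_11929657408, W5_11913142336, W5_11912880256, W5_10872954880,
  W5_10872692800, W5_10872430720, W5_10856177728, W5_10855915648, W5_10839400576, W5_9799213120,
  W5_9798951040, W5_8725471360]⟩

theorem F5_14094180480_chk : fwdChk 5 ks5 F5_14094180480 = true := by decide +kernel

noncomputable def F5_14093926464 : Fwd := ⟨V5_14093926464, [
  ⟨V4_8725217280, nat_lit 1, [(nat_lit 119, nat_lit 14093926464),
  (nat_lit 50, nat_lit 15167668224)]⟩,
  ⟨V4_12953075712, nat_lit 1, [(nat_lit 18, nat_lit 14093926464),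
  (nat_lit 110, nat_lit 15167668224), (nat_lit 16, nat_lit 15150891072),
  (nat_lit 58, nat_lit 16224632832), (nat_lit 107, nat_lit 16207855680),
  (nat_lit 2, nat_lit 17281597440), (nat_lit 54, nat_lit 17264820288),
  (nat_lit 107, nat_lit 18338562048), (nat_lit 82, nat_lit 18321784896),
  (nat_lit 47, nat_lit 19395526656)]⟩,
  ⟨V4_10872692736, nat_lit 2, [(nat_lit 41, nat_lit 14093926464),
  (nat_lit 3, nat_lit 15167668224), (nat_lit 100, nat_lit 15167664192),
  (nat_lit 14, nat_lit 16241405952), (nat_lit 31, nat_lit 16241401920),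
  (nat_lit 56, nat_lit 17315143680)]⟩], [
  W5_14077136896, W5_14060363776, W5_14060359744, W5_14043590656, W5_14043586624, W5_14026817536,
  W5_13020172288, W5_13003399168, W5_13003395136, W5_12986626048, W5_12986622016, W5_12969852928,
  W5_12953075776, W5_11946434560, W5_11946430528, W5_11929661440, W5_11929657408, W5_11912888320,
  W5_11912884288, W5_10872696832, W5_10872692800, W5_10855923712, W5_10855919680, W5_10839146560,
  W5_9798959104, W5_9798955072, W5_9782181952, W5_8725217344]⟩

theorem F5_14093926464_chk : fwdChk 5 ks5 F5_14093926464 = true := by decide +kernel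

noncomputable def F5_14093922432 : Fwd := ⟨V5_14093922432, [
  ⟨V4_10872692736, nat_lit 2, [(nat_lit 26, nat_lit 14093922432),
  (nat_lit 44, nat_lit 15167664192), (nat_lit 108, nat_lit 15167660160),
  (nat_lit 61, nat_lit 16241405952), (nat_lit 19, nat_lit 16241401920),
  (nat_lit 87, nat_lit 17315143680)]⟩], [
  W5_14076878848, W5_14060363776, W5_14060105728, W5_14060101696, W5_14043590656, W5_14043586624,
  W5_14026809472, W5_13019914240, W5_13003399168, W5_13003141120, W5_13003137088, W5_12986626048,
  W5_12986622016, W5_12969844864, W5_11946434560, W5_11946176512, W5_11946172480, W5_11929661440,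
  W5_11929657408, W5_11929399360, W5_11912884288, W5_11912880256, W5_10872696832, W5_10872692800,
  W5_10872430720, W5_10855919680, W5_10855915648, W5_10839142528, W5_9798955072, W5_9798951040,
  W5_9782177920]⟩

theorem F5_14093922432_chk : fwdChk 5 ks5 F5_14093922432 = true := by decide +kernel

noncomputable def F5_14077931520 : Fwd := ⟨V5_14077931520, [
  ⟨V4_9782439936, nat_lit 1, [(nat_lit 4, nat_lit 14077931520), (nat_lit 67, nat_lit 15151411200),
  (nat_lit 15, nat_lit 16224890880)]⟩,
  ⟨V4_10855919616, nat_lit 1, [(nat_lit 78, nat_lit 14077931520),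
  (nat_lit 124, nat_lit 15151411200), (nat_lit 78, nat_lit 16224890880),
  (nat_lit 122, nat_lit 17298370560)]⟩,
  ⟨V4_11930173440, nat_lit 1, [(nat_lit 110, nat_lit 14077931520),
  (nat_lit 101, nat_lit 15151669248), (nat_lit 52, nat_lit 15151411200),
  (nat_lit 102, nat_lit 16225406976), (nat_lit 43, nat_lit 16225148928),
  (nat_lit 126, nat_lit 17299144704), (nat_lit 83, nat_lit 17298886656),
  (nat_lit 107, nat_lit 18372624384)]⟩], [
  W5_14077394944, W5_14077136896, W5_14076878848, W5_13003915264, W5_13003657216, W5_13003399168,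
  W5_13003141120, W5_11930177536, W5_11929919488, W5_11929661440, W5_10856697856, W5_10856439808,
  W5_10856181760, W5_9782702080]⟩

theorem F5_14077931520_chk : fwdChk 5 ks5 F5_14077931520 = true := by decide +kernel

noncomputable def F5_14077927488 : Fwd := ⟨V5_14077927488, [
  ⟨V4_10856435712, nat_lit 1, [(nat_lit 123, nat_lit 14077927488),
  (nat_lit 119, nat_lit 15151669248), (nat_lit 46, nat_lit 15151665216),
  (nat_lit 77, nat_lit 15151407168), (nat_lit 38, nat_lit 16225406976),
  (nat_lit 100, nat_lit 16225148928), (nat_lit 29, nat_lit 16225144896),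
  (nat_lit 92, nat_lit 17298886656)]⟩], [
  W5_14077136896, W5_14076878848, W5_14076874816, W5_13003657216, W5_13003399168, W5_13003395136,
  W5_13003137088, W5_11930177536, W5_11929919488, W5_11929915456, W5_11929657408, W5_10856697856,
  W5_10856439808, W5_10856435776, W5_10856177728, W5_9782956096, W5_9782698048]⟩

theorem F5_14077927488_chk : fwdChk 5 ks5 F5_14077927488 = true := by decide +kernel

noncomputable def F5_14077673472 : Fwd := ⟨V5_14077673472, [
  ⟨V4_8692187136, nat_lit 1, [(nat_lit 103, nat_lit 14077673472),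
  (nat_lit 6, nat_lit 15134638080)]⟩,
  ⟨V4_12987138048, nat_lit 3, [(nat_lit 39, nat_lit 14077673472),
  (nat_lit 123, nat_lit 15151411200), (nat_lit 68, nat_lit 15134638080),
  (nat_lit 95, nat_lit 16225148928), (nat_lit 85, nat_lit 16208375808),
  (nat_lit 86, nat_lit 17298886656), (nat_lit 10, nat_lit 17282113536),
  (nat_lit 52, nat_lit 18372624384), (nat_lit 2, nat_lit 18355851264),
  (nat_lit 49, nat_lit 19429588992)]⟩,
  ⟨V4_10839662592, nat_lit 2, [(nat_lit 124, nat_lit 14077673472),
  (nat_lit 17, nat_lit 15151411200), (nat_lit 91, nat_lit 15134638080),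
  (nat_lit 66, nat_lit 16225148928), (nat_lit 22, nat_lit 16208375808),
  (nat_lit 14, nat_lit 17282113536)]⟩,
  ⟨V4_11930173440, nat_lit 1, [(nat_lit 49, nat_lit 14077673472),
  (nat_lit 113, nat_lit 15151411200), (nat_lit 80, nat_lit 16225148928),
  (nat_lit 42, nat_lit 17298886656), (nat_lit 51, nat_lit 18372624384)]⟩], [
  W5_14077394944, W5_14077136896, W5_14060879872, W5_14060621824, W5_14060363776, W5_13003915264,
  W5_13003657216, W5_13003399168, W5_12987142144, W5_12986884096, W5_12986626048, W5_11930177536,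
  W5_11929919488, W5_11929661440, W5_11913404416, W5_11913146368, W5_11912888320, W5_10856439808,
  W5_10856181760, W5_10855923712, W5_10839666688, W5_10839408640, W5_9782702080, W5_9782444032,
  W5_9765928960, W5_8708964352]⟩

theorem F5_14077673472_chk : fwdChk 5 ks5 F5_14077673472 = true := by decide +kernel

noncomputable def F5_14077669440 : Fwd := ⟨V5_14077669440, [
  ⟨V4_9765924864, nat_lit 1, [(nat_lit 121, nat_lit 14077669440),
  (nat_lit 71, nat_lit 15151411200), (nat_lit 66, nat_lit 15134634048),
  (nat_lit 103, nat_lit 16208375808)]⟩,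
  ⟨V4_10839662592, nat_lit 2, [(nat_lit 105, nat_lit 14077669440),
  (nat_lit 101, nat_lit 15151411200), (nat_lit 86, nat_lit 15151407168),
  (nat_lit 66, nat_lit 15134634048), (nat_lit 123, nat_lit 16225148928),
  (nat_lit 25, nat_lit 16208375808), (nat_lit 112, nat_lit 16208371776),
  (nat_lit 117, nat_lit 17282113536)]⟩,
  ⟨V4_9782439936, nat_lit 1, [(nat_lit 62, nat_lit 14077669440),
  (nat_lit 50, nat_lit 15151411200), (nat_lit 19, nat_lit 15151149120),
  (nat_lit 119, nat_lit 16224890880)]⟩,
  ⟨V4_10856435712, nat_lit 1, [(nat_lit 40, nat_lit 14077669440),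
  (nat_lit 67, nat_lit 15151411200), (nat_lit 75, nat_lit 15151407168),
  (nat_lit 56, nat_lit 16225148928), (nat_lit 54, nat_lit 16225144896),
  (nat_lit 69, nat_lit 17298886656)]⟩], [
  W5_14077136896, W5_14076878848, W5_14076874816, W5_14060621824, W5_14060363776, W5_14060359744,
  W5_14060105728, W5_14060101696, W5_13003657216, W5_13003399168, W5_13003395136, W5_13003141120,
  W5_13003137088, W5_12987142144, W5_12986884096, W5_12986880064, W5_12986626048, W5_12986622016,
  W5_11930177536, W5_11929919488, W5_11929915456, W5_11929661440, W5_11929657408, W5_11929399360,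
  W5_11913404416, W5_11913146368, W5_11913142336, W5_11912884288, W5_10856439808, W5_10856435776,
  W5_10856181760, W5_10856177728, W5_10855919680, W5_10839666688, W5_10839662656, W5_10839404608,
  W5_9782702080, W5_9782698048, W5_9782440000, W5_9765924928, W5_8708960320]⟩

theorem F5_14077669440_chk : fwdChk 5 ks5 F5_14077669440 = true := by decide +kernel

noncomputable def F5_14077665408 : Fwd := ⟨V5_14077665408, [
  ⟨V4_10839662592, nat_lit 2, [(nat_lit 29, nat_lit 14077665408),
  (nat_lit 81, nat_lit 15151407168), (nat_lit 93, nat_lit 15134630016),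
  (nat_lit 92, nat_lit 16225148928), (nat_lit 3, nat_lit 16208371776),
  (nat_lit 86, nat_lit 17282113536)]⟩], [
  W5_14076878848, W5_14060363776, W5_14060101696, W5_14059839616, W5_13003399168, W5_13003137088,
  W5_13002875008, W5_12986884096, W5_12986622016, W5_11929919488, W5_11929657408, W5_11913404416,
  W5_11913142336, W5_11912880256, W5_10856439808, W5_10856177728, W5_10855915648, W5_10839662656,
  W5_10839400576, W5_9782698048, W5_9765920896]⟩

theorem F5_14077665408_chk : fwdChk 5 ks5 F5_14077665408 = true := by decide +kernel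

end Crest.Agent.R187.SN.Fwd
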