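import Crest.Agent.R187.SN.TD.Base

/-!
# Row 187, PLAN S, generated certificate data (mod 127): level (5, 1), part 0

Written by a C++ program (helper662) from the recursion of `SN/Spec.lean`; canonical (RREF)
frames.  The tables are only data: every property is checked by the kernel elsewhere.
-/

set_option autoImplicit false
set_option maxRecDepth 100000

namespace Crest.Agent.R187.SN.Top

noncomputable def W1_5368709120 : WT := ⟨nat_lit 0x140000000, nat_lit 1, .cons (nat_lit 0) (nat_lit 0x48200e06028) (nat_lit 1) (nat_lit 0x4c) (.nil)⟩

end Crest.Agent.R187.SN.Top
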