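import Crest.Agent.R187.SN.FwdDef
import Crest.Agent.R187.SN.TD.Ks
import Crest.Agent.R187.SN.TD.W1_0
import Crest.Agent.R187.SN.TD.X4

/-!
# Row 187, PLAN S, certificate E3: forward records of level `(6, 1)`, part 0

`F1_<key> : Fwd` = sources (table of level `(6, 0)`, number of rows, quadrature record) and
`W` tables of the table `V1_<key>`; each record is checked by the kernel.
-/

set_option autoImplicit false
set_option Elab.async false
set_option maxRecDepth 100000

namespace Crest.Agent.R187.SN.Fwd

open Crest.Agent.R187.SN.Top

noncomputable def F1_6442450944 : Fwd := ⟨V1_6442450944, [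
  ⟨V0_0, nat_lit 1, [(nat_lit 78, nat_lit 6442450944)]⟩], [
  W1_5368709120]⟩

theorem F1_6442450944_chk : fwdChk 1 ks1 F1_6442450944 = true := by decide +kernel

end Crest.Agent.R187.SN.Fwd
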