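import Crest.Agent.R187.SN.TD.Base

/-!
# Row 187, PLAN S, generated certificate data (mod 127): level (5, 2), part 0

Written by a C++ program (helper662) from the recursion of `SN/Spec.lean`; canonical (RREF)
frames.  The tables are only data: every property is checked by the kernel elsewhere.
-/

set_option autoImplicit false
set_option maxRecDepth 100000

namespace Crest.Agent.R187.SN.Top

noncomputable def W2_6509559808 : WT := ⟨nat_lit 0x184000000, nat_lit 1, .cons (nat_lit 0x140000000) (nat_lit 0x38180a04050) (nat_lit 1) (nat_lit 0x63) (.cons (nat_lit 0x101000000) (nat_lit 0x38180a0a048) (nat_lit 0) (nat_lit 0) (.nil))⟩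

noncomputable def W2_8623489024 : WT := ⟨nat_lit 0x202000000, nat_lit 1, .cons (nat_lit 0x140000000) (nat_lit 0x2810180b050) (nat_lit 1) (nat_lit 0x50) (.cons (nat_lit 0x101000000) (nat_lit 0x2830160a048) (nat_lit 0) (nat_lit 0) (.cons (nat_lit 0xc2000000) (nat_lit 0x602c1409040) (nat_lit 0) (nat_lit 0) (.nil)))⟩

noncomputable def W2_10737418240 : WT := ⟨nat_lit 0x280000000, nat_lit 1, .cons (nat_lit 0x140000000) (nat_lit 0x7034180b050) (nat_lit 1) (nat_lit 0x55) (.nil)⟩

end Crest.Agent.R187.SN.Top
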