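import Crest.Agent.R187.SN.FwdDef
import Crest.Agent.R187.SN.TD.Ks
import Crest.Agent.R187.SN.TD.W2_0
import Crest.Agent.R187.SN.TD.X4

/-!
# Row 187, PLAN S, certificate E3: forward records of level `(6, 2)`, part 0

`F2_<key> : Fwd` = sources (table of level `(6, 1)`, number of rows, quadrature record) and
`W` tables of the table `V2_<key>`; each record is checked by the kernel.
-/

set_option autoImplicit false
set_option Elab.async false
set_option maxRecDepth 100000

namespace Crest.Agent.R187.SN.Fwd

open Crest.Agent.R187.SN.Top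

noncomputable def F2_12884901888 : Fwd := ⟨V2_12884901888, [
  ⟨V1_6442450944, nat_lit 1, [(nat_lit 42, nat_lit 12884901888)]⟩], [
  W2_10737418240]⟩

theorem F2_12884901888_chk : fwdChk 2 ks2 F2_12884901888 = true := by decide +kernel

noncomputable def F2_10770972672 : Fwd := ⟨V2_10770972672, [
  ⟨V1_6442450944, nat_lit 1, [(nat_lit 37, nat_lit 10770972672),
  (nat_lit 90, nat_lit 11827937280), (nat_lit 114, nat_lit 12884901888)]⟩], [
  W2_10737418240, W2_8623489024]⟩

theorem F2_10770972672_chk : fwdChk 2 ks2 F2_10770972672 = true := by decide +kernel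

noncomputable def F2_8657043456 : Fwd := ⟨V2_8657043456, [
  ⟨V1_6442450944, nat_lit 1, [(nat_lit 114, nat_lit 8657043456), (nat_lit 26, nat_lit 9714008064),
  (nat_lit 14, nat_lit 10770972672), (nat_lit 100, nat_lit 11827937280),
  (nat_lit 68, nat_lit 12884901888)]⟩], [
  W2_8623489024, W2_6509559808]⟩

theorem F2_8657043456_chk : fwdChk 2 ks2 F2_8657043456 = true := by decide +kernel

noncomputable def F2_6543114240 : Fwd := ⟨V2_6543114240, [
  ⟨V1_6442450944, nat_lit 1, [(nat_lit 124, nat_lit 6543114240), (nat_lit 9, nat_lit 7600078848),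
  (nat_lit 112, nat_lit 8657043456), (nat_lit 15, nat_lit 9714008064),
  (nat_lit 118, nat_lit 10770972672), (nat_lit 3, nat_lit 11827937280),
  (nat_lit 54, nat_lit 12884901888)]⟩], [
  W2_6509559808]⟩

theorem F2_6543114240_chk : fwdChk 2 ks2 F2_6543114240 = true := by decide +kernel

end Crest.Agent.R187.SN.Fwd
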