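import Crest.Agent.R187.SN.TD.Base

/-!
# Row 187, PLAN S, generated certificate data (mod 127): level (5, 3), part 0

Written by a C++ program (helper662) from the recursion of `SN/Spec.lean`; canonical (RREF)
frames.  The tables are only data: every property is checked by the kernel elsewhere.
-/

set_option autoImplicit false
set_option maxRecDepth 100000

namespace Crest.Agent.R187.SN.Top

noncomputable def W3_6543900672 : WT := ⟨nat_lit 0x1860c0000, nat_lit 1, .cons (nat_lit 0x184000000) (nat_lit 0x28100609040) (nat_lit 1) (nat_lit 0x31) (.cons (nat_lit 0x183040000) (nat_lit 0x28101208038) (nat_lit 0) (nat_lit 0) (.nil))⟩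

noncomputable def W3_7584350208 : WT := ⟨nat_lit 0x1c4100000, nat_lit 1, .cons (nat_lit 0x184000000) (nat_lit 0x30140803058) (nat_lit 1) (nat_lit 0x73) (.cons (nat_lit 0x144040000) (nat_lit 0x3014080b050) (nat_lit 0) (nat_lit 0) (.cons (nat_lit 0x104080000) (nat_lit 0x3014160a048) (nat_lit 0) (nat_lit 0) (.nil)))⟩

noncomputable def W3_8674344960 : WT := ⟨nat_lit 0x205080000, nat_lit 1, .cons (nat_lit 0x202000000) (nat_lit 0x200c1007030) (nat_lit 1) (nat_lit 0x71) (.cons (nat_lit 0x1c3000000) (nat_lit 0x200c1007060) (nat_lit 0) (nat_lit 0) (.cons (nat_lit 0x1c2040000) (nat_lit 0x20200e06060) (nat_lit 0) (nat_lit 0) (.cons (nat_lit 0x184000000) (nat_lit 0x200c100c058) (nat_lit 1) (nat_lit 0xe) (.cons (nat_lit 0x183040000) (nat_lit 0x20200e0c058) (nat_lit 0) (nat_lit 0) (.cons (nat_lit 0x182080000) (nat_lit 0x401c0c0c058) (nat_lit 0) (nat_lit 0) (.cons (nat_lit 0x145000000) (nat_lit 0x200c180b050) (nat_lit 0) (nat_lit 0) (.cons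 (nat_lit 0x144040000) (nat_lit 0x2020180b050) (nat_lit 0) (nat_lit 0) (.cons (nat_lit 0x143080000) (nat_lit 0x401c180b050) (nat_lit 0) (nat_lit 0) (.nil)))))))))⟩

noncomputable def W3_8690860032 : WT := ⟨nat_lit 0x206040000, nat_lit 1, .cons (nat_lit 0x202000000) (nat_lit 0x18241007030) (nat_lit 1) (nat_lit 0x7e) (.cons (nat_lit 0x201040000) (nat_lit 0x48200e06028) (nat_lit 0) (nat_lit 0) (.cons (nat_lit 0x1c3000000) (nat_lit 0x18241007060) (nat_lit 0) (nat_lit 0) (.cons (nat_lit 0x1c2040000) (nat_lit 0x48200e06060) (nat_lit 0) (nat_lit 0) (.cons (nat_lit 0x184000000) (nat_lit 0x1824100c058) (nat_lit 1) (nat_lit 0x46) (.cons (nat_lit 0x183040000) (nat_lit 0x48200e0c058) (nat_lit 0) (nat_lit 0) (.nil))))))⟩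

noncomputable def W3_9731309568 : WT := ⟨nat_lit 0x244080000, nat_lit 1, .cons (nat_lit 0x202000000) (nat_lit 0x200c0e06068) (nat_lit 1) (nat_lit 0x2b) (.cons (nat_lit 0x1c3000000) (nat_lit 0x200c0e0d060) (nat_lit 0) (nat_lit 0) (.cons (nat_lit 0x1c2040000) (nat_lit 0x201c0c0d060) (nat_lit 0) (nat_lit 0) (.cons (nat_lit 0x184000000) (nat_lit 0x200c1a0c058) (nat_lit 1) (nat_lit 0x6f) (.cons (nat_lit 0x183040000) (nat_lit 0x201c1a0c058) (nat_lit 0) (nat_lit 0) (.cons (nat_lit 0x182080000) (nat_lit 0x38181a0c058) (nat_lit 0) (nat_lit 0) (.cons (nat_lit 0x144040000) (nat_lit 0x2034180b050) (nat_lit 0) (nat_lit 0) (.cons (nat_lit 0x143080000) (nat_lit 0x3834180b050) (nat_lit 0) (nat_lit 0) (.cons (nat_lit 0x104080000) (nat_lit 0x6830160a048) (nat_lit 0) (nat_lit 0) (.nil)))))))))⟩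

noncomputable def W3_9764339712 : WT := ⟨nat_lit 0x246000000, nat_lit 1, .cons (nat_lit 0x241000000) (nat_lit 0x48200e06028) (nat_lit 0) (nat_lit 0) (.cons (nat_lit 0x202000000) (nat_lit 0x48200e06068) (nat_lit 1) (nat_lit 0x61) (.cons (nat_lit 0x1c3000000) (nat_lit 0x48200e0d060) (nat_lit 0) (nat_lit 0) (.cons (nat_lit 0x184000000) (nat_lit 0x48201a0c058) (nat_lit 1) (nat_lit 0x1e) (.nil))))⟩

noncomputable def W3_10804789248 : WT := ⟨nat_lit 0x284040000, nat_lit 1, .cons (nat_lit 0x241000000) (nat_lit 0x181c0c05070) (nat_lit 0) (nat_lit 0) (.cons (nat_lit 0x202000000) (nat_lit 0x181c0c0e068) (nat_lit 1) (nat_lit 0xc) (.cons (nat_lit 0x201040000) (nat_lit 0x38180a0e068) (nat_lit 0) (nat_lit 0) (.cons (nat_lit 0x1c3000000) (nat_lit 0x181c1c0d060) (nat_lit 0) (nat_lit 0) (.cons (nat_lit 0x1c2040000) (nat_lit 0x38181c0d060) (nat_lit 0) (nat_lit 0) (.cons (nat_lit 0x184000000) (nat_lit 0x18381a0c058) (nat_lit 1) (nat_lit 0x23)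 (.cons (nat_lit 0x183040000) (nat_lit 0x38381a0c058) (nat_lit 0) (nat_lit 0) (.cons (nat_lit 0x144040000) (nat_lit 0x7034180b050) (nat_lit 0) (nat_lit 0) (.nil))))))))⟩

noncomputable def W3_10821304320 : WT := ⟨nat_lit 0x285000000, nat_lit 1, .cons (nat_lit 0x280000000) (nat_lit 0x401c0c05020) (nat_lit 1) (nat_lit 0x75) (.cons (nat_lit 0x241000000) (nat_lit 0x401c0c05070) (nat_lit 0) (nat_lit 0) (.cons (nat_lit 0x202000000) (nat_lit 0x401c0c0e068) (nat_lit 1) (nat_lit 0x74) (.cons (nat_lit 0x1c3000000) (nat_lit 0x401c1c0d060) (nat_lit 0) (nat_lit 0) (.cons (nat_lit 0x184000000) (nat_lit 0x40381a0c058) (nat_lit 1) (nat_lit 0x8) (.cons (nat_lit 0x145000000) (nat_lit 0x7034180b050) (nat_lit 0) (nat_lit 0) (.nil))))))⟩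

noncomputable def W3_11845238784 : WT := ⟨nat_lit 0x2c2080000, nat_lit 1, .cons (nat_lit 0x202000000) (nat_lit 0x200c1e0e068) (nat_lit 1) (nat_lit 0x45) (.cons (nat_lit 0x1c2040000) (nat_lit 0x203c1c0d060) (nat_lit 0) (nat_lit 0) (.cons (nat_lit 0x182080000) (nat_lit 0x78381a0c058) (nat_lit 0) (nat_lit 0) (.nil)))⟩

noncomputable def W3_11878268928 : WT := ⟨nat_lit 0x2c4000000, nat_lit 1, .cons (nat_lit 0x280000000) (nat_lit 0x38180a04078) (nat_lit 1) (nat_lit 0x2) (.cons (nat_lit 0x241000000) (nat_lit 0x38180a0f070) (nat_lit 0) (nat_lit 0) (.cons (nat_lit 0x202000000) (nat_lit 0x38181e0e068) (nat_lit 1) (nat_lit 0x7d) (.cons (nat_lit 0x1c3000000) (nat_lit 0x383c1c0d060) (nat_lit 0) (nat_lit 0) (.cons (nat_lit 0x184000000) (nat_lit 0x78381a0c058) (nat_lit 1) (nat_lit 0x51) (.nil)))))⟩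

noncomputable def W3_12935233536 : WT := ⟨nat_lit 0x303000000, nat_lit 1, .cons (nat_lit 0x280000000) (nat_lit 0x30140810078) (nat_lit 1) (nat_lit 0x1d) (.cons (nat_lit 0x241000000) (nat_lit 0x3014200f070) (nat_lit 0) (nat_lit 0) (.cons (nat_lit 0x202000000) (nat_lit 0x30401e0e068) (nat_lit 1) (nat_lit 0x24) (.cons (nat_lit 0x1c3000000) (nat_lit 0x803c1c0d060) (nat_lit 0) (nat_lit 0) (.nil))))⟩

noncomputable def W3_13992198144 : WT := ⟨nat_lit 0x342000000, nat_lit 1, .cons (nat_lit 0x280000000) (nat_lit 0x28102210078) (nat_lit 1) (nat_lit 0x32) (.cons (nat_lit 0x241000000) (nat_lit 0x2844200f070) (nat_lit 0) (nat_lit 0) (.cons (nat_lit 0x202000000) (nat_lit 0x88401e0e068) (nat_lit 1) (nat_lit 0x33) (.nil)))⟩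

noncomputable def W3_16106127360 : WT := ⟨nat_lit 0x3c0000000, nat_lit 1, .cons (nat_lit 0x280000000) (nat_lit 0x98482210078) (nat_lit 1) (nat_lit 0x5c) (.nil)⟩

end Crest.Agent.R187.SN.Top
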