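import Crest.Agent.R187.SN.FwdDef
import Crest.Agent.R187.SN.TD.Ks
import Crest.Agent.R187.SN.TD.W3_0
import Crest.Agent.R187.SN.TD.X4

/-!
# Row 187, PLAN S, certificate E3: forward records of level `(6, 3)`, part 0

`F3_<key> : Fwd` = sources (table of level `(6, 2)`, number of rows, quadrature record) and
`W` tables of the table `V3_<key>`; each record is checked by the kernel.
-/

set_option autoImplicit false
set_option Elab.async false
set_option maxRecDepth 100000

namespace Crest.Agent.R187.SN.Fwd

open Crest.Agent.R187.SN.Top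

noncomputable def F3_19327352832 : Fwd := ⟨V3_19327352832, [
  ⟨V2_12884901888, nat_lit 1, [(nat_lit 113, nat_lit 19327352832)]⟩], [
  W3_16106127360]⟩

theorem F3_19327352832_chk : fwdChk 3 ks3 F3_19327352832 = true := by decide +kernel

noncomputable def F3_15099494400 : Fwd := ⟨V3_15099494400, [
  ⟨V2_8657043456, nat_lit 1, [(nat_lit 97, nat_lit 15099494400)]⟩], [
  W3_13992198144, W3_12935233536, W3_11878268928]⟩

theorem F3_15099494400_chk : fwdChk 3 ks3 F3_15099494400 = true := by decide +kernel

noncomputable def F3_15066464256 : Fwd := ⟨V3_15066464256, [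
  ⟨V2_10770972672, nat_lit 1, [(nat_lit 100, nat_lit 15066464256),
  (nat_lit 36, nat_lit 16139943936), (nat_lit 67, nat_lit 17213423616)]⟩], [
  W3_13992198144, W3_11845238784]⟩

theorem F3_15066464256_chk : fwdChk 3 ks3 F3_15066464256 = true := by decide +kernel

noncomputable def F3_12985565184 : Fwd := ⟨V3_12985565184, [
  ⟨V2_6543114240, nat_lit 1, [(nat_lit 73, nat_lit 12985565184)]⟩,
  ⟨V2_12884901888, nat_lit 1, [(nat_lit 124, nat_lit 12985565184),
  (nat_lit 111, nat_lit 14042529792), (nat_lit 92, nat_lit 15099494400),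
  (nat_lit 42, nat_lit 16156459008), (nat_lit 6, nat_lit 17213423616),
  (nat_lit 74, nat_lit 18270388224), (nat_lit 57, nat_lit 19327352832)]⟩], [
  W3_12935233536, W3_11878268928, W3_10821304320, W3_9764339712]⟩

theorem F3_12985565184_chk : fwdChk 3 ks3 F3_12985565184 = true := by decide +kernel

noncomputable def F3_12952535040 : Fwd := ⟨V3_12952535040, [
  ⟨V2_8657043456, nat_lit 1, [(nat_lit 12, nat_lit 12952535040),
  (nat_lit 122, nat_lit 14026014720), (nat_lit 115, nat_lit 15099494400)]⟩], [
  W3_12935233536, W3_11878268928, W3_11845238784, W3_10804789248, W3_9731309568]⟩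

theorem F3_12952535040_chk : fwdChk 3 ks3 F3_12952535040 = true := by decide +kernel

noncomputable def F3_11912085504 : Fwd := ⟨V3_11912085504, [
  ⟨V2_6543114240, nat_lit 1, [(nat_lit 41, nat_lit 11912085504),
  (nat_lit 17, nat_lit 12985565184)]⟩], [
  W3_11878268928, W3_10821304320, W3_10804789248, W3_9764339712, W3_8690860032]⟩

theorem F3_11912085504_chk : fwdChk 3 ks3 F3_11912085504 = true := by decide +kernel

noncomputable def F3_11895570432 : Fwd := ⟨V3_11895570432, [
  ⟨V2_10770972672, nat_lit 1, [(nat_lit 71, nat_lit 11895570432),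
  (nat_lit 108, nat_lit 12969050112), (nat_lit 62, nat_lit 12952535040),
  (nat_lit 97, nat_lit 14042529792), (nat_lit 43, nat_lit 14026014720),
  (nat_lit 9, nat_lit 14009499648), (nat_lit 49, nat_lit 15099494400),
  (nat_lit 59, nat_lit 15082979328), (nat_lit 46, nat_lit 15066464256),
  (nat_lit 79, nat_lit 16156459008), (nat_lit 54, nat_lit 16139943936),
  (nat_lit 13, nat_lit 17213423616)]⟩], [
  W3_11878268928, W3_11845238784, W3_10821304320, W3_10804789248, W3_9731309568, W3_8674344960]⟩

theorem F3_11895570432_chk : fwdChk 3 ks3 F3_11895570432 = true := by decide +kernel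

noncomputable def F3_10871635968 : Fwd := ⟨V3_10871635968, [
  ⟨V2_10770972672, nat_lit 1, [(nat_lit 82, nat_lit 10871635968),
  (nat_lit 12, nat_lit 11928600576), (nat_lit 103, nat_lit 12985565184),
  (nat_lit 69, nat_lit 14042529792), (nat_lit 1, nat_lit 15099494400),
  (nat_lit 6, nat_lit 16156459008), (nat_lit 112, nat_lit 17213423616)]⟩], [
  W3_10821304320, W3_9764339712]⟩

theorem F3_10871635968_chk : fwdChk 3 ks3 F3_10871635968 = true := by decide +kernel

noncomputable def F3_10855120896 : Fwd := ⟨V3_10855120896, [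
  ⟨V2_10770972672, nat_lit 1, [(nat_lit 96, nat_lit 10855120896),
  (nat_lit 120, nat_lit 11928600576), (nat_lit 51, nat_lit 11912085504),
  (nat_lit 75, nat_lit 12985565184), (nat_lit 49, nat_lit 12969050112),
  (nat_lit 104, nat_lit 14042529792), (nat_lit 102, nat_lit 14026014720),
  (nat_lit 70, nat_lit 15099494400), (nat_lit 99, nat_lit 15082979328),
  (nat_lit 65, nat_lit 16156459008), (nat_lit 112, nat_lit 16139943936),
  (nat_lit 25, nat_lit 17213423616)]⟩], [
  W3_10821304320, W3_10804789248, W3_9764339712, W3_8690860032]⟩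

theorem F3_10855120896_chk : fwdChk 3 ks3 F3_10855120896 = true := by decide +kernel

noncomputable def F3_10838605824 : Fwd := ⟨V3_10838605824, [
  ⟨V2_6543114240, nat_lit 1, [(nat_lit 35, nat_lit 10838605824), (nat_lit 8, nat_lit 11912085504),
  (nat_lit 40, nat_lit 12985565184)]⟩], [
  W3_10821304320, W3_10804789248, W3_9764339712, W3_9731309568, W3_8690860032, W3_8674344960]⟩

theorem F3_10838605824_chk : fwdChk 3 ks3 F3_10838605824 = true := by decide +kernel

noncomputable def F3_10805575680 : Fwd := ⟨V3_10805575680, [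
  ⟨V2_8657043456, nat_lit 1, [(nat_lit 55, nat_lit 10805575680),
  (nat_lit 65, nat_lit 11879055360), (nat_lit 27, nat_lit 12952535040),
  (nat_lit 10, nat_lit 14026014720), (nat_lit 14, nat_lit 15099494400)]⟩], [
  W3_10804789248, W3_9731309568, W3_7584350208]⟩

theorem F3_10805575680_chk : fwdChk 3 ks3 F3_10805575680 = true := by decide +kernel

noncomputable def F3_9765126144 : Fwd := ⟨V3_9765126144, [
  ⟨V2_6543114240, nat_lit 1, [(nat_lit 56, nat_lit 9765126144), (nat_lit 76, nat_lit 10838605824),
  (nat_lit 56, nat_lit 11912085504), (nat_lit 42, nat_lit 12985565184)]⟩], [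
  W3_9764339712, W3_9731309568, W3_8690860032, W3_8674344960, W3_6543900672]⟩

theorem F3_9765126144_chk : fwdChk 3 ks3 F3_9765126144 = true := by decide +kernel

noncomputable def F3_8724676608 : Fwd := ⟨V3_8724676608, [
  ⟨V2_8657043456, nat_lit 1, [(nat_lit 73, nat_lit 8724676608), (nat_lit 23, nat_lit 9798156288),
  (nat_lit 30, nat_lit 9781641216), (nat_lit 125, nat_lit 10871635968),
  (nat_lit 19, nat_lit 10855120896), (nat_lit 87, nat_lit 10838605824),
  (nat_lit 90, nat_lit 11928600576), (nat_lit 32, nat_lit 11912085504),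
  (nat_lit 28, nat_lit 11895570432), (nat_lit 1, nat_lit 12985565184),
  (nat_lit 19, nat_lit 12969050112), (nat_lit 17, nat_lit 12952535040),
  (nat_lit 31, nat_lit 14042529792), (nat_lit 126, nat_lit 14026014720),
  (nat_lit 32, nat_lit 15099494400)]⟩], [
  W3_8690860032, W3_8674344960]⟩

theorem F3_8724676608_chk : fwdChk 3 ks3 F3_8724676608 = true := by decide +kernel

noncomputable def F3_8691646464 : Fwd := ⟨V3_8691646464, [
  ⟨V2_6543114240, nat_lit 1, [(nat_lit 24, nat_lit 8691646464), (nat_lit 54, nat_lit 9765126144),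
  (nat_lit 124, nat_lit 10838605824), (nat_lit 86, nat_lit 11912085504),
  (nat_lit 4, nat_lit 12985565184)]⟩], [
  W3_8690860032, W3_8674344960, W3_7584350208, W3_6543900672]⟩

theorem F3_8691646464_chk : fwdChk 3 ks3 F3_8691646464 = true := by decide +kernel

noncomputable def F3_6544687104 : Fwd := ⟨V3_6544687104, [
  ⟨V2_6543114240, nat_lit 1, [(nat_lit 91, nat_lit 6544687104), (nat_lit 17, nat_lit 7618166784),
  (nat_lit 111, nat_lit 8691646464), (nat_lit 34, nat_lit 9765126144),
  (nat_lit 74, nat_lit 10838605824), (nat_lit 98, nat_lit 11912085504),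
  (nat_lit 118, nat_lit 12985565184)]⟩], [
  W3_6543900672]⟩

theorem F3_6544687104_chk : fwdChk 3 ks3 F3_6544687104 = true := by decide +kernel

end Crest.Agent.R187.SN.Fwd
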