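import Crest.Agent.R187.SN.TD.Base

/-!
# Row 187, PLAN S, generated certificate data (mod 127): level (5, 4), part 0

Written by a C++ program (helper662) from the recursion of `SN/Spec.lean`; canonical (RREF)
frames.  The tables are only data: every property is checked by the kernel elsewhere.
-/

set_option autoImplicit false
set_option maxRecDepth 100000

namespace Crest.Agent.R187.SN.Top

noncomputable def W4_6544695296 : WT := ⟨nat_lit 0x186182000, nat_lit 1, .cons (nat_lit 0x1860c0000) (nat_lit 0x18081007030) (nat_lit 1) (nat_lit 0x5d) (.cons (nat_lit 0x186081000) (nat_lit 0x18200e06028) (nat_lit 0) (nat_lit 0) (.nil))⟩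

noncomputable def W4_7617916928 : WT := ⟨nat_lit 0x1c6103000, nat_lit 1, .cons (nat_lit 0x1c50c0000) (nat_lit 0x200c0406048) (nat_lit 0) (nat_lit 0) (.cons (nat_lit 0x1c4100000) (nat_lit 0x200c0409040) (nat_lit 1) (nat_lit 0x53) (.cons (nat_lit 0x1c40c1000) (nat_lit 0x200c0c09040) (nat_lit 0) (nat_lit 0) (.cons (nat_lit 0x1860c0000) (nat_lit 0x200c0406058) (nat_lit 1) (nat_lit 0xd) (.cons (nat_lit 0x185100000) (nat_lit 0x200c0409058) (nat_lit 0) (nat_lit 0) (.cons (nat_lit 0x1850c1000) (nat_lit 0x200c0c09058) (nat_lit 0) (nat_lit 0) (.cons (nat_lit 0x184101000) (nat_lit 0x200c1208058) (nat_lit 0) (nat_lit 0) (.cons (nat_lit 0x1840c2000) (nat_lit 0x20181208058) (nat_lit 0) (nat_lit 0) (.nil))))))))⟩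

noncomputable def W4_8658108416 : WT := ⟨nat_lit 0x204104000, nat_lit 1, .cons (nat_lit 0x1c4100000) (nat_lit 0x28100602060) (nat_lit 1) (nat_lit 0x3e) (.cons (nat_lit 0x184101000) (nat_lit 0x2810060c058) (nat_lit 0) (nat_lit 0) (.cons (nat_lit 0x144102000) (nat_lit 0x2810180b050) (nat_lit 0) (nat_lit 0) (.cons (nat_lit 0x104103000) (nat_lit 0x2830160a048) (nat_lit 0) (nat_lit 0) (.nil))))⟩

noncomputable def W4_8691654656 : WT := ⟨nat_lit 0x206102000, nat_lit 1, .cons (nat_lit 0x205080000) (nat_lit 0x18080c05048) (nat_lit 1) (nat_lit 0x21) (.cons (nat_lit 0x2040c0000) (nat_lit 0x18080c09040) (nat_lit 0) (nat_lit 0) (.cons (nat_lit 0x204081000) (nat_lit 0x18180a09040) (nat_lit 0) (nat_lit 0) (.cons (nat_lit 0x1c6080000) (nat_lit 0x18080c05060) (nat_lit 0) (nat_lit 0) (.cons (nat_lit 0x1c50c0000) (nat_lit 0x18080c09060) (nat_lit 0) (nat_lit 0) (.cons (nat_lit 0x1c5081000) (nat_lit 0x18180a09060) (nat_lit 0)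 (nat_lit 0) (.cons (nat_lit 0x1c4100000) (nat_lit 0x18081208060) (nat_lit 1) (nat_lit 0x50) (.cons (nat_lit 0x1c40c1000) (nat_lit 0x18181208060) (nat_lit 0) (nat_lit 0) (.cons (nat_lit 0x1c4082000) (nat_lit 0x30141208060) (nat_lit 0) (nat_lit 0) (.cons (nat_lit 0x1860c0000) (nat_lit 0x18080c0c058) (nat_lit 1) (nat_lit 0x65) (.cons (nat_lit 0x186081000) (nat_lit 0x18180a0c058) (nat_lit 0) (nat_lit 0) (.cons (nat_lit 0x185100000) (nat_lit 0x1808120c058) (nat_lit 0) (nat_lit 0) (.cons (nat_lit 0x1850c1000) (nat_lit 0x1818120c058) (nat_lit 0) (nat_lit 0) (.cons (nat_lit 0x185082000) (nat_lit 0x3014120c058) (nat_lit 0) (nat_lit 0) (.cons (nat_lit 0x184101000) (nat_lit 0x1824100c058) (nat_lit 0) (nat_lit 0) (.cons (nat_lit 0x1840c2000) (nat_lit 0x3024100c058) (nat_lit 0) (nat_lit 0) (.nil))))))))))))))))⟩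

noncomputable def W4_8691912704 : WT := ⟨nat_lit 0x206141000, nat_lit 1, .cons (nat_lit 0x206040000) (nat_lit 0x101c0c05020) (nat_lit 1) (nat_lit 0x20) (.cons (nat_lit 0x205080000) (nat_lit 0x101c0c05048) (nat_lit 1) (nat_lit 0x20) (.cons (nat_lit 0x205041000) (nat_lit 0x38180a04048) (nat_lit 0) (nat_lit 0) (.cons (nat_lit 0x1c6080000) (nat_lit 0x101c0c05060) (nat_lit 0) (nat_lit 0) (.cons (nat_lit 0x1c6041000) (nat_lit 0x38180a04060) (nat_lit 0) (nat_lit 0) (.cons (nat_lit 0x1c50c0000) (nat_lit 0x101c0c09060) (nat_lit 0) (nat_lit 0) (.cons (nat_lit 0x1c5081000) (nat_lit 0x38180a09060) (nat_lit 0) (nat_lit 0) (.cons (nat_lit 0x1860c0000) (nat_lit 0x101c0c0c058) (nat_lit 1) (nat_lit 0x70) (.cons (nat_lit 0x186081000) (nat_lit 0x38180a0c058) (nat_lit 0) (nat_lit 0) (.cons (nat_lit 0x185100000) (nat_lit 0x101c120c058) (nat_lit 0) (nat_lit 0) (.cons (nat_lit 0x1850c1000) (nat_lit 0x3818120c058) (nat_lit 0) (nat_lit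 0) (.nil)))))))))))⟩

noncomputable def W4_8692170752 : WT := ⟨nat_lit 0x206180000, nat_lit 1, .cons (nat_lit 0x206040000) (nat_lit 0x401c0c05020) (nat_lit 1) (nat_lit 0x33) (.cons (nat_lit 0x1c6080000) (nat_lit 0x401c0c05060) (nat_lit 0) (nat_lit 0) (.cons (nat_lit 0x1860c0000) (nat_lit 0x401c0c0c058) (nat_lit 1) (nat_lit 0x10) (.nil)))⟩

noncomputable def W4_8708427776 : WT := ⟨nat_lit 0x207101000, nat_lit 1, .cons (nat_lit 0x206040000) (nat_lit 0x10180a04050) (nat_lit 1) (nat_lit 0x6f) (.cons (nat_lit 0x205080000) (nat_lit 0x10180a0a048) (nat_lit 1) (nat_lit 0x4) (.cons (nat_lit 0x205041000) (nat_lit 0x3014080a048) (nat_lit 0) (nat_lit 0) (.cons (nat_lit 0x2040c0000) (nat_lit 0x10181409040) (nat_lit 0) (nat_lit 0) (.cons (nat_lit 0x204081000) (nat_lit 0x30141409040) (nat_lit 0) (nat_lit 0) (.cons (nat_lit 0x1c7040000) (nat_lit 0x10180a04060) (nat_lit 0) (nat_lit 0) (.cons (nat_lit 0x1c6080000) (nat_lit 0x10180a0a060)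 (nat_lit 0) (nat_lit 0) (.cons (nat_lit 0x1c6041000) (nat_lit 0x3014080a060) (nat_lit 0) (nat_lit 0) (.cons (nat_lit 0x1c50c0000) (nat_lit 0x10181409060) (nat_lit 0) (nat_lit 0) (.cons (nat_lit 0x1c5081000) (nat_lit 0x30141409060) (nat_lit 0) (nat_lit 0) (.cons (nat_lit 0x1c4100000) (nat_lit 0x10281208060) (nat_lit 1) (nat_lit 0x13) (.cons (nat_lit 0x1c40c1000) (nat_lit 0x30281208060) (nat_lit 0) (nat_lit 0) (.nil))))))))))))⟩

noncomputable def W4_8724684800 : WT := ⟨nat_lit 0x208082000, nat_lit 1, .cons (nat_lit 0x205080000) (nat_lit 0x1808160a048) (nat_lit 1) (nat_lit 0x45) (.cons (nat_lit 0x204081000) (nat_lit 0x182c1409040) (nat_lit 0) (nat_lit 0) (.cons (nat_lit 0x203082000) (nat_lit 0x58281208038) (nat_lit 0) (nat_lit 0) (.nil)))⟩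

noncomputable def W4_8725200896 : WT := ⟨nat_lit 0x208100000, nat_lit 1, .cons (nat_lit 0x207000000) (nat_lit 0x30140803058) (nat_lit 0) (nat_lit 0) (.cons (nat_lit 0x206040000) (nat_lit 0x3014080b050) (nat_lit 1) (nat_lit 0x6c) (.cons (nat_lit 0x205080000) (nat_lit 0x3014160a048) (nat_lit 1) (nat_lit 0x31) (.cons (nat_lit 0x2040c0000) (nat_lit 0x302c1409040) (nat_lit 0) (nat_lit 0) (.nil))))⟩

noncomputable def W4_9748619264 : WT := ⟨nat_lit 0x245102000, nat_lit 1, .cons (nat_lit 0x244080000) (nat_lit 0x18080c05040) (nat_lit 1) (nat_lit 0x49) (.cons (nat_lit 0x205080000) (nat_lit 0x18080c05068) (nat_lit 1) (nat_lit 0x4e) (.cons (nat_lit 0x2040c0000) (nat_lit 0x18080c08068) (nat_lit 0) (nat_lit 0) (.cons (nat_lit 0x204081000) (nat_lit 0x18180a08068) (nat_lit 0) (nat_lit 0) (.cons (nat_lit 0x1c50c0000) (nat_lit 0x18080c0d060) (nat_lit 0) (nat_lit 0) (.cons (nat_lit 0x1c5081000) (nat_lit 0x18180a0d060) (nat_lit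 0) (nat_lit 0) (.cons (nat_lit 0x1c4100000) (nat_lit 0x1808100d060) (nat_lit 1) (nat_lit 0x15) (.cons (nat_lit 0x1c40c1000) (nat_lit 0x1818100d060) (nat_lit 0) (nat_lit 0) (.cons (nat_lit 0x1c4082000) (nat_lit 0x3014100d060) (nat_lit 0) (nat_lit 0) (.cons (nat_lit 0x185100000) (nat_lit 0x18081a0c058) (nat_lit 0) (nat_lit 0) (.cons (nat_lit 0x1850c1000) (nat_lit 0x18181a0c058) (nat_lit 0) (nat_lit 0) (.cons (nat_lit 0x185082000) (nat_lit 0x30141a0c058) (nat_lit 0) (nat_lit 0) (.cons (nat_lit 0x184101000) (nat_lit 0x18201a0c058) (nat_lit 0) (nat_lit 0) (.cons (nat_lit 0x1840c2000) (nat_lit 0x30201a0c058) (nat_lit 0) (nat_lit 0) (.cons (nat_lit 0x145101000) (nat_lit 0x1834180b050) (nat_lit 0) (nat_lit 0) (.cons (nat_lit 0x1450c2000) (nat_lit 0x3034180b050) (nat_lit 0) (nat_lit 0) (.cons (nat_lit 0x144102000) (nat_lit 0x4034180b050) (nat_lit 0) (nat_lit 0) (.nil)))))))))))))))))⟩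

noncomputable def W4_9765134336 : WT := ⟨nat_lit 0x2460c2000, nat_lit 1, .cons (nat_lit 0x244080000) (nat_lit 0x18080a09040) (nat_lit 1) (nat_lit 0x6f) (.cons (nat_lit 0x2430c0000) (nat_lit 0x18081208038) (nat_lit 0) (nat_lit 0) (.cons (nat_lit 0x243081000) (nat_lit 0x18141208038) (nat_lit 0) (nat_lit 0) (.cons (nat_lit 0x205080000) (nat_lit 0x18080a09068) (nat_lit 1) (nat_lit 0x1a) (.cons (nat_lit 0x2040c0000) (nat_lit 0x18081208068) (nat_lit 0) (nat_lit 0) (.cons (nat_lit 0x204081000) (nat_lit 0x18141208068) (nat_lit 0) (nat_lit 0) (.cons (nat_lit 0x2030c1000) (nat_lit 0x18241007068) (nat_lit 0) (nat_lit 0) (.cons (nat_lit 0x203082000) (nat_lit 0x28241007068) (nat_lit 0) (nat_lit 0) (.cons (nat_lit 0x1c6080000) (nat_lit 0x18080a0d060) (nat_lit 0) (nat_lit 0) (.cons (nat_lit 0x1c50c0000) (nat_lit 0x1808120d060) (nat_lit 0) (nat_lit 0) (.cons (nat_lit 0x1c5081000) (nat_lit 0x1814120d060) (nat_lit 0) (nat_lit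 0) (.cons (nat_lit 0x1c40c1000) (nat_lit 0x1824100d060) (nat_lit 0) (nat_lit 0) (.cons (nat_lit 0x1c4082000) (nat_lit 0x2824100d060) (nat_lit 0) (nat_lit 0) (.cons (nat_lit 0x1c30c2000) (nat_lit 0x48200e0d060) (nat_lit 0) (nat_lit 0) (.cons (nat_lit 0x1860c0000) (nat_lit 0x18081a0c058) (nat_lit 1) (nat_lit 0x32) (.cons (nat_lit 0x186081000) (nat_lit 0x18141a0c058) (nat_lit 0) (nat_lit 0) (.cons (nat_lit 0x1850c1000) (nat_lit 0x18241a0c058) (nat_lit 0) (nat_lit 0) (.cons (nat_lit 0x185082000) (nat_lit 0x28241a0c058) (nat_lit 0) (nat_lit 0) (.cons (nat_lit 0x1840c2000) (nat_lit 0x48201a0c058) (nat_lit 0) (nat_lit 0) (.nil)))))))))))))))))))⟩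

noncomputable def W4_9765392384 : WT := ⟨nat_lit 0x246101000, nat_lit 1, .cons (nat_lit 0x245040000) (nat_lit 0x10180a04048) (nat_lit 0) (nat_lit 0) (.cons (nat_lit 0x244080000) (nat_lit 0x10180a09040) (nat_lit 1) (nat_lit 0x3c) (.cons (nat_lit 0x244041000) (nat_lit 0x30140809040) (nat_lit 0) (nat_lit 0) (.cons (nat_lit 0x206040000) (nat_lit 0x10180a04068) (nat_lit 1) (nat_lit 0x6) (.cons (nat_lit 0x205080000) (nat_lit 0x10180a09068) (nat_lit 1) (nat_lit 0) (.cons (nat_lit 0x205041000) (nat_lit 0x30140809068) (nat_lit 0) (nat_lit 0) (.cons (nat_lit 0x2040c0000) (nat_lit 0x10181208068) (nat_lit 0) (nat_lit 0) (.cons (nat_lit 0x204081000) (nat_lit 0x30141208068) (nat_lit 0) (nat_lit 0) (.cons (nat_lit 0x1c6080000) (nat_lit 0x10180a0d060) (nat_lit 0) (nat_lit 0) (.cons (nat_lit 0x1c6041000) (nat_lit 0x3014080d060) (nat_lit 0) (nat_lit 0) (.cons (nat_lit 0x1c50c0000) (nat_lit 0x1018120d060) (nat_lit 0) (nat_lit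 0) (.cons (nat_lit 0x1c5081000) (nat_lit 0x3014120d060) (nat_lit 0) (nat_lit 0) (.cons (nat_lit 0x1c4100000) (nat_lit 0x1024100d060) (nat_lit 1) (nat_lit 0x11) (.cons (nat_lit 0x1c40c1000) (nat_lit 0x3024100d060) (nat_lit 0) (nat_lit 0) (.cons (nat_lit 0x1860c0000) (nat_lit 0x10181a0c058) (nat_lit 1) (nat_lit 0x3c) (.cons (nat_lit 0x186081000) (nat_lit 0x30141a0c058) (nat_lit 0) (nat_lit 0) (.cons (nat_lit 0x185100000) (nat_lit 0x10241a0c058) (nat_lit 0) (nat_lit 0) (.cons (nat_lit 0x1850c1000) (nat_lit 0x30241a0c058) (nat_lit 0) (nat_lit 0) (.cons (nat_lit 0x184101000) (nat_lit 0x48201a0c058) (nat_lit 0) (nat_lit 0) (.nil)))))))))))))))))))⟩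

noncomputable def W4_9765650432 : WT := ⟨nat_lit 0x246140000, nat_lit 1, .cons (nat_lit 0x246000000) (nat_lit 0x38180a04018) (nat_lit 1) (nat_lit 0x5c) (.cons (nat_lit 0x245040000) (nat_lit 0x38180a04048) (nat_lit 0) (nat_lit 0) (.cons (nat_lit 0x206040000) (nat_lit 0x38180a04068) (nat_lit 1) (nat_lit 0x19) (.cons (nat_lit 0x205080000) (nat_lit 0x38180a09068) (nat_lit 1) (nat_lit 0x12) (.cons (nat_lit 0x1c6080000) (nat_lit 0x38180a0d060) (nat_lit 0) (nat_lit 0) (.cons (nat_lit 0x1c50c0000) (nat_lit 0x3818120d060) (nat_lit 0) (nat_lit 0) (.cons (nat_lit 0x1860c0000) (nat_lit 0x38181a0c058) (nat_lit 1) (nat_lit 0x18) (.cons (nat_lit 0x185100000) (nat_lit 0x38241a0c058) (nat_lit 0) (nat_lit 0) (.nil))))))))⟩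

noncomputable def W4_9781907456 : WT := ⟨nat_lit 0x2470c1000, nat_lit 1, .cons (nat_lit 0x245040000) (nat_lit 0x1014080a048) (nat_lit 0) (nat_lit 0) (.cons (nat_lit 0x244080000) (nat_lit 0x10141409040) (nat_lit 1) (nat_lit 0x1e) (.cons (nat_lit 0x244041000) (nat_lit 0x28101409040) (nat_lit 0) (nat_lit 0) (.cons (nat_lit 0x2430c0000) (nat_lit 0x10281208038) (nat_lit 0) (nat_lit 0) (.cons (nat_lit 0x243081000) (nat_lit 0x28281208038) (nat_lit 0) (nat_lit 0) (.cons (nat_lit 0x206040000) (nat_lit 0x1014080a068) (nat_lit 1) (nat_lit 0x3d) (.cons (nat_lit 0x205080000) (nat_lit 0x10141409068) (nat_lit 1) (nat_lit 0x69) (.cons (nat_lit 0x205041000) (nat_lit 0x28101409068) (nat_lit 0) (nat_lit 0) (.cons (nat_lit 0x2040c0000) (nat_lit 0x10281208068) (nat_lit 0) (nat_lit 0) (.cons (nat_lit 0x204081000) (nat_lit 0x28281208068) (nat_lit 0) (nat_lit 0) (.cons (nat_lit 0x2030c1000) (nat_lit 0x50241007068) (nat_lit 0) (nat_lit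 0) (.cons (nat_lit 0x1c7040000) (nat_lit 0x1014080d060) (nat_lit 0) (nat_lit 0) (.cons (nat_lit 0x1c6080000) (nat_lit 0x1014140d060) (nat_lit 0) (nat_lit 0) (.cons (nat_lit 0x1c6041000) (nat_lit 0x2810140d060) (nat_lit 0) (nat_lit 0) (.cons (nat_lit 0x1c50c0000) (nat_lit 0x1028120d060) (nat_lit 0) (nat_lit 0) (.cons (nat_lit 0x1c5081000) (nat_lit 0x2828120d060) (nat_lit 0) (nat_lit 0) (.cons (nat_lit 0x1c40c1000) (nat_lit 0x5024100d060) (nat_lit 0) (nat_lit 0) (.nil)))))))))))))))))⟩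

noncomputable def W4_9782165504 : WT := ⟨nat_lit 0x247100000, nat_lit 1, .cons (nat_lit 0x246000000) (nat_lit 0x30140803050) (nat_lit 1) (nat_lit 0x40) (.cons (nat_lit 0x245040000) (nat_lit 0x3014080a048) (nat_lit 0) (nat_lit 0) (.cons (nat_lit 0x244080000) (nat_lit 0x30141409040) (nat_lit 1) (nat_lit 0x24) (.cons (nat_lit 0x207000000) (nat_lit 0x30140803068) (nat_lit 0) (nat_lit 0) (.cons (nat_lit 0x206040000) (nat_lit 0x3014080a068) (nat_lit 1) (nat_lit 0x25) (.cons (nat_lit 0x205080000) (nat_lit 0x30141409068) (nat_lit 1) (nat_lit 0x7d) (.cons (nat_lit 0x2040c0000) (nat_lit 0x30281208068) (nat_lit 0) (nat_lit 0) (.cons (nat_lit 0x1c7040000) (nat_lit 0x3014080d060) (nat_lit 0) (nat_lit 0) (.cons (nat_lit 0x1c6080000) (nat_lit 0x3014140d060) (nat_lit 0) (nat_lit 0) (.cons (nat_lit 0x1c50c0000) (nat_lit 0x3028120d060) (nat_lit 0) (nat_lit 0) (.cons (nat_lit 0x1c4100000) (nat_lit 0x5024100d060) (nat_lit 1)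 (nat_lit 0x10) (.nil)))))))))))⟩

noncomputable def W4_9798422528 : WT := ⟨nat_lit 0x248081000, nat_lit 1, .cons (nat_lit 0x245040000) (nat_lit 0x1010160a048) (nat_lit 0) (nat_lit 0) (.cons (nat_lit 0x244080000) (nat_lit 0x102c1409040) (nat_lit 1) (nat_lit 0x38) (.cons (nat_lit 0x244041000) (nat_lit 0x202c1409040) (nat_lit 0) (nat_lit 0) (.cons (nat_lit 0x243081000) (nat_lit 0x58281208038) (nat_lit 0) (nat_lit 0) (.cons (nat_lit 0x206040000) (nat_lit 0x1010160a068) (nat_lit 1) (nat_lit 0x65) (.cons (nat_lit 0x205080000) (nat_lit 0x102c1409068) (nat_lit 1) (nat_lit 0) (.cons (nat_lit 0x205041000) (nat_lit 0x202c1409068) (nat_lit 0) (nat_lit 0) (.cons (nat_lit 0x204081000) (nat_lit 0x58281208068) (nat_lit 0) (nat_lit 0) (.nil))))))))⟩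

noncomputable def W4_9798680576 : WT := ⟨nat_lit 0x2480c0000, nat_lit 1, .cons (nat_lit 0x246000000) (nat_lit 0x2810060b050) (nat_lit 1) (nat_lit 0x2b) (.cons (nat_lit 0x245040000) (nat_lit 0x2810160a048) (nat_lit 0) (nat_lit 0) (.cons (nat_lit 0x244080000) (nat_lit 0x282c1409040) (nat_lit 1) (nat_lit 0x42) (.cons (nat_lit 0x2430c0000) (nat_lit 0x58281208038) (nat_lit 0) (nat_lit 0) (.cons (nat_lit 0x207000000) (nat_lit 0x2810060b068) (nat_lit 0) (nat_lit 0) (.cons (nat_lit 0x206040000) (nat_lit 0x2810160a068) (nat_lit 1) (nat_lit 0x3a) (.cons (nat_lit 0x205080000) (nat_lit 0x282c1409068) (nat_lit 1) (nat_lit 0x75) (.cons (nat_lit 0x2040c0000) (nat_lit 0x58281208068) (nat_lit 0) (nat_lit 0) (.nil))))))))⟩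

noncomputable def W4_10805583872 : WT := ⟨nat_lit 0x284102000, nat_lit 1, .cons (nat_lit 0x244080000) (nat_lit 0x18080c05070) (nat_lit 1) (nat_lit 0x4b) (.cons (nat_lit 0x2040c0000) (nat_lit 0x18080c0e068) (nat_lit 0) (nat_lit 0) (.cons (nat_lit 0x204081000) (nat_lit 0x18180a0e068) (nat_lit 0) (nat_lit 0) (.cons (nat_lit 0x1c4100000) (nat_lit 0x18081c0d060) (nat_lit 1) (nat_lit 0x56) (.cons (nat_lit 0x1c40c1000) (nat_lit 0x18181c0d060) (nat_lit 0) (nat_lit 0) (.cons (nat_lit 0x1c4082000) (nat_lit 0x30141c0d060) (nat_lit 0) (nat_lit 0) (.cons (nat_lit 0x184101000) (nat_lit 0x18381a0c058) (nat_lit 0) (nat_lit 0) (.cons (nat_lit 0x1840c2000) (nat_lit 0x30381a0c058) (nat_lit 0) (nat_lit 0) (.cons (nat_lit 0x144102000) (nat_lit 0x7034180b050) (nat_lit 0) (nat_lit 0) (.nil)))))))))⟩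

noncomputable def W4_10822356992 : WT := ⟨nat_lit 0x285101000, nat_lit 1, .cons (nat_lit 0x284040000) (nat_lit 0x10180a04040) (nat_lit 1) (nat_lit 0x59) (.cons (nat_lit 0x245040000) (nat_lit 0x10180a04070) (nat_lit 0) (nat_lit 0) (.cons (nat_lit 0x244080000) (nat_lit 0x10180a08070) (nat_lit 1) (nat_lit 0x43) (.cons (nat_lit 0x244041000) (nat_lit 0x30140808070) (nat_lit 0) (nat_lit 0) (.cons (nat_lit 0x205080000) (nat_lit 0x10180a0e068) (nat_lit 1) (nat_lit 0x3c) (.cons (nat_lit 0x205041000) (nat_lit 0x3014080e068) (nat_lit 0) (nat_lit 0) (.cons (nat_lit 0x2040c0000) (nat_lit 0x1018100e068) (nat_lit 0) (nat_lit 0) (.cons (nat_lit 0x204081000) (nat_lit 0x3014100e068) (nat_lit 0) (nat_lit 0) (.cons (nat_lit 0x1c50c0000) (nat_lit 0x10181c0d060) (nat_lit 0) (nat_lit 0) (.cons (nat_lit 0x1c5081000) (nat_lit 0x30141c0d060) (nat_lit 0) (nat_lit 0) (.cons (nat_lit 0x1c4100000) (nat_lit 0x10201c0d060) (nat_lit 1) (nat_lit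 0x6c) (.cons (nat_lit 0x1c40c1000) (nat_lit 0x30201c0d060) (nat_lit 0) (nat_lit 0) (.cons (nat_lit 0x185100000) (nat_lit 0x10381a0c058) (nat_lit 0) (nat_lit 0) (.cons (nat_lit 0x1850c1000) (nat_lit 0x30381a0c058) (nat_lit 0) (nat_lit 0) (.cons (nat_lit 0x184101000) (nat_lit 0x40381a0c058) (nat_lit 0) (nat_lit 0) (.cons (nat_lit 0x145101000) (nat_lit 0x7034180b050) (nat_lit 0) (nat_lit 0) (.nil))))))))))))))))⟩

noncomputable def W4_10838614016 : WT := ⟨nat_lit 0x286082000, nat_lit 1, .cons (nat_lit 0x283080000) (nat_lit 0x18081208038) (nat_lit 0) (nat_lit 0) (.cons (nat_lit 0x282081000) (nat_lit 0x18241007030) (nat_lit 0) (nat_lit 0) (.cons (nat_lit 0x244080000) (nat_lit 0x18081208070) (nat_lit 1) (nat_lit 0x3c) (.cons (nat_lit 0x243081000) (nat_lit 0x18241007070) (nat_lit 0) (nat_lit 0) (.cons (nat_lit 0x242082000) (nat_lit 0x48200e06070) (nat_lit 0) (nat_lit 0) (.cons (nat_lit 0x205080000) (nat_lit 0x1808120e068)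 (nat_lit 1) (nat_lit 0x7d) (.cons (nat_lit 0x204081000) (nat_lit 0x1824100e068) (nat_lit 0) (nat_lit 0) (.cons (nat_lit 0x203082000) (nat_lit 0x48200e0e068) (nat_lit 0) (nat_lit 0) (.cons (nat_lit 0x1c6080000) (nat_lit 0x18081c0d060) (nat_lit 0) (nat_lit 0) (.cons (nat_lit 0x1c5081000) (nat_lit 0x18241c0d060) (nat_lit 0) (nat_lit 0) (.cons (nat_lit 0x1c4082000) (nat_lit 0x48201c0d060) (nat_lit 0) (nat_lit 0) (.cons (nat_lit 0x186081000) (nat_lit 0x18381a0c058) (nat_lit 0) (nat_lit 0) (.cons (nat_lit 0x185082000) (nat_lit 0x48381a0c058) (nat_lit 0) (nat_lit 0) (.nil)))))))))))))⟩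

noncomputable def W4_10838872064 : WT := ⟨nat_lit 0x2860c1000, nat_lit 1, .cons (nat_lit 0x284040000) (nat_lit 0x10140809040) (nat_lit 1) (nat_lit 0x77) (.cons (nat_lit 0x283080000) (nat_lit 0x10141208038) (nat_lit 0) (nat_lit 0) (.cons (nat_lit 0x283041000) (nat_lit 0x28101208038) (nat_lit 0) (nat_lit 0) (.cons (nat_lit 0x245040000) (nat_lit 0x10140809070) (nat_lit 0) (nat_lit 0) (.cons (nat_lit 0x244080000) (nat_lit 0x10141208070) (nat_lit 1) (nat_lit 0x6d) (.cons (nat_lit 0x244041000) (nat_lit 0x28101208070) (nat_lit 0) (nat_lit 0) (.cons (nat_lit 0x2430c0000) (nat_lit 0x10241007070) (nat_lit 0) (nat_lit 0) (.cons (nat_lit 0x243081000) (nat_lit 0x28241007070) (nat_lit 0) (nat_lit 0) (.cons (nat_lit 0x206040000) (nat_lit 0x1014080e068) (nat_lit 1) (nat_lit 0x40) (.cons (nat_lit 0x205080000) (nat_lit 0x1014120e068) (nat_lit 1) (nat_lit 0x3d) (.cons (nat_lit 0x205041000) (nat_lit 0x2810120e068) (nat_lit 0)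 (nat_lit 0) (.cons (nat_lit 0x2040c0000) (nat_lit 0x1024100e068) (nat_lit 0) (nat_lit 0) (.cons (nat_lit 0x204081000) (nat_lit 0x2824100e068) (nat_lit 0) (nat_lit 0) (.cons (nat_lit 0x2030c1000) (nat_lit 0x48200e0e068) (nat_lit 0) (nat_lit 0) (.cons (nat_lit 0x1c6080000) (nat_lit 0x10141c0d060) (nat_lit 0) (nat_lit 0) (.cons (nat_lit 0x1c6041000) (nat_lit 0x28101c0d060) (nat_lit 0) (nat_lit 0) (.cons (nat_lit 0x1c50c0000) (nat_lit 0x10241c0d060) (nat_lit 0) (nat_lit 0) (.cons (nat_lit 0x1c5081000) (nat_lit 0x28241c0d060) (nat_lit 0) (nat_lit 0) (.cons (nat_lit 0x1c40c1000) (nat_lit 0x48201c0d060) (nat_lit 0) (nat_lit 0) (.cons (nat_lit 0x1860c0000) (nat_lit 0x10381a0c058) (nat_lit 1) (nat_lit 0x60) (.cons (nat_lit 0x186081000) (nat_lit 0x28381a0c058) (nat_lit 0) (nat_lit 0) (.cons (nat_lit 0x1850c1000) (nat_lit 0x48381a0c058) (nat_lit 0) (nat_lit 0) (.nil))))))))))))))))))))))⟩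

noncomputable def W4_10839130112 : WT := ⟨nat_lit 0x286100000, nat_lit 3, .cons (nat_lit 0x285000000) (nat_lit 0x30140803048) (nat_lit 1) (nat_lit 0x1c00000f000066) (.cons (nat_lit 0x284040000) (nat_lit 0x30140809040) (nat_lit 1) (nat_lit 0x5400002500000b) (.cons (nat_lit 0x246000000) (nat_lit 0x30140803070) (nat_lit 1) (nat_lit 0x75000013000022) (.cons (nat_lit 0x245040000) (nat_lit 0x30140809070) (nat_lit 0) (nat_lit 0) (.cons (nat_lit 0x244080000) (nat_lit 0x30141208070) (nat_lit 1) (nat_lit 0x76000069000033) (.cons (nat_lit 0x206040000) (nat_lit 0x3014080e068) (nat_lit 1) (nat_lit 0x4d000052000015) (.cons (nat_lit 0x205080000) (nat_lit 0x3014120e068) (nat_lit 1) (nat_lit 0x4800004100000b) (.cons (nat_lit 0x2040c0000) (nat_lit 0x3024100e068) (nat_lit 0) (nat_lit 0) (.cons (nat_lit 0x1c6080000) (nat_lit 0x30141c0d060) (nat_lit 0) (nat_lit 0) (.cons (nat_lit 0x1c50c0000) (nat_lit 0x30241c0d060) (nat_lit 0)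 (nat_lit 0) (.cons (nat_lit 0x1c4100000) (nat_lit 0x48201c0d060) (nat_lit 1) (nat_lit 0x30000000000000) (.cons (nat_lit 0x1860c0000) (nat_lit 0x30381a0c058) (nat_lit 1) (nat_lit 0x68000000) (.cons (nat_lit 0x185100000) (nat_lit 0x48381a0c058) (nat_lit 0) (nat_lit 0) (.nil)))))))))))))⟩

noncomputable def W4_10855387136 : WT := ⟨nat_lit 0x287081000, nat_lit 1, .cons (nat_lit 0x284040000) (nat_lit 0x10101409040) (nat_lit 1) (nat_lit 0x5d) (.cons (nat_lit 0x283080000) (nat_lit 0x10281208038) (nat_lit 0) (nat_lit 0) (.cons (nat_lit 0x283041000) (nat_lit 0x20281208038) (nat_lit 0) (nat_lit 0) (.cons (nat_lit 0x282081000) (nat_lit 0x50241007030) (nat_lit 0) (nat_lit 0) (.cons (nat_lit 0x245040000) (nat_lit 0x10101409070) (nat_lit 0) (nat_lit 0) (.cons (nat_lit 0x244080000) (nat_lit 0x10281208070) (nat_lit 1) (nat_lit 0x62) (.cons (nat_lit 0x244041000) (nat_lit 0x20281208070) (nat_lit 0) (nat_lit 0) (.cons (nat_lit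 0x243081000) (nat_lit 0x50241007070) (nat_lit 0) (nat_lit 0) (.cons (nat_lit 0x206040000) (nat_lit 0x1010140e068) (nat_lit 1) (nat_lit 0x68) (.cons (nat_lit 0x205080000) (nat_lit 0x1028120e068) (nat_lit 1) (nat_lit 0x41) (.cons (nat_lit 0x205041000) (nat_lit 0x2028120e068) (nat_lit 0) (nat_lit 0) (.cons (nat_lit 0x204081000) (nat_lit 0x5024100e068) (nat_lit 0) (nat_lit 0) (.cons (nat_lit 0x1c7040000) (nat_lit 0x10101c0d060) (nat_lit 0) (nat_lit 0) (.cons (nat_lit 0x1c6080000) (nat_lit 0x10281c0d060) (nat_lit 0) (nat_lit 0) (.cons (nat_lit 0x1c6041000) (nat_lit 0x20281c0d060) (nat_lit 0) (nat_lit 0) (.cons (nat_lit 0x1c5081000) (nat_lit 0x50241c0d060) (nat_lit 0) (nat_lit 0) (.nil))))))))))))))))⟩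

noncomputable def W4_10855645184 : WT := ⟨nat_lit 0x2870c0000, nat_lit 1, .cons (nat_lit 0x285000000) (nat_lit 0x2810060a048) (nat_lit 1) (nat_lit 0) (.cons (nat_lit 0x284040000) (nat_lit 0x28101409040) (nat_lit 1) (nat_lit 0x16) (.cons (nat_lit 0x283080000) (nat_lit 0x28281208038) (nat_lit 0) (nat_lit 0) (.cons (nat_lit 0x246000000) (nat_lit 0x2810060a070) (nat_lit 1) (nat_lit 0x10) (.cons (nat_lit 0x245040000) (nat_lit 0x28101409070) (nat_lit 0) (nat_lit 0) (.cons (nat_lit 0x244080000) (nat_lit 0x28281208070) (nat_lit 1) (nat_lit 0x7) (.cons (nat_lit 0x2430c0000) (nat_lit 0x50241007070) (nat_lit 0) (nat_lit 0) (.cons (nat_lit 0x207000000) (nat_lit 0x2810060e068) (nat_lit 0) (nat_lit 0) (.cons (nat_lit 0x206040000) (nat_lit 0x2810140e068) (nat_lit 1) (nat_lit 0x56) (.cons (nat_lit 0x205080000) (nat_lit 0x2828120e068) (nat_lit 1) (nat_lit 0) (.cons (nat_lit 0x2040c0000) (nat_lit 0x5024100e068) (nat_lit 0)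 (nat_lit 0) (.cons (nat_lit 0x1c7040000) (nat_lit 0x28101c0d060) (nat_lit 0) (nat_lit 0) (.cons (nat_lit 0x1c6080000) (nat_lit 0x28281c0d060) (nat_lit 0) (nat_lit 0) (.cons (nat_lit 0x1c50c0000) (nat_lit 0x50241c0d060) (nat_lit 0) (nat_lit 0) (.nil))))))))))))))⟩

noncomputable def W4_10872160256 : WT := ⟨nat_lit 0x288080000, nat_lit 2, .cons (nat_lit 0x285000000) (nat_lit 0x200c160a048) (nat_lit 1) (nat_lit 0x6d000078) (.cons (nat_lit 0x284040000) (nat_lit 0x202c1409040) (nat_lit 1) (nat_lit 0x22000071) (.cons (nat_lit 0x283080000) (nat_lit 0x58281208038) (nat_lit 0) (nat_lit 0) (.cons (nat_lit 0x246000000) (nat_lit 0x200c160a070) (nat_lit 1) (nat_lit 0x5800001f) (.cons (nat_lit 0x245040000) (nat_lit 0x202c1409070) (nat_lit 0) (nat_lit 0) (.cons (nat_lit 0x244080000) (nat_lit 0x58281208070) (nat_lit 1) (nat_lit 0x33000072) (.cons (nat_lit 0x207000000) (nat_lit 0x200c160e068) (nat_lit 0) (nat_lit 0) (.cons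 (nat_lit 0x206040000) (nat_lit 0x202c140e068) (nat_lit 1) (nat_lit 0x5d000033) (.cons (nat_lit 0x205080000) (nat_lit 0x5828120e068) (nat_lit 1) (nat_lit 0x3100003f) (.nil)))))))))⟩

noncomputable def W4_10888675328 : WT := ⟨nat_lit 0x289040000, nat_lit 1, .cons (nat_lit 0x285000000) (nat_lit 0x1830160a048) (nat_lit 1) (nat_lit 0) (.cons (nat_lit 0x284040000) (nat_lit 0x602c1409040) (nat_lit 1) (nat_lit 0x43) (.cons (nat_lit 0x246000000) (nat_lit 0x1830160a070) (nat_lit 1) (nat_lit 0x37) (.cons (nat_lit 0x245040000) (nat_lit 0x602c1409070) (nat_lit 0) (nat_lit 0) (.nil))))⟩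

noncomputable def W4_10905190400 : WT := ⟨nat_lit 0x28a000000, nat_lit 1, .cons (nat_lit 0x285000000) (nat_lit 0x6830160a048) (nat_lit 1) (nat_lit 0x6e) (.nil)⟩

noncomputable def W4_11879321600 : WT := ⟨nat_lit 0x2c4101000, nat_lit 1, .cons (nat_lit 0x284040000) (nat_lit 0x10180a04078) (nat_lit 1) (nat_lit 0x19) (.cons (nat_lit 0x244080000) (nat_lit 0x10180a0f070) (nat_lit 1) (nat_lit 0x3d) (.cons (nat_lit 0x244041000) (nat_lit 0x3014080f070) (nat_lit 0) (nat_lit 0) (.cons (nat_lit 0x2040c0000) (nat_lit 0x10181e0e068) (nat_lit 0) (nat_lit 0) (.cons (nat_lit 0x204081000) (nat_lit 0x30141e0e068) (nat_lit 0) (nat_lit 0) (.cons (nat_lit 0x1c4100000) (nat_lit 0x103c1c0d060) (nat_lit 1) (nat_lit 0x4) (.cons (nat_lit 0x1c40c1000) (nat_lit 0x303c1c0d060) (nat_lit 0) (nat_lit 0) (.cons (nat_lit 0x184101000) (nat_lit 0x78381a0c058) (nat_lit 0) (nat_lit 0) (.nil))))))))⟩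

noncomputable def W4_11895578624 : WT := ⟨nat_lit 0x2c5082000, nat_lit 1, .cons (nat_lit 0x2c2080000) (nat_lit 0x18081007030) (nat_lit 1) (nat_lit 0x2) (.cons (nat_lit 0x283080000) (nat_lit 0x18081007078) (nat_lit 0) (nat_lit 0) (.cons (nat_lit 0x282081000) (nat_lit 0x18200e06078) (nat_lit 0) (nat_lit 0) (.cons (nat_lit 0x244080000) (nat_lit 0x1808100f070) (nat_lit 1) (nat_lit 0x21) (.cons (nat_lit 0x243081000) (nat_lit 0x18200e0f070) (nat_lit 0) (nat_lit 0) (.cons (nat_lit 0x242082000) (nat_lit 0x401c0c0f070) (nat_lit 0) (nat_lit 0) (.cons (nat_lit 0x205080000) (nat_lit 0x18081e0e068) (nat_lit 1) (nat_lit 0x79) (.cons (nat_lit 0x204081000) (nat_lit 0x18201e0e068) (nat_lit 0) (nat_lit 0) (.cons (nat_lit 0x203082000) (nat_lit 0x401c1e0e068) (nat_lit 0) (nat_lit 0) (.cons (nat_lit 0x1c5081000) (nat_lit 0x183c1c0d060) (nat_lit 0) (nat_lit 0) (.cons (nat_lit 0x1c4082000) (nat_lit 0x403c1c0d060) (nat_lit 0) (nat_lit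 0) (.cons (nat_lit 0x185082000) (nat_lit 0x78381a0c058) (nat_lit 0) (nat_lit 0) (.nil))))))))))))⟩

noncomputable def W4_11895836672 : WT := ⟨nat_lit 0x2c50c1000, nat_lit 1, .cons (nat_lit 0x2c3040000) (nat_lit 0x10140808038) (nat_lit 0) (nat_lit 0) (.cons (nat_lit 0x284040000) (nat_lit 0x10140808078) (nat_lit 1) (nat_lit 0x2) (.cons (nat_lit 0x283080000) (nat_lit 0x10141007078) (nat_lit 0) (nat_lit 0) (.cons (nat_lit 0x283041000) (nat_lit 0x28101007078) (nat_lit 0) (nat_lit 0) (.cons (nat_lit 0x245040000) (nat_lit 0x1014080f070) (nat_lit 0) (nat_lit 0) (.cons (nat_lit 0x244080000) (nat_lit 0x1014100f070) (nat_lit 1) (nat_lit 0x3b) (.cons (nat_lit 0x244041000) (nat_lit 0x2810100f070) (nat_lit 0) (nat_lit 0) (.cons (nat_lit 0x2430c0000) (nat_lit 0x10200e0f070) (nat_lit 0) (nat_lit 0) (.cons (nat_lit 0x243081000) (nat_lit 0x28200e0f070) (nat_lit 0) (nat_lit 0) (.cons (nat_lit 0x205080000) (nat_lit 0x10141e0e068)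 (nat_lit 1) (nat_lit 0x14) (.cons (nat_lit 0x205041000) (nat_lit 0x28101e0e068) (nat_lit 0) (nat_lit 0) (.cons (nat_lit 0x2040c0000) (nat_lit 0x10201e0e068) (nat_lit 0) (nat_lit 0) (.cons (nat_lit 0x204081000) (nat_lit 0x28201e0e068) (nat_lit 0) (nat_lit 0) (.cons (nat_lit 0x2030c1000) (nat_lit 0x401c1e0e068) (nat_lit 0) (nat_lit 0) (.cons (nat_lit 0x1c50c0000) (nat_lit 0x103c1c0d060) (nat_lit 0) (nat_lit 0) (.cons (nat_lit 0x1c5081000) (nat_lit 0x283c1c0d060) (nat_lit 0) (nat_lit 0) (.cons (nat_lit 0x1c40c1000) (nat_lit 0x403c1c0d060) (nat_lit 0) (nat_lit 0) (.cons (nat_lit 0x1850c1000) (nat_lit 0x78381a0c058) (nat_lit 0) (nat_lit 0) (.nil))))))))))))))))))⟩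

noncomputable def W4_11896094720 : WT := ⟨nat_lit 0x2c5100000, nat_lit 1, .cons (nat_lit 0x2c4000000) (nat_lit 0x30140803040) (nat_lit 1) (nat_lit 0x2f) (.cons (nat_lit 0x285000000) (nat_lit 0x30140803078) (nat_lit 1) (nat_lit 0x6c) (.cons (nat_lit 0x284040000) (nat_lit 0x30140808078) (nat_lit 1) (nat_lit 0x1d) (.cons (nat_lit 0x245040000) (nat_lit 0x3014080f070) (nat_lit 0) (nat_lit 0) (.cons (nat_lit 0x244080000) (nat_lit 0x3014100f070) (nat_lit 1) (nat_lit 0xc) (.cons (nat_lit 0x205080000) (nat_lit 0x30141e0e068) (nat_lit 1) (nat_lit 0x44) (.cons (nat_lit 0x2040c0000) (nat_lit 0x30201e0e068) (nat_lit 0) (nat_lit 0) (.cons (nat_lit 0x1c50c0000) (nat_lit 0x303c1c0d060) (nat_lit 0) (nat_lit 0) (.cons (nat_lit 0x1c4100000) (nat_lit 0x403c1c0d060) (nat_lit 1) (nat_lit 0x21) (.cons (nat_lit 0x185100000) (nat_lit 0x78381a0c058) (nat_lit 0) (nat_lit 0) (.nil))))))))))⟩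

noncomputable def W4_11912351744 : WT := ⟨nat_lit 0x2c6081000, nat_lit 1, .cons (nat_lit 0x2c3040000) (nat_lit 0x10101208038) (nat_lit 0) (nat_lit 0) (.cons (nat_lit 0x2c2080000) (nat_lit 0x10241007030) (nat_lit 1) (nat_lit 0x54) (.cons (nat_lit 0x2c2041000) (nat_lit 0x20241007030) (nat_lit 0) (nat_lit 0) (.cons (nat_lit 0x284040000) (nat_lit 0x10101208078) (nat_lit 1) (nat_lit 0x55) (.cons (nat_lit 0x283080000) (nat_lit 0x10241007078) (nat_lit 0) (nat_lit 0) (.cons (nat_lit 0x283041000) (nat_lit 0x20241007078) (nat_lit 0) (nat_lit 0) (.cons (nat_lit 0x282081000) (nat_lit 0x48200e06078) (nat_lit 0) (nat_lit 0) (.cons (nat_lit 0x245040000) (nat_lit 0x1010120f070) (nat_lit 0) (nat_lit 0) (.cons (nat_lit 0x244080000) (nat_lit 0x1024100f070) (nat_lit 1) (nat_lit 0x60) (.cons (nat_lit 0x244041000) (nat_lit 0x2024100f070) (nat_lit 0) (nat_lit 0) (.cons (nat_lit 0x243081000) (nat_lit 0x48200e0f070) (nat_lit 0) (nat_lit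 0) (.cons (nat_lit 0x206040000) (nat_lit 0x10101e0e068) (nat_lit 1) (nat_lit 0x79) (.cons (nat_lit 0x205080000) (nat_lit 0x10241e0e068) (nat_lit 1) (nat_lit 0x62) (.cons (nat_lit 0x205041000) (nat_lit 0x20241e0e068) (nat_lit 0) (nat_lit 0) (.cons (nat_lit 0x204081000) (nat_lit 0x48201e0e068) (nat_lit 0) (nat_lit 0) (.cons (nat_lit 0x1c6080000) (nat_lit 0x103c1c0d060) (nat_lit 0) (nat_lit 0) (.cons (nat_lit 0x1c6041000) (nat_lit 0x203c1c0d060) (nat_lit 0) (nat_lit 0) (.cons (nat_lit 0x1c5081000) (nat_lit 0x483c1c0d060) (nat_lit 0) (nat_lit 0) (.cons (nat_lit 0x186081000) (nat_lit 0x78381a0c058) (nat_lit 0) (nat_lit 0) (.nil)))))))))))))))))))⟩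

noncomputable def W4_11912609792 : WT := ⟨nat_lit 0x2c60c0000, nat_lit 2, .cons (nat_lit 0x2c4000000) (nat_lit 0x28100609040) (nat_lit 1) (nat_lit 0x9000020) (.cons (nat_lit 0x2c3040000) (nat_lit 0x28101208038) (nat_lit 0) (nat_lit 0) (.cons (nat_lit 0x285000000) (nat_lit 0x28100609078) (nat_lit 1) (nat_lit 0x43000053) (.cons (nat_lit 0x284040000) (nat_lit 0x28101208078) (nat_lit 1) (nat_lit 0x1000005a) (.cons (nat_lit 0x283080000) (nat_lit 0x28241007078) (nat_lit 0) (nat_lit 0) (.cons (nat_lit 0x246000000) (nat_lit 0x2810060f070) (nat_lit 1) (nat_lit 0x3700006e) (.cons (nat_lit 0x245040000) (nat_lit 0x2810120f070) (nat_lit 0) (nat_lit 0) (.cons (nat_lit 0x244080000) (nat_lit 0x2824100f070) (nat_lit 1) (nat_lit 0x4000051) (.cons (nat_lit 0x2430c0000) (nat_lit 0x48200e0f070) (nat_lit 0) (nat_lit 0) (.cons (nat_lit 0x206040000) (nat_lit 0x28101e0e068) (nat_lit 1) (nat_lit 0x18000000) (.cons (nat_lit 0x205080000)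 (nat_lit 0x28241e0e068) (nat_lit 1) (nat_lit 0x22000029) (.cons (nat_lit 0x2040c0000) (nat_lit 0x48201e0e068) (nat_lit 0) (nat_lit 0) (.cons (nat_lit 0x1c6080000) (nat_lit 0x283c1c0d060) (nat_lit 0) (nat_lit 0) (.cons (nat_lit 0x1c50c0000) (nat_lit 0x483c1c0d060) (nat_lit 0) (nat_lit 0) (.cons (nat_lit 0x1860c0000) (nat_lit 0x78381a0c058) (nat_lit 1) (nat_lit 0x62000000) (.nil)))))))))))))))⟩

noncomputable def W4_11928866816 : WT := ⟨nat_lit 0x2c7041000, nat_lit 1, .cons (nat_lit 0x2c3040000) (nat_lit 0x10281208038) (nat_lit 0) (nat_lit 0) (.cons (nat_lit 0x2c2041000) (nat_lit 0x50241007030) (nat_lit 0) (nat_lit 0) (.cons (nat_lit 0x284040000) (nat_lit 0x10281208078) (nat_lit 1) (nat_lit 0x1) (.cons (nat_lit 0x283041000) (nat_lit 0x50241007078) (nat_lit 0) (nat_lit 0) (.cons (nat_lit 0x245040000) (nat_lit 0x1028120f070) (nat_lit 0) (nat_lit 0) (.cons (nat_lit 0x244041000) (nat_lit 0x5024100f070) (nat_lit 0)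 (nat_lit 0) (.cons (nat_lit 0x206040000) (nat_lit 0x10281e0e068) (nat_lit 1) (nat_lit 0x65) (.cons (nat_lit 0x205041000) (nat_lit 0x50241e0e068) (nat_lit 0) (nat_lit 0) (.cons (nat_lit 0x1c7040000) (nat_lit 0x103c1c0d060) (nat_lit 0) (nat_lit 0) (.cons (nat_lit 0x1c6041000) (nat_lit 0x503c1c0d060) (nat_lit 0) (nat_lit 0) (.nil))))))))))⟩

noncomputable def W4_11929124864 : WT := ⟨nat_lit 0x2c7080000, nat_lit 2, .cons (nat_lit 0x2c4000000) (nat_lit 0x200c1409040) (nat_lit 1) (nat_lit 0x56000014) (.cons (nat_lit 0x2c3040000) (nat_lit 0x20281208038) (nat_lit 0) (nat_lit 0) (.cons (nat_lit 0x2c2080000) (nat_lit 0x50241007030) (nat_lit 1) (nat_lit 0x2900006c) (.cons (nat_lit 0x285000000) (nat_lit 0x200c1409078) (nat_lit 1) (nat_lit 0x1e000045) (.cons (nat_lit 0x284040000) (nat_lit 0x20281208078) (nat_lit 1) (nat_lit 0x54) (.cons (nat_lit 0x283080000) (nat_lit 0x50241007078) (nat_lit 0) (nat_lit 0) (.cons (nat_lit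 0x246000000) (nat_lit 0x200c140f070) (nat_lit 1) (nat_lit 0x9000043) (.cons (nat_lit 0x245040000) (nat_lit 0x2028120f070) (nat_lit 0) (nat_lit 0) (.cons (nat_lit 0x244080000) (nat_lit 0x5024100f070) (nat_lit 1) (nat_lit 0x3300006b) (.cons (nat_lit 0x207000000) (nat_lit 0x200c1e0e068) (nat_lit 0) (nat_lit 0) (.cons (nat_lit 0x206040000) (nat_lit 0x20281e0e068) (nat_lit 1) (nat_lit 0xc) (.cons (nat_lit 0x205080000) (nat_lit 0x50241e0e068) (nat_lit 1) (nat_lit 0x5200005d) (.cons (nat_lit 0x1c7040000) (nat_lit 0x203c1c0d060) (nat_lit 0) (nat_lit 0) (.cons (nat_lit 0x1c6080000) (nat_lit 0x503c1c0d060) (nat_lit 0) (nat_lit 0) (.nil))))))))))))))⟩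

noncomputable def W4_11945639936 : WT := ⟨nat_lit 0x2c8040000, nat_lit 1, .cons (nat_lit 0x2c4000000) (nat_lit 0x182c1409040) (nat_lit 1) (nat_lit 0x9) (.cons (nat_lit 0x2c3040000) (nat_lit 0x58281208038) (nat_lit 0) (nat_lit 0) (.cons (nat_lit 0x285000000) (nat_lit 0x182c1409078) (nat_lit 1) (nat_lit 0x4b) (.cons (nat_lit 0x284040000) (nat_lit 0x58281208078) (nat_lit 1) (nat_lit 0x77) (.cons (nat_lit 0x246000000) (nat_lit 0x182c140f070) (nat_lit 1) (nat_lit 0x2) (.cons (nat_lit 0x245040000) (nat_lit 0x5828120f070) (nat_lit 0) (nat_lit 0) (.cons (nat_lit 0x207000000) (nat_lit 0x182c1e0e068) (nat_lit 0) (nat_lit 0) (.cons (nat_lit 0x206040000) (nat_lit 0x58281e0e068) (nat_lit 1) (nat_lit 0x9) (.nil))))))))⟩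

noncomputable def W4_12952543232 : WT := ⟨nat_lit 0x304082000, nat_lit 1, .cons (nat_lit 0x2c2080000) (nat_lit 0x18080e06080) (nat_lit 1) (nat_lit 0x2e) (.cons (nat_lit 0x283080000) (nat_lit 0x18080e10078) (nat_lit 0) (nat_lit 0) (.cons (nat_lit 0x282081000) (nat_lit 0x181c0c10078) (nat_lit 0) (nat_lit 0) (.cons (nat_lit 0x244080000) (nat_lit 0x1808200f070) (nat_lit 1) (nat_lit 0x38) (.cons (nat_lit 0x243081000) (nat_lit 0x181c200f070) (nat_lit 0) (nat_lit 0) (.cons (nat_lit 0x242082000) (nat_lit 0x3818200f070) (nat_lit 0) (nat_lit 0) (.cons (nat_lit 0x204081000) (nat_lit 0x18401e0e068) (nat_lit 0) (nat_lit 0) (.cons (nat_lit 0x203082000) (nat_lit 0x38401e0e068) (nat_lit 0) (nat_lit 0) (.cons (nat_lit 0x1c4082000) (nat_lit 0x803c1c0d060) (nat_lit 0) (nat_lit 0) (.nil)))))))))⟩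

noncomputable def W4_12953059328 : WT := ⟨nat_lit 0x304100000, nat_lit 2, .cons (nat_lit 0x2c4000000) (nat_lit 0x30140803080) (nat_lit 1) (nat_lit 0x6d000019) (.cons (nat_lit 0x284040000) (nat_lit 0x30140810078) (nat_lit 1) (nat_lit 0x1a00007d) (.cons (nat_lit 0x244080000) (nat_lit 0x3014200f070) (nat_lit 1) (nat_lit 0x5800006c) (.cons (nat_lit 0x2040c0000) (nat_lit 0x30401e0e068) (nat_lit 0) (nat_lit 0) (.cons (nat_lit 0x1c4100000) (nat_lit 0x803c1c0d060) (nat_lit 1) (nat_lit 0x61000000) (.nil)))))⟩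

noncomputable def W4_12969316352 : WT := ⟨nat_lit 0x305081000, nat_lit 1, .cons (nat_lit 0x302040000) (nat_lit 0x10101007030) (nat_lit 0) (nat_lit 0) (.cons (nat_lit 0x2c3040000) (nat_lit 0x10101007080) (nat_lit 0) (nat_lit 0) (.cons (nat_lit 0x2c2080000) (nat_lit 0x10200e06080) (nat_lit 1) (nat_lit 0x33) (.cons (nat_lit 0x2c2041000) (nat_lit 0x20200e06080) (nat_lit 0) (nat_lit 0) (.cons (nat_lit 0x284040000) (nat_lit 0x10101010078) (nat_lit 1) (nat_lit 0x20) (.cons (nat_lit 0x283080000) (nat_lit 0x10200e10078) (nat_lit 0) (nat_lit 0) (.cons (nat_lit 0x283041000) (nat_lit 0x20200e10078) (nat_lit 0) (nat_lit 0) (.cons (nat_lit 0x282081000) (nat_lit 0x401c0c10078) (nat_lit 0) (nat_lit 0) (.cons (nat_lit 0x245040000) (nat_lit 0x1010200f070) (nat_lit 0) (nat_lit 0) (.cons (nat_lit 0x244080000) (nat_lit 0x1020200f070) (nat_lit 1) (nat_lit 0x10) (.cons (nat_lit 0x244041000) (nat_lit 0x2020200f070) (nat_lit 0) (nat_lit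 0) (.cons (nat_lit 0x243081000) (nat_lit 0x401c200f070) (nat_lit 0) (nat_lit 0) (.cons (nat_lit 0x205080000) (nat_lit 0x10401e0e068) (nat_lit 1) (nat_lit 0x7) (.cons (nat_lit 0x205041000) (nat_lit 0x20401e0e068) (nat_lit 0) (nat_lit 0) (.cons (nat_lit 0x204081000) (nat_lit 0x40401e0e068) (nat_lit 0) (nat_lit 0) (.cons (nat_lit 0x1c5081000) (nat_lit 0x803c1c0d060) (nat_lit 0) (nat_lit 0) (.nil))))))))))))))))⟩

noncomputable def W4_12969574400 : WT := ⟨nat_lit 0x3050c0000, nat_lit 1, .cons (nat_lit 0x303000000) (nat_lit 0x28100608038) (nat_lit 1) (nat_lit 0x14) (.cons (nat_lit 0x2c4000000) (nat_lit 0x28100608080) (nat_lit 1) (nat_lit 0x2e) (.cons (nat_lit 0x2c3040000) (nat_lit 0x28101007080) (nat_lit 0) (nat_lit 0) (.cons (nat_lit 0x285000000) (nat_lit 0x28100610078) (nat_lit 1) (nat_lit 0x51) (.cons (nat_lit 0x284040000) (nat_lit 0x28101010078) (nat_lit 1) (nat_lit 0x2e) (.cons (nat_lit 0x283080000) (nat_lit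 0x28200e10078) (nat_lit 0) (nat_lit 0) (.cons (nat_lit 0x245040000) (nat_lit 0x2810200f070) (nat_lit 0) (nat_lit 0) (.cons (nat_lit 0x244080000) (nat_lit 0x2820200f070) (nat_lit 1) (nat_lit 0x2d) (.cons (nat_lit 0x2430c0000) (nat_lit 0x401c200f070) (nat_lit 0) (nat_lit 0) (.cons (nat_lit 0x205080000) (nat_lit 0x28401e0e068) (nat_lit 1) (nat_lit 0x28) (.cons (nat_lit 0x2040c0000) (nat_lit 0x40401e0e068) (nat_lit 0) (nat_lit 0) (.cons (nat_lit 0x1c50c0000) (nat_lit 0x803c1c0d060) (nat_lit 0) (nat_lit 0) (.nil))))))))))))⟩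

noncomputable def W4_12986089472 : WT := ⟨nat_lit 0x306080000, nat_lit 3, .cons (nat_lit 0x303000000) (nat_lit 0x200c1208038) (nat_lit 1) (nat_lit 0x6c00002300003d) (.cons (nat_lit 0x302040000) (nat_lit 0x20241007030) (nat_lit 0) (nat_lit 0) (.cons (nat_lit 0x2c4000000) (nat_lit 0x200c1208080) (nat_lit 1) (nat_lit 0x4900005f00007d) (.cons (nat_lit 0x2c3040000) (nat_lit 0x20241007080) (nat_lit 0) (nat_lit 0) (.cons (nat_lit 0x2c2080000) (nat_lit 0x48200e06080) (nat_lit 1) (nat_lit 0x4100001600000d) (.cons (nat_lit 0x285000000) (nat_lit 0x200c1210078) (nat_lit 1) (nat_lit 0x2b00001900000a) (.cons (nat_lit 0x284040000) (nat_lit 0x20241010078) (nat_lit 1) (nat_lit 0x3a00007400003e) (.cons (nat_lit 0x283080000) (nat_lit 0x48200e10078) (nat_lit 0) (nat_lit 0) (.cons (nat_lit 0x246000000) (nat_lit 0x200c200f070) (nat_lit 1) (nat_lit 0x42000039) (.cons (nat_lit 0x245040000) (nat_lit 0x2024200f070) (nat_lit 0) (nat_lit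 0) (.cons (nat_lit 0x244080000) (nat_lit 0x4820200f070) (nat_lit 1) (nat_lit 0x3f000009000051) (.cons (nat_lit 0x206040000) (nat_lit 0x20401e0e068) (nat_lit 1) (nat_lit 0x2a000000) (.cons (nat_lit 0x205080000) (nat_lit 0x48401e0e068) (nat_lit 1) (nat_lit 0x2300000b000000) (.cons (nat_lit 0x1c6080000) (nat_lit 0x803c1c0d060) (nat_lit 0) (nat_lit 0) (.nil))))))))))))))⟩

noncomputable def W4_13002604544 : WT := ⟨nat_lit 0x307040000, nat_lit 1, .cons (nat_lit 0x303000000) (nat_lit 0x18281208038) (nat_lit 1) (nat_lit 0xd) (.cons (nat_lit 0x302040000) (nat_lit 0x50241007030) (nat_lit 0) (nat_lit 0) (.cons (nat_lit 0x2c4000000) (nat_lit 0x18281208080) (nat_lit 1) (nat_lit 0x5f) (.cons (nat_lit 0x2c3040000) (nat_lit 0x50241007080) (nat_lit 0) (nat_lit 0) (.cons (nat_lit 0x285000000) (nat_lit 0x18281210078) (nat_lit 1) (nat_lit 0x20) (.cons (nat_lit 0x284040000) (nat_lit 0x50241010078) (nat_lit 1) (nat_lit 0x6e) (.cons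 (nat_lit 0x246000000) (nat_lit 0x1828200f070) (nat_lit 1) (nat_lit 0x19) (.cons (nat_lit 0x245040000) (nat_lit 0x5024200f070) (nat_lit 0) (nat_lit 0) (.cons (nat_lit 0x207000000) (nat_lit 0x18401e0e068) (nat_lit 0) (nat_lit 0) (.cons (nat_lit 0x206040000) (nat_lit 0x50401e0e068) (nat_lit 1) (nat_lit 0x63) (.cons (nat_lit 0x1c7040000) (nat_lit 0x803c1c0d060) (nat_lit 0) (nat_lit 0) (.nil)))))))))))⟩

noncomputable def W4_13019119616 : WT := ⟨nat_lit 0x308000000, nat_lit 2, .cons (nat_lit 0x303000000) (nat_lit 0x58281208038) (nat_lit 1) (nat_lit 0x2800007e) (.cons (nat_lit 0x2c4000000) (nat_lit 0x58281208080) (nat_lit 1) (nat_lit 0x4800001e) (.cons (nat_lit 0x285000000) (nat_lit 0x58281210078) (nat_lit 1) (nat_lit 0x14000055) (.cons (nat_lit 0x246000000) (nat_lit 0x5828200f070) (nat_lit 1) (nat_lit 0x56000028) (.cons (nat_lit 0x207000000) (nat_lit 0x58401e0e068) (nat_lit 0) (nat_lit 0) (.nil)))))⟩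

noncomputable def W4_14026280960 : WT := ⟨nat_lit 0x344081000, nat_lit 1, .cons (nat_lit 0x302040000) (nat_lit 0x10100e06088) (nat_lit 0) (nat_lit 0) (.cons (nat_lit 0x2c3040000) (nat_lit 0x10100e11080) (nat_lit 0) (nat_lit 0) (.cons (nat_lit 0x2c2080000) (nat_lit 0x101c0c11080) (nat_lit 1) (nat_lit 0x7e) (.cons (nat_lit 0x2c2041000) (nat_lit 0x201c0c11080) (nat_lit 0) (nat_lit 0) (.cons (nat_lit 0x284040000) (nat_lit 0x10102210078) (nat_lit 1) (nat_lit 0x52) (.cons (nat_lit 0x283080000) (nat_lit 0x101c2210078) (nat_lit 0) (nat_lit 0) (.cons (nat_lit 0x283041000) (nat_lit 0x201c2210078) (nat_lit 0) (nat_lit 0) (.cons (nat_lit 0x282081000) (nat_lit 0x38182210078) (nat_lit 0) (nat_lit 0) (.cons (nat_lit 0x244080000) (nat_lit 0x1044200f070) (nat_lit 1) (nat_lit 0x2b) (.cons (nat_lit 0x244041000) (nat_lit 0x2044200f070) (nat_lit 0) (nat_lit 0) (.cons (nat_lit 0x243081000) (nat_lit 0x3844200f070) (nat_lit 0) (nat_lit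 0) (.cons (nat_lit 0x204081000) (nat_lit 0x88401e0e068) (nat_lit 0) (nat_lit 0) (.nil))))))))))))⟩

noncomputable def W4_14026539008 : WT := ⟨nat_lit 0x3440c0000, nat_lit 1, .cons (nat_lit 0x303000000) (nat_lit 0x28100607088) (nat_lit 1) (nat_lit 0x7b) (.cons (nat_lit 0x2c4000000) (nat_lit 0x28100611080) (nat_lit 1) (nat_lit 0x4c) (.cons (nat_lit 0x2c3040000) (nat_lit 0x28100e11080) (nat_lit 0) (nat_lit 0) (.cons (nat_lit 0x284040000) (nat_lit 0x28102210078) (nat_lit 1) (nat_lit 0x1f) (.cons (nat_lit 0x283080000) (nat_lit 0x281c2210078) (nat_lit 0) (nat_lit 0) (.cons (nat_lit 0x244080000) (nat_lit 0x2844200f070) (nat_lit 1) (nat_lit 0x2d) (.cons (nat_lit 0x2430c0000) (nat_lit 0x3844200f070) (nat_lit 0) (nat_lit 0) (.cons (nat_lit 0x2040c0000) (nat_lit 0x88401e0e068) (nat_lit 0) (nat_lit 0) (.nil))))))))⟩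

noncomputable def W4_14043054080 : WT := ⟨nat_lit 0x345080000, nat_lit 2, .cons (nat_lit 0x342000000) (nat_lit 0x200c1007030) (nat_lit 1) (nat_lit 0x1200004c) (.cons (nat_lit 0x303000000) (nat_lit 0x200c1007088) (nat_lit 1) (nat_lit 0x7e000068) (.cons (nat_lit 0x302040000) (nat_lit 0x20200e06088) (nat_lit 0) (nat_lit 0) (.cons (nat_lit 0x2c4000000) (nat_lit 0x200c1011080) (nat_lit 1) (nat_lit 0x4700004c) (.cons (nat_lit 0x2c3040000) (nat_lit 0x20200e11080) (nat_lit 0) (nat_lit 0) (.cons (nat_lit 0x2c2080000) (nat_lit 0x401c0c11080) (nat_lit 1) (nat_lit 0x6f000067) (.cons (nat_lit 0x285000000) (nat_lit 0x200c2210078) (nat_lit 1) (nat_lit 0x4500002c) (.cons (nat_lit 0x284040000) (nat_lit 0x20202210078) (nat_lit 1) (nat_lit 0xb00001c) (.cons (nat_lit 0x283080000) (nat_lit 0x401c2210078) (nat_lit 0) (nat_lit 0) (.cons (nat_lit 0x245040000) (nat_lit 0x2044200f070) (nat_lit 0) (nat_lit 0) (.cons (nat_lit 0x244080000)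 (nat_lit 0x4044200f070) (nat_lit 1) (nat_lit 0x1400004e) (.cons (nat_lit 0x205080000) (nat_lit 0x88401e0e068) (nat_lit 1) (nat_lit 0x4b000000) (.nil))))))))))))⟩

noncomputable def W4_14059569152 : WT := ⟨nat_lit 0x346040000, nat_lit 2, .cons (nat_lit 0x342000000) (nat_lit 0x18241007030) (nat_lit 1) (nat_lit 0x79000015) (.cons (nat_lit 0x341040000) (nat_lit 0x48200e06028) (nat_lit 0) (nat_lit 0) (.cons (nat_lit 0x303000000) (nat_lit 0x18241007088) (nat_lit 1) (nat_lit 0x3c00003d) (.cons (nat_lit 0x302040000) (nat_lit 0x48200e06088) (nat_lit 0) (nat_lit 0) (.cons (nat_lit 0x2c4000000) (nat_lit 0x18241011080) (nat_lit 1) (nat_lit 0x7c000030) (.cons (nat_lit 0x2c3040000) (nat_lit 0x48200e11080) (nat_lit 0) (nat_lit 0) (.cons (nat_lit 0x285000000) (nat_lit 0x18242210078) (nat_lit 1) (nat_lit 0x1e000079) (.cons (nat_lit 0x284040000) (nat_lit 0x48202210078) (nat_lit 1) (nat_lit 0x6e00000b) (.cons (nat_lit 0x246000000)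 (nat_lit 0x1844200f070) (nat_lit 1) (nat_lit 0x6b000016) (.cons (nat_lit 0x245040000) (nat_lit 0x4844200f070) (nat_lit 0) (nat_lit 0) (.cons (nat_lit 0x206040000) (nat_lit 0x88401e0e068) (nat_lit 1) (nat_lit 0x36000000) (.nil)))))))))))⟩

noncomputable def W4_14076084224 : WT := ⟨nat_lit 0x347000000, nat_lit 1, .cons (nat_lit 0x342000000) (nat_lit 0x50241007030) (nat_lit 1) (nat_lit 0x17) (.cons (nat_lit 0x303000000) (nat_lit 0x50241007088) (nat_lit 1) (nat_lit 0x47) (.cons (nat_lit 0x2c4000000) (nat_lit 0x50241011080) (nat_lit 1) (nat_lit 0x1) (.cons (nat_lit 0x285000000) (nat_lit 0x50242210078) (nat_lit 1) (nat_lit 0x1d) (.cons (nat_lit 0x246000000) (nat_lit 0x5044200f070) (nat_lit 1) (nat_lit 0x53) (.cons (nat_lit 0x207000000) (nat_lit 0x88401e0e068) (nat_lit 0) (nat_lit 0) (.nil))))))⟩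

noncomputable def W4_15066472448 : WT := ⟨nat_lit 0x382082000, nat_lit 1, .cons (nat_lit 0x2c2080000) (nat_lit 0x18082411080) (nat_lit 1) (nat_lit 0x52) (.cons (nat_lit 0x282081000) (nat_lit 0x18482210078) (nat_lit 0) (nat_lit 0) (.cons (nat_lit 0x242082000) (nat_lit 0x9044200f070) (nat_lit 0) (nat_lit 0) (.nil)))⟩

noncomputable def W4_15100018688 : WT := ⟨nat_lit 0x384080000, nat_lit 2, .cons (nat_lit 0x342000000) (nat_lit 0x200c0e06090) (nat_lit 1) (nat_lit 0x6c000013) (.cons (nat_lit 0x303000000) (nat_lit 0x200c0e12088) (nat_lit 1) (nat_lit 0x42000031) (.cons (nat_lit 0x302040000) (nat_lit 0x201c0c12088) (nat_lit 0) (nat_lit 0) (.cons (nat_lit 0x2c4000000) (nat_lit 0x200c2411080) (nat_lit 1) (nat_lit 0x1d000001) (.cons (nat_lit 0x2c3040000) (nat_lit 0x201c2411080) (nat_lit 0) (nat_lit 0) (.cons (nat_lit 0x2c2080000) (nat_lit 0x38182411080) (nat_lit 1) (nat_lit 0x74000028) (.cons (nat_lit 0x284040000) (nat_lit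 0x20482210078) (nat_lit 1) (nat_lit 0x1f00007d) (.cons (nat_lit 0x283080000) (nat_lit 0x38482210078) (nat_lit 0) (nat_lit 0) (.cons (nat_lit 0x244080000) (nat_lit 0x9044200f070) (nat_lit 1) (nat_lit 0x42000000) (.nil)))))))))⟩

noncomputable def W4_15116533760 : WT := ⟨nat_lit 0x385040000, nat_lit 1, .cons (nat_lit 0x381000000) (nat_lit 0x18200e06028) (nat_lit 0) (nat_lit 0) (.cons (nat_lit 0x342000000) (nat_lit 0x18200e06090) (nat_lit 1) (nat_lit 0x12) (.cons (nat_lit 0x341040000) (nat_lit 0x401c0c05090) (nat_lit 0) (nat_lit 0) (.cons (nat_lit 0x303000000) (nat_lit 0x18200e12088) (nat_lit 1) (nat_lit 0x4f) (.cons (nat_lit 0x302040000) (nat_lit 0x401c0c12088) (nat_lit 0) (nat_lit 0) (.cons (nat_lit 0x2c4000000) (nat_lit 0x18202411080) (nat_lit 1) (nat_lit 0x17) (.cons (nat_lit 0x2c3040000) (nat_lit 0x401c2411080) (nat_lit 0) (nat_lit 0) (.cons (nat_lit 0x285000000) (nat_lit 0x18482210078) (nat_lit 1) (nat_lit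 0x7a) (.cons (nat_lit 0x284040000) (nat_lit 0x40482210078) (nat_lit 1) (nat_lit 0x72) (.cons (nat_lit 0x245040000) (nat_lit 0x9044200f070) (nat_lit 0) (nat_lit 0) (.nil))))))))))⟩

noncomputable def W4_15133048832 : WT := ⟨nat_lit 0x386000000, nat_lit 2, .cons (nat_lit 0x381000000) (nat_lit 0x48200e06028) (nat_lit 0) (nat_lit 0) (.cons (nat_lit 0x342000000) (nat_lit 0x48200e06090) (nat_lit 1) (nat_lit 0x5700001b) (.cons (nat_lit 0x303000000) (nat_lit 0x48200e12088) (nat_lit 1) (nat_lit 0x5f00000d) (.cons (nat_lit 0x2c4000000) (nat_lit 0x48202411080) (nat_lit 1) (nat_lit 0x1000041) (.cons (nat_lit 0x285000000) (nat_lit 0x48482210078) (nat_lit 1) (nat_lit 0x3f000073) (.cons (nat_lit 0x246000000) (nat_lit 0x9044200f070) (nat_lit 1) (nat_lit 0x8000000) (.nil))))))⟩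

noncomputable def W4_16156983296 : WT := ⟨nat_lit 0x3c3080000, nat_lit 1, .cons (nat_lit 0x342000000) (nat_lit 0x200c0c13090) (nat_lit 1) (nat_lit 0x10) (.cons (nat_lit 0x303000000) (nat_lit 0x200c2612088) (nat_lit 1) (nat_lit 0x41) (.cons (nat_lit 0x302040000) (nat_lit 0x20182612088) (nat_lit 0) (nat_lit 0) (.cons (nat_lit 0x2c3040000) (nat_lit 0x204c2411080) (nat_lit 0) (nat_lit 0) (.cons (nat_lit 0x2c2080000) (nat_lit 0x304c2411080) (nat_lit 1) (nat_lit 0x19) (.cons (nat_lit 0x283080000) (nat_lit 0x98482210078) (nat_lit 0) (nat_lit 0) (.nil))))))⟩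

noncomputable def W4_16173498368 : WT := ⟨nat_lit 0x3c4040000, nat_lit 1, .cons (nat_lit 0x381000000) (nat_lit 0x181c0c05098) (nat_lit 0) (nat_lit 0) (.cons (nat_lit 0x342000000) (nat_lit 0x181c0c13090) (nat_lit 1) (nat_lit 0x1) (.cons (nat_lit 0x341040000) (nat_lit 0x38180a13090) (nat_lit 0) (nat_lit 0) (.cons (nat_lit 0x303000000) (nat_lit 0x181c2612088) (nat_lit 1) (nat_lit 0x79) (.cons (nat_lit 0x302040000) (nat_lit 0x38182612088) (nat_lit 0) (nat_lit 0) (.cons (nat_lit 0x2c4000000) (nat_lit 0x184c2411080) (nat_lit 1) (nat_lit 0x1b) (.cons (nat_lit 0x2c3040000) (nat_lit 0x384c2411080) (nat_lit 0) (nat_lit 0) (.cons (nat_lit 0x284040000) (nat_lit 0x98482210078) (nat_lit 1) (nat_lit 0x3c) (.nil))))))))⟩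

noncomputable def W4_16190013440 : WT := ⟨nat_lit 0x3c5000000, nat_lit 1, .cons (nat_lit 0x3c0000000) (nat_lit 0x401c0c05020) (nat_lit 1) (nat_lit 0x10) (.cons (nat_lit 0x381000000) (nat_lit 0x401c0c05098) (nat_lit 0) (nat_lit 0) (.cons (nat_lit 0x342000000) (nat_lit 0x401c0c13090) (nat_lit 1) (nat_lit 0x42) (.cons (nat_lit 0x303000000) (nat_lit 0x401c2612088) (nat_lit 1) (nat_lit 0x78) (.cons (nat_lit 0x2c4000000) (nat_lit 0x404c2411080) (nat_lit 1) (nat_lit 0x29) (.cons (nat_lit 0x285000000) (nat_lit 0x98482210078) (nat_lit 1) (nat_lit 0x2e) (.nil))))))⟩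

noncomputable def W4_17213947904 : WT := ⟨nat_lit 0x402080000, nat_lit 1, .cons (nat_lit 0x342000000) (nat_lit 0x200c2813090) (nat_lit 1) (nat_lit 0x2) (.cons (nat_lit 0x302040000) (nat_lit 0x20502612088) (nat_lit 0) (nat_lit 0) (.cons (nat_lit 0x2c2080000) (nat_lit 0xa04c2411080) (nat_lit 1) (nat_lit 0x6f) (.nil)))⟩

noncomputable def W4_17246978048 : WT := ⟨nat_lit 0x404000000, nat_lit 2, .cons (nat_lit 0x3c0000000) (nat_lit 0x38180a040a0) (nat_lit 1) (nat_lit 0x2000003a) (.cons (nat_lit 0x381000000) (nat_lit 0x38180a14098) (nat_lit 0) (nat_lit 0) (.cons (nat_lit 0x342000000) (nat_lit 0x38182813090) (nat_lit 1) (nat_lit 0x4500001d) (.cons (nat_lit 0x303000000) (nat_lit 0x38502612088) (nat_lit 1) (nat_lit 0x3300005c) (.cons (nat_lit 0x2c4000000) (nat_lit 0xa04c2411080) (nat_lit 1) (nat_lit 0x2d000000) (.nil)))))⟩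

noncomputable def W4_18303942656 : WT := ⟨nat_lit 0x443000000, nat_lit 1, .cons (nat_lit 0x3c0000000) (nat_lit 0x301408150a0) (nat_lit 1) (nat_lit 0x70) (.cons (nat_lit 0x381000000) (nat_lit 0x30142a14098) (nat_lit 0) (nat_lit 0) (.cons (nat_lit 0x342000000) (nat_lit 0x30542813090) (nat_lit 1) (nat_lit 0x54) (.cons (nat_lit 0x303000000) (nat_lit 0xa8502612088) (nat_lit 1) (nat_lit 0x15) (.nil))))⟩

noncomputable def W4_19360907264 : WT := ⟨nat_lit 0x482000000, nat_lit 1, .cons (nat_lit 0x3c0000000) (nat_lit 0x28102c150a0) (nat_lit 1) (nat_lit 0x62) (.cons (nat_lit 0x381000000) (nat_lit 0x28582a14098) (nat_lit 0) (nat_lit 0) (.cons (nat_lit 0x342000000) (nat_lit 0xb0542813090) (nat_lit 1) (nat_lit 0x70) (.nil)))⟩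

noncomputable def W4_21474836480 : WT := ⟨nat_lit 0x500000000, nat_lit 1, .cons (nat_lit 0x3c0000000) (nat_lit 0xc05c2c150a0) (nat_lit 1) (nat_lit 0x5f) (.nil)⟩

end Crest.Agent.R187.SN.Top
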