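import Crest.Agent.R187.SN.FwdDef
import Crest.Agent.R187.SN.TD.Ks
import Crest.Agent.R187.SN.TD.W4_0
import Crest.Agent.R187.SN.TD.X4

/-!
# Row 187, PLAN S, certificate E3: forward records of level `(6, 4)`, part 0

`F4_<key> : Fwd` = sources (table of level `(6, 3)`, number of rows, quadrature record) and
`W` tables of the table `V4_<key>`; each record is checked by the kernel.
-/

set_option autoImplicit false
set_option Elab.async false
set_option maxRecDepth 100000

namespace Crest.Agent.R187.SN.Fwd

open Crest.Agent.R187.SN.Top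

noncomputable def F4_25769803776 : Fwd := ⟨V4_25769803776, [
  ⟨V3_19327352832, nat_lit 1, [(nat_lit 69, nat_lit 25769803776)]⟩], [
  W4_21474836480]⟩

theorem F4_25769803776_chk : fwdChk 4 ks4 F4_25769803776 = true := by decide +kernel

noncomputable def F4_21541945344 : Fwd := ⟨V4_21541945344, [
  ⟨V3_15099494400, nat_lit 1, [(nat_lit 16, nat_lit 21541945344)]⟩,
  ⟨V3_19327352832, nat_lit 1, [(nat_lit 93, nat_lit 21541945344),
  (nat_lit 71, nat_lit 22598909952), (nat_lit 44, nat_lit 23655874560),
  (nat_lit 119, nat_lit 24712839168), (nat_lit 38, nat_lit 25769803776)]⟩], [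
  W4_21474836480, W4_19360907264, W4_18303942656, W4_17246978048]⟩

theorem F4_21541945344_chk : fwdChk 4 ks4 F4_21541945344 = true := by decide +kernel

noncomputable def F4_21508915200 : Fwd := ⟨V4_21508915200, [
  ⟨V3_15066464256, nat_lit 1, [(nat_lit 91, nat_lit 21508915200)]⟩], [
  W4_19360907264, W4_17213947904]⟩

theorem F4_21508915200_chk : fwdChk 4 ks4 F4_21508915200 = true := by decide +kernel

noncomputable def F4_20468465664 : Fwd := ⟨V4_20468465664, [
  ⟨V3_15099494400, nat_lit 1, [(nat_lit 12, nat_lit 20468465664),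
  (nat_lit 64, nat_lit 21541945344)]⟩], [
  W4_19360907264, W4_18303942656, W4_17246978048, W4_16173498368]⟩

theorem F4_20468465664_chk : fwdChk 4 ks4 F4_20468465664 = true := by decide +kernel

noncomputable def F4_20451950592 : Fwd := ⟨V4_20451950592, [
  ⟨V3_15066464256, nat_lit 1, [(nat_lit 59, nat_lit 20451950592),
  (nat_lit 3, nat_lit 21508915200)]⟩], [
  W4_19360907264, W4_18303942656, W4_17213947904, W4_16156983296]⟩

theorem F4_20451950592_chk : fwdChk 4 ks4 F4_20451950592 = true := by decide +kernel

noncomputable def F4_19428016128 : Fwd := ⟨V4_19428016128, [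
  ⟨V3_12985565184, nat_lit 2, [(nat_lit 42, nat_lit 19428016128)]⟩,
  ⟨V3_19327352832, nat_lit 1, [(nat_lit 124, nat_lit 19428016128),
  (nat_lit 53, nat_lit 20484980736), (nat_lit 88, nat_lit 21541945344),
  (nat_lit 17, nat_lit 22598909952), (nat_lit 115, nat_lit 23655874560),
  (nat_lit 13, nat_lit 24712839168), (nat_lit 18, nat_lit 25769803776)]⟩], [
  W4_19360907264, W4_18303942656, W4_17246978048, W4_16190013440, W4_15133048832]⟩

theorem F4_19428016128_chk : fwdChk 4 ks4 F4_19428016128 = true := by decide +kernel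

noncomputable def F4_19361439744 : Fwd := ⟨V4_19361439744, [
  ⟨V3_15066464256, nat_lit 1, [(nat_lit 115, nat_lit 19361439744),
  (nat_lit 18, nat_lit 20435177472), (nat_lit 102, nat_lit 21508915200)]⟩], [
  W4_17213947904, W4_15066472448]⟩

theorem F4_19361439744_chk : fwdChk 4 ks4 F4_19361439744 = true := by decide +kernel

noncomputable def F4_18371051520 : Fwd := ⟨V4_18371051520, [
  ⟨V3_12985565184, nat_lit 2, [(nat_lit 72, nat_lit 18371051520),
  (nat_lit 91, nat_lit 19428016128)]⟩], [
  W4_18303942656, W4_17246978048, W4_16190013440, W4_15133048832, W4_14076084224]⟩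

theorem F4_18371051520_chk : fwdChk 4 ks4 F4_18371051520 = true := by decide +kernel

noncomputable def F4_18338021376 : Fwd := ⟨V4_18338021376, [
  ⟨V3_11895570432, nat_lit 1, [(nat_lit 3, nat_lit 18338021376)]⟩,
  ⟨V3_15066464256, nat_lit 1, [(nat_lit 99, nat_lit 18338021376),
  (nat_lit 60, nat_lit 19394985984), (nat_lit 83, nat_lit 20451950592),
  (nat_lit 11, nat_lit 21508915200)]⟩], [
  W4_18303942656, W4_17246978048, W4_17213947904, W4_16190013440, W4_16173498368, W4_16156983296,
  W4_15116533760, W4_15100018688, W4_14043054080]⟩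

theorem F4_18338021376_chk : fwdChk 4 ks4 F4_18338021376 = true := by decide +kernel

noncomputable def F4_18321506304 : Fwd := ⟨V4_18321506304, [
  ⟨V3_12952535040, nat_lit 1, [(nat_lit 79, nat_lit 18321506304),
  (nat_lit 46, nat_lit 19394985984)]⟩], [
  W4_18303942656, W4_17246978048, W4_16173498368, W4_16156983296, W4_15100018688, W4_14026539008]⟩

theorem F4_18321506304_chk : fwdChk 4 ks4 F4_18321506304 = true := by decide +kernel

noncomputable def F4_17314086912 : Fwd := ⟨V4_17314086912, [
  ⟨V3_10871635968, nat_lit 1, [(nat_lit 16, nat_lit 17314086912)]⟩,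
  ⟨V3_12985565184, nat_lit 2, [(nat_lit 24, nat_lit 17314086912),
  (nat_lit 103, nat_lit 18371051520), (nat_lit 122, nat_lit 19428016128)]⟩], [
  W4_17246978048, W4_16190013440, W4_15133048832, W4_14076084224, W4_13019119616]⟩

theorem F4_17314086912_chk : fwdChk 4 ks4 F4_17314086912 = true := by decide +kernel

noncomputable def F4_17281056768 : Fwd := ⟨V4_17281056768, [
  ⟨V3_10838605824, nat_lit 1, [(nat_lit 59, nat_lit 17281056768)]⟩,
  ⟨V3_12985565184, nat_lit 2, [(nat_lit 94, nat_lit 17281056768),
  (nat_lit 69, nat_lit 18354536448), (nat_lit 28, nat_lit 19428016128)]⟩,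
  ⟨V3_15066464256, nat_lit 1, [(nat_lit 124, nat_lit 17281056768),
  (nat_lit 9, nat_lit 18338021376), (nat_lit 58, nat_lit 19394985984),
  (nat_lit 18, nat_lit 20451950592), (nat_lit 98, nat_lit 21508915200)]⟩], [
  W4_17246978048, W4_17213947904, W4_16190013440, W4_16173498368, W4_16156983296, W4_15133048832,
  W4_15116533760, W4_15100018688, W4_14059569152, W4_14043054080, W4_12986089472]⟩

theorem F4_17281056768_chk : fwdChk 4 ks4 F4_17281056768 = true := by decide +kernel

noncomputable def F4_17248026624 : Fwd := ⟨V4_17248026624, [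
  ⟨V3_10805575680, nat_lit 1, [(nat_lit 80, nat_lit 17248026624)]⟩,
  ⟨V3_15099494400, nat_lit 1, [(nat_lit 6, nat_lit 17248026624),
  (nat_lit 57, nat_lit 18321506304), (nat_lit 125, nat_lit 19394985984),
  (nat_lit 26, nat_lit 20468465664), (nat_lit 111, nat_lit 21541945344)]⟩], [
  W4_17246978048, W4_16173498368, W4_15100018688, W4_14026539008, W4_12953059328]⟩

theorem F4_17248026624_chk : fwdChk 4 ks4 F4_17248026624 = true := by decide +kernel

noncomputable def F4_17247510528 : Fwd := ⟨V4_17247510528, [
  ⟨V3_12952535040, nat_lit 1, [(nat_lit 65, nat_lit 17247510528),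
  (nat_lit 19, nat_lit 18321248256), (nat_lit 120, nat_lit 19394985984)]⟩], [
  W4_17213947904, W4_16156983296, W4_15100018688, W4_15066472448, W4_14026280960, W4_12952543232]⟩

theorem F4_17247510528_chk : fwdChk 4 ks4 F4_17247510528 = true := by decide +kernel

noncomputable def F4_16257122304 : Fwd := ⟨V4_16257122304, [
  ⟨V3_10871635968, nat_lit 1, [(nat_lit 10, nat_lit 16257122304),
  (nat_lit 61, nat_lit 17314086912)]⟩], [
  W4_16190013440, W4_15133048832, W4_14076084224, W4_13019119616]⟩

theorem F4_16257122304_chk : fwdChk 4 ks4 F4_16257122304 = true := by decide +kernel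

noncomputable def F4_16240607232 : Fwd := ⟨V4_16240607232, [
  ⟨V3_10871635968, nat_lit 1, [(nat_lit 11, nat_lit 16240607232),
  (nat_lit 90, nat_lit 17314086912)]⟩,
  ⟨V3_10855120896, nat_lit 1, [(nat_lit 87, nat_lit 16240607232),
  (nat_lit 98, nat_lit 17297571840)]⟩], [
  W4_16190013440, W4_16173498368, W4_15133048832, W4_15116533760, W4_14076084224, W4_14059569152,
  W4_13019119616, W4_13002604544, W4_11945639936]⟩

theorem F4_16240607232_chk : fwdChk 4 ks4 F4_16240607232 = true := by decide +kernel

noncomputable def F4_16223834112 : Fwd := ⟨V4_16223834112, [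
  ⟨V3_10855120896, nat_lit 1, [(nat_lit 21, nat_lit 16223834112),
  (nat_lit 113, nat_lit 17297571840)]⟩], [
  W4_16173498368, W4_15116533760, W4_14059569152, W4_13002604544, W4_11928866816]⟩

theorem F4_16223834112_chk : fwdChk 4 ks4 F4_16223834112 = true := by decide +kernel

noncomputable def F4_16207319040 : Fwd := ⟨V4_16207319040, [
  ⟨V3_10838605824, nat_lit 1, [(nat_lit 74, nat_lit 16207319040),
  (nat_lit 120, nat_lit 17281056768)]⟩], [
  W4_16173498368, W4_16156983296, W4_15116533760, W4_15100018688, W4_14059569152, W4_14043054080,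
  W4_14026280960, W4_12986089472, W4_12969316352, W4_11912351744]⟩

theorem F4_16207319040_chk : fwdChk 4 ks4 F4_16207319040 = true := by decide +kernel

noncomputable def F4_16190803968 : Fwd := ⟨V4_16190803968, [
  ⟨V3_11895570432, nat_lit 1, [(nat_lit 48, nat_lit 16190803968),
  (nat_lit 118, nat_lit 17264541696), (nat_lit 42, nat_lit 17264283648),
  (nat_lit 9, nat_lit 18338021376)]⟩], [
  W4_16173498368, W4_16156983296, W4_15116533760, W4_15100018688, W4_14043054080, W4_14026539008,
  W4_14026280960, W4_12969574400, W4_12969316352, W4_11895836672]⟩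

theorem F4_16190803968_chk : fwdChk 4 ks4 F4_16190803968 = true := by decide +kernel

noncomputable def F4_16190545920 : Fwd := ⟨V4_16190545920, [
  ⟨V3_11895570432, nat_lit 1, [(nat_lit 109, nat_lit 16190545920),
  (nat_lit 3, nat_lit 17264283648), (nat_lit 73, nat_lit 18338021376)]⟩], [
  W4_16156983296, W4_15100018688, W4_15066472448, W4_14043054080, W4_14026280960, W4_12969316352,
  W4_12952543232, W4_11895578624]⟩

theorem F4_16190545920_chk : fwdChk 4 ks4 F4_16190545920 = true := by decide +kernel

noncomputable def F4_16174288896 : Fwd := ⟨V4_16174288896, [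
  ⟨V3_10805575680, nat_lit 1, [(nat_lit 97, nat_lit 16174288896),
  (nat_lit 20, nat_lit 17248026624)]⟩], [
  W4_16173498368, W4_15100018688, W4_14026539008, W4_14026280960, W4_12953059328, W4_11879321600]⟩

theorem F4_16174288896_chk : fwdChk 4 ks4 F4_16174288896 = true := by decide +kernel

noncomputable def F4_15200157696 : Fwd := ⟨V4_15200157696, [
  ⟨V3_10871635968, nat_lit 1, [(nat_lit 35, nat_lit 15200157696),
  (nat_lit 73, nat_lit 16257122304), (nat_lit 44, nat_lit 17314086912)]⟩,
  ⟨V3_12985565184, nat_lit 1, [(nat_lit 102, nat_lit 15200157696),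
  (nat_lit 50, nat_lit 16257122304), (nat_lit 66, nat_lit 17314086912),
  (nat_lit 36, nat_lit 18371051520), (nat_lit 121, nat_lit 19428016128)]⟩], [
  W4_15133048832, W4_14076084224, W4_13019119616, W4_10905190400]⟩

theorem F4_15200157696_chk : fwdChk 4 ks4 F4_15200157696 = true := by decide +kernel

noncomputable def F4_15183642624 : Fwd := ⟨V4_15183642624, [
  ⟨V3_10871635968, nat_lit 1, [(nat_lit 17, nat_lit 15183642624),
  (nat_lit 39, nat_lit 16257122304), (nat_lit 45, nat_lit 16240607232),
  (nat_lit 119, nat_lit 17314086912)]⟩,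
  ⟨V3_10855120896, nat_lit 1, [(nat_lit 67, nat_lit 15183642624),
  (nat_lit 125, nat_lit 16240607232), (nat_lit 48, nat_lit 17297571840)]⟩], [
  W4_15133048832, W4_15116533760, W4_14076084224, W4_14059569152, W4_13019119616, W4_13002604544,
  W4_11945639936, W4_10888675328]⟩

theorem F4_15183642624_chk : fwdChk 4 ks4 F4_15183642624 = true := by decide +kernel

noncomputable def F4_15167127552 : Fwd := ⟨V4_15167127552, [
  ⟨V3_8724676608, nat_lit 1, [(nat_lit 40, nat_lit 15167127552)]⟩,
  ⟨V3_10871635968, nat_lit 1, [(nat_lit 21, nat_lit 15167127552),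
  (nat_lit 99, nat_lit 16240607232), (nat_lit 89, nat_lit 17314086912)]⟩,
  ⟨V3_15066464256, nat_lit 1, [(nat_lit 10, nat_lit 15167127552),
  (nat_lit 11, nat_lit 16224092160), (nat_lit 32, nat_lit 17281056768),
  (nat_lit 114, nat_lit 18338021376), (nat_lit 107, nat_lit 19394985984),
  (nat_lit 92, nat_lit 20451950592), (nat_lit 64, nat_lit 21508915200)]⟩,
  ⟨V3_10855120896, nat_lit 1, [(nat_lit 122, nat_lit 15167127552),
  (nat_lit 21, nat_lit 16240607232), (nat_lit 111, nat_lit 16224092160),
  (nat_lit 94, nat_lit 17297571840)]⟩], [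
  W4_15133048832, W4_15116533760, W4_15100018688, W4_14076084224, W4_14059569152, W4_14043054080,
  W4_13019119616, W4_13002604544, W4_12986089472, W4_11945639936, W4_11929124864, W4_10872160256]⟩

theorem F4_15167127552_chk : fwdChk 4 ks4 F4_15167127552 = true := by decide +kernel

noncomputable def F4_15150612480 : Fwd := ⟨V4_15150612480, [
  ⟨V3_9765126144, nat_lit 1, [(nat_lit 105, nat_lit 15150612480),
  (nat_lit 92, nat_lit 16207577088)]⟩,
  ⟨V3_10855120896, nat_lit 1, [(nat_lit 24, nat_lit 15150612480),
  (nat_lit 78, nat_lit 16224092160), (nat_lit 101, nat_lit 17297571840)]⟩], [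
  W4_15133048832, W4_15116533760, W4_15100018688, W4_14076084224, W4_14059569152, W4_14043054080,
  W4_14026539008, W4_13002604544, W4_12986089472, W4_12969574400, W4_11929124864, W4_11912609792,
  W4_10855645184]⟩

theorem F4_15150612480_chk : fwdChk 4 ks4 F4_15150612480 = true := by decide +kernel

noncomputable def F4_15150354432 : Fwd := ⟨V4_15150354432, [
  ⟨V3_15066464256, nat_lit 1, [(nat_lit 74, nat_lit 15150354432),
  (nat_lit 71, nat_lit 16224092160), (nat_lit 11, nat_lit 16207319040),
  (nat_lit 101, nat_lit 17281056768), (nat_lit 108, nat_lit 17264283648),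
  (nat_lit 80, nat_lit 18338021376), (nat_lit 24, nat_lit 18321248256),
  (nat_lit 109, nat_lit 19394985984), (nat_lit 63, nat_lit 19378212864),
  (nat_lit 50, nat_lit 20451950592), (nat_lit 5, nat_lit 20435177472),
  (nat_lit 17, nat_lit 21508915200)]⟩,
  ⟨V3_10855120896, nat_lit 1, [(nat_lit 54, nat_lit 15150354432),
  (nat_lit 93, nat_lit 16224092160), (nat_lit 73, nat_lit 16223834112),
  (nat_lit 3, nat_lit 17297571840)]⟩], [
  W4_15116533760, W4_15100018688, W4_14059569152, W4_14043054080, W4_14026280960, W4_13002604544,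
  W4_12986089472, W4_12969316352, W4_11929124864, W4_11928866816, W4_11912351744, W4_10855387136]⟩

theorem F4_15150354432_chk : fwdChk 4 ks4 F4_15150354432 = true := by decide +kernel

noncomputable def F4_15134097408 : Fwd := ⟨V4_15134097408, [
  ⟨V3_8691646464, nat_lit 1, [(nat_lit 39, nat_lit 15134097408)]⟩,
  ⟨V3_9765126144, nat_lit 1, [(nat_lit 103, nat_lit 15134097408),
  (nat_lit 52, nat_lit 16207577088)]⟩,
  ⟨V3_10805575680, nat_lit 1, [(nat_lit 103, nat_lit 15134097408),
  (nat_lit 24, nat_lit 16191062016), (nat_lit 5, nat_lit 17248026624)]⟩,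
  ⟨V3_12985565184, nat_lit 1, [(nat_lit 3, nat_lit 15134097408),
  (nat_lit 108, nat_lit 16207577088), (nat_lit 36, nat_lit 17281056768),
  (nat_lit 57, nat_lit 18354536448), (nat_lit 42, nat_lit 19428016128)]⟩], [
  W4_15133048832, W4_15116533760, W4_15100018688, W4_14059569152, W4_14043054080, W4_14026539008,
  W4_12986089472, W4_12969574400, W4_12953059328, W4_11912609792, W4_11896094720, W4_10839130112]⟩

theorem F4_15134097408_chk : fwdChk 4 ks4 F4_15134097408 = true := by decide +kernel

noncomputable def F4_15133581312 : Fwd := ⟨V4_15133581312, [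
  ⟨V3_10838605824, nat_lit 1, [(nat_lit 120, nat_lit 15133581312),
  (nat_lit 89, nat_lit 16207319040), (nat_lit 118, nat_lit 17281056768)]⟩,
  ⟨V3_15066464256, nat_lit 1, [(nat_lit 54, nat_lit 15133581312),
  (nat_lit 125, nat_lit 16207319040), (nat_lit 71, nat_lit 16190545920),
  (nat_lit 121, nat_lit 17281056768), (nat_lit 36, nat_lit 17264283648),
  (nat_lit 3, nat_lit 17247510528), (nat_lit 15, nat_lit 18338021376),
  (nat_lit 15, nat_lit 18321248256), (nat_lit 29, nat_lit 18304475136),
  (nat_lit 79, nat_lit 19394985984), (nat_lit 70, nat_lit 19378212864),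
  (nat_lit 67, nat_lit 19361439744), (nat_lit 63, nat_lit 20451950592),
  (nat_lit 21, nat_lit 20435177472), (nat_lit 10, nat_lit 21508915200)]⟩], [
  W4_15100018688, W4_15066472448, W4_14043054080, W4_14026280960, W4_12986089472, W4_12969316352,
  W4_12952543232, W4_11912351744, W4_11895578624, W4_10838614016]⟩

theorem F4_15133581312_chk : fwdChk 4 ks4 F4_15133581312 = true := by decide +kernel

noncomputable def F4_15117324288 : Fwd := ⟨V4_15117324288, [
  ⟨V3_10805575680, nat_lit 1, [(nat_lit 46, nat_lit 15117324288),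
  (nat_lit 85, nat_lit 16191062016), (nat_lit 40, nat_lit 16174288896),
  (nat_lit 106, nat_lit 17248026624)]⟩], [
  W4_15116533760, W4_15100018688, W4_14043054080, W4_14026539008, W4_14026280960, W4_12969574400,
  W4_12969316352, W4_12953059328, W4_11896094720, W4_11895836672, W4_11879321600, W4_10822356992]⟩

theorem F4_15117324288_chk : fwdChk 4 ks4 F4_15117324288 = true := by decide +kernel

noncomputable def F4_15100551168 : Fwd := ⟨V4_15100551168, [
  ⟨V3_10805575680, nat_lit 1, [(nat_lit 57, nat_lit 15100551168),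
  (nat_lit 1, nat_lit 16174288896), (nat_lit 37, nat_lit 17248026624)]⟩], [
  W4_15100018688, W4_14026539008, W4_14026280960, W4_12953059328, W4_12952543232, W4_11879321600,
  W4_10805583872]⟩

theorem F4_15100551168_chk : fwdChk 4 ks4 F4_15100551168 = true := by decide +kernel

noncomputable def F4_14126678016 : Fwd := ⟨V4_14126678016, [
  ⟨V3_10871635968, nat_lit 1, [(nat_lit 85, nat_lit 14126678016),
  (nat_lit 111, nat_lit 15200157696), (nat_lit 115, nat_lit 15183642624),
  (nat_lit 120, nat_lit 16257122304), (nat_lit 101, nat_lit 16240607232),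
  (nat_lit 41, nat_lit 17314086912)]⟩,
  ⟨V3_10855120896, nat_lit 1, [(nat_lit 34, nat_lit 14126678016),
  (nat_lit 5, nat_lit 15183642624), (nat_lit 83, nat_lit 16240607232),
  (nat_lit 97, nat_lit 17297571840)]⟩], [
  W4_14076084224, W4_14059569152, W4_13019119616, W4_13002604544, W4_11945639936, W4_10905190400,
  W4_10888675328]⟩

theorem F4_14126678016_chk : fwdChk 4 ks4 F4_14126678016 = true := by decide +kernel

noncomputable def F4_14110162944 : Fwd := ⟨V4_14110162944, [
  ⟨V3_10871635968, nat_lit 1, [(nat_lit 56, nat_lit 14110162944),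
  (nat_lit 57, nat_lit 15183642624), (nat_lit 19, nat_lit 15167127552),
  (nat_lit 4, nat_lit 16257122304), (nat_lit 119, nat_lit 16240607232),
  (nat_lit 89, nat_lit 17314086912)]⟩,
  ⟨V3_11895570432, nat_lit 1, [(nat_lit 77, nat_lit 14110162944),
  (nat_lit 100, nat_lit 15167127552), (nat_lit 5, nat_lit 16224092160),
  (nat_lit 72, nat_lit 17281056768), (nat_lit 115, nat_lit 18338021376)]⟩], [
  W4_14076084224, W4_14059569152, W4_14043054080, W4_13019119616, W4_13002604544, W4_12986089472,
  W4_11945639936, W4_11929124864, W4_10888675328, W4_10872160256]⟩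

theorem F4_14110162944_chk : fwdChk 4 ks4 F4_14110162944 = true := by decide +kernel

noncomputable def F4_14109904896 : Fwd := ⟨V4_14109904896, [
  ⟨V3_10855120896, nat_lit 1, [(nat_lit 35, nat_lit 14109904896),
  (nat_lit 106, nat_lit 15183642624), (nat_lit 59, nat_lit 15166869504),
  (nat_lit 72, nat_lit 16240607232), (nat_lit 119, nat_lit 16223834112),
  (nat_lit 28, nat_lit 17297571840)]⟩], [
  W4_14059569152, W4_13002604544, W4_11945639936, W4_11928866816, W4_10888675328]⟩

theorem F4_14109904896_chk : fwdChk 4 ks4 F4_14109904896 = true := by decide +kernel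

noncomputable def F4_14093647872 : Fwd := ⟨V4_14093647872, [
  ⟨V3_8724676608, nat_lit 1, [(nat_lit 75, nat_lit 14093647872),
  (nat_lit 28, nat_lit 15167127552)]⟩,
  ⟨V3_10871635968, nat_lit 1, [(nat_lit 79, nat_lit 14093647872),
  (nat_lit 2, nat_lit 15167127552), (nat_lit 53, nat_lit 16240607232),
  (nat_lit 83, nat_lit 17314086912)]⟩,
  ⟨V3_9765126144, nat_lit 1, [(nat_lit 90, nat_lit 14093647872), (nat_lit 3, nat_lit 15150612480),
  (nat_lit 55, nat_lit 16207577088)]⟩], [
  W4_14076084224, W4_14059569152, W4_14043054080, W4_14026539008, W4_13019119616, W4_13002604544,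
  W4_12986089472, W4_12969574400, W4_11945639936, W4_11929124864, W4_11912609792, W4_10872160256,
  W4_10855645184, W4_9798680576]⟩

theorem F4_14093647872_chk : fwdChk 4 ks4 F4_14093647872 = true := by decide +kernel

noncomputable def F4_14093389824 : Fwd := ⟨V4_14093389824, [
  ⟨V3_8724676608, nat_lit 1, [(nat_lit 1, nat_lit 14093389824),
  (nat_lit 47, nat_lit 15167127552)]⟩,
  ⟨V3_10855120896, nat_lit 1, [(nat_lit 97, nat_lit 14093389824),
  (nat_lit 10, nat_lit 15167127552), (nat_lit 12, nat_lit 15166869504),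
  (nat_lit 120, nat_lit 15150354432), (nat_lit 37, nat_lit 16240607232),
  (nat_lit 23, nat_lit 16224092160), (nat_lit 78, nat_lit 16223834112),
  (nat_lit 3, nat_lit 17297571840)]⟩], [
  W4_14059569152, W4_14043054080, W4_14026280960, W4_13002604544, W4_12986089472, W4_12969316352,
  W4_11945639936, W4_11929124864, W4_11928866816, W4_11912351744, W4_10872160256, W4_10855387136,
  W4_9798422528]⟩

theorem F4_14093389824_chk : fwdChk 4 ks4 F4_14093389824 = true := by decide +kernel

noncomputable def F4_14077132800 : Fwd := ⟨V4_14077132800, [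
  ⟨V3_8691646464, nat_lit 1, [(nat_lit 27, nat_lit 14077132800),
  (nat_lit 25, nat_lit 15134097408)]⟩,
  ⟨V3_10805575680, nat_lit 1, [(nat_lit 7, nat_lit 14077132800),
  (nat_lit 53, nat_lit 15134097408), (nat_lit 27, nat_lit 16191062016),
  (nat_lit 20, nat_lit 17248026624)]⟩,
  ⟨V3_9765126144, nat_lit 1, [(nat_lit 124, nat_lit 14077132800),
  (nat_lit 41, nat_lit 15150612480), (nat_lit 53, nat_lit 15134097408),
  (nat_lit 43, nat_lit 16207577088)]⟩], [
  W4_14076084224, W4_14059569152, W4_14043054080, W4_14026539008, W4_13002604544, W4_12986089472,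
  W4_12969574400, W4_12953059328, W4_11929124864, W4_11912609792, W4_11896094720, W4_10855645184,
  W4_10839130112, W4_9782165504]⟩

theorem F4_14077132800_chk : fwdChk 4 ks4 F4_14077132800 = true := by decide +kernel

noncomputable def F4_14076874752 : Fwd := ⟨V4_14076874752, [
  ⟨V3_9765126144, nat_lit 1, [(nat_lit 6, nat_lit 14076874752), (nat_lit 46, nat_lit 15150612480),
  (nat_lit 57, nat_lit 15133839360), (nat_lit 71, nat_lit 16207577088)]⟩,
  ⟨V3_10855120896, nat_lit 1, [(nat_lit 16, nat_lit 14076874752),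
  (nat_lit 123, nat_lit 15150612480), (nat_lit 117, nat_lit 15150354432),
  (nat_lit 106, nat_lit 16224092160), (nat_lit 87, nat_lit 16223834112),
  (nat_lit 15, nat_lit 17297571840)]⟩], [
  W4_14059569152, W4_14043054080, W4_14026539008, W4_14026280960, W4_13002604544, W4_12986089472,
  W4_12969574400, W4_12969316352, W4_11929124864, W4_11928866816, W4_11912609792, W4_11912351744,
  W4_11895836672, W4_10855645184, W4_10855387136, W4_10838872064, W4_9781907456]⟩

theorem F4_14076874752_chk : fwdChk 4 ks4 F4_14076874752 = true := by decide +kernel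

noncomputable def F4_14060617728 : Fwd := ⟨V4_14060617728, [
  ⟨V3_8691646464, nat_lit 1, [(nat_lit 43, nat_lit 14060617728),
  (nat_lit 119, nat_lit 15134097408)]⟩,
  ⟨V3_9765126144, nat_lit 1, [(nat_lit 2, nat_lit 14060617728), (nat_lit 44, nat_lit 15134097408),
  (nat_lit 93, nat_lit 16207577088)]⟩], [
  W4_14059569152, W4_14043054080, W4_12986089472, W4_12969574400, W4_11912609792, W4_11896094720,
  W4_10839130112, W4_9765650432]⟩

theorem F4_14060617728_chk : fwdChk 4 ks4 F4_14060617728 = true := by decide +kernel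

noncomputable def F4_14060359680 : Fwd := ⟨V4_14060359680, [
  ⟨V3_8691646464, nat_lit 1, [(nat_lit 4, nat_lit 14060359680),
  (nat_lit 61, nat_lit 15134097408)]⟩,
  ⟨V3_9765126144, nat_lit 1, [(nat_lit 58, nat_lit 14060359680),
  (nat_lit 109, nat_lit 15134097408), (nat_lit 90, nat_lit 15133839360),
  (nat_lit 14, nat_lit 16207577088)]⟩], [
  W4_14059569152, W4_14043054080, W4_14026539008, W4_14026280960, W4_12986089472, W4_12969574400,
  W4_12969316352, W4_12953059328, W4_11912609792, W4_11912351744, W4_11896094720, W4_11895836672,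
  W4_11879321600, W4_10839130112, W4_10838872064, W4_10822356992, W4_9765392384]⟩

theorem F4_14060359680_chk : fwdChk 4 ks4 F4_14060359680 = true := by decide +kernel

noncomputable def F4_14060101632 : Fwd := ⟨V4_14060101632, [
  ⟨V3_9765126144, nat_lit 1, [(nat_lit 104, nat_lit 14060101632),
  (nat_lit 73, nat_lit 15133839360), (nat_lit 90, nat_lit 16207577088)]⟩], [
  W4_14043054080, W4_14026539008, W4_14026280960, W4_12986089472, W4_12969574400, W4_12969316352,
  W4_12952543232, W4_11912609792, W4_11912351744, W4_11895836672, W4_11895578624, W4_10838872064,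
  W4_10838614016, W4_9765134336]⟩

theorem F4_14060101632_chk : fwdChk 4 ks4 F4_14060101632 = true := by decide +kernel

noncomputable def F4_14043586560 : Fwd := ⟨V4_14043586560, [
  ⟨V3_10805575680, nat_lit 1, [(nat_lit 79, nat_lit 14043586560),
  (nat_lit 36, nat_lit 15117324288), (nat_lit 20, nat_lit 15100551168),
  (nat_lit 84, nat_lit 16191062016), (nat_lit 32, nat_lit 16174288896),
  (nat_lit 26, nat_lit 17248026624)]⟩], [
  W4_14043054080, W4_14026539008, W4_14026280960, W4_12969574400, W4_12969316352, W4_12953059328,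
  W4_12952543232, W4_11896094720, W4_11895836672, W4_11895578624, W4_11879321600, W4_10822356992,
  W4_10805583872, W4_9748619264]⟩

theorem F4_14043586560_chk : fwdChk 4 ks4 F4_14043586560 = true := by decide +kernel

noncomputable def F4_13086228480 : Fwd := ⟨V4_13086228480, [
  ⟨V3_12985565184, nat_lit 2, [(nat_lit 40, nat_lit 13086228480),
  (nat_lit 7, nat_lit 14143193088), (nat_lit 73, nat_lit 15200157696),
  (nat_lit 54, nat_lit 16257122304), (nat_lit 120, nat_lit 17314086912),
  (nat_lit 87, nat_lit 18371051520), (nat_lit 42, nat_lit 19428016128)]⟩], [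
  W4_13019119616]⟩

theorem F4_13086228480_chk : fwdChk 4 ks4 F4_13086228480 = true := by decide +kernel

noncomputable def F4_13053198336 : Fwd := ⟨V4_13053198336, [
  ⟨V3_12985565184, nat_lit 2, [(nat_lit 3, nat_lit 13053198336),
  (nat_lit 36, nat_lit 14126678016), (nat_lit 116, nat_lit 14110162944),
  (nat_lit 19, nat_lit 15200157696), (nat_lit 114, nat_lit 15183642624),
  (nat_lit 80, nat_lit 15167127552), (nat_lit 24, nat_lit 16257122304),
  (nat_lit 44, nat_lit 16240607232), (nat_lit 88, nat_lit 16224092160),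
  (nat_lit 119, nat_lit 17314086912), (nat_lit 42, nat_lit 17297571840),
  (nat_lit 120, nat_lit 17281056768), (nat_lit 100, nat_lit 18371051520),
  (nat_lit 82, nat_lit 18354536448), (nat_lit 97, nat_lit 19428016128)]⟩,
  ⟨V3_10871635968, nat_lit 1, [(nat_lit 58, nat_lit 13053198336),
  (nat_lit 50, nat_lit 14126678016), (nat_lit 21, nat_lit 14110162944),
  (nat_lit 75, nat_lit 15200157696), (nat_lit 104, nat_lit 15183642624),
  (nat_lit 90, nat_lit 15167127552), (nat_lit 96, nat_lit 16257122304),
  (nat_lit 26, nat_lit 16240607232), (nat_lit 37, nat_lit 17314086912)]⟩], [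
  W4_13019119616, W4_13002604544, W4_12986089472, W4_11945639936, W4_11929124864, W4_10905190400,
  W4_10888675328, W4_10872160256]⟩

theorem F4_13053198336_chk : fwdChk 4 ks4 F4_13053198336 = true := by decide +kernel

noncomputable def F4_13036683264 : Fwd := ⟨V4_13036683264, [
  ⟨V3_9765126144, nat_lit 1, [(nat_lit 29, nat_lit 13036683264), (nat_lit 8, nat_lit 14093647872),
  (nat_lit 82, nat_lit 15150612480), (nat_lit 79, nat_lit 16207577088)]⟩,
  ⟨V3_10871635968, nat_lit 1, [(nat_lit 126, nat_lit 13036683264),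
  (nat_lit 11, nat_lit 14110162944), (nat_lit 55, nat_lit 14093647872),
  (nat_lit 39, nat_lit 15183642624), (nat_lit 110, nat_lit 15167127552),
  (nat_lit 1, nat_lit 16257122304), (nat_lit 118, nat_lit 16240607232),
  (nat_lit 101, nat_lit 17314086912)]⟩], [
  W4_13019119616, W4_13002604544, W4_12986089472, W4_12969574400, W4_11945639936, W4_11929124864,
  W4_11912609792, W4_10888675328, W4_10872160256, W4_10855645184, W4_9798680576]⟩

theorem F4_13036683264_chk : fwdChk 4 ks4 F4_13036683264 = true := by decide +kernel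

noncomputable def F4_13036425216 : Fwd := ⟨V4_13036425216, [
  ⟨V3_12952535040, nat_lit 1, [(nat_lit 54, nat_lit 13036425216),
  (nat_lit 51, nat_lit 14110162944), (nat_lit 118, nat_lit 14093389824),
  (nat_lit 112, nat_lit 15167127552), (nat_lit 59, nat_lit 15150354432),
  (nat_lit 44, nat_lit 16224092160), (nat_lit 120, nat_lit 16207319040),
  (nat_lit 115, nat_lit 17281056768), (nat_lit 67, nat_lit 17264283648),
  (nat_lit 22, nat_lit 18338021376), (nat_lit 83, nat_lit 18321248256),
  (nat_lit 124, nat_lit 19394985984)]⟩], [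
  W4_13002604544, W4_12986089472, W4_12969316352, W4_11945639936, W4_11929124864, W4_11928866816,
  W4_11912351744, W4_10888675328, W4_10872160256, W4_10855387136, W4_9798422528]⟩

theorem F4_13036425216_chk : fwdChk 4 ks4 F4_13036425216 = true := by decide +kernel

noncomputable def F4_13020168192 : Fwd := ⟨V4_13020168192, [
  ⟨V3_8724676608, nat_lit 1, [(nat_lit 27, nat_lit 13020168192),
  (nat_lit 86, nat_lit 14093647872), (nat_lit 49, nat_lit 15167127552)]⟩,
  ⟨V3_8691646464, nat_lit 1, [(nat_lit 76, nat_lit 13020168192),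
  (nat_lit 17, nat_lit 14077132800), (nat_lit 52, nat_lit 15134097408)]⟩,
  ⟨V3_10871635968, nat_lit 1, [(nat_lit 24, nat_lit 13020168192),
  (nat_lit 11, nat_lit 14093647872), (nat_lit 67, nat_lit 15167127552),
  (nat_lit 21, nat_lit 16240607232), (nat_lit 107, nat_lit 17314086912)]⟩,
  ⟨V3_9765126144, nat_lit 1, [(nat_lit 20, nat_lit 13020168192),
  (nat_lit 27, nat_lit 14093647872), (nat_lit 111, nat_lit 14077132800),
  (nat_lit 41, nat_lit 15150612480), (nat_lit 95, nat_lit 15134097408),
  (nat_lit 79, nat_lit 16207577088)]⟩], [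
  W4_13019119616, W4_13002604544, W4_12986089472, W4_12969574400, W4_12953059328, W4_11945639936,
  W4_11929124864, W4_11912609792, W4_11896094720, W4_10872160256, W4_10855645184, W4_10839130112,
  W4_9798680576, W4_9782165504, W4_8725200896]⟩

theorem F4_13020168192_chk : fwdChk 4 ks4 F4_13020168192 = true := by decide +kernel

noncomputable def F4_13019910144 : Fwd := ⟨V4_13019910144, [
  ⟨V3_8724676608, nat_lit 1, [(nat_lit 109, nat_lit 13019910144),
  (nat_lit 8, nat_lit 14093647872), (nat_lit 14, nat_lit 14093389824),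
  (nat_lit 120, nat_lit 15167127552)]⟩], [
  W4_13002604544, W4_12986089472, W4_12969574400, W4_12969316352, W4_11945639936, W4_11929124864,
  W4_11928866816, W4_11912609792, W4_11912351744, W4_11895836672, W4_10872160256, W4_10855645184,
  W4_10855387136, W4_10838872064, W4_9798680576, W4_9798422528, W4_9781907456]⟩

theorem F4_13019910144_chk : fwdChk 4 ks4 F4_13019910144 = true := by decide +kernel

noncomputable def F4_13019652096 : Fwd := ⟨V4_13019652096, [
  ⟨V3_8724676608, nat_lit 1, [(nat_lit 40, nat_lit 13019652096), (nat_lit 3, nat_lit 14093389824),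
  (nat_lit 126, nat_lit 15167127552)]⟩,
  ⟨V3_10838605824, nat_lit 1, [(nat_lit 15, nat_lit 13019652096),
  (nat_lit 5, nat_lit 14093389824), (nat_lit 13, nat_lit 14076616704),
  (nat_lit 69, nat_lit 15167127552), (nat_lit 38, nat_lit 15150354432),
  (nat_lit 3, nat_lit 15133581312), (nat_lit 2, nat_lit 16224092160),
  (nat_lit 81, nat_lit 16207319040), (nat_lit 96, nat_lit 17281056768)]⟩], [
  W4_12986089472, W4_12969316352, W4_12952543232, W4_11929124864, W4_11912351744, W4_11895578624,
  W4_10872160256, W4_10855387136, W4_10838614016, W4_9798422528, W4_8724684800]⟩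

theorem F4_13019652096_chk : fwdChk 4 ks4 F4_13019652096 = true := by decide +kernel

noncomputable def F4_13003653120 : Fwd := ⟨V4_13003653120, [
  ⟨V3_8691646464, nat_lit 1, [(nat_lit 18, nat_lit 13003653120),
  (nat_lit 121, nat_lit 14077132800), (nat_lit 102, nat_lit 14060617728),
  (nat_lit 57, nat_lit 15134097408)]⟩], [
  W4_13002604544, W4_12986089472, W4_12969574400, W4_11929124864, W4_11912609792, W4_11896094720,
  W4_10855645184, W4_10839130112, W4_9782165504, W4_9765650432]⟩

theorem F4_13003653120_chk : fwdChk 4 ks4 F4_13003653120 = true := by decide +kernel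

noncomputable def F4_13003395072 : Fwd := ⟨V4_13003395072, [
  ⟨V3_8691646464, nat_lit 1, [(nat_lit 98, nat_lit 13003395072),
  (nat_lit 91, nat_lit 14077132800), (nat_lit 32, nat_lit 14060359680),
  (nat_lit 61, nat_lit 15134097408)]⟩,
  ⟨V3_10805575680, nat_lit 1, [(nat_lit 61, nat_lit 13003395072),
  (nat_lit 33, nat_lit 14077132800), (nat_lit 91, nat_lit 14060359680),
  (nat_lit 109, nat_lit 15134097408), (nat_lit 62, nat_lit 15117324288),
  (nat_lit 29, nat_lit 16191062016), (nat_lit 78, nat_lit 16174288896),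
  (nat_lit 60, nat_lit 17248026624)]⟩], [
  W4_13002604544, W4_12986089472, W4_12969574400, W4_12969316352, W4_12953059328, W4_11929124864,
  W4_11928866816, W4_11912609792, W4_11912351744, W4_11896094720, W4_11895836672, W4_11879321600,
  W4_10855645184, W4_10855387136, W4_10839130112, W4_10838872064, W4_10822356992, W4_9782165504,
  W4_9781907456, W4_9765392384, W4_8708427776]⟩

theorem F4_13003395072_chk : fwdChk 4 ks4 F4_13003395072 = true := by decide +kernel

noncomputable def F4_13003137024 : Fwd := ⟨V4_13003137024, [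
  ⟨V3_9765126144, nat_lit 1, [(nat_lit 119, nat_lit 13003137024),
  (nat_lit 72, nat_lit 14076874752), (nat_lit 7, nat_lit 14060101632),
  (nat_lit 15, nat_lit 15150612480), (nat_lit 23, nat_lit 15133839360),
  (nat_lit 64, nat_lit 16207577088)]⟩], [
  W4_12986089472, W4_12969574400, W4_12969316352, W4_12952543232, W4_11929124864, W4_11912609792,
  W4_11912351744, W4_11895836672, W4_11895578624, W4_10855645184, W4_10855387136, W4_10838872064,
  W4_10838614016, W4_9781907456, W4_9765134336]⟩

theorem F4_13003137024_chk : fwdChk 4 ks4 F4_13003137024 = true := by decide +kernel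

noncomputable def F4_12987138048 : Fwd := ⟨V4_12987138048, [
  ⟨V3_6544687104, nat_lit 1, [(nat_lit 61, nat_lit 12987138048)]⟩,
  ⟨V3_12985565184, nat_lit 2, [(nat_lit 91, nat_lit 12987138048),
  (nat_lit 65, nat_lit 14060617728), (nat_lit 76, nat_lit 15134097408),
  (nat_lit 108, nat_lit 16207577088), (nat_lit 21, nat_lit 17281056768),
  (nat_lit 45, nat_lit 18354536448), (nat_lit 52, nat_lit 19428016128)]⟩], [
  W4_12986089472, W4_11912609792, W4_10839130112, W4_9765650432, W4_8692170752]⟩

theorem F4_12987138048_chk : fwdChk 4 ks4 F4_12987138048 = true := by decide +kernel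

noncomputable def F4_12986880000 : Fwd := ⟨V4_12986880000, [
  ⟨V3_8691646464, nat_lit 1, [(nat_lit 83, nat_lit 12986880000),
  (nat_lit 15, nat_lit 14060617728), (nat_lit 1, nat_lit 14060359680),
  (nat_lit 70, nat_lit 15134097408)]⟩], [
  W4_12986089472, W4_12969574400, W4_12969316352, W4_11912609792, W4_11912351744, W4_11896094720,
  W4_11895836672, W4_10839130112, W4_10838872064, W4_10822356992, W4_9765650432, W4_9765392384,
  W4_8691912704]⟩

theorem F4_12986880000_chk : fwdChk 4 ks4 F4_12986880000 = true := by decide +kernel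

noncomputable def F4_12986621952 : Fwd := ⟨V4_12986621952, [
  ⟨V3_8691646464, nat_lit 1, [(nat_lit 120, nat_lit 12986621952),
  (nat_lit 9, nat_lit 14060359680), (nat_lit 124, nat_lit 15134097408)]⟩,
  ⟨V3_9765126144, nat_lit 1, [(nat_lit 63, nat_lit 12986621952),
  (nat_lit 67, nat_lit 14060359680), (nat_lit 14, nat_lit 14060101632),
  (nat_lit 80, nat_lit 15134097408), (nat_lit 112, nat_lit 15133839360),
  (nat_lit 106, nat_lit 16207577088)]⟩], [
  W4_12986089472, W4_12969574400, W4_12969316352, W4_12953059328, W4_12952543232, W4_11912609792,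
  W4_11912351744, W4_11896094720, W4_11895836672, W4_11895578624, W4_11879321600, W4_10839130112,
  W4_10838872064, W4_10838614016, W4_10822356992, W4_10805583872, W4_9765392384, W4_9765134336,
  W4_9748619264, W4_8691654656]⟩

theorem F4_12986621952_chk : fwdChk 4 ks4 F4_12986621952 = true := by decide +kernel

noncomputable def F4_12953075712 : Fwd := ⟨V4_12953075712, [
  ⟨V3_10805575680, nat_lit 1, [(nat_lit 3, nat_lit 12953075712),
  (nat_lit 118, nat_lit 14026813440), (nat_lit 69, nat_lit 15100551168),
  (nat_lit 109, nat_lit 16174288896), (nat_lit 29, nat_lit 17248026624)]⟩], [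
  W4_12953059328, W4_11879321600, W4_10805583872, W4_8658108416]⟩

theorem F4_12953075712_chk : fwdChk 4 ks4 F4_12953075712 = true := by decide +kernel

noncomputable def F4_11995975680 : Fwd := ⟨V4_11995975680, [
  ⟨V3_11912085504, nat_lit 1, [(nat_lit 93, nat_lit 11995975680),
  (nat_lit 29, nat_lit 13069713408), (nat_lit 18, nat_lit 13052940288),
  (nat_lit 71, nat_lit 14126678016), (nat_lit 20, nat_lit 14109904896),
  (nat_lit 116, nat_lit 15183642624), (nat_lit 47, nat_lit 15166869504),
  (nat_lit 115, nat_lit 16240607232), (nat_lit 92, nat_lit 16223834112),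
  (nat_lit 107, nat_lit 17297571840), (nat_lit 78, nat_lit 17280798720),
  (nat_lit 28, nat_lit 18354536448)]⟩], [
  W4_11945639936, W4_11928866816]⟩

theorem F4_11995975680_chk : fwdChk 4 ks4 F4_11995975680 = true := by decide +kernel

noncomputable def F4_11979718656 : Fwd := ⟨V4_11979718656, [
  ⟨V3_10871635968, nat_lit 1, [(nat_lit 43, nat_lit 11979718656),
  (nat_lit 120, nat_lit 13053198336), (nat_lit 77, nat_lit 13036683264),
  (nat_lit 21, nat_lit 14126678016), (nat_lit 110, nat_lit 14110162944),
  (nat_lit 36, nat_lit 14093647872), (nat_lit 91, nat_lit 15200157696),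
  (nat_lit 31, nat_lit 15183642624), (nat_lit 116, nat_lit 15167127552),
  (nat_lit 125, nat_lit 16257122304), (nat_lit 92, nat_lit 16240607232),
  (nat_lit 96, nat_lit 17314086912)]⟩], [
  W4_11945639936, W4_11929124864, W4_11912609792, W4_10905190400, W4_10888675328, W4_10872160256,
  W4_10855645184]⟩

theorem F4_11979718656_chk : fwdChk 4 ks4 F4_11979718656 = true := by decide +kernel

noncomputable def F4_11979460608 : Fwd := ⟨V4_11979460608, [
  ⟨V3_11895570432, nat_lit 1, [(nat_lit 65, nat_lit 11979460608),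
  (nat_lit 38, nat_lit 13053198336), (nat_lit 110, nat_lit 13036425216),
  (nat_lit 30, nat_lit 14110162944), (nat_lit 9, nat_lit 14093389824),
  (nat_lit 77, nat_lit 15167127552), (nat_lit 119, nat_lit 15150354432),
  (nat_lit 45, nat_lit 16224092160), (nat_lit 99, nat_lit 16207319040),
  (nat_lit 33, nat_lit 17281056768), (nat_lit 20, nat_lit 17264283648),
  (nat_lit 95, nat_lit 18338021376)]⟩], [
  W4_11945639936, W4_11929124864, W4_11928866816, W4_11912351744, W4_10888675328, W4_10872160256,
  W4_10855387136]⟩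

theorem F4_11979460608_chk : fwdChk 4 ks4 F4_11979460608 = true := by decide +kernel

noncomputable def F4_11963203584 : Fwd := ⟨V4_11963203584, [
  ⟨V3_10805575680, nat_lit 1, [(nat_lit 74, nat_lit 11963203584),
  (nat_lit 69, nat_lit 13020168192), (nat_lit 95, nat_lit 14077132800),
  (nat_lit 106, nat_lit 15134097408), (nat_lit 71, nat_lit 16191062016),
  (nat_lit 110, nat_lit 17248026624)]⟩], [
  W4_11945639936, W4_11929124864, W4_11912609792, W4_11896094720, W4_10888675328, W4_10872160256,
  W4_10855645184, W4_10839130112, W4_9798680576, W4_9782165504]⟩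

theorem F4_11963203584_chk : fwdChk 4 ks4 F4_11963203584 = true := by decide +kernel

noncomputable def F4_11962945536 : Fwd := ⟨V4_11962945536, [
  ⟨V3_9765126144, nat_lit 1, [(nat_lit 65, nat_lit 11962945536),
  (nat_lit 123, nat_lit 13036683264), (nat_lit 121, nat_lit 13019910144),
  (nat_lit 88, nat_lit 14093647872), (nat_lit 45, nat_lit 14076874752),
  (nat_lit 62, nat_lit 15150612480), (nat_lit 63, nat_lit 15133839360),
  (nat_lit 91, nat_lit 16207577088)]⟩,
  ⟨V3_10855120896, nat_lit 1, [(nat_lit 87, nat_lit 11962945536),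
  (nat_lit 118, nat_lit 13036683264), (nat_lit 31, nat_lit 13036425216),
  (nat_lit 111, nat_lit 13019910144), (nat_lit 90, nat_lit 14110162944),
  (nat_lit 45, nat_lit 14109904896), (nat_lit 31, nat_lit 14093647872),
  (nat_lit 37, nat_lit 14093389824), (nat_lit 120, nat_lit 14076874752),
  (nat_lit 39, nat_lit 15183642624), (nat_lit 91, nat_lit 15167127552),
  (nat_lit 61, nat_lit 15166869504), (nat_lit 94, nat_lit 15150612480),
  (nat_lit 23, nat_lit 15150354432), (nat_lit 41, nat_lit 16240607232),
  (nat_lit 29, nat_lit 16224092160), (nat_lit 107, nat_lit 16223834112),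
  (nat_lit 40, nat_lit 17297571840)]⟩], [
  W4_11945639936, W4_11929124864, W4_11928866816, W4_11912609792, W4_11912351744, W4_11895836672,
  W4_10888675328, W4_10872160256, W4_10855645184, W4_10855387136, W4_10838872064, W4_9798680576,
  W4_9798422528, W4_9781907456]⟩

theorem F4_11962945536_chk : fwdChk 4 ks4 F4_11962945536 = true := by decide +kernel

noncomputable def F4_11946688512 : Fwd := ⟨V4_11946688512, [
  ⟨V3_8724676608, nat_lit 1, [(nat_lit 79, nat_lit 11946688512),
  (nat_lit 80, nat_lit 13020168192), (nat_lit 79, nat_lit 14093647872),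
  (nat_lit 91, nat_lit 15167127552)]⟩,
  ⟨V3_10871635968, nat_lit 1, [(nat_lit 18, nat_lit 11946688512),
  (nat_lit 57, nat_lit 13020168192), (nat_lit 112, nat_lit 14093647872),
  (nat_lit 70, nat_lit 15167127552), (nat_lit 119, nat_lit 16240607232),
  (nat_lit 101, nat_lit 17314086912)]⟩], [
  W4_11945639936, W4_11929124864, W4_11912609792, W4_11896094720, W4_10872160256, W4_10855645184,
  W4_10839130112, W4_9798680576, W4_9782165504, W4_9765650432, W4_8725200896]⟩

theorem F4_11946688512_chk : fwdChk 4 ks4 F4_11946688512 = true := by decide +kernel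

noncomputable def F4_11946430464 : Fwd := ⟨V4_11946430464, [
  ⟨V3_8724676608, nat_lit 1, [(nat_lit 44, nat_lit 11946430464),
  (nat_lit 75, nat_lit 13020168192), (nat_lit 61, nat_lit 13019910144),
  (nat_lit 7, nat_lit 14093647872), (nat_lit 28, nat_lit 14093389824),
  (nat_lit 115, nat_lit 15167127552)]⟩,
  ⟨V3_8691646464, nat_lit 1, [(nat_lit 1, nat_lit 11946430464), (nat_lit 70, nat_lit 13020168192),
  (nat_lit 56, nat_lit 13003395072), (nat_lit 32, nat_lit 14077132800),
  (nat_lit 53, nat_lit 14060359680), (nat_lit 6, nat_lit 15134097408)]⟩], [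
  W4_11945639936, W4_11929124864, W4_11928866816, W4_11912609792, W4_11912351744, W4_11896094720,
  W4_11895836672, W4_11879321600, W4_10872160256, W4_10855645184, W4_10855387136, W4_10839130112,
  W4_10838872064, W4_10822356992, W4_9798680576, W4_9798422528, W4_9782165504, W4_9781907456,
  W4_9765392384, W4_8725200896, W4_8708427776]⟩

theorem F4_11946430464_chk : fwdChk 4 ks4 F4_11946430464 = true := by decide +kernel

noncomputable def F4_11946172416 : Fwd := ⟨V4_11946172416, [
  ⟨V3_8724676608, nat_lit 1, [(nat_lit 88, nat_lit 11946172416),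
  (nat_lit 27, nat_lit 13019910144), (nat_lit 15, nat_lit 13019652096),
  (nat_lit 48, nat_lit 14093647872), (nat_lit 35, nat_lit 14093389824),
  (nat_lit 70, nat_lit 15167127552)]⟩], [
  W4_11929124864, W4_11912609792, W4_11912351744, W4_11895836672, W4_11895578624, W4_10872160256,
  W4_10855645184, W4_10855387136, W4_10838872064, W4_10838614016, W4_9798680576, W4_9798422528,
  W4_9781907456, W4_9765134336, W4_8724684800]⟩

theorem F4_11946172416_chk : fwdChk 4 ks4 F4_11946172416 = true := by decide +kernel

noncomputable def F4_11930173440 : Fwd := ⟨V4_11930173440, [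
  ⟨V3_8691646464, nat_lit 1, [(nat_lit 9, nat_lit 11930173440), (nat_lit 59, nat_lit 13003653120),
  (nat_lit 121, nat_lit 12987138048), (nat_lit 22, nat_lit 14077132800),
  (nat_lit 4, nat_lit 14060617728), (nat_lit 105, nat_lit 15134097408)]⟩], [
  W4_11929124864, W4_11912609792, W4_10855645184, W4_10839130112, W4_9782165504, W4_9765650432,
  W4_8692170752]⟩

theorem F4_11930173440_chk : fwdChk 4 ks4 F4_11930173440 = true := by decide +kernel

noncomputable def F4_11929915392 : Fwd := ⟨V4_11929915392, [
  ⟨V3_10855120896, nat_lit 1, [(nat_lit 63, nat_lit 11929915392),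
  (nat_lit 40, nat_lit 13003653120), (nat_lit 95, nat_lit 13003395072),
  (nat_lit 42, nat_lit 14077132800), (nat_lit 48, nat_lit 14076874752),
  (nat_lit 9, nat_lit 15150612480), (nat_lit 69, nat_lit 15150354432),
  (nat_lit 85, nat_lit 16224092160), (nat_lit 34, nat_lit 16223834112),
  (nat_lit 81, nat_lit 17297571840)]⟩,
  ⟨V3_8691646464, nat_lit 1, [(nat_lit 56, nat_lit 11929915392),
  (nat_lit 99, nat_lit 13003653120), (nat_lit 88, nat_lit 13003395072),
  (nat_lit 99, nat_lit 12986880000), (nat_lit 60, nat_lit 14077132800),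
  (nat_lit 113, nat_lit 14060617728), (nat_lit 14, nat_lit 14060359680),
  (nat_lit 2, nat_lit 15134097408)]⟩], [
  W4_11929124864, W4_11928866816, W4_11912609792, W4_11912351744, W4_11896094720, W4_11895836672,
  W4_10855645184, W4_10855387136, W4_10839130112, W4_10838872064, W4_10822356992, W4_9782165504,
  W4_9781907456, W4_9765650432, W4_9765392384, W4_8708427776, W4_8691912704]⟩

theorem F4_11929915392_chk : fwdChk 4 ks4 F4_11929915392 = true := by decide +kernel

noncomputable def F4_11929657344 : Fwd := ⟨V4_11929657344, [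
  ⟨V3_8691646464, nat_lit 1, [(nat_lit 79, nat_lit 11929657344),
  (nat_lit 110, nat_lit 13003395072), (nat_lit 75, nat_lit 12986621952),
  (nat_lit 45, nat_lit 14077132800), (nat_lit 63, nat_lit 14060359680),
  (nat_lit 107, nat_lit 15134097408)]⟩], [
  W4_11929124864, W4_11912609792, W4_11912351744, W4_11896094720, W4_11895836672, W4_11895578624,
  W4_11879321600, W4_10855645184, W4_10855387136, W4_10839130112, W4_10838872064, W4_10838614016,
  W4_10822356992, W4_10805583872, W4_9782165504, W4_9781907456, W4_9765392384, W4_9765134336,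
  W4_9748619264, W4_8708427776, W4_8691654656]⟩

theorem F4_11929657344_chk : fwdChk 4 ks4 F4_11929657344 = true := by decide +kernel

noncomputable def F4_11913400320 : Fwd := ⟨V4_11913400320, [
  ⟨V3_6544687104, nat_lit 1, [(nat_lit 7, nat_lit 11913400320),
  (nat_lit 123, nat_lit 12987138048)]⟩], [
  W4_11912609792, W4_11912351744, W4_10839130112, W4_10838872064, W4_9765650432, W4_9765392384,
  W4_8692170752, W4_8691912704]⟩

theorem F4_11913400320_chk : fwdChk 4 ks4 F4_11913400320 = true := by decide +kernel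

noncomputable def F4_11913142272 : Fwd := ⟨V4_11913142272, [
  ⟨V3_8691646464, nat_lit 1, [(nat_lit 103, nat_lit 11913142272),
  (nat_lit 64, nat_lit 12986880000), (nat_lit 20, nat_lit 12986621952),
  (nat_lit 18, nat_lit 14060617728), (nat_lit 56, nat_lit 14060359680),
  (nat_lit 68, nat_lit 15134097408)]⟩], [
  W4_11912609792, W4_11912351744, W4_11896094720, W4_11895836672, W4_11895578624, W4_10839130112,
  W4_10838872064, W4_10838614016, W4_10822356992, W4_9765650432, W4_9765392384, W4_9765134336,
  W4_9748619264, W4_8691912704, W4_8691654656]⟩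

theorem F4_11913142272_chk : fwdChk 4 ks4 F4_11913142272 = true := by decide +kernel

noncomputable def F4_11912884224 : Fwd := ⟨V4_11912884224, [
  ⟨V3_8691646464, nat_lit 1, [(nat_lit 24, nat_lit 11912884224),
  (nat_lit 79, nat_lit 12986621952), (nat_lit 43, nat_lit 14060359680),
  (nat_lit 20, nat_lit 15134097408)]⟩], [
  W4_11912609792, W4_11896094720, W4_11895836672, W4_11879321600, W4_10839130112, W4_10838872064,
  W4_10822356992, W4_10805583872, W4_9765392384, W4_9765134336, W4_9748619264, W4_8691654656,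
  W4_7617916928]⟩

theorem F4_11912884224_chk : fwdChk 4 ks4 F4_11912884224 = true := by decide +kernel

noncomputable def F4_10906238976 : Fwd := ⟨V4_10906238976, [
  ⟨V3_10805575680, nat_lit 1, [(nat_lit 58, nat_lit 10906238976),
  (nat_lit 80, nat_lit 11963203584), (nat_lit 36, nat_lit 13020168192),
  (nat_lit 91, nat_lit 14077132800), (nat_lit 47, nat_lit 15134097408),
  (nat_lit 69, nat_lit 16191062016), (nat_lit 99, nat_lit 17248026624)]⟩,
  ⟨V3_10871635968, nat_lit 1, [(nat_lit 104, nat_lit 10906238976),
  (nat_lit 6, nat_lit 11979718656), (nat_lit 18, nat_lit 11963203584),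
  (nat_lit 86, nat_lit 13053198336), (nat_lit 38, nat_lit 13036683264),
  (nat_lit 117, nat_lit 13020168192), (nat_lit 101, nat_lit 14126678016),
  (nat_lit 48, nat_lit 14110162944), (nat_lit 69, nat_lit 14093647872),
  (nat_lit 9, nat_lit 15200157696), (nat_lit 81, nat_lit 15183642624),
  (nat_lit 99, nat_lit 15167127552), (nat_lit 112, nat_lit 16257122304),
  (nat_lit 79, nat_lit 16240607232), (nat_lit 9, nat_lit 17314086912)]⟩], [
  W4_10905190400, W4_10888675328, W4_10872160256, W4_10855645184, W4_10839130112]⟩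

theorem F4_10906238976_chk : fwdChk 4 ks4 F4_10906238976 = true := by decide +kernel

noncomputable def F4_10905722880 : Fwd := ⟨V4_10905722880, [
  ⟨V3_10838605824, nat_lit 1, [(nat_lit 1, nat_lit 10905722880),
  (nat_lit 37, nat_lit 11979460608), (nat_lit 23, nat_lit 11962687488),
  (nat_lit 14, nat_lit 13053198336), (nat_lit 45, nat_lit 13036425216),
  (nat_lit 113, nat_lit 13019652096), (nat_lit 121, nat_lit 14110162944),
  (nat_lit 111, nat_lit 14093389824), (nat_lit 104, nat_lit 14076616704),
  (nat_lit 71, nat_lit 15167127552), (nat_lit 117, nat_lit 15150354432),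
  (nat_lit 93, nat_lit 15133581312), (nat_lit 36, nat_lit 16224092160),
  (nat_lit 82, nat_lit 16207319040), (nat_lit 92, nat_lit 17281056768)]⟩], [
  W4_10872160256, W4_10855387136, W4_10838614016]⟩

theorem F4_10905722880_chk : fwdChk 4 ks4 F4_10905722880 = true := by decide +kernel

noncomputable def F4_10889723904 : Fwd := ⟨V4_10889723904, [
  ⟨V3_10871635968, nat_lit 1, [(nat_lit 30, nat_lit 10889723904),
  (nat_lit 22, nat_lit 11963203584), (nat_lit 87, nat_lit 11946688512),
  (nat_lit 85, nat_lit 13036683264), (nat_lit 40, nat_lit 13020168192),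
  (nat_lit 7, nat_lit 14110162944), (nat_lit 60, nat_lit 14093647872),
  (nat_lit 117, nat_lit 15183642624), (nat_lit 48, nat_lit 15167127552),
  (nat_lit 91, nat_lit 16257122304), (nat_lit 123, nat_lit 16240607232),
  (nat_lit 54, nat_lit 17314086912)]⟩], [
  W4_10888675328, W4_10872160256, W4_10855645184, W4_10839130112, W4_9798680576, W4_9782165504,
  W4_9765650432]⟩

theorem F4_10889723904_chk : fwdChk 4 ks4 F4_10889723904 = true := by decide +kernel

noncomputable def F4_10889465856 : Fwd := ⟨V4_10889465856, [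
  ⟨V3_10805575680, nat_lit 1, [(nat_lit 20, nat_lit 10889465856),
  (nat_lit 108, nat_lit 11963203584), (nat_lit 96, nat_lit 11946430464),
  (nat_lit 108, nat_lit 13020168192), (nat_lit 94, nat_lit 13003395072),
  (nat_lit 40, nat_lit 14077132800), (nat_lit 17, nat_lit 14060359680),
  (nat_lit 36, nat_lit 15134097408), (nat_lit 4, nat_lit 15117324288),
  (nat_lit 46, nat_lit 16191062016), (nat_lit 50, nat_lit 16174288896),
  (nat_lit 29, nat_lit 17248026624)]⟩], [
  W4_10888675328, W4_10872160256, W4_10855645184, W4_10855387136, W4_10839130112, W4_10838872064,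
  W4_10822356992, W4_9798680576, W4_9798422528, W4_9782165504, W4_9781907456, W4_9765392384]⟩

theorem F4_10889465856_chk : fwdChk 4 ks4 F4_10889465856 = true := by decide +kernel

noncomputable def F4_10873208832 : Fwd := ⟨V4_10873208832, [
  ⟨V3_10871635968, nat_lit 1, [(nat_lit 124, nat_lit 10873208832),
  (nat_lit 88, nat_lit 11946688512), (nat_lit 125, nat_lit 13020168192),
  (nat_lit 40, nat_lit 14093647872), (nat_lit 100, nat_lit 15167127552),
  (nat_lit 56, nat_lit 16240607232), (nat_lit 62, nat_lit 17314086912)]⟩,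
  ⟨V3_8724676608, nat_lit 1, [(nat_lit 18, nat_lit 10873208832),
  (nat_lit 104, nat_lit 11946688512), (nat_lit 93, nat_lit 13020168192),
  (nat_lit 1, nat_lit 14093647872), (nat_lit 3, nat_lit 15167127552)]⟩], [
  W4_10872160256, W4_10855645184, W4_10839130112, W4_9798680576, W4_9782165504, W4_9765650432,
  W4_8725200896, W4_8692170752]⟩

theorem F4_10873208832_chk : fwdChk 4 ks4 F4_10873208832 = true := by decide +kernel

noncomputable def F4_10872950784 : Fwd := ⟨V4_10872950784, [
  ⟨V3_8724676608, nat_lit 1, [(nat_lit 89, nat_lit 10872950784),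
  (nat_lit 41, nat_lit 11946688512), (nat_lit 22, nat_lit 11946430464),
  (nat_lit 19, nat_lit 13020168192), (nat_lit 24, nat_lit 13019910144),
  (nat_lit 96, nat_lit 14093647872), (nat_lit 1, nat_lit 14093389824),
  (nat_lit 68, nat_lit 15167127552)]⟩], [
  W4_10872160256, W4_10855645184, W4_10855387136, W4_10839130112, W4_10838872064, W4_10822356992,
  W4_9798680576, W4_9798422528, W4_9782165504, W4_9781907456, W4_9765650432, W4_9765392384,
  W4_8725200896, W4_8708427776, W4_8691912704]⟩

theorem F4_10872950784_chk : fwdChk 4 ks4 F4_10872950784 = true := by decide +kernel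

noncomputable def F4_10872692736 : Fwd := ⟨V4_10872692736, [
  ⟨V3_8724676608, nat_lit 1, [(nat_lit 104, nat_lit 10872692736),
  (nat_lit 75, nat_lit 11946430464), (nat_lit 37, nat_lit 11946172416),
  (nat_lit 10, nat_lit 13020168192), (nat_lit 3, nat_lit 13019910144),
  (nat_lit 63, nat_lit 13019652096), (nat_lit 58, nat_lit 14093647872),
  (nat_lit 48, nat_lit 14093389824), (nat_lit 28, nat_lit 15167127552)]⟩,
  ⟨V3_8691646464, nat_lit 1, [(nat_lit 87, nat_lit 10872692736),
  (nat_lit 45, nat_lit 11946430464), (nat_lit 25, nat_lit 11929657344),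
  (nat_lit 94, nat_lit 13020168192), (nat_lit 44, nat_lit 13003395072),
  (nat_lit 48, nat_lit 12986621952), (nat_lit 121, nat_lit 14077132800),
  (nat_lit 71, nat_lit 14060359680), (nat_lit 27, nat_lit 15134097408)]⟩], [
  W4_10872160256, W4_10855645184, W4_10855387136, W4_10839130112, W4_10838872064, W4_10838614016,
  W4_10822356992, W4_10805583872, W4_9798680576, W4_9798422528, W4_9782165504, W4_9781907456,
  W4_9765392384, W4_9765134336, W4_9748619264, W4_8725200896, W4_8724684800, W4_8708427776,
  W4_8691654656]⟩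

theorem F4_10872692736_chk : fwdChk 4 ks4 F4_10872692736 = true := by decide +kernel

noncomputable def F4_10856435712 : Fwd := ⟨V4_10856435712, [
  ⟨V3_10855120896, nat_lit 1, [(nat_lit 69, nat_lit 10856435712),
  (nat_lit 48, nat_lit 11930173440), (nat_lit 36, nat_lit 11929915392),
  (nat_lit 116, nat_lit 13003653120), (nat_lit 26, nat_lit 13003395072),
  (nat_lit 32, nat_lit 14077132800), (nat_lit 84, nat_lit 14076874752),
  (nat_lit 122, nat_lit 15150612480), (nat_lit 102, nat_lit 15150354432),
  (nat_lit 51, nat_lit 16224092160), (nat_lit 53, nat_lit 16223834112),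
  (nat_lit 120, nat_lit 17297571840)]⟩], [
  W4_10855645184, W4_10855387136, W4_10839130112, W4_10838872064, W4_9782165504, W4_9781907456,
  W4_9765650432, W4_9765392384, W4_8708427776, W4_8692170752, W4_8691912704]⟩

theorem F4_10856435712_chk : fwdChk 4 ks4 F4_10856435712 = true := by decide +kernel

noncomputable def F4_10855919616 : Fwd := ⟨V4_10855919616, [
  ⟨V3_8691646464, nat_lit 1, [(nat_lit 55, nat_lit 10855919616),
  (nat_lit 27, nat_lit 11929657344), (nat_lit 94, nat_lit 11912884224),
  (nat_lit 28, nat_lit 13003395072), (nat_lit 98, nat_lit 12986621952),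
  (nat_lit 10, nat_lit 14077132800), (nat_lit 23, nat_lit 14060359680),
  (nat_lit 19, nat_lit 15134097408)]⟩], [
  W4_10855645184, W4_10839130112, W4_10838872064, W4_10822356992, W4_10805583872, W4_9782165504,
  W4_9781907456, W4_9765392384, W4_9765134336, W4_9748619264, W4_8708427776, W4_8691654656,
  W4_7617916928]⟩

theorem F4_10855919616_chk : fwdChk 4 ks4 F4_10855919616 = true := by decide +kernel

noncomputable def F4_10839662592 : Fwd := ⟨V4_10839662592, [
  ⟨V3_6544687104, nat_lit 1, [(nat_lit 1, nat_lit 10839662592), (nat_lit 20, nat_lit 11913400320),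
  (nat_lit 72, nat_lit 12987138048)]⟩,
  ⟨V3_8691646464, nat_lit 1, [(nat_lit 53, nat_lit 10839662592),
  (nat_lit 92, nat_lit 11913400320), (nat_lit 93, nat_lit 11913142272),
  (nat_lit 22, nat_lit 12987138048), (nat_lit 16, nat_lit 12986880000),
  (nat_lit 8, nat_lit 12986621952), (nat_lit 53, nat_lit 14060617728),
  (nat_lit 119, nat_lit 14060359680), (nat_lit 65, nat_lit 15134097408)]⟩], [
  W4_10839130112, W4_10838872064, W4_10838614016, W4_9765650432, W4_9765392384, W4_9765134336,
  W4_8692170752, W4_8691912704, W4_8691654656, W4_6544695296]⟩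

theorem F4_10839662592_chk : fwdChk 4 ks4 F4_10839662592 = true := by decide +kernel

noncomputable def F4_10839146496 : Fwd := ⟨V4_10839146496, [
  ⟨V3_8691646464, nat_lit 1, [(nat_lit 62, nat_lit 10839146496),
  (nat_lit 55, nat_lit 11912884224), (nat_lit 67, nat_lit 12986621952),
  (nat_lit 30, nat_lit 14060359680), (nat_lit 4, nat_lit 15134097408)]⟩], [
  W4_10839130112, W4_10822356992, W4_10805583872, W4_9765392384, W4_9748619264, W4_8691654656,
  W4_8658108416, W4_7617916928]⟩

theorem F4_10839146496_chk : fwdChk 4 ks4 F4_10839146496 = true := by decide +kernel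

noncomputable def F4_9815470080 : Fwd := ⟨V4_9815470080, [
  ⟨V3_9765126144, nat_lit 1, [(nat_lit 86, nat_lit 9815470080), (nat_lit 93, nat_lit 10889207808),
  (nat_lit 29, nat_lit 10872434688), (nat_lit 36, nat_lit 11962945536),
  (nat_lit 41, nat_lit 11946172416), (nat_lit 51, nat_lit 11929399296),
  (nat_lit 5, nat_lit 13036683264), (nat_lit 47, nat_lit 13019910144),
  (nat_lit 6, nat_lit 13003137024), (nat_lit 92, nat_lit 12986363904),
  (nat_lit 80, nat_lit 14093647872), (nat_lit 21, nat_lit 14076874752),
  (nat_lit 63, nat_lit 14060101632), (nat_lit 47, nat_lit 15150612480),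
  (nat_lit 110, nat_lit 15133839360), (nat_lit 32, nat_lit 16207577088)]⟩], [
  W4_9798680576, W4_9781907456, W4_9765134336]⟩

theorem F4_9815470080_chk : fwdChk 4 ks4 F4_9815470080 = true := by decide +kernel

noncomputable def F4_9799471104 : Fwd := ⟨V4_9799471104, [
  ⟨V3_8724676608, nat_lit 1, [(nat_lit 30, nat_lit 9799471104), (nat_lit 34, nat_lit 10873208832),
  (nat_lit 76, nat_lit 10872950784), (nat_lit 69, nat_lit 11946688512),
  (nat_lit 120, nat_lit 11946430464), (nat_lit 55, nat_lit 13020168192),
  (nat_lit 52, nat_lit 13019910144), (nat_lit 48, nat_lit 14093647872),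
  (nat_lit 90, nat_lit 14093389824), (nat_lit 113, nat_lit 15167127552)]⟩], [
  W4_9798680576, W4_9798422528, W4_9782165504, W4_9781907456, W4_9765650432, W4_9765392384,
  W4_8725200896, W4_8708427776, W4_8692170752, W4_8691912704]⟩

theorem F4_9799471104_chk : fwdChk 4 ks4 F4_9799471104 = true := by decide +kernel

noncomputable def F4_9799213056 : Fwd := ⟨V4_9799213056, [
  ⟨V3_8724676608, nat_lit 1, [(nat_lit 5, nat_lit 9799213056), (nat_lit 73, nat_lit 10872950784),
  (nat_lit 120, nat_lit 10872692736), (nat_lit 9, nat_lit 11946688512),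
  (nat_lit 40, nat_lit 11946430464), (nat_lit 104, nat_lit 11946172416),
  (nat_lit 113, nat_lit 13020168192), (nat_lit 39, nat_lit 13019910144),
  (nat_lit 106, nat_lit 13019652096), (nat_lit 21, nat_lit 14093647872),
  (nat_lit 53, nat_lit 14093389824), (nat_lit 26, nat_lit 15167127552)]⟩], [
  W4_9798680576, W4_9798422528, W4_9782165504, W4_9781907456, W4_9765650432, W4_9765392384,
  W4_9765134336, W4_9748619264, W4_8725200896, W4_8724684800, W4_8708427776, W4_8691912704,
  W4_8691654656]⟩

theorem F4_9799213056_chk : fwdChk 4 ks4 F4_9799213056 = true := by decide +kernel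

noncomputable def F4_9782439936 : Fwd := ⟨V4_9782439936, [
  ⟨V3_8691646464, nat_lit 1, [(nat_lit 59, nat_lit 9782439936), (nat_lit 6, nat_lit 10856177664),
  (nat_lit 95, nat_lit 10855919616), (nat_lit 68, nat_lit 10839404544),
  (nat_lit 109, nat_lit 11929915392), (nat_lit 48, nat_lit 11929657344),
  (nat_lit 41, nat_lit 11913142272), (nat_lit 36, nat_lit 11912884224),
  (nat_lit 67, nat_lit 13003653120), (nat_lit 75, nat_lit 13003395072),
  (nat_lit 57, nat_lit 12986880000), (nat_lit 115, nat_lit 12986621952),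
  (nat_lit 17, nat_lit 14077132800), (nat_lit 64, nat_lit 14060617728),
  (nat_lit 90, nat_lit 14060359680), (nat_lit 5, nat_lit 15134097408)]⟩], [
  W4_9782165504, W4_9781907456, W4_9765650432, W4_9765392384, W4_9765134336, W4_9748619264,
  W4_8708427776, W4_8691912704, W4_8691654656, W4_7617916928]⟩

theorem F4_9782439936_chk : fwdChk 4 ks4 F4_9782439936 = true := by decide +kernel

noncomputable def F4_9765924864 : Fwd := ⟨V4_9765924864, [
  ⟨V3_6544687104, nat_lit 1, [(nat_lit 20, nat_lit 9765924864), (nat_lit 91, nat_lit 10839662592),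
  (nat_lit 46, nat_lit 11913400320), (nat_lit 18, nat_lit 12987138048)]⟩], [
  W4_9765650432, W4_9765392384, W4_9765134336, W4_8692170752, W4_8691912704, W4_8691654656,
  W4_7617916928, W4_6544695296]⟩

theorem F4_9765924864_chk : fwdChk 4 ks4 F4_9765924864 = true := by decide +kernel

noncomputable def F4_8726249472 : Fwd := ⟨V4_8726249472, [
  ⟨V3_8724676608, nat_lit 1, [(nat_lit 78, nat_lit 8726249472), (nat_lit 69, nat_lit 9799729152),
  (nat_lit 77, nat_lit 10873208832), (nat_lit 11, nat_lit 11946688512),
  (nat_lit 9, nat_lit 13020168192), (nat_lit 84, nat_lit 14093647872),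
  (nat_lit 83, nat_lit 15167127552)]⟩], [
  W4_8725200896]⟩

theorem F4_8726249472_chk : fwdChk 4 ks4 F4_8726249472 = true := by decide +kernel

noncomputable def F4_8725733376 : Fwd := ⟨V4_8725733376, [
  ⟨V3_8724676608, nat_lit 1, [(nat_lit 9, nat_lit 8725733376), (nat_lit 12, nat_lit 9799471104),
  (nat_lit 107, nat_lit 9799213056), (nat_lit 79, nat_lit 10873208832),
  (nat_lit 71, nat_lit 10872950784), (nat_lit 101, nat_lit 10872692736),
  (nat_lit 78, nat_lit 11946688512), (nat_lit 112, nat_lit 11946430464),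
  (nat_lit 55, nat_lit 11946172416), (nat_lit 28, nat_lit 13020168192),
  (nat_lit 7, nat_lit 13019910144), (nat_lit 95, nat_lit 13019652096),
  (nat_lit 95, nat_lit 14093647872), (nat_lit 70, nat_lit 14093389824),
  (nat_lit 21, nat_lit 15167127552)]⟩], [
  W4_8725200896, W4_8724684800, W4_8708427776, W4_8692170752, W4_8691912704, W4_8691654656]⟩

theorem F4_8725733376_chk : fwdChk 4 ks4 F4_8725733376 = true := by decide +kernel

noncomputable def F4_8725217280 : Fwd := ⟨V4_8725217280, [
  ⟨V3_8691646464, nat_lit 1, [(nat_lit 5, nat_lit 8725217280), (nat_lit 73, nat_lit 9798955008),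
  (nat_lit 34, nat_lit 9782181888), (nat_lit 124, nat_lit 10872692736),
  (nat_lit 20, nat_lit 10855919616), (nat_lit 5, nat_lit 10839146496),
  (nat_lit 122, nat_lit 11946430464), (nat_lit 37, nat_lit 11929657344),
  (nat_lit 51, nat_lit 11912884224), (nat_lit 108, nat_lit 13020168192),
  (nat_lit 23, nat_lit 13003395072), (nat_lit 76, nat_lit 12986621952),
  (nat_lit 85, nat_lit 14077132800), (nat_lit 100, nat_lit 14060359680),
  (nat_lit 28, nat_lit 15134097408)]⟩], [
  W4_8725200896, W4_8708427776, W4_8691654656, W4_8658108416]⟩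

theorem F4_8725217280_chk : fwdChk 4 ks4 F4_8725217280 = true := by decide +kernel

noncomputable def F4_8692187136 : Fwd := ⟨V4_8692187136, [
  ⟨V3_6544687104, nat_lit 1, [(nat_lit 124, nat_lit 8692187136), (nat_lit 71, nat_lit 9765924864),
  (nat_lit 56, nat_lit 10839662592), (nat_lit 67, nat_lit 11913400320),
  (nat_lit 34, nat_lit 12987138048)]⟩], [
  W4_8692170752, W4_8691912704, W4_8691654656, W4_7617916928, W4_6544695296]⟩

theorem F4_8692187136_chk : fwdChk 4 ks4 F4_8692187136 = true := by decide +kernel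

noncomputable def F4_6544711680 : Fwd := ⟨V4_6544711680, [
  ⟨V3_6544687104, nat_lit 1, [(nat_lit 91, nat_lit 6544711680), (nat_lit 35, nat_lit 7618449408),
  (nat_lit 57, nat_lit 8692187136), (nat_lit 106, nat_lit 9765924864),
  (nat_lit 77, nat_lit 10839662592), (nat_lit 81, nat_lit 11913400320),
  (nat_lit 115, nat_lit 12987138048)]⟩], [
  W4_6544695296]⟩

theorem F4_6544711680_chk : fwdChk 4 ks4 F4_6544711680 = true := by decide +kernel

end Crest.Agent.R187.SN.Fwd
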