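import Crest.Agent.R187.SN.TD.WC5
import Crest.Agent.R187.SN.WInst

/-!
# Row 187, PLAN S, block E4: the `W` tables are correct (WC5)
-/

set_option autoImplicit false

namespace Crest.Agent.R187.SN.Top

open Crest.Agent.R187.SN.Inst

theorem W1_5368709120_ok : Fwd.WtOk Inst.T (Inst.MT 5 0) 0 W1_5368709120 :=
  wt_ok0 W1_5368709120_chk

theorem W2_6509559808_ok : Fwd.WtOk Inst.T (Inst.MT 5 1) 1 W2_6509559808 :=
  wt_ok1 W2_6509559808_chk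

theorem W2_8623489024_ok : Fwd.WtOk Inst.T (Inst.MT 5 1) 1 W2_8623489024 :=
  wt_ok1 W2_8623489024_chk

theorem W2_10737418240_ok : Fwd.WtOk Inst.T (Inst.MT 5 1) 1 W2_10737418240 :=
  wt_ok1 W2_10737418240_chk

theorem W3_6543900672_ok : Fwd.WtOk Inst.T (Inst.MT 5 2) 2 W3_6543900672 :=
  wt_ok2 W3_6543900672_chk

theorem W3_7584350208_ok : Fwd.WtOk Inst.T (Inst.MT 5 2) 2 W3_7584350208 :=
  wt_ok2 W3_7584350208_chk

theorem W3_8674344960_ok : Fwd.WtOk Inst.T (Inst.MT 5 2) 2 W3_8674344960 :=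
  wt_ok2 W3_8674344960_chk

theorem W3_8690860032_ok : Fwd.WtOk Inst.T (Inst.MT 5 2) 2 W3_8690860032 :=
  wt_ok2 W3_8690860032_chk

theorem W3_9731309568_ok : Fwd.WtOk Inst.T (Inst.MT 5 2) 2 W3_9731309568 :=
  wt_ok2 W3_9731309568_chk

theorem W3_9764339712_ok : Fwd.WtOk Inst.T (Inst.MT 5 2) 2 W3_9764339712 :=
  wt_ok2 W3_9764339712_chk

theorem W3_10804789248_ok : Fwd.WtOk Inst.T (Inst.MT 5 2) 2 W3_10804789248 :=
  wt_ok2 W3_10804789248_chk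

theorem W3_10821304320_ok : Fwd.WtOk Inst.T (Inst.MT 5 2) 2 W3_10821304320 :=
  wt_ok2 W3_10821304320_chk

theorem W3_11845238784_ok : Fwd.WtOk Inst.T (Inst.MT 5 2) 2 W3_11845238784 :=
  wt_ok2 W3_11845238784_chk

theorem W3_11878268928_ok : Fwd.WtOk Inst.T (Inst.MT 5 2) 2 W3_11878268928 :=
  wt_ok2 W3_11878268928_chk

theorem W3_12935233536_ok : Fwd.WtOk Inst.T (Inst.MT 5 2) 2 W3_12935233536 :=
  wt_ok2 W3_12935233536_chk

theorem W3_13992198144_ok : Fwd.WtOk Inst.T (Inst.MT 5 2) 2 W3_13992198144 :=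
  wt_ok2 W3_13992198144_chk

theorem W3_16106127360_ok : Fwd.WtOk Inst.T (Inst.MT 5 2) 2 W3_16106127360 :=
  wt_ok2 W3_16106127360_chk

theorem W4_6544695296_ok : Fwd.WtOk Inst.T (Inst.MT 5 3) 3 W4_6544695296 :=
  wt_ok3 W4_6544695296_chk

theorem W4_7617916928_ok : Fwd.WtOk Inst.T (Inst.MT 5 3) 3 W4_7617916928 :=
  wt_ok3 W4_7617916928_chk

theorem W4_8658108416_ok : Fwd.WtOk Inst.T (Inst.MT 5 3) 3 W4_8658108416 :=
  wt_ok3 W4_8658108416_chk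

theorem W4_8691654656_ok : Fwd.WtOk Inst.T (Inst.MT 5 3) 3 W4_8691654656 :=
  wt_ok3 W4_8691654656_chk

theorem W4_8691912704_ok : Fwd.WtOk Inst.T (Inst.MT 5 3) 3 W4_8691912704 :=
  wt_ok3 W4_8691912704_chk

theorem W4_8692170752_ok : Fwd.WtOk Inst.T (Inst.MT 5 3) 3 W4_8692170752 :=
  wt_ok3 W4_8692170752_chk

theorem W4_8708427776_ok : Fwd.WtOk Inst.T (Inst.MT 5 3) 3 W4_8708427776 :=
  wt_ok3 W4_8708427776_chk

theorem W4_8724684800_ok : Fwd.WtOk Inst.T (Inst.MT 5 3) 3 W4_8724684800 :=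
  wt_ok3 W4_8724684800_chk

theorem W4_8725200896_ok : Fwd.WtOk Inst.T (Inst.MT 5 3) 3 W4_8725200896 :=
  wt_ok3 W4_8725200896_chk

theorem W4_9748619264_ok : Fwd.WtOk Inst.T (Inst.MT 5 3) 3 W4_9748619264 :=
  wt_ok3 W4_9748619264_chk

theorem W4_9765134336_ok : Fwd.WtOk Inst.T (Inst.MT 5 3) 3 W4_9765134336 :=
  wt_ok3 W4_9765134336_chk

theorem W4_9765392384_ok : Fwd.WtOk Inst.T (Inst.MT 5 3) 3 W4_9765392384 :=
  wt_ok3 W4_9765392384_chk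

theorem W4_9765650432_ok : Fwd.WtOk Inst.T (Inst.MT 5 3) 3 W4_9765650432 :=
  wt_ok3 W4_9765650432_chk

theorem W4_9781907456_ok : Fwd.WtOk Inst.T (Inst.MT 5 3) 3 W4_9781907456 :=
  wt_ok3 W4_9781907456_chk

theorem W4_9782165504_ok : Fwd.WtOk Inst.T (Inst.MT 5 3) 3 W4_9782165504 :=
  wt_ok3 W4_9782165504_chk

theorem W4_9798422528_ok : Fwd.WtOk Inst.T (Inst.MT 5 3) 3 W4_9798422528 :=
  wt_ok3 W4_9798422528_chk

theorem W4_9798680576_ok : Fwd.WtOk Inst.T (Inst.MT 5 3) 3 W4_9798680576 :=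
  wt_ok3 W4_9798680576_chk

theorem W4_10805583872_ok : Fwd.WtOk Inst.T (Inst.MT 5 3) 3 W4_10805583872 :=
  wt_ok3 W4_10805583872_chk

theorem W4_10822356992_ok : Fwd.WtOk Inst.T (Inst.MT 5 3) 3 W4_10822356992 :=
  wt_ok3 W4_10822356992_chk

theorem W4_10838614016_ok : Fwd.WtOk Inst.T (Inst.MT 5 3) 3 W4_10838614016 :=
  wt_ok3 W4_10838614016_chk

theorem W4_10838872064_ok : Fwd.WtOk Inst.T (Inst.MT 5 3) 3 W4_10838872064 :=
  wt_ok3 W4_10838872064_chk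

theorem W4_10839130112_ok : Fwd.WtOk Inst.T (Inst.MT 5 3) 3 W4_10839130112 :=
  wt_ok3 W4_10839130112_chk

theorem W4_10855387136_ok : Fwd.WtOk Inst.T (Inst.MT 5 3) 3 W4_10855387136 :=
  wt_ok3 W4_10855387136_chk

theorem W4_10855645184_ok : Fwd.WtOk Inst.T (Inst.MT 5 3) 3 W4_10855645184 :=
  wt_ok3 W4_10855645184_chk

theorem W4_10872160256_ok : Fwd.WtOk Inst.T (Inst.MT 5 3) 3 W4_10872160256 :=
  wt_ok3 W4_10872160256_chk

theorem W4_10888675328_ok : Fwd.WtOk Inst.T (Inst.MT 5 3) 3 W4_10888675328 :=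
  wt_ok3 W4_10888675328_chk

theorem W4_10905190400_ok : Fwd.WtOk Inst.T (Inst.MT 5 3) 3 W4_10905190400 :=
  wt_ok3 W4_10905190400_chk

theorem W4_11879321600_ok : Fwd.WtOk Inst.T (Inst.MT 5 3) 3 W4_11879321600 :=
  wt_ok3 W4_11879321600_chk

theorem W4_11895578624_ok : Fwd.WtOk Inst.T (Inst.MT 5 3) 3 W4_11895578624 :=
  wt_ok3 W4_11895578624_chk

theorem W4_11895836672_ok : Fwd.WtOk Inst.T (Inst.MT 5 3) 3 W4_11895836672 :=
  wt_ok3 W4_11895836672_chk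

theorem W4_11896094720_ok : Fwd.WtOk Inst.T (Inst.MT 5 3) 3 W4_11896094720 :=
  wt_ok3 W4_11896094720_chk

theorem W4_11912351744_ok : Fwd.WtOk Inst.T (Inst.MT 5 3) 3 W4_11912351744 :=
  wt_ok3 W4_11912351744_chk

theorem W4_11912609792_ok : Fwd.WtOk Inst.T (Inst.MT 5 3) 3 W4_11912609792 :=
  wt_ok3 W4_11912609792_chk

theorem W4_11928866816_ok : Fwd.WtOk Inst.T (Inst.MT 5 3) 3 W4_11928866816 :=
  wt_ok3 W4_11928866816_chk

theorem W4_11929124864_ok : Fwd.WtOk Inst.T (Inst.MT 5 3) 3 W4_11929124864 :=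
  wt_ok3 W4_11929124864_chk

theorem W4_11945639936_ok : Fwd.WtOk Inst.T (Inst.MT 5 3) 3 W4_11945639936 :=
  wt_ok3 W4_11945639936_chk

theorem W4_12952543232_ok : Fwd.WtOk Inst.T (Inst.MT 5 3) 3 W4_12952543232 :=
  wt_ok3 W4_12952543232_chk

theorem W4_12953059328_ok : Fwd.WtOk Inst.T (Inst.MT 5 3) 3 W4_12953059328 :=
  wt_ok3 W4_12953059328_chk

theorem W4_12969316352_ok : Fwd.WtOk Inst.T (Inst.MT 5 3) 3 W4_12969316352 :=
  wt_ok3 W4_12969316352_chk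

theorem W4_12969574400_ok : Fwd.WtOk Inst.T (Inst.MT 5 3) 3 W4_12969574400 :=
  wt_ok3 W4_12969574400_chk

theorem W4_12986089472_ok : Fwd.WtOk Inst.T (Inst.MT 5 3) 3 W4_12986089472 :=
  wt_ok3 W4_12986089472_chk

theorem W4_13002604544_ok : Fwd.WtOk Inst.T (Inst.MT 5 3) 3 W4_13002604544 :=
  wt_ok3 W4_13002604544_chk

theorem W4_13019119616_ok : Fwd.WtOk Inst.T (Inst.MT 5 3) 3 W4_13019119616 :=
  wt_ok3 W4_13019119616_chk

theorem W4_14026280960_ok : Fwd.WtOk Inst.T (Inst.MT 5 3) 3 W4_14026280960 :=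
  wt_ok3 W4_14026280960_chk

theorem W4_14026539008_ok : Fwd.WtOk Inst.T (Inst.MT 5 3) 3 W4_14026539008 :=
  wt_ok3 W4_14026539008_chk

theorem W4_14043054080_ok : Fwd.WtOk Inst.T (Inst.MT 5 3) 3 W4_14043054080 :=
  wt_ok3 W4_14043054080_chk

theorem W4_14059569152_ok : Fwd.WtOk Inst.T (Inst.MT 5 3) 3 W4_14059569152 :=
  wt_ok3 W4_14059569152_chk

theorem W4_14076084224_ok : Fwd.WtOk Inst.T (Inst.MT 5 3) 3 W4_14076084224 :=
  wt_ok3 W4_14076084224_chk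

theorem W4_15066472448_ok : Fwd.WtOk Inst.T (Inst.MT 5 3) 3 W4_15066472448 :=
  wt_ok3 W4_15066472448_chk

theorem W4_15100018688_ok : Fwd.WtOk Inst.T (Inst.MT 5 3) 3 W4_15100018688 :=
  wt_ok3 W4_15100018688_chk

theorem W4_15116533760_ok : Fwd.WtOk Inst.T (Inst.MT 5 3) 3 W4_15116533760 :=
  wt_ok3 W4_15116533760_chk

theorem W4_15133048832_ok : Fwd.WtOk Inst.T (Inst.MT 5 3) 3 W4_15133048832 :=
  wt_ok3 W4_15133048832_chk

theorem W4_16156983296_ok : Fwd.WtOk Inst.T (Inst.MT 5 3) 3 W4_16156983296 :=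
  wt_ok3 W4_16156983296_chk

theorem W4_16173498368_ok : Fwd.WtOk Inst.T (Inst.MT 5 3) 3 W4_16173498368 :=
  wt_ok3 W4_16173498368_chk

theorem W4_16190013440_ok : Fwd.WtOk Inst.T (Inst.MT 5 3) 3 W4_16190013440 :=
  wt_ok3 W4_16190013440_chk

theorem W4_17213947904_ok : Fwd.WtOk Inst.T (Inst.MT 5 3) 3 W4_17213947904 :=
  wt_ok3 W4_17213947904_chk

theorem W4_17246978048_ok : Fwd.WtOk Inst.T (Inst.MT 5 3) 3 W4_17246978048 :=
  wt_ok3 W4_17246978048_chk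

theorem W4_18303942656_ok : Fwd.WtOk Inst.T (Inst.MT 5 3) 3 W4_18303942656 :=
  wt_ok3 W4_18303942656_chk

theorem W4_19360907264_ok : Fwd.WtOk Inst.T (Inst.MT 5 3) 3 W4_19360907264 :=
  wt_ok3 W4_19360907264_chk

theorem W4_21474836480_ok : Fwd.WtOk Inst.T (Inst.MT 5 3) 3 W4_21474836480 :=
  wt_ok3 W4_21474836480_chk

theorem W5_6544711744_ok : Fwd.WtOk Inst.T (Inst.MT 5 4) 4 W5_6544711744 :=
  wt_ok4 W5_6544711744_chk

theorem W5_7618445440_ok : Fwd.WtOk Inst.T (Inst.MT 5 4) 4 W5_7618445440 :=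
  wt_ok4 W5_7618445440_chk

theorem W5_7634956480_ok : Fwd.WtOk Inst.T (Inst.MT 5 4) 4 W5_7634956480 :=
  wt_ok4 W5_7634956480_chk

theorem W5_8691663040_ok : Fwd.WtOk Inst.T (Inst.MT 5 4) 4 W5_8691663040 :=
  wt_ok4 W5_8691663040_chk

theorem W5_8692183168_ok : Fwd.WtOk Inst.T (Inst.MT 5 4) 4 W5_8692183168 :=
  wt_ok4 W5_8692183168_chk

theorem W5_8692187200_ok : Fwd.WtOk Inst.T (Inst.MT 5 4) 4 W5_8692187200 :=
  wt_ok4 W5_8692187200_chk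

theorem W5_8692191232_ok : Fwd.WtOk Inst.T (Inst.MT 5 4) 4 W5_8692191232 :=
  wt_ok4 W5_8692191232_chk

theorem W5_8708440192_ok : Fwd.WtOk Inst.T (Inst.MT 5 4) 4 W5_8708440192 :=
  wt_ok4 W5_8708440192_chk

theorem W5_8708702272_ok : Fwd.WtOk Inst.T (Inst.MT 5 4) 4 W5_8708702272 :=
  wt_ok4 W5_8708702272_chk

theorem W5_8708960320_ok : Fwd.WtOk Inst.T (Inst.MT 5 4) 4 W5_8708960320 :=
  wt_ok4 W5_8708960320_chk

theorem W5_8708964352_ok : Fwd.WtOk Inst.T (Inst.MT 5 4) 4 W5_8708964352 :=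
  wt_ok4 W5_8708964352_chk

theorem W5_8725217344_ok : Fwd.WtOk Inst.T (Inst.MT 5 4) 4 W5_8725217344 :=
  wt_ok4 W5_8725217344_chk

theorem W5_8725471360_ok : Fwd.WtOk Inst.T (Inst.MT 5 4) 4 W5_8725471360 :=
  wt_ok4 W5_8725471360_chk

theorem W5_8725479424_ok : Fwd.WtOk Inst.T (Inst.MT 5 4) 4 W5_8725479424 :=
  wt_ok4 W5_8725479424_chk

theorem W5_8725733440_ok : Fwd.WtOk Inst.T (Inst.MT 5 4) 4 W5_8725733440 :=
  wt_ok4 W5_8725733440_chk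

theorem W5_8725737472_ok : Fwd.WtOk Inst.T (Inst.MT 5 4) 4 W5_8725737472 :=
  wt_ok4 W5_8725737472_chk

theorem W5_8725995520_ok : Fwd.WtOk Inst.T (Inst.MT 5 4) 4 W5_8725995520 :=
  wt_ok4 W5_8725995520_chk

theorem W5_9731850496_ok : Fwd.WtOk Inst.T (Inst.MT 5 4) 4 W5_9731850496 :=
  wt_ok4 W5_9731850496_chk

theorem W5_9765404800_ok : Fwd.WtOk Inst.T (Inst.MT 5 4) 4 W5_9765404800 :=
  wt_ok4 W5_9765404800_chk

theorem W5_9765662848_ok : Fwd.WtOk Inst.T (Inst.MT 5 4) 4 W5_9765662848 :=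
  wt_ok4 W5_9765662848_chk

theorem W5_9765666880_ok : Fwd.WtOk Inst.T (Inst.MT 5 4) 4 W5_9765666880 :=
  wt_ok4 W5_9765666880_chk

theorem W5_9765920896_ok : Fwd.WtOk Inst.T (Inst.MT 5 4) 4 W5_9765920896 :=
  wt_ok4 W5_9765920896_chk

theorem W5_9765924928_ok : Fwd.WtOk Inst.T (Inst.MT 5 4) 4 W5_9765924928 :=
  wt_ok4 W5_9765924928_chk

theorem W5_9765928960_ok : Fwd.WtOk Inst.T (Inst.MT 5 4) 4 W5_9765928960 :=
  wt_ok4 W5_9765928960_chk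

theorem W5_9782177920_ok : Fwd.WtOk Inst.T (Inst.MT 5 4) 4 W5_9782177920 :=
  wt_ok4 W5_9782177920_chk

theorem W5_9782181952_ok : Fwd.WtOk Inst.T (Inst.MT 5 4) 4 W5_9782181952 :=
  wt_ok4 W5_9782181952_chk

theorem W5_9782440000_ok : Fwd.WtOk Inst.T (Inst.MT 5 4) 4 W5_9782440000 :=
  wt_ok4 W5_9782440000_chk

theorem W5_9782444032_ok : Fwd.WtOk Inst.T (Inst.MT 5 4) 4 W5_9782444032 :=
  wt_ok4 W5_9782444032_chk

theorem W5_9782698048_ok : Fwd.WtOk Inst.T (Inst.MT 5 4) 4 W5_9782698048 :=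
  wt_ok4 W5_9782698048_chk

theorem W5_9782702080_ok : Fwd.WtOk Inst.T (Inst.MT 5 4) 4 W5_9782702080 :=
  wt_ok4 W5_9782702080_chk

theorem W5_9782956096_ok : Fwd.WtOk Inst.T (Inst.MT 5 4) 4 W5_9782956096 :=
  wt_ok4 W5_9782956096_chk

theorem W5_9798951040_ok : Fwd.WtOk Inst.T (Inst.MT 5 4) 4 W5_9798951040 :=
  wt_ok4 W5_9798951040_chk

theorem W5_9798955072_ok : Fwd.WtOk Inst.T (Inst.MT 5 4) 4 W5_9798955072 :=
  wt_ok4 W5_9798955072_chk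

theorem W5_9798959104_ok : Fwd.WtOk Inst.T (Inst.MT 5 4) 4 W5_9798959104 :=
  wt_ok4 W5_9798959104_chk

theorem W5_9799213120_ok : Fwd.WtOk Inst.T (Inst.MT 5 4) 4 W5_9799213120 :=
  wt_ok4 W5_9799213120_chk

theorem W5_9799217152_ok : Fwd.WtOk Inst.T (Inst.MT 5 4) 4 W5_9799217152 :=
  wt_ok4 W5_9799217152_chk

theorem W5_9799471168_ok : Fwd.WtOk Inst.T (Inst.MT 5 4) 4 W5_9799471168 :=
  wt_ok4 W5_9799471168_chk

theorem W5_9799475200_ok : Fwd.WtOk Inst.T (Inst.MT 5 4) 4 W5_9799475200 :=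
  wt_ok4 W5_9799475200_chk

theorem W5_9799733248_ok : Fwd.WtOk Inst.T (Inst.MT 5 4) 4 W5_9799733248 :=
  wt_ok4 W5_9799733248_chk

theorem W5_9799991296_ok : Fwd.WtOk Inst.T (Inst.MT 5 4) 4 W5_9799991296 :=
  wt_ok4 W5_9799991296_chk

theorem W5_9815470144_ok : Fwd.WtOk Inst.T (Inst.MT 5 4) 4 W5_9815470144 :=
  wt_ok4 W5_9815470144_chk

theorem W5_9815728192_ok : Fwd.WtOk Inst.T (Inst.MT 5 4) 4 W5_9815728192 :=
  wt_ok4 W5_9815728192_chk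

theorem W5_9815732224_ok : Fwd.WtOk Inst.T (Inst.MT 5 4) 4 W5_9815732224 :=
  wt_ok4 W5_9815732224_chk

theorem W5_9815986240_ok : Fwd.WtOk Inst.T (Inst.MT 5 4) 4 W5_9815986240 :=
  wt_ok4 W5_9815986240_chk

theorem W5_9815990272_ok : Fwd.WtOk Inst.T (Inst.MT 5 4) 4 W5_9815990272 :=
  wt_ok4 W5_9815990272_chk

theorem W5_9816248320_ok : Fwd.WtOk Inst.T (Inst.MT 5 4) 4 W5_9816248320 :=
  wt_ok4 W5_9816248320_chk

theorem W5_10822369408_ok : Fwd.WtOk Inst.T (Inst.MT 5 4) 4 W5_10822369408 :=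
  wt_ok4 W5_10822369408_chk

theorem W5_10839142528_ok : Fwd.WtOk Inst.T (Inst.MT 5 4) 4 W5_10839142528 :=
  wt_ok4 W5_10839142528_chk

theorem W5_10839146560_ok : Fwd.WtOk Inst.T (Inst.MT 5 4) 4 W5_10839146560 :=
  wt_ok4 W5_10839146560_chk

theorem W5_10839400576_ok : Fwd.WtOk Inst.T (Inst.MT 5 4) 4 W5_10839400576 :=
  wt_ok4 W5_10839400576_chk

theorem W5_10839404608_ok : Fwd.WtOk Inst.T (Inst.MT 5 4) 4 W5_10839404608 :=
  wt_ok4 W5_10839404608_chk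

theorem W5_10839408640_ok : Fwd.WtOk Inst.T (Inst.MT 5 4) 4 W5_10839408640 :=
  wt_ok4 W5_10839408640_chk

theorem W5_10839662656_ok : Fwd.WtOk Inst.T (Inst.MT 5 4) 4 W5_10839662656 :=
  wt_ok4 W5_10839662656_chk

theorem W5_10839666688_ok : Fwd.WtOk Inst.T (Inst.MT 5 4) 4 W5_10839666688 :=
  wt_ok4 W5_10839666688_chk

theorem W5_10855915648_ok : Fwd.WtOk Inst.T (Inst.MT 5 4) 4 W5_10855915648 :=
  wt_ok4 W5_10855915648_chk

theorem W5_10855919680_ok : Fwd.WtOk Inst.T (Inst.MT 5 4) 4 W5_10855919680 :=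
  wt_ok4 W5_10855919680_chk

theorem W5_10855923712_ok : Fwd.WtOk Inst.T (Inst.MT 5 4) 4 W5_10855923712 :=
  wt_ok4 W5_10855923712_chk

theorem W5_10856177728_ok : Fwd.WtOk Inst.T (Inst.MT 5 4) 4 W5_10856177728 :=
  wt_ok4 W5_10856177728_chk

theorem W5_10856181760_ok : Fwd.WtOk Inst.T (Inst.MT 5 4) 4 W5_10856181760 :=
  wt_ok4 W5_10856181760_chk

theorem W5_10856435776_ok : Fwd.WtOk Inst.T (Inst.MT 5 4) 4 W5_10856435776 :=
  wt_ok4 W5_10856435776_chk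

theorem W5_10856439808_ok : Fwd.WtOk Inst.T (Inst.MT 5 4) 4 W5_10856439808 :=
  wt_ok4 W5_10856439808_chk

theorem W5_10856697856_ok : Fwd.WtOk Inst.T (Inst.MT 5 4) 4 W5_10856697856 :=
  wt_ok4 W5_10856697856_chk

theorem W5_10872430720_ok : Fwd.WtOk Inst.T (Inst.MT 5 4) 4 W5_10872430720 :=
  wt_ok4 W5_10872430720_chk

theorem W5_10872692800_ok : Fwd.WtOk Inst.T (Inst.MT 5 4) 4 W5_10872692800 :=
  wt_ok4 W5_10872692800_chk

theorem W5_10872696832_ok : Fwd.WtOk Inst.T (Inst.MT 5 4) 4 W5_10872696832 :=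
  wt_ok4 W5_10872696832_chk

theorem W5_10872950848_ok : Fwd.WtOk Inst.T (Inst.MT 5 4) 4 W5_10872950848 :=
  wt_ok4 W5_10872950848_chk

theorem W5_10872954880_ok : Fwd.WtOk Inst.T (Inst.MT 5 4) 4 W5_10872954880 :=
  wt_ok4 W5_10872954880_chk

theorem W5_10873212928_ok : Fwd.WtOk Inst.T (Inst.MT 5 4) 4 W5_10873212928 :=
  wt_ok4 W5_10873212928_chk

theorem W5_10873470976_ok : Fwd.WtOk Inst.T (Inst.MT 5 4) 4 W5_10873470976 :=
  wt_ok4 W5_10873470976_chk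

theorem W5_10889207872_ok : Fwd.WtOk Inst.T (Inst.MT 5 4) 4 W5_10889207872 :=
  wt_ok4 W5_10889207872_chk

theorem W5_10889211904_ok : Fwd.WtOk Inst.T (Inst.MT 5 4) 4 W5_10889211904 :=
  wt_ok4 W5_10889211904_chk

theorem W5_10889465920_ok : Fwd.WtOk Inst.T (Inst.MT 5 4) 4 W5_10889465920 :=
  wt_ok4 W5_10889465920_chk

theorem W5_10889469952_ok : Fwd.WtOk Inst.T (Inst.MT 5 4) 4 W5_10889469952 :=
  wt_ok4 W5_10889469952_chk

theorem W5_10889728000_ok : Fwd.WtOk Inst.T (Inst.MT 5 4) 4 W5_10889728000 :=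
  wt_ok4 W5_10889728000_chk

theorem W5_10889986048_ok : Fwd.WtOk Inst.T (Inst.MT 5 4) 4 W5_10889986048 :=
  wt_ok4 W5_10889986048_chk

theorem W5_10905722944_ok : Fwd.WtOk Inst.T (Inst.MT 5 4) 4 W5_10905722944 :=
  wt_ok4 W5_10905722944_chk

theorem W5_10905985024_ok : Fwd.WtOk Inst.T (Inst.MT 5 4) 4 W5_10905985024 :=
  wt_ok4 W5_10905985024_chk

theorem W5_10906243072_ok : Fwd.WtOk Inst.T (Inst.MT 5 4) 4 W5_10906243072 :=
  wt_ok4 W5_10906243072_chk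

theorem W5_10906501120_ok : Fwd.WtOk Inst.T (Inst.MT 5 4) 4 W5_10906501120 :=
  wt_ok4 W5_10906501120_chk

theorem W5_11879334016_ok : Fwd.WtOk Inst.T (Inst.MT 5 4) 4 W5_11879334016 :=
  wt_ok4 W5_11879334016_chk

theorem W5_11896369216_ok : Fwd.WtOk Inst.T (Inst.MT 5 4) 4 W5_11896369216 :=
  wt_ok4 W5_11896369216_chk

theorem W5_11912880256_ok : Fwd.WtOk Inst.T (Inst.MT 5 4) 4 W5_11912880256 :=
  wt_ok4 W5_11912880256_chk

theorem W5_11912884288_ok : Fwd.WtOk Inst.T (Inst.MT 5 4) 4 W5_11912884288 :=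
  wt_ok4 W5_11912884288_chk

theorem W5_11912888320_ok : Fwd.WtOk Inst.T (Inst.MT 5 4) 4 W5_11912888320 :=
  wt_ok4 W5_11912888320_chk

theorem W5_11913142336_ok : Fwd.WtOk Inst.T (Inst.MT 5 4) 4 W5_11913142336 :=
  wt_ok4 W5_11913142336_chk

theorem W5_11913146368_ok : Fwd.WtOk Inst.T (Inst.MT 5 4) 4 W5_11913146368 :=
  wt_ok4 W5_11913146368_chk

theorem W5_11913404416_ok : Fwd.WtOk Inst.T (Inst.MT 5 4) 4 W5_11913404416 :=
  wt_ok4 W5_11913404416_chk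

theorem W5_11929399360_ok : Fwd.WtOk Inst.T (Inst.MT 5 4) 4 W5_11929399360 :=
  wt_ok4 W5_11929399360_chk

theorem W5_11929657408_ok : Fwd.WtOk Inst.T (Inst.MT 5 4) 4 W5_11929657408 :=
  wt_ok4 W5_11929657408_chk

theorem W5_11929661440_ok : Fwd.WtOk Inst.T (Inst.MT 5 4) 4 W5_11929661440 :=
  wt_ok4 W5_11929661440_chk

theorem W5_11929915456_ok : Fwd.WtOk Inst.T (Inst.MT 5 4) 4 W5_11929915456 :=
  wt_ok4 W5_11929915456_chk

theorem W5_11929919488_ok : Fwd.WtOk Inst.T (Inst.MT 5 4) 4 W5_11929919488 :=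
  wt_ok4 W5_11929919488_chk

theorem W5_11930177536_ok : Fwd.WtOk Inst.T (Inst.MT 5 4) 4 W5_11930177536 :=
  wt_ok4 W5_11930177536_chk

theorem W5_11945910400_ok : Fwd.WtOk Inst.T (Inst.MT 5 4) 4 W5_11945910400 :=
  wt_ok4 W5_11945910400_chk

theorem W5_11946172480_ok : Fwd.WtOk Inst.T (Inst.MT 5 4) 4 W5_11946172480 :=
  wt_ok4 W5_11946172480_chk

theorem W5_11946176512_ok : Fwd.WtOk Inst.T (Inst.MT 5 4) 4 W5_11946176512 :=
  wt_ok4 W5_11946176512_chk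

theorem W5_11946430528_ok : Fwd.WtOk Inst.T (Inst.MT 5 4) 4 W5_11946430528 :=
  wt_ok4 W5_11946430528_chk

theorem W5_11946434560_ok : Fwd.WtOk Inst.T (Inst.MT 5 4) 4 W5_11946434560 :=
  wt_ok4 W5_11946434560_chk

theorem W5_11946692608_ok : Fwd.WtOk Inst.T (Inst.MT 5 4) 4 W5_11946692608 :=
  wt_ok4 W5_11946692608_chk

theorem W5_11946950656_ok : Fwd.WtOk Inst.T (Inst.MT 5 4) 4 W5_11946950656 :=
  wt_ok4 W5_11946950656_chk

theorem W5_11962687552_ok : Fwd.WtOk Inst.T (Inst.MT 5 4) 4 W5_11962687552 :=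
  wt_ok4 W5_11962687552_chk

theorem W5_11962945600_ok : Fwd.WtOk Inst.T (Inst.MT 5 4) 4 W5_11962945600 :=
  wt_ok4 W5_11962945600_chk

theorem W5_11962949632_ok : Fwd.WtOk Inst.T (Inst.MT 5 4) 4 W5_11962949632 :=
  wt_ok4 W5_11962949632_chk

theorem W5_11963207680_ok : Fwd.WtOk Inst.T (Inst.MT 5 4) 4 W5_11963207680 :=
  wt_ok4 W5_11963207680_chk

theorem W5_11963465728_ok : Fwd.WtOk Inst.T (Inst.MT 5 4) 4 W5_11963465728 :=
  wt_ok4 W5_11963465728_chk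

theorem W5_11979464704_ok : Fwd.WtOk Inst.T (Inst.MT 5 4) 4 W5_11979464704 :=
  wt_ok4 W5_11979464704_chk

theorem W5_11979722752_ok : Fwd.WtOk Inst.T (Inst.MT 5 4) 4 W5_11979722752 :=
  wt_ok4 W5_11979722752_chk

theorem W5_11979980800_ok : Fwd.WtOk Inst.T (Inst.MT 5 4) 4 W5_11979980800 :=
  wt_ok4 W5_11979980800_chk

theorem W5_11995975744_ok : Fwd.WtOk Inst.T (Inst.MT 5 4) 4 W5_11995975744 :=
  wt_ok4 W5_11995975744_chk

theorem W5_11996237824_ok : Fwd.WtOk Inst.T (Inst.MT 5 4) 4 W5_11996237824 :=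
  wt_ok4 W5_11996237824_chk

theorem W5_12953075776_ok : Fwd.WtOk Inst.T (Inst.MT 5 4) 4 W5_12953075776 :=
  wt_ok4 W5_12953075776_chk

theorem W5_12969844864_ok : Fwd.WtOk Inst.T (Inst.MT 5 4) 4 W5_12969844864 :=
  wt_ok4 W5_12969844864_chk

theorem W5_12969852928_ok : Fwd.WtOk Inst.T (Inst.MT 5 4) 4 W5_12969852928 :=
  wt_ok4 W5_12969852928_chk

theorem W5_12970106944_ok : Fwd.WtOk Inst.T (Inst.MT 5 4) 4 W5_12970106944 :=
  wt_ok4 W5_12970106944_chk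

theorem W5_12986622016_ok : Fwd.WtOk Inst.T (Inst.MT 5 4) 4 W5_12986622016 :=
  wt_ok4 W5_12986622016_chk

theorem W5_12986626048_ok : Fwd.WtOk Inst.T (Inst.MT 5 4) 4 W5_12986626048 :=
  wt_ok4 W5_12986626048_chk

theorem W5_12986880064_ok : Fwd.WtOk Inst.T (Inst.MT 5 4) 4 W5_12986880064 :=
  wt_ok4 W5_12986880064_chk

theorem W5_12986884096_ok : Fwd.WtOk Inst.T (Inst.MT 5 4) 4 W5_12986884096 :=
  wt_ok4 W5_12986884096_chk

theorem W5_12987142144_ok : Fwd.WtOk Inst.T (Inst.MT 5 4) 4 W5_12987142144 :=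
  wt_ok4 W5_12987142144_chk

theorem W5_13002875008_ok : Fwd.WtOk Inst.T (Inst.MT 5 4) 4 W5_13002875008 :=
  wt_ok4 W5_13002875008_chk

theorem W5_13003137088_ok : Fwd.WtOk Inst.T (Inst.MT 5 4) 4 W5_13003137088 :=
  wt_ok4 W5_13003137088_chk

theorem W5_13003141120_ok : Fwd.WtOk Inst.T (Inst.MT 5 4) 4 W5_13003141120 :=
  wt_ok4 W5_13003141120_chk

theorem W5_13003395136_ok : Fwd.WtOk Inst.T (Inst.MT 5 4) 4 W5_13003395136 :=
  wt_ok4 W5_13003395136_chk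

theorem W5_13003399168_ok : Fwd.WtOk Inst.T (Inst.MT 5 4) 4 W5_13003399168 :=
  wt_ok4 W5_13003399168_chk

theorem W5_13003657216_ok : Fwd.WtOk Inst.T (Inst.MT 5 4) 4 W5_13003657216 :=
  wt_ok4 W5_13003657216_chk

theorem W5_13003915264_ok : Fwd.WtOk Inst.T (Inst.MT 5 4) 4 W5_13003915264 :=
  wt_ok4 W5_13003915264_chk

theorem W5_13019652160_ok : Fwd.WtOk Inst.T (Inst.MT 5 4) 4 W5_13019652160 :=
  wt_ok4 W5_13019652160_chk

theorem W5_13019910208_ok : Fwd.WtOk Inst.T (Inst.MT 5 4) 4 W5_13019910208 :=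
  wt_ok4 W5_13019910208_chk

theorem W5_13019914240_ok : Fwd.WtOk Inst.T (Inst.MT 5 4) 4 W5_13019914240 :=
  wt_ok4 W5_13019914240_chk

theorem W5_13020172288_ok : Fwd.WtOk Inst.T (Inst.MT 5 4) 4 W5_13020172288 :=
  wt_ok4 W5_13020172288_chk

theorem W5_13020430336_ok : Fwd.WtOk Inst.T (Inst.MT 5 4) 4 W5_13020430336 :=
  wt_ok4 W5_13020430336_chk

theorem W5_13036425280_ok : Fwd.WtOk Inst.T (Inst.MT 5 4) 4 W5_13036425280 :=
  wt_ok4 W5_13036425280_chk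

theorem W5_13036429312_ok : Fwd.WtOk Inst.T (Inst.MT 5 4) 4 W5_13036429312 :=
  wt_ok4 W5_13036429312_chk

theorem W5_13036687360_ok : Fwd.WtOk Inst.T (Inst.MT 5 4) 4 W5_13036687360 :=
  wt_ok4 W5_13036687360_chk

theorem W5_13036945408_ok : Fwd.WtOk Inst.T (Inst.MT 5 4) 4 W5_13036945408 :=
  wt_ok4 W5_13036945408_chk

theorem W5_13053202432_ok : Fwd.WtOk Inst.T (Inst.MT 5 4) 4 W5_13053202432 :=
  wt_ok4 W5_13053202432_chk

theorem W5_13053460480_ok : Fwd.WtOk Inst.T (Inst.MT 5 4) 4 W5_13053460480 :=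
  wt_ok4 W5_13053460480_chk

theorem W5_13069975552_ok : Fwd.WtOk Inst.T (Inst.MT 5 4) 4 W5_13069975552 :=
  wt_ok4 W5_13069975552_chk

theorem W5_13086490624_ok : Fwd.WtOk Inst.T (Inst.MT 5 4) 4 W5_13086490624 :=
  wt_ok4 W5_13086490624_chk

theorem W5_14026809472_ok : Fwd.WtOk Inst.T (Inst.MT 5 4) 4 W5_14026809472 :=
  wt_ok4 W5_14026809472_chk

theorem W5_14026817536_ok : Fwd.WtOk Inst.T (Inst.MT 5 4) 4 W5_14026817536 :=
  wt_ok4 W5_14026817536_chk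

theorem W5_14043586624_ok : Fwd.WtOk Inst.T (Inst.MT 5 4) 4 W5_14043586624 :=
  wt_ok4 W5_14043586624_chk

theorem W5_14043590656_ok : Fwd.WtOk Inst.T (Inst.MT 5 4) 4 W5_14043590656 :=
  wt_ok4 W5_14043590656_chk

theorem W5_14043844672_ok : Fwd.WtOk Inst.T (Inst.MT 5 4) 4 W5_14043844672 :=
  wt_ok4 W5_14043844672_chk

theorem W5_14043848704_ok : Fwd.WtOk Inst.T (Inst.MT 5 4) 4 W5_14043848704 :=
  wt_ok4 W5_14043848704_chk

theorem W5_14059839616_ok : Fwd.WtOk Inst.T (Inst.MT 5 4) 4 W5_14059839616 :=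
  wt_ok4 W5_14059839616_chk

theorem W5_14060101696_ok : Fwd.WtOk Inst.T (Inst.MT 5 4) 4 W5_14060101696 :=
  wt_ok4 W5_14060101696_chk

theorem W5_14060105728_ok : Fwd.WtOk Inst.T (Inst.MT 5 4) 4 W5_14060105728 :=
  wt_ok4 W5_14060105728_chk

theorem W5_14060359744_ok : Fwd.WtOk Inst.T (Inst.MT 5 4) 4 W5_14060359744 :=
  wt_ok4 W5_14060359744_chk

theorem W5_14060363776_ok : Fwd.WtOk Inst.T (Inst.MT 5 4) 4 W5_14060363776 :=
  wt_ok4 W5_14060363776_chk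

theorem W5_14060621824_ok : Fwd.WtOk Inst.T (Inst.MT 5 4) 4 W5_14060621824 :=
  wt_ok4 W5_14060621824_chk

theorem W5_14060879872_ok : Fwd.WtOk Inst.T (Inst.MT 5 4) 4 W5_14060879872 :=
  wt_ok4 W5_14060879872_chk

theorem W5_14076874816_ok : Fwd.WtOk Inst.T (Inst.MT 5 4) 4 W5_14076874816 :=
  wt_ok4 W5_14076874816_chk

theorem W5_14076878848_ok : Fwd.WtOk Inst.T (Inst.MT 5 4) 4 W5_14076878848 :=
  wt_ok4 W5_14076878848_chk

theorem W5_14077136896_ok : Fwd.WtOk Inst.T (Inst.MT 5 4) 4 W5_14077136896 :=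
  wt_ok4 W5_14077136896_chk

theorem W5_14077394944_ok : Fwd.WtOk Inst.T (Inst.MT 5 4) 4 W5_14077394944 :=
  wt_ok4 W5_14077394944_chk

theorem W5_14093389888_ok : Fwd.WtOk Inst.T (Inst.MT 5 4) 4 W5_14093389888 :=
  wt_ok4 W5_14093389888_chk

theorem W5_14093393920_ok : Fwd.WtOk Inst.T (Inst.MT 5 4) 4 W5_14093393920 :=
  wt_ok4 W5_14093393920_chk

theorem W5_14093651968_ok : Fwd.WtOk Inst.T (Inst.MT 5 4) 4 W5_14093651968 :=
  wt_ok4 W5_14093651968_chk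

theorem W5_14093910016_ok : Fwd.WtOk Inst.T (Inst.MT 5 4) 4 W5_14093910016 :=
  wt_ok4 W5_14093910016_chk

theorem W5_14110167040_ok : Fwd.WtOk Inst.T (Inst.MT 5 4) 4 W5_14110167040 :=
  wt_ok4 W5_14110167040_chk

theorem W5_14110425088_ok : Fwd.WtOk Inst.T (Inst.MT 5 4) 4 W5_14110425088 :=
  wt_ok4 W5_14110425088_chk

theorem W5_14126682112_ok : Fwd.WtOk Inst.T (Inst.MT 5 4) 4 W5_14126682112 :=
  wt_ok4 W5_14126682112_chk

theorem W5_14126940160_ok : Fwd.WtOk Inst.T (Inst.MT 5 4) 4 W5_14126940160 :=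
  wt_ok4 W5_14126940160_chk

theorem W5_14143455232_ok : Fwd.WtOk Inst.T (Inst.MT 5 4) 4 W5_14143455232 :=
  wt_ok4 W5_14143455232_chk

theorem W5_14159970304_ok : Fwd.WtOk Inst.T (Inst.MT 5 4) 4 W5_14159970304 :=
  wt_ok4 W5_14159970304_chk

theorem W5_15100551232_ok : Fwd.WtOk Inst.T (Inst.MT 5 4) 4 W5_15100551232 :=
  wt_ok4 W5_15100551232_chk

theorem W5_15100555264_ok : Fwd.WtOk Inst.T (Inst.MT 5 4) 4 W5_15100555264 :=
  wt_ok4 W5_15100555264_chk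

theorem W5_15116804224_ok : Fwd.WtOk Inst.T (Inst.MT 5 4) 4 W5_15116804224 :=
  wt_ok4 W5_15116804224_chk

theorem W5_15117066304_ok : Fwd.WtOk Inst.T (Inst.MT 5 4) 4 W5_15117066304 :=
  wt_ok4 W5_15117066304_chk

theorem W5_15117324352_ok : Fwd.WtOk Inst.T (Inst.MT 5 4) 4 W5_15117324352 :=
  wt_ok4 W5_15117324352_chk

theorem W5_15117328384_ok : Fwd.WtOk Inst.T (Inst.MT 5 4) 4 W5_15117328384 :=
  wt_ok4 W5_15117328384_chk

theorem W5_15117586432_ok : Fwd.WtOk Inst.T (Inst.MT 5 4) 4 W5_15117586432 :=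
  wt_ok4 W5_15117586432_chk

theorem W5_15133581376_ok : Fwd.WtOk Inst.T (Inst.MT 5 4) 4 W5_15133581376 :=
  wt_ok4 W5_15133581376_chk

theorem W5_15133843456_ok : Fwd.WtOk Inst.T (Inst.MT 5 4) 4 W5_15133843456 :=
  wt_ok4 W5_15133843456_chk

theorem W5_15134101504_ok : Fwd.WtOk Inst.T (Inst.MT 5 4) 4 W5_15134101504 :=
  wt_ok4 W5_15134101504_chk

theorem W5_15134359552_ok : Fwd.WtOk Inst.T (Inst.MT 5 4) 4 W5_15134359552 :=
  wt_ok4 W5_15134359552_chk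

theorem W5_15150354496_ok : Fwd.WtOk Inst.T (Inst.MT 5 4) 4 W5_15150354496 :=
  wt_ok4 W5_15150354496_chk

theorem W5_15150358528_ok : Fwd.WtOk Inst.T (Inst.MT 5 4) 4 W5_15150358528 :=
  wt_ok4 W5_15150358528_chk

theorem W5_15150616576_ok : Fwd.WtOk Inst.T (Inst.MT 5 4) 4 W5_15150616576 :=
  wt_ok4 W5_15150616576_chk

theorem W5_15150874624_ok : Fwd.WtOk Inst.T (Inst.MT 5 4) 4 W5_15150874624 :=
  wt_ok4 W5_15150874624_chk

theorem W5_15167131648_ok : Fwd.WtOk Inst.T (Inst.MT 5 4) 4 W5_15167131648 :=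
  wt_ok4 W5_15167131648_chk

theorem W5_15167389696_ok : Fwd.WtOk Inst.T (Inst.MT 5 4) 4 W5_15167389696 :=
  wt_ok4 W5_15167389696_chk

theorem W5_15183646720_ok : Fwd.WtOk Inst.T (Inst.MT 5 4) 4 W5_15183646720 :=
  wt_ok4 W5_15183646720_chk

theorem W5_15183904768_ok : Fwd.WtOk Inst.T (Inst.MT 5 4) 4 W5_15183904768 :=
  wt_ok4 W5_15183904768_chk

theorem W5_15200419840_ok : Fwd.WtOk Inst.T (Inst.MT 5 4) 4 W5_15200419840 :=
  wt_ok4 W5_15200419840_chk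

theorem W5_15216934912_ok : Fwd.WtOk Inst.T (Inst.MT 5 4) 4 W5_15216934912 :=
  wt_ok4 W5_15216934912_chk

theorem W5_16173768832_ok : Fwd.WtOk Inst.T (Inst.MT 5 4) 4 W5_16173768832 :=
  wt_ok4 W5_16173768832_chk

theorem W5_16174292992_ok : Fwd.WtOk Inst.T (Inst.MT 5 4) 4 W5_16174292992 :=
  wt_ok4 W5_16174292992_chk

theorem W5_16190545984_ok : Fwd.WtOk Inst.T (Inst.MT 5 4) 4 W5_16190545984 :=
  wt_ok4 W5_16190545984_chk

theorem W5_16190804032_ok : Fwd.WtOk Inst.T (Inst.MT 5 4) 4 W5_16190804032 :=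
  wt_ok4 W5_16190804032_chk

theorem W5_16190808064_ok : Fwd.WtOk Inst.T (Inst.MT 5 4) 4 W5_16190808064 :=
  wt_ok4 W5_16190808064_chk

theorem W5_16191066112_ok : Fwd.WtOk Inst.T (Inst.MT 5 4) 4 W5_16191066112 :=
  wt_ok4 W5_16191066112_chk

theorem W5_16207323136_ok : Fwd.WtOk Inst.T (Inst.MT 5 4) 4 W5_16207323136 :=
  wt_ok4 W5_16207323136_chk

theorem W5_16207581184_ok : Fwd.WtOk Inst.T (Inst.MT 5 4) 4 W5_16207581184 :=
  wt_ok4 W5_16207581184_chk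

theorem W5_16207839232_ok : Fwd.WtOk Inst.T (Inst.MT 5 4) 4 W5_16207839232 :=
  wt_ok4 W5_16207839232_chk

theorem W5_16224096256_ok : Fwd.WtOk Inst.T (Inst.MT 5 4) 4 W5_16224096256 :=
  wt_ok4 W5_16224096256_chk

theorem W5_16224354304_ok : Fwd.WtOk Inst.T (Inst.MT 5 4) 4 W5_16224354304 :=
  wt_ok4 W5_16224354304_chk

theorem W5_16240611328_ok : Fwd.WtOk Inst.T (Inst.MT 5 4) 4 W5_16240611328 :=
  wt_ok4 W5_16240611328_chk

theorem W5_16240869376_ok : Fwd.WtOk Inst.T (Inst.MT 5 4) 4 W5_16240869376 :=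
  wt_ok4 W5_16240869376_chk

theorem W5_16257384448_ok : Fwd.WtOk Inst.T (Inst.MT 5 4) 4 W5_16257384448 :=
  wt_ok4 W5_16257384448_chk

theorem W5_16273899520_ok : Fwd.WtOk Inst.T (Inst.MT 5 4) 4 W5_16273899520 :=
  wt_ok4 W5_16273899520_chk

theorem W5_17247510592_ok : Fwd.WtOk Inst.T (Inst.MT 5 4) 4 W5_17247510592 :=
  wt_ok4 W5_17247510592_chk

theorem W5_17247772672_ok : Fwd.WtOk Inst.T (Inst.MT 5 4) 4 W5_17247772672 :=
  wt_ok4 W5_17247772672_chk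

theorem W5_17248030720_ok : Fwd.WtOk Inst.T (Inst.MT 5 4) 4 W5_17248030720 :=
  wt_ok4 W5_17248030720_chk

theorem W5_17264287744_ok : Fwd.WtOk Inst.T (Inst.MT 5 4) 4 W5_17264287744 :=
  wt_ok4 W5_17264287744_chk

theorem W5_17264545792_ok : Fwd.WtOk Inst.T (Inst.MT 5 4) 4 W5_17264545792 :=
  wt_ok4 W5_17264545792_chk

theorem W5_17264803840_ok : Fwd.WtOk Inst.T (Inst.MT 5 4) 4 W5_17264803840 :=
  wt_ok4 W5_17264803840_chk

theorem W5_17281060864_ok : Fwd.WtOk Inst.T (Inst.MT 5 4) 4 W5_17281060864 :=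
  wt_ok4 W5_17281060864_chk

theorem W5_17281318912_ok : Fwd.WtOk Inst.T (Inst.MT 5 4) 4 W5_17281318912 :=
  wt_ok4 W5_17281318912_chk

theorem W5_17297575936_ok : Fwd.WtOk Inst.T (Inst.MT 5 4) 4 W5_17297575936 :=
  wt_ok4 W5_17297575936_chk

theorem W5_17297833984_ok : Fwd.WtOk Inst.T (Inst.MT 5 4) 4 W5_17297833984 :=
  wt_ok4 W5_17297833984_chk

theorem W5_17314349056_ok : Fwd.WtOk Inst.T (Inst.MT 5 4) 4 W5_17314349056 :=
  wt_ok4 W5_17314349056_chk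

theorem W5_17330864128_ok : Fwd.WtOk Inst.T (Inst.MT 5 4) 4 W5_17330864128 :=
  wt_ok4 W5_17330864128_chk

theorem W5_18287698048_ok : Fwd.WtOk Inst.T (Inst.MT 5 4) 4 W5_18287698048 :=
  wt_ok4 W5_18287698048_chk

theorem W5_18321252352_ok : Fwd.WtOk Inst.T (Inst.MT 5 4) 4 W5_18321252352 :=
  wt_ok4 W5_18321252352_chk

theorem W5_18321510400_ok : Fwd.WtOk Inst.T (Inst.MT 5 4) 4 W5_18321510400 :=
  wt_ok4 W5_18321510400_chk

theorem W5_18321768448_ok : Fwd.WtOk Inst.T (Inst.MT 5 4) 4 W5_18321768448 :=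
  wt_ok4 W5_18321768448_chk

theorem W5_18338025472_ok : Fwd.WtOk Inst.T (Inst.MT 5 4) 4 W5_18338025472 :=
  wt_ok4 W5_18338025472_chk

theorem W5_18338283520_ok : Fwd.WtOk Inst.T (Inst.MT 5 4) 4 W5_18338283520 :=
  wt_ok4 W5_18338283520_chk

theorem W5_18354798592_ok : Fwd.WtOk Inst.T (Inst.MT 5 4) 4 W5_18354798592 :=
  wt_ok4 W5_18354798592_chk

theorem W5_18371313664_ok : Fwd.WtOk Inst.T (Inst.MT 5 4) 4 W5_18371313664 :=
  wt_ok4 W5_18371313664_chk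

theorem W5_18387828736_ok : Fwd.WtOk Inst.T (Inst.MT 5 4) 4 W5_18387828736 :=
  wt_ok4 W5_18387828736_chk

theorem W5_19378216960_ok : Fwd.WtOk Inst.T (Inst.MT 5 4) 4 W5_19378216960 :=
  wt_ok4 W5_19378216960_chk

theorem W5_19394990080_ok : Fwd.WtOk Inst.T (Inst.MT 5 4) 4 W5_19394990080 :=
  wt_ok4 W5_19394990080_chk

theorem W5_19395248128_ok : Fwd.WtOk Inst.T (Inst.MT 5 4) 4 W5_19395248128 :=
  wt_ok4 W5_19395248128_chk

theorem W5_19411763200_ok : Fwd.WtOk Inst.T (Inst.MT 5 4) 4 W5_19411763200 :=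
  wt_ok4 W5_19411763200_chk

theorem W5_19428278272_ok : Fwd.WtOk Inst.T (Inst.MT 5 4) 4 W5_19428278272 :=
  wt_ok4 W5_19428278272_chk

theorem W5_19444793344_ok : Fwd.WtOk Inst.T (Inst.MT 5 4) 4 W5_19444793344 :=
  wt_ok4 W5_19444793344_chk

theorem W5_20435181568_ok : Fwd.WtOk Inst.T (Inst.MT 5 4) 4 W5_20435181568 :=
  wt_ok4 W5_20435181568_chk

theorem W5_20468727808_ok : Fwd.WtOk Inst.T (Inst.MT 5 4) 4 W5_20468727808 :=
  wt_ok4 W5_20468727808_chk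

theorem W5_20485242880_ok : Fwd.WtOk Inst.T (Inst.MT 5 4) 4 W5_20485242880 :=
  wt_ok4 W5_20485242880_chk

theorem W5_20501757952_ok : Fwd.WtOk Inst.T (Inst.MT 5 4) 4 W5_20501757952 :=
  wt_ok4 W5_20501757952_chk

theorem W5_21525692416_ok : Fwd.WtOk Inst.T (Inst.MT 5 4) 4 W5_21525692416 :=
  wt_ok4 W5_21525692416_chk

theorem W5_21542207488_ok : Fwd.WtOk Inst.T (Inst.MT 5 4) 4 W5_21542207488 :=
  wt_ok4 W5_21542207488_chk

theorem W5_21558722560_ok : Fwd.WtOk Inst.T (Inst.MT 5 4) 4 W5_21558722560 :=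
  wt_ok4 W5_21558722560_chk

theorem W5_22582657024_ok : Fwd.WtOk Inst.T (Inst.MT 5 4) 4 W5_22582657024 :=
  wt_ok4 W5_22582657024_chk

theorem W5_22615687168_ok : Fwd.WtOk Inst.T (Inst.MT 5 4) 4 W5_22615687168 :=
  wt_ok4 W5_22615687168_chk

theorem W5_23672651776_ok : Fwd.WtOk Inst.T (Inst.MT 5 4) 4 W5_23672651776 :=
  wt_ok4 W5_23672651776_chk

theorem W5_24729616384_ok : Fwd.WtOk Inst.T (Inst.MT 5 4) 4 W5_24729616384 :=
  wt_ok4 W5_24729616384_chk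

theorem W5_26843545600_ok : Fwd.WtOk Inst.T (Inst.MT 5 4) 4 W5_26843545600 :=
  wt_ok4 W5_26843545600_chk

end Crest.Agent.R187.SN.Top
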