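import Crest.Agent.R187.SN.WOk
import Crest.Agent.R187.SN.KDec
import Crest.Agent.R187.SN.KE.B55
import Crest.Agent.R187.SN.KD.L_5_5
import Crest.Agent.R187.SN.KD.L_5_6
import Crest.Agent.R187.SN.TD.W6_1

/-!
# Row 187, PLAN S, block E4: kernel checks of the `W` tables (W6_1)
-/

set_option autoImplicit false
set_option Elab.async false

namespace Crest.Agent.R187.SN.Top

open Crest.Agent.R187.SN.KD Crest.Agent.R187.SN.KE Crest.Agent.R187.SN.KDec Crest.Agent.R187.SN.WOk

theorem W6_15168184320_chk : wChk (nbDec bN_5_5) 25 ix_5_5 ix_5_6 W6_15168184320 = true := by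
  decide +kernel

theorem W6_15168442368_chk : wChk (nbDec bN_5_5) 25 ix_5_5 ix_5_6 W6_15168442368 = true := by
  decide +kernel

theorem W6_15168700416_chk : wChk (nbDec bN_5_5) 25 ix_5_5 ix_5_6 W6_15168700416 = true := by
  decide +kernel

theorem W6_15184175232_chk : wChk (nbDec bN_5_5) 25 ix_5_5 ix_5_6 W6_15184175232 = true := by
  decide +kernel

theorem W6_15184179264_chk : wChk (nbDec bN_5_5) 25 ix_5_5 ix_5_6 W6_15184179264 = true := by
  decide +kernel

theorem W6_15184437312_chk : wChk (nbDec bN_5_5) 25 ix_5_5 ix_5_6 W6_15184437312 = true := by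
  decide +kernel

theorem W6_15184441344_chk : wChk (nbDec bN_5_5) 25 ix_5_5 ix_5_6 W6_15184441344 = true := by
  decide +kernel

theorem W6_15184695360_chk : wChk (nbDec bN_5_5) 25 ix_5_5 ix_5_6 W6_15184695360 = true := by
  decide +kernel

theorem W6_15184699392_chk : wChk (nbDec bN_5_5) 25 ix_5_5 ix_5_6 W6_15184699392 = true := by
  decide +kernel

theorem W6_15184957440_chk : wChk (nbDec bN_5_5) 25 ix_5_5 ix_5_6 W6_15184957440 = true := by
  decide +kernel

theorem W6_15185215488_chk : wChk (nbDec bN_5_5) 25 ix_5_5 ix_5_6 W6_15185215488 = true := by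
  decide +kernel

theorem W6_15200690304_chk : wChk (nbDec bN_5_5) 25 ix_5_5 ix_5_6 W6_15200690304 = true := by
  decide +kernel

theorem W6_15200952384_chk : wChk (nbDec bN_5_5) 25 ix_5_5 ix_5_6 W6_15200952384 = true := by
  decide +kernel

theorem W6_15200956416_chk : wChk (nbDec bN_5_5) 25 ix_5_5 ix_5_6 W6_15200956416 = true := by
  decide +kernel

theorem W6_15201210432_chk : wChk (nbDec bN_5_5) 25 ix_5_5 ix_5_6 W6_15201210432 = true := by
  decide +kernel

theorem W6_15201214464_chk : wChk (nbDec bN_5_5) 25 ix_5_5 ix_5_6 W6_15201214464 = true := by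
  decide +kernel

theorem W6_15201472512_chk : wChk (nbDec bN_5_5) 25 ix_5_5 ix_5_6 W6_15201472512 = true := by
  decide +kernel

theorem W6_15201730560_chk : wChk (nbDec bN_5_5) 25 ix_5_5 ix_5_6 W6_15201730560 = true := by
  decide +kernel

theorem W6_15217467456_chk : wChk (nbDec bN_5_5) 25 ix_5_5 ix_5_6 W6_15217467456 = true := by
  decide +kernel

theorem W6_15217725504_chk : wChk (nbDec bN_5_5) 25 ix_5_5 ix_5_6 W6_15217725504 = true := by
  decide +kernel

theorem W6_15217729536_chk : wChk (nbDec bN_5_5) 25 ix_5_5 ix_5_6 W6_15217729536 = true := by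
  decide +kernel

theorem W6_15217987584_chk : wChk (nbDec bN_5_5) 25 ix_5_5 ix_5_6 W6_15217987584 = true := by
  decide +kernel

theorem W6_15218245632_chk : wChk (nbDec bN_5_5) 25 ix_5_5 ix_5_6 W6_15218245632 = true := by
  decide +kernel

theorem W6_15234240576_chk : wChk (nbDec bN_5_5) 25 ix_5_5 ix_5_6 W6_15234240576 = true := by
  decide +kernel

theorem W6_15234244608_chk : wChk (nbDec bN_5_5) 25 ix_5_5 ix_5_6 W6_15234244608 = true := by
  decide +kernel

theorem W6_15234502656_chk : wChk (nbDec bN_5_5) 25 ix_5_5 ix_5_6 W6_15234502656 = true := by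
  decide +kernel

theorem W6_15234760704_chk : wChk (nbDec bN_5_5) 25 ix_5_5 ix_5_6 W6_15234760704 = true := by
  decide +kernel

theorem W6_15251017728_chk : wChk (nbDec bN_5_5) 25 ix_5_5 ix_5_6 W6_15251017728 = true := by
  decide +kernel

theorem W6_15251275776_chk : wChk (nbDec bN_5_5) 25 ix_5_5 ix_5_6 W6_15251275776 = true := by
  decide +kernel

theorem W6_15267790848_chk : wChk (nbDec bN_5_5) 25 ix_5_5 ix_5_6 W6_15267790848 = true := by
  decide +kernel

theorem W6_16191078528_chk : wChk (nbDec bN_5_5) 25 ix_5_5 ix_5_6 W6_16191078528 = true := by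
  decide +kernel

theorem W6_16207851648_chk : wChk (nbDec bN_5_5) 25 ix_5_5 ix_5_6 W6_16207851648 = true := by
  decide +kernel

theorem W6_16207855680_chk : wChk (nbDec bN_5_5) 25 ix_5_5 ix_5_6 W6_16207855680 = true := by
  decide +kernel

theorem W6_16208109696_chk : wChk (nbDec bN_5_5) 25 ix_5_5 ix_5_6 W6_16208109696 = true := by
  decide +kernel

theorem W6_16208113728_chk : wChk (nbDec bN_5_5) 25 ix_5_5 ix_5_6 W6_16208113728 = true := by
  decide +kernel

theorem W6_16208117760_chk : wChk (nbDec bN_5_5) 25 ix_5_5 ix_5_6 W6_16208117760 = true := by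
  decide +kernel

theorem W6_16208371776_chk : wChk (nbDec bN_5_5) 25 ix_5_5 ix_5_6 W6_16208371776 = true := by
  decide +kernel

theorem W6_16208375808_chk : wChk (nbDec bN_5_5) 25 ix_5_5 ix_5_6 W6_16208375808 = true := by
  decide +kernel

theorem W6_16224624768_chk : wChk (nbDec bN_5_5) 25 ix_5_5 ix_5_6 W6_16224624768 = true := by
  decide +kernel

theorem W6_16224628800_chk : wChk (nbDec bN_5_5) 25 ix_5_5 ix_5_6 W6_16224628800 = true := by
  decide +kernel

theorem W6_16224632832_chk : wChk (nbDec bN_5_5) 25 ix_5_5 ix_5_6 W6_16224632832 = true := by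
  decide +kernel

theorem W6_16224886848_chk : wChk (nbDec bN_5_5) 25 ix_5_5 ix_5_6 W6_16224886848 = true := by
  decide +kernel

theorem W6_16224890880_chk : wChk (nbDec bN_5_5) 25 ix_5_5 ix_5_6 W6_16224890880 = true := by
  decide +kernel

theorem W6_16225144896_chk : wChk (nbDec bN_5_5) 25 ix_5_5 ix_5_6 W6_16225144896 = true := by
  decide +kernel

theorem W6_16225148928_chk : wChk (nbDec bN_5_5) 25 ix_5_5 ix_5_6 W6_16225148928 = true := by
  decide +kernel

theorem W6_16225406976_chk : wChk (nbDec bN_5_5) 25 ix_5_5 ix_5_6 W6_16225406976 = true := by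
  decide +kernel

theorem W6_16241139840_chk : wChk (nbDec bN_5_5) 25 ix_5_5 ix_5_6 W6_16241139840 = true := by
  decide +kernel

theorem W6_16241143872_chk : wChk (nbDec bN_5_5) 25 ix_5_5 ix_5_6 W6_16241143872 = true := by
  decide +kernel

theorem W6_16241401920_chk : wChk (nbDec bN_5_5) 25 ix_5_5 ix_5_6 W6_16241401920 = true := by
  decide +kernel

theorem W6_16241405952_chk : wChk (nbDec bN_5_5) 25 ix_5_5 ix_5_6 W6_16241405952 = true := by
  decide +kernel

theorem W6_16241659968_chk : wChk (nbDec bN_5_5) 25 ix_5_5 ix_5_6 W6_16241659968 = true := by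
  decide +kernel

theorem W6_16241664000_chk : wChk (nbDec bN_5_5) 25 ix_5_5 ix_5_6 W6_16241664000 = true := by
  decide +kernel

theorem W6_16241922048_chk : wChk (nbDec bN_5_5) 25 ix_5_5 ix_5_6 W6_16241922048 = true := by
  decide +kernel

theorem W6_16242180096_chk : wChk (nbDec bN_5_5) 25 ix_5_5 ix_5_6 W6_16242180096 = true := by
  decide +kernel

theorem W6_16257654912_chk : wChk (nbDec bN_5_5) 25 ix_5_5 ix_5_6 W6_16257654912 = true := by
  decide +kernel

theorem W6_16257916992_chk : wChk (nbDec bN_5_5) 25 ix_5_5 ix_5_6 W6_16257916992 = true := by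
  decide +kernel

theorem W6_16257921024_chk : wChk (nbDec bN_5_5) 25 ix_5_5 ix_5_6 W6_16257921024 = true := by
  decide +kernel

theorem W6_16258175040_chk : wChk (nbDec bN_5_5) 25 ix_5_5 ix_5_6 W6_16258175040 = true := by
  decide +kernel

theorem W6_16258179072_chk : wChk (nbDec bN_5_5) 25 ix_5_5 ix_5_6 W6_16258179072 = true := by
  decide +kernel

theorem W6_16258437120_chk : wChk (nbDec bN_5_5) 25 ix_5_5 ix_5_6 W6_16258437120 = true := by
  decide +kernel

theorem W6_16258695168_chk : wChk (nbDec bN_5_5) 25 ix_5_5 ix_5_6 W6_16258695168 = true := by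
  decide +kernel

theorem W6_16274432064_chk : wChk (nbDec bN_5_5) 25 ix_5_5 ix_5_6 W6_16274432064 = true := by
  decide +kernel

theorem W6_16274690112_chk : wChk (nbDec bN_5_5) 25 ix_5_5 ix_5_6 W6_16274690112 = true := by
  decide +kernel

theorem W6_16274694144_chk : wChk (nbDec bN_5_5) 25 ix_5_5 ix_5_6 W6_16274694144 = true := by
  decide +kernel

theorem W6_16274952192_chk : wChk (nbDec bN_5_5) 25 ix_5_5 ix_5_6 W6_16274952192 = true := by
  decide +kernel

theorem W6_16275210240_chk : wChk (nbDec bN_5_5) 25 ix_5_5 ix_5_6 W6_16275210240 = true := by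
  decide +kernel

theorem W6_16291205184_chk : wChk (nbDec bN_5_5) 25 ix_5_5 ix_5_6 W6_16291205184 = true := by
  decide +kernel

theorem W6_16291209216_chk : wChk (nbDec bN_5_5) 25 ix_5_5 ix_5_6 W6_16291209216 = true := by
  decide +kernel

theorem W6_16291467264_chk : wChk (nbDec bN_5_5) 25 ix_5_5 ix_5_6 W6_16291467264 = true := by
  decide +kernel

theorem W6_16291725312_chk : wChk (nbDec bN_5_5) 25 ix_5_5 ix_5_6 W6_16291725312 = true := by
  decide +kernel

theorem W6_16307982336_chk : wChk (nbDec bN_5_5) 25 ix_5_5 ix_5_6 W6_16307982336 = true := by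
  decide +kernel

theorem W6_16308240384_chk : wChk (nbDec bN_5_5) 25 ix_5_5 ix_5_6 W6_16308240384 = true := by
  decide +kernel

theorem W6_16324497408_chk : wChk (nbDec bN_5_5) 25 ix_5_5 ix_5_6 W6_16324497408 = true := by
  decide +kernel

theorem W6_16324755456_chk : wChk (nbDec bN_5_5) 25 ix_5_5 ix_5_6 W6_16324755456 = true := by
  decide +kernel

theorem W6_16341270528_chk : wChk (nbDec bN_5_5) 25 ix_5_5 ix_5_6 W6_16341270528 = true := by
  decide +kernel

theorem W6_17248043136_chk : wChk (nbDec bN_5_5) 25 ix_5_5 ix_5_6 W6_17248043136 = true := by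
  decide +kernel

theorem W6_17264820288_chk : wChk (nbDec bN_5_5) 25 ix_5_5 ix_5_6 W6_17264820288 = true := by
  decide +kernel

theorem W6_17265078336_chk : wChk (nbDec bN_5_5) 25 ix_5_5 ix_5_6 W6_17265078336 = true := by
  decide +kernel

theorem W6_17281589376_chk : wChk (nbDec bN_5_5) 25 ix_5_5 ix_5_6 W6_17281589376 = true := by
  decide +kernel

theorem W6_17281593408_chk : wChk (nbDec bN_5_5) 25 ix_5_5 ix_5_6 W6_17281593408 = true := by
  decide +kernel

theorem W6_17281597440_chk : wChk (nbDec bN_5_5) 25 ix_5_5 ix_5_6 W6_17281597440 = true := by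
  decide +kernel

theorem W6_17281851456_chk : wChk (nbDec bN_5_5) 25 ix_5_5 ix_5_6 W6_17281851456 = true := by
  decide +kernel

theorem W6_17281855488_chk : wChk (nbDec bN_5_5) 25 ix_5_5 ix_5_6 W6_17281855488 = true := by
  decide +kernel

theorem W6_17282113536_chk : wChk (nbDec bN_5_5) 25 ix_5_5 ix_5_6 W6_17282113536 = true := by
  decide +kernel

theorem W6_17298104448_chk : wChk (nbDec bN_5_5) 25 ix_5_5 ix_5_6 W6_17298104448 = true := by
  decide +kernel

theorem W6_17298108480_chk : wChk (nbDec bN_5_5) 25 ix_5_5 ix_5_6 W6_17298108480 = true := by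
  decide +kernel

theorem W6_17298366528_chk : wChk (nbDec bN_5_5) 25 ix_5_5 ix_5_6 W6_17298366528 = true := by
  decide +kernel

theorem W6_17298370560_chk : wChk (nbDec bN_5_5) 25 ix_5_5 ix_5_6 W6_17298370560 = true := by
  decide +kernel

theorem W6_17298624576_chk : wChk (nbDec bN_5_5) 25 ix_5_5 ix_5_6 W6_17298624576 = true := by
  decide +kernel

theorem W6_17298628608_chk : wChk (nbDec bN_5_5) 25 ix_5_5 ix_5_6 W6_17298628608 = true := by
  decide +kernel

theorem W6_17298886656_chk : wChk (nbDec bN_5_5) 25 ix_5_5 ix_5_6 W6_17298886656 = true := by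
  decide +kernel

theorem W6_17299144704_chk : wChk (nbDec bN_5_5) 25 ix_5_5 ix_5_6 W6_17299144704 = true := by
  decide +kernel

theorem W6_17314619520_chk : wChk (nbDec bN_5_5) 25 ix_5_5 ix_5_6 W6_17314619520 = true := by
  decide +kernel

theorem W6_17314881600_chk : wChk (nbDec bN_5_5) 25 ix_5_5 ix_5_6 W6_17314881600 = true := by
  decide +kernel

theorem W6_17314885632_chk : wChk (nbDec bN_5_5) 25 ix_5_5 ix_5_6 W6_17314885632 = true := by
  decide +kernel

theorem W6_17315139648_chk : wChk (nbDec bN_5_5) 25 ix_5_5 ix_5_6 W6_17315139648 = true := by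
  decide +kernel

theorem W6_17315143680_chk : wChk (nbDec bN_5_5) 25 ix_5_5 ix_5_6 W6_17315143680 = true := by
  decide +kernel

theorem W6_17315401728_chk : wChk (nbDec bN_5_5) 25 ix_5_5 ix_5_6 W6_17315401728 = true := by
  decide +kernel

theorem W6_17315659776_chk : wChk (nbDec bN_5_5) 25 ix_5_5 ix_5_6 W6_17315659776 = true := by
  decide +kernel

theorem W6_17331396672_chk : wChk (nbDec bN_5_5) 25 ix_5_5 ix_5_6 W6_17331396672 = true := by
  decide +kernel

theorem W6_17331654720_chk : wChk (nbDec bN_5_5) 25 ix_5_5 ix_5_6 W6_17331654720 = true := by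
  decide +kernel

theorem W6_17331658752_chk : wChk (nbDec bN_5_5) 25 ix_5_5 ix_5_6 W6_17331658752 = true := by
  decide +kernel

theorem W6_17331916800_chk : wChk (nbDec bN_5_5) 25 ix_5_5 ix_5_6 W6_17331916800 = true := by
  decide +kernel

theorem W6_17332174848_chk : wChk (nbDec bN_5_5) 25 ix_5_5 ix_5_6 W6_17332174848 = true := by
  decide +kernel

theorem W6_17348169792_chk : wChk (nbDec bN_5_5) 25 ix_5_5 ix_5_6 W6_17348169792 = true := by
  decide +kernel

theorem W6_17348173824_chk : wChk (nbDec bN_5_5) 25 ix_5_5 ix_5_6 W6_17348173824 = true := by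
  decide +kernel

theorem W6_17348431872_chk : wChk (nbDec bN_5_5) 25 ix_5_5 ix_5_6 W6_17348431872 = true := by
  decide +kernel

theorem W6_17348689920_chk : wChk (nbDec bN_5_5) 25 ix_5_5 ix_5_6 W6_17348689920 = true := by
  decide +kernel

theorem W6_17364684864_chk : wChk (nbDec bN_5_5) 25 ix_5_5 ix_5_6 W6_17364684864 = true := by
  decide +kernel

theorem W6_17364946944_chk : wChk (nbDec bN_5_5) 25 ix_5_5 ix_5_6 W6_17364946944 = true := by
  decide +kernel

theorem W6_17365204992_chk : wChk (nbDec bN_5_5) 25 ix_5_5 ix_5_6 W6_17365204992 = true := by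
  decide +kernel

theorem W6_17381462016_chk : wChk (nbDec bN_5_5) 25 ix_5_5 ix_5_6 W6_17381462016 = true := by
  decide +kernel

theorem W6_17381720064_chk : wChk (nbDec bN_5_5) 25 ix_5_5 ix_5_6 W6_17381720064 = true := by
  decide +kernel

theorem W6_17398235136_chk : wChk (nbDec bN_5_5) 25 ix_5_5 ix_5_6 W6_17398235136 = true := by
  decide +kernel

theorem W6_17414750208_chk : wChk (nbDec bN_5_5) 25 ix_5_5 ix_5_6 W6_17414750208 = true := by
  decide +kernel

theorem W6_18321784896_chk : wChk (nbDec bN_5_5) 25 ix_5_5 ix_5_6 W6_18321784896 = true := by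
  decide +kernel

theorem W6_18338553984_chk : wChk (nbDec bN_5_5) 25 ix_5_5 ix_5_6 W6_18338553984 = true := by
  decide +kernel

theorem W6_18338558016_chk : wChk (nbDec bN_5_5) 25 ix_5_5 ix_5_6 W6_18338558016 = true := by
  decide +kernel

theorem W6_18338562048_chk : wChk (nbDec bN_5_5) 25 ix_5_5 ix_5_6 W6_18338562048 = true := by
  decide +kernel

theorem W6_18338816064_chk : wChk (nbDec bN_5_5) 25 ix_5_5 ix_5_6 W6_18338816064 = true := by
  decide +kernel

theorem W6_18355069056_chk : wChk (nbDec bN_5_5) 25 ix_5_5 ix_5_6 W6_18355069056 = true := by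
  decide +kernel

theorem W6_18355331136_chk : wChk (nbDec bN_5_5) 25 ix_5_5 ix_5_6 W6_18355331136 = true := by
  decide +kernel

theorem W6_18355335168_chk : wChk (nbDec bN_5_5) 25 ix_5_5 ix_5_6 W6_18355335168 = true := by
  decide +kernel

theorem W6_18355589184_chk : wChk (nbDec bN_5_5) 25 ix_5_5 ix_5_6 W6_18355589184 = true := by
  decide +kernel

theorem W6_18355593216_chk : wChk (nbDec bN_5_5) 25 ix_5_5 ix_5_6 W6_18355593216 = true := by
  decide +kernel

theorem W6_18355851264_chk : wChk (nbDec bN_5_5) 25 ix_5_5 ix_5_6 W6_18355851264 = true := by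
  decide +kernel

theorem W6_18371584128_chk : wChk (nbDec bN_5_5) 25 ix_5_5 ix_5_6 W6_18371584128 = true := by
  decide +kernel

theorem W6_18371846208_chk : wChk (nbDec bN_5_5) 25 ix_5_5 ix_5_6 W6_18371846208 = true := by
  decide +kernel

theorem W6_18371850240_chk : wChk (nbDec bN_5_5) 25 ix_5_5 ix_5_6 W6_18371850240 = true := by
  decide +kernel

theorem W6_18372104256_chk : wChk (nbDec bN_5_5) 25 ix_5_5 ix_5_6 W6_18372104256 = true := by
  decide +kernel

theorem W6_18372108288_chk : wChk (nbDec bN_5_5) 25 ix_5_5 ix_5_6 W6_18372108288 = true := by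
  decide +kernel

theorem W6_18372366336_chk : wChk (nbDec bN_5_5) 25 ix_5_5 ix_5_6 W6_18372366336 = true := by
  decide +kernel

theorem W6_18372624384_chk : wChk (nbDec bN_5_5) 25 ix_5_5 ix_5_6 W6_18372624384 = true := by
  decide +kernel

theorem W6_18388361280_chk : wChk (nbDec bN_5_5) 25 ix_5_5 ix_5_6 W6_18388361280 = true := by
  decide +kernel

theorem W6_18388619328_chk : wChk (nbDec bN_5_5) 25 ix_5_5 ix_5_6 W6_18388619328 = true := by
  decide +kernel

theorem W6_18388623360_chk : wChk (nbDec bN_5_5) 25 ix_5_5 ix_5_6 W6_18388623360 = true := by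
  decide +kernel

theorem W6_18388881408_chk : wChk (nbDec bN_5_5) 25 ix_5_5 ix_5_6 W6_18388881408 = true := by
  decide +kernel

theorem W6_18389139456_chk : wChk (nbDec bN_5_5) 25 ix_5_5 ix_5_6 W6_18389139456 = true := by
  decide +kernel

theorem W6_18405134400_chk : wChk (nbDec bN_5_5) 25 ix_5_5 ix_5_6 W6_18405134400 = true := by
  decide +kernel

theorem W6_18405138432_chk : wChk (nbDec bN_5_5) 25 ix_5_5 ix_5_6 W6_18405138432 = true := by
  decide +kernel

theorem W6_18405396480_chk : wChk (nbDec bN_5_5) 25 ix_5_5 ix_5_6 W6_18405396480 = true := by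
  decide +kernel

theorem W6_18405654528_chk : wChk (nbDec bN_5_5) 25 ix_5_5 ix_5_6 W6_18405654528 = true := by
  decide +kernel

theorem W6_18421911552_chk : wChk (nbDec bN_5_5) 25 ix_5_5 ix_5_6 W6_18421911552 = true := by
  decide +kernel

theorem W6_18422169600_chk : wChk (nbDec bN_5_5) 25 ix_5_5 ix_5_6 W6_18422169600 = true := by
  decide +kernel

theorem W6_18438426624_chk : wChk (nbDec bN_5_5) 25 ix_5_5 ix_5_6 W6_18438426624 = true := by
  decide +kernel

theorem W6_18438684672_chk : wChk (nbDec bN_5_5) 25 ix_5_5 ix_5_6 W6_18438684672 = true := by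
  decide +kernel

theorem W6_18455199744_chk : wChk (nbDec bN_5_5) 25 ix_5_5 ix_5_6 W6_18455199744 = true := by
  decide +kernel

theorem W6_18471714816_chk : wChk (nbDec bN_5_5) 25 ix_5_5 ix_5_6 W6_18471714816 = true := by
  decide +kernel

theorem W6_19395518592_chk : wChk (nbDec bN_5_5) 25 ix_5_5 ix_5_6 W6_19395518592 = true := by
  decide +kernel

theorem W6_19395526656_chk : wChk (nbDec bN_5_5) 25 ix_5_5 ix_5_6 W6_19395526656 = true := by
  decide +kernel

theorem W6_19412295744_chk : wChk (nbDec bN_5_5) 25 ix_5_5 ix_5_6 W6_19412295744 = true := by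
  decide +kernel

theorem W6_19412299776_chk : wChk (nbDec bN_5_5) 25 ix_5_5 ix_5_6 W6_19412299776 = true := by
  decide +kernel

theorem W6_19412553792_chk : wChk (nbDec bN_5_5) 25 ix_5_5 ix_5_6 W6_19412553792 = true := by
  decide +kernel

theorem W6_19412557824_chk : wChk (nbDec bN_5_5) 25 ix_5_5 ix_5_6 W6_19412557824 = true := by
  decide +kernel

theorem W6_19428548736_chk : wChk (nbDec bN_5_5) 25 ix_5_5 ix_5_6 W6_19428548736 = true := by
  decide +kernel

theorem W6_19428810816_chk : wChk (nbDec bN_5_5) 25 ix_5_5 ix_5_6 W6_19428810816 = true := by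
  decide +kernel

theorem W6_19428814848_chk : wChk (nbDec bN_5_5) 25 ix_5_5 ix_5_6 W6_19428814848 = true := by
  decide +kernel

theorem W6_19429068864_chk : wChk (nbDec bN_5_5) 25 ix_5_5 ix_5_6 W6_19429068864 = true := by
  decide +kernel

theorem W6_19429072896_chk : wChk (nbDec bN_5_5) 25 ix_5_5 ix_5_6 W6_19429072896 = true := by
  decide +kernel

theorem W6_19429330944_chk : wChk (nbDec bN_5_5) 25 ix_5_5 ix_5_6 W6_19429330944 = true := by
  decide +kernel

theorem W6_19429588992_chk : wChk (nbDec bN_5_5) 25 ix_5_5 ix_5_6 W6_19429588992 = true := by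
  decide +kernel

theorem W6_19445325888_chk : wChk (nbDec bN_5_5) 25 ix_5_5 ix_5_6 W6_19445325888 = true := by
  decide +kernel

theorem W6_19445583936_chk : wChk (nbDec bN_5_5) 25 ix_5_5 ix_5_6 W6_19445583936 = true := by
  decide +kernel

theorem W6_19445587968_chk : wChk (nbDec bN_5_5) 25 ix_5_5 ix_5_6 W6_19445587968 = true := by
  decide +kernel

theorem W6_19445846016_chk : wChk (nbDec bN_5_5) 25 ix_5_5 ix_5_6 W6_19445846016 = true := by
  decide +kernel

theorem W6_19446104064_chk : wChk (nbDec bN_5_5) 25 ix_5_5 ix_5_6 W6_19446104064 = true := by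
  decide +kernel

theorem W6_19462099008_chk : wChk (nbDec bN_5_5) 25 ix_5_5 ix_5_6 W6_19462099008 = true := by
  decide +kernel

theorem W6_19462103040_chk : wChk (nbDec bN_5_5) 25 ix_5_5 ix_5_6 W6_19462103040 = true := by
  decide +kernel

theorem W6_19462361088_chk : wChk (nbDec bN_5_5) 25 ix_5_5 ix_5_6 W6_19462361088 = true := by
  decide +kernel

theorem W6_19462619136_chk : wChk (nbDec bN_5_5) 25 ix_5_5 ix_5_6 W6_19462619136 = true := by
  decide +kernel

theorem W6_19478876160_chk : wChk (nbDec bN_5_5) 25 ix_5_5 ix_5_6 W6_19478876160 = true := by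
  decide +kernel

theorem W6_19479134208_chk : wChk (nbDec bN_5_5) 25 ix_5_5 ix_5_6 W6_19479134208 = true := by
  decide +kernel

theorem W6_19495391232_chk : wChk (nbDec bN_5_5) 25 ix_5_5 ix_5_6 W6_19495391232 = true := by
  decide +kernel

theorem W6_19495649280_chk : wChk (nbDec bN_5_5) 25 ix_5_5 ix_5_6 W6_19495649280 = true := by
  decide +kernel

theorem W6_19512164352_chk : wChk (nbDec bN_5_5) 25 ix_5_5 ix_5_6 W6_19512164352 = true := by
  decide +kernel

theorem W6_19528679424_chk : wChk (nbDec bN_5_5) 25 ix_5_5 ix_5_6 W6_19528679424 = true := by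
  decide +kernel

theorem W6_20469260352_chk : wChk (nbDec bN_5_5) 25 ix_5_5 ix_5_6 W6_20469260352 = true := by
  decide +kernel

theorem W6_20469264384_chk : wChk (nbDec bN_5_5) 25 ix_5_5 ix_5_6 W6_20469264384 = true := by
  decide +kernel

theorem W6_20485513344_chk : wChk (nbDec bN_5_5) 25 ix_5_5 ix_5_6 W6_20485513344 = true := by
  decide +kernel

theorem W6_20485775424_chk : wChk (nbDec bN_5_5) 25 ix_5_5 ix_5_6 W6_20485775424 = true := by
  decide +kernel

theorem W6_20486033472_chk : wChk (nbDec bN_5_5) 25 ix_5_5 ix_5_6 W6_20486033472 = true := by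
  decide +kernel

theorem W6_20486037504_chk : wChk (nbDec bN_5_5) 25 ix_5_5 ix_5_6 W6_20486037504 = true := by
  decide +kernel

theorem W6_20486295552_chk : wChk (nbDec bN_5_5) 25 ix_5_5 ix_5_6 W6_20486295552 = true := by
  decide +kernel

theorem W6_20502290496_chk : wChk (nbDec bN_5_5) 25 ix_5_5 ix_5_6 W6_20502290496 = true := by
  decide +kernel

theorem W6_20502552576_chk : wChk (nbDec bN_5_5) 25 ix_5_5 ix_5_6 W6_20502552576 = true := by
  decide +kernel

theorem W6_20502810624_chk : wChk (nbDec bN_5_5) 25 ix_5_5 ix_5_6 W6_20502810624 = true := by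
  decide +kernel

theorem W6_20503068672_chk : wChk (nbDec bN_5_5) 25 ix_5_5 ix_5_6 W6_20503068672 = true := by
  decide +kernel

theorem W6_20519063616_chk : wChk (nbDec bN_5_5) 25 ix_5_5 ix_5_6 W6_20519063616 = true := by
  decide +kernel

theorem W6_20519067648_chk : wChk (nbDec bN_5_5) 25 ix_5_5 ix_5_6 W6_20519067648 = true := by
  decide +kernel

theorem W6_20519325696_chk : wChk (nbDec bN_5_5) 25 ix_5_5 ix_5_6 W6_20519325696 = true := by
  decide +kernel

theorem W6_20519583744_chk : wChk (nbDec bN_5_5) 25 ix_5_5 ix_5_6 W6_20519583744 = true := by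
  decide +kernel

theorem W6_20535840768_chk : wChk (nbDec bN_5_5) 25 ix_5_5 ix_5_6 W6_20535840768 = true := by
  decide +kernel

theorem W6_20536098816_chk : wChk (nbDec bN_5_5) 25 ix_5_5 ix_5_6 W6_20536098816 = true := by
  decide +kernel

theorem W6_20552355840_chk : wChk (nbDec bN_5_5) 25 ix_5_5 ix_5_6 W6_20552355840 = true := by
  decide +kernel

theorem W6_20552613888_chk : wChk (nbDec bN_5_5) 25 ix_5_5 ix_5_6 W6_20552613888 = true := by
  decide +kernel

theorem W6_20569128960_chk : wChk (nbDec bN_5_5) 25 ix_5_5 ix_5_6 W6_20569128960 = true := by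
  decide +kernel

theorem W6_20585644032_chk : wChk (nbDec bN_5_5) 25 ix_5_5 ix_5_6 W6_20585644032 = true := by
  decide +kernel

theorem W6_21542477952_chk : wChk (nbDec bN_5_5) 25 ix_5_5 ix_5_6 W6_21542477952 = true := by
  decide +kernel

theorem W6_21543002112_chk : wChk (nbDec bN_5_5) 25 ix_5_5 ix_5_6 W6_21543002112 = true := by
  decide +kernel

theorem W6_21559255104_chk : wChk (nbDec bN_5_5) 25 ix_5_5 ix_5_6 W6_21559255104 = true := by
  decide +kernel

theorem W6_21559513152_chk : wChk (nbDec bN_5_5) 25 ix_5_5 ix_5_6 W6_21559513152 = true := by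
  decide +kernel

theorem W6_21559517184_chk : wChk (nbDec bN_5_5) 25 ix_5_5 ix_5_6 W6_21559517184 = true := by
  decide +kernel

theorem W6_21559775232_chk : wChk (nbDec bN_5_5) 25 ix_5_5 ix_5_6 W6_21559775232 = true := by
  decide +kernel

theorem W6_21576032256_chk : wChk (nbDec bN_5_5) 25 ix_5_5 ix_5_6 W6_21576032256 = true := by
  decide +kernel

theorem W6_21576290304_chk : wChk (nbDec bN_5_5) 25 ix_5_5 ix_5_6 W6_21576290304 = true := by
  decide +kernel

theorem W6_21576548352_chk : wChk (nbDec bN_5_5) 25 ix_5_5 ix_5_6 W6_21576548352 = true := by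
  decide +kernel

theorem W6_21592805376_chk : wChk (nbDec bN_5_5) 25 ix_5_5 ix_5_6 W6_21592805376 = true := by
  decide +kernel

theorem W6_21593063424_chk : wChk (nbDec bN_5_5) 25 ix_5_5 ix_5_6 W6_21593063424 = true := by
  decide +kernel

theorem W6_21609320448_chk : wChk (nbDec bN_5_5) 25 ix_5_5 ix_5_6 W6_21609320448 = true := by
  decide +kernel

theorem W6_21609578496_chk : wChk (nbDec bN_5_5) 25 ix_5_5 ix_5_6 W6_21609578496 = true := by
  decide +kernel

theorem W6_21626093568_chk : wChk (nbDec bN_5_5) 25 ix_5_5 ix_5_6 W6_21626093568 = true := by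
  decide +kernel

theorem W6_21642608640_chk : wChk (nbDec bN_5_5) 25 ix_5_5 ix_5_6 W6_21642608640 = true := by
  decide +kernel

theorem W6_22616219712_chk : wChk (nbDec bN_5_5) 25 ix_5_5 ix_5_6 W6_22616219712 = true := by
  decide +kernel

theorem W6_22616481792_chk : wChk (nbDec bN_5_5) 25 ix_5_5 ix_5_6 W6_22616481792 = true := by
  decide +kernel

theorem W6_22616739840_chk : wChk (nbDec bN_5_5) 25 ix_5_5 ix_5_6 W6_22616739840 = true := by
  decide +kernel

theorem W6_22632996864_chk : wChk (nbDec bN_5_5) 25 ix_5_5 ix_5_6 W6_22632996864 = true := by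
  decide +kernel

theorem W6_22633254912_chk : wChk (nbDec bN_5_5) 25 ix_5_5 ix_5_6 W6_22633254912 = true := by
  decide +kernel

theorem W6_22633512960_chk : wChk (nbDec bN_5_5) 25 ix_5_5 ix_5_6 W6_22633512960 = true := by
  decide +kernel

theorem W6_22649769984_chk : wChk (nbDec bN_5_5) 25 ix_5_5 ix_5_6 W6_22649769984 = true := by
  decide +kernel

theorem W6_22650028032_chk : wChk (nbDec bN_5_5) 25 ix_5_5 ix_5_6 W6_22650028032 = true := by
  decide +kernel

theorem W6_22666285056_chk : wChk (nbDec bN_5_5) 25 ix_5_5 ix_5_6 W6_22666285056 = true := by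
  decide +kernel

theorem W6_22666543104_chk : wChk (nbDec bN_5_5) 25 ix_5_5 ix_5_6 W6_22666543104 = true := by
  decide +kernel

theorem W6_22683058176_chk : wChk (nbDec bN_5_5) 25 ix_5_5 ix_5_6 W6_22683058176 = true := by
  decide +kernel

theorem W6_22699573248_chk : wChk (nbDec bN_5_5) 25 ix_5_5 ix_5_6 W6_22699573248 = true := by
  decide +kernel

theorem W6_23656407168_chk : wChk (nbDec bN_5_5) 25 ix_5_5 ix_5_6 W6_23656407168 = true := by
  decide +kernel

theorem W6_23689961472_chk : wChk (nbDec bN_5_5) 25 ix_5_5 ix_5_6 W6_23689961472 = true := by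
  decide +kernel

theorem W6_23690219520_chk : wChk (nbDec bN_5_5) 25 ix_5_5 ix_5_6 W6_23690219520 = true := by
  decide +kernel

theorem W6_23690477568_chk : wChk (nbDec bN_5_5) 25 ix_5_5 ix_5_6 W6_23690477568 = true := by
  decide +kernel

theorem W6_23706734592_chk : wChk (nbDec bN_5_5) 25 ix_5_5 ix_5_6 W6_23706734592 = true := by
  decide +kernel

theorem W6_23706992640_chk : wChk (nbDec bN_5_5) 25 ix_5_5 ix_5_6 W6_23706992640 = true := by
  decide +kernel

theorem W6_23723507712_chk : wChk (nbDec bN_5_5) 25 ix_5_5 ix_5_6 W6_23723507712 = true := by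
  decide +kernel

theorem W6_23740022784_chk : wChk (nbDec bN_5_5) 25 ix_5_5 ix_5_6 W6_23740022784 = true := by
  decide +kernel

theorem W6_23756537856_chk : wChk (nbDec bN_5_5) 25 ix_5_5 ix_5_6 W6_23756537856 = true := by
  decide +kernel

theorem W6_24746926080_chk : wChk (nbDec bN_5_5) 25 ix_5_5 ix_5_6 W6_24746926080 = true := by
  decide +kernel

theorem W6_24763699200_chk : wChk (nbDec bN_5_5) 25 ix_5_5 ix_5_6 W6_24763699200 = true := by
  decide +kernel

theorem W6_24763957248_chk : wChk (nbDec bN_5_5) 25 ix_5_5 ix_5_6 W6_24763957248 = true := by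
  decide +kernel

theorem W6_24780472320_chk : wChk (nbDec bN_5_5) 25 ix_5_5 ix_5_6 W6_24780472320 = true := by
  decide +kernel

theorem W6_24796987392_chk : wChk (nbDec bN_5_5) 25 ix_5_5 ix_5_6 W6_24796987392 = true := by
  decide +kernel

theorem W6_24813502464_chk : wChk (nbDec bN_5_5) 25 ix_5_5 ix_5_6 W6_24813502464 = true := by
  decide +kernel

theorem W6_25803890688_chk : wChk (nbDec bN_5_5) 25 ix_5_5 ix_5_6 W6_25803890688 = true := by
  decide +kernel

theorem W6_25837436928_chk : wChk (nbDec bN_5_5) 25 ix_5_5 ix_5_6 W6_25837436928 = true := by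
  decide +kernel

theorem W6_25853952000_chk : wChk (nbDec bN_5_5) 25 ix_5_5 ix_5_6 W6_25853952000 = true := by
  decide +kernel

theorem W6_25870467072_chk : wChk (nbDec bN_5_5) 25 ix_5_5 ix_5_6 W6_25870467072 = true := by
  decide +kernel

theorem W6_26894401536_chk : wChk (nbDec bN_5_5) 25 ix_5_5 ix_5_6 W6_26894401536 = true := by
  decide +kernel

theorem W6_26910916608_chk : wChk (nbDec bN_5_5) 25 ix_5_5 ix_5_6 W6_26910916608 = true := by
  decide +kernel

theorem W6_26927431680_chk : wChk (nbDec bN_5_5) 25 ix_5_5 ix_5_6 W6_26927431680 = true := by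
  decide +kernel

theorem W6_27951366144_chk : wChk (nbDec bN_5_5) 25 ix_5_5 ix_5_6 W6_27951366144 = true := by
  decide +kernel

theorem W6_27984396288_chk : wChk (nbDec bN_5_5) 25 ix_5_5 ix_5_6 W6_27984396288 = true := by
  decide +kernel

theorem W6_29041360896_chk : wChk (nbDec bN_5_5) 25 ix_5_5 ix_5_6 W6_29041360896 = true := by
  decide +kernel

theorem W6_30098325504_chk : wChk (nbDec bN_5_5) 25 ix_5_5 ix_5_6 W6_30098325504 = true := by
  decide +kernel

theorem W6_32212254720_chk : wChk (nbDec bN_5_5) 25 ix_5_5 ix_5_6 W6_32212254720 = true := by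
  decide +kernel

end Crest.Agent.R187.SN.Top
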