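import Crest.Agent.R187.SN.TD.WC6_0
import Crest.Agent.R187.SN.TD.WC6_1
import Crest.Agent.R187.SN.WInst

/-!
# Row 187, PLAN S, block E4: the `W` tables are correct (WC6_0, WC6_1)
-/

set_option autoImplicit false

namespace Crest.Agent.R187.SN.Top

open Crest.Agent.R187.SN.Inst

theorem W6_6544712064_ok : Fwd.WtOk Inst.T (Inst.MT 5 5) 5 W6_6544712064 :=
  wt_ok5 W6_6544712064_chk

theorem W6_8692195584_ok : Fwd.WtOk Inst.T (Inst.MT 5 5) 5 W6_8692195584 :=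
  wt_ok5 W6_8692195584_chk

theorem W6_8725741824_ok : Fwd.WtOk Inst.T (Inst.MT 5 5) 5 W6_8725741824 :=
  wt_ok5 W6_8725741824_chk

theorem W6_8725749888_ok : Fwd.WtOk Inst.T (Inst.MT 5 5) 5 W6_8725749888 :=
  wt_ok5 W6_8725749888_chk

theorem W6_8726265984_ok : Fwd.WtOk Inst.T (Inst.MT 5 5) 5 W6_8726265984 :=
  wt_ok5 W6_8726265984_chk

theorem W6_8726274048_ok : Fwd.WtOk Inst.T (Inst.MT 5 5) 5 W6_8726274048 :=
  wt_ok5 W6_8726274048_chk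

theorem W6_9765937344_ok : Fwd.WtOk Inst.T (Inst.MT 5 5) 5 W6_9765937344 :=
  wt_ok5 W6_9765937344_chk

theorem W6_9782710464_ok : Fwd.WtOk Inst.T (Inst.MT 5 5) 5 W6_9782710464 :=
  wt_ok5 W6_9782710464_chk

theorem W6_9799483584_ok : Fwd.WtOk Inst.T (Inst.MT 5 5) 5 W6_9799483584 :=
  wt_ok5 W6_9799483584_chk

theorem W6_9799487616_ok : Fwd.WtOk Inst.T (Inst.MT 5 5) 5 W6_9799487616 :=
  wt_ok5 W6_9799487616_chk

theorem W6_9799491648_ok : Fwd.WtOk Inst.T (Inst.MT 5 5) 5 W6_9799491648 :=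
  wt_ok5 W6_9799491648_chk

theorem W6_9799745664_ok : Fwd.WtOk Inst.T (Inst.MT 5 5) 5 W6_9799745664 :=
  wt_ok5 W6_9799745664_chk

theorem W6_9799749696_ok : Fwd.WtOk Inst.T (Inst.MT 5 5) 5 W6_9799749696 :=
  wt_ok5 W6_9799749696_chk

theorem W6_9800007744_ok : Fwd.WtOk Inst.T (Inst.MT 5 5) 5 W6_9800007744 :=
  wt_ok5 W6_9800007744_chk

theorem W6_9800011776_ok : Fwd.WtOk Inst.T (Inst.MT 5 5) 5 W6_9800011776 :=
  wt_ok5 W6_9800011776_chk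

theorem W6_9816002688_ok : Fwd.WtOk Inst.T (Inst.MT 5 5) 5 W6_9816002688 :=
  wt_ok5 W6_9816002688_chk

theorem W6_9816256704_ok : Fwd.WtOk Inst.T (Inst.MT 5 5) 5 W6_9816256704 :=
  wt_ok5 W6_9816256704_chk

theorem W6_9816264768_ok : Fwd.WtOk Inst.T (Inst.MT 5 5) 5 W6_9816264768 :=
  wt_ok5 W6_9816264768_chk

theorem W6_9816518784_ok : Fwd.WtOk Inst.T (Inst.MT 5 5) 5 W6_9816518784 :=
  wt_ok5 W6_9816518784_chk

theorem W6_9816526848_ok : Fwd.WtOk Inst.T (Inst.MT 5 5) 5 W6_9816526848 :=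
  wt_ok5 W6_9816526848_chk

theorem W6_9816780864_ok : Fwd.WtOk Inst.T (Inst.MT 5 5) 5 W6_9816780864 :=
  wt_ok5 W6_9816780864_chk

theorem W6_10839671040_ok : Fwd.WtOk Inst.T (Inst.MT 5 5) 5 W6_10839671040 :=
  wt_ok5 W6_10839671040_chk

theorem W6_10839679104_ok : Fwd.WtOk Inst.T (Inst.MT 5 5) 5 W6_10839679104 :=
  wt_ok5 W6_10839679104_chk

theorem W6_10856448192_ok : Fwd.WtOk Inst.T (Inst.MT 5 5) 5 W6_10856448192 :=
  wt_ok5 W6_10856448192_chk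

theorem W6_10856452224_ok : Fwd.WtOk Inst.T (Inst.MT 5 5) 5 W6_10856452224 :=
  wt_ok5 W6_10856452224_chk

theorem W6_10856456256_ok : Fwd.WtOk Inst.T (Inst.MT 5 5) 5 W6_10856456256 :=
  wt_ok5 W6_10856456256_chk

theorem W6_10856706240_ok : Fwd.WtOk Inst.T (Inst.MT 5 5) 5 W6_10856706240 :=
  wt_ok5 W6_10856706240_chk

theorem W6_10872701184_ok : Fwd.WtOk Inst.T (Inst.MT 5 5) 5 W6_10872701184 :=
  wt_ok5 W6_10872701184_chk

theorem W6_10872963264_ok : Fwd.WtOk Inst.T (Inst.MT 5 5) 5 W6_10872963264 :=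
  wt_ok5 W6_10872963264_chk

theorem W6_10873225344_ok : Fwd.WtOk Inst.T (Inst.MT 5 5) 5 W6_10873225344 :=
  wt_ok5 W6_10873225344_chk

theorem W6_10873229376_ok : Fwd.WtOk Inst.T (Inst.MT 5 5) 5 W6_10873229376 :=
  wt_ok5 W6_10873229376_chk

theorem W6_10873233408_ok : Fwd.WtOk Inst.T (Inst.MT 5 5) 5 W6_10873233408 :=
  wt_ok5 W6_10873233408_chk

theorem W6_10873483392_ok : Fwd.WtOk Inst.T (Inst.MT 5 5) 5 W6_10873483392 :=
  wt_ok5 W6_10873483392_chk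

theorem W6_10873487424_ok : Fwd.WtOk Inst.T (Inst.MT 5 5) 5 W6_10873487424 :=
  wt_ok5 W6_10873487424_chk

theorem W6_10873491456_ok : Fwd.WtOk Inst.T (Inst.MT 5 5) 5 W6_10873491456 :=
  wt_ok5 W6_10873491456_chk

theorem W6_10873741440_ok : Fwd.WtOk Inst.T (Inst.MT 5 5) 5 W6_10873741440 :=
  wt_ok5 W6_10873741440_chk

theorem W6_10873745472_ok : Fwd.WtOk Inst.T (Inst.MT 5 5) 5 W6_10873745472 :=
  wt_ok5 W6_10873745472_chk

theorem W6_10873749504_ok : Fwd.WtOk Inst.T (Inst.MT 5 5) 5 W6_10873749504 :=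
  wt_ok5 W6_10873749504_chk

theorem W6_10889736384_ok : Fwd.WtOk Inst.T (Inst.MT 5 5) 5 W6_10889736384 :=
  wt_ok5 W6_10889736384_chk

theorem W6_10889740416_ok : Fwd.WtOk Inst.T (Inst.MT 5 5) 5 W6_10889740416 :=
  wt_ok5 W6_10889740416_chk

theorem W6_10889998464_ok : Fwd.WtOk Inst.T (Inst.MT 5 5) 5 W6_10889998464 :=
  wt_ok5 W6_10889998464_chk

theorem W6_10890002496_ok : Fwd.WtOk Inst.T (Inst.MT 5 5) 5 W6_10890002496 :=
  wt_ok5 W6_10890002496_chk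

theorem W6_10890006528_ok : Fwd.WtOk Inst.T (Inst.MT 5 5) 5 W6_10890006528 :=
  wt_ok5 W6_10890006528_chk

theorem W6_10890260544_ok : Fwd.WtOk Inst.T (Inst.MT 5 5) 5 W6_10890260544 :=
  wt_ok5 W6_10890260544_chk

theorem W6_10890264576_ok : Fwd.WtOk Inst.T (Inst.MT 5 5) 5 W6_10890264576 :=
  wt_ok5 W6_10890264576_chk

theorem W6_10890518592_ok : Fwd.WtOk Inst.T (Inst.MT 5 5) 5 W6_10890518592 :=
  wt_ok5 W6_10890518592_chk

theorem W6_10890522624_ok : Fwd.WtOk Inst.T (Inst.MT 5 5) 5 W6_10890522624 :=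
  wt_ok5 W6_10890522624_chk

theorem W6_10906255488_ok : Fwd.WtOk Inst.T (Inst.MT 5 5) 5 W6_10906255488 :=
  wt_ok5 W6_10906255488_chk

theorem W6_10906517568_ok : Fwd.WtOk Inst.T (Inst.MT 5 5) 5 W6_10906517568 :=
  wt_ok5 W6_10906517568_chk

theorem W6_10906771584_ok : Fwd.WtOk Inst.T (Inst.MT 5 5) 5 W6_10906771584 :=
  wt_ok5 W6_10906771584_chk

theorem W6_10906775616_ok : Fwd.WtOk Inst.T (Inst.MT 5 5) 5 W6_10906775616 :=
  wt_ok5 W6_10906775616_chk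

theorem W6_10906779648_ok : Fwd.WtOk Inst.T (Inst.MT 5 5) 5 W6_10906779648 :=
  wt_ok5 W6_10906779648_chk

theorem W6_10907033664_ok : Fwd.WtOk Inst.T (Inst.MT 5 5) 5 W6_10907033664 :=
  wt_ok5 W6_10907033664_chk

theorem W6_10907037696_ok : Fwd.WtOk Inst.T (Inst.MT 5 5) 5 W6_10907037696 :=
  wt_ok5 W6_10907037696_chk

theorem W6_10907295744_ok : Fwd.WtOk Inst.T (Inst.MT 5 5) 5 W6_10907295744 :=
  wt_ok5 W6_10907295744_chk

theorem W6_10907553792_ok : Fwd.WtOk Inst.T (Inst.MT 5 5) 5 W6_10907553792 :=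
  wt_ok5 W6_10907553792_chk

theorem W6_10907811840_ok : Fwd.WtOk Inst.T (Inst.MT 5 5) 5 W6_10907811840 :=
  wt_ok5 W6_10907811840_chk

theorem W6_11913412800_ok : Fwd.WtOk Inst.T (Inst.MT 5 5) 5 W6_11913412800 :=
  wt_ok5 W6_11913412800_chk

theorem W6_11913416832_ok : Fwd.WtOk Inst.T (Inst.MT 5 5) 5 W6_11913416832 :=
  wt_ok5 W6_11913416832_chk

theorem W6_11913420864_ok : Fwd.WtOk Inst.T (Inst.MT 5 5) 5 W6_11913420864 :=
  wt_ok5 W6_11913420864_chk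

theorem W6_11929927872_ok : Fwd.WtOk Inst.T (Inst.MT 5 5) 5 W6_11929927872 :=
  wt_ok5 W6_11929927872_chk

theorem W6_11930185920_ok : Fwd.WtOk Inst.T (Inst.MT 5 5) 5 W6_11930185920 :=
  wt_ok5 W6_11930185920_chk

theorem W6_11930189952_ok : Fwd.WtOk Inst.T (Inst.MT 5 5) 5 W6_11930189952 :=
  wt_ok5 W6_11930189952_chk

theorem W6_11930193984_ok : Fwd.WtOk Inst.T (Inst.MT 5 5) 5 W6_11930193984 :=
  wt_ok5 W6_11930193984_chk

theorem W6_11930198016_ok : Fwd.WtOk Inst.T (Inst.MT 5 5) 5 W6_11930198016 :=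
  wt_ok5 W6_11930198016_chk

theorem W6_11930452032_ok : Fwd.WtOk Inst.T (Inst.MT 5 5) 5 W6_11930452032 :=
  wt_ok5 W6_11930452032_chk

theorem W6_11930456064_ok : Fwd.WtOk Inst.T (Inst.MT 5 5) 5 W6_11930456064 :=
  wt_ok5 W6_11930456064_chk

theorem W6_11946442944_ok : Fwd.WtOk Inst.T (Inst.MT 5 5) 5 W6_11946442944 :=
  wt_ok5 W6_11946442944_chk

theorem W6_11946705024_ok : Fwd.WtOk Inst.T (Inst.MT 5 5) 5 W6_11946705024 :=
  wt_ok5 W6_11946705024_chk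

theorem W6_11946709056_ok : Fwd.WtOk Inst.T (Inst.MT 5 5) 5 W6_11946709056 :=
  wt_ok5 W6_11946709056_chk

theorem W6_11946963072_ok : Fwd.WtOk Inst.T (Inst.MT 5 5) 5 W6_11946963072 :=
  wt_ok5 W6_11946963072_chk

theorem W6_11946967104_ok : Fwd.WtOk Inst.T (Inst.MT 5 5) 5 W6_11946967104 :=
  wt_ok5 W6_11946967104_chk

theorem W6_11946971136_ok : Fwd.WtOk Inst.T (Inst.MT 5 5) 5 W6_11946971136 :=
  wt_ok5 W6_11946971136_chk

theorem W6_11947221120_ok : Fwd.WtOk Inst.T (Inst.MT 5 5) 5 W6_11947221120 :=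
  wt_ok5 W6_11947221120_chk

theorem W6_11947225152_ok : Fwd.WtOk Inst.T (Inst.MT 5 5) 5 W6_11947225152 :=
  wt_ok5 W6_11947225152_chk

theorem W6_11947229184_ok : Fwd.WtOk Inst.T (Inst.MT 5 5) 5 W6_11947229184 :=
  wt_ok5 W6_11947229184_chk

theorem W6_11947483200_ok : Fwd.WtOk Inst.T (Inst.MT 5 5) 5 W6_11947483200 :=
  wt_ok5 W6_11947483200_chk

theorem W6_11947487232_ok : Fwd.WtOk Inst.T (Inst.MT 5 5) 5 W6_11947487232 :=
  wt_ok5 W6_11947487232_chk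

theorem W6_11963216064_ok : Fwd.WtOk Inst.T (Inst.MT 5 5) 5 W6_11963216064 :=
  wt_ok5 W6_11963216064_chk

theorem W6_11963220096_ok : Fwd.WtOk Inst.T (Inst.MT 5 5) 5 W6_11963220096 :=
  wt_ok5 W6_11963220096_chk

theorem W6_11963478144_ok : Fwd.WtOk Inst.T (Inst.MT 5 5) 5 W6_11963478144 :=
  wt_ok5 W6_11963478144_chk

theorem W6_11963482176_ok : Fwd.WtOk Inst.T (Inst.MT 5 5) 5 W6_11963482176 :=
  wt_ok5 W6_11963482176_chk

theorem W6_11963486208_ok : Fwd.WtOk Inst.T (Inst.MT 5 5) 5 W6_11963486208 :=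
  wt_ok5 W6_11963486208_chk

theorem W6_11963736192_ok : Fwd.WtOk Inst.T (Inst.MT 5 5) 5 W6_11963736192 :=
  wt_ok5 W6_11963736192_chk

theorem W6_11963740224_ok : Fwd.WtOk Inst.T (Inst.MT 5 5) 5 W6_11963740224 :=
  wt_ok5 W6_11963740224_chk

theorem W6_11963744256_ok : Fwd.WtOk Inst.T (Inst.MT 5 5) 5 W6_11963744256 :=
  wt_ok5 W6_11963744256_chk

theorem W6_11963998272_ok : Fwd.WtOk Inst.T (Inst.MT 5 5) 5 W6_11963998272 :=
  wt_ok5 W6_11963998272_chk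

theorem W6_11964002304_ok : Fwd.WtOk Inst.T (Inst.MT 5 5) 5 W6_11964002304 :=
  wt_ok5 W6_11964002304_chk

theorem W6_11964256320_ok : Fwd.WtOk Inst.T (Inst.MT 5 5) 5 W6_11964256320 :=
  wt_ok5 W6_11964256320_chk

theorem W6_11964260352_ok : Fwd.WtOk Inst.T (Inst.MT 5 5) 5 W6_11964260352 :=
  wt_ok5 W6_11964260352_chk

theorem W6_11964518400_ok : Fwd.WtOk Inst.T (Inst.MT 5 5) 5 W6_11964518400 :=
  wt_ok5 W6_11964518400_chk

theorem W6_11979993216_ok : Fwd.WtOk Inst.T (Inst.MT 5 5) 5 W6_11979993216 :=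
  wt_ok5 W6_11979993216_chk

theorem W6_11979997248_ok : Fwd.WtOk Inst.T (Inst.MT 5 5) 5 W6_11979997248 :=
  wt_ok5 W6_11979997248_chk

theorem W6_11980251264_ok : Fwd.WtOk Inst.T (Inst.MT 5 5) 5 W6_11980251264 :=
  wt_ok5 W6_11980251264_chk

theorem W6_11980255296_ok : Fwd.WtOk Inst.T (Inst.MT 5 5) 5 W6_11980255296 :=
  wt_ok5 W6_11980255296_chk

theorem W6_11980259328_ok : Fwd.WtOk Inst.T (Inst.MT 5 5) 5 W6_11980259328 :=
  wt_ok5 W6_11980259328_chk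

theorem W6_11980513344_ok : Fwd.WtOk Inst.T (Inst.MT 5 5) 5 W6_11980513344 :=
  wt_ok5 W6_11980513344_chk

theorem W6_11980517376_ok : Fwd.WtOk Inst.T (Inst.MT 5 5) 5 W6_11980517376 :=
  wt_ok5 W6_11980517376_chk

theorem W6_11980771392_ok : Fwd.WtOk Inst.T (Inst.MT 5 5) 5 W6_11980771392 :=
  wt_ok5 W6_11980771392_chk

theorem W6_11980775424_ok : Fwd.WtOk Inst.T (Inst.MT 5 5) 5 W6_11980775424 :=
  wt_ok5 W6_11980775424_chk

theorem W6_11981033472_ok : Fwd.WtOk Inst.T (Inst.MT 5 5) 5 W6_11981033472 :=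
  wt_ok5 W6_11981033472_chk

theorem W6_11981291520_ok : Fwd.WtOk Inst.T (Inst.MT 5 5) 5 W6_11981291520 :=
  wt_ok5 W6_11981291520_chk

theorem W6_11996770368_ok : Fwd.WtOk Inst.T (Inst.MT 5 5) 5 W6_11996770368 :=
  wt_ok5 W6_11996770368_chk

theorem W6_11997028416_ok : Fwd.WtOk Inst.T (Inst.MT 5 5) 5 W6_11997028416 :=
  wt_ok5 W6_11997028416_chk

theorem W6_11997032448_ok : Fwd.WtOk Inst.T (Inst.MT 5 5) 5 W6_11997032448 :=
  wt_ok5 W6_11997032448_chk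

theorem W6_11997286464_ok : Fwd.WtOk Inst.T (Inst.MT 5 5) 5 W6_11997286464 :=
  wt_ok5 W6_11997286464_chk

theorem W6_11997290496_ok : Fwd.WtOk Inst.T (Inst.MT 5 5) 5 W6_11997290496 :=
  wt_ok5 W6_11997290496_chk

theorem W6_11997548544_ok : Fwd.WtOk Inst.T (Inst.MT 5 5) 5 W6_11997548544 :=
  wt_ok5 W6_11997548544_chk

theorem W6_12986630400_ok : Fwd.WtOk Inst.T (Inst.MT 5 5) 5 W6_12986630400 :=
  wt_ok5 W6_12986630400_chk

theorem W6_12987154560_ok : Fwd.WtOk Inst.T (Inst.MT 5 5) 5 W6_12987154560 :=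
  wt_ok5 W6_12987154560_chk

theorem W6_12987158592_ok : Fwd.WtOk Inst.T (Inst.MT 5 5) 5 W6_12987158592 :=
  wt_ok5 W6_12987158592_chk

theorem W6_12987162624_ok : Fwd.WtOk Inst.T (Inst.MT 5 5) 5 W6_12987162624 :=
  wt_ok5 W6_12987162624_chk

theorem W6_13003407552_ok : Fwd.WtOk Inst.T (Inst.MT 5 5) 5 W6_13003407552 :=
  wt_ok5 W6_13003407552_chk

theorem W6_13003665600_ok : Fwd.WtOk Inst.T (Inst.MT 5 5) 5 W6_13003665600 :=
  wt_ok5 W6_13003665600_chk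

theorem W6_13003669632_ok : Fwd.WtOk Inst.T (Inst.MT 5 5) 5 W6_13003669632 :=
  wt_ok5 W6_13003669632_chk

theorem W6_13003673664_ok : Fwd.WtOk Inst.T (Inst.MT 5 5) 5 W6_13003673664 :=
  wt_ok5 W6_13003673664_chk

theorem W6_13003927680_ok : Fwd.WtOk Inst.T (Inst.MT 5 5) 5 W6_13003927680 :=
  wt_ok5 W6_13003927680_chk

theorem W6_13003931712_ok : Fwd.WtOk Inst.T (Inst.MT 5 5) 5 W6_13003931712 :=
  wt_ok5 W6_13003931712_chk

theorem W6_13003935744_ok : Fwd.WtOk Inst.T (Inst.MT 5 5) 5 W6_13003935744 :=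
  wt_ok5 W6_13003935744_chk

theorem W6_13004189760_ok : Fwd.WtOk Inst.T (Inst.MT 5 5) 5 W6_13004189760 :=
  wt_ok5 W6_13004189760_chk

theorem W6_13004193792_ok : Fwd.WtOk Inst.T (Inst.MT 5 5) 5 W6_13004193792 :=
  wt_ok5 W6_13004193792_chk

theorem W6_13020184704_ok : Fwd.WtOk Inst.T (Inst.MT 5 5) 5 W6_13020184704 :=
  wt_ok5 W6_13020184704_chk

theorem W6_13020442752_ok : Fwd.WtOk Inst.T (Inst.MT 5 5) 5 W6_13020442752 :=
  wt_ok5 W6_13020442752_chk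

theorem W6_13020446784_ok : Fwd.WtOk Inst.T (Inst.MT 5 5) 5 W6_13020446784 :=
  wt_ok5 W6_13020446784_chk

theorem W6_13020450816_ok : Fwd.WtOk Inst.T (Inst.MT 5 5) 5 W6_13020450816 :=
  wt_ok5 W6_13020450816_chk

theorem W6_13020700800_ok : Fwd.WtOk Inst.T (Inst.MT 5 5) 5 W6_13020700800 :=
  wt_ok5 W6_13020700800_chk

theorem W6_13020704832_ok : Fwd.WtOk Inst.T (Inst.MT 5 5) 5 W6_13020704832 :=
  wt_ok5 W6_13020704832_chk

theorem W6_13020708864_ok : Fwd.WtOk Inst.T (Inst.MT 5 5) 5 W6_13020708864 :=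
  wt_ok5 W6_13020708864_chk

theorem W6_13020962880_ok : Fwd.WtOk Inst.T (Inst.MT 5 5) 5 W6_13020962880 :=
  wt_ok5 W6_13020962880_chk

theorem W6_13020966912_ok : Fwd.WtOk Inst.T (Inst.MT 5 5) 5 W6_13020966912 :=
  wt_ok5 W6_13020966912_chk

theorem W6_13021224960_ok : Fwd.WtOk Inst.T (Inst.MT 5 5) 5 W6_13021224960 :=
  wt_ok5 W6_13021224960_chk

theorem W6_13036957824_ok : Fwd.WtOk Inst.T (Inst.MT 5 5) 5 W6_13036957824 :=
  wt_ok5 W6_13036957824_chk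

theorem W6_13036961856_ok : Fwd.WtOk Inst.T (Inst.MT 5 5) 5 W6_13036961856 :=
  wt_ok5 W6_13036961856_chk

theorem W6_13037215872_ok : Fwd.WtOk Inst.T (Inst.MT 5 5) 5 W6_13037215872 :=
  wt_ok5 W6_13037215872_chk

theorem W6_13037219904_ok : Fwd.WtOk Inst.T (Inst.MT 5 5) 5 W6_13037219904 :=
  wt_ok5 W6_13037219904_chk

theorem W6_13037223936_ok : Fwd.WtOk Inst.T (Inst.MT 5 5) 5 W6_13037223936 :=
  wt_ok5 W6_13037223936_chk

theorem W6_13037477952_ok : Fwd.WtOk Inst.T (Inst.MT 5 5) 5 W6_13037477952 :=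
  wt_ok5 W6_13037477952_chk

theorem W6_13037481984_ok : Fwd.WtOk Inst.T (Inst.MT 5 5) 5 W6_13037481984 :=
  wt_ok5 W6_13037481984_chk

theorem W6_13037736000_ok : Fwd.WtOk Inst.T (Inst.MT 5 5) 5 W6_13037736000 :=
  wt_ok5 W6_13037736000_chk

theorem W6_13037740032_ok : Fwd.WtOk Inst.T (Inst.MT 5 5) 5 W6_13037740032 :=
  wt_ok5 W6_13037740032_chk

theorem W6_13037998080_ok : Fwd.WtOk Inst.T (Inst.MT 5 5) 5 W6_13037998080 :=
  wt_ok5 W6_13037998080_chk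

theorem W6_13053730944_ok : Fwd.WtOk Inst.T (Inst.MT 5 5) 5 W6_13053730944 :=
  wt_ok5 W6_13053730944_chk

theorem W6_13053734976_ok : Fwd.WtOk Inst.T (Inst.MT 5 5) 5 W6_13053734976 :=
  wt_ok5 W6_13053734976_chk

theorem W6_13053739008_ok : Fwd.WtOk Inst.T (Inst.MT 5 5) 5 W6_13053739008 :=
  wt_ok5 W6_13053739008_chk

theorem W6_13053993024_ok : Fwd.WtOk Inst.T (Inst.MT 5 5) 5 W6_13053993024 :=
  wt_ok5 W6_13053993024_chk

theorem W6_13053997056_ok : Fwd.WtOk Inst.T (Inst.MT 5 5) 5 W6_13053997056 :=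
  wt_ok5 W6_13053997056_chk

theorem W6_13054251072_ok : Fwd.WtOk Inst.T (Inst.MT 5 5) 5 W6_13054251072 :=
  wt_ok5 W6_13054251072_chk

theorem W6_13054255104_ok : Fwd.WtOk Inst.T (Inst.MT 5 5) 5 W6_13054255104 :=
  wt_ok5 W6_13054255104_chk

theorem W6_13054513152_ok : Fwd.WtOk Inst.T (Inst.MT 5 5) 5 W6_13054513152 :=
  wt_ok5 W6_13054513152_chk

theorem W6_13054771200_ok : Fwd.WtOk Inst.T (Inst.MT 5 5) 5 W6_13054771200 :=
  wt_ok5 W6_13054771200_chk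

theorem W6_13070246016_ok : Fwd.WtOk Inst.T (Inst.MT 5 5) 5 W6_13070246016 :=
  wt_ok5 W6_13070246016_chk

theorem W6_13070250048_ok : Fwd.WtOk Inst.T (Inst.MT 5 5) 5 W6_13070250048 :=
  wt_ok5 W6_13070250048_chk

theorem W6_13070508096_ok : Fwd.WtOk Inst.T (Inst.MT 5 5) 5 W6_13070508096 :=
  wt_ok5 W6_13070508096_chk

theorem W6_13070512128_ok : Fwd.WtOk Inst.T (Inst.MT 5 5) 5 W6_13070512128 :=
  wt_ok5 W6_13070512128_chk

theorem W6_13070766144_ok : Fwd.WtOk Inst.T (Inst.MT 5 5) 5 W6_13070766144 :=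
  wt_ok5 W6_13070766144_chk

theorem W6_13070770176_ok : Fwd.WtOk Inst.T (Inst.MT 5 5) 5 W6_13070770176 :=
  wt_ok5 W6_13070770176_chk

theorem W6_13071028224_ok : Fwd.WtOk Inst.T (Inst.MT 5 5) 5 W6_13071028224 :=
  wt_ok5 W6_13071028224_chk

theorem W6_13071286272_ok : Fwd.WtOk Inst.T (Inst.MT 5 5) 5 W6_13071286272 :=
  wt_ok5 W6_13071286272_chk

theorem W6_13086761088_ok : Fwd.WtOk Inst.T (Inst.MT 5 5) 5 W6_13086761088 :=
  wt_ok5 W6_13086761088_chk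

theorem W6_13087023168_ok : Fwd.WtOk Inst.T (Inst.MT 5 5) 5 W6_13087023168 :=
  wt_ok5 W6_13087023168_chk

theorem W6_13087285248_ok : Fwd.WtOk Inst.T (Inst.MT 5 5) 5 W6_13087285248 :=
  wt_ok5 W6_13087285248_chk

theorem W6_13087543296_ok : Fwd.WtOk Inst.T (Inst.MT 5 5) 5 W6_13087543296 :=
  wt_ok5 W6_13087543296_chk

theorem W6_13087801344_ok : Fwd.WtOk Inst.T (Inst.MT 5 5) 5 W6_13087801344 :=
  wt_ok5 W6_13087801344_chk

theorem W6_14060372160_ok : Fwd.WtOk Inst.T (Inst.MT 5 5) 5 W6_14060372160 :=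
  wt_ok5 W6_14060372160_chk

theorem W6_14060634240_ok : Fwd.WtOk Inst.T (Inst.MT 5 5) 5 W6_14060634240 :=
  wt_ok5 W6_14060634240_chk

theorem W6_14060892288_ok : Fwd.WtOk Inst.T (Inst.MT 5 5) 5 W6_14060892288 :=
  wt_ok5 W6_14060892288_chk

theorem W6_14060896320_ok : Fwd.WtOk Inst.T (Inst.MT 5 5) 5 W6_14060896320 :=
  wt_ok5 W6_14060896320_chk

theorem W6_14060900352_ok : Fwd.WtOk Inst.T (Inst.MT 5 5) 5 W6_14060900352 :=
  wt_ok5 W6_14060900352_chk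

theorem W6_14077149312_ok : Fwd.WtOk Inst.T (Inst.MT 5 5) 5 W6_14077149312 :=
  wt_ok5 W6_14077149312_chk

theorem W6_14077407360_ok : Fwd.WtOk Inst.T (Inst.MT 5 5) 5 W6_14077407360 :=
  wt_ok5 W6_14077407360_chk

theorem W6_14077411392_ok : Fwd.WtOk Inst.T (Inst.MT 5 5) 5 W6_14077411392 :=
  wt_ok5 W6_14077411392_chk

theorem W6_14077415424_ok : Fwd.WtOk Inst.T (Inst.MT 5 5) 5 W6_14077415424 :=
  wt_ok5 W6_14077415424_chk

theorem W6_14077665408_ok : Fwd.WtOk Inst.T (Inst.MT 5 5) 5 W6_14077665408 :=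
  wt_ok5 W6_14077665408_chk

theorem W6_14077669440_ok : Fwd.WtOk Inst.T (Inst.MT 5 5) 5 W6_14077669440 :=
  wt_ok5 W6_14077669440_chk

theorem W6_14077673472_ok : Fwd.WtOk Inst.T (Inst.MT 5 5) 5 W6_14077673472 :=
  wt_ok5 W6_14077673472_chk

theorem W6_14077927488_ok : Fwd.WtOk Inst.T (Inst.MT 5 5) 5 W6_14077927488 :=
  wt_ok5 W6_14077927488_chk

theorem W6_14077931520_ok : Fwd.WtOk Inst.T (Inst.MT 5 5) 5 W6_14077931520 :=
  wt_ok5 W6_14077931520_chk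

theorem W6_14093922432_ok : Fwd.WtOk Inst.T (Inst.MT 5 5) 5 W6_14093922432 :=
  wt_ok5 W6_14093922432_chk

theorem W6_14093926464_ok : Fwd.WtOk Inst.T (Inst.MT 5 5) 5 W6_14093926464 :=
  wt_ok5 W6_14093926464_chk

theorem W6_14094180480_ok : Fwd.WtOk Inst.T (Inst.MT 5 5) 5 W6_14094180480 :=
  wt_ok5 W6_14094180480_chk

theorem W6_14094184512_ok : Fwd.WtOk Inst.T (Inst.MT 5 5) 5 W6_14094184512 :=
  wt_ok5 W6_14094184512_chk

theorem W6_14094188544_ok : Fwd.WtOk Inst.T (Inst.MT 5 5) 5 W6_14094188544 :=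
  wt_ok5 W6_14094188544_chk

theorem W6_14094442560_ok : Fwd.WtOk Inst.T (Inst.MT 5 5) 5 W6_14094442560 :=
  wt_ok5 W6_14094442560_chk

theorem W6_14094446592_ok : Fwd.WtOk Inst.T (Inst.MT 5 5) 5 W6_14094446592 :=
  wt_ok5 W6_14094446592_chk

theorem W6_14094700608_ok : Fwd.WtOk Inst.T (Inst.MT 5 5) 5 W6_14094700608 :=
  wt_ok5 W6_14094700608_chk

theorem W6_14094704640_ok : Fwd.WtOk Inst.T (Inst.MT 5 5) 5 W6_14094704640 :=
  wt_ok5 W6_14094704640_chk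

theorem W6_14094962688_ok : Fwd.WtOk Inst.T (Inst.MT 5 5) 5 W6_14094962688 :=
  wt_ok5 W6_14094962688_chk

theorem W6_14110437504_ok : Fwd.WtOk Inst.T (Inst.MT 5 5) 5 W6_14110437504 :=
  wt_ok5 W6_14110437504_chk

theorem W6_14110695552_ok : Fwd.WtOk Inst.T (Inst.MT 5 5) 5 W6_14110695552 :=
  wt_ok5 W6_14110695552_chk

theorem W6_14110699584_ok : Fwd.WtOk Inst.T (Inst.MT 5 5) 5 W6_14110699584 :=
  wt_ok5 W6_14110699584_chk

theorem W6_14110703616_ok : Fwd.WtOk Inst.T (Inst.MT 5 5) 5 W6_14110703616 :=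
  wt_ok5 W6_14110703616_chk

theorem W6_14110957632_ok : Fwd.WtOk Inst.T (Inst.MT 5 5) 5 W6_14110957632 :=
  wt_ok5 W6_14110957632_chk

theorem W6_14110961664_ok : Fwd.WtOk Inst.T (Inst.MT 5 5) 5 W6_14110961664 :=
  wt_ok5 W6_14110961664_chk

theorem W6_14111215680_ok : Fwd.WtOk Inst.T (Inst.MT 5 5) 5 W6_14111215680 :=
  wt_ok5 W6_14111215680_chk

theorem W6_14111219712_ok : Fwd.WtOk Inst.T (Inst.MT 5 5) 5 W6_14111219712 :=
  wt_ok5 W6_14111219712_chk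

theorem W6_14111477760_ok : Fwd.WtOk Inst.T (Inst.MT 5 5) 5 W6_14111477760 :=
  wt_ok5 W6_14111477760_chk

theorem W6_14111735808_ok : Fwd.WtOk Inst.T (Inst.MT 5 5) 5 W6_14111735808 :=
  wt_ok5 W6_14111735808_chk

theorem W6_14127210624_ok : Fwd.WtOk Inst.T (Inst.MT 5 5) 5 W6_14127210624 :=
  wt_ok5 W6_14127210624_chk

theorem W6_14127214656_ok : Fwd.WtOk Inst.T (Inst.MT 5 5) 5 W6_14127214656 :=
  wt_ok5 W6_14127214656_chk

theorem W6_14127472704_ok : Fwd.WtOk Inst.T (Inst.MT 5 5) 5 W6_14127472704 :=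
  wt_ok5 W6_14127472704_chk

theorem W6_14127476736_ok : Fwd.WtOk Inst.T (Inst.MT 5 5) 5 W6_14127476736 :=
  wt_ok5 W6_14127476736_chk

theorem W6_14127730752_ok : Fwd.WtOk Inst.T (Inst.MT 5 5) 5 W6_14127730752 :=
  wt_ok5 W6_14127730752_chk

theorem W6_14127734784_ok : Fwd.WtOk Inst.T (Inst.MT 5 5) 5 W6_14127734784 :=
  wt_ok5 W6_14127734784_chk

theorem W6_14127992832_ok : Fwd.WtOk Inst.T (Inst.MT 5 5) 5 W6_14127992832 :=
  wt_ok5 W6_14127992832_chk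

theorem W6_14128250880_ok : Fwd.WtOk Inst.T (Inst.MT 5 5) 5 W6_14128250880 :=
  wt_ok5 W6_14128250880_chk

theorem W6_14143987776_ok : Fwd.WtOk Inst.T (Inst.MT 5 5) 5 W6_14143987776 :=
  wt_ok5 W6_14143987776_chk

theorem W6_14143991808_ok : Fwd.WtOk Inst.T (Inst.MT 5 5) 5 W6_14143991808 :=
  wt_ok5 W6_14143991808_chk

theorem W6_14144245824_ok : Fwd.WtOk Inst.T (Inst.MT 5 5) 5 W6_14144245824 :=
  wt_ok5 W6_14144245824_chk

theorem W6_14144249856_ok : Fwd.WtOk Inst.T (Inst.MT 5 5) 5 W6_14144249856 :=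
  wt_ok5 W6_14144249856_chk

theorem W6_14144507904_ok : Fwd.WtOk Inst.T (Inst.MT 5 5) 5 W6_14144507904 :=
  wt_ok5 W6_14144507904_chk

theorem W6_14144765952_ok : Fwd.WtOk Inst.T (Inst.MT 5 5) 5 W6_14144765952 :=
  wt_ok5 W6_14144765952_chk

theorem W6_14160502848_ok : Fwd.WtOk Inst.T (Inst.MT 5 5) 5 W6_14160502848 :=
  wt_ok5 W6_14160502848_chk

theorem W6_14160760896_ok : Fwd.WtOk Inst.T (Inst.MT 5 5) 5 W6_14160760896 :=
  wt_ok5 W6_14160760896_chk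

theorem W6_14160764928_ok : Fwd.WtOk Inst.T (Inst.MT 5 5) 5 W6_14160764928 :=
  wt_ok5 W6_14160764928_chk

theorem W6_14161022976_ok : Fwd.WtOk Inst.T (Inst.MT 5 5) 5 W6_14161022976 :=
  wt_ok5 W6_14161022976_chk

theorem W6_14161281024_ok : Fwd.WtOk Inst.T (Inst.MT 5 5) 5 W6_14161281024 :=
  wt_ok5 W6_14161281024_chk

theorem W6_14177275968_ok : Fwd.WtOk Inst.T (Inst.MT 5 5) 5 W6_14177275968 :=
  wt_ok5 W6_14177275968_chk

theorem W6_14177538048_ok : Fwd.WtOk Inst.T (Inst.MT 5 5) 5 W6_14177538048 :=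
  wt_ok5 W6_14177538048_chk

theorem W6_14177796096_ok : Fwd.WtOk Inst.T (Inst.MT 5 5) 5 W6_14177796096 :=
  wt_ok5 W6_14177796096_chk

theorem W6_15100559616_ok : Fwd.WtOk Inst.T (Inst.MT 5 5) 5 W6_15100559616 :=
  wt_ok5 W6_15100559616_chk

theorem W6_15134113920_ok : Fwd.WtOk Inst.T (Inst.MT 5 5) 5 W6_15134113920 :=
  wt_ok5 W6_15134113920_chk

theorem W6_15134371968_ok : Fwd.WtOk Inst.T (Inst.MT 5 5) 5 W6_15134371968 :=
  wt_ok5 W6_15134371968_chk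

theorem W6_15134376000_ok : Fwd.WtOk Inst.T (Inst.MT 5 5) 5 W6_15134376000 :=
  wt_ok5 W6_15134376000_chk

theorem W6_15134630016_ok : Fwd.WtOk Inst.T (Inst.MT 5 5) 5 W6_15134630016 :=
  wt_ok5 W6_15134630016_chk

theorem W6_15134634048_ok : Fwd.WtOk Inst.T (Inst.MT 5 5) 5 W6_15134634048 :=
  wt_ok5 W6_15134634048_chk

theorem W6_15134638080_ok : Fwd.WtOk Inst.T (Inst.MT 5 5) 5 W6_15134638080 :=
  wt_ok5 W6_15134638080_chk

theorem W6_15150887040_ok : Fwd.WtOk Inst.T (Inst.MT 5 5) 5 W6_15150887040 :=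
  wt_ok5 W6_15150887040_chk

theorem W6_15150891072_ok : Fwd.WtOk Inst.T (Inst.MT 5 5) 5 W6_15150891072 :=
  wt_ok5 W6_15150891072_chk

theorem W6_15151145088_ok : Fwd.WtOk Inst.T (Inst.MT 5 5) 5 W6_15151145088 :=
  wt_ok5 W6_15151145088_chk

theorem W6_15151149120_ok : Fwd.WtOk Inst.T (Inst.MT 5 5) 5 W6_15151149120 :=
  wt_ok5 W6_15151149120_chk

theorem W6_15151153152_ok : Fwd.WtOk Inst.T (Inst.MT 5 5) 5 W6_15151153152 :=
  wt_ok5 W6_15151153152_chk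

theorem W6_15151407168_ok : Fwd.WtOk Inst.T (Inst.MT 5 5) 5 W6_15151407168 :=
  wt_ok5 W6_15151407168_chk

theorem W6_15151411200_ok : Fwd.WtOk Inst.T (Inst.MT 5 5) 5 W6_15151411200 :=
  wt_ok5 W6_15151411200_chk

theorem W6_15151665216_ok : Fwd.WtOk Inst.T (Inst.MT 5 5) 5 W6_15151665216 :=
  wt_ok5 W6_15151665216_chk

theorem W6_15151669248_ok : Fwd.WtOk Inst.T (Inst.MT 5 5) 5 W6_15151669248 :=
  wt_ok5 W6_15151669248_chk

theorem W6_15167660160_ok : Fwd.WtOk Inst.T (Inst.MT 5 5) 5 W6_15167660160 :=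
  wt_ok5 W6_15167660160_chk

theorem W6_15167664192_ok : Fwd.WtOk Inst.T (Inst.MT 5 5) 5 W6_15167664192 :=
  wt_ok5 W6_15167664192_chk

theorem W6_15167668224_ok : Fwd.WtOk Inst.T (Inst.MT 5 5) 5 W6_15167668224 :=
  wt_ok5 W6_15167668224_chk

theorem W6_15167922240_ok : Fwd.WtOk Inst.T (Inst.MT 5 5) 5 W6_15167922240 :=
  wt_ok5 W6_15167922240_chk

theorem W6_15167926272_ok : Fwd.WtOk Inst.T (Inst.MT 5 5) 5 W6_15167926272 :=
  wt_ok5 W6_15167926272_chk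

theorem W6_15168180288_ok : Fwd.WtOk Inst.T (Inst.MT 5 5) 5 W6_15168180288 :=
  wt_ok5 W6_15168180288_chk

theorem W6_15168184320_ok : Fwd.WtOk Inst.T (Inst.MT 5 5) 5 W6_15168184320 :=
  wt_ok5 W6_15168184320_chk

theorem W6_15168442368_ok : Fwd.WtOk Inst.T (Inst.MT 5 5) 5 W6_15168442368 :=
  wt_ok5 W6_15168442368_chk

theorem W6_15168700416_ok : Fwd.WtOk Inst.T (Inst.MT 5 5) 5 W6_15168700416 :=
  wt_ok5 W6_15168700416_chk

theorem W6_15184175232_ok : Fwd.WtOk Inst.T (Inst.MT 5 5) 5 W6_15184175232 :=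
  wt_ok5 W6_15184175232_chk

theorem W6_15184179264_ok : Fwd.WtOk Inst.T (Inst.MT 5 5) 5 W6_15184179264 :=
  wt_ok5 W6_15184179264_chk

theorem W6_15184437312_ok : Fwd.WtOk Inst.T (Inst.MT 5 5) 5 W6_15184437312 :=
  wt_ok5 W6_15184437312_chk

theorem W6_15184441344_ok : Fwd.WtOk Inst.T (Inst.MT 5 5) 5 W6_15184441344 :=
  wt_ok5 W6_15184441344_chk

theorem W6_15184695360_ok : Fwd.WtOk Inst.T (Inst.MT 5 5) 5 W6_15184695360 :=
  wt_ok5 W6_15184695360_chk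

theorem W6_15184699392_ok : Fwd.WtOk Inst.T (Inst.MT 5 5) 5 W6_15184699392 :=
  wt_ok5 W6_15184699392_chk

theorem W6_15184957440_ok : Fwd.WtOk Inst.T (Inst.MT 5 5) 5 W6_15184957440 :=
  wt_ok5 W6_15184957440_chk

theorem W6_15185215488_ok : Fwd.WtOk Inst.T (Inst.MT 5 5) 5 W6_15185215488 :=
  wt_ok5 W6_15185215488_chk

theorem W6_15200690304_ok : Fwd.WtOk Inst.T (Inst.MT 5 5) 5 W6_15200690304 :=
  wt_ok5 W6_15200690304_chk

theorem W6_15200952384_ok : Fwd.WtOk Inst.T (Inst.MT 5 5) 5 W6_15200952384 :=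
  wt_ok5 W6_15200952384_chk

theorem W6_15200956416_ok : Fwd.WtOk Inst.T (Inst.MT 5 5) 5 W6_15200956416 :=
  wt_ok5 W6_15200956416_chk

theorem W6_15201210432_ok : Fwd.WtOk Inst.T (Inst.MT 5 5) 5 W6_15201210432 :=
  wt_ok5 W6_15201210432_chk

theorem W6_15201214464_ok : Fwd.WtOk Inst.T (Inst.MT 5 5) 5 W6_15201214464 :=
  wt_ok5 W6_15201214464_chk

theorem W6_15201472512_ok : Fwd.WtOk Inst.T (Inst.MT 5 5) 5 W6_15201472512 :=
  wt_ok5 W6_15201472512_chk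

theorem W6_15201730560_ok : Fwd.WtOk Inst.T (Inst.MT 5 5) 5 W6_15201730560 :=
  wt_ok5 W6_15201730560_chk

theorem W6_15217467456_ok : Fwd.WtOk Inst.T (Inst.MT 5 5) 5 W6_15217467456 :=
  wt_ok5 W6_15217467456_chk

theorem W6_15217725504_ok : Fwd.WtOk Inst.T (Inst.MT 5 5) 5 W6_15217725504 :=
  wt_ok5 W6_15217725504_chk

theorem W6_15217729536_ok : Fwd.WtOk Inst.T (Inst.MT 5 5) 5 W6_15217729536 :=
  wt_ok5 W6_15217729536_chk

theorem W6_15217987584_ok : Fwd.WtOk Inst.T (Inst.MT 5 5) 5 W6_15217987584 :=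
  wt_ok5 W6_15217987584_chk

theorem W6_15218245632_ok : Fwd.WtOk Inst.T (Inst.MT 5 5) 5 W6_15218245632 :=
  wt_ok5 W6_15218245632_chk

theorem W6_15234240576_ok : Fwd.WtOk Inst.T (Inst.MT 5 5) 5 W6_15234240576 :=
  wt_ok5 W6_15234240576_chk

theorem W6_15234244608_ok : Fwd.WtOk Inst.T (Inst.MT 5 5) 5 W6_15234244608 :=
  wt_ok5 W6_15234244608_chk

theorem W6_15234502656_ok : Fwd.WtOk Inst.T (Inst.MT 5 5) 5 W6_15234502656 :=
  wt_ok5 W6_15234502656_chk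

theorem W6_15234760704_ok : Fwd.WtOk Inst.T (Inst.MT 5 5) 5 W6_15234760704 :=
  wt_ok5 W6_15234760704_chk

theorem W6_15251017728_ok : Fwd.WtOk Inst.T (Inst.MT 5 5) 5 W6_15251017728 :=
  wt_ok5 W6_15251017728_chk

theorem W6_15251275776_ok : Fwd.WtOk Inst.T (Inst.MT 5 5) 5 W6_15251275776 :=
  wt_ok5 W6_15251275776_chk

theorem W6_15267790848_ok : Fwd.WtOk Inst.T (Inst.MT 5 5) 5 W6_15267790848 :=
  wt_ok5 W6_15267790848_chk

theorem W6_16191078528_ok : Fwd.WtOk Inst.T (Inst.MT 5 5) 5 W6_16191078528 :=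
  wt_ok5 W6_16191078528_chk

theorem W6_16207851648_ok : Fwd.WtOk Inst.T (Inst.MT 5 5) 5 W6_16207851648 :=
  wt_ok5 W6_16207851648_chk

theorem W6_16207855680_ok : Fwd.WtOk Inst.T (Inst.MT 5 5) 5 W6_16207855680 :=
  wt_ok5 W6_16207855680_chk

theorem W6_16208109696_ok : Fwd.WtOk Inst.T (Inst.MT 5 5) 5 W6_16208109696 :=
  wt_ok5 W6_16208109696_chk

theorem W6_16208113728_ok : Fwd.WtOk Inst.T (Inst.MT 5 5) 5 W6_16208113728 :=
  wt_ok5 W6_16208113728_chk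

theorem W6_16208117760_ok : Fwd.WtOk Inst.T (Inst.MT 5 5) 5 W6_16208117760 :=
  wt_ok5 W6_16208117760_chk

theorem W6_16208371776_ok : Fwd.WtOk Inst.T (Inst.MT 5 5) 5 W6_16208371776 :=
  wt_ok5 W6_16208371776_chk

theorem W6_16208375808_ok : Fwd.WtOk Inst.T (Inst.MT 5 5) 5 W6_16208375808 :=
  wt_ok5 W6_16208375808_chk

theorem W6_16224624768_ok : Fwd.WtOk Inst.T (Inst.MT 5 5) 5 W6_16224624768 :=
  wt_ok5 W6_16224624768_chk

theorem W6_16224628800_ok : Fwd.WtOk Inst.T (Inst.MT 5 5) 5 W6_16224628800 :=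
  wt_ok5 W6_16224628800_chk

theorem W6_16224632832_ok : Fwd.WtOk Inst.T (Inst.MT 5 5) 5 W6_16224632832 :=
  wt_ok5 W6_16224632832_chk

theorem W6_16224886848_ok : Fwd.WtOk Inst.T (Inst.MT 5 5) 5 W6_16224886848 :=
  wt_ok5 W6_16224886848_chk

theorem W6_16224890880_ok : Fwd.WtOk Inst.T (Inst.MT 5 5) 5 W6_16224890880 :=
  wt_ok5 W6_16224890880_chk

theorem W6_16225144896_ok : Fwd.WtOk Inst.T (Inst.MT 5 5) 5 W6_16225144896 :=
  wt_ok5 W6_16225144896_chk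

theorem W6_16225148928_ok : Fwd.WtOk Inst.T (Inst.MT 5 5) 5 W6_16225148928 :=
  wt_ok5 W6_16225148928_chk

theorem W6_16225406976_ok : Fwd.WtOk Inst.T (Inst.MT 5 5) 5 W6_16225406976 :=
  wt_ok5 W6_16225406976_chk

theorem W6_16241139840_ok : Fwd.WtOk Inst.T (Inst.MT 5 5) 5 W6_16241139840 :=
  wt_ok5 W6_16241139840_chk

theorem W6_16241143872_ok : Fwd.WtOk Inst.T (Inst.MT 5 5) 5 W6_16241143872 :=
  wt_ok5 W6_16241143872_chk

theorem W6_16241401920_ok : Fwd.WtOk Inst.T (Inst.MT 5 5) 5 W6_16241401920 :=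
  wt_ok5 W6_16241401920_chk

theorem W6_16241405952_ok : Fwd.WtOk Inst.T (Inst.MT 5 5) 5 W6_16241405952 :=
  wt_ok5 W6_16241405952_chk

theorem W6_16241659968_ok : Fwd.WtOk Inst.T (Inst.MT 5 5) 5 W6_16241659968 :=
  wt_ok5 W6_16241659968_chk

theorem W6_16241664000_ok : Fwd.WtOk Inst.T (Inst.MT 5 5) 5 W6_16241664000 :=
  wt_ok5 W6_16241664000_chk

theorem W6_16241922048_ok : Fwd.WtOk Inst.T (Inst.MT 5 5) 5 W6_16241922048 :=
  wt_ok5 W6_16241922048_chk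

theorem W6_16242180096_ok : Fwd.WtOk Inst.T (Inst.MT 5 5) 5 W6_16242180096 :=
  wt_ok5 W6_16242180096_chk

theorem W6_16257654912_ok : Fwd.WtOk Inst.T (Inst.MT 5 5) 5 W6_16257654912 :=
  wt_ok5 W6_16257654912_chk

theorem W6_16257916992_ok : Fwd.WtOk Inst.T (Inst.MT 5 5) 5 W6_16257916992 :=
  wt_ok5 W6_16257916992_chk

theorem W6_16257921024_ok : Fwd.WtOk Inst.T (Inst.MT 5 5) 5 W6_16257921024 :=
  wt_ok5 W6_16257921024_chk

theorem W6_16258175040_ok : Fwd.WtOk Inst.T (Inst.MT 5 5) 5 W6_16258175040 :=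
  wt_ok5 W6_16258175040_chk

theorem W6_16258179072_ok : Fwd.WtOk Inst.T (Inst.MT 5 5) 5 W6_16258179072 :=
  wt_ok5 W6_16258179072_chk

theorem W6_16258437120_ok : Fwd.WtOk Inst.T (Inst.MT 5 5) 5 W6_16258437120 :=
  wt_ok5 W6_16258437120_chk

theorem W6_16258695168_ok : Fwd.WtOk Inst.T (Inst.MT 5 5) 5 W6_16258695168 :=
  wt_ok5 W6_16258695168_chk

theorem W6_16274432064_ok : Fwd.WtOk Inst.T (Inst.MT 5 5) 5 W6_16274432064 :=
  wt_ok5 W6_16274432064_chk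

theorem W6_16274690112_ok : Fwd.WtOk Inst.T (Inst.MT 5 5) 5 W6_16274690112 :=
  wt_ok5 W6_16274690112_chk

theorem W6_16274694144_ok : Fwd.WtOk Inst.T (Inst.MT 5 5) 5 W6_16274694144 :=
  wt_ok5 W6_16274694144_chk

theorem W6_16274952192_ok : Fwd.WtOk Inst.T (Inst.MT 5 5) 5 W6_16274952192 :=
  wt_ok5 W6_16274952192_chk

theorem W6_16275210240_ok : Fwd.WtOk Inst.T (Inst.MT 5 5) 5 W6_16275210240 :=
  wt_ok5 W6_16275210240_chk

theorem W6_16291205184_ok : Fwd.WtOk Inst.T (Inst.MT 5 5) 5 W6_16291205184 :=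
  wt_ok5 W6_16291205184_chk

theorem W6_16291209216_ok : Fwd.WtOk Inst.T (Inst.MT 5 5) 5 W6_16291209216 :=
  wt_ok5 W6_16291209216_chk

theorem W6_16291467264_ok : Fwd.WtOk Inst.T (Inst.MT 5 5) 5 W6_16291467264 :=
  wt_ok5 W6_16291467264_chk

theorem W6_16291725312_ok : Fwd.WtOk Inst.T (Inst.MT 5 5) 5 W6_16291725312 :=
  wt_ok5 W6_16291725312_chk

theorem W6_16307982336_ok : Fwd.WtOk Inst.T (Inst.MT 5 5) 5 W6_16307982336 :=
  wt_ok5 W6_16307982336_chk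

theorem W6_16308240384_ok : Fwd.WtOk Inst.T (Inst.MT 5 5) 5 W6_16308240384 :=
  wt_ok5 W6_16308240384_chk

theorem W6_16324497408_ok : Fwd.WtOk Inst.T (Inst.MT 5 5) 5 W6_16324497408 :=
  wt_ok5 W6_16324497408_chk

theorem W6_16324755456_ok : Fwd.WtOk Inst.T (Inst.MT 5 5) 5 W6_16324755456 :=
  wt_ok5 W6_16324755456_chk

theorem W6_16341270528_ok : Fwd.WtOk Inst.T (Inst.MT 5 5) 5 W6_16341270528 :=
  wt_ok5 W6_16341270528_chk

theorem W6_17248043136_ok : Fwd.WtOk Inst.T (Inst.MT 5 5) 5 W6_17248043136 :=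
  wt_ok5 W6_17248043136_chk

theorem W6_17264820288_ok : Fwd.WtOk Inst.T (Inst.MT 5 5) 5 W6_17264820288 :=
  wt_ok5 W6_17264820288_chk

theorem W6_17265078336_ok : Fwd.WtOk Inst.T (Inst.MT 5 5) 5 W6_17265078336 :=
  wt_ok5 W6_17265078336_chk

theorem W6_17281589376_ok : Fwd.WtOk Inst.T (Inst.MT 5 5) 5 W6_17281589376 :=
  wt_ok5 W6_17281589376_chk

theorem W6_17281593408_ok : Fwd.WtOk Inst.T (Inst.MT 5 5) 5 W6_17281593408 :=
  wt_ok5 W6_17281593408_chk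

theorem W6_17281597440_ok : Fwd.WtOk Inst.T (Inst.MT 5 5) 5 W6_17281597440 :=
  wt_ok5 W6_17281597440_chk

theorem W6_17281851456_ok : Fwd.WtOk Inst.T (Inst.MT 5 5) 5 W6_17281851456 :=
  wt_ok5 W6_17281851456_chk

theorem W6_17281855488_ok : Fwd.WtOk Inst.T (Inst.MT 5 5) 5 W6_17281855488 :=
  wt_ok5 W6_17281855488_chk

theorem W6_17282113536_ok : Fwd.WtOk Inst.T (Inst.MT 5 5) 5 W6_17282113536 :=
  wt_ok5 W6_17282113536_chk

theorem W6_17298104448_ok : Fwd.WtOk Inst.T (Inst.MT 5 5) 5 W6_17298104448 :=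
  wt_ok5 W6_17298104448_chk

theorem W6_17298108480_ok : Fwd.WtOk Inst.T (Inst.MT 5 5) 5 W6_17298108480 :=
  wt_ok5 W6_17298108480_chk

theorem W6_17298366528_ok : Fwd.WtOk Inst.T (Inst.MT 5 5) 5 W6_17298366528 :=
  wt_ok5 W6_17298366528_chk

theorem W6_17298370560_ok : Fwd.WtOk Inst.T (Inst.MT 5 5) 5 W6_17298370560 :=
  wt_ok5 W6_17298370560_chk

theorem W6_17298624576_ok : Fwd.WtOk Inst.T (Inst.MT 5 5) 5 W6_17298624576 :=
  wt_ok5 W6_17298624576_chk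

theorem W6_17298628608_ok : Fwd.WtOk Inst.T (Inst.MT 5 5) 5 W6_17298628608 :=
  wt_ok5 W6_17298628608_chk

theorem W6_17298886656_ok : Fwd.WtOk Inst.T (Inst.MT 5 5) 5 W6_17298886656 :=
  wt_ok5 W6_17298886656_chk

theorem W6_17299144704_ok : Fwd.WtOk Inst.T (Inst.MT 5 5) 5 W6_17299144704 :=
  wt_ok5 W6_17299144704_chk

theorem W6_17314619520_ok : Fwd.WtOk Inst.T (Inst.MT 5 5) 5 W6_17314619520 :=
  wt_ok5 W6_17314619520_chk

theorem W6_17314881600_ok : Fwd.WtOk Inst.T (Inst.MT 5 5) 5 W6_17314881600 :=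
  wt_ok5 W6_17314881600_chk

theorem W6_17314885632_ok : Fwd.WtOk Inst.T (Inst.MT 5 5) 5 W6_17314885632 :=
  wt_ok5 W6_17314885632_chk

theorem W6_17315139648_ok : Fwd.WtOk Inst.T (Inst.MT 5 5) 5 W6_17315139648 :=
  wt_ok5 W6_17315139648_chk

theorem W6_17315143680_ok : Fwd.WtOk Inst.T (Inst.MT 5 5) 5 W6_17315143680 :=
  wt_ok5 W6_17315143680_chk

theorem W6_17315401728_ok : Fwd.WtOk Inst.T (Inst.MT 5 5) 5 W6_17315401728 :=
  wt_ok5 W6_17315401728_chk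

theorem W6_17315659776_ok : Fwd.WtOk Inst.T (Inst.MT 5 5) 5 W6_17315659776 :=
  wt_ok5 W6_17315659776_chk

theorem W6_17331396672_ok : Fwd.WtOk Inst.T (Inst.MT 5 5) 5 W6_17331396672 :=
  wt_ok5 W6_17331396672_chk

theorem W6_17331654720_ok : Fwd.WtOk Inst.T (Inst.MT 5 5) 5 W6_17331654720 :=
  wt_ok5 W6_17331654720_chk

theorem W6_17331658752_ok : Fwd.WtOk Inst.T (Inst.MT 5 5) 5 W6_17331658752 :=
  wt_ok5 W6_17331658752_chk

theorem W6_17331916800_ok : Fwd.WtOk Inst.T (Inst.MT 5 5) 5 W6_17331916800 :=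
  wt_ok5 W6_17331916800_chk

theorem W6_17332174848_ok : Fwd.WtOk Inst.T (Inst.MT 5 5) 5 W6_17332174848 :=
  wt_ok5 W6_17332174848_chk

theorem W6_17348169792_ok : Fwd.WtOk Inst.T (Inst.MT 5 5) 5 W6_17348169792 :=
  wt_ok5 W6_17348169792_chk

theorem W6_17348173824_ok : Fwd.WtOk Inst.T (Inst.MT 5 5) 5 W6_17348173824 :=
  wt_ok5 W6_17348173824_chk

theorem W6_17348431872_ok : Fwd.WtOk Inst.T (Inst.MT 5 5) 5 W6_17348431872 :=
  wt_ok5 W6_17348431872_chk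

theorem W6_17348689920_ok : Fwd.WtOk Inst.T (Inst.MT 5 5) 5 W6_17348689920 :=
  wt_ok5 W6_17348689920_chk

theorem W6_17364684864_ok : Fwd.WtOk Inst.T (Inst.MT 5 5) 5 W6_17364684864 :=
  wt_ok5 W6_17364684864_chk

theorem W6_17364946944_ok : Fwd.WtOk Inst.T (Inst.MT 5 5) 5 W6_17364946944 :=
  wt_ok5 W6_17364946944_chk

theorem W6_17365204992_ok : Fwd.WtOk Inst.T (Inst.MT 5 5) 5 W6_17365204992 :=
  wt_ok5 W6_17365204992_chk

theorem W6_17381462016_ok : Fwd.WtOk Inst.T (Inst.MT 5 5) 5 W6_17381462016 :=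
  wt_ok5 W6_17381462016_chk

theorem W6_17381720064_ok : Fwd.WtOk Inst.T (Inst.MT 5 5) 5 W6_17381720064 :=
  wt_ok5 W6_17381720064_chk

theorem W6_17398235136_ok : Fwd.WtOk Inst.T (Inst.MT 5 5) 5 W6_17398235136 :=
  wt_ok5 W6_17398235136_chk

theorem W6_17414750208_ok : Fwd.WtOk Inst.T (Inst.MT 5 5) 5 W6_17414750208 :=
  wt_ok5 W6_17414750208_chk

theorem W6_18321784896_ok : Fwd.WtOk Inst.T (Inst.MT 5 5) 5 W6_18321784896 :=
  wt_ok5 W6_18321784896_chk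

theorem W6_18338553984_ok : Fwd.WtOk Inst.T (Inst.MT 5 5) 5 W6_18338553984 :=
  wt_ok5 W6_18338553984_chk

theorem W6_18338558016_ok : Fwd.WtOk Inst.T (Inst.MT 5 5) 5 W6_18338558016 :=
  wt_ok5 W6_18338558016_chk

theorem W6_18338562048_ok : Fwd.WtOk Inst.T (Inst.MT 5 5) 5 W6_18338562048 :=
  wt_ok5 W6_18338562048_chk

theorem W6_18338816064_ok : Fwd.WtOk Inst.T (Inst.MT 5 5) 5 W6_18338816064 :=
  wt_ok5 W6_18338816064_chk

theorem W6_18355069056_ok : Fwd.WtOk Inst.T (Inst.MT 5 5) 5 W6_18355069056 :=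
  wt_ok5 W6_18355069056_chk

theorem W6_18355331136_ok : Fwd.WtOk Inst.T (Inst.MT 5 5) 5 W6_18355331136 :=
  wt_ok5 W6_18355331136_chk

theorem W6_18355335168_ok : Fwd.WtOk Inst.T (Inst.MT 5 5) 5 W6_18355335168 :=
  wt_ok5 W6_18355335168_chk

theorem W6_18355589184_ok : Fwd.WtOk Inst.T (Inst.MT 5 5) 5 W6_18355589184 :=
  wt_ok5 W6_18355589184_chk

theorem W6_18355593216_ok : Fwd.WtOk Inst.T (Inst.MT 5 5) 5 W6_18355593216 :=
  wt_ok5 W6_18355593216_chk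

theorem W6_18355851264_ok : Fwd.WtOk Inst.T (Inst.MT 5 5) 5 W6_18355851264 :=
  wt_ok5 W6_18355851264_chk

theorem W6_18371584128_ok : Fwd.WtOk Inst.T (Inst.MT 5 5) 5 W6_18371584128 :=
  wt_ok5 W6_18371584128_chk

theorem W6_18371846208_ok : Fwd.WtOk Inst.T (Inst.MT 5 5) 5 W6_18371846208 :=
  wt_ok5 W6_18371846208_chk

theorem W6_18371850240_ok : Fwd.WtOk Inst.T (Inst.MT 5 5) 5 W6_18371850240 :=
  wt_ok5 W6_18371850240_chk

theorem W6_18372104256_ok : Fwd.WtOk Inst.T (Inst.MT 5 5) 5 W6_18372104256 :=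
  wt_ok5 W6_18372104256_chk

theorem W6_18372108288_ok : Fwd.WtOk Inst.T (Inst.MT 5 5) 5 W6_18372108288 :=
  wt_ok5 W6_18372108288_chk

theorem W6_18372366336_ok : Fwd.WtOk Inst.T (Inst.MT 5 5) 5 W6_18372366336 :=
  wt_ok5 W6_18372366336_chk

theorem W6_18372624384_ok : Fwd.WtOk Inst.T (Inst.MT 5 5) 5 W6_18372624384 :=
  wt_ok5 W6_18372624384_chk

theorem W6_18388361280_ok : Fwd.WtOk Inst.T (Inst.MT 5 5) 5 W6_18388361280 :=
  wt_ok5 W6_18388361280_chk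

theorem W6_18388619328_ok : Fwd.WtOk Inst.T (Inst.MT 5 5) 5 W6_18388619328 :=
  wt_ok5 W6_18388619328_chk

theorem W6_18388623360_ok : Fwd.WtOk Inst.T (Inst.MT 5 5) 5 W6_18388623360 :=
  wt_ok5 W6_18388623360_chk

theorem W6_18388881408_ok : Fwd.WtOk Inst.T (Inst.MT 5 5) 5 W6_18388881408 :=
  wt_ok5 W6_18388881408_chk

theorem W6_18389139456_ok : Fwd.WtOk Inst.T (Inst.MT 5 5) 5 W6_18389139456 :=
  wt_ok5 W6_18389139456_chk

theorem W6_18405134400_ok : Fwd.WtOk Inst.T (Inst.MT 5 5) 5 W6_18405134400 :=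
  wt_ok5 W6_18405134400_chk

theorem W6_18405138432_ok : Fwd.WtOk Inst.T (Inst.MT 5 5) 5 W6_18405138432 :=
  wt_ok5 W6_18405138432_chk

theorem W6_18405396480_ok : Fwd.WtOk Inst.T (Inst.MT 5 5) 5 W6_18405396480 :=
  wt_ok5 W6_18405396480_chk

theorem W6_18405654528_ok : Fwd.WtOk Inst.T (Inst.MT 5 5) 5 W6_18405654528 :=
  wt_ok5 W6_18405654528_chk

theorem W6_18421911552_ok : Fwd.WtOk Inst.T (Inst.MT 5 5) 5 W6_18421911552 :=
  wt_ok5 W6_18421911552_chk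

theorem W6_18422169600_ok : Fwd.WtOk Inst.T (Inst.MT 5 5) 5 W6_18422169600 :=
  wt_ok5 W6_18422169600_chk

theorem W6_18438426624_ok : Fwd.WtOk Inst.T (Inst.MT 5 5) 5 W6_18438426624 :=
  wt_ok5 W6_18438426624_chk

theorem W6_18438684672_ok : Fwd.WtOk Inst.T (Inst.MT 5 5) 5 W6_18438684672 :=
  wt_ok5 W6_18438684672_chk

theorem W6_18455199744_ok : Fwd.WtOk Inst.T (Inst.MT 5 5) 5 W6_18455199744 :=
  wt_ok5 W6_18455199744_chk

theorem W6_18471714816_ok : Fwd.WtOk Inst.T (Inst.MT 5 5) 5 W6_18471714816 :=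
  wt_ok5 W6_18471714816_chk

theorem W6_19395518592_ok : Fwd.WtOk Inst.T (Inst.MT 5 5) 5 W6_19395518592 :=
  wt_ok5 W6_19395518592_chk

theorem W6_19395526656_ok : Fwd.WtOk Inst.T (Inst.MT 5 5) 5 W6_19395526656 :=
  wt_ok5 W6_19395526656_chk

theorem W6_19412295744_ok : Fwd.WtOk Inst.T (Inst.MT 5 5) 5 W6_19412295744 :=
  wt_ok5 W6_19412295744_chk

theorem W6_19412299776_ok : Fwd.WtOk Inst.T (Inst.MT 5 5) 5 W6_19412299776 :=
  wt_ok5 W6_19412299776_chk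

theorem W6_19412553792_ok : Fwd.WtOk Inst.T (Inst.MT 5 5) 5 W6_19412553792 :=
  wt_ok5 W6_19412553792_chk

theorem W6_19412557824_ok : Fwd.WtOk Inst.T (Inst.MT 5 5) 5 W6_19412557824 :=
  wt_ok5 W6_19412557824_chk

theorem W6_19428548736_ok : Fwd.WtOk Inst.T (Inst.MT 5 5) 5 W6_19428548736 :=
  wt_ok5 W6_19428548736_chk

theorem W6_19428810816_ok : Fwd.WtOk Inst.T (Inst.MT 5 5) 5 W6_19428810816 :=
  wt_ok5 W6_19428810816_chk

theorem W6_19428814848_ok : Fwd.WtOk Inst.T (Inst.MT 5 5) 5 W6_19428814848 :=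
  wt_ok5 W6_19428814848_chk

theorem W6_19429068864_ok : Fwd.WtOk Inst.T (Inst.MT 5 5) 5 W6_19429068864 :=
  wt_ok5 W6_19429068864_chk

theorem W6_19429072896_ok : Fwd.WtOk Inst.T (Inst.MT 5 5) 5 W6_19429072896 :=
  wt_ok5 W6_19429072896_chk

theorem W6_19429330944_ok : Fwd.WtOk Inst.T (Inst.MT 5 5) 5 W6_19429330944 :=
  wt_ok5 W6_19429330944_chk

theorem W6_19429588992_ok : Fwd.WtOk Inst.T (Inst.MT 5 5) 5 W6_19429588992 :=
  wt_ok5 W6_19429588992_chk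

theorem W6_19445325888_ok : Fwd.WtOk Inst.T (Inst.MT 5 5) 5 W6_19445325888 :=
  wt_ok5 W6_19445325888_chk

theorem W6_19445583936_ok : Fwd.WtOk Inst.T (Inst.MT 5 5) 5 W6_19445583936 :=
  wt_ok5 W6_19445583936_chk

theorem W6_19445587968_ok : Fwd.WtOk Inst.T (Inst.MT 5 5) 5 W6_19445587968 :=
  wt_ok5 W6_19445587968_chk

theorem W6_19445846016_ok : Fwd.WtOk Inst.T (Inst.MT 5 5) 5 W6_19445846016 :=
  wt_ok5 W6_19445846016_chk

theorem W6_19446104064_ok : Fwd.WtOk Inst.T (Inst.MT 5 5) 5 W6_19446104064 :=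
  wt_ok5 W6_19446104064_chk

theorem W6_19462099008_ok : Fwd.WtOk Inst.T (Inst.MT 5 5) 5 W6_19462099008 :=
  wt_ok5 W6_19462099008_chk

theorem W6_19462103040_ok : Fwd.WtOk Inst.T (Inst.MT 5 5) 5 W6_19462103040 :=
  wt_ok5 W6_19462103040_chk

theorem W6_19462361088_ok : Fwd.WtOk Inst.T (Inst.MT 5 5) 5 W6_19462361088 :=
  wt_ok5 W6_19462361088_chk

theorem W6_19462619136_ok : Fwd.WtOk Inst.T (Inst.MT 5 5) 5 W6_19462619136 :=
  wt_ok5 W6_19462619136_chk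

theorem W6_19478876160_ok : Fwd.WtOk Inst.T (Inst.MT 5 5) 5 W6_19478876160 :=
  wt_ok5 W6_19478876160_chk

theorem W6_19479134208_ok : Fwd.WtOk Inst.T (Inst.MT 5 5) 5 W6_19479134208 :=
  wt_ok5 W6_19479134208_chk

theorem W6_19495391232_ok : Fwd.WtOk Inst.T (Inst.MT 5 5) 5 W6_19495391232 :=
  wt_ok5 W6_19495391232_chk

theorem W6_19495649280_ok : Fwd.WtOk Inst.T (Inst.MT 5 5) 5 W6_19495649280 :=
  wt_ok5 W6_19495649280_chk

theorem W6_19512164352_ok : Fwd.WtOk Inst.T (Inst.MT 5 5) 5 W6_19512164352 :=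
  wt_ok5 W6_19512164352_chk

theorem W6_19528679424_ok : Fwd.WtOk Inst.T (Inst.MT 5 5) 5 W6_19528679424 :=
  wt_ok5 W6_19528679424_chk

theorem W6_20469260352_ok : Fwd.WtOk Inst.T (Inst.MT 5 5) 5 W6_20469260352 :=
  wt_ok5 W6_20469260352_chk

theorem W6_20469264384_ok : Fwd.WtOk Inst.T (Inst.MT 5 5) 5 W6_20469264384 :=
  wt_ok5 W6_20469264384_chk

theorem W6_20485513344_ok : Fwd.WtOk Inst.T (Inst.MT 5 5) 5 W6_20485513344 :=
  wt_ok5 W6_20485513344_chk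

theorem W6_20485775424_ok : Fwd.WtOk Inst.T (Inst.MT 5 5) 5 W6_20485775424 :=
  wt_ok5 W6_20485775424_chk

theorem W6_20486033472_ok : Fwd.WtOk Inst.T (Inst.MT 5 5) 5 W6_20486033472 :=
  wt_ok5 W6_20486033472_chk

theorem W6_20486037504_ok : Fwd.WtOk Inst.T (Inst.MT 5 5) 5 W6_20486037504 :=
  wt_ok5 W6_20486037504_chk

theorem W6_20486295552_ok : Fwd.WtOk Inst.T (Inst.MT 5 5) 5 W6_20486295552 :=
  wt_ok5 W6_20486295552_chk

theorem W6_20502290496_ok : Fwd.WtOk Inst.T (Inst.MT 5 5) 5 W6_20502290496 :=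
  wt_ok5 W6_20502290496_chk

theorem W6_20502552576_ok : Fwd.WtOk Inst.T (Inst.MT 5 5) 5 W6_20502552576 :=
  wt_ok5 W6_20502552576_chk

theorem W6_20502810624_ok : Fwd.WtOk Inst.T (Inst.MT 5 5) 5 W6_20502810624 :=
  wt_ok5 W6_20502810624_chk

theorem W6_20503068672_ok : Fwd.WtOk Inst.T (Inst.MT 5 5) 5 W6_20503068672 :=
  wt_ok5 W6_20503068672_chk

theorem W6_20519063616_ok : Fwd.WtOk Inst.T (Inst.MT 5 5) 5 W6_20519063616 :=
  wt_ok5 W6_20519063616_chk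

theorem W6_20519067648_ok : Fwd.WtOk Inst.T (Inst.MT 5 5) 5 W6_20519067648 :=
  wt_ok5 W6_20519067648_chk

theorem W6_20519325696_ok : Fwd.WtOk Inst.T (Inst.MT 5 5) 5 W6_20519325696 :=
  wt_ok5 W6_20519325696_chk

theorem W6_20519583744_ok : Fwd.WtOk Inst.T (Inst.MT 5 5) 5 W6_20519583744 :=
  wt_ok5 W6_20519583744_chk

theorem W6_20535840768_ok : Fwd.WtOk Inst.T (Inst.MT 5 5) 5 W6_20535840768 :=
  wt_ok5 W6_20535840768_chk

theorem W6_20536098816_ok : Fwd.WtOk Inst.T (Inst.MT 5 5) 5 W6_20536098816 :=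
  wt_ok5 W6_20536098816_chk

theorem W6_20552355840_ok : Fwd.WtOk Inst.T (Inst.MT 5 5) 5 W6_20552355840 :=
  wt_ok5 W6_20552355840_chk

theorem W6_20552613888_ok : Fwd.WtOk Inst.T (Inst.MT 5 5) 5 W6_20552613888 :=
  wt_ok5 W6_20552613888_chk

theorem W6_20569128960_ok : Fwd.WtOk Inst.T (Inst.MT 5 5) 5 W6_20569128960 :=
  wt_ok5 W6_20569128960_chk

theorem W6_20585644032_ok : Fwd.WtOk Inst.T (Inst.MT 5 5) 5 W6_20585644032 :=
  wt_ok5 W6_20585644032_chk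

theorem W6_21542477952_ok : Fwd.WtOk Inst.T (Inst.MT 5 5) 5 W6_21542477952 :=
  wt_ok5 W6_21542477952_chk

theorem W6_21543002112_ok : Fwd.WtOk Inst.T (Inst.MT 5 5) 5 W6_21543002112 :=
  wt_ok5 W6_21543002112_chk

theorem W6_21559255104_ok : Fwd.WtOk Inst.T (Inst.MT 5 5) 5 W6_21559255104 :=
  wt_ok5 W6_21559255104_chk

theorem W6_21559513152_ok : Fwd.WtOk Inst.T (Inst.MT 5 5) 5 W6_21559513152 :=
  wt_ok5 W6_21559513152_chk

theorem W6_21559517184_ok : Fwd.WtOk Inst.T (Inst.MT 5 5) 5 W6_21559517184 :=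
  wt_ok5 W6_21559517184_chk

theorem W6_21559775232_ok : Fwd.WtOk Inst.T (Inst.MT 5 5) 5 W6_21559775232 :=
  wt_ok5 W6_21559775232_chk

theorem W6_21576032256_ok : Fwd.WtOk Inst.T (Inst.MT 5 5) 5 W6_21576032256 :=
  wt_ok5 W6_21576032256_chk

theorem W6_21576290304_ok : Fwd.WtOk Inst.T (Inst.MT 5 5) 5 W6_21576290304 :=
  wt_ok5 W6_21576290304_chk

theorem W6_21576548352_ok : Fwd.WtOk Inst.T (Inst.MT 5 5) 5 W6_21576548352 :=
  wt_ok5 W6_21576548352_chk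

theorem W6_21592805376_ok : Fwd.WtOk Inst.T (Inst.MT 5 5) 5 W6_21592805376 :=
  wt_ok5 W6_21592805376_chk

theorem W6_21593063424_ok : Fwd.WtOk Inst.T (Inst.MT 5 5) 5 W6_21593063424 :=
  wt_ok5 W6_21593063424_chk

theorem W6_21609320448_ok : Fwd.WtOk Inst.T (Inst.MT 5 5) 5 W6_21609320448 :=
  wt_ok5 W6_21609320448_chk

theorem W6_21609578496_ok : Fwd.WtOk Inst.T (Inst.MT 5 5) 5 W6_21609578496 :=
  wt_ok5 W6_21609578496_chk

theorem W6_21626093568_ok : Fwd.WtOk Inst.T (Inst.MT 5 5) 5 W6_21626093568 :=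
  wt_ok5 W6_21626093568_chk

theorem W6_21642608640_ok : Fwd.WtOk Inst.T (Inst.MT 5 5) 5 W6_21642608640 :=
  wt_ok5 W6_21642608640_chk

theorem W6_22616219712_ok : Fwd.WtOk Inst.T (Inst.MT 5 5) 5 W6_22616219712 :=
  wt_ok5 W6_22616219712_chk

theorem W6_22616481792_ok : Fwd.WtOk Inst.T (Inst.MT 5 5) 5 W6_22616481792 :=
  wt_ok5 W6_22616481792_chk

theorem W6_22616739840_ok : Fwd.WtOk Inst.T (Inst.MT 5 5) 5 W6_22616739840 :=
  wt_ok5 W6_22616739840_chk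

theorem W6_22632996864_ok : Fwd.WtOk Inst.T (Inst.MT 5 5) 5 W6_22632996864 :=
  wt_ok5 W6_22632996864_chk

theorem W6_22633254912_ok : Fwd.WtOk Inst.T (Inst.MT 5 5) 5 W6_22633254912 :=
  wt_ok5 W6_22633254912_chk

theorem W6_22633512960_ok : Fwd.WtOk Inst.T (Inst.MT 5 5) 5 W6_22633512960 :=
  wt_ok5 W6_22633512960_chk

theorem W6_22649769984_ok : Fwd.WtOk Inst.T (Inst.MT 5 5) 5 W6_22649769984 :=
  wt_ok5 W6_22649769984_chk

theorem W6_22650028032_ok : Fwd.WtOk Inst.T (Inst.MT 5 5) 5 W6_22650028032 :=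
  wt_ok5 W6_22650028032_chk

theorem W6_22666285056_ok : Fwd.WtOk Inst.T (Inst.MT 5 5) 5 W6_22666285056 :=
  wt_ok5 W6_22666285056_chk

theorem W6_22666543104_ok : Fwd.WtOk Inst.T (Inst.MT 5 5) 5 W6_22666543104 :=
  wt_ok5 W6_22666543104_chk

theorem W6_22683058176_ok : Fwd.WtOk Inst.T (Inst.MT 5 5) 5 W6_22683058176 :=
  wt_ok5 W6_22683058176_chk

theorem W6_22699573248_ok : Fwd.WtOk Inst.T (Inst.MT 5 5) 5 W6_22699573248 :=
  wt_ok5 W6_22699573248_chk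

theorem W6_23656407168_ok : Fwd.WtOk Inst.T (Inst.MT 5 5) 5 W6_23656407168 :=
  wt_ok5 W6_23656407168_chk

theorem W6_23689961472_ok : Fwd.WtOk Inst.T (Inst.MT 5 5) 5 W6_23689961472 :=
  wt_ok5 W6_23689961472_chk

theorem W6_23690219520_ok : Fwd.WtOk Inst.T (Inst.MT 5 5) 5 W6_23690219520 :=
  wt_ok5 W6_23690219520_chk

theorem W6_23690477568_ok : Fwd.WtOk Inst.T (Inst.MT 5 5) 5 W6_23690477568 :=
  wt_ok5 W6_23690477568_chk

theorem W6_23706734592_ok : Fwd.WtOk Inst.T (Inst.MT 5 5) 5 W6_23706734592 :=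
  wt_ok5 W6_23706734592_chk

theorem W6_23706992640_ok : Fwd.WtOk Inst.T (Inst.MT 5 5) 5 W6_23706992640 :=
  wt_ok5 W6_23706992640_chk

theorem W6_23723507712_ok : Fwd.WtOk Inst.T (Inst.MT 5 5) 5 W6_23723507712 :=
  wt_ok5 W6_23723507712_chk

theorem W6_23740022784_ok : Fwd.WtOk Inst.T (Inst.MT 5 5) 5 W6_23740022784 :=
  wt_ok5 W6_23740022784_chk

theorem W6_23756537856_ok : Fwd.WtOk Inst.T (Inst.MT 5 5) 5 W6_23756537856 :=
  wt_ok5 W6_23756537856_chk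

theorem W6_24746926080_ok : Fwd.WtOk Inst.T (Inst.MT 5 5) 5 W6_24746926080 :=
  wt_ok5 W6_24746926080_chk

theorem W6_24763699200_ok : Fwd.WtOk Inst.T (Inst.MT 5 5) 5 W6_24763699200 :=
  wt_ok5 W6_24763699200_chk

theorem W6_24763957248_ok : Fwd.WtOk Inst.T (Inst.MT 5 5) 5 W6_24763957248 :=
  wt_ok5 W6_24763957248_chk

theorem W6_24780472320_ok : Fwd.WtOk Inst.T (Inst.MT 5 5) 5 W6_24780472320 :=
  wt_ok5 W6_24780472320_chk

theorem W6_24796987392_ok : Fwd.WtOk Inst.T (Inst.MT 5 5) 5 W6_24796987392 :=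
  wt_ok5 W6_24796987392_chk

theorem W6_24813502464_ok : Fwd.WtOk Inst.T (Inst.MT 5 5) 5 W6_24813502464 :=
  wt_ok5 W6_24813502464_chk

theorem W6_25803890688_ok : Fwd.WtOk Inst.T (Inst.MT 5 5) 5 W6_25803890688 :=
  wt_ok5 W6_25803890688_chk

theorem W6_25837436928_ok : Fwd.WtOk Inst.T (Inst.MT 5 5) 5 W6_25837436928 :=
  wt_ok5 W6_25837436928_chk

theorem W6_25853952000_ok : Fwd.WtOk Inst.T (Inst.MT 5 5) 5 W6_25853952000 :=
  wt_ok5 W6_25853952000_chk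

theorem W6_25870467072_ok : Fwd.WtOk Inst.T (Inst.MT 5 5) 5 W6_25870467072 :=
  wt_ok5 W6_25870467072_chk

theorem W6_26894401536_ok : Fwd.WtOk Inst.T (Inst.MT 5 5) 5 W6_26894401536 :=
  wt_ok5 W6_26894401536_chk

theorem W6_26910916608_ok : Fwd.WtOk Inst.T (Inst.MT 5 5) 5 W6_26910916608 :=
  wt_ok5 W6_26910916608_chk

theorem W6_26927431680_ok : Fwd.WtOk Inst.T (Inst.MT 5 5) 5 W6_26927431680 :=
  wt_ok5 W6_26927431680_chk

theorem W6_27951366144_ok : Fwd.WtOk Inst.T (Inst.MT 5 5) 5 W6_27951366144 :=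
  wt_ok5 W6_27951366144_chk

theorem W6_27984396288_ok : Fwd.WtOk Inst.T (Inst.MT 5 5) 5 W6_27984396288 :=
  wt_ok5 W6_27984396288_chk

theorem W6_29041360896_ok : Fwd.WtOk Inst.T (Inst.MT 5 5) 5 W6_29041360896 :=
  wt_ok5 W6_29041360896_chk

theorem W6_30098325504_ok : Fwd.WtOk Inst.T (Inst.MT 5 5) 5 W6_30098325504 :=
  wt_ok5 W6_30098325504_chk

theorem W6_32212254720_ok : Fwd.WtOk Inst.T (Inst.MT 5 5) 5 W6_32212254720 :=
  wt_ok5 W6_32212254720_chk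

end Crest.Agent.R187.SN.Top
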