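import Crest.Agent.R187.SN.RelInst
import Crest.Agent.R187.SN.TD.F6_0
import Crest.Agent.R187.SN.TD.F6_1
import Crest.Agent.R187.SN.TD.F6_2
import Crest.Agent.R187.SN.TD.F6_3
import Crest.Agent.R187.SN.TD.F6_4
import Crest.Agent.R187.SN.TD.F6_5
import Crest.Agent.R187.SN.TD.F6_6
import Crest.Agent.R187.SN.TD.F6_7
import Crest.Agent.R187.SN.TD.F6_8
import Crest.Agent.R187.SN.TD.F6_9
import Crest.Agent.R187.SN.TD.FO5
import Crest.Agent.R187.SN.TD.WO6

/-!
# Row 187, PLAN S, certificate E3: the tables of level `(6, 6)` consist of elements of `Spec.D 6 b`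
-/

set_option autoImplicit false
set_option maxRecDepth 100000
set_option Elab.async false

namespace Crest.Agent.R187.SN.Top

open Crest.Agent.R187.SN.Inst Crest.Agent.R187.SN.Fwd

theorem V6_38654705664_ok : Fwd.Has6 Inst.T 6 V6_38654705664 :=
  fwd_sound' relAll_5_5 ks6_ok F6_38654705664
    ⟨V5_32212254720_ok, trivial⟩ ⟨W6_32212254720_ok, trivial⟩ F6_38654705664_chk

theorem V6_36540776448_ok : Fwd.Has6 Inst.T 6 V6_36540776448 :=
  fwd_sound' relAll_5_5 ks6_ok F6_36540776448
    ⟨V5_32212254720_ok, trivial⟩ ⟨W6_32212254720_ok, W6_30098325504_ok, trivial⟩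
    F6_36540776448_chk

theorem V6_34393817088_ok : Fwd.Has6 Inst.T 6 V6_34393817088 :=
  fwd_sound' relAll_5_5 ks6_ok F6_34393817088
    ⟨V5_27951366144_ok, trivial⟩ ⟨W6_30098325504_ok, W6_27951366144_ok, trivial⟩
    F6_34393817088_chk

theorem V6_33369882624_ok : Fwd.Has6 Inst.T 6 V6_33369882624 :=
  fwd_sound' relAll_5_5 ks6_ok F6_33369882624
    ⟨V5_26927431680_ok, trivial⟩ ⟨W6_32212254720_ok, W6_30098325504_ok, W6_29041360896_ok,
    W6_27984396288_ok, W6_26927431680_ok, trivial⟩ F6_33369882624_chk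

theorem V6_33336852480_ok : Fwd.Has6 Inst.T 6 V6_33336852480 :=
  fwd_sound' relAll_5_5 ks6_ok F6_33336852480
    ⟨V5_27951366144_ok, trivial⟩ ⟨W6_30098325504_ok, W6_29041360896_ok, W6_27951366144_ok,
    W6_26894401536_ok, trivial⟩ F6_33336852480_chk

theorem V6_32246341632_ok : Fwd.Has6 Inst.T 6 V6_32246341632 :=
  fwd_sound' relAll_5_5 ks6_ok F6_32246341632
    ⟨V5_25803890688_ok, trivial⟩ ⟨W6_27951366144_ok, W6_25803890688_ok, trivial⟩
    F6_32246341632_chk

theorem V6_31255953408_ok : Fwd.Has6 Inst.T 6 V6_31255953408 :=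
  fwd_sound' relAll_5_5 ks6_ok F6_31255953408
    ⟨V5_25870467072_ok, trivial⟩ ⟨W6_30098325504_ok, W6_29041360896_ok, W6_27984396288_ok,
    W6_26927431680_ok, W6_25870467072_ok, W6_24813502464_ok, trivial⟩ F6_31255953408_chk

theorem V6_31206408192_ok : Fwd.Has6 Inst.T 6 V6_31206408192 :=
  fwd_sound' relAll_5_5 ks6_ok F6_31206408192
    ⟨V5_24763957248_ok, trivial⟩ ⟨W6_29041360896_ok, W6_27984396288_ok, W6_26910916608_ok,
    W6_26894401536_ok, W6_25837436928_ok, W6_24763957248_ok, trivial⟩ F6_31206408192_chk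

theorem V6_31189377024_ok : Fwd.Has6 Inst.T 6 V6_31189377024 :=
  fwd_sound' relAll_5_5 ks6_ok F6_31189377024
    ⟨V5_25803890688_ok, trivial⟩ ⟨W6_27951366144_ok, W6_26894401536_ok, W6_25803890688_ok,
    W6_24746926080_ok, trivial⟩ F6_31189377024_chk

theorem V6_30198988800_ok : Fwd.Has6 Inst.T 6 V6_30198988800 :=
  fwd_sound' relAll_5_5 ks6_ok F6_30198988800
    ⟨V5_23756537856_ok, V5_25870467072_ok, trivial⟩ ⟨W6_30098325504_ok, W6_29041360896_ok,
    W6_27984396288_ok, W6_26927431680_ok, W6_25870467072_ok, W6_24813502464_ok, W6_23756537856_ok,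
    trivial⟩ F6_30198988800_chk

theorem V6_30182473728_ok : Fwd.Has6 Inst.T 6 V6_30182473728 :=
  fwd_sound' relAll_5_5 ks6_ok F6_30182473728
    ⟨V5_23740022784_ok, V5_26910916608_ok, trivial⟩ ⟨W6_30098325504_ok, W6_29041360896_ok,
    W6_27984396288_ok, W6_26927431680_ok, W6_26910916608_ok, W6_25870467072_ok, W6_25853952000_ok,
    W6_24813502464_ok, W6_24796987392_ok, W6_23740022784_ok, trivial⟩ F6_30182473728_chk

theorem V6_30165958656_ok : Fwd.Has6 Inst.T 6 V6_30165958656 :=
  fwd_sound' relAll_5_5 ks6_ok F6_30165958656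
    ⟨V5_25870467072_ok, V5_23723507712_ok, trivial⟩ ⟨W6_30098325504_ok, W6_29041360896_ok,
    W6_27984396288_ok, W6_27951366144_ok, W6_26927431680_ok, W6_26910916608_ok, W6_26894401536_ok,
    W6_25870467072_ok, W6_25853952000_ok, W6_25837436928_ok, W6_24796987392_ok, W6_24780472320_ok,
    W6_23723507712_ok, trivial⟩ F6_30165958656_chk

theorem V6_30149443584_ok : Fwd.Has6 Inst.T 6 V6_30149443584 :=
  fwd_sound' relAll_5_5 ks6_ok F6_30149443584
    ⟨V5_24763957248_ok, V5_26927431680_ok, trivial⟩ ⟨W6_29041360896_ok, W6_27984396288_ok,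
    W6_26927431680_ok, W6_26910916608_ok, W6_26894401536_ok, W6_25853952000_ok, W6_25837436928_ok,
    W6_24780472320_ok, W6_24763957248_ok, W6_23706992640_ok, trivial⟩ F6_30149443584_chk

theorem V6_30149185536_ok : Fwd.Has6 Inst.T 6 V6_30149185536 :=
  fwd_sound' relAll_5_5 ks6_ok F6_30149185536
    ⟨V5_23706734592_ok, trivial⟩ ⟨W6_27951366144_ok, W6_26910916608_ok, W6_26894401536_ok,
    W6_25853952000_ok, W6_25837436928_ok, W6_24780472320_ok, W6_24763699200_ok, W6_23706734592_ok,
    trivial⟩ F6_30149185536_chk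

theorem V6_30132928512_ok : Fwd.Has6 Inst.T 6 V6_30132928512 :=
  fwd_sound' relAll_5_5 ks6_ok F6_30132928512
    ⟨V5_23690477568_ok, V5_24763957248_ok, trivial⟩ ⟨W6_27984396288_ok, W6_26910916608_ok,
    W6_25837436928_ok, W6_24763957248_ok, W6_23690477568_ok, trivial⟩ F6_30132928512_chk

theorem V6_30132670464_ok : Fwd.Has6 Inst.T 6 V6_30132670464 :=
  fwd_sound' relAll_5_5 ks6_ok F6_30132670464
    ⟨V5_24763699200_ok, trivial⟩ ⟨W6_26910916608_ok, W6_26894401536_ok, W6_25837436928_ok,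
    W6_24763957248_ok, W6_24763699200_ok, W6_23690219520_ok, trivial⟩ F6_30132670464_chk

theorem V6_30098858112_ok : Fwd.Has6 Inst.T 6 V6_30098858112 :=
  fwd_sound' relAll_5_5 ks6_ok F6_30098858112
    ⟨V5_23656407168_ok, trivial⟩ ⟨W6_25803890688_ok, W6_23656407168_ok, trivial⟩
    F6_30098858112_chk

theorem V6_29125509120_ok : Fwd.Has6 Inst.T 6 V6_29125509120 :=
  fwd_sound' relAll_5_5 ks6_ok F6_29125509120
    ⟨V5_23756537856_ok, V5_23740022784_ok, trivial⟩ ⟨W6_29041360896_ok, W6_27984396288_ok,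
    W6_26927431680_ok, W6_26910916608_ok, W6_25870467072_ok, W6_25853952000_ok, W6_24813502464_ok,
    W6_24796987392_ok, W6_23756537856_ok, W6_23740022784_ok, W6_22683058176_ok, trivial⟩
    F6_29125509120_chk

theorem V6_29108736000_ok : Fwd.Has6 Inst.T 6 V6_29108736000 :=
  fwd_sound' relAll_5_5 ks6_ok F6_29108736000
    ⟨V5_22666285056_ok, trivial⟩ ⟨W6_26910916608_ok, W6_25853952000_ok, W6_24796987392_ok,
    W6_23740022784_ok, W6_22666285056_ok, trivial⟩ F6_29108736000_chk

theorem V6_29059190784_ok : Fwd.Has6 Inst.T 6 V6_29059190784 :=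
  fwd_sound' relAll_5_5 ks6_ok F6_29059190784
    ⟨V5_23690477568_ok, trivial⟩ ⟨W6_26910916608_ok, W6_25837436928_ok, W6_24763957248_ok,
    W6_24763699200_ok, W6_23690477568_ok, W6_23690219520_ok, W6_22616739840_ok, trivial⟩
    F6_29059190784_chk

theorem V6_29058932736_ok : Fwd.Has6 Inst.T 6 V6_29058932736 :=
  fwd_sound' relAll_5_5 ks6_ok F6_29058932736
    ⟨V5_23689961472_ok, trivial⟩ ⟨W6_26894401536_ok, W6_25837436928_ok, W6_24763957248_ok,
    W6_24763699200_ok, W6_24746926080_ok, W6_23690219520_ok, W6_23689961472_ok, W6_22616481792_ok,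
    trivial⟩ F6_29058932736_chk

theorem V6_29058670656_ok : Fwd.Has6 Inst.T 6 V6_29058670656 :=
  fwd_sound' relAll_5_5 ks6_ok F6_29058670656
    ⟨V5_25803890688_ok, trivial⟩ ⟨W6_25803890688_ok, W6_24763699200_ok, W6_24746926080_ok,
    W6_23689961472_ok, W6_22616219712_ok, trivial⟩ F6_29058670656_chk

theorem V6_29041893504_ok : Fwd.Has6 Inst.T 6 V6_29041893504 :=
  fwd_sound' relAll_5_5 ks6_ok F6_29041893504
    ⟨V5_23656407168_ok, trivial⟩ ⟨W6_25803890688_ok, W6_24746926080_ok, W6_23656407168_ok,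
    trivial⟩ F6_29041893504_chk

theorem V6_28068544512_ok : Fwd.Has6 Inst.T 6 V6_28068544512 :=
  fwd_sound' relAll_5_5 ks6_ok F6_28068544512
    ⟨V5_22699573248_ok, V5_23756537856_ok, trivial⟩ ⟨W6_27984396288_ok, W6_26927431680_ok,
    W6_26910916608_ok, W6_25870467072_ok, W6_25853952000_ok, W6_24813502464_ok, W6_24796987392_ok,
    W6_23756537856_ok, W6_23740022784_ok, W6_22699573248_ok, W6_22683058176_ok, W6_21626093568_ok,
    trivial⟩ F6_28068544512_chk

theorem V6_28052029440_ok : Fwd.Has6 Inst.T 6 V6_28052029440 :=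
  fwd_sound' relAll_5_5 ks6_ok F6_28052029440
    ⟨V5_21609578496_ok, V5_23756537856_ok, V5_27951366144_ok, trivial⟩ ⟨W6_27984396288_ok,
    W6_27951366144_ok, W6_26927431680_ok, W6_26910916608_ok, W6_26894401536_ok, W6_25870467072_ok,
    W6_25853952000_ok, W6_25837436928_ok, W6_24813502464_ok, W6_24796987392_ok, W6_24780472320_ok,
    W6_23756537856_ok, W6_23740022784_ok, W6_23723507712_ok, W6_22683058176_ok, W6_22666543104_ok,
    W6_21609578496_ok, trivial⟩ F6_28052029440_chk

theorem V6_28051771392_ok : Fwd.Has6 Inst.T 6 V6_28051771392 :=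
  fwd_sound' relAll_5_5 ks6_ok F6_28051771392
    ⟨V5_21609320448_ok, trivial⟩ ⟨W6_26910916608_ok, W6_25853952000_ok, W6_24796987392_ok,
    W6_23740022784_ok, W6_22683058176_ok, W6_22666285056_ok, W6_21609320448_ok, trivial⟩
    F6_28051771392_chk

theorem V6_28035256320_ok : Fwd.Has6 Inst.T 6 V6_28035256320 :=
  fwd_sound' relAll_5_5 ks6_ok F6_28035256320
    ⟨V5_21592805376_ok, V5_22649769984_ok, trivial⟩ ⟨W6_27951366144_ok, W6_26910916608_ok,
    W6_26894401536_ok, W6_25853952000_ok, W6_25837436928_ok, W6_24796987392_ok, W6_24780472320_ok,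
    W6_24763699200_ok, W6_23740022784_ok, W6_23723507712_ok, W6_23706734592_ok, W6_22666543104_ok,
    W6_22666285056_ok, W6_22649769984_ok, W6_21592805376_ok, trivial⟩ F6_28035256320_chk

theorem V6_28018483200_ok : Fwd.Has6 Inst.T 6 V6_28018483200 :=
  fwd_sound' relAll_5_5 ks6_ok F6_28018483200
    ⟨V5_21576032256_ok, V5_22632996864_ok, V5_25803890688_ok, trivial⟩ ⟨W6_27951366144_ok,
    W6_26894401536_ok, W6_25837436928_ok, W6_25803890688_ok, W6_24780472320_ok, W6_24763699200_ok,
    W6_24746926080_ok, W6_23723507712_ok, W6_23706734592_ok, W6_23689961472_ok, W6_22649769984_ok,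
    W6_22632996864_ok, W6_21576032256_ok, trivial⟩ F6_28018483200_chk

theorem V6_28001964096_ok : Fwd.Has6 Inst.T 6 V6_28001964096 :=
  fwd_sound' relAll_5_5 ks6_ok F6_28001964096
    ⟨V5_21559513152_ok, trivial⟩ ⟨W6_24763699200_ok, W6_23706734592_ok, W6_23690219520_ok,
    W6_22633254912_ok, W6_21559513152_ok, trivial⟩ F6_28001964096_chk

theorem V6_27985190976_ok : Fwd.Has6 Inst.T 6 V6_27985190976 :=
  fwd_sound' relAll_5_5 ks6_ok F6_27985190976
    ⟨V5_22616219712_ok, trivial⟩ ⟨W6_24763699200_ok, W6_24746926080_ok, W6_23690219520_ok,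
    W6_23689961472_ok, W6_22616481792_ok, W6_22616219712_ok, trivial⟩ F6_27985190976_chk

theorem V6_27028094976_ok : Fwd.Has6 Inst.T 6 V6_27028094976 :=
  fwd_sound' relAll_5_5 ks6_ok F6_27028094976
    ⟨V5_21642608640_ok, trivial⟩ ⟨W6_26927431680_ok, W6_25870467072_ok, W6_24813502464_ok,
    W6_23756537856_ok, W6_22699573248_ok, W6_21642608640_ok, W6_20585644032_ok, trivial⟩
    F6_27028094976_chk

theorem V6_27011579904_ok : Fwd.Has6 Inst.T 6 V6_27011579904 :=
  fwd_sound' relAll_5_5 ks6_ok F6_27011579904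
    ⟨V5_21642608640_ok, V5_20569128960_ok, V5_26910916608_ok, trivial⟩ ⟨W6_26927431680_ok,
    W6_26910916608_ok, W6_25870467072_ok, W6_25853952000_ok, W6_24813502464_ok, W6_24796987392_ok,
    W6_23756537856_ok, W6_23740022784_ok, W6_22699573248_ok, W6_22683058176_ok, W6_21642608640_ok,
    W6_21626093568_ok, W6_20569128960_ok, trivial⟩ F6_27011579904_chk

theorem V6_26994806784_ok : Fwd.Has6 Inst.T 6 V6_26994806784 :=
  fwd_sound' relAll_5_5 ks6_ok F6_26994806784
    ⟨V5_20552355840_ok, V5_21609320448_ok, trivial⟩ ⟨W6_26910916608_ok, W6_25853952000_ok,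
    W6_24796987392_ok, W6_23740022784_ok, W6_22683058176_ok, W6_22666285056_ok, W6_21626093568_ok,
    W6_21609320448_ok, W6_20552355840_ok, trivial⟩ F6_26994806784_chk

theorem V6_26961518592_ok : Fwd.Has6 Inst.T 6 V6_26961518592 :=
  fwd_sound' relAll_5_5 ks6_ok F6_26961518592
    ⟨V5_21576032256_ok, V5_20519067648_ok, V5_25803890688_ok, trivial⟩ ⟨W6_26894401536_ok,
    W6_25837436928_ok, W6_25803890688_ok, W6_24780472320_ok, W6_24763699200_ok, W6_24746926080_ok,
    W6_23723507712_ok, W6_23706734592_ok, W6_23689961472_ok, W6_22666543104_ok, W6_22649769984_ok,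
    W6_22632996864_ok, W6_21592805376_ok, W6_21576032256_ok, W6_20519067648_ok, trivial⟩
    F6_26961518592_chk

theorem V6_26961514560_ok : Fwd.Has6 Inst.T 6 V6_26961514560 :=
  fwd_sound' relAll_5_5 ks6_ok F6_26961514560
    ⟨V5_20519063616_ok, trivial⟩ ⟨W6_24763699200_ok, W6_23706734592_ok, W6_22666285056_ok,
    W6_22649769984_ok, W6_21592805376_ok, W6_20519063616_ok, trivial⟩ F6_26961514560_chk

theorem V6_26944999488_ok : Fwd.Has6 Inst.T 6 V6_26944999488 :=
  fwd_sound' relAll_5_5 ks6_ok F6_26944999488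
    ⟨V5_21559513152_ok, trivial⟩ ⟨W6_24763699200_ok, W6_23706734592_ok, W6_23690219520_ok,
    W6_22649769984_ok, W6_22633254912_ok, W6_21576290304_ok, W6_21559513152_ok, trivial⟩
    F6_26944999488_chk

theorem V6_26944741440_ok : Fwd.Has6 Inst.T 6 V6_26944741440 :=
  fwd_sound' relAll_5_5 ks6_ok F6_26944741440
    ⟨V5_21576032256_ok, trivial⟩ ⟨W6_25803890688_ok, W6_24763699200_ok, W6_24746926080_ok,
    W6_23706734592_ok, W6_23689961472_ok, W6_22649769984_ok, W6_22632996864_ok, W6_22616219712_ok,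
    W6_21576032256_ok, W6_21559255104_ok, W6_20502290496_ok, trivial⟩ F6_26944741440_chk

theorem V6_26928746496_ok : Fwd.Has6 Inst.T 6 V6_26928746496 :=
  fwd_sound' relAll_5_5 ks6_ok F6_26928746496
    ⟨V5_20486295552_ok, trivial⟩ ⟨W6_25853952000_ok, W6_24780472320_ok, W6_23706992640_ok,
    W6_23706734592_ok, W6_22633512960_ok, W6_22633254912_ok, W6_21559775232_ok, W6_20486295552_ok,
    trivial⟩ F6_26928746496_chk

theorem V6_26928488448_ok : Fwd.Has6 Inst.T 6 V6_26928488448 :=
  fwd_sound' relAll_5_5 ks6_ok F6_26928488448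
    ⟨V5_20486037504_ok, V5_22632996864_ok, V5_21543002112_ok, trivial⟩ ⟨W6_25837436928_ok,
    W6_24780472320_ok, W6_24763957248_ok, W6_24763699200_ok, W6_23706992640_ok, W6_23706734592_ok,
    W6_23690477568_ok, W6_23690219520_ok, W6_23689961472_ok, W6_22633512960_ok, W6_22633254912_ok,
    W6_22632996864_ok, W6_22616739840_ok, W6_22616481792_ok, W6_21559775232_ok, W6_21559517184_ok,
    W6_21543002112_ok, W6_20486037504_ok, trivial⟩ F6_26928488448_chk

theorem V6_26928484416_ok : Fwd.Has6 Inst.T 6 V6_26928484416 :=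
  fwd_sound' relAll_5_5 ks6_ok F6_26928484416
    ⟨V5_20486033472_ok, V5_21559513152_ok, trivial⟩ ⟨W6_24763699200_ok, W6_23706734592_ok,
    W6_23690219520_ok, W6_22633254912_ok, W6_22616739840_ok, W6_21559775232_ok, W6_21559513152_ok,
    W6_20486033472_ok, trivial⟩ F6_26928484416_chk

theorem V6_26928230400_ok : Fwd.Has6 Inst.T 6 V6_26928230400 :=
  fwd_sound' relAll_5_5 ks6_ok F6_26928230400
    ⟨V5_22616481792_ok, trivial⟩ ⟨W6_24763957248_ok, W6_23706992640_ok, W6_23690219520_ok,
    W6_22633254912_ok, W6_22616481792_ok, W6_21559517184_ok, trivial⟩ F6_26928230400_chk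

theorem V6_26911715328_ok : Fwd.Has6 Inst.T 6 V6_26911715328 :=
  fwd_sound' relAll_5_5 ks6_ok F6_26911715328
    ⟨V5_23690477568_ok, trivial⟩ ⟨W6_24763957248_ok, W6_23690477568_ok, W6_23690219520_ok,
    W6_22616739840_ok, W6_22616481792_ok, W6_21543002112_ok, W6_20469264384_ok, trivial⟩
    F6_26911715328_chk

theorem V6_26911449216_ok : Fwd.Has6 Inst.T 6 V6_26911449216 :=
  fwd_sound' relAll_5_5 ks6_ok F6_26911449216
    ⟨V5_21542477952_ok, trivial⟩ ⟨W6_24746926080_ok, W6_23689961472_ok, W6_22616481792_ok,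
    W6_22616219712_ok, W6_21542477952_ok, trivial⟩ F6_26911449216_chk

theorem V6_26911187073_ok : Fwd.Has6 Inst.T 6 V6_26911187073 :=
  fwd_sound' relAll_5_5 ks6_ok F6_26911187073
    ⟨V5_23656407168_ok, trivial⟩ ⟨W6_23656407168_ok, W6_22616219712_ok, W6_21542477952_ok,
    trivial⟩ F6_26911187073_chk

theorem V6_25971130368_ok : Fwd.Has6 Inst.T 6 V6_25971130368 :=
  fwd_sound' relAll_5_5 ks6_ok F6_25971130368
    ⟨V5_19528679424_ok, V5_21642608640_ok, trivial⟩ ⟨W6_25870467072_ok, W6_24813502464_ok,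
    W6_23756537856_ok, W6_22699573248_ok, W6_21642608640_ok, W6_20585644032_ok, W6_19528679424_ok,
    trivial⟩ F6_25971130368_chk

theorem V6_25954615296_ok : Fwd.Has6 Inst.T 6 V6_25954615296 :=
  fwd_sound' relAll_5_5 ks6_ok F6_25954615296
    ⟨V5_19512164352_ok, V5_21642608640_ok, trivial⟩ ⟨W6_25870467072_ok, W6_25853952000_ok,
    W6_24813502464_ok, W6_24796987392_ok, W6_23756537856_ok, W6_23740022784_ok, W6_22699573248_ok,
    W6_22683058176_ok, W6_21642608640_ok, W6_21626093568_ok, W6_20585644032_ok, W6_20569128960_ok,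
    W6_19512164352_ok, trivial⟩ F6_25954615296_chk

theorem V6_25938100224_ok : Fwd.Has6 Inst.T 6 V6_25938100224 :=
  fwd_sound' relAll_5_5 ks6_ok F6_25938100224
    ⟨V5_19495649280_ok, V5_20552613888_ok, V5_21642608640_ok, trivial⟩ ⟨W6_25870467072_ok,
    W6_25853952000_ok, W6_25837436928_ok, W6_24813502464_ok, W6_24796987392_ok, W6_24780472320_ok,
    W6_23756537856_ok, W6_23740022784_ok, W6_23723507712_ok, W6_22699573248_ok, W6_22683058176_ok,
    W6_22666543104_ok, W6_21642608640_ok, W6_21626093568_ok, W6_21609578496_ok, W6_20569128960_ok,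
    W6_20552613888_ok, W6_19495649280_ok, trivial⟩ F6_25938100224_chk

theorem V6_25937842176_ok : Fwd.Has6 Inst.T 6 V6_25937842176 :=
  fwd_sound' relAll_5_5 ks6_ok F6_25937842176
    ⟨V5_19495391232_ok, V5_20552355840_ok, trivial⟩ ⟨W6_25853952000_ok, W6_24796987392_ok,
    W6_23740022784_ok, W6_22683058176_ok, W6_22666285056_ok, W6_21626093568_ok, W6_21609320448_ok,
    W6_20569128960_ok, W6_20552355840_ok, W6_19495391232_ok, trivial⟩ F6_25937842176_chk

theorem V6_25921585152_ok : Fwd.Has6 Inst.T 6 V6_25921585152 :=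
  fwd_sound' relAll_5_5 ks6_ok F6_25921585152
    ⟨V5_20552613888_ok, V5_19479134208_ok, V5_22699573248_ok, V5_24763957248_ok, trivial⟩ ⟨
    W6_25870467072_ok, W6_25853952000_ok, W6_25837436928_ok, W6_24813502464_ok, W6_24796987392_ok,
    W6_24780472320_ok, W6_24763957248_ok, W6_23756537856_ok, W6_23740022784_ok, W6_23723507712_ok,
    W6_23706992640_ok, W6_22699573248_ok, W6_22683058176_ok, W6_22666543104_ok, W6_22650028032_ok,
    W6_21626093568_ok, W6_21609578496_ok, W6_21593063424_ok, W6_20552613888_ok, W6_20536098816_ok,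
    W6_19479134208_ok, trivial⟩ F6_25921585152_chk

theorem V6_25921327104_ok : Fwd.Has6 Inst.T 6 V6_25921327104 :=
  fwd_sound' relAll_5_5 ks6_ok F6_25921327104
    ⟨V5_20552613888_ok, V5_19478876160_ok, V5_24763699200_ok, trivial⟩ ⟨W6_25853952000_ok,
    W6_25837436928_ok, W6_24796987392_ok, W6_24780472320_ok, W6_24763699200_ok, W6_23740022784_ok,
    W6_23723507712_ok, W6_23706734592_ok, W6_22683058176_ok, W6_22666543104_ok, W6_22666285056_ok,
    W6_22649769984_ok, W6_21626093568_ok, W6_21609578496_ok, W6_21609320448_ok, W6_21592805376_ok,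
    W6_20552613888_ok, W6_20552355840_ok, W6_20535840768_ok, W6_19478876160_ok, trivial⟩
    F6_25921327104_chk

theorem V6_25904553984_ok : Fwd.Has6 Inst.T 6 V6_25904553984 :=
  fwd_sound' relAll_5_5 ks6_ok F6_25904553984
    ⟨V5_21609578496_ok, V5_19462103040_ok, V5_25803890688_ok, trivial⟩ ⟨W6_25837436928_ok,
    W6_25803890688_ok, W6_24780472320_ok, W6_24763699200_ok, W6_24746926080_ok, W6_23723507712_ok,
    W6_23706734592_ok, W6_23689961472_ok, W6_22666543104_ok, W6_22649769984_ok, W6_22632996864_ok,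
    W6_21609578496_ok, W6_21592805376_ok, W6_21576032256_ok, W6_20535840768_ok, W6_20519067648_ok,
    W6_19462103040_ok, trivial⟩ F6_25904553984_chk

theorem V6_25904549952_ok : Fwd.Has6 Inst.T 6 V6_25904549952 :=
  fwd_sound' relAll_5_5 ks6_ok F6_25904549952
    ⟨V5_20519063616_ok, V5_19462099008_ok, trivial⟩ ⟨W6_24763699200_ok, W6_23706734592_ok,
    W6_22666285056_ok, W6_22649769984_ok, W6_21609320448_ok, W6_21592805376_ok, W6_20535840768_ok,
    W6_20519063616_ok, W6_19462099008_ok, trivial⟩ F6_25904549952_chk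

theorem V6_25872039936_ok : Fwd.Has6 Inst.T 6 V6_25872039936 :=
  fwd_sound' relAll_5_5 ks6_ok F6_25872039936
    ⟨V5_19429588992_ok, V5_25870467072_ok, trivial⟩ ⟨W6_25870467072_ok, W6_24796987392_ok,
    W6_23723507712_ok, W6_22650028032_ok, W6_21576548352_ok, W6_20503068672_ok, W6_19429588992_ok,
    trivial⟩ F6_25872039936_chk

theorem V6_25855004736_ok : Fwd.Has6 Inst.T 6 V6_25855004736 :=
  fwd_sound' relAll_5_5 ks6_ok F6_25855004736
    ⟨V5_19412553792_ok, V5_21559513152_ok, trivial⟩ ⟨W6_23706734592_ok, W6_22633254912_ok,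
    W6_21559775232_ok, W6_21559513152_ok, W6_20486295552_ok, W6_20486033472_ok, W6_19412553792_ok,
    trivial⟩ F6_25855004736_chk

theorem V6_25854222465_ok : Fwd.Has6 Inst.T 6 V6_25854222465 :=
  fwd_sound' relAll_5_5 ks6_ok F6_25854222465
    ⟨V5_23656407168_ok, trivial⟩ ⟨W6_23656407168_ok, W6_22616219712_ok, W6_21559255104_ok,
    W6_21542477952_ok, W6_20485513344_ok, trivial⟩ F6_25854222465_chk

theorem V6_24914165760_ok : Fwd.Has6 Inst.T 6 V6_24914165760 :=
  fwd_sound' relAll_5_5 ks6_ok F6_24914165760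
    ⟨V5_19528679424_ok, V5_18471714816_ok, trivial⟩ ⟨W6_24813502464_ok, W6_23756537856_ok,
    W6_22699573248_ok, W6_21642608640_ok, W6_20585644032_ok, W6_19528679424_ok, W6_18471714816_ok,
    trivial⟩ F6_24914165760_chk

theorem V6_24897650688_ok : Fwd.Has6 Inst.T 6 V6_24897650688 :=
  fwd_sound' relAll_5_5 ks6_ok F6_24897650688
    ⟨V5_19512164352_ok, V5_18455199744_ok, V5_19528679424_ok, trivial⟩ ⟨W6_24813502464_ok,
    W6_24796987392_ok, W6_23756537856_ok, W6_23740022784_ok, W6_22699573248_ok, W6_22683058176_ok,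
    W6_21642608640_ok, W6_21626093568_ok, W6_20585644032_ok, W6_20569128960_ok, W6_19528679424_ok,
    W6_19512164352_ok, W6_18455199744_ok, trivial⟩ F6_24897650688_chk

theorem V6_24881135616_ok : Fwd.Has6 Inst.T 6 V6_24881135616 :=
  fwd_sound' relAll_5_5 ks6_ok F6_24881135616
    ⟨V5_19495649280_ok, V5_18438684672_ok, V5_19512164352_ok, V5_21642608640_ok, trivial⟩ ⟨
    W6_24813502464_ok, W6_24796987392_ok, W6_24780472320_ok, W6_23756537856_ok, W6_23740022784_ok,
    W6_23723507712_ok, W6_22699573248_ok, W6_22683058176_ok, W6_22666543104_ok, W6_21642608640_ok,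
    W6_21626093568_ok, W6_21609578496_ok, W6_20585644032_ok, W6_20569128960_ok, W6_20552613888_ok,
    W6_19512164352_ok, W6_19495649280_ok, W6_18438684672_ok, trivial⟩ F6_24881135616_chk

theorem V6_24880877568_ok : Fwd.Has6 Inst.T 6 V6_24880877568 :=
  fwd_sound' relAll_5_5 ks6_ok F6_24880877568
    ⟨V5_19512164352_ok, V5_18438426624_ok, trivial⟩ ⟨W6_24796987392_ok, W6_23740022784_ok,
    W6_22683058176_ok, W6_22666285056_ok, W6_21626093568_ok, W6_21609320448_ok, W6_20569128960_ok,
    W6_20552355840_ok, W6_19512164352_ok, W6_19495391232_ok, W6_18438426624_ok, trivial⟩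
    F6_24880877568_chk

theorem V6_24864362496_ok : Fwd.Has6 Inst.T 6 V6_24864362496 :=
  fwd_sound' relAll_5_5 ks6_ok F6_24864362496
    ⟨V5_18421911552_ok, V5_19495649280_ok, V5_20552355840_ok, V5_24763699200_ok, trivial⟩ ⟨
    W6_24796987392_ok, W6_24780472320_ok, W6_24763699200_ok, W6_23740022784_ok, W6_23723507712_ok,
    W6_23706734592_ok, W6_22683058176_ok, W6_22666543104_ok, W6_22666285056_ok, W6_22649769984_ok,
    W6_21626093568_ok, W6_21609578496_ok, W6_21609320448_ok, W6_21592805376_ok, W6_20569128960_ok,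
    W6_20552613888_ok, W6_20552355840_ok, W6_20535840768_ok, W6_19495649280_ok, W6_19495391232_ok,
    W6_19478876160_ok, W6_18421911552_ok, trivial⟩ F6_24864362496_chk

theorem V6_24847589376_ok : Fwd.Has6 Inst.T 6 V6_24847589376 :=
  fwd_sound' relAll_5_5 ks6_ok F6_24847589376
    ⟨V5_18405138432_ok, V5_20552613888_ok, V5_23689961472_ok, trivial⟩ ⟨W6_24780472320_ok,
    W6_24763699200_ok, W6_24746926080_ok, W6_23723507712_ok, W6_23706734592_ok, W6_23689961472_ok,
    W6_22666543104_ok, W6_22649769984_ok, W6_22632996864_ok, W6_21609578496_ok, W6_21592805376_ok,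
    W6_21576032256_ok, W6_20552613888_ok, W6_20535840768_ok, W6_20519067648_ok, W6_19478876160_ok,
    W6_19462103040_ok, W6_18405138432_ok, trivial⟩ F6_24847589376_chk

theorem V6_24847585344_ok : Fwd.Has6 Inst.T 6 V6_24847585344 :=
  fwd_sound' relAll_5_5 ks6_ok F6_24847585344
    ⟨V5_18405134400_ok, V5_20552355840_ok, V5_20519063616_ok, trivial⟩ ⟨W6_24763699200_ok,
    W6_23706734592_ok, W6_22666285056_ok, W6_22649769984_ok, W6_21609320448_ok, W6_21592805376_ok,
    W6_20552355840_ok, W6_20535840768_ok, W6_20519063616_ok, W6_19478876160_ok, W6_19462099008_ok,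
    W6_18405134400_ok, trivial⟩ F6_24847585344_chk

theorem V6_24831590400_ok : Fwd.Has6 Inst.T 6 V6_24831590400 :=
  fwd_sound' relAll_5_5 ks6_ok F6_24831590400
    ⟨V5_19462619136_ok, V5_18389139456_ok, V5_19446104064_ok, V5_23756537856_ok, trivial⟩ ⟨
    W6_24813502464_ok, W6_24796987392_ok, W6_24780472320_ok, W6_23756537856_ok, W6_23740022784_ok,
    W6_23723507712_ok, W6_23706992640_ok, W6_22683058176_ok, W6_22666543104_ok, W6_22650028032_ok,
    W6_22633512960_ok, W6_21609578496_ok, W6_21593063424_ok, W6_21576548352_ok, W6_20536098816_ok,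
    W6_20519583744_ok, W6_20503068672_ok, W6_19462619136_ok, W6_19446104064_ok, W6_18389139456_ok,
    trivial⟩ F6_24831590400_chk

theorem V6_24831074304_ok : Fwd.Has6 Inst.T 6 V6_24831074304 :=
  fwd_sound' relAll_5_5 ks6_ok F6_24831074304
    ⟨V5_19462103040_ok, V5_18388623360_ok, V5_19462361088_ok, V5_20519067648_ok, trivial⟩ ⟨
    W6_24780472320_ok, W6_24763957248_ok, W6_24763699200_ok, W6_24746926080_ok, W6_23723507712_ok,
    W6_23706992640_ok, W6_23706734592_ok, W6_23690219520_ok, W6_23689961472_ok, W6_22666543104_ok,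
    W6_22650028032_ok, W6_22649769984_ok, W6_22633254912_ok, W6_22632996864_ok, W6_22616481792_ok,
    W6_21609578496_ok, W6_21593063424_ok, W6_21592805376_ok, W6_21576290304_ok, W6_21576032256_ok,
    W6_21559517184_ok, W6_20536098816_ok, W6_20535840768_ok, W6_20519325696_ok, W6_20519067648_ok,
    W6_20502552576_ok, W6_19462361088_ok, W6_19462103040_ok, W6_19445587968_ok, W6_18388623360_ok,
    trivial⟩ F6_24831074304_chk

theorem V6_24831070272_ok : Fwd.Has6 Inst.T 6 V6_24831070272 :=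
  fwd_sound' relAll_5_5 ks6_ok F6_24831070272
    ⟨V5_19462361088_ok, V5_21559513152_ok, trivial⟩ ⟨W6_24763699200_ok, W6_23706734592_ok,
    W6_23690219520_ok, W6_22666285056_ok, W6_22649769984_ok, W6_22633254912_ok, W6_21609320448_ok,
    W6_21592805376_ok, W6_21576290304_ok, W6_21559513152_ok, W6_20535840768_ok, W6_20519325696_ok,
    W6_20519063616_ok, W6_19462361088_ok, W6_19462099008_ok, W6_19445583936_ok, W6_18388619328_ok,
    trivial⟩ F6_24831070272_chk

theorem V6_24814035072_ok : Fwd.Has6 Inst.T 6 V6_24814035072 :=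
  fwd_sound' relAll_5_5 ks6_ok F6_24814035072
    ⟨V5_20519067648_ok, V5_23656407168_ok, trivial⟩ ⟨W6_24746926080_ok, W6_23689961472_ok,
    W6_23656407168_ok, W6_22632996864_ok, W6_22616219712_ok, W6_21576032256_ok, W6_21559255104_ok,
    W6_21542477952_ok, W6_20519067648_ok, W6_20502290496_ok, W6_20485513344_ok, W6_19445325888_ok,
    W6_19428548736_ok, W6_18371584128_ok, trivial⟩ F6_24814035072_chk

theorem V6_24814035009_ok : Fwd.Has6 Inst.T 6 V6_24814035009 :=
  fwd_sound' relAll_5_5 ks6_ok F6_24814035009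
    ⟨V5_20519063616_ok, trivial⟩ ⟨W6_22616219712_ok, W6_21559255104_ok, W6_20519063616_ok,
    W6_20502290496_ok, W6_19445325888_ok, trivial⟩ F6_24814035009_chk

theorem V6_24798302208_ok : Fwd.Has6 Inst.T 6 V6_24798302208 :=
  fwd_sound' relAll_5_5 ks6_ok F6_24798302208
    ⟨V5_19429588992_ok, V5_18355851264_ok, V5_22649769984_ok, trivial⟩ ⟨W6_24796987392_ok,
    W6_23723507712_ok, W6_22650028032_ok, W6_22649769984_ok, W6_21576548352_ok, W6_21576290304_ok,
    W6_20503068672_ok, W6_20502810624_ok, W6_19429588992_ok, W6_19429330944_ok, W6_18355851264_ok,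
    trivial⟩ F6_24798302208_chk

theorem V6_24798044160_ok : Fwd.Has6 Inst.T 6 V6_24798044160 :=
  fwd_sound' relAll_5_5 ks6_ok F6_24798044160
    ⟨V5_18355593216_ok, V5_19429072896_ok, V5_21576032256_ok, trivial⟩ ⟨W6_24780472320_ok,
    W6_23723507712_ok, W6_23706992640_ok, W6_23706734592_ok, W6_22650028032_ok, W6_22649769984_ok,
    W6_22633512960_ok, W6_22633254912_ok, W6_22632996864_ok, W6_21576548352_ok, W6_21576290304_ok,
    W6_21576032256_ok, W6_21559775232_ok, W6_21559517184_ok, W6_20503068672_ok, W6_20502810624_ok,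
    W6_20502552576_ok, W6_20486295552_ok, W6_20486037504_ok, W6_19429330944_ok, W6_19429072896_ok,
    W6_19412557824_ok, W6_18355593216_ok, trivial⟩ F6_24798044160_chk

theorem V6_24781271040_ok : Fwd.Has6 Inst.T 6 V6_24781271040 :=
  fwd_sound' relAll_5_5 ks6_ok F6_24781271040
    ⟨V5_19412299776_ok, trivial⟩ ⟨W6_23706992640_ok, W6_22633512960_ok, W6_22633254912_ok,
    W6_21559775232_ok, W6_21559517184_ok, W6_20486295552_ok, W6_20486037504_ok, W6_19412557824_ok,
    W6_19412299776_ok, trivial⟩ F6_24781271040_chk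

theorem V6_24781262913_ok : Fwd.Has6 Inst.T 6 V6_24781262913 :=
  fwd_sound' relAll_5_5 ks6_ok F6_24781262913
    ⟨V5_19412553792_ok, trivial⟩ ⟨W6_21559513152_ok, W6_20486033472_ok, W6_19412553792_ok,
    trivial⟩ F6_24781262913_chk

theorem V6_24764235840_ok : Fwd.Has6 Inst.T 6 V6_24764235840 :=
  fwd_sound' relAll_5_5 ks6_ok F6_24764235840
    ⟨V5_19395526656_ok, trivial⟩ ⟨W6_22616739840_ok, W6_21543002112_ok, W6_20469264384_ok,
    W6_20469260352_ok, W6_19395526656_ok, W6_18321784896_ok, trivial⟩ F6_24764235840_chk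

theorem V6_24764231808_ok : Fwd.Has6 Inst.T 6 V6_24764231808 :=
  fwd_sound' relAll_5_5 ks6_ok F6_24764231808
    ⟨V5_19395518592_ok, trivial⟩ ⟨W6_22616481792_ok, W6_21543002112_ok, W6_20469264384_ok,
    W6_20469260352_ok, W6_19395518592_ok, trivial⟩ F6_24764231808_chk

theorem V6_23857201152_ok : Fwd.Has6 Inst.T 6 V6_23857201152 :=
  fwd_sound' relAll_5_5 ks6_ok F6_23857201152
    ⟨V5_17414750208_ok, V5_19528679424_ok, trivial⟩ ⟨W6_23756537856_ok, W6_22699573248_ok,
    W6_21642608640_ok, W6_20585644032_ok, W6_19528679424_ok, W6_18471714816_ok, W6_17414750208_ok,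
    trivial⟩ F6_23857201152_chk

theorem V6_23823912960_ok : Fwd.Has6 Inst.T 6 V6_23823912960 :=
  fwd_sound' relAll_5_5 ks6_ok F6_23823912960
    ⟨V5_18438426624_ok, V5_17381462016_ok, V5_19495391232_ok, trivial⟩ ⟨W6_23740022784_ok,
    W6_22683058176_ok, W6_22666285056_ok, W6_21626093568_ok, W6_21609320448_ok, W6_20569128960_ok,
    W6_20552355840_ok, W6_19512164352_ok, W6_19495391232_ok, W6_18455199744_ok, W6_18438426624_ok,
    W6_17381462016_ok, trivial⟩ F6_23823912960_chk

theorem V6_23807135808_ok : Fwd.Has6 Inst.T 6 V6_23807135808 :=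
  fwd_sound' relAll_5_5 ks6_ok F6_23807135808
    ⟨V5_17364684864_ok, trivial⟩ ⟨W6_22666285056_ok, W6_21609320448_ok, W6_20552355840_ok,
    W6_19495391232_ok, W6_18438426624_ok, W6_17364684864_ok, trivial⟩ F6_23807135808_chk

theorem V6_23790624768_ok : Fwd.Has6 Inst.T 6 V6_23790624768 :=
  fwd_sound' relAll_5_5 ks6_ok F6_23790624768
    ⟨V5_17348173824_ok, V5_18421911552_ok, V5_18405138432_ok, V5_23689961472_ok,
    V5_22632996864_ok, trivial⟩ ⟨W6_23723507712_ok, W6_23706734592_ok, W6_23689961472_ok,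
    W6_22666543104_ok, W6_22649769984_ok, W6_22632996864_ok, W6_21609578496_ok, W6_21592805376_ok,
    W6_21576032256_ok, W6_20552613888_ok, W6_20535840768_ok, W6_20519067648_ok, W6_19495649280_ok,
    W6_19478876160_ok, W6_19462103040_ok, W6_18421911552_ok, W6_18405138432_ok, W6_17348173824_ok,
    trivial⟩ F6_23790624768_chk

theorem V6_23790620736_ok : Fwd.Has6 Inst.T 6 V6_23790620736 :=
  fwd_sound' relAll_5_5 ks6_ok F6_23790620736
    ⟨V5_18421911552_ok, trivial⟩ ⟨W6_23706734592_ok, W6_22666285056_ok, W6_22649769984_ok,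
    W6_21609320448_ok, W6_21592805376_ok, W6_20552355840_ok, W6_20535840768_ok, W6_20519063616_ok,
    W6_19495391232_ok, W6_19478876160_ok, W6_19462099008_ok, W6_18421911552_ok, W6_18405134400_ok,
    W6_17348169792_ok, trivial⟩ F6_23790620736_chk

theorem V6_23774105664_ok : Fwd.Has6 Inst.T 6 V6_23774105664 :=
  fwd_sound' relAll_5_5 ks6_ok F6_23774105664
    ⟨V5_18405396480_ok, V5_18405134400_ok, V5_21559513152_ok, trivial⟩ ⟨W6_23706734592_ok,
    W6_23690219520_ok, W6_22666285056_ok, W6_22649769984_ok, W6_22633254912_ok, W6_21609320448_ok,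
    W6_21592805376_ok, W6_21576290304_ok, W6_21559513152_ok, W6_20552355840_ok, W6_20535840768_ok,
    W6_20519325696_ok, W6_20519063616_ok, W6_19478876160_ok, W6_19462361088_ok, W6_19462099008_ok,
    W6_19445583936_ok, W6_18405396480_ok, W6_18405134400_ok, W6_18388619328_ok, W6_17331654720_ok,
    trivial⟩ F6_23774105664_chk

theorem V6_23757328449_ok : Fwd.Has6 Inst.T 6 V6_23757328449 :=
  fwd_sound' relAll_5_5 ks6_ok F6_23757328449
    ⟨V5_21559513152_ok, trivial⟩ ⟨W6_21559513152_ok, W6_20519063616_ok, W6_19462099008_ok,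
    W6_19445583936_ok, W6_18388619328_ok, trivial⟩ F6_23757328449_chk

theorem V6_23741595648_ok : Fwd.Has6 Inst.T 6 V6_23741595648 :=
  fwd_sound' relAll_5_5 ks6_ok F6_23741595648
    ⟨V5_18372624384_ok, trivial⟩ ⟨W6_23740022784_ok, W6_22666543104_ok, W6_21593063424_ok,
    W6_20519583744_ok, W6_19446104064_ok, W6_18372624384_ok, W6_17299144704_ok, trivial⟩
    F6_23741595648_chk

theorem V6_23741337600_ok : Fwd.Has6 Inst.T 6 V6_23741337600 :=
  fwd_sound' relAll_5_5 ks6_ok F6_23741337600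
    ⟨V5_17298886656_ok, V5_19429588992_ok, V5_18355851264_ok, V5_18372624384_ok,
    V5_23740022784_ok, trivial⟩ ⟨W6_23740022784_ok, W6_23723507712_ok, W6_22666543104_ok,
    W6_22666285056_ok, W6_22650028032_ok, W6_22649769984_ok, W6_21593063424_ok, W6_21592805376_ok,
    W6_21576548352_ok, W6_21576290304_ok, W6_20519583744_ok, W6_20519325696_ok, W6_20503068672_ok,
    W6_20502810624_ok, W6_19446104064_ok, W6_19445846016_ok, W6_19429588992_ok, W6_19429330944_ok,
    W6_18372624384_ok, W6_18372366336_ok, W6_18355851264_ok, W6_17298886656_ok, trivial⟩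
    F6_23741337600_chk

theorem V6_23740821504_ok : Fwd.Has6 Inst.T 6 V6_23740821504 :=
  fwd_sound' relAll_5_5 ks6_ok F6_23740821504
    ⟨V5_17298370560_ok, V5_20519583744_ok, V5_18355335168_ok, V5_18371850240_ok,
    V5_19412299776_ok, trivial⟩ ⟨W6_23706992640_ok, W6_23690477568_ok, W6_23690219520_ok,
    W6_22650028032_ok, W6_22633512960_ok, W6_22633254912_ok, W6_22616739840_ok, W6_22616481792_ok,
    W6_21593063424_ok, W6_21576548352_ok, W6_21576290304_ok, W6_21559775232_ok, W6_21559517184_ok,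
    W6_21543002112_ok, W6_20519583744_ok, W6_20519325696_ok, W6_20502810624_ok, W6_20502552576_ok,
    W6_20486037504_ok, W6_20469264384_ok, W6_19445846016_ok, W6_19445587968_ok, W6_19429072896_ok,
    W6_19428814848_ok, W6_19412299776_ok, W6_18372108288_ok, W6_18371850240_ok, W6_18355335168_ok,
    W6_17298370560_ok, trivial⟩ F6_23740821504_chk

theorem V6_23740813377_ok : Fwd.Has6 Inst.T 6 V6_23740813377 :=
  fwd_sound' relAll_5_5 ks6_ok F6_23740813377
    ⟨V5_20519063616_ok, trivial⟩ ⟨W6_21559513152_ok, W6_20519063616_ok, W6_20486033472_ok,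
    W6_19445583936_ok, W6_19429068864_ok, W6_18372104256_ok, trivial⟩ F6_23740813377_chk

theorem V6_23724564480_ok : Fwd.Has6 Inst.T 6 V6_23724564480 :=
  fwd_sound' relAll_5_5 ks6_ok F6_23724564480
    ⟨V5_17282113536_ok, V5_19429588992_ok, V5_18355851264_ok, V5_21576032256_ok, trivial⟩ ⟨
    W6_23723507712_ok, W6_22650028032_ok, W6_22649769984_ok, W6_21576548352_ok, W6_21576290304_ok,
    W6_21576032256_ok, W6_20503068672_ok, W6_20502810624_ok, W6_20502552576_ok, W6_19429588992_ok,
    W6_19429330944_ok, W6_19429072896_ok, W6_18355851264_ok, W6_18355593216_ok, W6_17282113536_ok,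
    trivial⟩ F6_23724564480_chk

theorem V6_23724048384_ok : Fwd.Has6 Inst.T 6 V6_23724048384 :=
  fwd_sound' relAll_5_5 ks6_ok F6_23724048384
    ⟨V5_17281597440_ok, V5_21576548352_ok, V5_19395526656_ok, trivial⟩ ⟨W6_23690477568_ok,
    W6_22633512960_ok, W6_22616739840_ok, W6_21576548352_ok, W6_21559775232_ok, W6_21543002112_ok,
    W6_20502810624_ok, W6_20486037504_ok, W6_20469264384_ok, W6_19429072896_ok, W6_19412299776_ok,
    W6_19395526656_ok, W6_18355335168_ok, W6_18338562048_ok, W6_17281597440_ok, trivial⟩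
    F6_23724048384_chk

theorem V6_23723778177_ok : Fwd.Has6 Inst.T 6 V6_23723778177 :=
  fwd_sound' relAll_5_5 ks6_ok F6_23723778177
    ⟨V5_19428548736_ok, trivial⟩ ⟨W6_22616219712_ok, W6_21559255104_ok, W6_21542477952_ok,
    W6_20502290496_ok, W6_20485775424_ok, W6_20485513344_ok, W6_19428810816_ok, W6_19428548736_ok,
    W6_18355069056_ok, trivial⟩ F6_23723778177_chk

theorem V6_23723516034_ok : Fwd.Has6 Inst.T 6 V6_23723516034 :=
  fwd_sound' relAll_5_5 ks6_ok F6_23723516034
    ⟨V5_19428548736_ok, trivial⟩ ⟨W6_23656407168_ok, W6_21542477952_ok, W6_20485513344_ok,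
    W6_19428548736_ok, trivial⟩ F6_23723516034_chk

theorem V6_23690494080_ok : Fwd.Has6 Inst.T 6 V6_23690494080 :=
  fwd_sound' relAll_5_5 ks6_ok F6_23690494080
    ⟨V5_19395526656_ok, V5_17248043136_ok, trivial⟩ ⟨W6_21543002112_ok, W6_20469264384_ok,
    W6_20469260352_ok, W6_19395526656_ok, W6_19395518592_ok, W6_18321784896_ok, W6_17248043136_ok,
    trivial⟩ F6_23690494080_chk

theorem V6_23690485890_ok : Fwd.Has6 Inst.T 6 V6_23690485890 :=
  fwd_sound' relAll_5_5 ks6_ok F6_23690485890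
    ⟨V5_19395518592_ok, trivial⟩ ⟨W6_21542477952_ok, W6_19395518592_ok, trivial⟩
    F6_23690485890_chk

theorem V6_22800236544_ok : Fwd.Has6 Inst.T 6 V6_22800236544 :=
  fwd_sound' relAll_5_5 ks6_ok F6_22800236544
    ⟨V5_19528679424_ok, V5_18471714816_ok, trivial⟩ ⟨W6_22699573248_ok, W6_21642608640_ok,
    W6_20585644032_ok, W6_19528679424_ok, W6_18471714816_ok, W6_17414750208_ok, trivial⟩
    F6_22800236544_chk

theorem V6_22783721472_ok : Fwd.Has6 Inst.T 6 V6_22783721472 :=
  fwd_sound' relAll_5_5 ks6_ok F6_22783721472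
    ⟨V5_17398235136_ok, V5_18455199744_ok, trivial⟩ ⟨W6_22699573248_ok, W6_22683058176_ok,
    W6_21642608640_ok, W6_21626093568_ok, W6_20585644032_ok, W6_20569128960_ok, W6_19528679424_ok,
    W6_19512164352_ok, W6_18471714816_ok, W6_18455199744_ok, W6_17414750208_ok, W6_17398235136_ok,
    W6_16341270528_ok, trivial⟩ F6_22783721472_chk

theorem V6_22766948352_ok : Fwd.Has6 Inst.T 6 V6_22766948352 :=
  fwd_sound' relAll_5_5 ks6_ok F6_22766948352
    ⟨V5_16324497408_ok, V5_17398235136_ok, V5_17381462016_ok, trivial⟩ ⟨W6_22683058176_ok,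
    W6_22666285056_ok, W6_21626093568_ok, W6_21609320448_ok, W6_20569128960_ok, W6_20552355840_ok,
    W6_19512164352_ok, W6_19495391232_ok, W6_18455199744_ok, W6_18438426624_ok, W6_17398235136_ok,
    W6_17381462016_ok, W6_16324497408_ok, trivial⟩ F6_22766948352_chk

theorem V6_22717661184_ok : Fwd.Has6 Inst.T 6 V6_22717661184 :=
  fwd_sound' relAll_5_5 ks6_ok F6_22717661184
    ⟨V5_17348689920_ok, V5_16275210240_ok, V5_17332174848_ok, V5_21642608640_ok,
    V5_22699573248_ok, trivial⟩ ⟨W6_22699573248_ok, W6_22683058176_ok, W6_22666543104_ok,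
    W6_22650028032_ok, W6_22633512960_ok, W6_21642608640_ok, W6_21626093568_ok, W6_21609578496_ok,
    W6_21593063424_ok, W6_21576548352_ok, W6_20569128960_ok, W6_20552613888_ok, W6_20536098816_ok,
    W6_20519583744_ok, W6_20503068672_ok, W6_19495649280_ok, W6_19479134208_ok, W6_19462619136_ok,
    W6_19446104064_ok, W6_18422169600_ok, W6_18405654528_ok, W6_18389139456_ok, W6_17348689920_ok,
    W6_17332174848_ok, W6_16275210240_ok, trivial⟩ F6_22717661184_chk

theorem V6_22717141056_ok : Fwd.Has6 Inst.T 6 V6_22717141056 :=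
  fwd_sound' relAll_5_5 ks6_ok F6_22717141056
    ⟨V5_17348431872_ok, V5_16274690112_ok, V5_18405134400_ok, V5_21559513152_ok, trivial⟩ ⟨
    W6_22666285056_ok, W6_22649769984_ok, W6_22633254912_ok, W6_21609320448_ok, W6_21592805376_ok,
    W6_21576290304_ok, W6_21559513152_ok, W6_20552355840_ok, W6_20535840768_ok, W6_20519325696_ok,
    W6_20519063616_ok, W6_19495391232_ok, W6_19478876160_ok, W6_19462361088_ok, W6_19462099008_ok,
    W6_19445583936_ok, W6_18421911552_ok, W6_18405396480_ok, W6_18405134400_ok, W6_18388619328_ok,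
    W6_17348431872_ok, W6_17348169792_ok, W6_17331654720_ok, W6_16274690112_ok, trivial⟩
    F6_22717141056_chk

theorem V6_22700371968_ok : Fwd.Has6 Inst.T 6 V6_22700371968 :=
  fwd_sound' relAll_5_5 ks6_ok F6_22700371968
    ⟨V5_16257921024_ok, V5_18405396480_ok, V5_17314885632_ok, V5_18371850240_ok, trivial⟩ ⟨
    W6_22650028032_ok, W6_22633254912_ok, W6_22616481792_ok, W6_21593063424_ok, W6_21576290304_ok,
    W6_21559517184_ok, W6_20536098816_ok, W6_20519325696_ok, W6_20502552576_ok, W6_19479134208_ok,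
    W6_19462361088_ok, W6_19445587968_ok, W6_19428814848_ok, W6_18405396480_ok, W6_18388623360_ok,
    W6_18371850240_ok, W6_17331658752_ok, W6_17314885632_ok, W6_16257921024_ok, trivial⟩
    F6_22700371968_chk

theorem V6_22700105793_ok : Fwd.Has6 Inst.T 6 V6_22700105793 :=
  fwd_sound' relAll_5_5 ks6_ok F6_22700105793
    ⟨V5_17331396672_ok, trivial⟩ ⟨W6_22616219712_ok, W6_21559255104_ok, W6_20519063616_ok,
    W6_20502290496_ok, W6_19462099008_ok, W6_19445325888_ok, W6_18405134400_ok, W6_18388361280_ok,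
    W6_17331396672_ok, trivial⟩ F6_22700105793_chk

theorem V6_22683856896_ok : Fwd.Has6 Inst.T 6 V6_22683856896 :=
  fwd_sound' relAll_5_5 ks6_ok F6_22683856896
    ⟨V5_19462619136_ok, V5_16241405952_ok, V5_17315143680_ok, V5_18355335168_ok,
    V5_20469264384_ok, trivial⟩ ⟨W6_22650028032_ok, W6_22633512960_ok, W6_22633254912_ok,
    W6_22616739840_ok, W6_22616481792_ok, W6_21593063424_ok, W6_21576548352_ok, W6_21576290304_ok,
    W6_21559775232_ok, W6_21559517184_ok, W6_21543002112_ok, W6_20536098816_ok, W6_20519583744_ok,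
    W6_20519325696_ok, W6_20502810624_ok, W6_20502552576_ok, W6_20486037504_ok, W6_20469264384_ok,
    W6_19462619136_ok, W6_19462361088_ok, W6_19445846016_ok, W6_19445587968_ok, W6_19429072896_ok,
    W6_19428814848_ok, W6_19412299776_ok, W6_18388881408_ok, W6_18388623360_ok, W6_18372108288_ok,
    W6_18371850240_ok, W6_18355335168_ok, W6_17315143680_ok, W6_17314885632_ok, W6_17298370560_ok,
    W6_16241405952_ok, trivial⟩ F6_22683856896_chk

theorem V6_22667857920_ok : Fwd.Has6 Inst.T 6 V6_22667857920 :=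
  fwd_sound' relAll_5_5 ks6_ok F6_22667857920
    ⟨V5_16225406976_ok, V5_17298886656_ok, V5_18372624384_ok, trivial⟩ ⟨W6_22666543104_ok,
    W6_22666285056_ok, W6_21593063424_ok, W6_21592805376_ok, W6_20519583744_ok, W6_20519325696_ok,
    W6_19446104064_ok, W6_19445846016_ok, W6_18372624384_ok, W6_18372366336_ok, W6_17299144704_ok,
    W6_17298886656_ok, W6_16225406976_ok, trivial⟩ F6_22667857920_chk

theorem V6_22667595840_ok : Fwd.Has6 Inst.T 6 V6_22667595840 :=
  fwd_sound' relAll_5_5 ks6_ok F6_22667595840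
    ⟨V5_17298886656_ok, V5_18355851264_ok, V5_16225144896_ok, V5_22666285056_ok, trivial⟩ ⟨
    W6_22666285056_ok, W6_22649769984_ok, W6_21592805376_ok, W6_21576290304_ok, W6_20519325696_ok,
    W6_20519063616_ok, W6_20502810624_ok, W6_19445846016_ok, W6_19445583936_ok, W6_19429330944_ok,
    W6_19429068864_ok, W6_18372366336_ok, W6_18372104256_ok, W6_18355851264_ok, W6_18355589184_ok,
    W6_17298886656_ok, W6_17298624576_ok, W6_16225144896_ok, trivial⟩ F6_22667595840_chk

theorem V6_22667333697_ok : Fwd.Has6 Inst.T 6 V6_22667333697 :=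
  fwd_sound' relAll_5_5 ks6_ok F6_22667333697
    ⟨V5_19445583936_ok, trivial⟩ ⟨W6_21559513152_ok, W6_20519063616_ok, W6_20486033472_ok,
    W6_19445583936_ok, W6_19429068864_ok, W6_19412553792_ok, W6_18372104256_ok, W6_18355589184_ok,
    W6_17298624576_ok, trivial⟩ F6_22667333697_chk

theorem V6_22667083776_ok : Fwd.Has6 Inst.T 6 V6_22667083776 :=
  fwd_sound' relAll_5_5 ks6_ok F6_22667083776
    ⟨V5_16224632832_ok, V5_17281597440_ok, V5_20519583744_ok, V5_19395526656_ok, trivial⟩ ⟨
    W6_22633512960_ok, W6_22616739840_ok, W6_21576548352_ok, W6_21559775232_ok, W6_21543002112_ok,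
    W6_20519583744_ok, W6_20502810624_ok, W6_20486037504_ok, W6_20469264384_ok, W6_19445846016_ok,
    W6_19429072896_ok, W6_19412299776_ok, W6_19395526656_ok, W6_18372108288_ok, W6_18355335168_ok,
    W6_18338562048_ok, W6_17298370560_ok, W6_17281597440_ok, W6_16224632832_ok, trivial⟩
    F6_22667083776_chk

theorem V6_22666817601_ok : Fwd.Has6 Inst.T 6 V6_22666817601 :=
  fwd_sound' relAll_5_5 ks6_ok F6_22666817601
    ⟨V5_17298108480_ok, trivial⟩ ⟨W6_21559513152_ok, W6_20485775424_ok, W6_19445583936_ok,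
    W6_19428810816_ok, W6_18371846208_ok, W6_17298108480_ok, trivial⟩ F6_22666817601_chk

theorem V6_22666551426_ok : Fwd.Has6 Inst.T 6 V6_22666551426 :=
  fwd_sound' relAll_5_5 ks6_ok F6_22666551426
    ⟨V5_18371584128_ok, trivial⟩ ⟨W6_21542477952_ok, W6_20485513344_ok, W6_19428548736_ok,
    W6_18371584128_ok, trivial⟩ F6_22666551426_chk

theorem V6_22650826752_ok : Fwd.Has6 Inst.T 6 V6_22650826752 :=
  fwd_sound' relAll_5_5 ks6_ok F6_22650826752
    ⟨V5_19429588992_ok, V5_16208375808_ok, V5_17282113536_ok, V5_18355851264_ok, trivial⟩ ⟨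
    W6_22650028032_ok, W6_21576548352_ok, W6_21576290304_ok, W6_20503068672_ok, W6_20502810624_ok,
    W6_20502552576_ok, W6_19429588992_ok, W6_19429330944_ok, W6_19429072896_ok, W6_19428814848_ok,
    W6_18355851264_ok, W6_18355593216_ok, W6_18355335168_ok, W6_17282113536_ok, W6_17281855488_ok,
    W6_16208375808_ok, trivial⟩ F6_22650826752_chk

theorem V6_22650568704_ok : Fwd.Has6 Inst.T 6 V6_22650568704 :=
  fwd_sound' relAll_5_5 ks6_ok F6_22650568704
    ⟨V5_17281597440_ok, V5_18355593216_ok, trivial⟩ ⟨W6_22633512960_ok, W6_21576548352_ok,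
    W6_21559775232_ok, W6_20503068672_ok, W6_20502810624_ok, W6_20486295552_ok, W6_20486037504_ok,
    W6_19429330944_ok, W6_19429072896_ok, W6_19412557824_ok, W6_19412299776_ok, W6_18355593216_ok,
    W6_18355335168_ok, W6_18338562048_ok, W6_17281855488_ok, W6_17281597440_ok, W6_16208117760_ok,
    trivial⟩ F6_22650568704_chk

theorem V6_22650298497_ok : Fwd.Has6 Inst.T 6 V6_22650298497 :=
  fwd_sound' relAll_5_5 ks6_ok F6_22650298497
    ⟨V5_17281589376_ok, V5_19428548736_ok, trivial⟩ ⟨W6_22616219712_ok, W6_21559255104_ok,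
    W6_21542477952_ok, W6_20502290496_ok, W6_20485775424_ok, W6_20485513344_ok, W6_20469260352_ok,
    W6_19428810816_ok, W6_19428548736_ok, W6_19412295744_ok, W6_19395518592_ok, W6_18355331136_ok,
    W6_18355069056_ok, W6_18338553984_ok, W6_17281589376_ok, trivial⟩ F6_22650298497_chk

theorem V6_22633529409_ok : Fwd.Has6 Inst.T 6 V6_22633529409 :=
  fwd_sound' relAll_5_5 ks6_ok F6_22633529409
    ⟨V5_18321784896_ok, trivial⟩ ⟨W6_20486033472_ok, W6_20469260352_ok, W6_19412295744_ok,
    W6_18338558016_ok, W6_18321784896_ok, W6_17264820288_ok, trivial⟩ F6_22633529409_chk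

theorem V6_22633525377_ok : Fwd.Has6 Inst.T 6 V6_22633525377 :=
  fwd_sound' relAll_5_5 ks6_ok F6_22633525377
    ⟨V5_19395518592_ok, trivial⟩ ⟨W6_20485775424_ok, W6_20469260352_ok, W6_19412295744_ok,
    W6_19395518592_ok, W6_18338558016_ok, W6_18338553984_ok, trivial⟩ F6_22633525377_chk

theorem V6_21726756864_ok : Fwd.Has6 Inst.T 6 V6_21726756864 :=
  fwd_sound' relAll_5_5 ks6_ok F6_21726756864
    ⟨V5_17398235136_ok, V5_17414750208_ok, V5_16341270528_ok, trivial⟩ ⟨W6_21642608640_ok,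
    W6_21626093568_ok, W6_20585644032_ok, W6_20569128960_ok, W6_19528679424_ok, W6_19512164352_ok,
    W6_18471714816_ok, W6_18455199744_ok, W6_17414750208_ok, W6_17398235136_ok, W6_16341270528_ok,
    trivial⟩ F6_21726756864_chk

theorem V6_21709983744_ok : Fwd.Has6 Inst.T 6 V6_21709983744 :=
  fwd_sound' relAll_5_5 ks6_ok F6_21709983744
    ⟨V5_16324497408_ok, V5_16341270528_ok, trivial⟩ ⟨W6_21626093568_ok, W6_21609320448_ok,
    W6_20569128960_ok, W6_20552355840_ok, W6_19512164352_ok, W6_19495391232_ok, W6_18455199744_ok,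
    W6_18438426624_ok, W6_17398235136_ok, W6_17381462016_ok, W6_16341270528_ok, W6_16324497408_ok,
    trivial⟩ F6_21709983744_chk

theorem V6_21693726720_ok : Fwd.Has6 Inst.T 6 V6_21693726720 :=
  fwd_sound' relAll_5_5 ks6_ok F6_21693726720
    ⟨V5_16308240384_ok, V5_17381720064_ok, V5_15251275776_ok, V5_16324755456_ok,
    V5_18471714816_ok, trivial⟩ ⟨W6_21642608640_ok, W6_21626093568_ok, W6_21609578496_ok,
    W6_21593063424_ok, W6_20585644032_ok, W6_20569128960_ok, W6_20552613888_ok, W6_20536098816_ok,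
    W6_19528679424_ok, W6_19512164352_ok, W6_19495649280_ok, W6_19479134208_ok, W6_18471714816_ok,
    W6_18455199744_ok, W6_18438684672_ok, W6_18422169600_ok, W6_17398235136_ok, W6_17381720064_ok,
    W6_17365204992_ok, W6_16324755456_ok, W6_16308240384_ok, W6_15251275776_ok, trivial⟩
    F6_21693726720_chk

theorem V6_21693468672_ok : Fwd.Has6 Inst.T 6 V6_21693468672 :=
  fwd_sound' relAll_5_5 ks6_ok F6_21693468672
    ⟨V5_15251017728_ok, V5_17381720064_ok, V5_16307982336_ok, V5_16324497408_ok,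
    V5_16324755456_ok, trivial⟩ ⟨W6_21626093568_ok, W6_21609578496_ok, W6_21609320448_ok,
    W6_21592805376_ok, W6_20569128960_ok, W6_20552613888_ok, W6_20552355840_ok, W6_20535840768_ok,
    W6_19512164352_ok, W6_19495649280_ok, W6_19495391232_ok, W6_19478876160_ok, W6_18455199744_ok,
    W6_18438684672_ok, W6_18438426624_ok, W6_18421911552_ok, W6_17398235136_ok, W6_17381720064_ok,
    W6_17381462016_ok, W6_17364946944_ok, W6_16324755456_ok, W6_16324497408_ok, W6_16307982336_ok,
    W6_15251017728_ok, trivial⟩ F6_21693468672_chk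

theorem V6_21676695552_ok : Fwd.Has6 Inst.T 6 V6_21676695552 :=
  fwd_sound' relAll_5_5 ks6_ok F6_21676695552
    ⟨V5_15234244608_ok, V5_17381720064_ok, V5_16307982336_ok, V5_16291209216_ok,
    V5_21576032256_ok, trivial⟩ ⟨W6_21609578496_ok, W6_21592805376_ok, W6_21576032256_ok,
    W6_20552613888_ok, W6_20535840768_ok, W6_20519067648_ok, W6_19495649280_ok, W6_19478876160_ok,
    W6_19462103040_ok, W6_18438684672_ok, W6_18421911552_ok, W6_18405138432_ok, W6_17381720064_ok,
    W6_17364946944_ok, W6_17348173824_ok, W6_16307982336_ok, W6_16291209216_ok, W6_15234244608_ok,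
    trivial⟩ F6_21676695552_chk

theorem V6_21660176448_ok : Fwd.Has6 Inst.T 6 V6_21660176448 :=
  fwd_sound' relAll_5_5 ks6_ok F6_21660176448
    ⟨V5_16291467264_ok, V5_17364946944_ok, V5_15217725504_ok, V5_21559513152_ok, trivial⟩ ⟨
    W6_21609320448_ok, W6_21592805376_ok, W6_21576290304_ok, W6_21559513152_ok, W6_20552355840_ok,
    W6_20535840768_ok, W6_20519325696_ok, W6_20519063616_ok, W6_19495391232_ok, W6_19478876160_ok,
    W6_19462361088_ok, W6_19462099008_ok, W6_19445583936_ok, W6_18438426624_ok, W6_18421911552_ok,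
    W6_18405396480_ok, W6_18405134400_ok, W6_18388619328_ok, W6_17364946944_ok, W6_17364684864_ok,
    W6_17348431872_ok, W6_17348169792_ok, W6_17331654720_ok, W6_16291467264_ok, W6_16291205184_ok,
    W6_16274690112_ok, W6_15217725504_ok, trivial⟩ F6_21660176448_chk

theorem V6_21643407360_ok : Fwd.Has6 Inst.T 6 V6_21643407360 :=
  fwd_sound' relAll_5_5 ks6_ok F6_21643407360
    ⟨V5_17348431872_ok, V5_16257921024_ok, V5_15200956416_ok, V5_17314885632_ok, trivial⟩ ⟨
    W6_21593063424_ok, W6_21576290304_ok, W6_21559517184_ok, W6_20536098816_ok, W6_20519325696_ok,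
    W6_20502552576_ok, W6_19479134208_ok, W6_19462361088_ok, W6_19445587968_ok, W6_19428814848_ok,
    W6_18422169600_ok, W6_18405396480_ok, W6_18388623360_ok, W6_18371850240_ok, W6_17348431872_ok,
    W6_17331658752_ok, W6_17314885632_ok, W6_16274694144_ok, W6_16257921024_ok, W6_15200956416_ok,
    trivial⟩ F6_21643407360_chk

theorem V6_21643399233_ok : Fwd.Has6 Inst.T 6 V6_21643399233 :=
  fwd_sound' relAll_5_5 ks6_ok F6_21643399233
    ⟨V5_16274690112_ok, trivial⟩ ⟨W6_21559513152_ok, W6_20519063616_ok, W6_19462099008_ok,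
    W6_19445583936_ok, W6_18405134400_ok, W6_18388619328_ok, W6_17348169792_ok, W6_17331654720_ok,
    W6_16274690112_ok, trivial⟩ F6_21643399233_chk

theorem V6_21643141185_ok : Fwd.Has6 Inst.T 6 V6_21643141185 :=
  fwd_sound' relAll_5_5 ks6_ok F6_21643141185
    ⟨V5_16274432064_ok, trivial⟩ ⟨W6_21559255104_ok, W6_20519063616_ok, W6_20502290496_ok,
    W6_19462099008_ok, W6_19445325888_ok, W6_18405134400_ok, W6_18388361280_ok, W6_17348169792_ok,
    W6_17331396672_ok, W6_16274432064_ok, trivial⟩ F6_21643141185_chk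

theorem V6_21627408384_ok : Fwd.Has6 Inst.T 6 V6_21627408384 :=
  fwd_sound' relAll_5_5 ks6_ok F6_21627408384
    ⟨V5_15184957440_ok, V5_16241922048_ok, V5_16258695168_ok, V5_17315659776_ok,
    V5_16258437120_ok, V5_19429588992_ok, V5_20552355840_ok, V5_18355851264_ok, trivial⟩ ⟨
    W6_21626093568_ok, W6_21609578496_ok, W6_21609320448_ok, W6_21593063424_ok, W6_21592805376_ok,
    W6_21576548352_ok, W6_21576290304_ok, W6_20552613888_ok, W6_20552355840_ok, W6_20536098816_ok,
    W6_20535840768_ok, W6_20519583744_ok, W6_20519325696_ok, W6_20503068672_ok, W6_20502810624_ok,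
    W6_19479134208_ok, W6_19478876160_ok, W6_19462619136_ok, W6_19462361088_ok, W6_19446104064_ok,
    W6_19445846016_ok, W6_19429588992_ok, W6_19429330944_ok, W6_18405654528_ok, W6_18405396480_ok,
    W6_18389139456_ok, W6_18388881408_ok, W6_18372624384_ok, W6_18372366336_ok, W6_18355851264_ok,
    W6_17332174848_ok, W6_17331916800_ok, W6_17315659776_ok, W6_17315401728_ok, W6_17298886656_ok,
    W6_16258695168_ok, W6_16258437120_ok, W6_16241922048_ok, W6_15184957440_ok, trivial⟩
    F6_21627408384_chk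

theorem V6_21626884161_ok : Fwd.Has6 Inst.T 6 V6_21626884161 :=
  fwd_sound' relAll_5_5 ks6_ok F6_21626884161
    ⟨V5_16258175040_ok, trivial⟩ ⟨W6_21559513152_ok, W6_20519063616_ok, W6_20486033472_ok,
    W6_19462099008_ok, W6_19445583936_ok, W6_19429068864_ok, W6_18405134400_ok, W6_18388619328_ok,
    W6_18372104256_ok, W6_17331654720_ok, W6_17315139648_ok, W6_16258175040_ok, trivial⟩
    F6_21626884161_chk

theorem V6_21611151360_ok : Fwd.Has6 Inst.T 6 V6_21611151360 :=
  fwd_sound' relAll_5_5 ks6_ok F6_21611151360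
    ⟨V5_15168700416_ok, V5_16242180096_ok, V5_21609578496_ok, trivial⟩ ⟨W6_21609578496_ok,
    W6_20536098816_ok, W6_19462619136_ok, W6_18389139456_ok, W6_17315659776_ok, W6_16242180096_ok,
    W6_15168700416_ok, trivial⟩ F6_21611151360_chk

theorem V6_21610893312_ok : Fwd.Has6 Inst.T 6 V6_21610893312 :=
  fwd_sound' relAll_5_5 ks6_ok F6_21610893312
    ⟨V5_15168442368_ok, V5_16241922048_ok, V5_16242180096_ok, V5_16225406976_ok,
    V5_17298886656_ok, V5_21609320448_ok, V5_18372624384_ok, trivial⟩ ⟨W6_21609578496_ok,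
    W6_21609320448_ok, W6_21593063424_ok, W6_21592805376_ok, W6_20536098816_ok, W6_20535840768_ok,
    W6_20519583744_ok, W6_20519325696_ok, W6_19462619136_ok, W6_19462361088_ok, W6_19446104064_ok,
    W6_19445846016_ok, W6_18389139456_ok, W6_18388881408_ok, W6_18372624384_ok, W6_18372366336_ok,
    W6_17315659776_ok, W6_17315401728_ok, W6_17299144704_ok, W6_17298886656_ok, W6_16242180096_ok,
    W6_16241922048_ok, W6_16225406976_ok, W6_15168442368_ok, trivial⟩ F6_21610893312_chk

theorem V6_21610631232_ok : Fwd.Has6 Inst.T 6 V6_21610631232 :=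
  fwd_sound' relAll_5_5 ks6_ok F6_21610631232
    ⟨V5_16241922048_ok, V5_17298886656_ok, V5_18355851264_ok, V5_15168180288_ok,
    V5_21609320448_ok, trivial⟩ ⟨W6_21609320448_ok, W6_21592805376_ok, W6_21576290304_ok,
    W6_20535840768_ok, W6_20519325696_ok, W6_20519063616_ok, W6_20502810624_ok, W6_19462361088_ok,
    W6_19462099008_ok, W6_19445846016_ok, W6_19445583936_ok, W6_19429330944_ok, W6_19429068864_ok,
    W6_18388881408_ok, W6_18388619328_ok, W6_18372366336_ok, W6_18372104256_ok, W6_18355851264_ok,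
    W6_18355589184_ok, W6_17315401728_ok, W6_17315139648_ok, W6_17298886656_ok, W6_17298624576_ok,
    W6_16241922048_ok, W6_16241659968_ok, W6_16225144896_ok, W6_15168180288_ok, trivial⟩
    F6_21610631232_chk

theorem V6_21610369089_ok : Fwd.Has6 Inst.T 6 V6_21610369089 :=
  fwd_sound' relAll_5_5 ks6_ok F6_21610369089
    ⟨V5_16241659968_ok, V5_19412553792_ok, trivial⟩ ⟨W6_21559513152_ok, W6_20519063616_ok,
    W6_20486033472_ok, W6_19462099008_ok, W6_19445583936_ok, W6_19429068864_ok, W6_19412553792_ok,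
    W6_18388619328_ok, W6_18372104256_ok, W6_18355589184_ok, W6_17315139648_ok, W6_17298624576_ok,
    W6_16241659968_ok, trivial⟩ F6_21610369089_chk

theorem V6_21610119168_ok : Fwd.Has6 Inst.T 6 V6_21610119168 :=
  fwd_sound' relAll_5_5 ks6_ok F6_21610119168
    ⟨V5_15167668224_ok, V5_19462619136_ok, V5_16224632832_ok, V5_17281597440_ok,
    V5_19395526656_ok, V5_18338562048_ok, trivial⟩ ⟨W6_21576548352_ok, W6_21559775232_ok,
    W6_21543002112_ok, W6_20519583744_ok, W6_20502810624_ok, W6_20486037504_ok, W6_20469264384_ok,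
    W6_19462619136_ok, W6_19445846016_ok, W6_19429072896_ok, W6_19412299776_ok, W6_19395526656_ok,
    W6_18388881408_ok, W6_18372108288_ok, W6_18355335168_ok, W6_18338562048_ok, W6_17315143680_ok,
    W6_17298370560_ok, W6_17281597440_ok, W6_16241405952_ok, W6_16224632832_ok, W6_15167668224_ok,
    trivial⟩ F6_21610119168_chk

theorem V6_21594120192_ok : Fwd.Has6 Inst.T 6 V6_21594120192 :=
  fwd_sound' relAll_5_5 ks6_ok F6_21594120192
    ⟨V5_16225406976_ok, V5_17298886656_ok, V5_15151669248_ok, V5_18372624384_ok, trivial⟩ ⟨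
    W6_21593063424_ok, W6_21592805376_ok, W6_20519583744_ok, W6_20519325696_ok, W6_20519067648_ok,
    W6_19446104064_ok, W6_19445846016_ok, W6_19445587968_ok, W6_18372624384_ok, W6_18372366336_ok,
    W6_18372108288_ok, W6_17299144704_ok, W6_17298886656_ok, W6_17298628608_ok, W6_16225406976_ok,
    W6_16225148928_ok, W6_15151669248_ok, trivial⟩ F6_21594120192_chk

theorem V6_21593862144_ok : Fwd.Has6 Inst.T 6 V6_21593862144 :=
  fwd_sound' relAll_5_5 ks6_ok F6_21593862144
    ⟨V5_15151411200_ok, V5_16208375808_ok, V5_16225148928_ok, V5_19429588992_ok,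
    V5_17298886656_ok, V5_18372624384_ok, V5_18371850240_ok, trivial⟩ ⟨W6_21593063424_ok,
    W6_21576548352_ok, W6_21576290304_ok, W6_20519583744_ok, W6_20519325696_ok, W6_20503068672_ok,
    W6_20502810624_ok, W6_20502552576_ok, W6_19446104064_ok, W6_19445846016_ok, W6_19445587968_ok,
    W6_19429588992_ok, W6_19429330944_ok, W6_19429072896_ok, W6_19428814848_ok, W6_18372624384_ok,
    W6_18372366336_ok, W6_18372108288_ok, W6_18371850240_ok, W6_18355851264_ok, W6_18355593216_ok,
    W6_18355335168_ok, W6_17298886656_ok, W6_17298628608_ok, W6_17298370560_ok, W6_17282113536_ok,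
    W6_17281855488_ok, W6_16225148928_ok, W6_16224890880_ok, W6_16208375808_ok, W6_15151411200_ok,
    trivial⟩ F6_21593862144_chk

theorem V6_21593075841_ok : Fwd.Has6 Inst.T 6 V6_21593075841 :=
  fwd_sound' relAll_5_5 ks6_ok F6_21593075841
    ⟨V5_17298108480_ok, trivial⟩ ⟨W6_20485775424_ok, W6_19428810816_ok, W6_18371846208_ok,
    W6_18355069056_ok, W6_17298108480_ok, W6_17298104448_ok, trivial⟩ F6_21593075841_chk

theorem V6_21577089024_ok : Fwd.Has6 Inst.T 6 V6_21577089024 :=
  fwd_sound' relAll_5_5 ks6_ok F6_21577089024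
    ⟨V5_19429588992_ok, V5_17282113536_ok, V5_17281597440_ok, trivial⟩ ⟨W6_21576548352_ok,
    W6_20503068672_ok, W6_20502810624_ok, W6_19429588992_ok, W6_19429330944_ok, W6_19429072896_ok,
    W6_18355851264_ok, W6_18355593216_ok, W6_18355335168_ok, W6_17282113536_ok, W6_17281855488_ok,
    W6_17281597440_ok, W6_16208375808_ok, W6_16208117760_ok, W6_15134638080_ok, trivial⟩
    F6_21577089024_chk

theorem V6_21577080960_ok : Fwd.Has6 Inst.T 6 V6_21577080960 :=
  fwd_sound' relAll_5_5 ks6_ok F6_21577080960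
    ⟨V5_17282113536_ok, V5_15134630016_ok, V5_16208371776_ok, V5_17281589376_ok,
    V5_19428548736_ok, trivial⟩ ⟨W6_21576032256_ok, W6_20502552576_ok, W6_20502290496_ok,
    W6_19429072896_ok, W6_19428810816_ok, W6_19428548736_ok, W6_18355593216_ok, W6_18355331136_ok,
    W6_18355069056_ok, W6_17282113536_ok, W6_17281851456_ok, W6_17281589376_ok, W6_16208371776_ok,
    W6_16208109696_ok, W6_15134630016_ok, trivial⟩ F6_21577080960_chk

theorem V6_21577080897_ok : Fwd.Has6 Inst.T 6 V6_21577080897 :=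
  fwd_sound' relAll_5_5 ks6_ok F6_21577080897
    ⟨V5_16208371776_ok, trivial⟩ ⟨W6_20502290496_ok, W6_19429068864_ok, W6_19428810816_ok,
    W6_18355589184_ok, W6_18355331136_ok, W6_17281851456_ok, W6_16208371776_ok, trivial⟩
    F6_21577080897_chk

theorem V6_21576818817_ok : Fwd.Has6 Inst.T 6 V6_21576818817 :=
  fwd_sound' relAll_5_5 ks6_ok F6_21576818817
    ⟨V5_16208109696_ok, V5_17281589376_ok, trivial⟩ ⟨W6_21559255104_ok, W6_20502290496_ok,
    W6_20485775424_ok, W6_20485513344_ok, W6_19428810816_ok, W6_19428548736_ok, W6_19412295744_ok,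
    W6_18355331136_ok, W6_18355069056_ok, W6_18338816064_ok, W6_18338553984_ok, W6_17281851456_ok,
    W6_17281589376_ok, W6_16208109696_ok, trivial⟩ F6_21576818817_chk

theorem V6_21576564801_ok : Fwd.Has6 Inst.T 6 V6_21576564801 :=
  fwd_sound' relAll_5_5 ks6_ok F6_21576564801
    ⟨V5_16207855680_ok, trivial⟩ ⟨W6_20486033472_ok, W6_20469260352_ok, W6_19429068864_ok,
    W6_19412295744_ok, W6_18355331136_ok, W6_18338558016_ok, W6_18321784896_ok, W6_17281593408_ok,
    W6_17264820288_ok, W6_16207855680_ok, trivial⟩ F6_21576564801_chk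

theorem V6_21576560769_ok : Fwd.Has6 Inst.T 6 V6_21576560769 :=
  fwd_sound' relAll_5_5 ks6_ok F6_21576560769
    ⟨V5_17281589376_ok, trivial⟩ ⟨W6_20485775424_ok, W6_20469260352_ok, W6_19428810816_ok,
    W6_19412295744_ok, W6_19395518592_ok, W6_18355331136_ok, W6_18355069056_ok, W6_18338558016_ok,
    W6_18338553984_ok, W6_17281593408_ok, W6_17281589376_ok, W6_16207851648_ok, trivial⟩
    F6_21576560769_chk

theorem V6_21576556674_ok : Fwd.Has6 Inst.T 6 V6_21576556674 :=
  fwd_sound' relAll_5_5 ks6_ok F6_21576556674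
    ⟨V5_17281589376_ok, trivial⟩ ⟨W6_21542477952_ok, W6_20485513344_ok, W6_19428548736_ok,
    W6_19395518592_ok, W6_18355069056_ok, W6_18338553984_ok, W6_17281589376_ok, trivial⟩
    F6_21576556674_chk

theorem V6_21560049792_ok : Fwd.Has6 Inst.T 6 V6_21560049792 :=
  fwd_sound' relAll_5_5 ks6_ok F6_21560049792
    ⟨V5_18338562048_ok, trivial⟩ ⟨W6_20486037504_ok, W6_19412557824_ok, W6_19412299776_ok,
    W6_19412295744_ok, W6_18338816064_ok, W6_18338562048_ok, W6_18338558016_ok, W6_18338553984_ok,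
    W6_17265078336_ok, W6_17264820288_ok, W6_16191078528_ok, trivial⟩ F6_21560049792_chk

theorem V6_21559787649_ok : Fwd.Has6 Inst.T 6 V6_21559787649 :=
  fwd_sound' relAll_5_5 ks6_ok F6_21559787649
    ⟨V5_17248043136_ok, V5_16191078528_ok, trivial⟩ ⟨W6_20469260352_ok, W6_19412295744_ok,
    W6_19395518592_ok, W6_18338558016_ok, W6_18338553984_ok, W6_18321784896_ok, W6_17264820288_ok,
    W6_17248043136_ok, W6_16191078528_ok, trivial⟩ F6_21559787649_chk

theorem V6_20653277184_ok : Fwd.Has6 Inst.T 6 V6_20653277184 :=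
  fwd_sound' relAll_5_5 ks6_ok F6_20653277184
    ⟨V5_17381720064_ok, V5_16324755456_ok, trivial⟩ ⟨W6_20585644032_ok, W6_20569128960_ok,
    W6_20552613888_ok, W6_19528679424_ok, W6_19512164352_ok, W6_19495649280_ok, W6_18471714816_ok,
    W6_18455199744_ok, W6_18438684672_ok, W6_17414750208_ok, W6_17398235136_ok, W6_17381720064_ok,
    W6_16341270528_ok, W6_16324755456_ok, trivial⟩ F6_20653277184_chk

theorem V6_20653019136_ok : Fwd.Has6 Inst.T 6 V6_20653019136 :=
  fwd_sound' relAll_5_5 ks6_ok F6_20653019136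
    ⟨V5_16324497408_ok, V5_17398235136_ok, trivial⟩ ⟨W6_20569128960_ok, W6_20552355840_ok,
    W6_19512164352_ok, W6_19495391232_ok, W6_18455199744_ok, W6_18438426624_ok, W6_17398235136_ok,
    W6_17381462016_ok, W6_16341270528_ok, W6_16324497408_ok, trivial⟩ F6_20653019136_chk

theorem V6_20636762112_ok : Fwd.Has6 Inst.T 6 V6_20636762112 :=
  fwd_sound' relAll_5_5 ks6_ok F6_20636762112
    ⟨V5_15267790848_ok, V5_16308240384_ok, V5_15251275776_ok, V5_17414750208_ok,
    V5_16324755456_ok, V5_16341270528_ok, V5_18471714816_ok, trivial⟩ ⟨W6_20585644032_ok,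
    W6_20569128960_ok, W6_20552613888_ok, W6_20536098816_ok, W6_19528679424_ok, W6_19512164352_ok,
    W6_19495649280_ok, W6_19479134208_ok, W6_18471714816_ok, W6_18455199744_ok, W6_18438684672_ok,
    W6_18422169600_ok, W6_17414750208_ok, W6_17398235136_ok, W6_17381720064_ok, W6_17365204992_ok,
    W6_16341270528_ok, W6_16324755456_ok, W6_16308240384_ok, W6_15267790848_ok, W6_15251275776_ok,
    trivial⟩ F6_20636762112_chk

theorem V6_20620247040_ok : Fwd.Has6 Inst.T 6 V6_20620247040 :=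
  fwd_sound' relAll_5_5 ks6_ok F6_20620247040
    ⟨V5_15234760704_ok, V5_17348689920_ok, V5_20519583744_ok, V5_15251275776_ok, trivial⟩ ⟨
    W6_20585644032_ok, W6_20569128960_ok, W6_20552613888_ok, W6_20536098816_ok, W6_20519583744_ok,
    W6_19528679424_ok, W6_19512164352_ok, W6_19495649280_ok, W6_19479134208_ok, W6_19462619136_ok,
    W6_18471714816_ok, W6_18455199744_ok, W6_18438684672_ok, W6_18422169600_ok, W6_18405654528_ok,
    W6_17398235136_ok, W6_17381720064_ok, W6_17365204992_ok, W6_17348689920_ok, W6_16324755456_ok,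
    W6_16308240384_ok, W6_16291725312_ok, W6_15251275776_ok, W6_15234760704_ok, W6_14177796096_ok,
    trivial⟩ F6_20620247040_chk

theorem V6_20603473920_ok : Fwd.Has6 Inst.T 6 V6_20603473920 :=
  fwd_sound' relAll_5_5 ks6_ok F6_20603473920
    ⟨V5_15234760704_ok, V5_14161022976_ok, V5_15217987584_ok, V5_17348689920_ok,
    V5_16274952192_ok, V5_15234502656_ok, V5_17381462016_ok, trivial⟩ ⟨W6_20569128960_ok,
    W6_20552613888_ok, W6_20552355840_ok, W6_20536098816_ok, W6_20535840768_ok, W6_20519583744_ok,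
    W6_20519325696_ok, W6_20502810624_ok, W6_19512164352_ok, W6_19495649280_ok, W6_19495391232_ok,
    W6_19479134208_ok, W6_19478876160_ok, W6_19462619136_ok, W6_19462361088_ok, W6_19445846016_ok,
    W6_18455199744_ok, W6_18438684672_ok, W6_18438426624_ok, W6_18422169600_ok, W6_18421911552_ok,
    W6_18405654528_ok, W6_18405396480_ok, W6_18388881408_ok, W6_17381720064_ok, W6_17381462016_ok,
    W6_17365204992_ok, W6_17364946944_ok, W6_17348689920_ok, W6_17348431872_ok, W6_17331916800_ok,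
    W6_16308240384_ok, W6_16307982336_ok, W6_16291725312_ok, W6_16291467264_ok, W6_16274952192_ok,
    W6_15234760704_ok, W6_15234502656_ok, W6_15217987584_ok, W6_14161022976_ok, trivial⟩
    F6_20603473920_chk

theorem V6_20603211840_ok : Fwd.Has6 Inst.T 6 V6_20603211840 :=
  fwd_sound' relAll_5_5 ks6_ok F6_20603211840
    ⟨V5_15234502656_ok, V5_16291467264_ok, V5_14160760896_ok, V5_15234240576_ok, trivial⟩ ⟨
    W6_20552355840_ok, W6_20535840768_ok, W6_20519325696_ok, W6_20519063616_ok, W6_19495391232_ok,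
    W6_19478876160_ok, W6_19462361088_ok, W6_19462099008_ok, W6_19445583936_ok, W6_18438426624_ok,
    W6_18421911552_ok, W6_18405396480_ok, W6_18405134400_ok, W6_18388619328_ok, W6_17381462016_ok,
    W6_17364946944_ok, W6_17364684864_ok, W6_17348431872_ok, W6_17348169792_ok, W6_17331654720_ok,
    W6_16307982336_ok, W6_16291467264_ok, W6_16291205184_ok, W6_16274690112_ok, W6_15234502656_ok,
    W6_15234240576_ok, W6_15217725504_ok, W6_14160760896_ok, trivial⟩ F6_20603211840_chk

theorem V6_20586700800_ok : Fwd.Has6 Inst.T 6 V6_20586700800 :=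
  fwd_sound' relAll_5_5 ks6_ok F6_20586700800
    ⟨V5_14144249856_ok, V5_15201214464_ok, V5_15217987584_ok, V5_17348689920_ok,
    V5_16258179072_ok, V5_15217729536_ok, V5_16291209216_ok, V5_20486037504_ok, trivial⟩ ⟨
    W6_20552613888_ok, W6_20536098816_ok, W6_20535840768_ok, W6_20519583744_ok, W6_20519325696_ok,
    W6_20519067648_ok, W6_20502810624_ok, W6_20502552576_ok, W6_20486037504_ok, W6_19495649280_ok,
    W6_19479134208_ok, W6_19478876160_ok, W6_19462619136_ok, W6_19462361088_ok, W6_19462103040_ok,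
    W6_19445846016_ok, W6_19445587968_ok, W6_19429072896_ok, W6_18438684672_ok, W6_18422169600_ok,
    W6_18421911552_ok, W6_18405654528_ok, W6_18405396480_ok, W6_18405138432_ok, W6_18388881408_ok,
    W6_18388623360_ok, W6_18372108288_ok, W6_17365204992_ok, W6_17364946944_ok, W6_17348689920_ok,
    W6_17348431872_ok, W6_17348173824_ok, W6_17331916800_ok, W6_17331658752_ok, W6_17315143680_ok,
    W6_16291725312_ok, W6_16291467264_ok, W6_16291209216_ok, W6_16274952192_ok, W6_16274694144_ok,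
    W6_16258179072_ok, W6_15217987584_ok, W6_15217729536_ok, W6_15201214464_ok, W6_14144249856_ok,
    trivial⟩ F6_20586700800_chk

theorem V6_20586696768_ok : Fwd.Has6 Inst.T 6 V6_20586696768 :=
  fwd_sound' relAll_5_5 ks6_ok F6_20586696768
    ⟨V5_15217987584_ok, V5_14144245824_ok, V5_16274952192_ok, V5_15217725504_ok,
    V5_20486033472_ok, trivial⟩ ⟨W6_20552355840_ok, W6_20535840768_ok, W6_20519325696_ok,
    W6_20519063616_ok, W6_20502810624_ok, W6_20486033472_ok, W6_19495391232_ok, W6_19478876160_ok,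
    W6_19462361088_ok, W6_19462099008_ok, W6_19445846016_ok, W6_19445583936_ok, W6_19429068864_ok,
    W6_18438426624_ok, W6_18421911552_ok, W6_18405396480_ok, W6_18405134400_ok, W6_18388881408_ok,
    W6_18388619328_ok, W6_18372104256_ok, W6_17364946944_ok, W6_17364684864_ok, W6_17348431872_ok,
    W6_17348169792_ok, W6_17331916800_ok, W6_17331654720_ok, W6_17315139648_ok, W6_16291467264_ok,
    W6_16291205184_ok, W6_16274952192_ok, W6_16274690112_ok, W6_16258175040_ok, W6_15217987584_ok,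
    W6_15217725504_ok, W6_15201210432_ok, W6_14144245824_ok, trivial⟩ F6_20586696768_chk

theorem V6_20570443776_ok : Fwd.Has6 Inst.T 6 V6_20570443776 :=
  fwd_sound' relAll_5_5 ks6_ok F6_20570443776
    ⟨V5_14127992832_ok, V5_15201730560_ok, V5_15184957440_ok, V5_15201472512_ok,
    V5_16241922048_ok, V5_16274952192_ok, V5_18355851264_ok, V5_19495391232_ok, trivial⟩ ⟨
    W6_20569128960_ok, W6_20552613888_ok, W6_20552355840_ok, W6_20536098816_ok, W6_20535840768_ok,
    W6_20519583744_ok, W6_20519325696_ok, W6_20503068672_ok, W6_20502810624_ok, W6_19495649280_ok,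
    W6_19495391232_ok, W6_19479134208_ok, W6_19478876160_ok, W6_19462619136_ok, W6_19462361088_ok,
    W6_19446104064_ok, W6_19445846016_ok, W6_19429588992_ok, W6_19429330944_ok, W6_18422169600_ok,
    W6_18421911552_ok, W6_18405654528_ok, W6_18405396480_ok, W6_18389139456_ok, W6_18388881408_ok,
    W6_18372624384_ok, W6_18372366336_ok, W6_18355851264_ok, W6_17348689920_ok, W6_17348431872_ok,
    W6_17332174848_ok, W6_17331916800_ok, W6_17315659776_ok, W6_17315401728_ok, W6_17298886656_ok,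
    W6_16275210240_ok, W6_16274952192_ok, W6_16258695168_ok, W6_16258437120_ok, W6_16241922048_ok,
    W6_15201730560_ok, W6_15201472512_ok, W6_15184957440_ok, W6_14127992832_ok, trivial⟩
    F6_20570443776_chk

theorem V6_20569927680_ok : Fwd.Has6 Inst.T 6 V6_20569927680 :=
  fwd_sound' relAll_5_5 ks6_ok F6_20569927680
    ⟨V5_14127476736_ok, V5_15201214464_ok, V5_17348689920_ok, V5_16274952192_ok,
    V5_15184441344_ok, V5_16257921024_ok, V5_18355335168_ok, trivial⟩ ⟨W6_20536098816_ok,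
    W6_20519583744_ok, W6_20519325696_ok, W6_20502810624_ok, W6_20502552576_ok, W6_20486037504_ok,
    W6_20469264384_ok, W6_19479134208_ok, W6_19462619136_ok, W6_19462361088_ok, W6_19445846016_ok,
    W6_19445587968_ok, W6_19429072896_ok, W6_19428814848_ok, W6_19412299776_ok, W6_18422169600_ok,
    W6_18405654528_ok, W6_18405396480_ok, W6_18388881408_ok, W6_18388623360_ok, W6_18372108288_ok,
    W6_18371850240_ok, W6_18355335168_ok, W6_17348689920_ok, W6_17348431872_ok, W6_17331916800_ok,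
    W6_17331658752_ok, W6_17315143680_ok, W6_17314885632_ok, W6_17298370560_ok, W6_16274952192_ok,
    W6_16274694144_ok, W6_16258179072_ok, W6_16257921024_ok, W6_16241405952_ok, W6_15201214464_ok,
    W6_15200956416_ok, W6_15184441344_ok, W6_14127476736_ok, trivial⟩ F6_20569927680_chk

theorem V6_20569919553_ok : Fwd.Has6 Inst.T 6 V6_20569919553 :=
  fwd_sound' relAll_5_5 ks6_ok F6_20569919553
    ⟨V5_15201210432_ok, V5_20486033472_ok, trivial⟩ ⟨W6_20519063616_ok, W6_20486033472_ok,
    W6_19462099008_ok, W6_19445583936_ok, W6_19429068864_ok, W6_18405134400_ok, W6_18388619328_ok,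
    W6_18372104256_ok, W6_17348169792_ok, W6_17331654720_ok, W6_17315139648_ok, W6_16274690112_ok,
    W6_16258175040_ok, W6_15201210432_ok, trivial⟩ F6_20569919553_chk

theorem V6_20569661505_ok : Fwd.Has6 Inst.T 6 V6_20569661505 :=
  fwd_sound' relAll_5_5 ks6_ok F6_20569661505
    ⟨V5_15200952384_ok, V5_16274432064_ok, V5_16274690112_ok, trivial⟩ ⟨W6_20519063616_ok,
    W6_20502290496_ok, W6_20485775424_ok, W6_19462099008_ok, W6_19445583936_ok, W6_19445325888_ok,
    W6_19428810816_ok, W6_18405134400_ok, W6_18388619328_ok, W6_18388361280_ok, W6_18371846208_ok,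
    W6_17348169792_ok, W6_17331654720_ok, W6_17331396672_ok, W6_17314881600_ok, W6_16274690112_ok,
    W6_16274432064_ok, W6_16257916992_ok, W6_15200952384_ok, trivial⟩ F6_20569661505_chk

theorem V6_20554186752_ok : Fwd.Has6 Inst.T 6 V6_20554186752 :=
  fwd_sound' relAll_5_5 ks6_ok F6_20554186752
    ⟨V5_15168700416_ok, V5_15185215488_ok, V5_14111735808_ok, V5_16242180096_ok,
    V5_20552613888_ok, trivial⟩ ⟨W6_20552613888_ok, W6_20536098816_ok, W6_19479134208_ok,
    W6_19462619136_ok, W6_18405654528_ok, W6_18389139456_ok, W6_17332174848_ok, W6_17315659776_ok,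
    W6_16258695168_ok, W6_16242180096_ok, W6_15185215488_ok, W6_15168700416_ok, W6_14111735808_ok,
    trivial⟩ F6_20554186752_chk

theorem V6_20553404481_ok : Fwd.Has6 Inst.T 6 V6_20553404481 :=
  fwd_sound' relAll_5_5 ks6_ok F6_20553404481
    ⟨V5_15184695360_ok, V5_19412553792_ok, trivial⟩ ⟨W6_20519063616_ok, W6_20486033472_ok,
    W6_19462099008_ok, W6_19445583936_ok, W6_19429068864_ok, W6_19412553792_ok, W6_18405134400_ok,
    W6_18388619328_ok, W6_18372104256_ok, W6_18355589184_ok, W6_17331654720_ok, W6_17315139648_ok,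
    W6_17298624576_ok, W6_16258175040_ok, W6_16241659968_ok, W6_15184695360_ok, trivial⟩
    F6_20553404481_chk

theorem V6_20553154560_ok : Fwd.Has6 Inst.T 6 V6_20553154560 :=
  fwd_sound' relAll_5_5 ks6_ok F6_20553154560
    ⟨V5_15167668224_ok, V5_14110703616_ok, V5_18405654528_ok, V5_15184441344_ok,
    V5_19395526656_ok, trivial⟩ ⟨W6_20519583744_ok, W6_20502810624_ok, W6_20486037504_ok,
    W6_20469264384_ok, W6_19462619136_ok, W6_19445846016_ok, W6_19429072896_ok, W6_19412299776_ok,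
    W6_19395526656_ok, W6_18405654528_ok, W6_18388881408_ok, W6_18372108288_ok, W6_18355335168_ok,
    W6_18338562048_ok, W6_17331916800_ok, W6_17315143680_ok, W6_17298370560_ok, W6_17281597440_ok,
    W6_16258179072_ok, W6_16241405952_ok, W6_16224632832_ok, W6_15184441344_ok, W6_15167668224_ok,
    W6_14110703616_ok, trivial⟩ F6_20553154560_chk

theorem V6_20553146433_ok : Fwd.Has6 Inst.T 6 V6_20553146433 :=
  fwd_sound' relAll_5_5 ks6_ok F6_20553146433
    ⟨V5_15184437312_ok, V5_16258175040_ok, V5_17331396672_ok, trivial⟩ ⟨W6_20519063616_ok,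
    W6_20502290496_ok, W6_20486033472_ok, W6_20485775424_ok, W6_20469260352_ok, W6_19462099008_ok,
    W6_19445583936_ok, W6_19445325888_ok, W6_19429068864_ok, W6_19428810816_ok, W6_19412295744_ok,
    W6_18405134400_ok, W6_18388619328_ok, W6_18388361280_ok, W6_18372104256_ok, W6_18371846208_ok,
    W6_18355331136_ok, W6_17331654720_ok, W6_17331396672_ok, W6_17315139648_ok, W6_17314881600_ok,
    W6_17298366528_ok, W6_16258175040_ok, W6_16257916992_ok, W6_16241401920_ok, W6_15184437312_ok,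
    trivial⟩ F6_20553146433_chk

theorem V6_20552622210_ok : Fwd.Has6 Inst.T 6 V6_20552622210 :=
  fwd_sound' relAll_5_5 ks6_ok F6_20552622210
    ⟨V5_16257654912_ok, trivial⟩ ⟨W6_20485513344_ok, W6_19428548736_ok, W6_18371584128_ok,
    W6_17314619520_ok, W6_16257654912_ok, trivial⟩ F6_20552622210_chk

theorem V6_20537155584_ok : Fwd.Has6 Inst.T 6 V6_20537155584 :=
  fwd_sound' relAll_5_5 ks6_ok F6_20537155584
    ⟨V5_14094704640_ok, V5_15168184320_ok, V5_15168442368_ok, V5_17315659776_ok,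
    V5_16242180096_ok, V5_19462103040_ok, trivial⟩ ⟨W6_20536098816_ok, W6_20535840768_ok,
    W6_20519583744_ok, W6_20519325696_ok, W6_20519067648_ok, W6_19462619136_ok, W6_19462361088_ok,
    W6_19462103040_ok, W6_19446104064_ok, W6_19445846016_ok, W6_19445587968_ok, W6_18389139456_ok,
    W6_18388881408_ok, W6_18388623360_ok, W6_18372624384_ok, W6_18372366336_ok, W6_18372108288_ok,
    W6_17315659776_ok, W6_17315401728_ok, W6_17315143680_ok, W6_17299144704_ok, W6_17298886656_ok,
    W6_17298628608_ok, W6_16242180096_ok, W6_16241922048_ok, W6_16241664000_ok, W6_16225406976_ok,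
    W6_16225148928_ok, W6_15168442368_ok, W6_15168184320_ok, W6_15151669248_ok, W6_14094704640_ok,
    trivial⟩ F6_20537155584_chk

theorem V6_20536889409_ok : Fwd.Has6 Inst.T 6 V6_20536889409 :=
  fwd_sound' relAll_5_5 ks6_ok F6_20536889409
    ⟨V5_15168180288_ok, V5_16225144896_ok, trivial⟩ ⟨W6_20519063616_ok, W6_19462099008_ok,
    W6_19445583936_ok, W6_19429068864_ok, W6_18388619328_ok, W6_18372104256_ok, W6_18355589184_ok,
    W6_17315139648_ok, W6_17298624576_ok, W6_16241659968_ok, W6_16225144896_ok, W6_15168180288_ok,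
    trivial⟩ F6_20536889409_chk

theorem V6_20536111233_ok : Fwd.Has6 Inst.T 6 V6_20536111233 :=
  fwd_sound' relAll_5_5 ks6_ok F6_20536111233
    ⟨V5_16241139840_ok, trivial⟩ ⟨W6_20485775424_ok, W6_19428810816_ok, W6_18371846208_ok,
    W6_18355069056_ok, W6_17314881600_ok, W6_17298108480_ok, W6_17298104448_ok, W6_16241143872_ok,
    W6_16241139840_ok, trivial⟩ F6_20536111233_chk

theorem V6_20520382464_ok : Fwd.Has6 Inst.T 6 V6_20520382464 :=
  fwd_sound' relAll_5_5 ks6_ok F6_20520382464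
    ⟨V5_14077931520_ok, V5_15151411200_ok, V5_16225406976_ok, V5_18372624384_ok, trivial⟩ ⟨
    W6_20519583744_ok, W6_20519325696_ok, W6_19446104064_ok, W6_19445846016_ok, W6_19445587968_ok,
    W6_18372624384_ok, W6_18372366336_ok, W6_18372108288_ok, W6_18371850240_ok, W6_17299144704_ok,
    W6_17298886656_ok, W6_17298628608_ok, W6_17298370560_ok, W6_16225406976_ok, W6_16225148928_ok,
    W6_16224890880_ok, W6_15151669248_ok, W6_15151411200_ok, W6_14077931520_ok, trivial⟩
    F6_20520382464_chk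

theorem V6_20520374337_ok : Fwd.Has6 Inst.T 6 V6_20520374337 :=
  fwd_sound' relAll_5_5 ks6_ok F6_20520374337
    ⟨V5_15151665216_ok, trivial⟩ ⟨W6_20519063616_ok, W6_19445583936_ok, W6_18372104256_ok,
    W6_17298624576_ok, W6_16225144896_ok, W6_15151665216_ok, trivial⟩ F6_20520374337_chk

theorem V6_20519866368_ok : Fwd.Has6 Inst.T 6 V6_20519866368 :=
  fwd_sound' relAll_5_5 ks6_ok F6_20519866368
    ⟨V5_19446104064_ok, V5_15151153152_ok, trivial⟩ ⟨W6_20503068672_ok, W6_20486295552_ok,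
    W6_19446104064_ok, W6_19429330944_ok, W6_19412557824_ok, W6_18372366336_ok, W6_18355593216_ok,
    W6_17298628608_ok, W6_17281855488_ok, W6_16224890880_ok, W6_16208117760_ok, W6_15151153152_ok,
    W6_14077415424_ok, trivial⟩ F6_20519866368_chk

theorem V6_20503351296_ok : Fwd.Has6 Inst.T 6 V6_20503351296 :=
  fwd_sound' relAll_5_5 ks6_ok F6_20503351296
    ⟨V5_19429588992_ok, V5_14060900352_ok, V5_18355851264_ok, trivial⟩ ⟨W6_20503068672_ok,
    W6_19429588992_ok, W6_19429330944_ok, W6_18355851264_ok, W6_18355593216_ok, W6_17282113536_ok,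
    W6_17281855488_ok, W6_16208375808_ok, W6_16208117760_ok, W6_15134638080_ok, W6_14060900352_ok,
    trivial⟩ F6_20503351296_chk

theorem V6_20503343169_ok : Fwd.Has6 Inst.T 6 V6_20503343169 :=
  fwd_sound' relAll_5_5 ks6_ok F6_20503343169
    ⟨V5_15134634048_ok, V5_16208371776_ok, trivial⟩ ⟨W6_19429068864_ok, W6_19428810816_ok,
    W6_18355589184_ok, W6_18355331136_ok, W6_17281851456_ok, W6_17281593408_ok, W6_16208371776_ok,
    W6_16208113728_ok, W6_15134634048_ok, trivial⟩ F6_20503343169_chk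

theorem V6_20503089216_ok : Fwd.Has6 Inst.T 6 V6_20503089216 :=
  fwd_sound' relAll_5_5 ks6_ok F6_20503089216
    ⟨V5_16208117760_ok, V5_15134376000_ok, trivial⟩ ⟨W6_20486295552_ok, W6_19429330944_ok,
    W6_19412557824_ok, W6_19412553792_ok, W6_18355593216_ok, W6_18355589184_ok, W6_18338816064_ok,
    W6_17281855488_ok, W6_17281851456_ok, W6_17265078336_ok, W6_16208117760_ok, W6_16208113728_ok,
    W6_15134376000_ok, trivial⟩ F6_20503089216_chk

theorem V6_20503085121_ok : Fwd.Has6 Inst.T 6 V6_20503085121 :=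
  fwd_sound' relAll_5_5 ks6_ok F6_20503085121
    ⟨V5_16207855680_ok, V5_15134376000_ok, trivial⟩ ⟨W6_20486033472_ok, W6_19429068864_ok,
    W6_19412553792_ok, W6_19412295744_ok, W6_18355589184_ok, W6_18355331136_ok, W6_18338816064_ok,
    W6_18338558016_ok, W6_17281851456_ok, W6_17281593408_ok, W6_17265078336_ok, W6_17264820288_ok,
    W6_16208113728_ok, W6_16207855680_ok, W6_15134376000_ok, trivial⟩ F6_20503085121_chk

theorem V6_20502823104_ok : Fwd.Has6 Inst.T 6 V6_20502823104 :=
  fwd_sound' relAll_5_5 ks6_ok F6_20502823104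
    ⟨V5_17281597440_ok, V5_14060372160_ok, trivial⟩ ⟨W6_20469264384_ok, W6_19412299776_ok,
    W6_19395526656_ok, W6_18355335168_ok, W6_18338562048_ok, W6_18338558016_ok, W6_18321784896_ok,
    W6_17281597440_ok, W6_17281593408_ok, W6_17264820288_ok, W6_17248043136_ok, W6_16207855680_ok,
    W6_16207851648_ok, W6_16191078528_ok, W6_15134113920_ok, W6_14060372160_ok, trivial⟩
    F6_20502823104_chk

theorem V6_20502818946_ok : Fwd.Has6 Inst.T 6 V6_20502818946 :=
  fwd_sound' relAll_5_5 ks6_ok F6_20502818946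
    ⟨V5_16207851648_ok, trivial⟩ ⟨W6_19395518592_ok, W6_18355069056_ok, W6_18338553984_ok,
    W6_17281589376_ok, W6_16207851648_ok, trivial⟩ F6_20502818946_chk

theorem V6_20469268737_ok : Fwd.Has6 Inst.T 6 V6_20469268737 :=
  fwd_sound' relAll_5_5 ks6_ok F6_20469268737
    ⟨V5_15100559616_ok, trivial⟩ ⟨W6_18321784896_ok, W6_17248043136_ok, W6_15100559616_ok,
    trivial⟩ F6_20469268737_chk

theorem V6_19629342720_ok : Fwd.Has6 Inst.T 6 V6_19629342720 :=
  fwd_sound' relAll_5_5 ks6_ok F6_19629342720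
    ⟨V5_19528679424_ok, trivial⟩ ⟨W6_19528679424_ok, trivial⟩ F6_19629342720_chk

theorem V6_19612827648_ok : Fwd.Has6 Inst.T 6 V6_19612827648 :=
  fwd_sound' relAll_5_5 ks6_ok F6_19612827648
    ⟨V5_18455199744_ok, trivial⟩ ⟨W6_19528679424_ok, W6_19512164352_ok, W6_18471714816_ok,
    W6_18455199744_ok, trivial⟩ F6_19612827648_chk

theorem V6_19596312576_ok : Fwd.Has6 Inst.T 6 V6_19596312576 :=
  fwd_sound' relAll_5_5 ks6_ok F6_19596312576
    ⟨V5_19495649280_ok, trivial⟩ ⟨W6_19528679424_ok, W6_19512164352_ok, W6_19495649280_ok,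
    W6_18471714816_ok, W6_18455199744_ok, W6_18438684672_ok, W6_17414750208_ok, W6_17398235136_ok,
    W6_17381720064_ok, trivial⟩ F6_19596312576_chk

theorem V6_19579797504_ok : Fwd.Has6 Inst.T 6 V6_19579797504 :=
  fwd_sound' relAll_5_5 ks6_ok F6_19579797504
    ⟨V5_16308240384_ok, V5_19479134208_ok, trivial⟩ ⟨W6_19528679424_ok, W6_19512164352_ok,
    W6_19495649280_ok, W6_19479134208_ok, W6_18471714816_ok, W6_18455199744_ok, W6_18438684672_ok,
    W6_18422169600_ok, W6_17414750208_ok, W6_17398235136_ok, W6_17381720064_ok, W6_17365204992_ok,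
    W6_16341270528_ok, W6_16324755456_ok, W6_16308240384_ok, trivial⟩ F6_19579797504_chk

theorem V6_19579277376_ok : Fwd.Has6 Inst.T 6 V6_19579277376 :=
  fwd_sound' relAll_5_5 ks6_ok F6_19579277376
    ⟨V5_17364684864_ok, trivial⟩ ⟨W6_19495391232_ok, W6_18438426624_ok, W6_17381462016_ok,
    W6_17364684864_ok, W6_16324497408_ok, trivial⟩ F6_19579277376_chk

theorem V6_19562766336_ok : Fwd.Has6 Inst.T 6 V6_19562766336 :=
  fwd_sound' relAll_5_5 ks6_ok F6_19562766336
    ⟨V5_15267790848_ok, V5_15234244608_ok, V5_19462103040_ok, V5_16291209216_ok, trivial⟩ ⟨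
    W6_19495649280_ok, W6_19478876160_ok, W6_19462103040_ok, W6_18438684672_ok, W6_18421911552_ok,
    W6_18405138432_ok, W6_17381720064_ok, W6_17364946944_ok, W6_17348173824_ok, W6_16324755456_ok,
    W6_16307982336_ok, W6_16291209216_ok, W6_15267790848_ok, W6_15251017728_ok, W6_15234244608_ok,
    trivial⟩ F6_19562766336_chk

theorem V6_19546247232_ok : Fwd.Has6 Inst.T 6 V6_19546247232 :=
  fwd_sound' relAll_5_5 ks6_ok F6_19546247232
    ⟨V5_14177538048_ok, V5_15234502656_ok, V5_15251017728_ok, V5_14177275968_ok,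
    V5_16324497408_ok, V5_14160760896_ok, V5_19445583936_ok, trivial⟩ ⟨W6_19495391232_ok,
    W6_19478876160_ok, W6_19462361088_ok, W6_19462099008_ok, W6_19445583936_ok, W6_18438426624_ok,
    W6_18421911552_ok, W6_18405396480_ok, W6_18405134400_ok, W6_18388619328_ok, W6_17381462016_ok,
    W6_17364946944_ok, W6_17364684864_ok, W6_17348431872_ok, W6_17348169792_ok, W6_17331654720_ok,
    W6_16324497408_ok, W6_16307982336_ok, W6_16291467264_ok, W6_16291205184_ok, W6_16274690112_ok,
    W6_15251017728_ok, W6_15234502656_ok, W6_15234240576_ok, W6_15217725504_ok, W6_14177538048_ok,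
    W6_14177275968_ok, W6_14160760896_ok, trivial⟩ F6_19546247232_chk

theorem V6_19545985089_ok : Fwd.Has6 Inst.T 6 V6_19545985089 :=
  fwd_sound' relAll_5_5 ks6_ok F6_19545985089
    ⟨V5_14177275968_ok, trivial⟩ ⟨W6_19462099008_ok, W6_18405134400_ok, W6_17364684864_ok,
    W6_17348169792_ok, W6_16291205184_ok, W6_15234240576_ok, W6_14177275968_ok, trivial⟩
    F6_19545985089_chk

theorem V6_19529732160_ok : Fwd.Has6 Inst.T 6 V6_19529732160 :=
  fwd_sound' relAll_5_5 ks6_ok F6_19529732160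
    ⟨V5_14161022976_ok, V5_15217987584_ok, V5_14144245824_ok, V5_15234502656_ok,
    V5_14160760896_ok, trivial⟩ ⟨W6_19495391232_ok, W6_19478876160_ok, W6_19462361088_ok,
    W6_19462099008_ok, W6_19445846016_ok, W6_19445583936_ok, W6_19429068864_ok, W6_18438426624_ok,
    W6_18421911552_ok, W6_18405396480_ok, W6_18405134400_ok, W6_18388881408_ok, W6_18388619328_ok,
    W6_18372104256_ok, W6_17381462016_ok, W6_17364946944_ok, W6_17364684864_ok, W6_17348431872_ok,
    W6_17348169792_ok, W6_17331916800_ok, W6_17331654720_ok, W6_17315139648_ok, W6_16307982336_ok,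
    W6_16291467264_ok, W6_16291205184_ok, W6_16274952192_ok, W6_16274690112_ok, W6_16258175040_ok,
    W6_15234502656_ok, W6_15234240576_ok, W6_15217987584_ok, W6_15217725504_ok, W6_15201210432_ok,
    W6_14161022976_ok, W6_14160760896_ok, W6_14144245824_ok, trivial⟩ F6_19529732160_chk

theorem V6_19513479168_ok : Fwd.Has6 Inst.T 6 V6_19513479168 :=
  fwd_sound' relAll_5_5 ks6_ok F6_19513479168
    ⟨V5_13071028224_ok, V5_14127992832_ok, V5_15201730560_ok, V5_14144507904_ok,
    V5_15184957440_ok, V5_14144765952_ok, V5_19429588992_ok, V5_15217987584_ok, trivial⟩ ⟨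
    W6_19512164352_ok, W6_19495649280_ok, W6_19495391232_ok, W6_19479134208_ok, W6_19478876160_ok,
    W6_19462619136_ok, W6_19462361088_ok, W6_19446104064_ok, W6_19445846016_ok, W6_19429588992_ok,
    W6_19429330944_ok, W6_18438684672_ok, W6_18438426624_ok, W6_18422169600_ok, W6_18421911552_ok,
    W6_18405654528_ok, W6_18405396480_ok, W6_18389139456_ok, W6_18388881408_ok, W6_18372624384_ok,
    W6_18372366336_ok, W6_18355851264_ok, W6_17365204992_ok, W6_17364946944_ok, W6_17348689920_ok,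
    W6_17348431872_ok, W6_17332174848_ok, W6_17331916800_ok, W6_17315659776_ok, W6_17315401728_ok,
    W6_17298886656_ok, W6_16291725312_ok, W6_16291467264_ok, W6_16275210240_ok, W6_16274952192_ok,
    W6_16258695168_ok, W6_16258437120_ok, W6_16241922048_ok, W6_15218245632_ok, W6_15217987584_ok,
    W6_15201730560_ok, W6_15201472512_ok, W6_15184957440_ok, W6_14144765952_ok, W6_14144507904_ok,
    W6_14127992832_ok, W6_13071028224_ok, trivial⟩ F6_19513479168_chk

theorem V6_19513221120_ok : Fwd.Has6 Inst.T 6 V6_19513221120 :=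
  fwd_sound' relAll_5_5 ks6_ok F6_19513221120
    ⟨V5_13070770176_ok, V5_14127734784_ok, V5_14144507904_ok, V5_14144249856_ok,
    V5_15201214464_ok, V5_15218245632_ok, V5_15201472512_ok, V5_15217987584_ok, V5_15217729536_ok,
    V5_16291209216_ok, V5_18355593216_ok, trivial⟩ ⟨W6_19495649280_ok, W6_19479134208_ok,
    W6_19478876160_ok, W6_19462619136_ok, W6_19462361088_ok, W6_19462103040_ok, W6_19446104064_ok,
    W6_19445846016_ok, W6_19445587968_ok, W6_19429330944_ok, W6_19429072896_ok, W6_19412557824_ok,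
    W6_18438684672_ok, W6_18422169600_ok, W6_18421911552_ok, W6_18405654528_ok, W6_18405396480_ok,
    W6_18405138432_ok, W6_18389139456_ok, W6_18388881408_ok, W6_18388623360_ok, W6_18372366336_ok,
    W6_18372108288_ok, W6_18355593216_ok, W6_17365204992_ok, W6_17364946944_ok, W6_17348689920_ok,
    W6_17348431872_ok, W6_17348173824_ok, W6_17332174848_ok, W6_17331916800_ok, W6_17331658752_ok,
    W6_17315401728_ok, W6_17315143680_ok, W6_17298628608_ok, W6_16291725312_ok, W6_16291467264_ok,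
    W6_16291209216_ok, W6_16275210240_ok, W6_16274952192_ok, W6_16274694144_ok, W6_16258437120_ok,
    W6_16258179072_ok, W6_16241664000_ok, W6_15218245632_ok, W6_15217987584_ok, W6_15217729536_ok,
    W6_15201472512_ok, W6_15201214464_ok, W6_15184699392_ok, W6_14144507904_ok, W6_14144249856_ok,
    W6_14127734784_ok, W6_13070770176_ok, trivial⟩ F6_19513221120_chk

theorem V6_19512963072_ok : Fwd.Has6 Inst.T 6 V6_19512963072 :=
  fwd_sound' relAll_5_5 ks6_ok F6_19512963072
    ⟨V5_13070512128_ok, V5_15217987584_ok, V5_14127476736_ok, V5_15201214464_ok,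
    V5_17348689920_ok, V5_14143991808_ok, V5_14144249856_ok, trivial⟩ ⟨W6_19479134208_ok,
    W6_19462619136_ok, W6_19462361088_ok, W6_19445846016_ok, W6_19445587968_ok, W6_19429072896_ok,
    W6_19428814848_ok, W6_19412299776_ok, W6_18422169600_ok, W6_18405654528_ok, W6_18405396480_ok,
    W6_18388881408_ok, W6_18388623360_ok, W6_18372108288_ok, W6_18371850240_ok, W6_18355335168_ok,
    W6_17365204992_ok, W6_17348689920_ok, W6_17348431872_ok, W6_17331916800_ok, W6_17331658752_ok,
    W6_17315143680_ok, W6_17314885632_ok, W6_17298370560_ok, W6_16291725312_ok, W6_16291467264_ok,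
    W6_16274952192_ok, W6_16274694144_ok, W6_16258179072_ok, W6_16257921024_ok, W6_16241405952_ok,
    W6_15217987584_ok, W6_15217729536_ok, W6_15201214464_ok, W6_15200956416_ok, W6_15184441344_ok,
    W6_14144249856_ok, W6_14143991808_ok, W6_14127476736_ok, W6_13070512128_ok, trivial⟩
    F6_19512963072_chk

theorem V6_19512954945_ok : Fwd.Has6 Inst.T 6 V6_19512954945 :=
  fwd_sound' relAll_5_5 ks6_ok F6_19512954945
    ⟨V5_14144245824_ok, V5_17364684864_ok, trivial⟩ ⟨W6_19462099008_ok, W6_19445583936_ok,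
    W6_19429068864_ok, W6_18405134400_ok, W6_18388619328_ok, W6_18372104256_ok, W6_17364684864_ok,
    W6_17348169792_ok, W6_17331654720_ok, W6_17315139648_ok, W6_16291205184_ok, W6_16274690112_ok,
    W6_16258175040_ok, W6_15217725504_ok, W6_15201210432_ok, W6_14144245824_ok, trivial⟩
    F6_19512954945_chk

theorem V6_19496964096_ok : Fwd.Has6 Inst.T 6 V6_19496964096 :=
  fwd_sound' relAll_5_5 ks6_ok F6_19496964096
    ⟨V5_14127992832_ok, V5_13054513152_ok, V5_15201730560_ok, V5_14128250880_ok,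
    V5_14111477760_ok, V5_15184957440_ok, V5_15168442368_ok, V5_16225406976_ok, V5_19495391232_ok,
    V5_16242180096_ok, trivial⟩ ⟨W6_19495649280_ok, W6_19495391232_ok, W6_19479134208_ok,
    W6_19478876160_ok, W6_19462619136_ok, W6_19462361088_ok, W6_19446104064_ok, W6_19445846016_ok,
    W6_18422169600_ok, W6_18421911552_ok, W6_18405654528_ok, W6_18405396480_ok, W6_18389139456_ok,
    W6_18388881408_ok, W6_18372624384_ok, W6_18372366336_ok, W6_17348689920_ok, W6_17348431872_ok,
    W6_17332174848_ok, W6_17331916800_ok, W6_17315659776_ok, W6_17315401728_ok, W6_17299144704_ok,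
    W6_17298886656_ok, W6_16275210240_ok, W6_16274952192_ok, W6_16258695168_ok, W6_16258437120_ok,
    W6_16242180096_ok, W6_16241922048_ok, W6_16225406976_ok, W6_15201730560_ok, W6_15201472512_ok,
    W6_15185215488_ok, W6_15184957440_ok, W6_15168442368_ok, W6_14128250880_ok, W6_14127992832_ok,
    W6_14111477760_ok, W6_13054513152_ok, trivial⟩ F6_19496964096_chk

theorem V6_19496706048_ok : Fwd.Has6 Inst.T 6 V6_19496706048 :=
  fwd_sound' relAll_5_5 ks6_ok F6_19496706048
    ⟨V5_13054255104_ok, V5_15201730560_ok, V5_14127992832_ok, V5_14127734784_ok,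
    V5_15168184320_ok, V5_14111219712_ok, V5_15201214464_ok, V5_17282113536_ok, V5_17348173824_ok,
    V5_19429588992_ok, trivial⟩ ⟨W6_19495649280_ok, W6_19479134208_ok, W6_19478876160_ok,
    W6_19462619136_ok, W6_19462361088_ok, W6_19462103040_ok, W6_19446104064_ok, W6_19445846016_ok,
    W6_19445587968_ok, W6_19429588992_ok, W6_19429330944_ok, W6_19429072896_ok, W6_18422169600_ok,
    W6_18421911552_ok, W6_18405654528_ok, W6_18405396480_ok, W6_18405138432_ok, W6_18389139456_ok,
    W6_18388881408_ok, W6_18388623360_ok, W6_18372624384_ok, W6_18372366336_ok, W6_18372108288_ok,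
    W6_18355851264_ok, W6_18355593216_ok, W6_17348689920_ok, W6_17348431872_ok, W6_17348173824_ok,
    W6_17332174848_ok, W6_17331916800_ok, W6_17331658752_ok, W6_17315659776_ok, W6_17315401728_ok,
    W6_17315143680_ok, W6_17298886656_ok, W6_17298628608_ok, W6_17282113536_ok, W6_16275210240_ok,
    W6_16274952192_ok, W6_16274694144_ok, W6_16258695168_ok, W6_16258437120_ok, W6_16258179072_ok,
    W6_16241922048_ok, W6_16241664000_ok, W6_16225148928_ok, W6_15201730560_ok, W6_15201472512_ok,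
    W6_15201214464_ok, W6_15184957440_ok, W6_15184699392_ok, W6_15168184320_ok, W6_14127992832_ok,
    W6_14127734784_ok, W6_14111219712_ok, W6_13054255104_ok, trivial⟩ F6_19496706048_chk

theorem V6_19496702016_ok : Fwd.Has6 Inst.T 6 V6_19496702016 :=
  fwd_sound' relAll_5_5 ks6_ok F6_19496702016
    ⟨V5_14127992832_ok, V5_15184957440_ok, V5_15201472512_ok, V5_14111215680_ok,
    V5_14127730752_ok, V5_16225144896_ok, trivial⟩ ⟨W6_19495391232_ok, W6_19478876160_ok,
    W6_19462361088_ok, W6_19462099008_ok, W6_19445846016_ok, W6_19445583936_ok, W6_19429330944_ok,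
    W6_19429068864_ok, W6_18421911552_ok, W6_18405396480_ok, W6_18405134400_ok, W6_18388881408_ok,
    W6_18388619328_ok, W6_18372366336_ok, W6_18372104256_ok, W6_18355851264_ok, W6_18355589184_ok,
    W6_17348431872_ok, W6_17348169792_ok, W6_17331916800_ok, W6_17331654720_ok, W6_17315401728_ok,
    W6_17315139648_ok, W6_17298886656_ok, W6_17298624576_ok, W6_16274952192_ok, W6_16274690112_ok,
    W6_16258437120_ok, W6_16258175040_ok, W6_16241922048_ok, W6_16241659968_ok, W6_16225144896_ok,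
    W6_15201472512_ok, W6_15201210432_ok, W6_15184957440_ok, W6_15184695360_ok, W6_15168180288_ok,
    W6_14127992832_ok, W6_14127730752_ok, W6_14111215680_ok, W6_13054251072_ok, trivial⟩
    F6_19496702016_chk

theorem V6_19496439873_ok : Fwd.Has6 Inst.T 6 V6_19496439873 :=
  fwd_sound' relAll_5_5 ks6_ok F6_19496439873
    ⟨V5_14127730752_ok, V5_15201210432_ok, V5_19412553792_ok, trivial⟩ ⟨W6_19462099008_ok,
    W6_19445583936_ok, W6_19429068864_ok, W6_19412553792_ok, W6_18405134400_ok, W6_18388619328_ok,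
    W6_18372104256_ok, W6_18355589184_ok, W6_17348169792_ok, W6_17331654720_ok, W6_17315139648_ok,
    W6_17298624576_ok, W6_16274690112_ok, W6_16258175040_ok, W6_16241659968_ok, W6_15201210432_ok,
    W6_15184695360_ok, W6_14127730752_ok, trivial⟩ F6_19496439873_chk

theorem V6_19496189952_ok : Fwd.Has6 Inst.T 6 V6_19496189952 :=
  fwd_sound' relAll_5_5 ks6_ok F6_19496189952
    ⟨V5_13053739008_ok, V5_17348689920_ok, V5_15201214464_ok, V5_14127476736_ok,
    V5_15167668224_ok, V5_19395526656_ok, trivial⟩ ⟨W6_19462619136_ok, W6_19445846016_ok,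
    W6_19429072896_ok, W6_19412299776_ok, W6_19395526656_ok, W6_18405654528_ok, W6_18388881408_ok,
    W6_18372108288_ok, W6_18355335168_ok, W6_18338562048_ok, W6_17348689920_ok, W6_17331916800_ok,
    W6_17315143680_ok, W6_17298370560_ok, W6_17281597440_ok, W6_16274952192_ok, W6_16258179072_ok,
    W6_16241405952_ok, W6_16224632832_ok, W6_15201214464_ok, W6_15184441344_ok, W6_15167668224_ok,
    W6_14127476736_ok, W6_14110703616_ok, W6_13053739008_ok, trivial⟩ F6_19496189952_chk

theorem V6_19496181888_ok : Fwd.Has6 Inst.T 6 V6_19496181888 :=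
  fwd_sound' relAll_5_5 ks6_ok F6_19496181888
    ⟨V5_15201214464_ok, V5_13053730944_ok, V5_16258179072_ok, V5_14127472704_ok,
    V5_17348173824_ok, V5_19395518592_ok, trivial⟩ ⟨W6_19462103040_ok, W6_19445587968_ok,
    W6_19445325888_ok, W6_19429072896_ok, W6_19428810816_ok, W6_19428548736_ok, W6_19412295744_ok,
    W6_19395518592_ok, W6_18405138432_ok, W6_18388623360_ok, W6_18388361280_ok, W6_18372108288_ok,
    W6_18371846208_ok, W6_18371584128_ok, W6_18355331136_ok, W6_18355069056_ok, W6_18338553984_ok,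
    W6_17348173824_ok, W6_17331658752_ok, W6_17331396672_ok, W6_17315143680_ok, W6_17314881600_ok,
    W6_17314619520_ok, W6_17298366528_ok, W6_17298104448_ok, W6_17281589376_ok, W6_16274694144_ok,
    W6_16274432064_ok, W6_16258179072_ok, W6_16257916992_ok, W6_16257654912_ok, W6_16241401920_ok,
    W6_16241139840_ok, W6_16224624768_ok, W6_15201214464_ok, W6_15200952384_ok, W6_15200690304_ok,
    W6_15184437312_ok, W6_15184175232_ok, W6_15167660160_ok, W6_14127472704_ok, W6_14127210624_ok,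
    W6_14110695552_ok, W6_13053730944_ok, trivial⟩ F6_19496181888_chk

theorem V6_19495923777_ok : Fwd.Has6 Inst.T 6 V6_19495923777 :=
  fwd_sound' relAll_5_5 ks6_ok F6_19495923777
    ⟨V5_15200952384_ok, V5_15184179264_ok, trivial⟩ ⟨W6_19445583936_ok, W6_19428810816_ok,
    W6_18388619328_ok, W6_18371846208_ok, W6_17331654720_ok, W6_17314881600_ok, W6_17298108480_ok,
    W6_16274690112_ok, W6_16257916992_ok, W6_16241143872_ok, W6_15200952384_ok, W6_15184179264_ok,
    W6_14127214656_ok, trivial⟩ F6_19495923777_chk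

theorem V6_19480707072_ok : Fwd.Has6 Inst.T 6 V6_19480707072 :=
  fwd_sound' relAll_5_5 ks6_ok F6_19480707072
    ⟨V5_14111735808_ok, V5_15185215488_ok, trivial⟩ ⟨W6_19479134208_ok, W6_18405654528_ok,
    W6_17332174848_ok, W6_16258695168_ok, W6_15185215488_ok, W6_14111735808_ok, trivial⟩
    F6_19480707072_chk

theorem V6_19480186944_ok : Fwd.Has6 Inst.T 6 V6_19480186944 :=
  fwd_sound' relAll_5_5 ks6_ok F6_19480186944
    ⟨V5_14111477760_ok, V5_15184957440_ok, V5_15168442368_ok, V5_13037736000_ok,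
    V5_14111215680_ok, V5_15151665216_ok, V5_16225406976_ok, trivial⟩ ⟨W6_19478876160_ok,
    W6_19462361088_ok, W6_19462099008_ok, W6_19445846016_ok, W6_19445583936_ok, W6_18405396480_ok,
    W6_18405134400_ok, W6_18388881408_ok, W6_18388619328_ok, W6_18372366336_ok, W6_18372104256_ok,
    W6_17331916800_ok, W6_17331654720_ok, W6_17315401728_ok, W6_17315139648_ok, W6_17298886656_ok,
    W6_17298624576_ok, W6_16258437120_ok, W6_16258175040_ok, W6_16241922048_ok, W6_16241659968_ok,
    W6_16225406976_ok, W6_16225144896_ok, W6_15184957440_ok, W6_15184695360_ok, W6_15168442368_ok,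
    W6_15168180288_ok, W6_15151665216_ok, W6_14111477760_ok, W6_14111215680_ok, W6_14094700608_ok,
    W6_13037736000_ok, trivial⟩ F6_19480186944_chk

theorem V6_19479924801_ok : Fwd.Has6 Inst.T 6 V6_19479924801 :=
  fwd_sound' relAll_5_5 ks6_ok F6_19479924801
    ⟨V5_14111215680_ok, V5_18405134400_ok, V5_16225144896_ok, trivial⟩ ⟨W6_19462099008_ok,
    W6_19445583936_ok, W6_19429068864_ok, W6_18405134400_ok, W6_18388619328_ok, W6_18372104256_ok,
    W6_18355589184_ok, W6_17331654720_ok, W6_17315139648_ok, W6_17298624576_ok, W6_16258175040_ok,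
    W6_16241659968_ok, W6_16225144896_ok, W6_15184695360_ok, W6_15168180288_ok, W6_14111215680_ok,
    trivial⟩ F6_19479924801_chk

theorem V6_19479146688_ok : Fwd.Has6 Inst.T 6 V6_19479146688 :=
  fwd_sound' relAll_5_5 ks6_ok F6_19479146688
    ⟨V5_15184179264_ok, trivial⟩ ⟨W6_19428814848_ok, W6_18371850240_ok, W6_17314885632_ok,
    W6_17298108480_ok, W6_16257921024_ok, W6_16241143872_ok, W6_15184179264_ok, W6_14110437504_ok,
    trivial⟩ F6_19479146688_chk

theorem V6_19462901760_ok : Fwd.Has6 Inst.T 6 V6_19462901760 :=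
  fwd_sound' relAll_5_5 ks6_ok F6_19462901760
    ⟨V5_18389139456_ok, V5_14094188544_ok, V5_13020450816_ok, V5_14077415424_ok, trivial⟩ ⟨
    W6_19446104064_ok, W6_19429330944_ok, W6_19412557824_ok, W6_18389139456_ok, W6_18372366336_ok,
    W6_18355593216_ok, W6_17315401728_ok, W6_17298628608_ok, W6_17281855488_ok, W6_16241664000_ok,
    W6_16224890880_ok, W6_16208117760_ok, W6_15167926272_ok, W6_15151153152_ok, W6_14094188544_ok,
    W6_14077415424_ok, W6_13020450816_ok, trivial⟩ F6_19462901760_chk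

theorem V6_19462635585_ok : Fwd.Has6 Inst.T 6 V6_19462635585 :=
  fwd_sound' relAll_5_5 ks6_ok F6_19462635585
    ⟨V5_14093926464_ok, V5_15150891072_ok, V5_16207855680_ok, trivial⟩ ⟨W6_19429068864_ok,
    W6_19412295744_ok, W6_18372104256_ok, W6_18355331136_ok, W6_18338558016_ok, W6_18321784896_ok,
    W6_17315139648_ok, W6_17298366528_ok, W6_17281593408_ok, W6_17264820288_ok, W6_16241401920_ok,
    W6_16224628800_ok, W6_16207855680_ok, W6_15167664192_ok, W6_15150891072_ok, W6_14093926464_ok,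
    trivial⟩ F6_19462635585_chk

theorem V6_19462631616_ok : Fwd.Has6 Inst.T 6 V6_19462631616 :=
  fwd_sound' relAll_5_5 ks6_ok F6_19462631616
    ⟨V5_16241405952_ok, trivial⟩ ⟨W6_19428814848_ok, W6_19412299776_ok, W6_18371850240_ok,
    W6_18355335168_ok, W6_18338558016_ok, W6_17314885632_ok, W6_17298370560_ok, W6_17298108480_ok,
    W6_17281593408_ok, W6_16241405952_ok, W6_16241143872_ok, W6_16224628800_ok, W6_16207851648_ok,
    W6_15167664192_ok, W6_15150887040_ok, W6_14093922432_ok, trivial⟩ F6_19462631616_chk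

theorem V6_19446644736_ok : Fwd.Has6 Inst.T 6 V6_19446644736 :=
  fwd_sound' relAll_5_5 ks6_ok F6_19446644736
    ⟨V5_14077673472_ok, V5_16225406976_ok, V5_16224632832_ok, V5_14077931520_ok,
    V5_13004193792_ok, trivial⟩ ⟨W6_19446104064_ok, W6_19445846016_ok, W6_18372624384_ok,
    W6_18372366336_ok, W6_18372108288_ok, W6_17299144704_ok, W6_17298886656_ok, W6_17298628608_ok,
    W6_17298370560_ok, W6_16225406976_ok, W6_16225148928_ok, W6_16224890880_ok, W6_16224632832_ok,
    W6_15151669248_ok, W6_15151411200_ok, W6_15151153152_ok, W6_14077931520_ok, W6_14077673472_ok,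
    W6_13004193792_ok, trivial⟩ F6_19446644736_chk

theorem V6_19446636609_ok : Fwd.Has6 Inst.T 6 V6_19446636609 :=
  fwd_sound' relAll_5_5 ks6_ok F6_19446636609
    ⟨V5_15151665216_ok, V5_15151407168_ok, trivial⟩ ⟨W6_19445583936_ok, W6_19445325888_ok,
    W6_18372104256_ok, W6_18371846208_ok, W6_17298624576_ok, W6_17298366528_ok, W6_16225144896_ok,
    W6_16224886848_ok, W6_15151665216_ok, W6_15151407168_ok, W6_14077927488_ok, trivial⟩
    F6_19446636609_chk

theorem V6_19446386688_ok : Fwd.Has6 Inst.T 6 V6_19446386688 :=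
  fwd_sound' relAll_5_5 ks6_ok F6_19446386688
    ⟨V5_19429588992_ok, V5_18372624384_ok, V5_14077673472_ok, V5_13003935744_ok,
    V5_14077415424_ok, trivial⟩ ⟨W6_19446104064_ok, W6_19429588992_ok, W6_19429330944_ok,
    W6_18372624384_ok, W6_18372366336_ok, W6_18355851264_ok, W6_18355593216_ok, W6_17298886656_ok,
    W6_17298628608_ok, W6_17282113536_ok, W6_17281855488_ok, W6_16225148928_ok, W6_16224890880_ok,
    W6_16208375808_ok, W6_16208117760_ok, W6_15151411200_ok, W6_15151153152_ok, W6_15134638080_ok,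
    W6_14077673472_ok, W6_14077415424_ok, W6_14060900352_ok, W6_13003935744_ok, trivial⟩
    F6_19446386688_chk

theorem V6_19446374529_ok : Fwd.Has6 Inst.T 6 V6_19446374529 :=
  fwd_sound' relAll_5_5 ks6_ok F6_19446374529
    ⟨V5_15134630016_ok, V5_15151407168_ok, V5_16208371776_ok, V5_18371584128_ok, trivial⟩ ⟨
    W6_19445325888_ok, W6_19428810816_ok, W6_19428548736_ok, W6_18371846208_ok, W6_18371584128_ok,
    W6_18355331136_ok, W6_18355069056_ok, W6_17298366528_ok, W6_17298104448_ok, W6_17281851456_ok,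
    W6_17281589376_ok, W6_16224886848_ok, W6_16224624768_ok, W6_16208371776_ok, W6_16208109696_ok,
    W6_15151407168_ok, W6_15151145088_ok, W6_15134630016_ok, W6_14077665408_ok, trivial⟩
    F6_19446374529_chk

theorem V6_19446124608_ok : Fwd.Has6 Inst.T 6 V6_19446124608 :=
  fwd_sound' relAll_5_5 ks6_ok F6_19446124608
    ⟨V5_18372366336_ok, V5_15151153152_ok, trivial⟩ ⟨W6_19429330944_ok, W6_19412557824_ok,
    W6_19412553792_ok, W6_18372366336_ok, W6_18355593216_ok, W6_18355589184_ok, W6_18338816064_ok,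
    W6_17298628608_ok, W6_17298624576_ok, W6_17281855488_ok, W6_17281851456_ok, W6_17265078336_ok,
    W6_16224890880_ok, W6_16224886848_ok, W6_16208117760_ok, W6_16208113728_ok, W6_15151153152_ok,
    W6_15151149120_ok, W6_15134376000_ok, W6_14077415424_ok, W6_14077411392_ok, W6_13003673664_ok,
    trivial⟩ F6_19446124608_chk

theorem V6_19429613568_ok : Fwd.Has6 Inst.T 6 V6_19429613568 :=
  fwd_sound' relAll_5_5 ks6_ok F6_19429613568
    ⟨V5_12987162624_ok, V5_19429588992_ok, V5_14060900352_ok, trivial⟩ ⟨W6_19429588992_ok,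
    W6_18355851264_ok, W6_17282113536_ok, W6_16208375808_ok, W6_15134638080_ok, W6_14060900352_ok,
    W6_12987162624_ok, trivial⟩ F6_19429613568_chk

theorem V6_19429601472_ok : Fwd.Has6 Inst.T 6 V6_19429601472 :=
  fwd_sound' relAll_5_5 ks6_ok F6_19429601472
    ⟨V5_16208375808_ok, trivial⟩ ⟨W6_19428814848_ok, W6_18355335168_ok, W6_17281855488_ok,
    W6_17281593408_ok, W6_16208375808_ok, W6_16208113728_ok, W6_16207851648_ok, W6_15134634048_ok,
    W6_15134371968_ok, W6_14060892288_ok, trivial⟩ F6_19429601472_chk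

theorem V6_19429347456_ok : Fwd.Has6 Inst.T 6 V6_19429347456 :=
  fwd_sound' relAll_5_5 ks6_ok F6_19429347456
    ⟨V5_16208117760_ok, trivial⟩ ⟨W6_19412557824_ok, W6_18355593216_ok, W6_18338816064_ok,
    W6_17281855488_ok, W6_17281851456_ok, W6_17265078336_ok, W6_16208117760_ok, W6_16208113728_ok,
    W6_16208109696_ok, W6_15134376000_ok, W6_15134371968_ok, W6_14060634240_ok, trivial⟩
    F6_19429347456_chk

theorem V6_19429347393_ok : Fwd.Has6 Inst.T 6 V6_19429347393 :=
  fwd_sound' relAll_5_5 ks6_ok F6_19429347393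
    ⟨V5_15134376000_ok, trivial⟩ ⟨W6_19412553792_ok, W6_18355589184_ok, W6_18338816064_ok,
    W6_17281851456_ok, W6_17265078336_ok, W6_16208113728_ok, W6_15134376000_ok, trivial⟩
    F6_19429347393_chk

theorem V6_19429081344_ok : Fwd.Has6 Inst.T 6 V6_19429081344 :=
  fwd_sound' relAll_5_5 ks6_ok F6_19429081344
    ⟨V5_17281597440_ok, V5_12986630400_ok, trivial⟩ ⟨W6_19395526656_ok, W6_18338562048_ok,
    W6_18321784896_ok, W6_17281597440_ok, W6_17264820288_ok, W6_17248043136_ok, W6_16207855680_ok,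
    W6_16191078528_ok, W6_15134113920_ok, W6_15100559616_ok, W6_14060372160_ok, W6_12986630400_ok,
    trivial⟩ F6_19429081344_chk

theorem V6_19412304129_ok : Fwd.Has6 Inst.T 6 V6_19412304129 :=
  fwd_sound' relAll_5_5 ks6_ok F6_19412304129
    ⟨V5_15100559616_ok, trivial⟩ ⟨W6_18321784896_ok, W6_17264820288_ok, W6_17248043136_ok,
    W6_16191078528_ok, W6_15100559616_ok, trivial⟩ F6_19412304129_chk

theorem V6_19395526914_ok : Fwd.Has6 Inst.T 6 V6_19395526914 :=
  fwd_sound' relAll_5_5 ks6_ok F6_19395526914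
    ⟨V5_15100559616_ok, trivial⟩ ⟨W6_17248043136_ok, W6_15100559616_ok, trivial⟩
    F6_19395526914_chk

theorem V6_18539347968_ok : Fwd.Has6 Inst.T 6 V6_18539347968 :=
  fwd_sound' relAll_5_5 ks6_ok F6_18539347968
    ⟨V5_18471714816_ok, trivial⟩ ⟨W6_18471714816_ok, W6_18455199744_ok, W6_18438684672_ok,
    trivial⟩ F6_18539347968_chk

theorem V6_18539089920_ok : Fwd.Has6 Inst.T 6 V6_18539089920 :=
  fwd_sound' relAll_5_5 ks6_ok F6_18539089920
    ⟨V5_18438426624_ok, trivial⟩ ⟨W6_18455199744_ok, W6_18438426624_ok, trivial⟩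
    F6_18539089920_chk

theorem V6_18522832896_ok : Fwd.Has6 Inst.T 6 V6_18522832896 :=
  fwd_sound' relAll_5_5 ks6_ok F6_18522832896
    ⟨V5_17381720064_ok, trivial⟩ ⟨W6_18471714816_ok, W6_18455199744_ok, W6_18438684672_ok,
    W6_18422169600_ok, W6_17414750208_ok, W6_17398235136_ok, W6_17381720064_ok, W6_17365204992_ok,
    trivial⟩ F6_18522832896_chk

theorem V6_18522574848_ok : Fwd.Has6 Inst.T 6 V6_18522574848 :=
  fwd_sound' relAll_5_5 ks6_ok F6_18522574848
    ⟨V5_17364946944_ok, trivial⟩ ⟨W6_18455199744_ok, W6_18438684672_ok, W6_18438426624_ok,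
    W6_18421911552_ok, W6_17398235136_ok, W6_17381720064_ok, W6_17381462016_ok, W6_17364946944_ok,
    trivial⟩ F6_18522574848_chk

theorem V6_18505797696_ok : Fwd.Has6 Inst.T 6 V6_18505797696 :=
  fwd_sound' relAll_5_5 ks6_ok F6_18505797696
    ⟨V5_16307982336_ok, trivial⟩ ⟨W6_18438426624_ok, W6_18421911552_ok, W6_18405134400_ok,
    W6_17381462016_ok, W6_17364946944_ok, W6_17364684864_ok, W6_17348169792_ok, W6_16324497408_ok,
    W6_16307982336_ok, W6_16291205184_ok, trivial⟩ F6_18505797696_chk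

theorem V6_18472505409_ok : Fwd.Has6 Inst.T 6 V6_18472505409 :=
  fwd_sound' relAll_5_5 ks6_ok F6_18472505409
    ⟨V5_14177275968_ok, V5_14160760896_ok, trivial⟩ ⟨W6_18405134400_ok, W6_18388619328_ok,
    W6_17364684864_ok, W6_17348169792_ok, W6_17331654720_ok, W6_16291205184_ok, W6_16274690112_ok,
    W6_15234240576_ok, W6_15217725504_ok, W6_14177275968_ok, W6_14160760896_ok, trivial⟩
    F6_18472505409_chk

theorem V6_18472247424_ok : Fwd.Has6 Inst.T 6 V6_18472247424 :=
  fwd_sound' relAll_5_5 ks6_ok F6_18472247424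
    ⟨V5_15234244608_ok, V5_15200690304_ok, trivial⟩ ⟨W6_18405138432_ok, W6_18388361280_ok,
    W6_18371584128_ok, W6_17348173824_ok, W6_17331396672_ok, W6_17314619520_ok, W6_16291209216_ok,
    W6_16274432064_ok, W6_16257654912_ok, W6_15234244608_ok, W6_15217467456_ok, W6_15200690304_ok,
    W6_14160502848_ok, trivial⟩ F6_18472247424_chk

theorem V6_18456772608_ok : Fwd.Has6 Inst.T 6 V6_18456772608 :=
  fwd_sound' relAll_5_5 ks6_ok F6_18456772608
    ⟨V5_13087801344_ok, V5_15234760704_ok, V5_14128250880_ok, V5_15201730560_ok,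
    V5_13071286272_ok, V5_17299144704_ok, trivial⟩ ⟨W6_18455199744_ok, W6_18438684672_ok,
    W6_18422169600_ok, W6_18405654528_ok, W6_18389139456_ok, W6_18372624384_ok, W6_17381720064_ok,
    W6_17365204992_ok, W6_17348689920_ok, W6_17332174848_ok, W6_17315659776_ok, W6_17299144704_ok,
    W6_16308240384_ok, W6_16291725312_ok, W6_16275210240_ok, W6_16258695168_ok, W6_16242180096_ok,
    W6_15234760704_ok, W6_15218245632_ok, W6_15201730560_ok, W6_15185215488_ok, W6_14161281024_ok,
    W6_14144765952_ok, W6_14128250880_ok, W6_13087801344_ok, W6_13071286272_ok, trivial⟩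
    F6_18456772608_chk

theorem V6_18456514560_ok : Fwd.Has6 Inst.T 6 V6_18456514560 :=
  fwd_sound' relAll_5_5 ks6_ok F6_18456514560
    ⟨V5_13087801344_ok, V5_13071028224_ok, V5_14127992832_ok, V5_15184957440_ok,
    V5_15201730560_ok, V5_18355851264_ok, V5_15234760704_ok, V5_14161022976_ok, V5_14161281024_ok,
    V5_13087543296_ok, trivial⟩ ⟨W6_18455199744_ok, W6_18438684672_ok, W6_18438426624_ok,
    W6_18422169600_ok, W6_18421911552_ok, W6_18405654528_ok, W6_18405396480_ok, W6_18389139456_ok,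
    W6_18388881408_ok, W6_18372624384_ok, W6_18372366336_ok, W6_18355851264_ok, W6_17381720064_ok,
    W6_17381462016_ok, W6_17365204992_ok, W6_17364946944_ok, W6_17348689920_ok, W6_17348431872_ok,
    W6_17332174848_ok, W6_17331916800_ok, W6_17315659776_ok, W6_17315401728_ok, W6_17298886656_ok,
    W6_16308240384_ok, W6_16307982336_ok, W6_16291725312_ok, W6_16291467264_ok, W6_16275210240_ok,
    W6_16274952192_ok, W6_16258695168_ok, W6_16258437120_ok, W6_16241922048_ok, W6_15234760704_ok,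
    W6_15234502656_ok, W6_15218245632_ok, W6_15217987584_ok, W6_15201730560_ok, W6_15201472512_ok,
    W6_15184957440_ok, W6_14161281024_ok, W6_14161022976_ok, W6_14144765952_ok, W6_14144507904_ok,
    W6_14127992832_ok, W6_13087801344_ok, W6_13087543296_ok, W6_13071028224_ok, trivial⟩
    F6_18456514560_chk

theorem V6_18456256512_ok : Fwd.Has6 Inst.T 6 V6_18456256512 :=
  fwd_sound' relAll_5_5 ks6_ok F6_18456256512
    ⟨V5_13087285248_ok, V5_14161281024_ok, V5_13070770176_ok, V5_15234760704_ok,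
    V5_14127734784_ok, V5_15234244608_ok, V5_14144507904_ok, V5_16241664000_ok, V5_15201214464_ok,
    V5_13087543296_ok, trivial⟩ ⟨W6_18438684672_ok, W6_18422169600_ok, W6_18421911552_ok,
    W6_18405654528_ok, W6_18405396480_ok, W6_18405138432_ok, W6_18389139456_ok, W6_18388881408_ok,
    W6_18388623360_ok, W6_18372366336_ok, W6_18372108288_ok, W6_18355593216_ok, W6_17381720064_ok,
    W6_17365204992_ok, W6_17364946944_ok, W6_17348689920_ok, W6_17348431872_ok, W6_17348173824_ok,
    W6_17332174848_ok, W6_17331916800_ok, W6_17331658752_ok, W6_17315401728_ok, W6_17315143680_ok,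
    W6_17298628608_ok, W6_16308240384_ok, W6_16307982336_ok, W6_16291725312_ok, W6_16291467264_ok,
    W6_16291209216_ok, W6_16275210240_ok, W6_16274952192_ok, W6_16274694144_ok, W6_16258437120_ok,
    W6_16258179072_ok, W6_16241664000_ok, W6_15234760704_ok, W6_15234502656_ok, W6_15234244608_ok,
    W6_15218245632_ok, W6_15217987584_ok, W6_15217729536_ok, W6_15201472512_ok, W6_15201214464_ok,
    W6_15184699392_ok, W6_14161281024_ok, W6_14161022976_ok, W6_14160764928_ok, W6_14144507904_ok,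
    W6_14144249856_ok, W6_14127734784_ok, W6_13087543296_ok, W6_13087285248_ok, W6_13070770176_ok,
    trivial⟩ F6_18456256512_chk

theorem V6_18456252480_ok : Fwd.Has6 Inst.T 6 V6_18456252480 :=
  fwd_sound' relAll_5_5 ks6_ok F6_18456252480
    ⟨V5_14144507904_ok, V5_14161022976_ok, V5_13070766144_ok, V5_13087543296_ok,
    V5_15201472512_ok, V5_14144245824_ok, trivial⟩ ⟨W6_18438426624_ok, W6_18421911552_ok,
    W6_18405396480_ok, W6_18405134400_ok, W6_18388881408_ok, W6_18388619328_ok, W6_18372366336_ok,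
    W6_18372104256_ok, W6_18355589184_ok, W6_17381462016_ok, W6_17364946944_ok, W6_17364684864_ok,
    W6_17348431872_ok, W6_17348169792_ok, W6_17331916800_ok, W6_17331654720_ok, W6_17315401728_ok,
    W6_17315139648_ok, W6_17298624576_ok, W6_16307982336_ok, W6_16291467264_ok, W6_16291205184_ok,
    W6_16274952192_ok, W6_16274690112_ok, W6_16258437120_ok, W6_16258175040_ok, W6_16241659968_ok,
    W6_15234502656_ok, W6_15234240576_ok, W6_15217987584_ok, W6_15217725504_ok, W6_15201472512_ok,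
    W6_15201210432_ok, W6_15184695360_ok, W6_14161022976_ok, W6_14160760896_ok, W6_14144507904_ok,
    W6_14144245824_ok, W6_14127730752_ok, W6_13087543296_ok, W6_13070766144_ok, trivial⟩
    F6_18456252480_chk

theorem V6_18455998464_ok : Fwd.Has6 Inst.T 6 V6_18455998464 :=
  fwd_sound' relAll_5_5 ks6_ok F6_18455998464
    ⟨V5_13087285248_ok, V5_15234760704_ok, V5_14161022976_ok, V5_14127476736_ok,
    V5_13070512128_ok, V5_15201214464_ok, V5_16308240384_ok, V5_14143991808_ok, trivial⟩ ⟨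
    W6_18422169600_ok, W6_18405654528_ok, W6_18405396480_ok, W6_18388881408_ok, W6_18388623360_ok,
    W6_18372108288_ok, W6_18371850240_ok, W6_18355335168_ok, W6_17365204992_ok, W6_17348689920_ok,
    W6_17348431872_ok, W6_17331916800_ok, W6_17331658752_ok, W6_17315143680_ok, W6_17314885632_ok,
    W6_17298370560_ok, W6_16308240384_ok, W6_16291725312_ok, W6_16291467264_ok, W6_16274952192_ok,
    W6_16274694144_ok, W6_16258179072_ok, W6_16257921024_ok, W6_16241405952_ok, W6_15234760704_ok,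
    W6_15234502656_ok, W6_15217987584_ok, W6_15217729536_ok, W6_15201214464_ok, W6_15200956416_ok,
    W6_15184441344_ok, W6_14161022976_ok, W6_14160764928_ok, W6_14144249856_ok, W6_14143991808_ok,
    W6_14127476736_ok, W6_13087285248_ok, W6_13070512128_ok, trivial⟩ F6_18455998464_chk

theorem V6_18455732352_ok : Fwd.Has6 Inst.T 6 V6_18455732352 :=
  fwd_sound' relAll_5_5 ks6_ok F6_18455732352
    ⟨V5_14160764928_ok, V5_15234244608_ok, V5_13086761088_ok, V5_15217729536_ok,
    V5_13087023168_ok, V5_13070246016_ok, V5_14127210624_ok, trivial⟩ ⟨W6_18405138432_ok,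
    W6_18388623360_ok, W6_18388361280_ok, W6_18371846208_ok, W6_18371584128_ok, W6_18355069056_ok,
    W6_17348173824_ok, W6_17331658752_ok, W6_17331396672_ok, W6_17314881600_ok, W6_17314619520_ok,
    W6_17298104448_ok, W6_16291209216_ok, W6_16274694144_ok, W6_16274432064_ok, W6_16257916992_ok,
    W6_16257654912_ok, W6_16241139840_ok, W6_15234244608_ok, W6_15217729536_ok, W6_15217467456_ok,
    W6_15200952384_ok, W6_15200690304_ok, W6_15184175232_ok, W6_14160764928_ok, W6_14160502848_ok,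
    W6_14143987776_ok, W6_14127210624_ok, W6_13087023168_ok, W6_13086761088_ok, W6_13070246016_ok,
    trivial⟩ F6_18455732352_chk

theorem V6_18439999488_ok : Fwd.Has6 Inst.T 6 V6_18439999488 :=
  fwd_sound' relAll_5_5 ks6_ok F6_18439999488
    ⟨V5_11997548544_ok, V5_13054513152_ok, V5_13071028224_ok, V5_14127992832_ok,
    V5_14144507904_ok, V5_14111477760_ok, V5_15217987584_ok, V5_14128250880_ok, V5_16225406976_ok,
    trivial⟩ ⟨W6_18438684672_ok, W6_18438426624_ok, W6_18422169600_ok, W6_18421911552_ok,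
    W6_18405654528_ok, W6_18405396480_ok, W6_18389139456_ok, W6_18388881408_ok, W6_18372624384_ok,
    W6_18372366336_ok, W6_17365204992_ok, W6_17364946944_ok, W6_17348689920_ok, W6_17348431872_ok,
    W6_17332174848_ok, W6_17331916800_ok, W6_17315659776_ok, W6_17315401728_ok, W6_17299144704_ok,
    W6_17298886656_ok, W6_16291725312_ok, W6_16291467264_ok, W6_16275210240_ok, W6_16274952192_ok,
    W6_16258695168_ok, W6_16258437120_ok, W6_16242180096_ok, W6_16241922048_ok, W6_16225406976_ok,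
    W6_15218245632_ok, W6_15217987584_ok, W6_15201730560_ok, W6_15201472512_ok, W6_15185215488_ok,
    W6_15184957440_ok, W6_15168442368_ok, W6_14144765952_ok, W6_14144507904_ok, W6_14128250880_ok,
    W6_14127992832_ok, W6_14111477760_ok, W6_13071286272_ok, W6_13071028224_ok, W6_13054513152_ok,
    W6_11997548544_ok, trivial⟩ F6_18439999488_chk

theorem V6_18439741440_ok : Fwd.Has6 Inst.T 6 V6_18439741440 :=
  fwd_sound' relAll_5_5 ks6_ok F6_18439741440
    ⟨V5_13054255104_ok, V5_13071028224_ok, V5_13070770176_ok, V5_15201730560_ok,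
    V5_17282113536_ok, V5_15168184320_ok, V5_14127992832_ok, V5_14144765952_ok, V5_14111219712_ok,
    V5_11997290496_ok, V5_14127734784_ok, V5_16291209216_ok, trivial⟩ ⟨W6_18438684672_ok,
    W6_18422169600_ok, W6_18421911552_ok, W6_18405654528_ok, W6_18405396480_ok, W6_18405138432_ok,
    W6_18389139456_ok, W6_18388881408_ok, W6_18388623360_ok, W6_18372624384_ok, W6_18372366336_ok,
    W6_18372108288_ok, W6_18355851264_ok, W6_18355593216_ok, W6_17365204992_ok, W6_17364946944_ok,
    W6_17348689920_ok, W6_17348431872_ok, W6_17348173824_ok, W6_17332174848_ok, W6_17331916800_ok,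
    W6_17331658752_ok, W6_17315659776_ok, W6_17315401728_ok, W6_17315143680_ok, W6_17298886656_ok,
    W6_17298628608_ok, W6_17282113536_ok, W6_16291725312_ok, W6_16291467264_ok, W6_16291209216_ok,
    W6_16275210240_ok, W6_16274952192_ok, W6_16274694144_ok, W6_16258695168_ok, W6_16258437120_ok,
    W6_16258179072_ok, W6_16241922048_ok, W6_16241664000_ok, W6_16225148928_ok, W6_15218245632_ok,
    W6_15217987584_ok, W6_15217729536_ok, W6_15201730560_ok, W6_15201472512_ok, W6_15201214464_ok,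
    W6_15184957440_ok, W6_15184699392_ok, W6_15168184320_ok, W6_14144765952_ok, W6_14144507904_ok,
    W6_14144249856_ok, W6_14127992832_ok, W6_14127734784_ok, W6_14111219712_ok, W6_13071028224_ok,
    W6_13070770176_ok, W6_13054255104_ok, W6_11997290496_ok, trivial⟩ F6_18439741440_chk

theorem V6_18439737408_ok : Fwd.Has6 Inst.T 6 V6_18439737408 :=
  fwd_sound' relAll_5_5 ks6_ok F6_18439737408
    ⟨V5_11997286464_ok, V5_13071028224_ok, V5_14127992832_ok, V5_14144507904_ok,
    V5_15184957440_ok, V5_18355851264_ok, V5_13070766144_ok, trivial⟩ ⟨W6_18438426624_ok,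
    W6_18421911552_ok, W6_18405396480_ok, W6_18405134400_ok, W6_18388881408_ok, W6_18388619328_ok,
    W6_18372366336_ok, W6_18372104256_ok, W6_18355851264_ok, W6_18355589184_ok, W6_17364946944_ok,
    W6_17364684864_ok, W6_17348431872_ok, W6_17348169792_ok, W6_17331916800_ok, W6_17331654720_ok,
    W6_17315401728_ok, W6_17315139648_ok, W6_17298886656_ok, W6_17298624576_ok, W6_16291467264_ok,
    W6_16291205184_ok, W6_16274952192_ok, W6_16274690112_ok, W6_16258437120_ok, W6_16258175040_ok,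
    W6_16241922048_ok, W6_16241659968_ok, W6_16225144896_ok, W6_15217987584_ok, W6_15217725504_ok,
    W6_15201472512_ok, W6_15201210432_ok, W6_15184957440_ok, W6_15184695360_ok, W6_15168180288_ok,
    W6_14144507904_ok, W6_14144245824_ok, W6_14127992832_ok, W6_14127730752_ok, W6_14111215680_ok,
    W6_13071028224_ok, W6_13070766144_ok, W6_13054251072_ok, W6_11997286464_ok, trivial⟩
    F6_18439737408_chk

theorem V6_18439475265_ok : Fwd.Has6 Inst.T 6 V6_18439475265 :=
  fwd_sound' relAll_5_5 ks6_ok F6_18439475265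
    ⟨V5_13070766144_ok, V5_14144245824_ok, V5_16291205184_ok, V5_18355589184_ok, trivial⟩ ⟨
    W6_18405134400_ok, W6_18388619328_ok, W6_18372104256_ok, W6_18355589184_ok, W6_17364684864_ok,
    W6_17348169792_ok, W6_17331654720_ok, W6_17315139648_ok, W6_17298624576_ok, W6_16291205184_ok,
    W6_16274690112_ok, W6_16258175040_ok, W6_16241659968_ok, W6_15217725504_ok, W6_15201210432_ok,
    W6_15184695360_ok, W6_14144245824_ok, W6_14127730752_ok, W6_13070766144_ok, trivial⟩
    F6_18439475265_chk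

theorem V6_18439225344_ok : Fwd.Has6 Inst.T 6 V6_18439225344 :=
  fwd_sound' relAll_5_5 ks6_ok F6_18439225344
    ⟨V5_13053739008_ok, V5_15217987584_ok, V5_17348689920_ok, V5_15167668224_ok, trivial⟩ ⟨
    W6_18405654528_ok, W6_18388881408_ok, W6_18372108288_ok, W6_18355335168_ok, W6_18338562048_ok,
    W6_17348689920_ok, W6_17331916800_ok, W6_17315143680_ok, W6_17298370560_ok, W6_17281597440_ok,
    W6_16291725312_ok, W6_16274952192_ok, W6_16258179072_ok, W6_16241405952_ok, W6_16224632832_ok,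
    W6_15217987584_ok, W6_15201214464_ok, W6_15184441344_ok, W6_15167668224_ok, W6_14144249856_ok,
    W6_14127476736_ok, W6_14110703616_ok, W6_13070512128_ok, W6_13053739008_ok, trivial⟩
    F6_18439225344_chk

theorem V6_18439217217_ok : Fwd.Has6 Inst.T 6 V6_18439217217 :=
  fwd_sound' relAll_5_5 ks6_ok F6_18439217217
    ⟨V5_13070508096_ok, V5_14144245824_ok, V5_14127472704_ok, V5_14143987776_ok, trivial⟩ ⟨
    W6_18405134400_ok, W6_18388619328_ok, W6_18388361280_ok, W6_18372104256_ok, W6_18371846208_ok,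
    W6_18355331136_ok, W6_17348169792_ok, W6_17331654720_ok, W6_17331396672_ok, W6_17315139648_ok,
    W6_17314881600_ok, W6_17298366528_ok, W6_16291205184_ok, W6_16274690112_ok, W6_16274432064_ok,
    W6_16258175040_ok, W6_16257916992_ok, W6_16241401920_ok, W6_15217725504_ok, W6_15217467456_ok,
    W6_15201210432_ok, W6_15200952384_ok, W6_15184437312_ok, W6_14144245824_ok, W6_14143987776_ok,
    W6_14127472704_ok, W6_13070508096_ok, trivial⟩ F6_18439217217_chk

theorem V6_18423742464_ok : Fwd.Has6 Inst.T 6 V6_18423742464 :=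
  fwd_sound' relAll_5_5 ks6_ok F6_18423742464
    ⟨V5_13054771200_ok, V5_15201730560_ok, trivial⟩ ⟨W6_18422169600_ok, W6_18405654528_ok,
    W6_17348689920_ok, W6_17332174848_ok, W6_16275210240_ok, W6_16258695168_ok, W6_15201730560_ok,
    W6_15185215488_ok, W6_14128250880_ok, W6_14111735808_ok, W6_13054771200_ok, W6_11981291520_ok,
    trivial⟩ F6_18423742464_chk

theorem V6_18423484416_ok : Fwd.Has6 Inst.T 6 V6_18423484416 :=
  fwd_sound' relAll_5_5 ks6_ok F6_18423484416
    ⟨V5_13054771200_ok, V5_13054513152_ok, V5_14127992832_ok, V5_11981033472_ok,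
    V5_15201730560_ok, V5_15168700416_ok, V5_18421911552_ok, trivial⟩ ⟨W6_18422169600_ok,
    W6_18421911552_ok, W6_18405654528_ok, W6_18405396480_ok, W6_18389139456_ok, W6_18388881408_ok,
    W6_17348689920_ok, W6_17348431872_ok, W6_17332174848_ok, W6_17331916800_ok, W6_17315659776_ok,
    W6_17315401728_ok, W6_16275210240_ok, W6_16274952192_ok, W6_16258695168_ok, W6_16258437120_ok,
    W6_16242180096_ok, W6_16241922048_ok, W6_15201730560_ok, W6_15201472512_ok, W6_15185215488_ok,
    W6_15184957440_ok, W6_15168700416_ok, W6_15168442368_ok, W6_14128250880_ok, W6_14127992832_ok,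
    W6_14111735808_ok, W6_14111477760_ok, W6_14094962688_ok, W6_13054771200_ok, W6_13054513152_ok,
    W6_13037998080_ok, W6_11981033472_ok, trivial⟩ F6_18423484416_chk

theorem V6_18423226368_ok : Fwd.Has6 Inst.T 6 V6_18423226368 :=
  fwd_sound' relAll_5_5 ks6_ok F6_18423226368
    ⟨V5_11980775424_ok, V5_13054255104_ok, V5_13054513152_ok, V5_17348173824_ok,
    V5_14128250880_ok, V5_15201730560_ok, V5_15201214464_ok, V5_14127734784_ok, V5_14127992832_ok,
    V5_14094704640_ok, trivial⟩ ⟨W6_18422169600_ok, W6_18421911552_ok, W6_18405654528_ok,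
    W6_18405396480_ok, W6_18405138432_ok, W6_18389139456_ok, W6_18388881408_ok, W6_18388623360_ok,
    W6_18372624384_ok, W6_18372366336_ok, W6_18372108288_ok, W6_17348689920_ok, W6_17348431872_ok,
    W6_17348173824_ok, W6_17332174848_ok, W6_17331916800_ok, W6_17331658752_ok, W6_17315659776_ok,
    W6_17315401728_ok, W6_17315143680_ok, W6_17299144704_ok, W6_17298886656_ok, W6_17298628608_ok,
    W6_16275210240_ok, W6_16274952192_ok, W6_16274694144_ok, W6_16258695168_ok, W6_16258437120_ok,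
    W6_16258179072_ok, W6_16242180096_ok, W6_16241922048_ok, W6_16241664000_ok, W6_16225406976_ok,
    W6_16225148928_ok, W6_15201730560_ok, W6_15201472512_ok, W6_15201214464_ok, W6_15185215488_ok,
    W6_15184957440_ok, W6_15184699392_ok, W6_15168442368_ok, W6_15168184320_ok, W6_15151669248_ok,
    W6_14128250880_ok, W6_14127992832_ok, W6_14127734784_ok, W6_14111477760_ok, W6_14111219712_ok,
    W6_14094704640_ok, W6_13054513152_ok, W6_13054255104_ok, W6_13037740032_ok, W6_11980775424_ok,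
    trivial⟩ F6_18423226368_chk

theorem V6_18423222336_ok : Fwd.Has6 Inst.T 6 V6_18423222336 :=
  fwd_sound' relAll_5_5 ks6_ok F6_18423222336
    ⟨V5_13054513152_ok, V5_14127992832_ok, V5_14111477760_ok, V5_15201472512_ok,
    V5_11980771392_ok, V5_15151665216_ok, trivial⟩ ⟨W6_18421911552_ok, W6_18405396480_ok,
    W6_18405134400_ok, W6_18388881408_ok, W6_18388619328_ok, W6_18372366336_ok, W6_18372104256_ok,
    W6_17348431872_ok, W6_17348169792_ok, W6_17331916800_ok, W6_17331654720_ok, W6_17315401728_ok,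
    W6_17315139648_ok, W6_17298886656_ok, W6_17298624576_ok, W6_16274952192_ok, W6_16274690112_ok,
    W6_16258437120_ok, W6_16258175040_ok, W6_16241922048_ok, W6_16241659968_ok, W6_16225406976_ok,
    W6_16225144896_ok, W6_15201472512_ok, W6_15201210432_ok, W6_15184957440_ok, W6_15184695360_ok,
    W6_15168442368_ok, W6_15168180288_ok, W6_15151665216_ok, W6_14127992832_ok, W6_14127730752_ok,
    W6_14111477760_ok, W6_14111215680_ok, W6_14094700608_ok, W6_13054513152_ok, W6_13054251072_ok,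
    W6_13037736000_ok, W6_11980771392_ok, trivial⟩ F6_18423222336_chk

theorem V6_18422448192_ok : Fwd.Has6 Inst.T 6 V6_18422448192 :=
  fwd_sound' relAll_5_5 ks6_ok F6_18422448192
    ⟨V5_13053739008_ok, V5_16274952192_ok, V5_15201214464_ok, V5_14127476736_ok,
    V5_11979997248_ok, V5_14110703616_ok, V5_18321784896_ok, V5_17264820288_ok, trivial⟩ ⟨
    W6_18388881408_ok, W6_18372108288_ok, W6_18372104256_ok, W6_18355335168_ok, W6_18355331136_ok,
    W6_18338562048_ok, W6_18338558016_ok, W6_18321784896_ok, W6_17331916800_ok, W6_17315143680_ok,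
    W6_17315139648_ok, W6_17298370560_ok, W6_17298366528_ok, W6_17281597440_ok, W6_17281593408_ok,
    W6_17264820288_ok, W6_16274952192_ok, W6_16258179072_ok, W6_16258175040_ok, W6_16241405952_ok,
    W6_16241401920_ok, W6_16224632832_ok, W6_16224628800_ok, W6_16207855680_ok, W6_15201214464_ok,
    W6_15201210432_ok, W6_15184441344_ok, W6_15184437312_ok, W6_15167668224_ok, W6_15167664192_ok,
    W6_15150891072_ok, W6_14127476736_ok, W6_14127472704_ok, W6_14110703616_ok, W6_14110699584_ok,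
    W6_14093926464_ok, W6_13053739008_ok, W6_13053734976_ok, W6_13036961856_ok, W6_11979997248_ok,
    trivial⟩ F6_18422448192_chk

theorem V6_18406711296_ok : Fwd.Has6 Inst.T 6 V6_18406711296 :=
  fwd_sound' relAll_5_5 ks6_ok F6_18406711296
    ⟨V5_13021224960_ok, V5_15168700416_ok, V5_11964260352_ok, V5_14111219712_ok,
    V5_13037998080_ok, V5_15168184320_ok, V5_18405138432_ok, V5_14111735808_ok, V5_14094962688_ok,
    trivial⟩ ⟨W6_18405654528_ok, W6_18405396480_ok, W6_18405138432_ok, W6_18389139456_ok,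
    W6_18388881408_ok, W6_18388623360_ok, W6_17332174848_ok, W6_17331916800_ok, W6_17331658752_ok,
    W6_17315659776_ok, W6_17315401728_ok, W6_17315143680_ok, W6_16258695168_ok, W6_16258437120_ok,
    W6_16258179072_ok, W6_16242180096_ok, W6_16241922048_ok, W6_16241664000_ok, W6_15185215488_ok,
    W6_15184957440_ok, W6_15184699392_ok, W6_15168700416_ok, W6_15168442368_ok, W6_15168184320_ok,
    W6_14111735808_ok, W6_14111477760_ok, W6_14111219712_ok, W6_14094962688_ok, W6_14094704640_ok,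
    W6_13037998080_ok, W6_13037740032_ok, W6_13021224960_ok, W6_11964260352_ok, trivial⟩
    F6_18406711296_chk

theorem V6_18406707264_ok : Fwd.Has6 Inst.T 6 V6_18406707264 :=
  fwd_sound' relAll_5_5 ks6_ok F6_18406707264
    ⟨V5_13037998080_ok, V5_11964256320_ok, V5_14094962688_ok, V5_14111477760_ok,
    V5_13037736000_ok, V5_14111215680_ok, V5_18405134400_ok, V5_14094700608_ok, trivial⟩ ⟨
    W6_18405396480_ok, W6_18405134400_ok, W6_18388881408_ok, W6_18388619328_ok, W6_17331916800_ok,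
    W6_17331654720_ok, W6_17315401728_ok, W6_17315139648_ok, W6_16258437120_ok, W6_16258175040_ok,
    W6_16241922048_ok, W6_16241659968_ok, W6_15184957440_ok, W6_15184695360_ok, W6_15168442368_ok,
    W6_15168180288_ok, W6_14111477760_ok, W6_14111215680_ok, W6_14094962688_ok, W6_14094700608_ok,
    W6_13037998080_ok, W6_13037736000_ok, W6_11964256320_ok, trivial⟩ F6_18406707264_chk

theorem V6_18406187136_ok : Fwd.Has6 Inst.T 6 V6_18406187136 :=
  fwd_sound' relAll_5_5 ks6_ok F6_18406187136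
    ⟨V5_14111219712_ok, V5_15168184320_ok, V5_17282113536_ok, V5_15184699392_ok,
    V5_13037477952_ok, V5_15134630016_ok, trivial⟩ ⟨W6_18405138432_ok, W6_18388623360_ok,
    W6_18388361280_ok, W6_18372108288_ok, W6_18371846208_ok, W6_18371584128_ok, W6_18355593216_ok,
    W6_18355331136_ok, W6_18355069056_ok, W6_17331658752_ok, W6_17331396672_ok, W6_17315143680_ok,
    W6_17314881600_ok, W6_17314619520_ok, W6_17298628608_ok, W6_17298366528_ok, W6_17298104448_ok,
    W6_17282113536_ok, W6_17281851456_ok, W6_17281589376_ok, W6_16258179072_ok, W6_16257916992_ok,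
    W6_16257654912_ok, W6_16241664000_ok, W6_16241401920_ok, W6_16241139840_ok, W6_16225148928_ok,
    W6_16224886848_ok, W6_16224624768_ok, W6_16208371776_ok, W6_16208109696_ok, W6_15184699392_ok,
    W6_15184437312_ok, W6_15184175232_ok, W6_15168184320_ok, W6_15167922240_ok, W6_15167660160_ok,
    W6_15151407168_ok, W6_15151145088_ok, W6_15134630016_ok, W6_14111219712_ok, W6_14110957632_ok,
    W6_14110695552_ok, W6_14094442560_ok, W6_14094180480_ok, W6_14077665408_ok, W6_13037477952_ok,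
    W6_13037215872_ok, W6_13020700800_ok, W6_11963736192_ok, trivial⟩ F6_18406187136_chk

theorem V6_18405937152_ok : Fwd.Has6 Inst.T 6 V6_18405937152 :=
  fwd_sound' relAll_5_5 ks6_ok F6_18405937152
    ⟨V5_17332174848_ok, V5_16258437120_ok, V5_11963486208_ok, V5_13037223936_ok,
    V5_13020450816_ok, trivial⟩ ⟨W6_18389139456_ok, W6_18372366336_ok, W6_18355593216_ok,
    W6_17332174848_ok, W6_17315401728_ok, W6_17298628608_ok, W6_17281855488_ok, W6_16258437120_ok,
    W6_16241664000_ok, W6_16224890880_ok, W6_16208117760_ok, W6_15184699392_ok, W6_15167926272_ok,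
    W6_15151153152_ok, W6_14110961664_ok, W6_14094188544_ok, W6_14077415424_ok, W6_13037223936_ok,
    W6_13020450816_ok, W6_11963486208_ok, trivial⟩ F6_18405937152_chk

theorem V6_18405671040_ok : Fwd.Has6 Inst.T 6 V6_18405671040 :=
  fwd_sound' relAll_5_5 ks6_ok F6_18405671040
    ⟨V5_14110703616_ok, V5_15167668224_ok, V5_16258179072_ok, V5_13020184704_ok,
    V5_13036961856_ok, V5_17248043136_ok, trivial⟩ ⟨W6_18372108288_ok, W6_18355335168_ok,
    W6_18355331136_ok, W6_18338562048_ok, W6_18338558016_ok, W6_18338553984_ok, W6_18321784896_ok,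
    W6_17315143680_ok, W6_17298370560_ok, W6_17298366528_ok, W6_17281597440_ok, W6_17281593408_ok,
    W6_17281589376_ok, W6_17264820288_ok, W6_17248043136_ok, W6_16258179072_ok, W6_16241405952_ok,
    W6_16241401920_ok, W6_16224632832_ok, W6_16224628800_ok, W6_16224624768_ok, W6_16207855680_ok,
    W6_16207851648_ok, W6_16191078528_ok, W6_15184441344_ok, W6_15184437312_ok, W6_15167668224_ok,
    W6_15167664192_ok, W6_15167660160_ok, W6_15150891072_ok, W6_15150887040_ok, W6_15134113920_ok,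
    W6_14110703616_ok, W6_14110699584_ok, W6_14110695552_ok, W6_14093926464_ok, W6_14093922432_ok,
    W6_14077149312_ok, W6_13036961856_ok, W6_13036957824_ok, W6_13020184704_ok, W6_11963220096_ok,
    trivial⟩ F6_18405671040_chk

theorem V6_18405670977_ok : Fwd.Has6 Inst.T 6 V6_18405670977 :=
  fwd_sound' relAll_5_5 ks6_ok F6_18405670977
    ⟨V5_13036961856_ok, V5_14093926464_ok, V5_14110699584_ok, V5_18321784896_ok, trivial⟩ ⟨
    W6_18372104256_ok, W6_18355331136_ok, W6_18338558016_ok, W6_18321784896_ok, W6_17315139648_ok,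
    W6_17298366528_ok, W6_17281593408_ok, W6_17264820288_ok, W6_16258175040_ok, W6_16241401920_ok,
    W6_16224628800_ok, W6_16207855680_ok, W6_15184437312_ok, W6_15167664192_ok, W6_15150891072_ok,
    W6_14110699584_ok, W6_14093926464_ok, W6_13036961856_ok, trivial⟩ F6_18405670977_chk

theorem V6_18405404802_ok : Fwd.Has6 Inst.T 6 V6_18405404802 :=
  fwd_sound' relAll_5_5 ks6_ok F6_18405404802
    ⟨V5_14110437504_ok, trivial⟩ ⟨W6_18355069056_ok, W6_17298104448_ok, W6_16241139840_ok,
    W6_15184175232_ok, W6_14110437504_ok, trivial⟩ F6_18405404802_chk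

theorem V6_18389938176_ok : Fwd.Has6 Inst.T 6 V6_18389938176 :=
  fwd_sound' relAll_5_5 ks6_ok F6_18389938176
    ⟨V5_15168700416_ok, V5_13021224960_ok, V5_11947487232_ok, V5_14094446592_ok,
    V5_14094962688_ok, V5_13020966912_ok, V5_16242180096_ok, trivial⟩ ⟨W6_18389139456_ok,
    W6_18388881408_ok, W6_18388623360_ok, W6_17315659776_ok, W6_17315401728_ok, W6_17315143680_ok,
    W6_17314885632_ok, W6_16242180096_ok, W6_16241922048_ok, W6_16241664000_ok, W6_16241405952_ok,
    W6_15168700416_ok, W6_15168442368_ok, W6_15168184320_ok, W6_15167926272_ok, W6_14094962688_ok,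
    W6_14094704640_ok, W6_14094446592_ok, W6_13021224960_ok, W6_13020966912_ok, W6_11947487232_ok,
    trivial⟩ F6_18389938176_chk

theorem V6_18389930049_ok : Fwd.Has6 Inst.T 6 V6_18389930049 :=
  fwd_sound' relAll_5_5 ks6_ok F6_18389930049
    ⟨V5_14094700608_ok, trivial⟩ ⟨W6_18388619328_ok, W6_17315139648_ok, W6_16241659968_ok,
    W6_15168180288_ok, W6_14094700608_ok, trivial⟩ F6_18389930049_chk

theorem V6_18389672064_ok : Fwd.Has6 Inst.T 6 V6_18389672064 :=
  fwd_sound' relAll_5_5 ks6_ok F6_18389672064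
    ⟨V5_14094704640_ok, V5_15168184320_ok, V5_13020700800_ok, V5_13020962880_ok,
    V5_17314619520_ok, trivial⟩ ⟨W6_18388623360_ok, W6_18388361280_ok, W6_18372108288_ok,
    W6_18371846208_ok, W6_18371584128_ok, W6_17315143680_ok, W6_17314881600_ok, W6_17314619520_ok,
    W6_17298628608_ok, W6_17298366528_ok, W6_17298104448_ok, W6_16241664000_ok, W6_16241401920_ok,
    W6_16241139840_ok, W6_16225148928_ok, W6_16224886848_ok, W6_16224624768_ok, W6_15168184320_ok,
    W6_15167922240_ok, W6_15167660160_ok, W6_15151669248_ok, W6_15151407168_ok, W6_15151145088_ok,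
    W6_14094704640_ok, W6_14094442560_ok, W6_14094180480_ok, W6_14077927488_ok, W6_14077665408_ok,
    W6_13020962880_ok, W6_13020700800_ok, W6_11947221120_ok, trivial⟩ F6_18389672064_chk

theorem V6_18389422080_ok : Fwd.Has6 Inst.T 6 V6_18389422080 :=
  fwd_sound' relAll_5_5 ks6_ok F6_18389422080
    ⟨V5_17315659776_ok, V5_11946971136_ok, V5_15168184320_ok, V5_13020708864_ok,
    V5_14060900352_ok, V5_13020450816_ok, trivial⟩ ⟨W6_18389139456_ok, W6_18372624384_ok,
    W6_18372366336_ok, W6_18355851264_ok, W6_18355593216_ok, W6_17315659776_ok, W6_17315401728_ok,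
    W6_17298886656_ok, W6_17298628608_ok, W6_17282113536_ok, W6_17281855488_ok, W6_16241922048_ok,
    W6_16241664000_ok, W6_16225148928_ok, W6_16224890880_ok, W6_16208375808_ok, W6_16208117760_ok,
    W6_15168184320_ok, W6_15167926272_ok, W6_15151411200_ok, W6_15151153152_ok, W6_15134638080_ok,
    W6_14094446592_ok, W6_14094188544_ok, W6_14077673472_ok, W6_14077415424_ok, W6_14060900352_ok,
    W6_13020708864_ok, W6_13020450816_ok, W6_13003935744_ok, W6_11946971136_ok, trivial⟩
    F6_18389422080_chk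

theorem V6_18389409921_ok : Fwd.Has6 Inst.T 6 V6_18389409921 :=
  fwd_sound' relAll_5_5 ks6_ok F6_18389409921
    ⟨V5_13020700800_ok, V5_14094442560_ok, V5_15134630016_ok, V5_14094180480_ok,
    V5_17314619520_ok, trivial⟩ ⟨W6_18388361280_ok, W6_18371846208_ok, W6_18371584128_ok,
    W6_18355331136_ok, W6_18355069056_ok, W6_17314881600_ok, W6_17314619520_ok, W6_17298366528_ok,
    W6_17298104448_ok, W6_17281851456_ok, W6_17281589376_ok, W6_16241401920_ok, W6_16241139840_ok,
    W6_16224886848_ok, W6_16224624768_ok, W6_16208371776_ok, W6_16208109696_ok, W6_15167922240_ok,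
    W6_15167660160_ok, W6_15151407168_ok, W6_15151145088_ok, W6_15134630016_ok, W6_14094442560_ok,
    W6_14094180480_ok, W6_14077665408_ok, W6_13020700800_ok, trivial⟩ F6_18389409921_chk

theorem V6_18388889793_ok : Fwd.Has6 Inst.T 6 V6_18388889793 :=
  fwd_sound' relAll_5_5 ks6_ok F6_18388889793
    ⟨V5_14093922432_ok, trivial⟩ ⟨W6_18338558016_ok, W6_17298108480_ok, W6_17281593408_ok,
    W6_16241143872_ok, W6_16224628800_ok, W6_16207851648_ok, W6_15167664192_ok, W6_15150887040_ok,
    W6_14093922432_ok, trivial⟩ F6_18388889793_chk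

theorem V6_18372907008_ok : Fwd.Has6 Inst.T 6 V6_18372907008 :=
  fwd_sound' relAll_5_5 ks6_ok F6_18372907008
    ⟨V5_18372624384_ok, V5_13003935744_ok, V5_16225406976_ok, V5_11930456064_ok, trivial⟩ ⟨
    W6_18372624384_ok, W6_18372366336_ok, W6_17299144704_ok, W6_17298886656_ok, W6_17298628608_ok,
    W6_16225406976_ok, W6_16225148928_ok, W6_16224890880_ok, W6_15151669248_ok, W6_15151411200_ok,
    W6_15151153152_ok, W6_14077931520_ok, W6_14077673472_ok, W6_14077415424_ok, W6_13004193792_ok,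
    W6_13003935744_ok, W6_11930456064_ok, trivial⟩ F6_18372907008_chk

theorem V6_18372898881_ok : Fwd.Has6 Inst.T 6 V6_18372898881 :=
  fwd_sound' relAll_5_5 ks6_ok F6_18372898881
    ⟨V5_15151665216_ok, V5_13004189760_ok, V5_14077669440_ok, trivial⟩ ⟨W6_18372104256_ok,
    W6_18371846208_ok, W6_17298624576_ok, W6_17298366528_ok, W6_17298108480_ok, W6_16225144896_ok,
    W6_16224886848_ok, W6_16224628800_ok, W6_15151665216_ok, W6_15151407168_ok, W6_15151149120_ok,
    W6_14077927488_ok, W6_14077669440_ok, W6_13004189760_ok, trivial⟩ F6_18372898881_chk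

theorem V6_18372894849_ok : Fwd.Has6 Inst.T 6 V6_18372894849 :=
  fwd_sound' relAll_5_5 ks6_ok F6_18372894849
    ⟨V5_15151407168_ok, trivial⟩ ⟨W6_18371846208_ok, W6_18371584128_ok, W6_17298366528_ok,
    W6_17298104448_ok, W6_16224886848_ok, W6_16224624768_ok, W6_15151407168_ok, W6_15151145088_ok,
    W6_14077927488_ok, W6_14077665408_ok, trivial⟩ F6_18372894849_chk

theorem V6_18372382848_ok : Fwd.Has6 Inst.T 6 V6_18372382848 :=
  fwd_sound' relAll_5_5 ks6_ok F6_18372382848
    ⟨V5_15151153152_ok, V5_14077415424_ok, V5_13003673664_ok, V5_14077407360_ok,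
    V5_14060634240_ok, trivial⟩ ⟨W6_18355593216_ok, W6_18338816064_ok, W6_17298628608_ok,
    W6_17281855488_ok, W6_17281851456_ok, W6_17265078336_ok, W6_16224890880_ok, W6_16224886848_ok,
    W6_16208117760_ok, W6_16208113728_ok, W6_16208109696_ok, W6_15151153152_ok, W6_15151149120_ok,
    W6_15151145088_ok, W6_15134376000_ok, W6_15134371968_ok, W6_14077415424_ok, W6_14077411392_ok,
    W6_14077407360_ok, W6_14060634240_ok, W6_13003673664_ok, W6_13003669632_ok, trivial⟩
    F6_18372382848_chk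

theorem V6_18372382785_ok : Fwd.Has6 Inst.T 6 V6_18372382785 :=
  fwd_sound' relAll_5_5 ks6_ok F6_18372382785
    ⟨V5_13003673664_ok, V5_14077411392_ok, V5_17298624576_ok, trivial⟩ ⟨W6_18355589184_ok,
    W6_18338816064_ok, W6_17298624576_ok, W6_17281851456_ok, W6_17265078336_ok, W6_16224886848_ok,
    W6_16208113728_ok, W6_15151149120_ok, W6_15134376000_ok, W6_14077411392_ok, W6_13003673664_ok,
    trivial⟩ F6_18372382785_chk

theorem V6_18372116736_ok : Fwd.Has6 Inst.T 6 V6_18372116736 :=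
  fwd_sound' relAll_5_5 ks6_ok F6_18372116736
    ⟨V5_16224632832_ok, V5_15100559616_ok, trivial⟩ ⟨W6_18338562048_ok, W6_18321784896_ok,
    W6_17281597440_ok, W6_17264820288_ok, W6_17248043136_ok, W6_16224632832_ok, W6_16207855680_ok,
    W6_16191078528_ok, W6_15150891072_ok, W6_15134113920_ok, W6_15100559616_ok, W6_14077149312_ok,
    W6_14060372160_ok, W6_13003407552_ok, W6_12986630400_ok, trivial⟩ F6_18372116736_chk

theorem V6_18355871808_ok : Fwd.Has6 Inst.T 6 V6_18355871808 :=
  fwd_sound' relAll_5_5 ks6_ok F6_18355871808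
    ⟨V5_12987162624_ok, V5_11913420864_ok, V5_14060900352_ok, V5_16208371776_ok, trivial⟩ ⟨
    W6_18355851264_ok, W6_17282113536_ok, W6_16208375808_ok, W6_16208371776_ok, W6_15134638080_ok,
    W6_15134634048_ok, W6_14060900352_ok, W6_14060896320_ok, W6_12987162624_ok, W6_12987158592_ok,
    W6_11913420864_ok, trivial⟩ F6_18355871808_chk

theorem V6_18355859649_ok : Fwd.Has6 Inst.T 6 V6_18355859649 :=
  fwd_sound' relAll_5_5 ks6_ok F6_18355859649
    ⟨V5_14060892288_ok, trivial⟩ ⟨W6_17281593408_ok, W6_16208113728_ok, W6_16207851648_ok,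
    W6_15134634048_ok, W6_15134371968_ok, W6_14060892288_ok, trivial⟩ F6_18355859649_chk

theorem V6_17449353216_ok : Fwd.Has6 Inst.T 6 V6_17449353216 :=
  fwd_sound' relAll_5_5 ks6_ok F6_17449353216
    ⟨V5_17348689920_ok, trivial⟩ ⟨W6_17414750208_ok, W6_17398235136_ok, W6_17381720064_ok,
    W6_17365204992_ok, W6_17348689920_ok, trivial⟩ F6_17449353216_chk

theorem V6_17448837120_ok : Fwd.Has6 Inst.T 6 V6_17448837120 :=
  fwd_sound' relAll_5_5 ks6_ok F6_17448837120
    ⟨V5_17348173824_ok, trivial⟩ ⟨W6_17381720064_ok, W6_17364946944_ok, W6_17348173824_ok,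
    trivial⟩ F6_17448837120_chk

theorem V6_17448570945_ok : Fwd.Has6 Inst.T 6 V6_17448570945 :=
  fwd_sound' relAll_5_5 ks6_ok F6_17448570945
    ⟨V5_17364684864_ok, trivial⟩ ⟨W6_17364684864_ok, trivial⟩ F6_17448570945_chk

theorem V6_17415282753_ok : Fwd.Has6 Inst.T 6 V6_17415282753 :=
  fwd_sound' relAll_5_5 ks6_ok F6_17415282753
    ⟨V5_15234240576_ok, trivial⟩ ⟨W6_17348169792_ok, W6_17331396672_ok, W6_16291205184_ok,
    W6_16274432064_ok, W6_15234240576_ok, W6_15217467456_ok, trivial⟩ F6_17415282753_chk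

theorem V6_17399549952_ok : Fwd.Has6 Inst.T 6 V6_17399549952 :=
  fwd_sound' relAll_5_5 ks6_ok F6_17399549952
    ⟨V5_14127992832_ok, V5_15184957440_ok, V5_17298886656_ok, V5_16241922048_ok,
    V5_14177538048_ok, V5_14144507904_ok, V5_15251017728_ok, V5_16324497408_ok, trivial⟩ ⟨
    W6_17398235136_ok, W6_17381720064_ok, W6_17381462016_ok, W6_17365204992_ok, W6_17364946944_ok,
    W6_17348689920_ok, W6_17348431872_ok, W6_17332174848_ok, W6_17331916800_ok, W6_17315659776_ok,
    W6_17315401728_ok, W6_17298886656_ok, W6_16324755456_ok, W6_16324497408_ok, W6_16308240384_ok,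
    W6_16307982336_ok, W6_16291725312_ok, W6_16291467264_ok, W6_16275210240_ok, W6_16274952192_ok,
    W6_16258695168_ok, W6_16258437120_ok, W6_16241922048_ok, W6_15251275776_ok, W6_15251017728_ok,
    W6_15234760704_ok, W6_15234502656_ok, W6_15218245632_ok, W6_15217987584_ok, W6_15201730560_ok,
    W6_15201472512_ok, W6_15184957440_ok, W6_14177796096_ok, W6_14177538048_ok, W6_14161281024_ok,
    W6_14161022976_ok, W6_14144765952_ok, W6_14144507904_ok, W6_14127992832_ok, trivial⟩
    F6_17399549952_chk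

theorem V6_17399025729_ok : Fwd.Has6 Inst.T 6 V6_17399025729 :=
  fwd_sound' relAll_5_5 ks6_ok F6_17399025729
    ⟨V5_14144245824_ok, V5_14177275968_ok, trivial⟩ ⟨W6_17364684864_ok, W6_17348169792_ok,
    W6_17331654720_ok, W6_17315139648_ok, W6_16291205184_ok, W6_16274690112_ok, W6_16258175040_ok,
    W6_15234240576_ok, W6_15217725504_ok, W6_15201210432_ok, W6_14177275968_ok, W6_14160760896_ok,
    W6_14144245824_ok, trivial⟩ F6_17399025729_chk

theorem V6_17383034880_ok : Fwd.Has6 Inst.T 6 V6_17383034880 :=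
  fwd_sound' relAll_5_5 ks6_ok F6_17383034880
    ⟨V5_13087801344_ok, V5_13054513152_ok, V5_14111477760_ok, V5_13071028224_ok,
    V5_14161022976_ok, V5_14127992832_ok, V5_16225406976_ok, V5_15168442368_ok, V5_16307982336_ok,
    trivial⟩ ⟨W6_17381720064_ok, W6_17381462016_ok, W6_17365204992_ok, W6_17364946944_ok,
    W6_17348689920_ok, W6_17348431872_ok, W6_17332174848_ok, W6_17331916800_ok, W6_17315659776_ok,
    W6_17315401728_ok, W6_17299144704_ok, W6_17298886656_ok, W6_16308240384_ok, W6_16307982336_ok,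
    W6_16291725312_ok, W6_16291467264_ok, W6_16275210240_ok, W6_16274952192_ok, W6_16258695168_ok,
    W6_16258437120_ok, W6_16242180096_ok, W6_16241922048_ok, W6_16225406976_ok, W6_15234760704_ok,
    W6_15234502656_ok, W6_15218245632_ok, W6_15217987584_ok, W6_15201730560_ok, W6_15201472512_ok,
    W6_15185215488_ok, W6_15184957440_ok, W6_15168442368_ok, W6_14161281024_ok, W6_14161022976_ok,
    W6_14144765952_ok, W6_14144507904_ok, W6_14128250880_ok, W6_14127992832_ok, W6_14111477760_ok,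
    W6_13087801344_ok, W6_13087543296_ok, W6_13071286272_ok, W6_13071028224_ok, W6_13054513152_ok,
    trivial⟩ F6_17383034880_chk

theorem V6_17382776832_ok : Fwd.Has6 Inst.T 6 V6_17382776832 :=
  fwd_sound' relAll_5_5 ks6_ok F6_17382776832
    ⟨V5_13087801344_ok, V5_17282113536_ok, V5_13054255104_ok, V5_13087285248_ok,
    V5_15168184320_ok, V5_15234244608_ok, V5_14111219712_ok, V5_13071028224_ok, V5_15201730560_ok,
    V5_13070770176_ok, V5_15234760704_ok, V5_14160764928_ok, trivial⟩ ⟨W6_17381720064_ok,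
    W6_17365204992_ok, W6_17364946944_ok, W6_17348689920_ok, W6_17348431872_ok, W6_17348173824_ok,
    W6_17332174848_ok, W6_17331916800_ok, W6_17331658752_ok, W6_17315659776_ok, W6_17315401728_ok,
    W6_17315143680_ok, W6_17298886656_ok, W6_17298628608_ok, W6_17282113536_ok, W6_16308240384_ok,
    W6_16307982336_ok, W6_16291725312_ok, W6_16291467264_ok, W6_16291209216_ok, W6_16275210240_ok,
    W6_16274952192_ok, W6_16274694144_ok, W6_16258695168_ok, W6_16258437120_ok, W6_16258179072_ok,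
    W6_16241922048_ok, W6_16241664000_ok, W6_16225148928_ok, W6_15234760704_ok, W6_15234502656_ok,
    W6_15234244608_ok, W6_15218245632_ok, W6_15217987584_ok, W6_15217729536_ok, W6_15201730560_ok,
    W6_15201472512_ok, W6_15201214464_ok, W6_15184957440_ok, W6_15184699392_ok, W6_15168184320_ok,
    W6_14161281024_ok, W6_14161022976_ok, W6_14160764928_ok, W6_14144765952_ok, W6_14144507904_ok,
    W6_14144249856_ok, W6_14127992832_ok, W6_14127734784_ok, W6_14111219712_ok, W6_13087801344_ok,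
    W6_13087543296_ok, W6_13087285248_ok, W6_13071028224_ok, W6_13070770176_ok, W6_13054255104_ok,
    trivial⟩ F6_17382776832_chk

theorem V6_17382510657_ok : Fwd.Has6 Inst.T 6 V6_17382510657 :=
  fwd_sound' relAll_5_5 ks6_ok F6_17382510657
    ⟨V5_13070766144_ok, V5_14144245824_ok, V5_17364684864_ok, trivial⟩ ⟨W6_17364684864_ok,
    W6_17348169792_ok, W6_17331654720_ok, W6_17315139648_ok, W6_17298624576_ok, W6_16291205184_ok,
    W6_16274690112_ok, W6_16258175040_ok, W6_16241659968_ok, W6_15234240576_ok, W6_15217725504_ok,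
    W6_15201210432_ok, W6_15184695360_ok, W6_14160760896_ok, W6_14144245824_ok, W6_14127730752_ok,
    W6_13070766144_ok, trivial⟩ F6_17382510657_chk

theorem V6_17382260736_ok : Fwd.Has6 Inst.T 6 V6_17382260736 :=
  fwd_sound' relAll_5_5 ks6_ok F6_17382260736
    ⟨V5_13053739008_ok, V5_15234760704_ok, V5_13087285248_ok, V5_14161022976_ok,
    V5_17348689920_ok, V5_17281597440_ok, trivial⟩ ⟨W6_17348689920_ok, W6_17331916800_ok,
    W6_17315143680_ok, W6_17298370560_ok, W6_17281597440_ok, W6_16291725312_ok, W6_16274952192_ok,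
    W6_16258179072_ok, W6_16241405952_ok, W6_16224632832_ok, W6_15234760704_ok, W6_15217987584_ok,
    W6_15201214464_ok, W6_15184441344_ok, W6_15167668224_ok, W6_14161022976_ok, W6_14144249856_ok,
    W6_14127476736_ok, W6_14110703616_ok, W6_13087285248_ok, W6_13070512128_ok, W6_13053739008_ok,
    trivial⟩ F6_17382260736_chk

theorem V6_17381990529_ok : Fwd.Has6 Inst.T 6 V6_17381990529 :=
  fwd_sound' relAll_5_5 ks6_ok F6_17381990529
    ⟨V5_13086761088_ok, V5_13087023168_ok, V5_14143987776_ok, V5_13070246016_ok, trivial⟩ ⟨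
    W6_17331396672_ok, W6_17314881600_ok, W6_17314619520_ok, W6_17298104448_ok, W6_16274432064_ok,
    W6_16257916992_ok, W6_16257654912_ok, W6_16241139840_ok, W6_15217467456_ok, W6_15200952384_ok,
    W6_15200690304_ok, W6_15184175232_ok, W6_14160502848_ok, W6_14143987776_ok, W6_14127210624_ok,
    W6_13087023168_ok, W6_13086761088_ok, W6_13070246016_ok, trivial⟩ F6_17381990529_chk

theorem V6_17366777856_ok : Fwd.Has6 Inst.T 6 V6_17366777856 :=
  fwd_sound' relAll_5_5 ks6_ok F6_17366777856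
    ⟨V5_13054771200_ok, V5_11981291520_ok, V5_17365204992_ok, V5_13071286272_ok, trivial⟩ ⟨
    W6_17365204992_ok, W6_17348689920_ok, W6_17332174848_ok, W6_16291725312_ok, W6_16275210240_ok,
    W6_16258695168_ok, W6_15218245632_ok, W6_15201730560_ok, W6_15185215488_ok, W6_14144765952_ok,
    W6_14128250880_ok, W6_14111735808_ok, W6_13071286272_ok, W6_13054771200_ok, W6_11981291520_ok,
    trivial⟩ F6_17366777856_chk

theorem V6_17366519808_ok : Fwd.Has6 Inst.T 6 V6_17366519808 :=
  fwd_sound' relAll_5_5 ks6_ok F6_17366519808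
    ⟨V5_11997548544_ok, V5_13054771200_ok, V5_11981033472_ok, V5_15168700416_ok,
    V5_13071028224_ok, V5_15217987584_ok, V5_17364946944_ok, V5_14144507904_ok, V5_14094962688_ok,
    V5_13037998080_ok, trivial⟩ ⟨W6_17365204992_ok, W6_17364946944_ok, W6_17348689920_ok,
    W6_17348431872_ok, W6_17332174848_ok, W6_17331916800_ok, W6_17315659776_ok, W6_17315401728_ok,
    W6_16291725312_ok, W6_16291467264_ok, W6_16275210240_ok, W6_16274952192_ok, W6_16258695168_ok,
    W6_16258437120_ok, W6_16242180096_ok, W6_16241922048_ok, W6_15218245632_ok, W6_15217987584_ok,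
    W6_15201730560_ok, W6_15201472512_ok, W6_15185215488_ok, W6_15184957440_ok, W6_15168700416_ok,
    W6_15168442368_ok, W6_14144765952_ok, W6_14144507904_ok, W6_14128250880_ok, W6_14127992832_ok,
    W6_14111735808_ok, W6_14111477760_ok, W6_14094962688_ok, W6_13071286272_ok, W6_13071028224_ok,
    W6_13054771200_ok, W6_13054513152_ok, W6_13037998080_ok, W6_11997548544_ok, W6_11981033472_ok,
    trivial⟩ F6_17366519808_chk

theorem V6_17366261760_ok : Fwd.Has6 Inst.T 6 V6_17366261760 :=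
  fwd_sound' relAll_5_5 ks6_ok F6_17366261760
    ⟨V5_11997548544_ok, V5_11980775424_ok, V5_13054255104_ok, V5_13070770176_ok,
    V5_16291209216_ok, V5_13054513152_ok, V5_17348173824_ok, V5_14094704640_ok, V5_15168184320_ok,
    V5_13071028224_ok, V5_14144249856_ok, V5_11997290496_ok, V5_13071286272_ok, V5_17299144704_ok,
    trivial⟩ ⟨W6_17365204992_ok, W6_17364946944_ok, W6_17348689920_ok, W6_17348431872_ok,
    W6_17348173824_ok, W6_17332174848_ok, W6_17331916800_ok, W6_17331658752_ok, W6_17315659776_ok,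
    W6_17315401728_ok, W6_17315143680_ok, W6_17299144704_ok, W6_17298886656_ok, W6_17298628608_ok,
    W6_16291725312_ok, W6_16291467264_ok, W6_16291209216_ok, W6_16275210240_ok, W6_16274952192_ok,
    W6_16274694144_ok, W6_16258695168_ok, W6_16258437120_ok, W6_16258179072_ok, W6_16242180096_ok,
    W6_16241922048_ok, W6_16241664000_ok, W6_16225406976_ok, W6_16225148928_ok, W6_15218245632_ok,
    W6_15217987584_ok, W6_15217729536_ok, W6_15201730560_ok, W6_15201472512_ok, W6_15201214464_ok,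
    W6_15185215488_ok, W6_15184957440_ok, W6_15184699392_ok, W6_15168442368_ok, W6_15168184320_ok,
    W6_15151669248_ok, W6_14144765952_ok, W6_14144507904_ok, W6_14144249856_ok, W6_14128250880_ok,
    W6_14127992832_ok, W6_14127734784_ok, W6_14111477760_ok, W6_14111219712_ok, W6_14094704640_ok,
    W6_13071286272_ok, W6_13071028224_ok, W6_13070770176_ok, W6_13054513152_ok, W6_13054255104_ok,
    W6_13037740032_ok, W6_11997548544_ok, W6_11997290496_ok, W6_11980775424_ok, trivial⟩
    F6_17366261760_chk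

theorem V6_17366003712_ok : Fwd.Has6 Inst.T 6 V6_17366003712 :=
  fwd_sound' relAll_5_5 ks6_ok F6_17366003712
    ⟨V5_11980517376_ok, V5_13054255104_ok, V5_15201730560_ok, V5_13071028224_ok,
    V5_13037481984_ok, V5_11997032448_ok, V5_14144765952_ok, V5_16208375808_ok, V5_17282113536_ok,
    V5_14094446592_ok, V5_14127992832_ok, V5_17315659776_ok, V5_13070512128_ok, V5_11997290496_ok,
    trivial⟩ ⟨W6_17365204992_ok, W6_17348689920_ok, W6_17348431872_ok, W6_17332174848_ok,
    W6_17331916800_ok, W6_17331658752_ok, W6_17315659776_ok, W6_17315401728_ok, W6_17315143680_ok,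
    W6_17314885632_ok, W6_17298886656_ok, W6_17298628608_ok, W6_17298370560_ok, W6_17282113536_ok,
    W6_17281855488_ok, W6_16291725312_ok, W6_16291467264_ok, W6_16275210240_ok, W6_16274952192_ok,
    W6_16274694144_ok, W6_16258695168_ok, W6_16258437120_ok, W6_16258179072_ok, W6_16257921024_ok,
    W6_16241922048_ok, W6_16241664000_ok, W6_16241405952_ok, W6_16225148928_ok, W6_16224890880_ok,
    W6_16208375808_ok, W6_15218245632_ok, W6_15217987584_ok, W6_15217729536_ok, W6_15201730560_ok,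
    W6_15201472512_ok, W6_15201214464_ok, W6_15200956416_ok, W6_15184957440_ok, W6_15184699392_ok,
    W6_15184441344_ok, W6_15168184320_ok, W6_15167926272_ok, W6_15151411200_ok, W6_14144765952_ok,
    W6_14144507904_ok, W6_14144249856_ok, W6_14143991808_ok, W6_14127992832_ok, W6_14127734784_ok,
    W6_14127476736_ok, W6_14111219712_ok, W6_14110961664_ok, W6_14094446592_ok, W6_13071028224_ok,
    W6_13070770176_ok, W6_13070512128_ok, W6_13054255104_ok, W6_13053997056_ok, W6_13037481984_ok,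
    W6_11997290496_ok, W6_11997032448_ok, W6_11980517376_ok, trivial⟩ F6_17366003712_chk

theorem V6_17365995585_ok : Fwd.Has6 Inst.T 6 V6_17365995585 :=
  fwd_sound' relAll_5_5 ks6_ok F6_17365995585
    ⟨V5_11997286464_ok, V5_13070766144_ok, V5_14144245824_ok, trivial⟩ ⟨W6_17364684864_ok,
    W6_17348169792_ok, W6_17331654720_ok, W6_17315139648_ok, W6_17298624576_ok, W6_16291205184_ok,
    W6_16274690112_ok, W6_16258175040_ok, W6_16241659968_ok, W6_16225144896_ok, W6_15217725504_ok,
    W6_15201210432_ok, W6_15184695360_ok, W6_15168180288_ok, W6_14144245824_ok, W6_14127730752_ok,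
    W6_14111215680_ok, W6_13070766144_ok, W6_13054251072_ok, W6_11997286464_ok, trivial⟩
    F6_17365995585_chk

theorem V6_17365737600_ok : Fwd.Has6 Inst.T 6 V6_17365737600 :=
  fwd_sound' relAll_5_5 ks6_ok F6_17365737600
    ⟨V5_13070770176_ok, V5_14127734784_ok, V5_14144249856_ok, V5_11997028416_ok,
    V5_15201214464_ok, V5_16291209216_ok, V5_15200690304_ok, trivial⟩ ⟨W6_17348173824_ok,
    W6_17331658752_ok, W6_17331396672_ok, W6_17315143680_ok, W6_17314881600_ok, W6_17314619520_ok,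
    W6_17298628608_ok, W6_17298366528_ok, W6_17298104448_ok, W6_17281851456_ok, W6_17281589376_ok,
    W6_16291209216_ok, W6_16274694144_ok, W6_16274432064_ok, W6_16258179072_ok, W6_16257916992_ok,
    W6_16257654912_ok, W6_16241664000_ok, W6_16241401920_ok, W6_16241139840_ok, W6_16224886848_ok,
    W6_16224624768_ok, W6_16208109696_ok, W6_15217729536_ok, W6_15217467456_ok, W6_15201214464_ok,
    W6_15200952384_ok, W6_15200690304_ok, W6_15184699392_ok, W6_15184437312_ok, W6_15184175232_ok,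
    W6_15167922240_ok, W6_15167660160_ok, W6_15151145088_ok, W6_14144249856_ok, W6_14143987776_ok,
    W6_14127734784_ok, W6_14127472704_ok, W6_14127210624_ok, W6_14110957632_ok, W6_14110695552_ok,
    W6_14094180480_ok, W6_13070770176_ok, W6_13070508096_ok, W6_13070246016_ok, W6_13053993024_ok,
    W6_13053730944_ok, W6_13037215872_ok, W6_11997028416_ok, W6_11980251264_ok, trivial⟩
    F6_17365737600_chk

theorem V6_17365483584_ok : Fwd.Has6 Inst.T 6 V6_17365483584 :=
  fwd_sound' relAll_5_5 ks6_ok F6_17365483584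
    ⟨V5_13053739008_ok, V5_15217987584_ok, V5_14144249856_ok, V5_14144245824_ok,
    V5_11996770368_ok, V5_15167668224_ok, V5_11979997248_ok, V5_17264820288_ok, trivial⟩ ⟨
    W6_17331916800_ok, W6_17315143680_ok, W6_17315139648_ok, W6_17298370560_ok, W6_17298366528_ok,
    W6_17281597440_ok, W6_17281593408_ok, W6_17264820288_ok, W6_16274952192_ok, W6_16258179072_ok,
    W6_16258175040_ok, W6_16241405952_ok, W6_16241401920_ok, W6_16224632832_ok, W6_16224628800_ok,
    W6_16207855680_ok, W6_15217987584_ok, W6_15201214464_ok, W6_15201210432_ok, W6_15184441344_ok,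
    W6_15184437312_ok, W6_15167668224_ok, W6_15167664192_ok, W6_15150891072_ok, W6_14144249856_ok,
    W6_14144245824_ok, W6_14127476736_ok, W6_14127472704_ok, W6_14110703616_ok, W6_14110699584_ok,
    W6_14093926464_ok, W6_13070512128_ok, W6_13070508096_ok, W6_13053739008_ok, W6_13053734976_ok,
    W6_13036961856_ok, W6_11996770368_ok, W6_11979997248_ok, trivial⟩ F6_17365483584_chk

theorem V6_17365217472_ok : Fwd.Has6 Inst.T 6 V6_17365217472 :=
  fwd_sound' relAll_5_5 ks6_ok F6_17365217472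
    ⟨V5_14143991808_ok, trivial⟩ ⟨W6_17314885632_ok, W6_17298108480_ok, W6_16257921024_ok,
    W6_16241143872_ok, W6_15200956416_ok, W6_15184179264_ok, W6_14143991808_ok, W6_14127214656_ok,
    W6_14110437504_ok, W6_13070250048_ok, trivial⟩ F6_17365217472_chk

theorem V6_17350262784_ok : Fwd.Has6 Inst.T 6 V6_17350262784 :=
  fwd_sound' relAll_5_5 ks6_ok F6_17350262784
    ⟨V5_17348689920_ok, V5_10907811840_ok, V5_11981291520_ok, trivial⟩ ⟨W6_17348689920_ok,
    W6_16275210240_ok, W6_15201730560_ok, W6_14128250880_ok, W6_13054771200_ok, W6_11981291520_ok,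
    W6_10907811840_ok, trivial⟩ F6_17350262784_chk

theorem V6_17349746688_ok : Fwd.Has6 Inst.T 6 V6_17349746688 :=
  fwd_sound' relAll_5_5 ks6_ok F6_17349746688
    ⟨V5_10907295744_ok, V5_17348173824_ok, V5_13054771200_ok, V5_13054255104_ok,
    V5_13021224960_ok, V5_15201214464_ok, V5_15168700416_ok, V5_11980775424_ok, V5_11981033472_ok,
    V5_17348689920_ok, V5_11964260352_ok, trivial⟩ ⟨W6_17348689920_ok, W6_17348431872_ok,
    W6_17348173824_ok, W6_17332174848_ok, W6_17331916800_ok, W6_17331658752_ok, W6_17315659776_ok,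
    W6_17315401728_ok, W6_17315143680_ok, W6_16275210240_ok, W6_16274952192_ok, W6_16274694144_ok,
    W6_16258695168_ok, W6_16258437120_ok, W6_16258179072_ok, W6_16242180096_ok, W6_16241922048_ok,
    W6_16241664000_ok, W6_15201730560_ok, W6_15201472512_ok, W6_15201214464_ok, W6_15185215488_ok,
    W6_15184957440_ok, W6_15184699392_ok, W6_15168700416_ok, W6_15168442368_ok, W6_15168184320_ok,
    W6_14128250880_ok, W6_14127992832_ok, W6_14127734784_ok, W6_14111735808_ok, W6_14111477760_ok,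
    W6_14111219712_ok, W6_14094962688_ok, W6_14094704640_ok, W6_13054771200_ok, W6_13054513152_ok,
    W6_13054255104_ok, W6_13037998080_ok, W6_13037740032_ok, W6_13021224960_ok, W6_11981033472_ok,
    W6_11980775424_ok, W6_11964260352_ok, W6_10907295744_ok, trivial⟩ F6_17349746688_chk

theorem V6_17349742656_ok : Fwd.Has6 Inst.T 6 V6_17349742656 :=
  fwd_sound' relAll_5_5 ks6_ok F6_17349742656
    ⟨V5_11981033472_ok, V5_13054513152_ok, V5_14127992832_ok, V5_14094962688_ok,
    V5_13037998080_ok, V5_11964256320_ok, V5_11980771392_ok, V5_13037736000_ok, trivial⟩ ⟨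
    W6_17348431872_ok, W6_17348169792_ok, W6_17331916800_ok, W6_17331654720_ok, W6_17315401728_ok,
    W6_17315139648_ok, W6_16274952192_ok, W6_16274690112_ok, W6_16258437120_ok, W6_16258175040_ok,
    W6_16241922048_ok, W6_16241659968_ok, W6_15201472512_ok, W6_15201210432_ok, W6_15184957440_ok,
    W6_15184695360_ok, W6_15168442368_ok, W6_15168180288_ok, W6_14127992832_ok, W6_14127730752_ok,
    W6_14111477760_ok, W6_14111215680_ok, W6_14094962688_ok, W6_14094700608_ok, W6_13054513152_ok,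
    W6_13054251072_ok, W6_13037998080_ok, W6_13037736000_ok, W6_11981033472_ok, W6_11980771392_ok,
    W6_11964256320_ok, trivial⟩ F6_17349742656_chk

theorem V6_17348972544_ok : Fwd.Has6 Inst.T 6 V6_17348972544 :=
  fwd_sound' relAll_5_5 ks6_ok F6_17348972544
    ⟨V5_16275210240_ok, V5_15201472512_ok, V5_11980259328_ok, V5_11963486208_ok,
    V5_13020450816_ok, V5_14077415424_ok, trivial⟩ ⟨W6_17332174848_ok, W6_17315401728_ok,
    W6_17298628608_ok, W6_17281855488_ok, W6_16275210240_ok, W6_16258437120_ok, W6_16241664000_ok,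
    W6_16224890880_ok, W6_16208117760_ok, W6_15201472512_ok, W6_15184699392_ok, W6_15167926272_ok,
    W6_15151153152_ok, W6_14127734784_ok, W6_14110961664_ok, W6_14094188544_ok, W6_14077415424_ok,
    W6_13053997056_ok, W6_13037223936_ok, W6_13020450816_ok, W6_11980259328_ok, W6_11963486208_ok,
    trivial⟩ F6_17348972544_chk

theorem V6_17348706369_ok : Fwd.Has6 Inst.T 6 V6_17348706369 :=
  fwd_sound' relAll_5_5 ks6_ok F6_17348706369
    ⟨V5_11979997248_ok, V5_13036961856_ok, V5_14093926464_ok, V5_13053734976_ok, trivial⟩ ⟨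
    W6_17315139648_ok, W6_17298366528_ok, W6_17281593408_ok, W6_17264820288_ok, W6_16258175040_ok,
    W6_16241401920_ok, W6_16224628800_ok, W6_16207855680_ok, W6_15201210432_ok, W6_15184437312_ok,
    W6_15167664192_ok, W6_15150891072_ok, W6_14127472704_ok, W6_14110699584_ok, W6_14093926464_ok,
    W6_13053734976_ok, W6_13036961856_ok, W6_11979997248_ok, trivial⟩ F6_17348706369_chk

theorem V6_17348702400_ok : Fwd.Has6 Inst.T 6 V6_17348702400 :=
  fwd_sound' relAll_5_5 ks6_ok F6_17348702400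
    ⟨V5_14127476736_ok, V5_11963216064_ok, V5_13053734976_ok, trivial⟩ ⟨W6_17314885632_ok,
    W6_17298370560_ok, W6_17298108480_ok, W6_17281593408_ok, W6_16257921024_ok, W6_16241405952_ok,
    W6_16241143872_ok, W6_16224628800_ok, W6_16207851648_ok, W6_15200956416_ok, W6_15184441344_ok,
    W6_15184179264_ok, W6_15167664192_ok, W6_15150887040_ok, W6_14127476736_ok, W6_14127214656_ok,
    W6_14110699584_ok, W6_14110437504_ok, W6_14093922432_ok, W6_13053734976_ok, W6_13036957824_ok,
    W6_11979993216_ok, W6_11963216064_ok, trivial⟩ F6_17348702400_chk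

theorem V6_17332965441_ok : Fwd.Has6 Inst.T 6 V6_17332965441 :=
  fwd_sound' relAll_5_5 ks6_ok F6_17332965441
    ⟨V5_11964256320_ok, V5_13037736000_ok, trivial⟩ ⟨W6_17331654720_ok, W6_17315139648_ok,
    W6_16258175040_ok, W6_16241659968_ok, W6_15184695360_ok, W6_15168180288_ok, W6_14111215680_ok,
    W6_14094700608_ok, W6_13037736000_ok, W6_11964256320_ok, trivial⟩ F6_17332965441_chk

theorem V6_17331929280_ok : Fwd.Has6 Inst.T 6 V6_17331929280 :=
  fwd_sound' relAll_5_5 ks6_ok F6_17331929280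
    ⟨V5_14110703616_ok, V5_15184441344_ok, V5_11963216064_ok, V5_13036961856_ok,
    V5_11946442944_ok, trivial⟩ ⟨W6_17298370560_ok, W6_17281597440_ok, W6_17281593408_ok,
    W6_17264820288_ok, W6_17248043136_ok, W6_16241405952_ok, W6_16224632832_ok, W6_16224628800_ok,
    W6_16207855680_ok, W6_16207851648_ok, W6_16191078528_ok, W6_15184441344_ok, W6_15167668224_ok,
    W6_15167664192_ok, W6_15150891072_ok, W6_15150887040_ok, W6_15134113920_ok, W6_14110703616_ok,
    W6_14110699584_ok, W6_14093926464_ok, W6_14093922432_ok, W6_14077149312_ok, W6_14060372160_ok,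
    W6_13036961856_ok, W6_13036957824_ok, W6_13020184704_ok, W6_13003407552_ok, W6_11963220096_ok,
    W6_11963216064_ok, W6_11946442944_ok, trivial⟩ F6_17331929280_chk

theorem V6_17316200448_ok : Fwd.Has6 Inst.T 6 V6_17316200448 :=
  fwd_sound' relAll_5_5 ks6_ok F6_17316200448
    ⟨V5_10873749504_ok, V5_15168700416_ok, V5_13021224960_ok, V5_15167668224_ok,
    V5_17315659776_ok, V5_11947487232_ok, V5_11947229184_ok, trivial⟩ ⟨W6_17315659776_ok,
    W6_17315401728_ok, W6_17315143680_ok, W6_16242180096_ok, W6_16241922048_ok, W6_16241664000_ok,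
    W6_16241405952_ok, W6_15168700416_ok, W6_15168442368_ok, W6_15168184320_ok, W6_15167926272_ok,
    W6_15167668224_ok, W6_14094962688_ok, W6_14094704640_ok, W6_14094446592_ok, W6_14094188544_ok,
    W6_13021224960_ok, W6_13020966912_ok, W6_13020708864_ok, W6_11947487232_ok, W6_11947229184_ok,
    W6_10873749504_ok, trivial⟩ F6_17316200448_chk

theorem V6_17316192384_ok : Fwd.Has6 Inst.T 6 V6_17316192384 :=
  fwd_sound' relAll_5_5 ks6_ok F6_17316192384
    ⟨V5_13021224960_ok, V5_10873741440_ok, V5_15168184320_ok, trivial⟩ ⟨W6_17315143680_ok,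
    W6_17314881600_ok, W6_17314619520_ok, W6_16241664000_ok, W6_16241401920_ok, W6_16241139840_ok,
    W6_15168184320_ok, W6_15167922240_ok, W6_15167660160_ok, W6_14094704640_ok, W6_14094442560_ok,
    W6_14094180480_ok, W6_13021224960_ok, W6_13020962880_ok, W6_13020700800_ok, W6_11947483200_ok,
    W6_11947221120_ok, W6_10873741440_ok, trivial⟩ F6_17316192384_chk

theorem V6_17315942400_ok : Fwd.Has6 Inst.T 6 V6_17315942400 :=
  fwd_sound' relAll_5_5 ks6_ok F6_17315942400
    ⟨V5_17315659776_ok, V5_16242180096_ok, V5_11946971136_ok, V5_14094704640_ok,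
    V5_11947229184_ok, V5_13003935744_ok, trivial⟩ ⟨W6_17315659776_ok, W6_17315401728_ok,
    W6_17299144704_ok, W6_17298886656_ok, W6_17298628608_ok, W6_16242180096_ok, W6_16241922048_ok,
    W6_16241664000_ok, W6_16225406976_ok, W6_16225148928_ok, W6_16224890880_ok, W6_15168442368_ok,
    W6_15168184320_ok, W6_15167926272_ok, W6_15151669248_ok, W6_15151411200_ok, W6_15151153152_ok,
    W6_14094704640_ok, W6_14094446592_ok, W6_14094188544_ok, W6_14077931520_ok, W6_14077673472_ok,
    W6_14077415424_ok, W6_13020966912_ok, W6_13020708864_ok, W6_13020450816_ok, W6_13004193792_ok,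
    W6_13003935744_ok, W6_11947229184_ok, W6_11946971136_ok, W6_11930456064_ok, W6_10873491456_ok,
    trivial⟩ F6_17315942400_chk

theorem V6_17315930241_ok : Fwd.Has6 Inst.T 6 V6_17315930241 :=
  fwd_sound' relAll_5_5 ks6_ok F6_17315930241
    ⟨V5_13020962880_ok, V5_13020700800_ok, V5_17314619520_ok, V5_14077927488_ok, trivial⟩ ⟨
    W6_17314881600_ok, W6_17314619520_ok, W6_17298366528_ok, W6_17298104448_ok, W6_16241401920_ok,
    W6_16241139840_ok, W6_16224886848_ok, W6_16224624768_ok, W6_15167922240_ok, W6_15167660160_ok,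
    W6_15151407168_ok, W6_15151145088_ok, W6_14094442560_ok, W6_14094180480_ok, W6_14077927488_ok,
    W6_14077665408_ok, W6_13020962880_ok, W6_13020700800_ok, W6_11947221120_ok, trivial⟩
    F6_17315930241_chk

theorem V6_17315684352_ok : Fwd.Has6 Inst.T 6 V6_17315684352 :=
  fwd_sound' relAll_5_5 ks6_ok F6_17315684352
    ⟨V5_17315659776_ok, V5_10873233408_ok, V5_16241922048_ok, V5_12987162624_ok, trivial⟩ ⟨
    W6_17315659776_ok, W6_17298886656_ok, W6_17282113536_ok, W6_16241922048_ok, W6_16225148928_ok,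
    W6_16208375808_ok, W6_15168184320_ok, W6_15151411200_ok, W6_15134638080_ok, W6_14094446592_ok,
    W6_14077673472_ok, W6_14060900352_ok, W6_13020708864_ok, W6_13003935744_ok, W6_12987162624_ok,
    W6_11946971136_ok, W6_11930198016_ok, W6_10873233408_ok, trivial⟩ F6_17315684352_chk

theorem V6_17315152065_ok : Fwd.Has6 Inst.T 6 V6_17315152065 :=
  fwd_sound' relAll_5_5 ks6_ok F6_17315152065
    ⟨V5_13020184704_ok, V5_14093926464_ok, trivial⟩ ⟨W6_17281593408_ok, W6_17264820288_ok,
    W6_17248043136_ok, W6_16224628800_ok, W6_16207855680_ok, W6_16207851648_ok, W6_16191078528_ok,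
    W6_15167664192_ok, W6_15150891072_ok, W6_15150887040_ok, W6_15134113920_ok, W6_14093926464_ok,
    W6_14093922432_ok, W6_14077149312_ok, W6_14060372160_ok, W6_13020184704_ok, W6_13003407552_ok,
    W6_11946442944_ok, trivial⟩ F6_17315152065_chk

theorem V6_17299169280_ok : Fwd.Has6 Inst.T 6 V6_17299169280 :=
  fwd_sound' relAll_5_5 ks6_ok F6_17299169280
    ⟨V5_16225406976_ok, V5_11930198016_ok, V5_11930456064_ok, trivial⟩ ⟨W6_17299144704_ok,
    W6_17298886656_ok, W6_16225406976_ok, W6_16225148928_ok, W6_15151669248_ok, W6_15151411200_ok,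
    W6_14077931520_ok, W6_14077673472_ok, W6_13004193792_ok, W6_13003935744_ok, W6_11930456064_ok,
    W6_11930198016_ok, trivial⟩ F6_17299169280_chk

theorem V6_17299165248_ok : Fwd.Has6 Inst.T 6 V6_17299165248 :=
  fwd_sound' relAll_5_5 ks6_ok F6_17299165248
    ⟨V5_15151665216_ok, V5_16225406976_ok, V5_17298886656_ok, V5_13003935744_ok,
    V5_11930456064_ok, trivial⟩ ⟨W6_17298886656_ok, W6_17298628608_ok, W6_17298624576_ok,
    W6_16225406976_ok, W6_16225148928_ok, W6_16225144896_ok, W6_16224890880_ok, W6_16224886848_ok,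
    W6_15151669248_ok, W6_15151665216_ok, W6_15151411200_ok, W6_15151407168_ok, W6_15151153152_ok,
    W6_15151149120_ok, W6_14077931520_ok, W6_14077927488_ok, W6_14077673472_ok, W6_14077669440_ok,
    W6_14077415424_ok, W6_14077411392_ok, W6_13004193792_ok, W6_13004189760_ok, W6_13003935744_ok,
    W6_13003931712_ok, W6_13003673664_ok, W6_11930456064_ok, W6_11930452032_ok, W6_11930193984_ok,
    trivial⟩ F6_17299165248_chk

theorem V6_17299161153_ok : Fwd.Has6 Inst.T 6 V6_17299161153 :=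
  fwd_sound' relAll_5_5 ks6_ok F6_17299161153
    ⟨V5_15151665216_ok, V5_13003931712_ok, V5_11930452032_ok, V5_13004189760_ok,
    V5_15150891072_ok, trivial⟩ ⟨W6_17298624576_ok, W6_17298366528_ok, W6_16225144896_ok,
    W6_16224886848_ok, W6_16224628800_ok, W6_15151665216_ok, W6_15151407168_ok, W6_15151149120_ok,
    W6_15150891072_ok, W6_14077927488_ok, W6_14077669440_ok, W6_14077411392_ok, W6_13004189760_ok,
    W6_13003931712_ok, W6_11930452032_ok, trivial⟩ F6_17299161153_chk

theorem V6_17299157184_ok : Fwd.Has6 Inst.T 6 V6_17299157184 :=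
  fwd_sound' relAll_5_5 ks6_ok F6_17299157184
    ⟨V5_10856706240_ok, V5_14077931520_ok, V5_15151411200_ok, trivial⟩ ⟨W6_17298370560_ok,
    W6_17298108480_ok, W6_16224890880_ok, W6_16224628800_ok, W6_15151411200_ok, W6_15151149120_ok,
    W6_15150887040_ok, W6_14077931520_ok, W6_14077669440_ok, W6_14077407360_ok, W6_13004189760_ok,
    W6_13003927680_ok, W6_13003665600_ok, W6_11930185920_ok, W6_10856706240_ok, trivial⟩
    F6_17299157184_chk

theorem V6_17298903168_ok : Fwd.Has6 Inst.T 6 V6_17298903168 :=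
  fwd_sound' relAll_5_5 ks6_ok F6_17298903168
    ⟨V5_13003935744_ok, V5_16225148928_ok, V5_14060900352_ok, V5_14077673472_ok,
    V5_11930193984_ok, V5_11930189952_ok, trivial⟩ ⟨W6_17298628608_ok, W6_17282113536_ok,
    W6_17281855488_ok, W6_17281851456_ok, W6_16225148928_ok, W6_16224890880_ok, W6_16224886848_ok,
    W6_16208375808_ok, W6_16208371776_ok, W6_16208117760_ok, W6_16208113728_ok, W6_16208109696_ok,
    W6_15151411200_ok, W6_15151407168_ok, W6_15151153152_ok, W6_15151149120_ok, W6_15151145088_ok,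
    W6_15134638080_ok, W6_15134634048_ok, W6_15134630016_ok, W6_15134376000_ok, W6_15134371968_ok,
    W6_14077673472_ok, W6_14077669440_ok, W6_14077665408_ok, W6_14077415424_ok, W6_14077411392_ok,
    W6_14077407360_ok, W6_14060900352_ok, W6_14060896320_ok, W6_14060892288_ok, W6_14060634240_ok,
    W6_13003935744_ok, W6_13003931712_ok, W6_13003927680_ok, W6_13003673664_ok, W6_13003669632_ok,
    W6_12987158592_ok, W6_12987154560_ok, W6_11930193984_ok, W6_11930189952_ok, W6_11913416832_ok,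
    W6_10856452224_ok, trivial⟩ F6_17298903168_chk

theorem V6_17298641088_ok : Fwd.Has6 Inst.T 6 V6_17298641088 :=
  fwd_sound' relAll_5_5 ks6_ok F6_17298641088
    ⟨V5_15151153152_ok, V5_13003665600_ok, trivial⟩ ⟨W6_17281855488_ok, W6_17265078336_ok,
    W6_16224890880_ok, W6_16208117760_ok, W6_16208113728_ok, W6_15151153152_ok, W6_15151149120_ok,
    W6_15134376000_ok, W6_15134371968_ok, W6_14077415424_ok, W6_14077411392_ok, W6_14077407360_ok,
    W6_14060634240_ok, W6_13003673664_ok, W6_13003669632_ok, W6_13003665600_ok, W6_11929927872_ok,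
    trivial⟩ F6_17298641088_chk

theorem V6_17282129985_ok : Fwd.Has6 Inst.T 6 V6_17282129985 :=
  fwd_sound' relAll_5_5 ks6_ok F6_17282129985
    ⟨V5_11913420864_ok, trivial⟩ ⟨W6_16208371776_ok, W6_15134634048_ok, W6_14060896320_ok,
    W6_12987158592_ok, W6_11913420864_ok, trivial⟩ F6_17282129985_chk

theorem V6_17282126016_ok : Fwd.Has6 Inst.T 6 V6_17282126016 :=
  fwd_sound' relAll_5_5 ks6_ok F6_17282126016
    ⟨V5_14060900352_ok, V5_12987154560_ok, trivial⟩ ⟨W6_17281855488_ok, W6_16208375808_ok,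
    W6_16208117760_ok, W6_16208113728_ok, W6_15134638080_ok, W6_15134634048_ok, W6_15134376000_ok,
    W6_15134371968_ok, W6_14060900352_ok, W6_14060896320_ok, W6_14060892288_ok, W6_14060634240_ok,
    W6_12987158592_ok, W6_12987154560_ok, W6_11913416832_ok, W6_11913412800_ok, trivial⟩
    F6_17282126016_chk

theorem V6_17282125953_ok : Fwd.Has6 Inst.T 6 V6_17282125953 :=
  fwd_sound' relAll_5_5 ks6_ok F6_17282125953
    ⟨V5_12987154560_ok, V5_11913416832_ok, V5_15134630016_ok, trivial⟩ ⟨W6_17281851456_ok,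
    W6_16208371776_ok, W6_16208113728_ok, W6_16208109696_ok, W6_15134634048_ok, W6_15134630016_ok,
    W6_15134376000_ok, W6_15134371968_ok, W6_14060896320_ok, W6_14060892288_ok, W6_14060634240_ok,
    W6_12987158592_ok, W6_12987154560_ok, W6_11913416832_ok, trivial⟩ F6_17282125953_chk

theorem V6_17248043268_ok : Fwd.Has6 Inst.T 6 V6_17248043268 :=
  fwd_sound' relAll_5_5 ks6_ok F6_17248043268
    ⟨V5_15100559616_ok, trivial⟩ ⟨W6_15100559616_ok, trivial⟩ F6_17248043268_chk

theorem V6_16359358464_ok : Fwd.Has6 Inst.T 6 V6_16359358464 :=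
  fwd_sound' relAll_5_5 ks6_ok F6_16359358464
    ⟨V5_16258695168_ok, trivial⟩ ⟨W6_16341270528_ok, W6_16324755456_ok, W6_16308240384_ok,
    W6_16291725312_ok, W6_16275210240_ok, W6_16258695168_ok, trivial⟩ F6_16359358464_chk

theorem V6_16358842368_ok : Fwd.Has6 Inst.T 6 V6_16358842368 :=
  fwd_sound' relAll_5_5 ks6_ok F6_16358842368
    ⟨V5_16258179072_ok, trivial⟩ ⟨W6_16324755456_ok, W6_16308240384_ok, W6_16307982336_ok,
    W6_16291725312_ok, W6_16291467264_ok, W6_16291209216_ok, W6_16274952192_ok, W6_16274694144_ok,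
    W6_16258179072_ok, trivial⟩ F6_16358842368_chk

theorem V6_16358584320_ok : Fwd.Has6 Inst.T 6 V6_16358584320 :=
  fwd_sound' relAll_5_5 ks6_ok F6_16358584320
    ⟨V5_16308240384_ok, V5_16257921024_ok, trivial⟩ ⟨W6_16308240384_ok, W6_16291467264_ok,
    W6_16274694144_ok, W6_16257921024_ok, trivial⟩ F6_16358584320_chk

theorem V6_16358318208_ok : Fwd.Has6 Inst.T 6 V6_16358318208 :=
  fwd_sound' relAll_5_5 ks6_ok F6_16358318208
    ⟨V5_16257654912_ok, trivial⟩ ⟨W6_16291209216_ok, W6_16274432064_ok, W6_16257654912_ok,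
    trivial⟩ F6_16358318208_chk

theorem V6_16358318145_ok : Fwd.Has6 Inst.T 6 V6_16358318145 :=
  fwd_sound' relAll_5_5 ks6_ok F6_16358318145
    ⟨V5_16274432064_ok, trivial⟩ ⟨W6_16291205184_ok, W6_16274432064_ok, trivial⟩
    F6_16358318145_chk

theorem V6_16342323264_ok : Fwd.Has6 Inst.T 6 V6_16342323264 :=
  fwd_sound' relAll_5_5 ks6_ok F6_16342323264
    ⟨V5_15201472512_ok, V5_15251017728_ok, trivial⟩ ⟨W6_16324497408_ok, W6_16307982336_ok,
    W6_16291467264_ok, W6_16291205184_ok, W6_16274952192_ok, W6_16274690112_ok, W6_16258437120_ok,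
    W6_16258175040_ok, W6_16241659968_ok, W6_15251017728_ok, W6_15234502656_ok, W6_15234240576_ok,
    W6_15217987584_ok, W6_15217725504_ok, W6_15201472512_ok, W6_15201210432_ok, W6_15184695360_ok,
    trivial⟩ F6_16342323264_chk

theorem V6_16342069248_ok : Fwd.Has6 Inst.T 6 V6_16342069248 :=
  fwd_sound' relAll_5_5 ks6_ok F6_16342069248
    ⟨V5_16241405952_ok, V5_15234760704_ok, V5_15184441344_ok, trivial⟩ ⟨W6_16308240384_ok,
    W6_16291725312_ok, W6_16291467264_ok, W6_16274952192_ok, W6_16274694144_ok, W6_16258179072_ok,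
    W6_16257921024_ok, W6_16241405952_ok, W6_15251275776_ok, W6_15234760704_ok, W6_15234502656_ok,
    W6_15217987584_ok, W6_15217729536_ok, W6_15201214464_ok, W6_15200956416_ok, W6_15184441344_ok,
    trivial⟩ F6_16342069248_chk

theorem V6_16341803073_ok : Fwd.Has6 Inst.T 6 V6_16341803073 :=
  fwd_sound' relAll_5_5 ks6_ok F6_16341803073
    ⟨V5_15200952384_ok, trivial⟩ ⟨W6_16291205184_ok, W6_16274690112_ok, W6_16274432064_ok,
    W6_16257916992_ok, W6_15234240576_ok, W6_15217725504_ok, W6_15217467456_ok, W6_15200952384_ok,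
    trivial⟩ F6_16341803073_chk

theorem V6_16341540993_ok : Fwd.Has6 Inst.T 6 V6_16341540993 :=
  fwd_sound' relAll_5_5 ks6_ok F6_16341540993
    ⟨V5_16257654912_ok, trivial⟩ ⟨W6_16274432064_ok, W6_16257654912_ok, W6_15217467456_ok,
    W6_15200690304_ok, trivial⟩ F6_16341540993_chk

theorem V6_16326328320_ok : Fwd.Has6 Inst.T 6 V6_16326328320 :=
  fwd_sound' relAll_5_5 ks6_ok F6_16326328320
    ⟨V5_15168700416_ok, V5_15234760704_ok, V5_14111735808_ok, trivial⟩ ⟨W6_16324755456_ok,
    W6_16308240384_ok, W6_16291725312_ok, W6_16275210240_ok, W6_16258695168_ok, W6_16242180096_ok,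
    W6_15251275776_ok, W6_15234760704_ok, W6_15218245632_ok, W6_15201730560_ok, W6_15185215488_ok,
    W6_15168700416_ok, W6_14177796096_ok, W6_14161281024_ok, W6_14144765952_ok, W6_14128250880_ok,
    W6_14111735808_ok, trivial⟩ F6_16326328320_chk

theorem V6_16325812224_ok : Fwd.Has6 Inst.T 6 V6_16325812224 :=
  fwd_sound' relAll_5_5 ks6_ok F6_16325812224
    ⟨V5_15168184320_ok, V5_14111219712_ok, V5_16225148928_ok, V5_15201730560_ok,
    V5_14127992832_ok, V5_15234244608_ok, V5_14177538048_ok, trivial⟩ ⟨W6_16324755456_ok,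
    W6_16308240384_ok, W6_16307982336_ok, W6_16291725312_ok, W6_16291467264_ok, W6_16291209216_ok,
    W6_16275210240_ok, W6_16274952192_ok, W6_16274694144_ok, W6_16258695168_ok, W6_16258437120_ok,
    W6_16258179072_ok, W6_16241922048_ok, W6_16241664000_ok, W6_16225148928_ok, W6_15251275776_ok,
    W6_15251017728_ok, W6_15234760704_ok, W6_15234502656_ok, W6_15234244608_ok, W6_15218245632_ok,
    W6_15217987584_ok, W6_15217729536_ok, W6_15201730560_ok, W6_15201472512_ok, W6_15201214464_ok,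
    W6_15184957440_ok, W6_15184699392_ok, W6_15168184320_ok, W6_14177796096_ok, W6_14177538048_ok,
    W6_14161281024_ok, W6_14161022976_ok, W6_14160764928_ok, W6_14144765952_ok, W6_14144507904_ok,
    W6_14144249856_ok, W6_14127992832_ok, W6_14127734784_ok, W6_14111219712_ok, trivial⟩
    F6_16325812224_chk

theorem V6_16325808192_ok : Fwd.Has6 Inst.T 6 V6_16325808192 :=
  fwd_sound' relAll_5_5 ks6_ok F6_16325808192
    ⟨V5_16241922048_ok, V5_14127992832_ok, V5_14177538048_ok, V5_14177275968_ok,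
    V5_16324497408_ok, trivial⟩ ⟨W6_16324497408_ok, W6_16307982336_ok, W6_16291467264_ok,
    W6_16291205184_ok, W6_16274952192_ok, W6_16274690112_ok, W6_16258437120_ok, W6_16258175040_ok,
    W6_16241922048_ok, W6_16241659968_ok, W6_16225144896_ok, W6_15251017728_ok, W6_15234502656_ok,
    W6_15234240576_ok, W6_15217987584_ok, W6_15217725504_ok, W6_15201472512_ok, W6_15201210432_ok,
    W6_15184957440_ok, W6_15184695360_ok, W6_15168180288_ok, W6_14177538048_ok, W6_14177275968_ok,
    W6_14161022976_ok, W6_14160760896_ok, W6_14144507904_ok, W6_14144245824_ok, W6_14127992832_ok,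
    W6_14127730752_ok, W6_14111215680_ok, trivial⟩ F6_16325808192_chk

theorem V6_16325296128_ok : Fwd.Has6 Inst.T 6 V6_16325296128 :=
  fwd_sound' relAll_5_5 ks6_ok F6_16325296128
    ⟨V5_15234760704_ok, V5_15167668224_ok, V5_16224632832_ok, V5_14177796096_ok,
    V5_14110703616_ok, trivial⟩ ⟨W6_16291725312_ok, W6_16274952192_ok, W6_16258179072_ok,
    W6_16241405952_ok, W6_16224632832_ok, W6_15234760704_ok, W6_15217987584_ok, W6_15201214464_ok,
    W6_15184441344_ok, W6_15167668224_ok, W6_14177796096_ok, W6_14161022976_ok, W6_14144249856_ok,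
    W6_14127476736_ok, W6_14110703616_ok, trivial⟩ F6_16325296128_chk

theorem V6_16309297152_ok : Fwd.Has6 Inst.T 6 V6_16309297152 :=
  fwd_sound' relAll_5_5 ks6_ok F6_16309297152
    ⟨V5_13087801344_ok, V5_15234244608_ok, V5_13087285248_ok, V5_13054255104_ok,
    V5_14094704640_ok, V5_15168184320_ok, V5_15234760704_ok, V5_13054513152_ok, V5_14160764928_ok,
    V5_16225406976_ok, trivial⟩ ⟨W6_16308240384_ok, W6_16307982336_ok, W6_16291725312_ok,
    W6_16291467264_ok, W6_16291209216_ok, W6_16275210240_ok, W6_16274952192_ok, W6_16274694144_ok,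
    W6_16258695168_ok, W6_16258437120_ok, W6_16258179072_ok, W6_16242180096_ok, W6_16241922048_ok,
    W6_16241664000_ok, W6_16225406976_ok, W6_16225148928_ok, W6_15234760704_ok, W6_15234502656_ok,
    W6_15234244608_ok, W6_15218245632_ok, W6_15217987584_ok, W6_15217729536_ok, W6_15201730560_ok,
    W6_15201472512_ok, W6_15201214464_ok, W6_15185215488_ok, W6_15184957440_ok, W6_15184699392_ok,
    W6_15168442368_ok, W6_15168184320_ok, W6_15151669248_ok, W6_14161281024_ok, W6_14161022976_ok,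
    W6_14160764928_ok, W6_14144765952_ok, W6_14144507904_ok, W6_14144249856_ok, W6_14128250880_ok,
    W6_14127992832_ok, W6_14127734784_ok, W6_14111477760_ok, W6_14111219712_ok, W6_14094704640_ok,
    W6_13087801344_ok, W6_13087543296_ok, W6_13087285248_ok, W6_13071286272_ok, W6_13071028224_ok,
    W6_13070770176_ok, W6_13054513152_ok, W6_13054255104_ok, W6_13037740032_ok, trivial⟩
    F6_16309297152_chk

theorem V6_16309293120_ok : Fwd.Has6 Inst.T 6 V6_16309293120 :=
  fwd_sound' relAll_5_5 ks6_ok F6_16309293120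
    ⟨V5_13054513152_ok, V5_14161022976_ok, V5_15151665216_ok, V5_14111477760_ok,
    V5_16307982336_ok, V5_13071028224_ok, trivial⟩ ⟨W6_16307982336_ok, W6_16291467264_ok,
    W6_16291205184_ok, W6_16274952192_ok, W6_16274690112_ok, W6_16258437120_ok, W6_16258175040_ok,
    W6_16241922048_ok, W6_16241659968_ok, W6_16225406976_ok, W6_16225144896_ok, W6_15234502656_ok,
    W6_15234240576_ok, W6_15217987584_ok, W6_15217725504_ok, W6_15201472512_ok, W6_15201210432_ok,
    W6_15184957440_ok, W6_15184695360_ok, W6_15168442368_ok, W6_15168180288_ok, W6_15151665216_ok,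
    W6_14161022976_ok, W6_14160760896_ok, W6_14144507904_ok, W6_14144245824_ok, W6_14127992832_ok,
    W6_14127730752_ok, W6_14111477760_ok, W6_14111215680_ok, W6_14094700608_ok, W6_13087543296_ok,
    W6_13071028224_ok, W6_13070766144_ok, W6_13054513152_ok, W6_13054251072_ok, W6_13037736000_ok,
    trivial⟩ F6_16309293120_chk

theorem V6_16308781056_ok : Fwd.Has6 Inst.T 6 V6_16308781056 :=
  fwd_sound' relAll_5_5 ks6_ok F6_16308781056
    ⟨V5_14161281024_ok, V5_15234760704_ok, V5_13087285248_ok, V5_13053739008_ok,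
    V5_16275210240_ok, V5_13070770176_ok, V5_15218245632_ok, V5_13087543296_ok, V5_16208117760_ok,
    trivial⟩ ⟨W6_16291725312_ok, W6_16275210240_ok, W6_16274952192_ok, W6_16258437120_ok,
    W6_16258179072_ok, W6_16241664000_ok, W6_16241405952_ok, W6_16224890880_ok, W6_16224632832_ok,
    W6_16208117760_ok, W6_15234760704_ok, W6_15218245632_ok, W6_15217987584_ok, W6_15201472512_ok,
    W6_15201214464_ok, W6_15184699392_ok, W6_15184441344_ok, W6_15167926272_ok, W6_15167668224_ok,
    W6_15151153152_ok, W6_14161281024_ok, W6_14161022976_ok, W6_14144507904_ok, W6_14144249856_ok,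
    W6_14127734784_ok, W6_14127476736_ok, W6_14110961664_ok, W6_14110703616_ok, W6_14094188544_ok,
    W6_13087543296_ok, W6_13087285248_ok, W6_13070770176_ok, W6_13070512128_ok, W6_13053997056_ok,
    W6_13053739008_ok, W6_13037223936_ok, trivial⟩ F6_16308781056_chk

theorem V6_16308518976_ok : Fwd.Has6 Inst.T 6 V6_16308518976 :=
  fwd_sound' relAll_5_5 ks6_ok F6_16308518976
    ⟨V5_13087285248_ok, V5_13053739008_ok, V5_14161022976_ok, V5_15167668224_ok,
    V5_15217987584_ok, trivial⟩ ⟨W6_16274952192_ok, W6_16258179072_ok, W6_16258175040_ok,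
    W6_16241405952_ok, W6_16241401920_ok, W6_16224632832_ok, W6_16224628800_ok, W6_16207855680_ok,
    W6_15217987584_ok, W6_15201214464_ok, W6_15201210432_ok, W6_15184441344_ok, W6_15184437312_ok,
    W6_15167668224_ok, W6_15167664192_ok, W6_15150891072_ok, W6_14161022976_ok, W6_14144249856_ok,
    W6_14144245824_ok, W6_14127476736_ok, W6_14127472704_ok, W6_14110703616_ok, W6_14110699584_ok,
    W6_14093926464_ok, W6_13087285248_ok, W6_13070512128_ok, W6_13070508096_ok, W6_13053739008_ok,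
    W6_13053734976_ok, W6_13036961856_ok, trivial⟩ F6_16308518976_chk

theorem V6_16308252864_ok : Fwd.Has6 Inst.T 6 V6_16308252864 :=
  fwd_sound' relAll_5_5 ks6_ok F6_16308252864
    ⟨V5_14143991808_ok, trivial⟩ ⟨W6_16257921024_ok, W6_16241143872_ok, W6_15200956416_ok,
    W6_15184179264_ok, W6_14143991808_ok, W6_14127214656_ok, W6_14110437504_ok, W6_13070250048_ok,
    trivial⟩ F6_16308252864_chk

theorem V6_16308248706_ok : Fwd.Has6 Inst.T 6 V6_16308248706 :=
  fwd_sound' relAll_5_5 ks6_ok F6_16308248706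
    ⟨V5_13086761088_ok, V5_13070246016_ok, trivial⟩ ⟨W6_16257654912_ok, W6_16241139840_ok,
    W6_15200690304_ok, W6_15184175232_ok, W6_14127210624_ok, W6_13086761088_ok, W6_13070246016_ok,
    trivial⟩ F6_16308248706_chk

theorem V6_16292782080_ok : Fwd.Has6 Inst.T 6 V6_16292782080 :=
  fwd_sound' relAll_5_5 ks6_ok F6_16292782080
    ⟨V5_13021224960_ok, V5_16291209216_ok, V5_13054771200_ok, V5_11997548544_ok,
    V5_15168700416_ok, V5_13054255104_ok, V5_13070770176_ok, V5_15217729536_ok, V5_11980775424_ok,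
    V5_14144249856_ok, V5_11964260352_ok, V5_11997290496_ok, trivial⟩ ⟨W6_16291725312_ok,
    W6_16291467264_ok, W6_16291209216_ok, W6_16275210240_ok, W6_16274952192_ok, W6_16274694144_ok,
    W6_16258695168_ok, W6_16258437120_ok, W6_16258179072_ok, W6_16242180096_ok, W6_16241922048_ok,
    W6_16241664000_ok, W6_15218245632_ok, W6_15217987584_ok, W6_15217729536_ok, W6_15201730560_ok,
    W6_15201472512_ok, W6_15201214464_ok, W6_15185215488_ok, W6_15184957440_ok, W6_15184699392_ok,
    W6_15168700416_ok, W6_15168442368_ok, W6_15168184320_ok, W6_14144765952_ok, W6_14144507904_ok,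
    W6_14144249856_ok, W6_14128250880_ok, W6_14127992832_ok, W6_14127734784_ok, W6_14111735808_ok,
    W6_14111477760_ok, W6_14111219712_ok, W6_14094962688_ok, W6_14094704640_ok, W6_13071286272_ok,
    W6_13071028224_ok, W6_13070770176_ok, W6_13054771200_ok, W6_13054513152_ok, W6_13054255104_ok,
    W6_13037998080_ok, W6_13037740032_ok, W6_13021224960_ok, W6_11997548544_ok, W6_11997290496_ok,
    W6_11981033472_ok, W6_11980775424_ok, W6_11964260352_ok, trivial⟩ F6_16292782080_chk

theorem V6_16292007936_ok : Fwd.Has6 Inst.T 6 V6_16292007936 :=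
  fwd_sound' relAll_5_5 ks6_ok F6_16292007936
    ⟨V5_15218245632_ok, V5_14144507904_ok, V5_13070770176_ok, V5_11997032448_ok,
    V5_11963486208_ok, trivial⟩ ⟨W6_16275210240_ok, W6_16258437120_ok, W6_16241664000_ok,
    W6_16224890880_ok, W6_16208117760_ok, W6_15218245632_ok, W6_15201472512_ok, W6_15184699392_ok,
    W6_15167926272_ok, W6_15151153152_ok, W6_14144507904_ok, W6_14127734784_ok, W6_14110961664_ok,
    W6_14094188544_ok, W6_14077415424_ok, W6_13070770176_ok, W6_13053997056_ok, W6_13037223936_ok,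
    W6_13020450816_ok, W6_11997032448_ok, W6_11980259328_ok, W6_11963486208_ok, trivial⟩
    F6_16292007936_chk

theorem V6_16291995777_ok : Fwd.Has6 Inst.T 6 V6_16291995777 :=
  fwd_sound' relAll_5_5 ks6_ok F6_16291995777
    ⟨V5_11997028416_ok, V5_13053993024_ok, V5_13070508096_ok, V5_13053730944_ok,
    V5_14094180480_ok, trivial⟩ ⟨W6_16274432064_ok, W6_16257916992_ok, W6_16257654912_ok,
    W6_16241401920_ok, W6_16241139840_ok, W6_16224886848_ok, W6_16224624768_ok, W6_16208109696_ok,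
    W6_15217467456_ok, W6_15200952384_ok, W6_15200690304_ok, W6_15184437312_ok, W6_15184175232_ok,
    W6_15167922240_ok, W6_15167660160_ok, W6_15151145088_ok, W6_14143987776_ok, W6_14127472704_ok,
    W6_14127210624_ok, W6_14110957632_ok, W6_14110695552_ok, W6_14094180480_ok, W6_13070508096_ok,
    W6_13070246016_ok, W6_13053993024_ok, W6_13053730944_ok, W6_13037215872_ok, W6_11997028416_ok,
    W6_11980251264_ok, trivial⟩ F6_16291995777_chk

theorem V6_16291741824_ok : Fwd.Has6 Inst.T 6 V6_16291741824 :=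
  fwd_sound' relAll_5_5 ks6_ok F6_16291741824
    ⟨V5_13053739008_ok, V5_14144249856_ok, V5_15201214464_ok, V5_13070512128_ok,
    V5_11996770368_ok, V5_11979997248_ok, trivial⟩ ⟨W6_16258179072_ok, W6_16241405952_ok,
    W6_16241401920_ok, W6_16224632832_ok, W6_16224628800_ok, W6_16224624768_ok, W6_16207855680_ok,
    W6_16207851648_ok, W6_16191078528_ok, W6_15201214464_ok, W6_15184441344_ok, W6_15184437312_ok,
    W6_15167668224_ok, W6_15167664192_ok, W6_15167660160_ok, W6_15150891072_ok, W6_15150887040_ok,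
    W6_15134113920_ok, W6_14144249856_ok, W6_14127476736_ok, W6_14127472704_ok, W6_14110703616_ok,
    W6_14110699584_ok, W6_14110695552_ok, W6_14093926464_ok, W6_14093922432_ok, W6_14077149312_ok,
    W6_13070512128_ok, W6_13070508096_ok, W6_13053739008_ok, W6_13053734976_ok, W6_13053730944_ok,
    W6_13036961856_ok, W6_13036957824_ok, W6_13020184704_ok, W6_11996770368_ok, W6_11979997248_ok,
    W6_11979993216_ok, W6_11963220096_ok, trivial⟩ F6_16291741824_chk

theorem V6_16291741761_ok : Fwd.Has6 Inst.T 6 V6_16291741761 :=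
  fwd_sound' relAll_5_5 ks6_ok F6_16291741761
    ⟨V5_11996770368_ok, V5_14144245824_ok, V5_11979997248_ok, V5_13070508096_ok,
    V5_13036961856_ok, trivial⟩ ⟨W6_16258175040_ok, W6_16241401920_ok, W6_16224628800_ok,
    W6_16207855680_ok, W6_15201210432_ok, W6_15184437312_ok, W6_15167664192_ok, W6_15150891072_ok,
    W6_14144245824_ok, W6_14127472704_ok, W6_14110699584_ok, W6_14093926464_ok, W6_13070508096_ok,
    W6_13053734976_ok, W6_13036961856_ok, W6_11996770368_ok, W6_11979997248_ok, trivial⟩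
    F6_16291741761_chk

theorem V6_16291733634_ok : Fwd.Has6 Inst.T 6 V6_16291733634 :=
  fwd_sound' relAll_5_5 ks6_ok F6_16291733634
    ⟨V5_13053730944_ok, trivial⟩ ⟨W6_16257654912_ok, W6_16241139840_ok, W6_16224624768_ok,
    W6_15200690304_ok, W6_15184175232_ok, W6_15167660160_ok, W6_14127210624_ok, W6_14110695552_ok,
    W6_13070246016_ok, W6_13053730944_ok, trivial⟩ F6_16291733634_chk

theorem V6_16291475586_ok : Fwd.Has6 Inst.T 6 V6_16291475586 :=
  fwd_sound' relAll_5_5 ks6_ok F6_16291475586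
    ⟨V5_13070246016_ok, trivial⟩ ⟨W6_16241139840_ok, W6_15184175232_ok, W6_14127210624_ok,
    W6_14110437504_ok, W6_13070246016_ok, trivial⟩ F6_16291475586_chk

theorem V6_16276267008_ok : Fwd.Has6 Inst.T 6 V6_16276267008 :=
  fwd_sound' relAll_5_5 ks6_ok F6_16276267008
    ⟨V5_10907295744_ok, V5_15201214464_ok, V5_13054255104_ok, V5_13054771200_ok,
    V5_10907553792_ok, V5_11980775424_ok, V5_11981291520_ok, trivial⟩ ⟨W6_16275210240_ok,
    W6_16274952192_ok, W6_16274694144_ok, W6_16258695168_ok, W6_16258437120_ok, W6_16258179072_ok,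
    W6_15201730560_ok, W6_15201472512_ok, W6_15201214464_ok, W6_15185215488_ok, W6_15184957440_ok,
    W6_15184699392_ok, W6_14128250880_ok, W6_14127992832_ok, W6_14127734784_ok, W6_14111735808_ok,
    W6_14111477760_ok, W6_14111219712_ok, W6_13054771200_ok, W6_13054513152_ok, W6_13054255104_ok,
    W6_13037998080_ok, W6_13037740032_ok, W6_11981291520_ok, W6_11981033472_ok, W6_11980775424_ok,
    W6_11964518400_ok, W6_11964260352_ok, W6_10907553792_ok, W6_10907295744_ok, trivial⟩
    F6_16276267008_chk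

theorem V6_16276262976_ok : Fwd.Has6 Inst.T 6 V6_16276262976 :=
  fwd_sound' relAll_5_5 ks6_ok F6_16276262976
    ⟨V5_10907553792_ok, V5_16274952192_ok, V5_11981033472_ok, V5_11964256320_ok,
    V5_11964518400_ok, trivial⟩ ⟨W6_16274952192_ok, W6_16274690112_ok, W6_16258437120_ok,
    W6_16258175040_ok, W6_15201472512_ok, W6_15201210432_ok, W6_15184957440_ok, W6_15184695360_ok,
    W6_14127992832_ok, W6_14127730752_ok, W6_14111477760_ok, W6_14111215680_ok, W6_13054513152_ok,
    W6_13054251072_ok, W6_13037998080_ok, W6_13037736000_ok, W6_11981033472_ok, W6_11980771392_ok,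
    W6_11964518400_ok, W6_11964256320_ok, W6_10907553792_ok, trivial⟩ F6_16276262976_chk

theorem V6_16276008960_ok : Fwd.Has6 Inst.T 6 V6_16276008960 :=
  fwd_sound' relAll_5_5 ks6_ok F6_16276008960
    ⟨V5_10907295744_ok, V5_13054771200_ok, V5_13021224960_ok, V5_15168700416_ok,
    V5_15201730560_ok, V5_11980517376_ok, V5_11947487232_ok, V5_13054255104_ok, V5_15201214464_ok,
    V5_11981033472_ok, V5_10890522624_ok, trivial⟩ ⟨W6_16275210240_ok, W6_16274952192_ok,
    W6_16274694144_ok, W6_16258695168_ok, W6_16258437120_ok, W6_16258179072_ok, W6_16257921024_ok,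
    W6_16242180096_ok, W6_16241922048_ok, W6_16241664000_ok, W6_16241405952_ok, W6_15201730560_ok,
    W6_15201472512_ok, W6_15201214464_ok, W6_15200956416_ok, W6_15185215488_ok, W6_15184957440_ok,
    W6_15184699392_ok, W6_15184441344_ok, W6_15168700416_ok, W6_15168442368_ok, W6_15168184320_ok,
    W6_15167926272_ok, W6_14128250880_ok, W6_14127992832_ok, W6_14127734784_ok, W6_14127476736_ok,
    W6_14111735808_ok, W6_14111477760_ok, W6_14111219712_ok, W6_14110961664_ok, W6_14094962688_ok,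
    W6_14094704640_ok, W6_14094446592_ok, W6_13054771200_ok, W6_13054513152_ok, W6_13054255104_ok,
    W6_13053997056_ok, W6_13037998080_ok, W6_13037740032_ok, W6_13037481984_ok, W6_13021224960_ok,
    W6_13020966912_ok, W6_11981033472_ok, W6_11980775424_ok, W6_11980517376_ok, W6_11964260352_ok,
    W6_11964002304_ok, W6_11947487232_ok, W6_10907295744_ok, W6_10907037696_ok, W6_10890522624_ok,
    trivial⟩ F6_16276008960_chk

theorem V6_16276004928_ok : Fwd.Has6 Inst.T 6 V6_16276004928 :=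
  fwd_sound' relAll_5_5 ks6_ok F6_16276004928
    ⟨V5_10907295744_ok, V5_13021224960_ok, V5_13054255104_ok, V5_15201214464_ok,
    V5_11981033472_ok, V5_11980775424_ok, V5_16274694144_ok, V5_13054513152_ok, V5_16274432064_ok,
    V5_11947483200_ok, V5_11964256320_ok, trivial⟩ ⟨W6_16274952192_ok, W6_16274694144_ok,
    W6_16274690112_ok, W6_16274432064_ok, W6_16258437120_ok, W6_16258179072_ok, W6_16258175040_ok,
    W6_16257916992_ok, W6_16241922048_ok, W6_16241664000_ok, W6_16241659968_ok, W6_16241401920_ok,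
    W6_15201472512_ok, W6_15201214464_ok, W6_15201210432_ok, W6_15200952384_ok, W6_15184957440_ok,
    W6_15184699392_ok, W6_15184695360_ok, W6_15184437312_ok, W6_15168442368_ok, W6_15168184320_ok,
    W6_15168180288_ok, W6_15167922240_ok, W6_14127992832_ok, W6_14127734784_ok, W6_14127730752_ok,
    W6_14127472704_ok, W6_14111477760_ok, W6_14111219712_ok, W6_14111215680_ok, W6_14110957632_ok,
    W6_14094962688_ok, W6_14094704640_ok, W6_14094700608_ok, W6_14094442560_ok, W6_13054513152_ok,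
    W6_13054255104_ok, W6_13054251072_ok, W6_13053993024_ok, W6_13037998080_ok, W6_13037740032_ok,
    W6_13037736000_ok, W6_13037477952_ok, W6_13021224960_ok, W6_13020962880_ok, W6_11981033472_ok,
    W6_11980775424_ok, W6_11980771392_ok, W6_11980513344_ok, W6_11964260352_ok, W6_11964256320_ok,
    W6_11963998272_ok, W6_11947483200_ok, W6_10907295744_ok, W6_10907033664_ok, W6_10890518592_ok,
    trivial⟩ F6_16276004928_chk

theorem V6_16275492864_ok : Fwd.Has6 Inst.T 6 V6_16275492864 :=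
  fwd_sound' relAll_5_5 ks6_ok F6_16275492864
    ⟨V5_15201730560_ok, V5_10906779648_ok, V5_16275210240_ok, V5_13054255104_ok,
    V5_14127992832_ok, V5_16258695168_ok, V5_14060900352_ok, V5_10890006528_ok, trivial⟩ ⟨
    W6_16275210240_ok, W6_16258695168_ok, W6_16258437120_ok, W6_16241922048_ok, W6_16241664000_ok,
    W6_16225148928_ok, W6_16224890880_ok, W6_16208375808_ok, W6_16208117760_ok, W6_15201730560_ok,
    W6_15201472512_ok, W6_15184957440_ok, W6_15184699392_ok, W6_15168184320_ok, W6_15167926272_ok,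
    W6_15151411200_ok, W6_15151153152_ok, W6_15134638080_ok, W6_14127992832_ok, W6_14127734784_ok,
    W6_14111219712_ok, W6_14110961664_ok, W6_14094446592_ok, W6_14094188544_ok, W6_14077673472_ok,
    W6_14077415424_ok, W6_14060900352_ok, W6_13054255104_ok, W6_13053997056_ok, W6_13037481984_ok,
    W6_13037223936_ok, W6_13020708864_ok, W6_13020450816_ok, W6_13003935744_ok, W6_11980517376_ok,
    W6_11980259328_ok, W6_11963744256_ok, W6_11963486208_ok, W6_11946971136_ok, W6_10906779648_ok,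
    W6_10890006528_ok, trivial⟩ F6_16275492864_chk

theorem V6_16274964672_ok : Fwd.Has6 Inst.T 6 V6_16274964672 :=
  fwd_sound' relAll_5_5 ks6_ok F6_16274964672
    ⟨V5_13053739008_ok, V5_10906255488_ok, V5_14127476736_ok, V5_14110703616_ok,
    V5_11963216064_ok, trivial⟩ ⟨W6_16241405952_ok, W6_16224632832_ok, W6_16224628800_ok,
    W6_16207855680_ok, W6_16207851648_ok, W6_16191078528_ok, W6_15184441344_ok, W6_15167668224_ok,
    W6_15167664192_ok, W6_15150891072_ok, W6_15150887040_ok, W6_15134113920_ok, W6_14127476736_ok,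
    W6_14110703616_ok, W6_14110699584_ok, W6_14093926464_ok, W6_14093922432_ok, W6_14077149312_ok,
    W6_14060372160_ok, W6_13053739008_ok, W6_13053734976_ok, W6_13036961856_ok, W6_13036957824_ok,
    W6_13020184704_ok, W6_13003407552_ok, W6_11979997248_ok, W6_11979993216_ok, W6_11963220096_ok,
    W6_11963216064_ok, W6_11946442944_ok, W6_10906255488_ok, trivial⟩ F6_16274964672_chk

theorem V6_16274960577_ok : Fwd.Has6 Inst.T 6 V6_16274960577 :=
  fwd_sound' relAll_5_5 ks6_ok F6_16274960577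
    ⟨V5_11963216064_ok, V5_13053734976_ok, trivial⟩ ⟨W6_16241143872_ok, W6_16224628800_ok,
    W6_16207851648_ok, W6_15184179264_ok, W6_15167664192_ok, W6_15150887040_ok, W6_14127214656_ok,
    W6_14110699584_ok, W6_14110437504_ok, W6_14093922432_ok, W6_13053734976_ok, W6_13036957824_ok,
    W6_11979993216_ok, W6_11963216064_ok, trivial⟩ F6_16274960577_chk

theorem V6_16259231808_ok : Fwd.Has6 Inst.T 6 V6_16259231808 :=
  fwd_sound' relAll_5_5 ks6_ok F6_16259231808
    ⟨V5_9816780864_ok, V5_13021224960_ok, V5_10890522624_ok, V5_11947487232_ok, V5_13037481984_ok,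
    V5_13037998080_ok, V5_11964256320_ok, V5_11964002304_ok, V5_15184441344_ok, V5_11964260352_ok,
    V5_14110961664_ok, V5_14094962688_ok, V5_10873745472_ok, trivial⟩ ⟨W6_16258437120_ok,
    W6_16258179072_ok, W6_16258175040_ok, W6_16257921024_ok, W6_16257916992_ok, W6_16241922048_ok,
    W6_16241664000_ok, W6_16241659968_ok, W6_16241405952_ok, W6_16241401920_ok, W6_16241143872_ok,
    W6_15184957440_ok, W6_15184699392_ok, W6_15184695360_ok, W6_15184441344_ok, W6_15184437312_ok,
    W6_15184179264_ok, W6_15168442368_ok, W6_15168184320_ok, W6_15168180288_ok, W6_15167926272_ok,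
    W6_15167922240_ok, W6_15167664192_ok, W6_14111477760_ok, W6_14111219712_ok, W6_14111215680_ok,
    W6_14110961664_ok, W6_14110957632_ok, W6_14110699584_ok, W6_14094962688_ok, W6_14094704640_ok,
    W6_14094700608_ok, W6_14094446592_ok, W6_14094442560_ok, W6_14094184512_ok, W6_13037998080_ok,
    W6_13037740032_ok, W6_13037736000_ok, W6_13037481984_ok, W6_13037477952_ok, W6_13037219904_ok,
    W6_13021224960_ok, W6_13020966912_ok, W6_13020962880_ok, W6_13020704832_ok, W6_11964260352_ok,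
    W6_11964256320_ok, W6_11964002304_ok, W6_11963998272_ok, W6_11963740224_ok, W6_11947487232_ok,
    W6_11947483200_ok, W6_11947225152_ok, W6_10890522624_ok, W6_10890518592_ok, W6_10890260544_ok,
    W6_10873745472_ok, W6_9816780864_ok, trivial⟩ F6_16259231808_chk

theorem V6_16258719744_ok : Fwd.Has6 Inst.T 6 V6_16258719744 :=
  fwd_sound' relAll_5_5 ks6_ok F6_16258719744
    ⟨V5_16258695168_ok, V5_10873233408_ok, V5_12987162624_ok, V5_15184957440_ok,
    V5_10890006528_ok, V5_11930198016_ok, trivial⟩ ⟨W6_16258695168_ok, W6_16241922048_ok,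
    W6_16225148928_ok, W6_16208375808_ok, W6_15184957440_ok, W6_15168184320_ok, W6_15151411200_ok,
    W6_15134638080_ok, W6_14111219712_ok, W6_14094446592_ok, W6_14077673472_ok, W6_14060900352_ok,
    W6_13037481984_ok, W6_13020708864_ok, W6_13003935744_ok, W6_12987162624_ok, W6_11963744256_ok,
    W6_11946971136_ok, W6_11930198016_ok, W6_10890006528_ok, W6_10873233408_ok, trivial⟩
    F6_16258719744_chk

theorem V6_16258187520_ok : Fwd.Has6 Inst.T 6 V6_16258187520 :=
  fwd_sound' relAll_5_5 ks6_ok F6_16258187520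
    ⟨V5_14110703616_ok, V5_15100559616_ok, V5_10872701184_ok, V5_12986630400_ok, trivial⟩ ⟨
    W6_16224632832_ok, W6_16207855680_ok, W6_16191078528_ok, W6_15167668224_ok, W6_15150891072_ok,
    W6_15134113920_ok, W6_15100559616_ok, W6_14110703616_ok, W6_14093926464_ok, W6_14077149312_ok,
    W6_14060372160_ok, W6_13036961856_ok, W6_13020184704_ok, W6_13003407552_ok, W6_12986630400_ok,
    W6_11963220096_ok, W6_11946442944_ok, W6_10872701184_ok, trivial⟩ F6_16258187520_chk

theorem V6_16242462720_ok : Fwd.Has6 Inst.T 6 V6_16242462720 :=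
  fwd_sound' relAll_5_5 ks6_ok F6_16242462720
    ⟨V5_15168700416_ok, V5_10873749504_ok, V5_13021224960_ok, V5_14094962688_ok,
    V5_16242180096_ok, V5_11947487232_ok, V5_11946971136_ok, trivial⟩ ⟨W6_16242180096_ok,
    W6_16241922048_ok, W6_16241664000_ok, W6_15168700416_ok, W6_15168442368_ok, W6_15168184320_ok,
    W6_15167926272_ok, W6_14094962688_ok, W6_14094704640_ok, W6_14094446592_ok, W6_14094188544_ok,
    W6_13021224960_ok, W6_13020966912_ok, W6_13020708864_ok, W6_13020450816_ok, W6_11947487232_ok,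
    W6_11947229184_ok, W6_11946971136_ok, W6_10873749504_ok, W6_10873491456_ok, W6_9800011776_ok,
    trivial⟩ F6_16242462720_chk

theorem V6_16242450561_ok : Fwd.Has6 Inst.T 6 V6_16242450561 :=
  fwd_sound' relAll_5_5 ks6_ok F6_16242450561
    ⟨V5_10873741440_ok, V5_11947483200_ok, V5_13020700800_ok, trivial⟩ ⟨W6_16241401920_ok,
    W6_16241139840_ok, W6_15167922240_ok, W6_15167660160_ok, W6_14094442560_ok, W6_14094180480_ok,
    W6_13020962880_ok, W6_13020700800_ok, W6_11947483200_ok, W6_11947221120_ok, W6_10873741440_ok,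
    trivial⟩ F6_16242450561_chk

theorem V6_16242204672_ok : Fwd.Has6 Inst.T 6 V6_16242204672 :=
  fwd_sound' relAll_5_5 ks6_ok F6_16242204672
    ⟨V5_10873233408_ok, V5_16242180096_ok, V5_15168442368_ok, V5_11947229184_ok,
    V5_11930198016_ok, trivial⟩ ⟨W6_16242180096_ok, W6_16241922048_ok, W6_16225406976_ok,
    W6_16225148928_ok, W6_15168442368_ok, W6_15168184320_ok, W6_15151669248_ok, W6_15151411200_ok,
    W6_14094704640_ok, W6_14094446592_ok, W6_14077931520_ok, W6_14077673472_ok, W6_13020966912_ok,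
    W6_13020708864_ok, W6_13004193792_ok, W6_13003935744_ok, W6_11947229184_ok, W6_11946971136_ok,
    W6_11930456064_ok, W6_11930198016_ok, W6_10873491456_ok, W6_10873233408_ok, trivial⟩
    F6_16242204672_chk

theorem V6_16241668290_ok : Fwd.Has6 Inst.T 6 V6_16241668290 :=
  fwd_sound' relAll_5_5 ks6_ok F6_16241668290
    ⟨V5_13003665600_ok, trivial⟩ ⟨W6_16207851648_ok, W6_15150887040_ok, W6_15134371968_ok,
    W6_14093922432_ok, W6_14077407360_ok, W6_13020442752_ok, W6_13003665600_ok, trivial⟩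
    F6_16241668290_chk

theorem V6_16225431552_ok : Fwd.Has6 Inst.T 6 V6_16225431552 :=
  fwd_sound' relAll_5_5 ks6_ok F6_16225431552
    ⟨V5_16225406976_ok, trivial⟩ ⟨W6_16225406976_ok, W6_15151669248_ok, W6_14077931520_ok,
    W6_13004193792_ok, W6_11930456064_ok, trivial⟩ F6_16225431552_chk

theorem V6_16225427520_ok : Fwd.Has6 Inst.T 6 V6_16225427520 :=
  fwd_sound' relAll_5_5 ks6_ok F6_16225427520
    ⟨V5_15151665216_ok, V5_16225406976_ok, V5_10856456256_ok, V5_11930198016_ok,
    V5_11930456064_ok, trivial⟩ ⟨W6_16225406976_ok, W6_16225148928_ok, W6_16225144896_ok,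
    W6_15151669248_ok, W6_15151665216_ok, W6_15151411200_ok, W6_15151407168_ok, W6_14077931520_ok,
    W6_14077927488_ok, W6_14077673472_ok, W6_14077669440_ok, W6_13004193792_ok, W6_13004189760_ok,
    W6_13003935744_ok, W6_13003931712_ok, W6_11930456064_ok, W6_11930452032_ok, W6_11930198016_ok,
    W6_11930193984_ok, W6_10856456256_ok, trivial⟩ F6_16225427520_chk

theorem V6_16225423488_ok : Fwd.Has6 Inst.T 6 V6_16225423488 :=
  fwd_sound' relAll_5_5 ks6_ok F6_16225423488
    ⟨V5_13003935744_ok, V5_11930456064_ok, V5_16225148928_ok, V5_14077931520_ok, trivial⟩ ⟨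
    W6_16225148928_ok, W6_16224890880_ok, W6_16224886848_ok, W6_15151669248_ok, W6_15151411200_ok,
    W6_15151407168_ok, W6_15151153152_ok, W6_15151149120_ok, W6_15151145088_ok, W6_14077931520_ok,
    W6_14077927488_ok, W6_14077673472_ok, W6_14077669440_ok, W6_14077665408_ok, W6_14077415424_ok,
    W6_14077411392_ok, W6_14077407360_ok, W6_13004193792_ok, W6_13004189760_ok, W6_13003935744_ok,
    W6_13003931712_ok, W6_13003927680_ok, W6_13003673664_ok, W6_13003669632_ok, W6_11930456064_ok,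
    W6_11930452032_ok, W6_11930193984_ok, W6_11930189952_ok, W6_10856452224_ok, trivial⟩
    F6_16225423488_chk

theorem V6_16225423425_ok : Fwd.Has6 Inst.T 6 V6_16225423425 :=
  fwd_sound' relAll_5_5 ks6_ok F6_16225423425
    ⟨V5_15151665216_ok, V5_11930193984_ok, V5_11930452032_ok, trivial⟩ ⟨W6_16225144896_ok,
    W6_16224886848_ok, W6_15151665216_ok, W6_15151407168_ok, W6_15151149120_ok, W6_14077927488_ok,
    W6_14077669440_ok, W6_14077411392_ok, W6_13004189760_ok, W6_13003931712_ok, W6_13003673664_ok,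
    W6_11930452032_ok, W6_11930193984_ok, trivial⟩ F6_16225423425_chk

theorem V6_16225419456_ok : Fwd.Has6 Inst.T 6 V6_16225419456 :=
  fwd_sound' relAll_5_5 ks6_ok F6_16225419456
    ⟨V5_10856706240_ok, V5_14077673472_ok, V5_16224632832_ok, V5_14077931520_ok, trivial⟩ ⟨
    W6_16224890880_ok, W6_16224632832_ok, W6_16224628800_ok, W6_15151411200_ok, W6_15151153152_ok,
    W6_15151149120_ok, W6_15150891072_ok, W6_15150887040_ok, W6_14077931520_ok, W6_14077673472_ok,
    W6_14077669440_ok, W6_14077411392_ok, W6_14077407360_ok, W6_14077149312_ok, W6_13004193792_ok,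
    W6_13004189760_ok, W6_13003931712_ok, W6_13003927680_ok, W6_13003669632_ok, W6_13003665600_ok,
    W6_13003407552_ok, W6_11930452032_ok, W6_11930189952_ok, W6_11930185920_ok, W6_11929927872_ok,
    W6_10856706240_ok, W6_10856448192_ok, trivial⟩ F6_16225419456_chk

theorem V6_16225415361_ok : Fwd.Has6 Inst.T 6 V6_16225415361 :=
  fwd_sound' relAll_5_5 ks6_ok F6_16225415361
    ⟨V5_10856706240_ok, V5_13004189760_ok, V5_11930185920_ok, trivial⟩ ⟨W6_16224628800_ok,
    W6_15151149120_ok, W6_15150887040_ok, W6_14077669440_ok, W6_14077407360_ok, W6_13004189760_ok,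
    W6_13003927680_ok, W6_13003665600_ok, W6_11930185920_ok, W6_10856706240_ok, trivial⟩
    F6_16225415361_chk

theorem V6_16225165440_ok : Fwd.Has6 Inst.T 6 V6_16225165440 :=
  fwd_sound' relAll_5_5 ks6_ok F6_16225165440
    ⟨V5_12987162624_ok, V5_10839679104_ok, V5_16225148928_ok, V5_11913420864_ok,
    V5_10856456256_ok, V5_11930198016_ok, trivial⟩ ⟨W6_16225148928_ok, W6_16208375808_ok,
    W6_16208371776_ok, W6_15151411200_ok, W6_15151407168_ok, W6_15134638080_ok, W6_15134634048_ok,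
    W6_15134630016_ok, W6_14077673472_ok, W6_14077669440_ok, W6_14077665408_ok, W6_14060900352_ok,
    W6_14060896320_ok, W6_14060892288_ok, W6_13003935744_ok, W6_13003931712_ok, W6_13003927680_ok,
    W6_12987162624_ok, W6_12987158592_ok, W6_12987154560_ok, W6_11930198016_ok, W6_11930193984_ok,
    W6_11930189952_ok, W6_11913420864_ok, W6_11913416832_ok, W6_10856456256_ok, W6_10856452224_ok,
    W6_10839679104_ok, trivial⟩ F6_16225165440_chk

theorem V6_16225165377_ok : Fwd.Has6 Inst.T 6 V6_16225165377 :=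
  fwd_sound' relAll_5_5 ks6_ok F6_16225165377
    ⟨V5_11913420864_ok, V5_10856456256_ok, V5_16225144896_ok, trivial⟩ ⟨W6_16225144896_ok,
    W6_16208371776_ok, W6_15151407168_ok, W6_15134634048_ok, W6_14077669440_ok, W6_14060896320_ok,
    W6_13003931712_ok, W6_12987158592_ok, W6_11930193984_ok, W6_11913420864_ok, W6_10856456256_ok,
    trivial⟩ F6_16225165377_chk

theorem V6_16225161408_ok : Fwd.Has6 Inst.T 6 V6_16225161408 :=
  fwd_sound' relAll_5_5 ks6_ok F6_16225161408
    ⟨V5_9782710464_ok, V5_13003935744_ok, V5_14060900352_ok, V5_15151411200_ok, V5_11930193984_ok,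
    trivial⟩ ⟨W6_16224890880_ok, W6_16208375808_ok, W6_16208117760_ok, W6_16208113728_ok,
    W6_15151411200_ok, W6_15151153152_ok, W6_15151149120_ok, W6_15134638080_ok, W6_15134634048_ok,
    W6_15134376000_ok, W6_15134371968_ok, W6_14077673472_ok, W6_14077669440_ok, W6_14077415424_ok,
    W6_14077411392_ok, W6_14077407360_ok, W6_14060900352_ok, W6_14060896320_ok, W6_14060892288_ok,
    W6_14060634240_ok, W6_13003935744_ok, W6_13003931712_ok, W6_13003927680_ok, W6_13003673664_ok,
    W6_13003669632_ok, W6_13003665600_ok, W6_12987158592_ok, W6_12987154560_ok, W6_11930193984_ok,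
    W6_11930189952_ok, W6_11930185920_ok, W6_11929927872_ok, W6_11913416832_ok, W6_11913412800_ok,
    W6_10856452224_ok, W6_10856448192_ok, W6_9782710464_ok, trivial⟩ F6_16225161408_chk

theorem V6_16224899265_ok : Fwd.Has6 Inst.T 6 V6_16224899265 :=
  fwd_sound' relAll_5_5 ks6_ok F6_16224899265
    ⟨V5_11929927872_ok, V5_13003665600_ok, trivial⟩ ⟨W6_16208113728_ok, W6_15151149120_ok,
    W6_15134376000_ok, W6_15134371968_ok, W6_14077411392_ok, W6_14077407360_ok, W6_14060634240_ok,
    W6_13003673664_ok, W6_13003669632_ok, W6_13003665600_ok, W6_11929927872_ok, trivial⟩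
    F6_16224899265_chk

theorem V6_16208384256_ok : Fwd.Has6 Inst.T 6 V6_16208384256 :=
  fwd_sound' relAll_5_5 ks6_ok F6_16208384256
    ⟨V5_14060900352_ok, V5_10839671040_ok, trivial⟩ ⟨W6_16208117760_ok, W6_15134638080_ok,
    W6_15134376000_ok, W6_14060900352_ok, W6_14060896320_ok, W6_14060634240_ok, W6_12987158592_ok,
    W6_12987154560_ok, W6_11913416832_ok, W6_11913412800_ok, W6_10839671040_ok, trivial⟩
    F6_16208384256_chk

theorem V6_16208384193_ok : Fwd.Has6 Inst.T 6 V6_16208384193 :=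
  fwd_sound' relAll_5_5 ks6_ok F6_16208384193
    ⟨V5_12987154560_ok, trivial⟩ ⟨W6_16208113728_ok, W6_15134634048_ok, W6_15134376000_ok,
    W6_15134371968_ok, W6_14060896320_ok, W6_14060892288_ok, W6_14060634240_ok, W6_12987158592_ok,
    W6_12987154560_ok, W6_11913416832_ok, W6_11913412800_ok, trivial⟩ F6_16208384193_chk

theorem V6_16208380161_ok : Fwd.Has6 Inst.T 6 V6_16208380161 :=
  fwd_sound' relAll_5_5 ks6_ok F6_16208380161
    ⟨V5_10839671040_ok, V5_12987154560_ok, trivial⟩ ⟨W6_16207855680_ok, W6_15134376000_ok,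
    W6_15134113920_ok, W6_14060896320_ok, W6_14060634240_ok, W6_14060372160_ok, W6_12987154560_ok,
    W6_12986630400_ok, W6_11913412800_ok, W6_10839671040_ok, trivial⟩ F6_16208380161_chk

theorem V6_16207855875_ok : Fwd.Has6 Inst.T 6 V6_16207855875 :=
  fwd_sound' relAll_5_5 ks6_ok F6_16207855875
    ⟨V5_12986630400_ok, trivial⟩ ⟨W6_15100559616_ok, W6_14060372160_ok, W6_12986630400_ok,
    trivial⟩ F6_16207855875_chk

theorem V6_15269363712_ok : Fwd.Has6 Inst.T 6 V6_15269363712 :=
  fwd_sound' relAll_5_5 ks6_ok F6_15269363712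
    ⟨V5_15168700416_ok, V5_15267790848_ok, V5_15251275776_ok, V5_15185215488_ok, trivial⟩ ⟨
    W6_15267790848_ok, W6_15251275776_ok, W6_15234760704_ok, W6_15218245632_ok, W6_15201730560_ok,
    W6_15185215488_ok, W6_15168700416_ok, trivial⟩ F6_15269363712_chk

theorem V6_15269105664_ok : Fwd.Has6 Inst.T 6 V6_15269105664 :=
  fwd_sound' relAll_5_5 ks6_ok F6_15269105664
    ⟨V5_15168442368_ok, V5_15267790848_ok, V5_15251017728_ok, V5_15185215488_ok, trivial⟩ ⟨
    W6_15267790848_ok, W6_15251275776_ok, W6_15251017728_ok, W6_15234760704_ok, W6_15234502656_ok,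
    W6_15218245632_ok, W6_15217987584_ok, W6_15201730560_ok, W6_15201472512_ok, W6_15185215488_ok,
    W6_15184957440_ok, W6_15168442368_ok, trivial⟩ F6_15269105664_chk

theorem V6_15268843584_ok : Fwd.Has6 Inst.T 6 V6_15268843584 :=
  fwd_sound' relAll_5_5 ks6_ok F6_15268843584
    ⟨V5_15184957440_ok, trivial⟩ ⟨W6_15251017728_ok, W6_15234502656_ok, W6_15234240576_ok,
    W6_15217987584_ok, W6_15217725504_ok, W6_15201472512_ok, W6_15201210432_ok, W6_15184957440_ok,
    W6_15184695360_ok, W6_15168180288_ok, trivial⟩ F6_15268843584_chk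

theorem V6_15268589568_ok : Fwd.Has6 Inst.T 6 V6_15268589568 :=
  fwd_sound' relAll_5_5 ks6_ok F6_15268589568
    ⟨V5_15167926272_ok, V5_15218245632_ok, trivial⟩ ⟨W6_15251275776_ok, W6_15234760704_ok,
    W6_15234502656_ok, W6_15218245632_ok, W6_15217987584_ok, W6_15217729536_ok, W6_15201472512_ok,
    W6_15201214464_ok, W6_15200956416_ok, W6_15184699392_ok, W6_15184441344_ok, W6_15167926272_ok,
    trivial⟩ F6_15268589568_chk

theorem V6_15268581441_ok : Fwd.Has6 Inst.T 6 V6_15268581441 :=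
  fwd_sound' relAll_5_5 ks6_ok F6_15268581441
    ⟨V5_15184695360_ok, trivial⟩ ⟨W6_15234240576_ok, W6_15217725504_ok, W6_15201210432_ok,
    W6_15184695360_ok, trivial⟩ F6_15268581441_chk

theorem V6_15268331520_ok : Fwd.Has6 Inst.T 6 V6_15268331520 :=
  fwd_sound' relAll_5_5 ks6_ok F6_15268331520
    ⟨V5_15167668224_ok, V5_15234760704_ok, trivial⟩ ⟨W6_15234760704_ok, W6_15217987584_ok,
    W6_15201214464_ok, W6_15184441344_ok, W6_15167668224_ok, trivial⟩ F6_15268331520_chk

theorem V6_15268065345_ok : Fwd.Has6 Inst.T 6 V6_15268065345 :=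
  fwd_sound' relAll_5_5 ks6_ok F6_15268065345
    ⟨V5_15184179264_ok, V5_15217725504_ok, trivial⟩ ⟨W6_15217725504_ok, W6_15200952384_ok,
    W6_15184179264_ok, trivial⟩ F6_15268065345_chk

theorem V6_15268061313_ok : Fwd.Has6 Inst.T 6 V6_15268061313 :=
  fwd_sound' relAll_5_5 ks6_ok F6_15268061313
    ⟨V5_15184175232_ok, trivial⟩ ⟨W6_15217467456_ok, W6_15200952384_ok, W6_15200690304_ok,
    W6_15184175232_ok, trivial⟩ F6_15268061313_chk

theorem V6_15252332544_ok : Fwd.Has6 Inst.T 6 V6_15252332544 :=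
  fwd_sound' relAll_5_5 ks6_ok F6_15252332544
    ⟨V5_14094704640_ok, V5_15168184320_ok, V5_15234244608_ok, V5_14177538048_ok,
    V5_15251017728_ok, V5_14160764928_ok, V5_14177796096_ok, trivial⟩ ⟨W6_15251275776_ok,
    W6_15251017728_ok, W6_15234760704_ok, W6_15234502656_ok, W6_15234244608_ok, W6_15218245632_ok,
    W6_15217987584_ok, W6_15217729536_ok, W6_15201730560_ok, W6_15201472512_ok, W6_15201214464_ok,
    W6_15185215488_ok, W6_15184957440_ok, W6_15184699392_ok, W6_15168442368_ok, W6_15168184320_ok,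
    W6_15151669248_ok, W6_14177796096_ok, W6_14177538048_ok, W6_14161281024_ok, W6_14161022976_ok,
    W6_14160764928_ok, W6_14144765952_ok, W6_14144507904_ok, W6_14144249856_ok, W6_14128250880_ok,
    W6_14127992832_ok, W6_14127734784_ok, W6_14111477760_ok, W6_14111219712_ok, W6_14094704640_ok,
    trivial⟩ F6_15252332544_chk

theorem V6_15252328512_ok : Fwd.Has6 Inst.T 6 V6_15252328512 :=
  fwd_sound' relAll_5_5 ks6_ok F6_15252328512
    ⟨V5_15151665216_ok, V5_14111477760_ok, V5_15168442368_ok, V5_14177538048_ok, trivial⟩ ⟨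
    W6_15251017728_ok, W6_15234502656_ok, W6_15234240576_ok, W6_15217987584_ok, W6_15217725504_ok,
    W6_15201472512_ok, W6_15201210432_ok, W6_15184957440_ok, W6_15184695360_ok, W6_15168442368_ok,
    W6_15168180288_ok, W6_15151665216_ok, W6_14177538048_ok, W6_14177275968_ok, W6_14161022976_ok,
    W6_14160760896_ok, W6_14144507904_ok, W6_14144245824_ok, W6_14127992832_ok, W6_14127730752_ok,
    W6_14111477760_ok, W6_14111215680_ok, W6_14094700608_ok, trivial⟩ F6_15252328512_chk

theorem V6_15251816448_ok : Fwd.Has6 Inst.T 6 V6_15251816448 :=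
  fwd_sound' relAll_5_5 ks6_ok F6_15251816448
    ⟨V5_14161281024_ok, V5_14094188544_ok, V5_15234760704_ok, V5_15167668224_ok,
    V5_15151153152_ok, trivial⟩ ⟨W6_15234760704_ok, W6_15218245632_ok, W6_15217987584_ok,
    W6_15201472512_ok, W6_15201214464_ok, W6_15184699392_ok, W6_15184441344_ok, W6_15167926272_ok,
    W6_15167668224_ok, W6_15151153152_ok, W6_14177796096_ok, W6_14161281024_ok, W6_14161022976_ok,
    W6_14144507904_ok, W6_14144249856_ok, W6_14127734784_ok, W6_14127476736_ok, W6_14110961664_ok,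
    W6_14110703616_ok, W6_14094188544_ok, trivial⟩ F6_15251816448_chk

theorem V6_15251288256_ok : Fwd.Has6 Inst.T 6 V6_15251288256 :=
  fwd_sound' relAll_5_5 ks6_ok F6_15251288256
    ⟨V5_14143991808_ok, trivial⟩ ⟨W6_15200956416_ok, W6_15184179264_ok, W6_14143991808_ok,
    W6_14127214656_ok, W6_14110437504_ok, trivial⟩ F6_15251288256_chk

theorem V6_15236333568_ok : Fwd.Has6 Inst.T 6 V6_15236333568 :=
  fwd_sound' relAll_5_5 ks6_ok F6_15236333568
    ⟨V5_13087801344_ok, V5_15234760704_ok, trivial⟩ ⟨W6_15234760704_ok, W6_15218245632_ok,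
    W6_15201730560_ok, W6_14161281024_ok, W6_14144765952_ok, W6_14128250880_ok, W6_13087801344_ok,
    W6_13071286272_ok, W6_13054771200_ok, trivial⟩ F6_15236333568_chk

theorem V6_15235817472_ok : Fwd.Has6 Inst.T 6 V6_15235817472 :=
  fwd_sound' relAll_5_5 ks6_ok F6_15235817472
    ⟨V5_15234244608_ok, V5_13021224960_ok, V5_13087285248_ok, V5_13087801344_ok,
    V5_15168700416_ok, V5_15234760704_ok, V5_13054771200_ok, V5_15168184320_ok, V5_14160764928_ok,
    trivial⟩ ⟨W6_15234760704_ok, W6_15234502656_ok, W6_15234244608_ok, W6_15218245632_ok,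
    W6_15217987584_ok, W6_15217729536_ok, W6_15201730560_ok, W6_15201472512_ok, W6_15201214464_ok,
    W6_15185215488_ok, W6_15184957440_ok, W6_15184699392_ok, W6_15168700416_ok, W6_15168442368_ok,
    W6_15168184320_ok, W6_14161281024_ok, W6_14161022976_ok, W6_14160764928_ok, W6_14144765952_ok,
    W6_14144507904_ok, W6_14144249856_ok, W6_14128250880_ok, W6_14127992832_ok, W6_14127734784_ok,
    W6_14111735808_ok, W6_14111477760_ok, W6_14111219712_ok, W6_14094962688_ok, W6_14094704640_ok,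
    W6_13087801344_ok, W6_13087543296_ok, W6_13087285248_ok, W6_13071286272_ok, W6_13071028224_ok,
    W6_13070770176_ok, W6_13054771200_ok, W6_13054513152_ok, W6_13054255104_ok, W6_13037998080_ok,
    W6_13037740032_ok, W6_13021224960_ok, trivial⟩ F6_15235817472_chk

theorem V6_15235813440_ok : Fwd.Has6 Inst.T 6 V6_15235813440 :=
  fwd_sound' relAll_5_5 ks6_ok F6_15235813440
    ⟨V5_14094962688_ok, V5_14161022976_ok, V5_13037998080_ok, V5_15234502656_ok,
    V5_13087543296_ok, V5_15234240576_ok, V5_13070766144_ok, trivial⟩ ⟨W6_15234502656_ok,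
    W6_15234240576_ok, W6_15217987584_ok, W6_15217725504_ok, W6_15201472512_ok, W6_15201210432_ok,
    W6_15184957440_ok, W6_15184695360_ok, W6_15168442368_ok, W6_15168180288_ok, W6_14161022976_ok,
    W6_14160760896_ok, W6_14144507904_ok, W6_14144245824_ok, W6_14127992832_ok, W6_14127730752_ok,
    W6_14111477760_ok, W6_14111215680_ok, W6_14094962688_ok, W6_14094700608_ok, W6_13087543296_ok,
    W6_13071028224_ok, W6_13070766144_ok, W6_13054513152_ok, W6_13054251072_ok, W6_13037998080_ok,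
    W6_13037736000_ok, trivial⟩ F6_15235813440_chk

theorem V6_15235293312_ok : Fwd.Has6 Inst.T 6 V6_15235293312 :=
  fwd_sound' relAll_5_5 ks6_ok F6_15235293312
    ⟨V5_13087285248_ok, V5_13054255104_ok, V5_15234244608_ok, V5_15168184320_ok,
    V5_13086761088_ok, V5_15134630016_ok, trivial⟩ ⟨W6_15234244608_ok, W6_15217729536_ok,
    W6_15217467456_ok, W6_15201214464_ok, W6_15200952384_ok, W6_15200690304_ok, W6_15184699392_ok,
    W6_15184437312_ok, W6_15184175232_ok, W6_15168184320_ok, W6_15167922240_ok, W6_15167660160_ok,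
    W6_15151407168_ok, W6_15151145088_ok, W6_15134630016_ok, W6_14160764928_ok, W6_14160502848_ok,
    W6_14144249856_ok, W6_14143987776_ok, W6_14127734784_ok, W6_14127472704_ok, W6_14127210624_ok,
    W6_14111219712_ok, W6_14110957632_ok, W6_14110695552_ok, W6_14094442560_ok, W6_14094180480_ok,
    W6_14077665408_ok, W6_13087285248_ok, W6_13087023168_ok, W6_13086761088_ok, W6_13070770176_ok,
    W6_13070508096_ok, W6_13070246016_ok, W6_13054255104_ok, W6_13053993024_ok, W6_13053730944_ok,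
    W6_13037477952_ok, W6_13037215872_ok, W6_13020700800_ok, trivial⟩ F6_15235293312_chk

theorem V6_15235043328_ok : Fwd.Has6 Inst.T 6 V6_15235043328 :=
  fwd_sound' relAll_5_5 ks6_ok F6_15235043328
    ⟨V5_14161281024_ok, V5_15218245632_ok, V5_13087543296_ok, V5_13070770176_ok, trivial⟩ ⟨
    W6_15218245632_ok, W6_15201472512_ok, W6_15184699392_ok, W6_15167926272_ok, W6_15151153152_ok,
    W6_14161281024_ok, W6_14144507904_ok, W6_14127734784_ok, W6_14110961664_ok, W6_14094188544_ok,
    W6_14077415424_ok, W6_13087543296_ok, W6_13070770176_ok, W6_13053997056_ok, W6_13037223936_ok,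
    W6_13020450816_ok, trivial⟩ F6_15235043328_chk

theorem V6_15235031169_ok : Fwd.Has6 Inst.T 6 V6_15235031169 :=
  fwd_sound' relAll_5_5 ks6_ok F6_15235031169
    ⟨V5_13086761088_ok, V5_13053993024_ok, V5_14094180480_ok, V5_13087023168_ok,
    V5_14160502848_ok, trivial⟩ ⟨W6_15217467456_ok, W6_15200952384_ok, W6_15200690304_ok,
    W6_15184437312_ok, W6_15184175232_ok, W6_15167922240_ok, W6_15167660160_ok, W6_15151145088_ok,
    W6_14160502848_ok, W6_14143987776_ok, W6_14127472704_ok, W6_14127210624_ok, W6_14110957632_ok,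
    W6_14110695552_ok, W6_14094180480_ok, W6_13087023168_ok, W6_13086761088_ok, W6_13070508096_ok,
    W6_13070246016_ok, W6_13053993024_ok, W6_13053730944_ok, W6_13037215872_ok, trivial⟩
    F6_15235031169_chk

theorem V6_15234777216_ok : Fwd.Has6 Inst.T 6 V6_15234777216 :=
  fwd_sound' relAll_5_5 ks6_ok F6_15234777216
    ⟨V5_13087285248_ok, V5_13053739008_ok, V5_15167668224_ok, V5_13020184704_ok,
    V5_13070512128_ok, trivial⟩ ⟨W6_15201214464_ok, W6_15184441344_ok, W6_15184437312_ok,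
    W6_15167668224_ok, W6_15167664192_ok, W6_15167660160_ok, W6_15150891072_ok, W6_15150887040_ok,
    W6_15134113920_ok, W6_14144249856_ok, W6_14127476736_ok, W6_14127472704_ok, W6_14110703616_ok,
    W6_14110699584_ok, W6_14110695552_ok, W6_14093926464_ok, W6_14093922432_ok, W6_14077149312_ok,
    W6_13087285248_ok, W6_13070512128_ok, W6_13070508096_ok, W6_13053739008_ok, W6_13053734976_ok,
    W6_13053730944_ok, W6_13036961856_ok, W6_13036957824_ok, W6_13020184704_ok, trivial⟩
    F6_15234777216_chk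

theorem V6_15234773184_ok : Fwd.Has6 Inst.T 6 V6_15234773184 :=
  fwd_sound' relAll_5_5 ks6_ok F6_15234773184
    ⟨V5_13070512128_ok, V5_14143991808_ok, trivial⟩ ⟨W6_15200956416_ok, W6_15184441344_ok,
    W6_15184179264_ok, W6_15167664192_ok, W6_15150887040_ok, W6_14143991808_ok, W6_14127476736_ok,
    W6_14127214656_ok, W6_14110699584_ok, W6_14110437504_ok, W6_14093922432_ok, W6_13070512128_ok,
    W6_13070250048_ok, W6_13053734976_ok, W6_13036957824_ok, trivial⟩ F6_15234773184_chk

theorem V6_15234511041_ok : Fwd.Has6 Inst.T 6 V6_15234511041 :=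
  fwd_sound' relAll_5_5 ks6_ok F6_15234511041
    ⟨V5_13070250048_ok, trivial⟩ ⟨W6_15184179264_ok, W6_14127214656_ok, W6_14110437504_ok,
    W6_13070250048_ok, trivial⟩ F6_15234511041_chk

theorem V6_15219302400_ok : Fwd.Has6 Inst.T 6 V6_15219302400 :=
  fwd_sound' relAll_5_5 ks6_ok F6_15219302400
    ⟨V5_15217729536_ok, V5_15201214464_ok, V5_13070770176_ok, V5_14144249856_ok,
    V5_11997548544_ok, trivial⟩ ⟨W6_15218245632_ok, W6_15217987584_ok, W6_15217729536_ok,
    W6_15201730560_ok, W6_15201472512_ok, W6_15201214464_ok, W6_15185215488_ok, W6_15184957440_ok,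
    W6_15184699392_ok, W6_14144765952_ok, W6_14144507904_ok, W6_14144249856_ok, W6_14128250880_ok,
    W6_14127992832_ok, W6_14127734784_ok, W6_14111735808_ok, W6_14111477760_ok, W6_14111219712_ok,
    W6_13071286272_ok, W6_13071028224_ok, W6_13070770176_ok, W6_13054771200_ok, W6_13054513152_ok,
    W6_13054255104_ok, W6_13037998080_ok, W6_13037740032_ok, W6_11997548544_ok, W6_11997290496_ok,
    W6_11981291520_ok, W6_11981033472_ok, W6_11980775424_ok, W6_11964518400_ok, W6_11964260352_ok,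
    trivial⟩ F6_15219302400_chk

theorem V6_15218528256_ok : Fwd.Has6 Inst.T 6 V6_15218528256 :=
  fwd_sound' relAll_5_5 ks6_ok F6_15218528256
    ⟨V5_15201730560_ok, V5_14144765952_ok, V5_13071028224_ok, V5_15218245632_ok,
    V5_14060900352_ok, V5_11946971136_ok, V5_14144507904_ok, V5_15134638080_ok, V5_11997290496_ok,
    trivial⟩ ⟨W6_15218245632_ok, W6_15201730560_ok, W6_15201472512_ok, W6_15184957440_ok,
    W6_15184699392_ok, W6_15168184320_ok, W6_15167926272_ok, W6_15151411200_ok, W6_15151153152_ok,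
    W6_15134638080_ok, W6_14144765952_ok, W6_14144507904_ok, W6_14127992832_ok, W6_14127734784_ok,
    W6_14111219712_ok, W6_14110961664_ok, W6_14094446592_ok, W6_14094188544_ok, W6_14077673472_ok,
    W6_14077415424_ok, W6_14060900352_ok, W6_13071028224_ok, W6_13070770176_ok, W6_13054255104_ok,
    W6_13053997056_ok, W6_13037481984_ok, W6_13037223936_ok, W6_13020708864_ok, W6_13020450816_ok,
    W6_13003935744_ok, W6_11997290496_ok, W6_11997032448_ok, W6_11980517376_ok, W6_11980259328_ok,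
    W6_11963744256_ok, W6_11963486208_ok, W6_11946971136_ok, trivial⟩ F6_15218528256_chk

theorem V6_15218258112_ok : Fwd.Has6 Inst.T 6 V6_15218258112 :=
  fwd_sound' relAll_5_5 ks6_ok F6_15218258112
    ⟨V5_11997032448_ok, V5_13070512128_ok, V5_14110961664_ok, V5_13003665600_ok, trivial⟩ ⟨
    W6_15200956416_ok, W6_15184441344_ok, W6_15184179264_ok, W6_15167926272_ok, W6_15167664192_ok,
    W6_15151149120_ok, W6_15150887040_ok, W6_15134371968_ok, W6_14143991808_ok, W6_14127476736_ok,
    W6_14127214656_ok, W6_14110961664_ok, W6_14110699584_ok, W6_14110437504_ok, W6_14094184512_ok,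
    W6_14093922432_ok, W6_14077407360_ok, W6_13070512128_ok, W6_13070250048_ok, W6_13053997056_ok,
    W6_13053734976_ok, W6_13037219904_ok, W6_13036957824_ok, W6_13020442752_ok, W6_13003665600_ok,
    W6_11997032448_ok, W6_11996770368_ok, W6_11980255296_ok, W6_11979993216_ok, W6_11963478144_ok,
    W6_11963216064_ok, trivial⟩ F6_15218258112_chk

theorem V6_15218000064_ok : Fwd.Has6 Inst.T 6 V6_15218000064 :=
  fwd_sound' relAll_5_5 ks6_ok F6_15218000064
    ⟨V5_13053739008_ok, V5_13070512128_ok, V5_11996770368_ok, V5_11979997248_ok,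
    V5_14060372160_ok, trivial⟩ ⟨W6_15184441344_ok, W6_15167668224_ok, W6_15167664192_ok,
    W6_15150891072_ok, W6_15150887040_ok, W6_15134113920_ok, W6_14127476736_ok, W6_14110703616_ok,
    W6_14110699584_ok, W6_14093926464_ok, W6_14093922432_ok, W6_14077149312_ok, W6_14060372160_ok,
    W6_13070512128_ok, W6_13053739008_ok, W6_13053734976_ok, W6_13036961856_ok, W6_13036957824_ok,
    W6_13020184704_ok, W6_13003407552_ok, W6_11996770368_ok, W6_11979997248_ok, W6_11979993216_ok,
    W6_11963220096_ok, W6_11963216064_ok, W6_11946442944_ok, trivial⟩ F6_15218000064_chk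

theorem V6_15202787328_ok : Fwd.Has6 Inst.T 6 V6_15202787328 :=
  fwd_sound' relAll_5_5 ks6_ok F6_15202787328
    ⟨V5_10907811840_ok, V5_15201214464_ok, V5_10907295744_ok, V5_11980775424_ok, trivial⟩ ⟨
    W6_15201730560_ok, W6_15201472512_ok, W6_15201214464_ok, W6_14128250880_ok, W6_14127992832_ok,
    W6_14127734784_ok, W6_13054771200_ok, W6_13054513152_ok, W6_13054255104_ok, W6_11981291520_ok,
    W6_11981033472_ok, W6_11980775424_ok, W6_10907811840_ok, W6_10907553792_ok, W6_10907295744_ok,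
    trivial⟩ F6_15202787328_chk

theorem V6_15202783296_ok : Fwd.Has6 Inst.T 6 V6_15202783296 :=
  fwd_sound' relAll_5_5 ks6_ok F6_15202783296
    ⟨V5_10907553792_ok, V5_11981033472_ok, V5_11980771392_ok, trivial⟩ ⟨W6_15201472512_ok,
    W6_15201210432_ok, W6_14127992832_ok, W6_14127730752_ok, W6_13054513152_ok, W6_13054251072_ok,
    W6_11981033472_ok, W6_11980771392_ok, W6_10907553792_ok, trivial⟩ F6_15202783296_chk

theorem V6_15202529280_ok : Fwd.Has6 Inst.T 6 V6_15202529280 :=
  fwd_sound' relAll_5_5 ks6_ok F6_15202529280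
    ⟨V5_10907295744_ok, V5_13054771200_ok, V5_15201214464_ok, V5_15201730560_ok,
    V5_11980517376_ok, V5_10907553792_ok, trivial⟩ ⟨W6_15201730560_ok, W6_15201472512_ok,
    W6_15201214464_ok, W6_15200956416_ok, W6_15185215488_ok, W6_15184957440_ok, W6_15184699392_ok,
    W6_15184441344_ok, W6_14128250880_ok, W6_14127992832_ok, W6_14127734784_ok, W6_14127476736_ok,
    W6_14111735808_ok, W6_14111477760_ok, W6_14111219712_ok, W6_14110961664_ok, W6_13054771200_ok,
    W6_13054513152_ok, W6_13054255104_ok, W6_13053997056_ok, W6_13037998080_ok, W6_13037740032_ok,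
    W6_13037481984_ok, W6_11981291520_ok, W6_11981033472_ok, W6_11980775424_ok, W6_11980517376_ok,
    W6_11964518400_ok, W6_11964260352_ok, W6_11964002304_ok, W6_10907553792_ok, W6_10907295744_ok,
    W6_10907037696_ok, W6_10890522624_ok, trivial⟩ F6_15202529280_chk

theorem V6_15202267200_ok : Fwd.Has6 Inst.T 6 V6_15202267200 :=
  fwd_sound' relAll_5_5 ks6_ok F6_15202267200
    ⟨V5_10907295744_ok, V5_11981033472_ok, V5_13021224960_ok, V5_11980517376_ok,
    V5_15201214464_ok, V5_11947487232_ok, V5_13054255104_ok, V5_14127476736_ok, V5_10890522624_ok,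
    V5_13054513152_ok, V5_14094962688_ok, V5_10873745472_ok, trivial⟩ ⟨W6_15201472512_ok,
    W6_15201214464_ok, W6_15201210432_ok, W6_15200956416_ok, W6_15200952384_ok, W6_15184957440_ok,
    W6_15184699392_ok, W6_15184695360_ok, W6_15184441344_ok, W6_15184437312_ok, W6_15184179264_ok,
    W6_15168442368_ok, W6_15168184320_ok, W6_15168180288_ok, W6_15167926272_ok, W6_15167922240_ok,
    W6_15167664192_ok, W6_14127992832_ok, W6_14127734784_ok, W6_14127730752_ok, W6_14127476736_ok,
    W6_14127472704_ok, W6_14127214656_ok, W6_14111477760_ok, W6_14111219712_ok, W6_14111215680_ok,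
    W6_14110961664_ok, W6_14110957632_ok, W6_14110699584_ok, W6_14094962688_ok, W6_14094704640_ok,
    W6_14094700608_ok, W6_14094446592_ok, W6_14094442560_ok, W6_14094184512_ok, W6_13054513152_ok,
    W6_13054255104_ok, W6_13054251072_ok, W6_13053997056_ok, W6_13053993024_ok, W6_13053734976_ok,
    W6_13037998080_ok, W6_13037740032_ok, W6_13037736000_ok, W6_13037481984_ok, W6_13037477952_ok,
    W6_13037219904_ok, W6_13021224960_ok, W6_13020966912_ok, W6_13020962880_ok, W6_13020704832_ok,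
    W6_11981033472_ok, W6_11980775424_ok, W6_11980771392_ok, W6_11980517376_ok, W6_11980513344_ok,
    W6_11980255296_ok, W6_11964260352_ok, W6_11964256320_ok, W6_11964002304_ok, W6_11963998272_ok,
    W6_11963740224_ok, W6_11947487232_ok, W6_11947483200_ok, W6_11947225152_ok, W6_10907295744_ok,
    W6_10907037696_ok, W6_10907033664_ok, W6_10906775616_ok, W6_10890522624_ok, W6_10890518592_ok,
    W6_10890260544_ok, W6_10873745472_ok, trivial⟩ F6_15202267200_chk

theorem V6_15202263168_ok : Fwd.Has6 Inst.T 6 V6_15202263168 :=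
  fwd_sound' relAll_5_5 ks6_ok F6_15202263168
    ⟨V5_10907295744_ok, V5_10873741440_ok, V5_13021224960_ok, V5_13054255104_ok,
    V5_15201214464_ok, V5_10906771584_ok, trivial⟩ ⟨W6_15201214464_ok, W6_15200952384_ok,
    W6_15200690304_ok, W6_15184699392_ok, W6_15184437312_ok, W6_15184175232_ok, W6_15168184320_ok,
    W6_15167922240_ok, W6_15167660160_ok, W6_14127734784_ok, W6_14127472704_ok, W6_14127210624_ok,
    W6_14111219712_ok, W6_14110957632_ok, W6_14110695552_ok, W6_14094704640_ok, W6_14094442560_ok,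
    W6_14094180480_ok, W6_13054255104_ok, W6_13053993024_ok, W6_13053730944_ok, W6_13037740032_ok,
    W6_13037477952_ok, W6_13037215872_ok, W6_13021224960_ok, W6_13020962880_ok, W6_13020700800_ok,
    W6_11980775424_ok, W6_11980513344_ok, W6_11980251264_ok, W6_11964260352_ok, W6_11963998272_ok,
    W6_11963736192_ok, W6_11947483200_ok, W6_11947221120_ok, W6_10907295744_ok, W6_10907033664_ok,
    W6_10906771584_ok, W6_10890518592_ok, W6_10873741440_ok, trivial⟩ F6_15202263168_chk

theorem V6_15201755136_ok : Fwd.Has6 Inst.T 6 V6_15201755136 :=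
  fwd_sound' relAll_5_5 ks6_ok F6_15201755136
    ⟨V5_15201730560_ok, V5_12987162624_ok, V5_10873233408_ok, V5_14127992832_ok,
    V5_10906779648_ok, V5_11930198016_ok, trivial⟩ ⟨W6_15201730560_ok, W6_15184957440_ok,
    W6_15168184320_ok, W6_15151411200_ok, W6_15134638080_ok, W6_14127992832_ok, W6_14111219712_ok,
    W6_14094446592_ok, W6_14077673472_ok, W6_14060900352_ok, W6_13054255104_ok, W6_13037481984_ok,
    W6_13020708864_ok, W6_13003935744_ok, W6_12987162624_ok, W6_11980517376_ok, W6_11963744256_ok,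
    W6_11946971136_ok, W6_11930198016_ok, W6_10906779648_ok, W6_10890006528_ok, W6_10873233408_ok,
    trivial⟩ F6_15201755136_chk

theorem V6_15201222912_ok : Fwd.Has6 Inst.T 6 V6_15201222912 :=
  fwd_sound' relAll_5_5 ks6_ok F6_15201222912
    ⟨V5_13053739008_ok, V5_10906255488_ok, V5_15100559616_ok, V5_10872701184_ok,
    V5_12986630400_ok, trivial⟩ ⟨W6_15167668224_ok, W6_15150891072_ok, W6_15134113920_ok,
    W6_15100559616_ok, W6_14110703616_ok, W6_14093926464_ok, W6_14077149312_ok, W6_14060372160_ok,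
    W6_13053739008_ok, W6_13036961856_ok, W6_13020184704_ok, W6_13003407552_ok, W6_12986630400_ok,
    W6_11979997248_ok, W6_11963220096_ok, W6_11946442944_ok, W6_10906255488_ok, W6_10872701184_ok,
    trivial⟩ F6_15201222912_chk

theorem V6_15201218754_ok : Fwd.Has6 Inst.T 6 V6_15201218754 :=
  fwd_sound' relAll_5_5 ks6_ok F6_15201218754
    ⟨V5_11963216064_ok, trivial⟩ ⟨W6_15150887040_ok, W6_14110437504_ok, W6_14093922432_ok,
    W6_13036957824_ok, W6_11979993216_ok, W6_11963216064_ok, trivial⟩ F6_15201218754_chk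

theorem V6_15185756160_ok : Fwd.Has6 Inst.T 6 V6_15185756160 :=
  fwd_sound' relAll_5_5 ks6_ok F6_15185756160
    ⟨V5_14110703616_ok, V5_15184441344_ok, V5_14111735808_ok, V5_10890522624_ok, trivial⟩ ⟨
    W6_15185215488_ok, W6_15184957440_ok, W6_15184699392_ok, W6_15184441344_ok, W6_14111735808_ok,
    W6_14111477760_ok, W6_14111219712_ok, W6_14110961664_ok, W6_14110703616_ok, W6_13037998080_ok,
    W6_13037740032_ok, W6_13037481984_ok, W6_13037223936_ok, W6_11964518400_ok, W6_11964260352_ok,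
    W6_11964002304_ok, W6_11963744256_ok, W6_10890522624_ok, W6_10890264576_ok, trivial⟩
    F6_15185756160_chk

theorem V6_15185752128_ok : Fwd.Has6 Inst.T 6 V6_15185752128 :=
  fwd_sound' relAll_5_5 ks6_ok F6_15185752128
    ⟨V5_15184441344_ok, V5_13037481984_ok, V5_9816780864_ok, V5_11964002304_ok, V5_11964518400_ok,
    trivial⟩ ⟨W6_15184957440_ok, W6_15184699392_ok, W6_15184695360_ok, W6_15184441344_ok,
    W6_15184437312_ok, W6_15184179264_ok, W6_14111477760_ok, W6_14111219712_ok, W6_14111215680_ok,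
    W6_14110961664_ok, W6_14110957632_ok, W6_14110699584_ok, W6_13037998080_ok, W6_13037740032_ok,
    W6_13037736000_ok, W6_13037481984_ok, W6_13037477952_ok, W6_13037219904_ok, W6_11964518400_ok,
    W6_11964260352_ok, W6_11964256320_ok, W6_11964002304_ok, W6_11963998272_ok, W6_11963740224_ok,
    W6_10890522624_ok, W6_10890518592_ok, W6_10890260544_ok, W6_9816780864_ok, trivial⟩
    F6_15185752128_chk

theorem V6_15185748096_ok : Fwd.Has6 Inst.T 6 V6_15185748096 :=
  fwd_sound' relAll_5_5 ks6_ok F6_15185748096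
    ⟨V5_11964260352_ok, V5_13037740032_ok, trivial⟩ ⟨W6_15184699392_ok, W6_15184437312_ok,
    W6_15184175232_ok, W6_14111219712_ok, W6_14110957632_ok, W6_14110695552_ok, W6_13037740032_ok,
    W6_13037477952_ok, W6_13037215872_ok, W6_11964260352_ok, W6_11963998272_ok, W6_11963736192_ok,
    W6_10890518592_ok, trivial⟩ F6_15185748096_chk

theorem V6_15185748033_ok : Fwd.Has6 Inst.T 6 V6_15185748033 :=
  fwd_sound' relAll_5_5 ks6_ok F6_15185748033
    ⟨V5_15184437312_ok, V5_10890518592_ok, trivial⟩ ⟨W6_15184695360_ok, W6_15184437312_ok,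
    W6_14111215680_ok, W6_14110957632_ok, W6_13037736000_ok, W6_13037477952_ok, W6_11964256320_ok,
    W6_11963998272_ok, W6_10890518592_ok, trivial⟩ F6_15185748033_chk

theorem V6_15184707840_ok : Fwd.Has6 Inst.T 6 V6_15184707840 :=
  fwd_sound' relAll_5_5 ks6_ok F6_15184707840
    ⟨V5_13037223936_ok, V5_14094188544_ok, V5_10872701184_ok, V5_12986630400_ok, trivial⟩ ⟨
    W6_15167668224_ok, W6_15151153152_ok, W6_15150891072_ok, W6_15134376000_ok, W6_15134113920_ok,
    W6_14110703616_ok, W6_14094188544_ok, W6_14093926464_ok, W6_14077411392_ok, W6_14077149312_ok,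
    W6_14060634240_ok, W6_14060372160_ok, W6_13037223936_ok, W6_13036961856_ok, W6_13020446784_ok,
    W6_13020184704_ok, W6_13003669632_ok, W6_13003407552_ok, W6_12986630400_ok, W6_11963482176_ok,
    W6_11963220096_ok, W6_11946705024_ok, W6_11946442944_ok, W6_11929927872_ok, W6_10889740416_ok,
    W6_10872963264_ok, W6_10872701184_ok, trivial⟩ F6_15184707840_chk

theorem V6_15168724992_ok : Fwd.Has6 Inst.T 6 V6_15168724992 :=
  fwd_sound' relAll_5_5 ks6_ok F6_15168724992
    ⟨V5_8726274048_ok, V5_15168700416_ok, V5_10873233408_ok, V5_13021224960_ok, V5_14094962688_ok,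
    V5_10873749504_ok, trivial⟩ ⟨W6_15168700416_ok, W6_15168442368_ok, W6_15168184320_ok,
    W6_14094962688_ok, W6_14094704640_ok, W6_14094446592_ok, W6_13021224960_ok, W6_13020966912_ok,
    W6_13020708864_ok, W6_11947487232_ok, W6_11947229184_ok, W6_11946971136_ok, W6_10873749504_ok,
    W6_10873491456_ok, W6_10873233408_ok, W6_9800011776_ok, W6_8726274048_ok, trivial⟩
    F6_15168724992_chk

theorem V6_15168720960_ok : Fwd.Has6 Inst.T 6 V6_15168720960 :=
  fwd_sound' relAll_5_5 ks6_ok F6_15168720960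
    ⟨V5_13021224960_ok, V5_10873749504_ok, V5_14094962688_ok, V5_11946971136_ok,
    V5_15168442368_ok, V5_11947487232_ok, V5_9800007744_ok, V5_9799749696_ok, trivial⟩ ⟨
    W6_15168442368_ok, W6_15168184320_ok, W6_15168180288_ok, W6_15167926272_ok, W6_15167922240_ok,
    W6_14094962688_ok, W6_14094704640_ok, W6_14094700608_ok, W6_14094446592_ok, W6_14094442560_ok,
    W6_14094188544_ok, W6_14094184512_ok, W6_13021224960_ok, W6_13020966912_ok, W6_13020962880_ok,
    W6_13020708864_ok, W6_13020704832_ok, W6_13020450816_ok, W6_13020446784_ok, W6_11947487232_ok,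
    W6_11947483200_ok, W6_11947229184_ok, W6_11947225152_ok, W6_11946971136_ok, W6_11946967104_ok,
    W6_11946709056_ok, W6_10873749504_ok, W6_10873745472_ok, W6_10873491456_ok, W6_10873487424_ok,
    W6_10873229376_ok, W6_9800011776_ok, W6_9800007744_ok, W6_9799749696_ok, trivial⟩
    F6_15168720960_chk

theorem V6_15168712896_ok : Fwd.Has6 Inst.T 6 V6_15168712896 :=
  fwd_sound' relAll_5_5 ks6_ok F6_15168712896
    ⟨V5_11947487232_ok, V5_13020966912_ok, V5_10873745472_ok, trivial⟩ ⟨W6_15167926272_ok,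
    W6_15167664192_ok, W6_14094446592_ok, W6_14094184512_ok, W6_14093922432_ok, W6_13020966912_ok,
    W6_13020704832_ok, W6_13020442752_ok, W6_11947487232_ok, W6_11947225152_ok, W6_11946963072_ok,
    W6_10873745472_ok, W6_10873483392_ok, trivial⟩ F6_15168712896_chk

theorem V6_15168708738_ok : Fwd.Has6 Inst.T 6 V6_15168708738 :=
  fwd_sound' relAll_5_5 ks6_ok F6_15168708738
    ⟨V5_10873741440_ok, V5_13020700800_ok, trivial⟩ ⟨W6_15167660160_ok, W6_14094180480_ok,
    W6_13020700800_ok, W6_11947221120_ok, W6_10873741440_ok, trivial⟩ F6_15168708738_chk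

theorem V6_15168200769_ok : Fwd.Has6 Inst.T 6 V6_15168200769 :=
  fwd_sound' relAll_5_5 ks6_ok F6_15168200769
    ⟨V5_11913420864_ok, V5_9799491648_ok, V5_15168180288_ok, V5_10856456256_ok, trivial⟩ ⟨
    W6_15168180288_ok, W6_15151407168_ok, W6_15134634048_ok, W6_14094442560_ok, W6_14077669440_ok,
    W6_14060896320_ok, W6_13020704832_ok, W6_13003931712_ok, W6_12987158592_ok, W6_11946967104_ok,
    W6_11930193984_ok, W6_11913420864_ok, W6_10873229376_ok, W6_10856456256_ok, W6_9799491648_ok,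
    trivial⟩ F6_15168200769_chk

theorem V6_15151689792_ok : Fwd.Has6 Inst.T 6 V6_15151689792 :=
  fwd_sound' relAll_5_5 ks6_ok F6_15151689792
    ⟨V5_15151665216_ok, trivial⟩ ⟨W6_15151669248_ok, W6_15151665216_ok, W6_14077931520_ok,
    W6_14077927488_ok, W6_13004193792_ok, W6_13004189760_ok, W6_11930456064_ok, W6_11930452032_ok,
    trivial⟩ F6_15151689792_chk

theorem V6_15151685760_ok : Fwd.Has6 Inst.T 6 V6_15151685760 :=
  fwd_sound' relAll_5_5 ks6_ok F6_15151685760
    ⟨V5_10856456256_ok, V5_14077931520_ok, V5_11930198016_ok, V5_11930456064_ok, trivial⟩ ⟨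
    W6_15151669248_ok, W6_15151411200_ok, W6_15151407168_ok, W6_14077931520_ok, W6_14077927488_ok,
    W6_14077673472_ok, W6_14077669440_ok, W6_14077665408_ok, W6_13004193792_ok, W6_13004189760_ok,
    W6_13003935744_ok, W6_13003931712_ok, W6_13003927680_ok, W6_11930456064_ok, W6_11930452032_ok,
    W6_11930198016_ok, W6_11930193984_ok, W6_11930189952_ok, W6_10856456256_ok, W6_10856452224_ok,
    trivial⟩ F6_15151685760_chk

theorem V6_15151685697_ok : Fwd.Has6 Inst.T 6 V6_15151685697 :=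
  fwd_sound' relAll_5_5 ks6_ok F6_15151685697
    ⟨V5_15151665216_ok, V5_10856456256_ok, V5_11930452032_ok, trivial⟩ ⟨W6_15151665216_ok,
    W6_15151407168_ok, W6_14077927488_ok, W6_14077669440_ok, W6_13004189760_ok, W6_13003931712_ok,
    W6_11930452032_ok, W6_11930193984_ok, W6_10856456256_ok, trivial⟩ F6_15151685697_chk

theorem V6_15151681728_ok : Fwd.Has6 Inst.T 6 V6_15151681728 :=
  fwd_sound' relAll_5_5 ks6_ok F6_15151681728
    ⟨V5_10856706240_ok, V5_9782710464_ok, V5_13003935744_ok, V5_11930456064_ok, V5_14077931520_ok,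
    V5_11930193984_ok, trivial⟩ ⟨W6_15151411200_ok, W6_15151153152_ok, W6_15151149120_ok,
    W6_14077931520_ok, W6_14077673472_ok, W6_14077669440_ok, W6_14077415424_ok, W6_14077411392_ok,
    W6_14077407360_ok, W6_13004193792_ok, W6_13004189760_ok, W6_13003935744_ok, W6_13003931712_ok,
    W6_13003927680_ok, W6_13003673664_ok, W6_13003669632_ok, W6_13003665600_ok, W6_11930456064_ok,
    W6_11930452032_ok, W6_11930193984_ok, W6_11930189952_ok, W6_11930185920_ok, W6_11929927872_ok,
    W6_10856706240_ok, W6_10856452224_ok, W6_10856448192_ok, W6_9782710464_ok, trivial⟩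
    F6_15151681728_chk

theorem V6_15151681665_ok : Fwd.Has6 Inst.T 6 V6_15151681665 :=
  fwd_sound' relAll_5_5 ks6_ok F6_15151681665
    ⟨V5_10856452224_ok, V5_11930193984_ok, V5_13004189760_ok, trivial⟩ ⟨W6_15151407168_ok,
    W6_15151149120_ok, W6_15151145088_ok, W6_14077927488_ok, W6_14077669440_ok, W6_14077665408_ok,
    W6_14077411392_ok, W6_14077407360_ok, W6_13004189760_ok, W6_13003931712_ok, W6_13003927680_ok,
    W6_13003673664_ok, W6_13003669632_ok, W6_11930452032_ok, W6_11930193984_ok, W6_11930189952_ok,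
    W6_10856452224_ok, trivial⟩ F6_15151681665_chk

theorem V6_15151677633_ok : Fwd.Has6 Inst.T 6 V6_15151677633 :=
  fwd_sound' relAll_5_5 ks6_ok F6_15151677633
    ⟨V5_10856706240_ok, V5_13003931712_ok, V5_10856448192_ok, V5_11930452032_ok, trivial⟩ ⟨
    W6_15151149120_ok, W6_15150891072_ok, W6_15150887040_ok, W6_14077669440_ok, W6_14077411392_ok,
    W6_14077407360_ok, W6_14077149312_ok, W6_13004189760_ok, W6_13003931712_ok, W6_13003927680_ok,
    W6_13003669632_ok, W6_13003665600_ok, W6_13003407552_ok, W6_11930452032_ok, W6_11930189952_ok,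
    W6_11930185920_ok, W6_11929927872_ok, W6_10856706240_ok, W6_10856448192_ok, trivial⟩
    F6_15151677633_chk

theorem V6_15151419522_ok : Fwd.Has6 Inst.T 6 V6_15151419522 :=
  fwd_sound' relAll_5_5 ks6_ok F6_15151419522
    ⟨V5_10856452224_ok, V5_11930189952_ok, trivial⟩ ⟨W6_15151145088_ok, W6_15134630016_ok,
    W6_15134371968_ok, W6_14077665408_ok, W6_14077407360_ok, W6_14060892288_ok, W6_14060634240_ok,
    W6_13003927680_ok, W6_13003669632_ok, W6_12987154560_ok, W6_11930189952_ok, W6_11913416832_ok,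
    W6_10856452224_ok, trivial⟩ F6_15151419522_chk

theorem V6_15151157505_ok : Fwd.Has6 Inst.T 6 V6_15151157505 :=
  fwd_sound' relAll_5_5 ks6_ok F6_15151157505
    ⟨V5_13003673664_ok, trivial⟩ ⟨W6_15134376000_ok, W6_14077411392_ok, W6_14060634240_ok,
    W6_13003673664_ok, W6_13003669632_ok, W6_11929927872_ok, trivial⟩ F6_15151157505_chk

theorem V6_15151157442_ok : Fwd.Has6 Inst.T 6 V6_15151157442 :=
  fwd_sound' relAll_5_5 ks6_ok F6_15151157442
    ⟨V5_11929927872_ok, trivial⟩ ⟨W6_15134371968_ok, W6_14077407360_ok, W6_14060634240_ok,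
    W6_13003669632_ok, W6_13003665600_ok, W6_11929927872_ok, trivial⟩ F6_15151157442_chk

theorem V6_15134646528_ok : Fwd.Has6 Inst.T 6 V6_15134646528 :=
  fwd_sound' relAll_5_5 ks6_ok F6_15134646528
    ⟨V5_12987162624_ok, V5_8692195584_ok, V5_10839679104_ok, V5_10839671040_ok, trivial⟩ ⟨
    W6_15134638080_ok, W6_14060900352_ok, W6_14060896320_ok, W6_12987162624_ok, W6_12987158592_ok,
    W6_12987154560_ok, W6_11913420864_ok, W6_11913416832_ok, W6_11913412800_ok, W6_10839679104_ok,
    W6_10839671040_ok, W6_9765937344_ok, W6_8692195584_ok, trivial⟩ F6_15134646528_chk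

theorem V6_15134646465_ok : Fwd.Has6 Inst.T 6 V6_15134646465 :=
  fwd_sound' relAll_5_5 ks6_ok F6_15134646465
    ⟨V5_9765937344_ok, V5_10839679104_ok, V5_11913420864_ok, trivial⟩ ⟨W6_15134634048_ok,
    W6_14060896320_ok, W6_14060892288_ok, W6_12987158592_ok, W6_12987154560_ok, W6_11913420864_ok,
    W6_11913416832_ok, W6_11913412800_ok, W6_10839679104_ok, W6_9765937344_ok, trivial⟩
    F6_15134646465_chk

theorem V6_15134646402_ok : Fwd.Has6 Inst.T 6 V6_15134646402 :=
  fwd_sound' relAll_5_5 ks6_ok F6_15134646402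
    ⟨V5_10839679104_ok, V5_15134630016_ok, trivial⟩ ⟨W6_15134630016_ok, W6_14060892288_ok,
    W6_12987154560_ok, W6_11913416832_ok, W6_10839679104_ok, trivial⟩ F6_15134646402_chk

theorem V6_15134642433_ok : Fwd.Has6 Inst.T 6 V6_15134642433 :=
  fwd_sound' relAll_5_5 ks6_ok F6_15134642433
    ⟨V5_10839671040_ok, V5_11913416832_ok, trivial⟩ ⟨W6_15134376000_ok, W6_14060896320_ok,
    W6_14060634240_ok, W6_12987158592_ok, W6_12987154560_ok, W6_11913416832_ok, W6_11913412800_ok,
    W6_10839671040_ok, trivial⟩ F6_15134642433_chk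

theorem V6_15134642370_ok : Fwd.Has6 Inst.T 6 V6_15134642370 :=
  fwd_sound' relAll_5_5 ks6_ok F6_15134642370
    ⟨V5_11913416832_ok, trivial⟩ ⟨W6_15134371968_ok, W6_14060892288_ok, W6_14060634240_ok,
    W6_12987154560_ok, W6_11913416832_ok, W6_11913412800_ok, trivial⟩ F6_15134642370_chk

theorem V6_15134638338_ok : Fwd.Has6 Inst.T 6 V6_15134638338 :=
  fwd_sound' relAll_5_5 ks6_ok F6_15134638338
    ⟨V5_10839671040_ok, V5_12986630400_ok, V5_11913412800_ok, trivial⟩ ⟨W6_15134113920_ok,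
    W6_14060634240_ok, W6_14060372160_ok, W6_12987154560_ok, W6_12986630400_ok, W6_11913412800_ok,
    W6_10839671040_ok, trivial⟩ F6_15134638338_chk

theorem V6_15134114052_ok : Fwd.Has6 Inst.T 6 V6_15134114052 :=
  fwd_sound' relAll_5_5 ks6_ok F6_15134114052
    ⟨V5_12986630400_ok, trivial⟩ ⟨W6_15100559616_ok, W6_12986630400_ok, trivial⟩
    F6_15134114052_chk

theorem V6_14179110912_ok : Fwd.Has6 Inst.T 6 V6_14179110912 :=
  fwd_sound' relAll_5_5 ks6_ok F6_14179110912
    ⟨V5_14177538048_ok, V5_14161022976_ok, V5_14177796096_ok, trivial⟩ ⟨W6_14177796096_ok,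
    W6_14177538048_ok, W6_14161281024_ok, W6_14161022976_ok, W6_14144765952_ok, W6_14144507904_ok,
    W6_14128250880_ok, W6_14127992832_ok, W6_14111735808_ok, W6_14111477760_ok, trivial⟩
    F6_14179110912_chk

theorem V6_14178852864_ok : Fwd.Has6 Inst.T 6 V6_14178852864 :=
  fwd_sound' relAll_5_5 ks6_ok F6_14178852864
    ⟨V5_14177538048_ok, V5_14094704640_ok, V5_14094962688_ok, V5_14177796096_ok, trivial⟩ ⟨
    W6_14177796096_ok, W6_14177538048_ok, W6_14161281024_ok, W6_14161022976_ok, W6_14160764928_ok,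
    W6_14144765952_ok, W6_14144507904_ok, W6_14144249856_ok, W6_14128250880_ok, W6_14127992832_ok,
    W6_14127734784_ok, W6_14111735808_ok, W6_14111477760_ok, W6_14111219712_ok, W6_14094962688_ok,
    W6_14094704640_ok, trivial⟩ F6_14178852864_chk

theorem V6_14178848832_ok : Fwd.Has6 Inst.T 6 V6_14178848832 :=
  fwd_sound' relAll_5_5 ks6_ok F6_14178848832
    ⟨V5_14094962688_ok, V5_14177538048_ok, V5_14177275968_ok, V5_14094700608_ok,
    V5_14160760896_ok, trivial⟩ ⟨W6_14177538048_ok, W6_14177275968_ok, W6_14161022976_ok,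
    W6_14160760896_ok, W6_14144507904_ok, W6_14144245824_ok, W6_14127992832_ok, W6_14127730752_ok,
    W6_14111477760_ok, W6_14111215680_ok, W6_14094962688_ok, W6_14094700608_ok, trivial⟩
    F6_14178848832_chk

theorem V6_14178590784_ok : Fwd.Has6 Inst.T 6 V6_14178590784 :=
  fwd_sound' relAll_5_5 ks6_ok F6_14178590784
    ⟨V5_14094704640_ok, V5_14177538048_ok, V5_14177275968_ok, V5_14111477760_ok, trivial⟩ ⟨
    W6_14177538048_ok, W6_14177275968_ok, W6_14161022976_ok, W6_14160764928_ok, W6_14160760896_ok,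
    W6_14160502848_ok, W6_14144507904_ok, W6_14144249856_ok, W6_14144245824_ok, W6_14143987776_ok,
    W6_14127992832_ok, W6_14127734784_ok, W6_14127730752_ok, W6_14127472704_ok, W6_14111477760_ok,
    W6_14111219712_ok, W6_14111215680_ok, W6_14110957632_ok, W6_14094704640_ok, W6_14094700608_ok,
    W6_14094442560_ok, W6_14077927488_ok, trivial⟩ F6_14178590784_chk

theorem V6_14178336768_ok : Fwd.Has6 Inst.T 6 V6_14178336768 :=
  fwd_sound' relAll_5_5 ks6_ok F6_14178336768
    ⟨V5_14077673472_ok, V5_14094446592_ok, V5_14144765952_ok, trivial⟩ ⟨W6_14177796096_ok,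
    W6_14161281024_ok, W6_14161022976_ok, W6_14144765952_ok, W6_14144507904_ok, W6_14144249856_ok,
    W6_14127992832_ok, W6_14127734784_ok, W6_14127476736_ok, W6_14111219712_ok, W6_14110961664_ok,
    W6_14110703616_ok, W6_14094446592_ok, W6_14094188544_ok, W6_14077673472_ok, trivial⟩
    F6_14178336768_chk

theorem V6_14178078720_ok : Fwd.Has6 Inst.T 6 V6_14178078720 :=
  fwd_sound' relAll_5_5 ks6_ok F6_14178078720
    ⟨V5_14161281024_ok, V5_14144507904_ok, trivial⟩ ⟨W6_14161281024_ok, W6_14144507904_ok,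
    W6_14127734784_ok, W6_14110961664_ok, W6_14094188544_ok, W6_14077415424_ok, trivial⟩
    F6_14178078720_chk

theorem V6_14178074688_ok : Fwd.Has6 Inst.T 6 V6_14178074688 :=
  fwd_sound' relAll_5_5 ks6_ok F6_14178074688
    ⟨V5_14094188544_ok, V5_14144507904_ok, V5_14077411392_ok, trivial⟩ ⟨W6_14161022976_ok,
    W6_14144507904_ok, W6_14144249856_ok, W6_14144245824_ok, W6_14127734784_ok, W6_14127730752_ok,
    W6_14127476736_ok, W6_14127472704_ok, W6_14110961664_ok, W6_14110957632_ok, W6_14110703616_ok,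
    W6_14110699584_ok, W6_14094188544_ok, W6_14094184512_ok, W6_14093926464_ok, W6_14077411392_ok,
    trivial⟩ F6_14178074688_chk

theorem V6_14178066561_ok : Fwd.Has6 Inst.T 6 V6_14178066561 :=
  fwd_sound' relAll_5_5 ks6_ok F6_14178066561
    ⟨V5_14094180480_ok, V5_14160502848_ok, trivial⟩ ⟨W6_14160502848_ok, W6_14143987776_ok,
    W6_14127472704_ok, W6_14127210624_ok, W6_14110957632_ok, W6_14110695552_ok, W6_14094180480_ok,
    trivial⟩ F6_14178066561_chk

theorem V6_14177812608_ok : Fwd.Has6 Inst.T 6 V6_14177812608 :=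
  fwd_sound' relAll_5_5 ks6_ok F6_14177812608
    ⟨V5_14110703616_ok, trivial⟩ ⟨W6_14144249856_ok, W6_14127476736_ok, W6_14127472704_ok,
    W6_14110703616_ok, W6_14110699584_ok, W6_14110695552_ok, W6_14093926464_ok, W6_14093922432_ok,
    W6_14077149312_ok, trivial⟩ F6_14177812608_chk

theorem V6_14177808576_ok : Fwd.Has6 Inst.T 6 V6_14177808576 :=
  fwd_sound' relAll_5_5 ks6_ok F6_14177808576
    ⟨V5_14127476736_ok, trivial⟩ ⟨W6_14143991808_ok, W6_14127476736_ok, W6_14127214656_ok,
    W6_14110699584_ok, W6_14110437504_ok, W6_14093922432_ok, trivial⟩ F6_14177808576_chk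

theorem V6_14177546370_ok : Fwd.Has6 Inst.T 6 V6_14177546370 :=
  fwd_sound' relAll_5_5 ks6_ok F6_14177546370
    ⟨V5_14110437504_ok, trivial⟩ ⟨W6_14127210624_ok, W6_14110437504_ok, trivial⟩
    F6_14177546370_chk

theorem V6_14162853888_ok : Fwd.Has6 Inst.T 6 V6_14162853888 :=
  fwd_sound' relAll_5_5 ks6_ok F6_14162853888
    ⟨V5_13087801344_ok, V5_14161281024_ok, trivial⟩ ⟨W6_14161281024_ok, W6_14144765952_ok,
    W6_13087801344_ok, W6_13071286272_ok, trivial⟩ F6_14162853888_chk

theorem V6_14161563648_ok : Fwd.Has6 Inst.T 6 V6_14161563648 :=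
  fwd_sound' relAll_5_5 ks6_ok F6_14161563648
    ⟨V5_13087801344_ok, V5_14060900352_ok, V5_14161281024_ok, V5_13020708864_ok,
    V5_14144765952_ok, V5_13003935744_ok, V5_13087543296_ok, trivial⟩ ⟨W6_14161281024_ok,
    W6_14144765952_ok, W6_14144507904_ok, W6_14127992832_ok, W6_14127734784_ok, W6_14111219712_ok,
    W6_14110961664_ok, W6_14094446592_ok, W6_14094188544_ok, W6_14077673472_ok, W6_14077415424_ok,
    W6_14060900352_ok, W6_13087801344_ok, W6_13087543296_ok, W6_13071028224_ok, W6_13070770176_ok,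
    W6_13054255104_ok, W6_13053997056_ok, W6_13037481984_ok, W6_13037223936_ok, W6_13020708864_ok,
    W6_13020450816_ok, W6_13003935744_ok, trivial⟩ F6_14161563648_chk

theorem V6_14161293504_ok : Fwd.Has6 Inst.T 6 V6_14161293504 :=
  fwd_sound' relAll_5_5 ks6_ok F6_14161293504
    ⟨V5_14110961664_ok, V5_13003665600_ok, trivial⟩ ⟨W6_14143991808_ok, W6_14127476736_ok,
    W6_14127214656_ok, W6_14110961664_ok, W6_14110699584_ok, W6_14110437504_ok, W6_14094184512_ok,
    W6_14093922432_ok, W6_14077407360_ok, W6_13070512128_ok, W6_13070250048_ok, W6_13053997056_ok,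
    W6_13053734976_ok, W6_13037219904_ok, W6_13036957824_ok, W6_13020442752_ok, W6_13003665600_ok,
    trivial⟩ F6_14161293504_chk

theorem V6_14161289346_ok : Fwd.Has6 Inst.T 6 V6_14161289346 :=
  fwd_sound' relAll_5_5 ks6_ok F6_14161289346
    ⟨V5_13086761088_ok, V5_13070246016_ok, trivial⟩ ⟨W6_14127210624_ok, W6_14110695552_ok,
    W6_14094180480_ok, W6_13086761088_ok, W6_13070246016_ok, W6_13053730944_ok, W6_13037215872_ok,
    trivial⟩ F6_14161289346_chk

theorem V6_14161035456_ok : Fwd.Has6 Inst.T 6 V6_14161035456 :=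
  fwd_sound' relAll_5_5 ks6_ok F6_14161035456
    ⟨V5_13053739008_ok, V5_13070512128_ok, trivial⟩ ⟨W6_14127476736_ok, W6_14110703616_ok,
    W6_14110699584_ok, W6_14093926464_ok, W6_14093922432_ok, W6_14077149312_ok, W6_14060372160_ok,
    W6_13070512128_ok, W6_13053739008_ok, W6_13053734976_ok, W6_13036961856_ok, W6_13036957824_ok,
    W6_13020184704_ok, W6_13003407552_ok, trivial⟩ F6_14161035456_chk

theorem V6_14146080768_ok : Fwd.Has6 Inst.T 6 V6_14146080768 :=
  fwd_sound' relAll_5_5 ks6_ok F6_14146080768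
    ⟨V5_11997548544_ok, V5_13071286272_ok, trivial⟩ ⟨W6_14144765952_ok, W6_14144507904_ok,
    W6_13071286272_ok, W6_13071028224_ok, W6_11997548544_ok, trivial⟩ F6_14146080768_chk

theorem V6_14145556545_ok : Fwd.Has6 Inst.T 6 V6_14145556545 :=
  fwd_sound' relAll_5_5 ks6_ok F6_14145556545
    ⟨V5_11997286464_ok, V5_11964256320_ok, trivial⟩ ⟨W6_14144245824_ok, W6_14127730752_ok,
    W6_14111215680_ok, W6_13070766144_ok, W6_13054251072_ok, W6_13037736000_ok, W6_11997286464_ok,
    W6_11980771392_ok, W6_11964256320_ok, trivial⟩ F6_14145556545_chk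

theorem V6_14145298560_ok : Fwd.Has6 Inst.T 6 V6_14145298560 :=
  fwd_sound' relAll_5_5 ks6_ok F6_14145298560
    ⟨V5_13021224960_ok, V5_14144249856_ok, V5_13070770176_ok, V5_11980775424_ok, trivial⟩ ⟨
    W6_14144249856_ok, W6_14143987776_ok, W6_14127734784_ok, W6_14127472704_ok, W6_14127210624_ok,
    W6_14111219712_ok, W6_14110957632_ok, W6_14110695552_ok, W6_14094704640_ok, W6_14094442560_ok,
    W6_14094180480_ok, W6_13070770176_ok, W6_13070508096_ok, W6_13070246016_ok, W6_13054255104_ok,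
    W6_13053993024_ok, W6_13053730944_ok, W6_13037740032_ok, W6_13037477952_ok, W6_13037215872_ok,
    W6_13021224960_ok, W6_13020962880_ok, W6_13020700800_ok, W6_11997290496_ok, W6_11997028416_ok,
    W6_11980775424_ok, W6_11980513344_ok, W6_11980251264_ok, W6_11964260352_ok, W6_11963998272_ok,
    W6_11963736192_ok, W6_11947483200_ok, W6_11947221120_ok, trivial⟩ F6_14145298560_chk

theorem V6_14144790528_ok : Fwd.Has6 Inst.T 6 V6_14144790528 :=
  fwd_sound' relAll_5_5 ks6_ok F6_14144790528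
    ⟨V5_12987162624_ok, V5_14144765952_ok, V5_13071028224_ok, V5_14060900352_ok,
    V5_11997290496_ok, trivial⟩ ⟨W6_14144765952_ok, W6_14127992832_ok, W6_14111219712_ok,
    W6_14094446592_ok, W6_14077673472_ok, W6_14060900352_ok, W6_13071028224_ok, W6_13054255104_ok,
    W6_13037481984_ok, W6_13020708864_ok, W6_13003935744_ok, W6_12987162624_ok, W6_11997290496_ok,
    W6_11980517376_ok, W6_11963744256_ok, W6_11946971136_ok, W6_11930198016_ok, trivial⟩
    F6_14144790528_chk

theorem V6_14144774274_ok : Fwd.Has6 Inst.T 6 V6_14144774274 :=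
  fwd_sound' relAll_5_5 ks6_ok F6_14144774274
    ⟨V5_13070246016_ok, V5_11963736192_ok, trivial⟩ ⟨W6_14127210624_ok, W6_14110695552_ok,
    W6_14094180480_ok, W6_14077665408_ok, W6_13070246016_ok, W6_13053730944_ok, W6_13037215872_ok,
    W6_13020700800_ok, W6_11980251264_ok, W6_11963736192_ok, trivial⟩ F6_14144774274_chk

theorem V6_14144258304_ok : Fwd.Has6 Inst.T 6 V6_14144258304 :=
  fwd_sound' relAll_5_5 ks6_ok F6_14144258304
    ⟨V5_13053739008_ok, V5_12986630400_ok, trivial⟩ ⟨W6_14110703616_ok, W6_14093926464_ok,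
    W6_14077149312_ok, W6_14060372160_ok, W6_13053739008_ok, W6_13036961856_ok, W6_13020184704_ok,
    W6_13003407552_ok, W6_12986630400_ok, W6_11979997248_ok, W6_11963220096_ok, W6_11946442944_ok,
    trivial⟩ F6_14144258304_chk

theorem V6_14144258241_ok : Fwd.Has6 Inst.T 6 V6_14144258241 :=
  fwd_sound' relAll_5_5 ks6_ok F6_14144258241
    ⟨V5_11996770368_ok, V5_11979997248_ok, V5_14060372160_ok, V5_11946442944_ok,
    V5_13020184704_ok, trivial⟩ ⟨W6_14110699584_ok, W6_14093926464_ok, W6_14093922432_ok,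
    W6_14077149312_ok, W6_14060372160_ok, W6_13053734976_ok, W6_13036961856_ok, W6_13036957824_ok,
    W6_13020184704_ok, W6_13003407552_ok, W6_11996770368_ok, W6_11979997248_ok, W6_11979993216_ok,
    W6_11963220096_ok, W6_11963216064_ok, W6_11946442944_ok, trivial⟩ F6_14144258241_chk

theorem V6_14144258178_ok : Fwd.Has6 Inst.T 6 V6_14144258178 :=
  fwd_sound' relAll_5_5 ks6_ok F6_14144258178
    ⟨V5_13020184704_ok, trivial⟩ ⟨W6_14110695552_ok, W6_14093922432_ok, W6_14077149312_ok,
    W6_13053730944_ok, W6_13036957824_ok, W6_13020184704_ok, W6_11979993216_ok, W6_11963220096_ok,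
    trivial⟩ F6_14144258178_chk

theorem V6_14144254146_ok : Fwd.Has6 Inst.T 6 V6_14144254146 :=
  fwd_sound' relAll_5_5 ks6_ok F6_14144254146
    ⟨V5_11963216064_ok, trivial⟩ ⟨W6_14110437504_ok, W6_14093922432_ok, W6_13036957824_ok,
    W6_11979993216_ok, W6_11963216064_ok, trivial⟩ F6_14144254146_chk

theorem V6_14129041473_ok : Fwd.Has6 Inst.T 6 V6_14129041473 :=
  fwd_sound' relAll_5_5 ks6_ok F6_14129041473
    ⟨V5_11980771392_ok, trivial⟩ ⟨W6_14127730752_ok, W6_13054251072_ok, W6_11980771392_ok,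
    trivial⟩ F6_14129041473_chk

theorem V6_14128787520_ok : Fwd.Has6 Inst.T 6 V6_14128787520 :=
  fwd_sound' relAll_5_5 ks6_ok F6_14128787520
    ⟨V5_10907295744_ok, V5_14127476736_ok, V5_10907553792_ok, V5_11980517376_ok,
    V5_13054255104_ok, V5_10907037696_ok, V5_11981033472_ok, V5_10890522624_ok, trivial⟩ ⟨
    W6_14127992832_ok, W6_14127734784_ok, W6_14127730752_ok, W6_14127476736_ok, W6_14127472704_ok,
    W6_14127214656_ok, W6_14111477760_ok, W6_14111219712_ok, W6_14111215680_ok, W6_14110961664_ok,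
    W6_14110957632_ok, W6_14110699584_ok, W6_13054513152_ok, W6_13054255104_ok, W6_13054251072_ok,
    W6_13053997056_ok, W6_13053993024_ok, W6_13053734976_ok, W6_13037998080_ok, W6_13037740032_ok,
    W6_13037736000_ok, W6_13037481984_ok, W6_13037477952_ok, W6_13037219904_ok, W6_11981033472_ok,
    W6_11980775424_ok, W6_11980771392_ok, W6_11980517376_ok, W6_11980513344_ok, W6_11980255296_ok,
    W6_11964518400_ok, W6_11964260352_ok, W6_11964256320_ok, W6_11964002304_ok, W6_11963998272_ok,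
    W6_11963740224_ok, W6_10907553792_ok, W6_10907295744_ok, W6_10907037696_ok, W6_10907033664_ok,
    W6_10906775616_ok, W6_10890522624_ok, W6_10890518592_ok, W6_10890260544_ok, trivial⟩
    F6_14128787520_chk

theorem V6_14128013376_ok : Fwd.Has6 Inst.T 6 V6_14128013376 :=
  fwd_sound' relAll_5_5 ks6_ok F6_14128013376
    ⟨V5_14127992832_ok, V5_13054255104_ok, V5_12987162624_ok, V5_10906779648_ok,
    V5_11913420864_ok, V5_10873233408_ok, trivial⟩ ⟨W6_14127992832_ok, W6_14111219712_ok,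
    W6_14111215680_ok, W6_14094446592_ok, W6_14094442560_ok, W6_14077673472_ok, W6_14077669440_ok,
    W6_14060900352_ok, W6_14060896320_ok, W6_13054255104_ok, W6_13054251072_ok, W6_13037481984_ok,
    W6_13037477952_ok, W6_13020708864_ok, W6_13020704832_ok, W6_13003935744_ok, W6_13003931712_ok,
    W6_12987162624_ok, W6_12987158592_ok, W6_11980517376_ok, W6_11980513344_ok, W6_11963744256_ok,
    W6_11963740224_ok, W6_11946971136_ok, W6_11946967104_ok, W6_11930198016_ok, W6_11930193984_ok,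
    W6_11913420864_ok, W6_10906779648_ok, W6_10906775616_ok, W6_10890006528_ok, W6_10890002496_ok,
    W6_10873233408_ok, W6_10873229376_ok, W6_10856456256_ok, trivial⟩ F6_14128013376_chk

theorem V6_14127481089_ok : Fwd.Has6 Inst.T 6 V6_14127481089 :=
  fwd_sound' relAll_5_5 ks6_ok F6_14127481089
    ⟨V5_10906255488_ok, V5_11979997248_ok, V5_10872701184_ok, trivial⟩ ⟨W6_14093926464_ok,
    W6_14077149312_ok, W6_14060372160_ok, W6_13036961856_ok, W6_13020184704_ok, W6_13003407552_ok,
    W6_12986630400_ok, W6_11979997248_ok, W6_11963220096_ok, W6_11946442944_ok, W6_10906255488_ok,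
    W6_10872701184_ok, trivial⟩ F6_14127481089_chk

theorem V6_14127481026_ok : Fwd.Has6 Inst.T 6 V6_14127481026 :=
  fwd_sound' relAll_5_5 ks6_ok F6_14127481026
    ⟨V5_10906255488_ok, V5_11963216064_ok, trivial⟩ ⟨W6_14093922432_ok, W6_14077149312_ok,
    W6_14060372160_ok, W6_13036957824_ok, W6_13020184704_ok, W6_13003407552_ok, W6_11979993216_ok,
    W6_11963220096_ok, W6_11963216064_ok, W6_11946442944_ok, W6_10906255488_ok, trivial⟩
    F6_14127481026_chk

theorem V6_14112018432_ok : Fwd.Has6 Inst.T 6 V6_14112018432 :=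
  fwd_sound' relAll_5_5 ks6_ok F6_14112018432
    ⟨V5_14111735808_ok, V5_9816526848_ok, V5_14111477760_ok, V5_11963486208_ok, V5_11964518400_ok,
    trivial⟩ ⟨W6_14111735808_ok, W6_14111477760_ok, W6_14111219712_ok, W6_14110961664_ok,
    W6_13037998080_ok, W6_13037740032_ok, W6_13037481984_ok, W6_13037223936_ok, W6_11964518400_ok,
    W6_11964260352_ok, W6_11964002304_ok, W6_11963744256_ok, W6_11963486208_ok, W6_10890522624_ok,
    W6_10890264576_ok, W6_10890006528_ok, W6_9816526848_ok, trivial⟩ F6_14112018432_chk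

theorem V6_14112006273_ok : Fwd.Has6 Inst.T 6 V6_14112006273 :=
  fwd_sound' relAll_5_5 ks6_ok F6_14112006273
    ⟨V5_11963998272_ok, trivial⟩ ⟨W6_14110957632_ok, W6_14110695552_ok, W6_13037477952_ok,
    W6_13037215872_ok, W6_11963998272_ok, W6_11963736192_ok, W6_10890518592_ok, trivial⟩
    F6_14112006273_chk

theorem V6_14111744130_ok : Fwd.Has6 Inst.T 6 V6_14111744130 :=
  fwd_sound' relAll_5_5 ks6_ok F6_14111744130
    ⟨V5_10873741440_ok, trivial⟩ ⟨W6_14110695552_ok, W6_14094180480_ok, W6_13037215872_ok,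
    W6_13020700800_ok, W6_11963736192_ok, W6_11947221120_ok, W6_10873741440_ok, trivial⟩
    F6_14111744130_chk

theorem V6_14111502336_ok : Fwd.Has6 Inst.T 6 V6_14111502336 :=
  fwd_sound' relAll_5_5 ks6_ok F6_14111502336
    ⟨V5_14111477760_ok, V5_9816526848_ok, V5_11930456064_ok, trivial⟩ ⟨W6_14111477760_ok,
    W6_14094704640_ok, W6_14077931520_ok, W6_13037740032_ok, W6_13020966912_ok, W6_13004193792_ok,
    W6_11964002304_ok, W6_11947229184_ok, W6_11930456064_ok, W6_10890264576_ok, W6_10873491456_ok,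
    W6_9816526848_ok, trivial⟩ F6_14111502336_chk

theorem V6_14094987264_ok : Fwd.Has6 Inst.T 6 V6_14094987264 :=
  fwd_sound' relAll_5_5 ks6_ok F6_14094987264
    ⟨V5_8726274048_ok, V5_14094962688_ok, V5_10873749504_ok, trivial⟩ ⟨W6_14094962688_ok,
    W6_14094704640_ok, W6_13021224960_ok, W6_13020966912_ok, W6_11947487232_ok, W6_11947229184_ok,
    W6_10873749504_ok, W6_10873491456_ok, W6_9800011776_ok, W6_8726274048_ok, trivial⟩
    F6_14094987264_chk

theorem V6_14094979137_ok : Fwd.Has6 Inst.T 6 V6_14094979137 :=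
  fwd_sound' relAll_5_5 ks6_ok F6_14094979137
    ⟨V5_9800007744_ok, V5_11947483200_ok, V5_9799749696_ok, V5_10873229376_ok, V5_10873745472_ok,
    V5_11946709056_ok, trivial⟩ ⟨W6_14094700608_ok, W6_14094442560_ok, W6_14094184512_ok,
    W6_13020962880_ok, W6_13020704832_ok, W6_13020446784_ok, W6_11947483200_ok, W6_11947225152_ok,
    W6_11946967104_ok, W6_11946709056_ok, W6_10873745472_ok, W6_10873487424_ok, W6_10873229376_ok,
    W6_9800007744_ok, W6_9799749696_ok, trivial⟩ F6_14094979137_chk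

theorem V6_14094975168_ok : Fwd.Has6 Inst.T 6 V6_14094975168 :=
  fwd_sound' relAll_5_5 ks6_ok F6_14094975168
    ⟨V5_8726265984_ok, V5_10873749504_ok, V5_13020708864_ok, V5_9800007744_ok, V5_9799483584_ok,
    trivial⟩ ⟨W6_14094446592_ok, W6_14094188544_ok, W6_14094184512_ok, W6_14093926464_ok,
    W6_14093922432_ok, W6_13020966912_ok, W6_13020708864_ok, W6_13020704832_ok, W6_13020446784_ok,
    W6_13020442752_ok, W6_13020184704_ok, W6_11947487232_ok, W6_11947229184_ok, W6_11947225152_ok,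
    W6_11946967104_ok, W6_11946963072_ok, W6_11946705024_ok, W6_11946442944_ok, W6_10873749504_ok,
    W6_10873745472_ok, W6_10873487424_ok, W6_10873483392_ok, W6_10873225344_ok, W6_10872963264_ok,
    W6_9800007744_ok, W6_9799745664_ok, W6_9799483584_ok, W6_8726265984_ok, trivial⟩
    F6_14094975168_chk

theorem V6_14094725184_ok : Fwd.Has6 Inst.T 6 V6_14094725184 :=
  fwd_sound' relAll_5_5 ks6_ok F6_14094725184
    ⟨V5_14094700608_ok, V5_9799749696_ok, V5_10873487424_ok, trivial⟩ ⟨W6_14094704640_ok,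
    W6_14094700608_ok, W6_14077931520_ok, W6_14077927488_ok, W6_13020966912_ok, W6_13020962880_ok,
    W6_13004193792_ok, W6_13004189760_ok, W6_11947229184_ok, W6_11947225152_ok, W6_11930456064_ok,
    W6_11930452032_ok, W6_10873491456_ok, W6_10873487424_ok, W6_9799749696_ok, trivial⟩
    F6_14094725184_chk

theorem V6_14094192897_ok : Fwd.Has6 Inst.T 6 V6_14094192897 :=
  fwd_sound' relAll_5_5 ks6_ok F6_14094192897
    ⟨V5_11946709056_ok, V5_10872963264_ok, trivial⟩ ⟨W6_14077411392_ok, W6_14060634240_ok,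
    W6_13020446784_ok, W6_13003673664_ok, W6_13003669632_ok, W6_11946709056_ok, W6_11946705024_ok,
    W6_11929927872_ok, W6_10872963264_ok, trivial⟩ F6_14094192897_chk

theorem V6_14094192834_ok : Fwd.Has6 Inst.T 6 V6_14094192834 :=
  fwd_sound' relAll_5_5 ks6_ok F6_14094192834
    ⟨V5_10872963264_ok, trivial⟩ ⟨W6_14077407360_ok, W6_14060634240_ok, W6_13020442752_ok,
    W6_13003669632_ok, W6_13003665600_ok, W6_11946705024_ok, W6_11929927872_ok, W6_10872963264_ok,
    trivial⟩ F6_14094192834_chk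

theorem V6_14077948032_ok : Fwd.Has6 Inst.T 6 V6_14077948032 :=
  fwd_sound' relAll_5_5 ks6_ok F6_14077948032
    ⟨V5_11930456064_ok, trivial⟩ ⟨W6_14077931520_ok, W6_14077927488_ok, W6_13004193792_ok,
    W6_13004189760_ok, W6_11930456064_ok, W6_11930452032_ok, trivial⟩ F6_14077948032_chk

theorem V6_14077944000_ok : Fwd.Has6 Inst.T 6 V6_14077944000 :=
  fwd_sound' relAll_5_5 ks6_ok F6_14077944000
    ⟨V5_10856706240_ok, V5_14077931520_ok, V5_9782710464_ok, V5_11930198016_ok, trivial⟩ ⟨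
    W6_14077931520_ok, W6_14077673472_ok, W6_14077669440_ok, W6_13004193792_ok, W6_13004189760_ok,
    W6_13003935744_ok, W6_13003931712_ok, W6_13003927680_ok, W6_11930456064_ok, W6_11930452032_ok,
    W6_11930198016_ok, W6_11930193984_ok, W6_11930189952_ok, W6_11930185920_ok, W6_10856706240_ok,
    W6_10856456256_ok, W6_10856452224_ok, W6_10856448192_ok, W6_9782710464_ok, trivial⟩
    F6_14077944000_chk

theorem V6_14077939968_ok : Fwd.Has6 Inst.T 6 V6_14077939968 :=
  fwd_sound' relAll_5_5 ks6_ok F6_14077939968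
    ⟨V5_13003935744_ok, V5_11930456064_ok, trivial⟩ ⟨W6_14077673472_ok, W6_14077415424_ok,
    W6_14077411392_ok, W6_13004193792_ok, W6_13003935744_ok, W6_13003931712_ok, W6_13003673664_ok,
    W6_13003669632_ok, W6_11930456064_ok, W6_11930452032_ok, W6_11930193984_ok, W6_11930189952_ok,
    W6_11929927872_ok, W6_10856452224_ok, W6_10856448192_ok, W6_9782710464_ok, trivial⟩
    F6_14077939968_chk

theorem V6_14077939905_ok : Fwd.Has6 Inst.T 6 V6_14077939905 :=
  fwd_sound' relAll_5_5 ks6_ok F6_14077939905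
    ⟨V5_10856706240_ok, V5_9782710464_ok, V5_11930193984_ok, V5_10856452224_ok, trivial⟩ ⟨
    W6_14077669440_ok, W6_14077411392_ok, W6_14077407360_ok, W6_13004189760_ok, W6_13003931712_ok,
    W6_13003927680_ok, W6_13003673664_ok, W6_13003669632_ok, W6_13003665600_ok, W6_11930452032_ok,
    W6_11930193984_ok, W6_11930189952_ok, W6_11930185920_ok, W6_11929927872_ok, W6_10856706240_ok,
    W6_10856452224_ok, W6_10856448192_ok, W6_9782710464_ok, trivial⟩ F6_14077939905_chk

theorem V6_14077939842_ok : Fwd.Has6 Inst.T 6 V6_14077939842 :=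
  fwd_sound' relAll_5_5 ks6_ok F6_14077939842
    ⟨V5_10856452224_ok, trivial⟩ ⟨W6_14077665408_ok, W6_14077407360_ok, W6_13003927680_ok,
    W6_13003669632_ok, W6_11930189952_ok, W6_10856452224_ok, trivial⟩ F6_14077939842_chk

theorem V6_14077931715_ok : Fwd.Has6 Inst.T 6 V6_14077931715 :=
  fwd_sound' relAll_5_5 ks6_ok F6_14077931715
    ⟨V5_10856706240_ok, trivial⟩ ⟨W6_13003665600_ok, W6_11930185920_ok, W6_10856706240_ok,
    trivial⟩ F6_14077931715_chk

theorem V6_14077681794_ok : Fwd.Has6 Inst.T 6 V6_14077681794 :=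
  fwd_sound' relAll_5_5 ks6_ok F6_14077681794
    ⟨V5_10839679104_ok, V5_10856452224_ok, trivial⟩ ⟨W6_14077665408_ok, W6_14060892288_ok,
    W6_13003927680_ok, W6_12987154560_ok, W6_11930189952_ok, W6_11913416832_ok, W6_10856452224_ok,
    W6_10839679104_ok, trivial⟩ F6_14077681794_chk

theorem V6_14077677888_ok : Fwd.Has6 Inst.T 6 V6_14077677888 :=
  fwd_sound' relAll_5_5 ks6_ok F6_14077677888
    ⟨V5_9782710464_ok, V5_14077415424_ok, trivial⟩ ⟨W6_14077415424_ok, W6_14060900352_ok,
    W6_13003935744_ok, W6_13003673664_ok, W6_12987158592_ok, W6_11930193984_ok, W6_11913416832_ok,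
    W6_10856452224_ok, W6_9782710464_ok, trivial⟩ F6_14077677888_chk

theorem V6_14060904768_ok : Fwd.Has6 Inst.T 6 V6_14060904768 :=
  fwd_sound' relAll_5_5 ks6_ok F6_14060904768
    ⟨V5_12987162624_ok, trivial⟩ ⟨W6_14060900352_ok, W6_12987162624_ok, W6_12987158592_ok,
    W6_11913420864_ok, W6_11913416832_ok, W6_10839679104_ok, W6_9765937344_ok, W6_8692195584_ok,
    trivial⟩ F6_14060904768_chk

theorem V6_14060904642_ok : Fwd.Has6 Inst.T 6 V6_14060904642 :=
  fwd_sound' relAll_5_5 ks6_ok F6_14060904642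
    ⟨V5_9765937344_ok, V5_10839679104_ok, trivial⟩ ⟨W6_14060892288_ok, W6_12987154560_ok,
    W6_11913416832_ok, W6_11913412800_ok, W6_10839679104_ok, W6_9765937344_ok, trivial⟩
    F6_14060904642_chk

theorem V6_14060900610_ok : Fwd.Has6 Inst.T 6 V6_14060900610 :=
  fwd_sound' relAll_5_5 ks6_ok F6_14060900610
    ⟨V5_10839671040_ok, trivial⟩ ⟨W6_14060634240_ok, W6_12987154560_ok, W6_11913416832_ok,
    W6_11913412800_ok, W6_10839671040_ok, trivial⟩ F6_14060900610_chk

theorem V6_14060896515_ok : Fwd.Has6 Inst.T 6 V6_14060896515 :=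
  fwd_sound' relAll_5_5 ks6_ok F6_14060896515
    ⟨V5_10839671040_ok, trivial⟩ ⟨W6_14060372160_ok, W6_12986630400_ok, W6_11913412800_ok,
    W6_10839671040_ok, trivial⟩ F6_14060896515_chk

theorem V6_13089374208_ok : Fwd.Has6 Inst.T 6 V6_13089374208 :=
  fwd_sound' relAll_5_5 ks6_ok F6_13089374208
    ⟨V5_13087801344_ok, trivial⟩ ⟨W6_13087801344_ok, trivial⟩ F6_13089374208_chk

theorem V6_13089116160_ok : Fwd.Has6 Inst.T 6 V6_13089116160 :=
  fwd_sound' relAll_5_5 ks6_ok F6_13089116160
    ⟨V5_13087543296_ok, trivial⟩ ⟨W6_13087801344_ok, W6_13087543296_ok, W6_13071286272_ok,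
    W6_13071028224_ok, trivial⟩ F6_13089116160_chk

theorem V6_13088858112_ok : Fwd.Has6 Inst.T 6 V6_13088858112 :=
  fwd_sound' relAll_5_5 ks6_ok F6_13088858112
    ⟨V5_13087285248_ok, V5_13087801344_ok, V5_13087543296_ok, trivial⟩ ⟨W6_13087801344_ok,
    W6_13087543296_ok, W6_13087285248_ok, W6_13071286272_ok, W6_13071028224_ok, W6_13070770176_ok,
    W6_13054771200_ok, W6_13054513152_ok, W6_13054255104_ok, trivial⟩ F6_13088858112_chk

theorem V6_13088854080_ok : Fwd.Has6 Inst.T 6 V6_13088854080 :=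
  fwd_sound' relAll_5_5 ks6_ok F6_13088854080
    ⟨V5_13087543296_ok, trivial⟩ ⟨W6_13087543296_ok, W6_13071028224_ok, W6_13070766144_ok,
    W6_13054513152_ok, W6_13054251072_ok, trivial⟩ F6_13088854080_chk

theorem V6_13088591937_ok : Fwd.Has6 Inst.T 6 V6_13088591937 :=
  fwd_sound' relAll_5_5 ks6_ok F6_13088591937
    ⟨V5_13070766144_ok, trivial⟩ ⟨W6_13070766144_ok, W6_13054251072_ok, W6_13037736000_ok,
    trivial⟩ F6_13088591937_chk

theorem V6_13088342016_ok : Fwd.Has6 Inst.T 6 V6_13088342016 :=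
  fwd_sound' relAll_5_5 ks6_ok F6_13088342016
    ⟨V5_13087801344_ok, V5_13054771200_ok, V5_13087285248_ok, V5_13021224960_ok,
    V5_13053739008_ok, V5_13037998080_ok, V5_13087543296_ok, V5_13020708864_ok, trivial⟩ ⟨
    W6_13087801344_ok, W6_13087543296_ok, W6_13087285248_ok, W6_13071286272_ok, W6_13071028224_ok,
    W6_13070770176_ok, W6_13070512128_ok, W6_13054771200_ok, W6_13054513152_ok, W6_13054255104_ok,
    W6_13053997056_ok, W6_13053739008_ok, W6_13037998080_ok, W6_13037740032_ok, W6_13037481984_ok,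
    W6_13037223936_ok, W6_13021224960_ok, W6_13020966912_ok, W6_13020708864_ok, trivial⟩
    F6_13088342016_chk

theorem V6_13088333952_ok : Fwd.Has6 Inst.T 6 V6_13088333952 :=
  fwd_sound' relAll_5_5 ks6_ok F6_13088333952
    ⟨V5_13021224960_ok, V5_13086761088_ok, V5_13087285248_ok, V5_13053730944_ok, trivial⟩ ⟨
    W6_13087285248_ok, W6_13087023168_ok, W6_13086761088_ok, W6_13070770176_ok, W6_13070508096_ok,
    W6_13070246016_ok, W6_13054255104_ok, W6_13053993024_ok, W6_13053730944_ok, W6_13037740032_ok,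
    W6_13037477952_ok, W6_13037215872_ok, W6_13021224960_ok, W6_13020962880_ok, W6_13020700800_ok,
    trivial⟩ F6_13088333952_chk

theorem V6_13088083968_ok : Fwd.Has6 Inst.T 6 V6_13088083968 :=
  fwd_sound' relAll_5_5 ks6_ok F6_13088083968
    ⟨V5_13087801344_ok, V5_13054513152_ok, V5_13071286272_ok, trivial⟩ ⟨W6_13087801344_ok,
    W6_13087543296_ok, W6_13071286272_ok, W6_13071028224_ok, W6_13070770176_ok, W6_13054513152_ok,
    W6_13054255104_ok, W6_13053997056_ok, W6_13037740032_ok, W6_13037481984_ok, W6_13037223936_ok,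
    W6_13020966912_ok, W6_13020708864_ok, W6_13020450816_ok, W6_13004193792_ok, W6_13003935744_ok,
    trivial⟩ F6_13088083968_chk

theorem V6_13088071809_ok : Fwd.Has6 Inst.T 6 V6_13088071809 :=
  fwd_sound' relAll_5_5 ks6_ok F6_13088071809
    ⟨V5_13086761088_ok, V5_13020962880_ok, trivial⟩ ⟨W6_13087023168_ok, W6_13086761088_ok,
    W6_13070508096_ok, W6_13070246016_ok, W6_13053993024_ok, W6_13053730944_ok, W6_13037477952_ok,
    W6_13037215872_ok, W6_13020962880_ok, W6_13020700800_ok, trivial⟩ F6_13088071809_chk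

theorem V6_13087825920_ok : Fwd.Has6 Inst.T 6 V6_13087825920 :=
  fwd_sound' relAll_5_5 ks6_ok F6_13087825920
    ⟨V5_13087801344_ok, V5_12987162624_ok, V5_13071028224_ok, V5_13054255104_ok, trivial⟩ ⟨
    W6_13087801344_ok, W6_13071028224_ok, W6_13054255104_ok, W6_13037481984_ok, W6_13020708864_ok,
    W6_13003935744_ok, W6_12987162624_ok, trivial⟩ F6_13087825920_chk

theorem V6_13087821888_ok : Fwd.Has6 Inst.T 6 V6_13087821888 :=
  fwd_sound' relAll_5_5 ks6_ok F6_13087821888
    ⟨V5_13071028224_ok, V5_13020708864_ok, trivial⟩ ⟨W6_13087543296_ok, W6_13071028224_ok,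
    W6_13070770176_ok, W6_13070766144_ok, W6_13054255104_ok, W6_13054251072_ok, W6_13053997056_ok,
    W6_13053993024_ok, W6_13037481984_ok, W6_13037477952_ok, W6_13037223936_ok, W6_13037219904_ok,
    W6_13020708864_ok, W6_13020704832_ok, W6_13020450816_ok, W6_13020446784_ok, W6_13003935744_ok,
    W6_13003931712_ok, W6_13003673664_ok, W6_12987158592_ok, trivial⟩ F6_13087821888_chk

theorem V6_13087813824_ok : Fwd.Has6 Inst.T 6 V6_13087813824 :=
  fwd_sound' relAll_5_5 ks6_ok F6_13087813824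
    ⟨V5_13070512128_ok, V5_13003665600_ok, trivial⟩ ⟨W6_13070512128_ok, W6_13070250048_ok,
    W6_13053997056_ok, W6_13053734976_ok, W6_13037481984_ok, W6_13037219904_ok, W6_13036957824_ok,
    W6_13020704832_ok, W6_13020442752_ok, W6_13003927680_ok, W6_13003665600_ok, trivial⟩
    F6_13087813824_chk

theorem V6_13087809666_ok : Fwd.Has6 Inst.T 6 V6_13087809666 :=
  fwd_sound' relAll_5_5 ks6_ok F6_13087809666
    ⟨V5_13086761088_ok, V5_13020700800_ok, trivial⟩ ⟨W6_13086761088_ok, W6_13070246016_ok,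
    W6_13053730944_ok, W6_13037215872_ok, W6_13020700800_ok, trivial⟩ F6_13087809666_chk

theorem V6_13087559808_ok : Fwd.Has6 Inst.T 6 V6_13087559808 :=
  fwd_sound' relAll_5_5 ks6_ok F6_13087559808
    ⟨V5_13070770176_ok, trivial⟩ ⟨W6_13070770176_ok, W6_13053997056_ok, W6_13053993024_ok,
    W6_13037223936_ok, W6_13037219904_ok, W6_13037215872_ok, W6_13020450816_ok, W6_13020446784_ok,
    W6_13020442752_ok, W6_13003673664_ok, W6_13003669632_ok, trivial⟩ F6_13087559808_chk

theorem V6_13087555776_ok : Fwd.Has6 Inst.T 6 V6_13087555776 :=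
  fwd_sound' relAll_5_5 ks6_ok F6_13087555776
    ⟨V5_13053739008_ok, V5_13003665600_ok, V5_13037223936_ok, trivial⟩ ⟨W6_13070512128_ok,
    W6_13053997056_ok, W6_13053739008_ok, W6_13053734976_ok, W6_13037223936_ok, W6_13037219904_ok,
    W6_13036961856_ok, W6_13036957824_ok, W6_13020446784_ok, W6_13020442752_ok, W6_13020184704_ok,
    W6_13003669632_ok, W6_13003665600_ok, W6_13003407552_ok, trivial⟩ F6_13087555776_chk

theorem V6_13072343040_ok : Fwd.Has6 Inst.T 6 V6_13072343040 :=
  fwd_sound' relAll_5_5 ks6_ok F6_13072343040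
    ⟨V5_11997290496_ok, trivial⟩ ⟨W6_13071286272_ok, W6_13071028224_ok, W6_13070770176_ok,
    W6_11997548544_ok, W6_11997290496_ok, trivial⟩ F6_13072343040_chk

theorem V6_13072339008_ok : Fwd.Has6 Inst.T 6 V6_13072339008 :=
  fwd_sound' relAll_5_5 ks6_ok F6_13072339008
    ⟨V5_11997286464_ok, V5_11997548544_ok, trivial⟩ ⟨W6_13071028224_ok, W6_13070766144_ok,
    W6_11997548544_ok, W6_11997286464_ok, trivial⟩ F6_13072339008_chk

theorem V6_13072084992_ok : Fwd.Has6 Inst.T 6 V6_13072084992 :=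
  fwd_sound' relAll_5_5 ks6_ok F6_13072084992
    ⟨V5_13070512128_ok, V5_11997032448_ok, V5_11997548544_ok, V5_11981291520_ok, trivial⟩ ⟨
    W6_13071286272_ok, W6_13071028224_ok, W6_13070770176_ok, W6_13070512128_ok, W6_13054771200_ok,
    W6_13054513152_ok, W6_13054255104_ok, W6_13053997056_ok, W6_11997548544_ok, W6_11997290496_ok,
    W6_11997032448_ok, W6_11981291520_ok, W6_11981033472_ok, W6_11980775424_ok, W6_11980517376_ok,
    trivial⟩ F6_13072084992_chk

theorem V6_13072076865_ok : Fwd.Has6 Inst.T 6 V6_13072076865 :=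
  fwd_sound' relAll_5_5 ks6_ok F6_13072076865
    ⟨V5_11997286464_ok, trivial⟩ ⟨W6_13070766144_ok, W6_13054251072_ok, W6_11997286464_ok,
    W6_11980771392_ok, trivial⟩ F6_13072076865_chk

theorem V6_13071568896_ok : Fwd.Has6 Inst.T 6 V6_13071568896 :=
  fwd_sound' relAll_5_5 ks6_ok F6_13071568896
    ⟨V5_13054771200_ok, V5_13021224960_ok, V5_11997548544_ok, V5_13071028224_ok,
    V5_13071286272_ok, V5_11981033472_ok, V5_11963486208_ok, trivial⟩ ⟨W6_13071286272_ok,
    W6_13071028224_ok, W6_13070770176_ok, W6_13054771200_ok, W6_13054513152_ok, W6_13054255104_ok,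
    W6_13053997056_ok, W6_13037998080_ok, W6_13037740032_ok, W6_13037481984_ok, W6_13037223936_ok,
    W6_13021224960_ok, W6_13020966912_ok, W6_13020708864_ok, W6_13020450816_ok, W6_11997548544_ok,
    W6_11997290496_ok, W6_11997032448_ok, W6_11981033472_ok, W6_11980775424_ok, W6_11980517376_ok,
    W6_11980259328_ok, W6_11964260352_ok, W6_11964002304_ok, W6_11963744256_ok, W6_11963486208_ok,
    W6_11947487232_ok, W6_11947229184_ok, W6_11946971136_ok, trivial⟩ F6_13071568896_chk

theorem V6_13071310848_ok : Fwd.Has6 Inst.T 6 V6_13071310848 :=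
  fwd_sound' relAll_5_5 ks6_ok F6_13071310848
    ⟨V5_11997548544_ok, V5_13071286272_ok, V5_13071028224_ok, V5_11980775424_ok, trivial⟩ ⟨
    W6_13071286272_ok, W6_13071028224_ok, W6_13054513152_ok, W6_13054255104_ok, W6_13037740032_ok,
    W6_13037481984_ok, W6_13020966912_ok, W6_13020708864_ok, W6_13004193792_ok, W6_13003935744_ok,
    W6_11997548544_ok, W6_11997290496_ok, W6_11980775424_ok, W6_11980517376_ok, W6_11964002304_ok,
    W6_11963744256_ok, W6_11947229184_ok, W6_11946971136_ok, W6_11930456064_ok, W6_11930198016_ok,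
    trivial⟩ F6_13071310848_chk

theorem V6_13071294594_ok : Fwd.Has6 Inst.T 6 V6_13071294594 :=
  fwd_sound' relAll_5_5 ks6_ok F6_13071294594
    ⟨V5_13070246016_ok, V5_11947221120_ok, trivial⟩ ⟨W6_13070246016_ok, W6_13053730944_ok,
    W6_13037215872_ok, W6_13020700800_ok, W6_11980251264_ok, W6_11963736192_ok, W6_11947221120_ok,
    trivial⟩ F6_13071294594_chk

theorem V6_13070774466_ok : Fwd.Has6 Inst.T 6 V6_13070774466 :=
  fwd_sound' relAll_5_5 ks6_ok F6_13070774466
    ⟨V5_13003665600_ok, trivial⟩ ⟨W6_13036957824_ok, W6_13020442752_ok, W6_13003665600_ok,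
    W6_11979993216_ok, W6_11963478144_ok, W6_11963216064_ok, trivial⟩ F6_13070774466_chk

theorem V6_13070516418_ok : Fwd.Has6 Inst.T 6 V6_13070516418 :=
  fwd_sound' relAll_5_5 ks6_ok F6_13070516418
    ⟨V5_11946442944_ok, V5_13003407552_ok, trivial⟩ ⟨W6_13036957824_ok, W6_13020184704_ok,
    W6_13003407552_ok, W6_11979993216_ok, W6_11963220096_ok, W6_11963216064_ok, W6_11946442944_ok,
    trivial⟩ F6_13070516418_chk

theorem V6_13055311872_ok : Fwd.Has6 Inst.T 6 V6_13055311872 :=
  fwd_sound' relAll_5_5 ks6_ok F6_13055311872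
    ⟨V5_10907811840_ok, V5_13053739008_ok, V5_10906779648_ok, V5_11980259328_ok,
    V5_11981291520_ok, trivial⟩ ⟨W6_13054771200_ok, W6_13054513152_ok, W6_13054255104_ok,
    W6_13053997056_ok, W6_13053739008_ok, W6_11981291520_ok, W6_11981033472_ok, W6_11980775424_ok,
    W6_11980517376_ok, W6_11980259328_ok, W6_10907811840_ok, W6_10907553792_ok, W6_10907295744_ok,
    W6_10907037696_ok, W6_10906779648_ok, trivial⟩ F6_13055311872_chk

theorem V6_13055053824_ok : Fwd.Has6 Inst.T 6 V6_13055053824 :=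
  fwd_sound' relAll_5_5 ks6_ok F6_13055053824
    ⟨V5_13054771200_ok, V5_10906779648_ok, V5_10907295744_ok, V5_11981291520_ok,
    V5_10907553792_ok, V5_11981033472_ok, trivial⟩ ⟨W6_13054771200_ok, W6_13054513152_ok,
    W6_13054255104_ok, W6_13053997056_ok, W6_13037998080_ok, W6_13037740032_ok, W6_13037481984_ok,
    W6_13037223936_ok, W6_11981291520_ok, W6_11981033472_ok, W6_11980775424_ok, W6_11980517376_ok,
    W6_11980259328_ok, W6_11964518400_ok, W6_11964260352_ok, W6_11964002304_ok, W6_11963744256_ok,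
    W6_11963486208_ok, W6_10907553792_ok, W6_10907295744_ok, W6_10907037696_ok, W6_10906779648_ok,
    W6_10890522624_ok, W6_10890264576_ok, W6_10890006528_ok, trivial⟩ F6_13055053824_chk

theorem V6_13054779522_ok : Fwd.Has6 Inst.T 6 V6_13054779522 :=
  fwd_sound' relAll_5_5 ks6_ok F6_13054779522
    ⟨V5_10873741440_ok, V5_10906771584_ok, V5_11980251264_ok, trivial⟩ ⟨W6_13053730944_ok,
    W6_13037215872_ok, W6_13020700800_ok, W6_11980251264_ok, W6_11963736192_ok, W6_11947221120_ok,
    W6_10906771584_ok, W6_10873741440_ok, trivial⟩ F6_13054779522_chk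

theorem V6_13054537728_ok : Fwd.Has6 Inst.T 6 V6_13054537728 :=
  fwd_sound' relAll_5_5 ks6_ok F6_13054537728
    ⟨V5_13054513152_ok, trivial⟩ ⟨W6_13054513152_ok, W6_13037740032_ok, W6_13020966912_ok,
    W6_13004193792_ok, W6_11980775424_ok, W6_11964002304_ok, W6_11947229184_ok, W6_11930456064_ok,
    W6_10907037696_ok, W6_10890264576_ok, W6_10873491456_ok, trivial⟩ F6_13054537728_chk

theorem V6_13038280704_ok : Fwd.Has6 Inst.T 6 V6_13038280704 :=
  fwd_sound' relAll_5_5 ks6_ok F6_13038280704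
    ⟨V5_13037998080_ok, V5_11964518400_ok, trivial⟩ ⟨W6_13037998080_ok, W6_13037740032_ok,
    W6_13037481984_ok, W6_11964518400_ok, W6_11964260352_ok, W6_11964002304_ok, W6_11963744256_ok,
    W6_10890522624_ok, W6_10890264576_ok, W6_10890006528_ok, W6_9816526848_ok, trivial⟩
    F6_13038280704_chk

theorem V6_13038268608_ok : Fwd.Has6 Inst.T 6 V6_13038268608 :=
  fwd_sound' relAll_5_5 ks6_ok F6_13038268608
    ⟨V5_13037481984_ok, V5_9816256704_ok, trivial⟩ ⟨W6_13037481984_ok, W6_13037219904_ok,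
    W6_13036957824_ok, W6_11964002304_ok, W6_11963740224_ok, W6_11963478144_ok, W6_11963216064_ok,
    W6_10890522624_ok, W6_10890260544_ok, W6_10889998464_ok, W6_10889736384_ok, W6_9816780864_ok,
    W6_9816518784_ok, W6_9816256704_ok, trivial⟩ F6_13038268608_chk

theorem V6_13037760576_ok : Fwd.Has6 Inst.T 6 V6_13037760576 :=
  fwd_sound' relAll_5_5 ks6_ok F6_13037760576
    ⟨V5_13037736000_ok, V5_9816526848_ok, V5_11963998272_ok, trivial⟩ ⟨W6_13037740032_ok,
    W6_13037736000_ok, W6_13020966912_ok, W6_13020962880_ok, W6_13004193792_ok, W6_13004189760_ok,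
    W6_11964002304_ok, W6_11963998272_ok, W6_11947229184_ok, W6_11947225152_ok, W6_11930456064_ok,
    W6_11930452032_ok, W6_10890264576_ok, W6_10890260544_ok, W6_10873491456_ok, W6_10873487424_ok,
    W6_9816526848_ok, W6_9799749696_ok, trivial⟩ F6_13037760576_chk

theorem V6_13037482179_ok : Fwd.Has6 Inst.T 6 V6_13037482179 :=
  fwd_sound' relAll_5_5 ks6_ok F6_13037482179
    ⟨V5_9816256704_ok, trivial⟩ ⟨W6_13003665600_ok, W6_11963216064_ok, W6_11930185920_ok,
    W6_10889736384_ok, W6_9816256704_ok, trivial⟩ F6_13037482179_chk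

theorem V6_13037228352_ok : Fwd.Has6 Inst.T 6 V6_13037228352 :=
  fwd_sound' relAll_5_5 ks6_ok F6_13037228352
    ⟨V5_9816002688_ok, trivial⟩ ⟨W6_13020450816_ok, W6_13003673664_ok, W6_11963486208_ok,
    W6_11946709056_ok, W6_9816002688_ok, trivial⟩ F6_13037228352_chk

theorem V6_13021249536_ok : Fwd.Has6 Inst.T 6 V6_13021249536 :=
  fwd_sound' relAll_5_5 ks6_ok F6_13021249536
    ⟨V5_8726274048_ok, V5_13021224960_ok, trivial⟩ ⟨W6_13021224960_ok, W6_11947487232_ok,
    W6_10873749504_ok, W6_9800011776_ok, W6_8726274048_ok, trivial⟩ F6_13021249536_chk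

theorem V6_13021245504_ok : Fwd.Has6 Inst.T 6 V6_13021245504 :=
  fwd_sound' relAll_5_5 ks6_ok F6_13021245504
    ⟨V5_8726274048_ok, V5_13021224960_ok, trivial⟩ ⟨W6_13021224960_ok, W6_13020966912_ok,
    W6_13020962880_ok, W6_11947487232_ok, W6_11947483200_ok, W6_11947229184_ok, W6_11947225152_ok,
    W6_10873749504_ok, W6_10873745472_ok, W6_10873491456_ok, W6_10873487424_ok, W6_9800011776_ok,
    W6_9800007744_ok, W6_9799749696_ok, W6_8726274048_ok, trivial⟩ F6_13021245504_chk

theorem V6_13021241409_ok : Fwd.Has6 Inst.T 6 V6_13021241409 :=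
  fwd_sound' relAll_5_5 ks6_ok F6_13021241409
    ⟨V5_11947483200_ok, V5_9799491648_ok, trivial⟩ ⟨W6_13020962880_ok, W6_13020704832_ok,
    W6_11947483200_ok, W6_11947225152_ok, W6_11946967104_ok, W6_10873745472_ok, W6_10873487424_ok,
    W6_10873229376_ok, W6_9800007744_ok, W6_9799749696_ok, W6_9799491648_ok, trivial⟩
    F6_13021241409_chk

theorem V6_13021233408_ok : Fwd.Has6 Inst.T 6 V6_13021233408 :=
  fwd_sound' relAll_5_5 ks6_ok F6_13021233408
    ⟨V5_10873749504_ok, V5_8726265984_ok, V5_8725741824_ok, V5_11947229184_ok, V5_10872701184_ok,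
    V5_9800007744_ok, trivial⟩ ⟨W6_13020708864_ok, W6_13020446784_ok, W6_13020184704_ok,
    W6_11947229184_ok, W6_11946967104_ok, W6_11946705024_ok, W6_11946442944_ok, W6_10873749504_ok,
    W6_10873487424_ok, W6_10873225344_ok, W6_10872963264_ok, W6_10872701184_ok, W6_9800007744_ok,
    W6_9799745664_ok, W6_9799483584_ok, W6_8726265984_ok, W6_8725741824_ok, trivial⟩
    F6_13021233408_chk

theorem V6_13020983424_ok : Fwd.Has6 Inst.T 6 V6_13020983424 :=
  fwd_sound' relAll_5_5 ks6_ok F6_13020983424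
    ⟨V5_9799745664_ok, V5_9799749696_ok, trivial⟩ ⟨W6_13020966912_ok, W6_13020962880_ok,
    W6_13004193792_ok, W6_13004189760_ok, W6_11947229184_ok, W6_11947225152_ok, W6_11947221120_ok,
    W6_11930456064_ok, W6_11930452032_ok, W6_10873491456_ok, W6_10873487424_ok, W6_10873483392_ok,
    W6_9799749696_ok, W6_9799745664_ok, trivial⟩ F6_13020983424_chk

theorem V6_13020983361_ok : Fwd.Has6 Inst.T 6 V6_13020983361 :=
  fwd_sound' relAll_5_5 ks6_ok F6_13020983361
    ⟨V5_13020962880_ok, trivial⟩ ⟨W6_13020962880_ok, W6_13004189760_ok, W6_11947225152_ok,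
    W6_11930452032_ok, W6_10873487424_ok, W6_9799749696_ok, trivial⟩ F6_13020983361_chk

theorem V6_13004198082_ok : Fwd.Has6 Inst.T 6 V6_13004198082 :=
  fwd_sound' relAll_5_5 ks6_ok F6_13004198082
    ⟨V5_10856706240_ok, V5_9782710464_ok, trivial⟩ ⟨W6_13003927680_ok, W6_13003669632_ok,
    W6_13003665600_ok, W6_11930189952_ok, W6_11930185920_ok, W6_11929927872_ok, W6_10856706240_ok,
    W6_10856452224_ok, W6_10856448192_ok, W6_9782710464_ok, trivial⟩ F6_13004198082_chk

theorem V6_13003940034_ok : Fwd.Has6 Inst.T 6 V6_13003940034 :=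
  fwd_sound' relAll_5_5 ks6_ok F6_13003940034
    ⟨V5_9765937344_ok, V5_10839679104_ok, V5_9782710464_ok, trivial⟩ ⟨W6_13003927680_ok,
    W6_12987154560_ok, W6_11930189952_ok, W6_11930185920_ok, W6_11913416832_ok, W6_11913412800_ok,
    W6_10856452224_ok, W6_10856448192_ok, W6_10839679104_ok, W6_9782710464_ok, W6_9765937344_ok,
    trivial⟩ F6_13003940034_chk

theorem V6_12987162882_ok : Fwd.Has6 Inst.T 6 V6_12987162882 :=
  fwd_sound' relAll_5_5 ks6_ok F6_12987162882
    ⟨V5_8692195584_ok, V5_10839679104_ok, trivial⟩ ⟨W6_12987154560_ok, W6_11913416832_ok,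
    W6_11913412800_ok, W6_10839679104_ok, W6_10839671040_ok, W6_9765937344_ok, W6_8692195584_ok,
    trivial⟩ F6_12987162882_chk

theorem V6_12987154692_ok : Fwd.Has6 Inst.T 6 V6_12987154692 :=
  fwd_sound' relAll_5_5 ks6_ok F6_12987154692
    ⟨V5_10839671040_ok, trivial⟩ ⟨W6_12986630400_ok, W6_10839671040_ok, trivial⟩
    F6_12987154692_chk

theorem V6_11998605312_ok : Fwd.Has6 Inst.T 6 V6_11998605312 :=
  fwd_sound' relAll_5_5 ks6_ok F6_11998605312
    ⟨V5_11997032448_ok, trivial⟩ ⟨W6_11997548544_ok, W6_11997290496_ok, W6_11997032448_ok,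
    trivial⟩ F6_11998605312_chk

theorem V6_11998597185_ok : Fwd.Has6 Inst.T 6 V6_11998597185 :=
  fwd_sound' relAll_5_5 ks6_ok F6_11998597185
    ⟨V5_11997286464_ok, trivial⟩ ⟨W6_11997286464_ok, trivial⟩ F6_11998597185_chk

theorem V6_11998347264_ok : Fwd.Has6 Inst.T 6 V6_11998347264 :=
  fwd_sound' relAll_5_5 ks6_ok F6_11998347264
    ⟨V5_11997032448_ok, trivial⟩ ⟨W6_11997548544_ok, W6_11997290496_ok, W6_11997032448_ok,
    W6_11981291520_ok, W6_11981033472_ok, W6_11980775424_ok, W6_11980517376_ok, W6_11980259328_ok,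
    trivial⟩ F6_11998347264_chk

theorem V6_11998343232_ok : Fwd.Has6 Inst.T 6 V6_11998343232 :=
  fwd_sound' relAll_5_5 ks6_ok F6_11998343232
    ⟨V5_11996770368_ok, V5_11997286464_ok, V5_11997032448_ok, trivial⟩ ⟨W6_11997548544_ok,
    W6_11997290496_ok, W6_11997286464_ok, W6_11997032448_ok, W6_11997028416_ok, W6_11996770368_ok,
    W6_11981033472_ok, W6_11980775424_ok, W6_11980771392_ok, W6_11980517376_ok, W6_11980513344_ok,
    W6_11980255296_ok, trivial⟩ F6_11998343232_chk

theorem V6_11998339137_ok : Fwd.Has6 Inst.T 6 V6_11998339137 :=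
  fwd_sound' relAll_5_5 ks6_ok F6_11998339137
    ⟨V5_11997286464_ok, V5_11997028416_ok, trivial⟩ ⟨W6_11997286464_ok, W6_11997028416_ok,
    W6_11980771392_ok, W6_11980513344_ok, trivial⟩ F6_11998339137_chk

theorem V6_11998085184_ok : Fwd.Has6 Inst.T 6 V6_11998085184 :=
  fwd_sound' relAll_5_5 ks6_ok F6_11998085184
    ⟨V5_11997286464_ok, V5_11997548544_ok, V5_11996770368_ok, V5_11979997248_ok,
    V5_11997032448_ok, trivial⟩ ⟨W6_11997548544_ok, W6_11997290496_ok, W6_11997286464_ok,
    W6_11997032448_ok, W6_11997028416_ok, W6_11996770368_ok, W6_11981033472_ok, W6_11980775424_ok,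
    W6_11980771392_ok, W6_11980517376_ok, W6_11980513344_ok, W6_11980259328_ok, W6_11980255296_ok,
    W6_11979997248_ok, W6_11964518400_ok, W6_11964260352_ok, W6_11964256320_ok, W6_11964002304_ok,
    W6_11963998272_ok, W6_11963744256_ok, W6_11963740224_ok, W6_11963482176_ok, trivial⟩
    F6_11998085184_chk

theorem V6_11998081089_ok : Fwd.Has6 Inst.T 6 V6_11998081089 :=
  fwd_sound' relAll_5_5 ks6_ok F6_11998081089
    ⟨V5_11997286464_ok, V5_11996770368_ok, trivial⟩ ⟨W6_11997286464_ok, W6_11997028416_ok,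
    W6_11996770368_ok, W6_11980771392_ok, W6_11980513344_ok, W6_11980255296_ok, W6_11964256320_ok,
    W6_11963998272_ok, W6_11963740224_ok, trivial⟩ F6_11998081089_chk

theorem V6_11998077057_ok : Fwd.Has6 Inst.T 6 V6_11998077057 :=
  fwd_sound' relAll_5_5 ks6_ok F6_11998077057
    ⟨V5_11997028416_ok, trivial⟩ ⟨W6_11997028416_ok, W6_11980513344_ok, W6_11980251264_ok,
    W6_11963998272_ok, W6_11963736192_ok, trivial⟩ F6_11998077057_chk

theorem V6_11997819072_ok : Fwd.Has6 Inst.T 6 V6_11997819072 :=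
  fwd_sound' relAll_5_5 ks6_ok F6_11997819072
    ⟨V5_11947487232_ok, V5_11997032448_ok, V5_11996770368_ok, trivial⟩ ⟨W6_11997032448_ok,
    W6_11996770368_ok, W6_11980517376_ok, W6_11980255296_ok, W6_11979993216_ok, W6_11964002304_ok,
    W6_11963740224_ok, W6_11963478144_ok, W6_11963216064_ok, W6_11947487232_ok, W6_11947225152_ok,
    W6_11946963072_ok, trivial⟩ F6_11997819072_chk

theorem V6_11997573120_ok : Fwd.Has6 Inst.T 6 V6_11997573120 :=
  fwd_sound' relAll_5_5 ks6_ok F6_11997573120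
    ⟨V5_11997548544_ok, V5_11980775424_ok, trivial⟩ ⟨W6_11997548544_ok, W6_11980775424_ok,
    W6_11964002304_ok, W6_11947229184_ok, W6_11930456064_ok, trivial⟩ F6_11997573120_chk

theorem V6_11997569088_ok : Fwd.Has6 Inst.T 6 V6_11997569088 :=
  fwd_sound' relAll_5_5 ks6_ok F6_11997569088
    ⟨V5_11997548544_ok, V5_11997286464_ok, V5_11980775424_ok, V5_11930198016_ok, trivial⟩ ⟨
    W6_11997548544_ok, W6_11997290496_ok, W6_11997286464_ok, W6_11980775424_ok, W6_11980771392_ok,
    W6_11980517376_ok, W6_11980513344_ok, W6_11964002304_ok, W6_11963998272_ok, W6_11963744256_ok,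
    W6_11963740224_ok, W6_11947229184_ok, W6_11947225152_ok, W6_11946971136_ok, W6_11946967104_ok,
    W6_11930456064_ok, W6_11930452032_ok, W6_11930198016_ok, W6_11930193984_ok, trivial⟩
    F6_11997569088_chk

theorem V6_11997306945_ok : Fwd.Has6 Inst.T 6 V6_11997306945 :=
  fwd_sound' relAll_5_5 ks6_ok F6_11997306945
    ⟨V5_11997286464_ok, V5_11913420864_ok, V5_11930193984_ok, trivial⟩ ⟨W6_11997286464_ok,
    W6_11980513344_ok, W6_11963740224_ok, W6_11946967104_ok, W6_11930193984_ok, W6_11913420864_ok,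
    trivial⟩ F6_11997306945_chk

theorem V6_11997040833_ok : Fwd.Has6 Inst.T 6 V6_11997040833 :=
  fwd_sound' relAll_5_5 ks6_ok F6_11997040833
    ⟨V5_11929927872_ok, trivial⟩ ⟨W6_11980255296_ok, W6_11963482176_ok, W6_11963478144_ok,
    W6_11946709056_ok, W6_11946705024_ok, W6_11929927872_ok, trivial⟩ F6_11997040833_chk

theorem V6_11997036801_ok : Fwd.Has6 Inst.T 6 V6_11997036801 :=
  fwd_sound' relAll_5_5 ks6_ok F6_11997036801
    ⟨V5_11929927872_ok, trivial⟩ ⟨W6_11979997248_ok, W6_11963482176_ok, W6_11963220096_ok,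
    W6_11946705024_ok, W6_11946442944_ok, W6_11929927872_ok, trivial⟩ F6_11997036801_chk

theorem V6_11981574144_ok : Fwd.Has6 Inst.T 6 V6_11981574144 :=
  fwd_sound' relAll_5_5 ks6_ok F6_11981574144
    ⟨V5_10907811840_ok, V5_10906779648_ok, trivial⟩ ⟨W6_11981291520_ok, W6_11981033472_ok,
    W6_11980775424_ok, W6_11980517376_ok, W6_11980259328_ok, W6_10907811840_ok, W6_10907553792_ok,
    W6_10907295744_ok, W6_10907037696_ok, W6_10906779648_ok, trivial⟩ F6_11981574144_chk

theorem V6_11981561985_ok : Fwd.Has6 Inst.T 6 V6_11981561985 :=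
  fwd_sound' relAll_5_5 ks6_ok F6_11981561985
    ⟨V5_11980251264_ok, trivial⟩ ⟨W6_11980513344_ok, W6_11980251264_ok, W6_10907033664_ok,
    W6_10906771584_ok, trivial⟩ F6_11981561985_chk

theorem V6_11981058048_ok : Fwd.Has6 Inst.T 6 V6_11981058048 :=
  fwd_sound' relAll_5_5 ks6_ok F6_11981058048
    ⟨V5_10907295744_ok, V5_11981033472_ok, trivial⟩ ⟨W6_11981033472_ok, W6_11980775424_ok,
    W6_11964260352_ok, W6_11964002304_ok, W6_11947487232_ok, W6_11947229184_ok, W6_10907295744_ok,
    W6_10907037696_ok, W6_10890522624_ok, W6_10890264576_ok, W6_10873749504_ok, W6_10873491456_ok,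
    trivial⟩ F6_11981058048_chk

theorem V6_11964268800_ok : Fwd.Has6 Inst.T 6 V6_11964268800 :=
  fwd_sound' relAll_5_5 ks6_ok F6_11964268800
    ⟨V5_10873749504_ok, V5_11963744256_ok, trivial⟩ ⟨W6_11963744256_ok, W6_11963482176_ok,
    W6_11963220096_ok, W6_11947229184_ok, W6_11946967104_ok, W6_11946705024_ok, W6_11946442944_ok,
    W6_10890264576_ok, W6_10890002496_ok, W6_10889740416_ok, W6_10873749504_ok, W6_10873487424_ok,
    W6_10873225344_ok, W6_10872963264_ok, W6_10872701184_ok, W6_9800007744_ok, W6_9799745664_ok,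
    W6_9799483584_ok, trivial⟩ F6_11964268800_chk

theorem V6_11963748672_ok : Fwd.Has6 Inst.T 6 V6_11963748672 :=
  fwd_sound' relAll_5_5 ks6_ok F6_11963748672
    ⟨V5_10890006528_ok, V5_9816002688_ok, trivial⟩ ⟨W6_11963486208_ok, W6_11946971136_ok,
    W6_11946709056_ok, W6_11930193984_ok, W6_11913416832_ok, W6_10890006528_ok, W6_10873229376_ok,
    W6_10856452224_ok, W6_9816264768_ok, W6_9816002688_ok, W6_9799487616_ok, W6_9782710464_ok,
    trivial⟩ F6_11963748672_chk

theorem V6_11963486466_ok : Fwd.Has6 Inst.T 6 V6_11963486466 :=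
  fwd_sound' relAll_5_5 ks6_ok F6_11963486466
    ⟨V5_9816002688_ok, trivial⟩ ⟨W6_11946705024_ok, W6_11929927872_ok, W6_10889740416_ok,
    W6_10872963264_ok, W6_9816002688_ok, trivial⟩ F6_11963486466_chk

theorem V6_11947499712_ok : Fwd.Has6 Inst.T 6 V6_11947499712 :=
  fwd_sound' relAll_5_5 ks6_ok F6_11947499712
    ⟨V5_8726274048_ok, V5_10873233408_ok, V5_8726265984_ok, V5_8725749888_ok, V5_9800011776_ok,
    V5_9799491648_ok, trivial⟩ ⟨W6_11947487232_ok, W6_11947229184_ok, W6_11947225152_ok,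
    W6_11946971136_ok, W6_11946967104_ok, W6_11946963072_ok, W6_10873749504_ok, W6_10873745472_ok,
    W6_10873491456_ok, W6_10873487424_ok, W6_10873483392_ok, W6_10873233408_ok, W6_10873229376_ok,
    W6_10873225344_ok, W6_9800011776_ok, W6_9800007744_ok, W6_9799749696_ok, W6_9799745664_ok,
    W6_9799491648_ok, W6_9799487616_ok, W6_9799483584_ok, W6_8726274048_ok, W6_8726265984_ok,
    W6_8725749888_ok, trivial⟩ F6_11947499712_chk

theorem V6_11947495680_ok : Fwd.Has6 Inst.T 6 V6_11947495680 :=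
  fwd_sound' relAll_5_5 ks6_ok F6_11947495680
    ⟨V5_10873749504_ok, V5_8726265984_ok, V5_8725741824_ok, V5_9800007744_ok, trivial⟩ ⟨
    W6_11947229184_ok, W6_11946971136_ok, W6_11946967104_ok, W6_11946709056_ok, W6_11946705024_ok,
    W6_10873749504_ok, W6_10873491456_ok, W6_10873487424_ok, W6_10873229376_ok, W6_10873225344_ok,
    W6_10872963264_ok, W6_9800011776_ok, W6_9800007744_ok, W6_9799749696_ok, W6_9799745664_ok,
    W6_9799487616_ok, W6_9799483584_ok, W6_8726265984_ok, W6_8725741824_ok, trivial⟩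
    F6_11947495680_chk

theorem V6_11947495554_ok : Fwd.Has6 Inst.T 6 V6_11947495554 :=
  fwd_sound' relAll_5_5 ks6_ok F6_11947495554
    ⟨V5_8726265984_ok, V5_10873741440_ok, trivial⟩ ⟨W6_11947221120_ok, W6_11946963072_ok,
    W6_11946705024_ok, W6_10873741440_ok, W6_10873483392_ok, W6_10873225344_ok, W6_9799745664_ok,
    W6_9799487616_ok, W6_8726265984_ok, trivial⟩ F6_11947495554_chk

theorem V6_11947491585_ok : Fwd.Has6 Inst.T 6 V6_11947491585 :=
  fwd_sound' relAll_5_5 ks6_ok F6_11947491585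
    ⟨V5_8726265984_ok, V5_8725741824_ok, V5_10872701184_ok, V5_9800007744_ok, trivial⟩ ⟨
    W6_11946967104_ok, W6_11946705024_ok, W6_11946442944_ok, W6_10873487424_ok, W6_10873225344_ok,
    W6_10872963264_ok, W6_10872701184_ok, W6_9800007744_ok, W6_9799745664_ok, W6_9799483584_ok,
    W6_8726265984_ok, W6_8725741824_ok, trivial⟩ F6_11947491585_chk

theorem V6_11947491522_ok : Fwd.Has6 Inst.T 6 V6_11947491522 :=
  fwd_sound' relAll_5_5 ks6_ok F6_11947491522
    ⟨V5_8726265984_ok, V5_9799483584_ok, trivial⟩ ⟨W6_11946963072_ok, W6_11946705024_ok,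
    W6_11946442944_ok, W6_10873483392_ok, W6_10873225344_ok, W6_10872963264_ok, W6_9799745664_ok,
    W6_9799483584_ok, W6_8726265984_ok, trivial⟩ F6_11947491522_chk

theorem V6_11947237506_ok : Fwd.Has6 Inst.T 6 V6_11947237506 :=
  fwd_sound' relAll_5_5 ks6_ok F6_11947237506
    ⟨V5_8725749888_ok, V5_9799745664_ok, trivial⟩ ⟨W6_11947221120_ok, W6_11946963072_ok,
    W6_11930189952_ok, W6_10873483392_ok, W6_10873225344_ok, W6_10856452224_ok, W6_9799745664_ok,
    W6_9799487616_ok, W6_8725749888_ok, trivial⟩ F6_11947237506_chk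

theorem V6_11930460480_ok : Fwd.Has6 Inst.T 6 V6_11930460480 :=
  fwd_sound' relAll_5_5 ks6_ok F6_11930460480
    ⟨V5_11930456064_ok, trivial⟩ ⟨W6_11930456064_ok, W6_11930198016_ok, W6_11930193984_ok,
    W6_10856456256_ok, W6_10856452224_ok, W6_9782710464_ok, trivial⟩ F6_11930460480_chk

theorem V6_11930456259_ok : Fwd.Has6 Inst.T 6 V6_11930456259 :=
  fwd_sound' relAll_5_5 ks6_ok F6_11930456259
    ⟨V5_10856706240_ok, trivial⟩ ⟨W6_11930185920_ok, W6_11929927872_ok, W6_10856706240_ok,
    W6_10856448192_ok, W6_9782710464_ok, trivial⟩ F6_11930456259_chk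

theorem V6_11930198400_ok : Fwd.Has6 Inst.T 6 V6_11930198400 :=
  fwd_sound' relAll_5_5 ks6_ok F6_11930198400
    ⟨V5_8692195584_ok, trivial⟩ ⟨W6_11930198016_ok, W6_11913420864_ok, W6_10856456256_ok,
    W6_10839679104_ok, W6_9765937344_ok, W6_8692195584_ok, trivial⟩ F6_11930198400_chk

theorem V6_11930198274_ok : Fwd.Has6 Inst.T 6 V6_11930198274 :=
  fwd_sound' relAll_5_5 ks6_ok F6_11930198274
    ⟨V5_8692195584_ok, V5_10839671040_ok, trivial⟩ ⟨W6_11930189952_ok, W6_11913416832_ok,
    W6_11913412800_ok, W6_10856452224_ok, W6_10856448192_ok, W6_10839679104_ok, W6_10839671040_ok,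
    W6_9782710464_ok, W6_9765937344_ok, W6_8692195584_ok, trivial⟩ F6_11930198274_chk

theorem V6_11930194179_ok : Fwd.Has6 Inst.T 6 V6_11930194179 :=
  fwd_sound' relAll_5_5 ks6_ok F6_11930194179
    ⟨V5_9782710464_ok, trivial⟩ ⟨W6_11929927872_ok, W6_11913412800_ok, W6_10856448192_ok,
    W6_10839671040_ok, W6_9782710464_ok, trivial⟩ F6_11930194179_chk

theorem V6_11913421122_ok : Fwd.Has6 Inst.T 6 V6_11913421122 :=
  fwd_sound' relAll_5_5 ks6_ok F6_11913421122
    ⟨V5_8692195584_ok, trivial⟩ ⟨W6_11913416832_ok, W6_10839679104_ok, W6_9765937344_ok,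
    W6_8692195584_ok, trivial⟩ F6_11913421122_chk

theorem V6_10907832384_ok : Fwd.Has6 Inst.T 6 V6_10907832384 :=
  fwd_sound' relAll_5_5 ks6_ok F6_10907832384
    ⟨V5_10907553792_ok, V5_10906517568_ok, trivial⟩ ⟨W6_10907553792_ok, W6_10907295744_ok,
    W6_10907037696_ok, W6_10907033664_ok, W6_10906779648_ok, W6_10906775616_ok, W6_10906517568_ok,
    trivial⟩ F6_10907832384_chk

theorem V6_10907828352_ok : Fwd.Has6 Inst.T 6 V6_10907828352 :=
  fwd_sound' relAll_5_5 ks6_ok F6_10907828352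
    ⟨V5_10906255488_ok, V5_10906771584_ok, V5_10906517568_ok, trivial⟩ ⟨W6_10907295744_ok,
    W6_10907037696_ok, W6_10907033664_ok, W6_10906779648_ok, W6_10906775616_ok, W6_10906771584_ok,
    W6_10906517568_ok, W6_10906255488_ok, trivial⟩ F6_10907828352_chk

theorem V6_10907820162_ok : Fwd.Has6 Inst.T 6 V6_10907820162 :=
  fwd_sound' relAll_5_5 ks6_ok F6_10907820162
    ⟨V5_10906771584_ok, trivial⟩ ⟨W6_10906771584_ok, trivial⟩ F6_10907820162_chk

theorem V6_10907578368_ok : Fwd.Has6 Inst.T 6 V6_10907578368 :=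
  fwd_sound' relAll_5_5 ks6_ok F6_10907578368
    ⟨V5_10907553792_ok, trivial⟩ ⟨W6_10907553792_ok, W6_10907295744_ok, W6_10907037696_ok,
    W6_10890522624_ok, W6_10890264576_ok, trivial⟩ F6_10907578368_chk

theorem V6_10907566272_ok : Fwd.Has6 Inst.T 6 V6_10907566272 :=
  fwd_sound' relAll_5_5 ks6_ok F6_10907566272
    ⟨V5_10906255488_ok, V5_10906779648_ok, trivial⟩ ⟨W6_10907037696_ok, W6_10906779648_ok,
    W6_10906775616_ok, W6_10906517568_ok, W6_10906255488_ok, W6_10890522624_ok, W6_10890264576_ok,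
    W6_10890260544_ok, W6_10890002496_ok, W6_10889998464_ok, W6_10889740416_ok, W6_10889736384_ok,
    trivial⟩ F6_10907566272_chk

theorem V6_10907566209_ok : Fwd.Has6 Inst.T 6 V6_10907566209 :=
  fwd_sound' relAll_5_5 ks6_ok F6_10907566209
    ⟨V5_10906255488_ok, V5_10906771584_ok, trivial⟩ ⟨W6_10907033664_ok, W6_10906775616_ok,
    W6_10906771584_ok, W6_10906517568_ok, W6_10906255488_ok, W6_10890518592_ok, W6_10890260544_ok,
    W6_10890002496_ok, W6_10889998464_ok, W6_10889740416_ok, trivial⟩ F6_10907566209_chk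

theorem V6_10907562177_ok : Fwd.Has6 Inst.T 6 V6_10907562177 :=
  fwd_sound' relAll_5_5 ks6_ok F6_10907562177
    ⟨V5_10889736384_ok, trivial⟩ ⟨W6_10906775616_ok, W6_10890260544_ok, W6_10889998464_ok,
    W6_10889736384_ok, trivial⟩ F6_10907562177_chk

theorem V6_10907320320_ok : Fwd.Has6 Inst.T 6 V6_10907320320 :=
  fwd_sound' relAll_5_5 ks6_ok F6_10907320320
    ⟨V5_10907295744_ok, trivial⟩ ⟨W6_10907295744_ok, W6_10890522624_ok, W6_10873749504_ok,
    trivial⟩ F6_10907320320_chk

theorem V6_10907316288_ok : Fwd.Has6 Inst.T 6 V6_10907316288 :=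
  fwd_sound' relAll_5_5 ks6_ok F6_10907316288
    ⟨V5_10907295744_ok, trivial⟩ ⟨W6_10907295744_ok, W6_10907037696_ok, W6_10907033664_ok,
    W6_10890522624_ok, W6_10890518592_ok, W6_10890264576_ok, W6_10890260544_ok, W6_10873749504_ok,
    W6_10873745472_ok, W6_10873491456_ok, W6_10873487424_ok, trivial⟩ F6_10907316288_chk

theorem V6_10907312256_ok : Fwd.Has6 Inst.T 6 V6_10907312256 :=
  fwd_sound' relAll_5_5 ks6_ok F6_10907312256
    ⟨V5_10907295744_ok, V5_10873741440_ok, V5_10873233408_ok, V5_10906771584_ok, trivial⟩ ⟨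
    W6_10907295744_ok, W6_10907037696_ok, W6_10907033664_ok, W6_10906779648_ok, W6_10906775616_ok,
    W6_10906771584_ok, W6_10890522624_ok, W6_10890518592_ok, W6_10890264576_ok, W6_10890260544_ok,
    W6_10890006528_ok, W6_10890002496_ok, W6_10889998464_ok, W6_10873749504_ok, W6_10873745472_ok,
    W6_10873741440_ok, W6_10873491456_ok, W6_10873487424_ok, W6_10873483392_ok, W6_10873233408_ok,
    W6_10873229376_ok, W6_10873225344_ok, trivial⟩ F6_10907312256_chk

theorem V6_10907308161_ok : Fwd.Has6 Inst.T 6 V6_10907308161 :=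
  fwd_sound' relAll_5_5 ks6_ok F6_10907308161
    ⟨V5_10873741440_ok, V5_10906771584_ok, trivial⟩ ⟨W6_10907033664_ok, W6_10906775616_ok,
    W6_10906771584_ok, W6_10906517568_ok, W6_10890518592_ok, W6_10890260544_ok, W6_10890002496_ok,
    W6_10889998464_ok, W6_10889740416_ok, W6_10873745472_ok, W6_10873741440_ok, W6_10873487424_ok,
    W6_10873483392_ok, W6_10873229376_ok, W6_10873225344_ok, trivial⟩ F6_10907308161_chk

theorem V6_10907304192_ok : Fwd.Has6 Inst.T 6 V6_10907304192 :=
  fwd_sound' relAll_5_5 ks6_ok F6_10907304192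
    ⟨V5_10906779648_ok, V5_10906255488_ok, trivial⟩ ⟨W6_10906779648_ok, W6_10906517568_ok,
    W6_10906255488_ok, W6_10890264576_ok, W6_10890002496_ok, W6_10889740416_ok, W6_10873749504_ok,
    W6_10873487424_ok, W6_10873225344_ok, W6_10872963264_ok, W6_10872701184_ok, trivial⟩
    F6_10907304192_chk

theorem V6_10907304066_ok : Fwd.Has6 Inst.T 6 V6_10907304066 :=
  fwd_sound' relAll_5_5 ks6_ok F6_10907304066
    ⟨V5_10906255488_ok, V5_10906771584_ok, trivial⟩ ⟨W6_10906771584_ok, W6_10906255488_ok,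
    W6_10889998464_ok, W6_10889740416_ok, W6_10873741440_ok, W6_10873483392_ok, W6_10873225344_ok,
    trivial⟩ F6_10907304066_chk

theorem V6_10907046018_ok : Fwd.Has6 Inst.T 6 V6_10907046018 :=
  fwd_sound' relAll_5_5 ks6_ok F6_10907046018
    ⟨V5_10906771584_ok, trivial⟩ ⟨W6_10906771584_ok, W6_10889998464_ok, W6_10889740416_ok,
    W6_10873483392_ok, W6_10873225344_ok, W6_10856452224_ok, trivial⟩ F6_10907046018_chk

theorem V6_10907042049_ok : Fwd.Has6 Inst.T 6 V6_10907042049 :=
  fwd_sound' relAll_5_5 ks6_ok F6_10907042049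
    ⟨V5_10906255488_ok, V5_10872701184_ok, trivial⟩ ⟨W6_10906517568_ok, W6_10906255488_ok,
    W6_10890002496_ok, W6_10889740416_ok, W6_10873487424_ok, W6_10873225344_ok, W6_10872963264_ok,
    W6_10872701184_ok, W6_10856448192_ok, trivial⟩ F6_10907042049_chk

theorem V6_10907041986_ok : Fwd.Has6 Inst.T 6 V6_10907041986 :=
  fwd_sound' relAll_5_5 ks6_ok F6_10907041986
    ⟨V5_10906255488_ok, trivial⟩ ⟨W6_10906255488_ok, W6_10889998464_ok, W6_10889740416_ok,
    W6_10889736384_ok, W6_10873483392_ok, W6_10873225344_ok, W6_10872963264_ok, W6_10856706240_ok,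
    W6_10856448192_ok, trivial⟩ F6_10907041986_chk

theorem V6_10907037891_ok : Fwd.Has6 Inst.T 6 V6_10907037891 :=
  fwd_sound' relAll_5_5 ks6_ok F6_10907037891
    ⟨V5_10856706240_ok, trivial⟩ ⟨W6_10889736384_ok, W6_10856706240_ok, trivial⟩
    F6_10907037891_chk

theorem V6_10890801216_ok : Fwd.Has6 Inst.T 6 V6_10890801216 :=
  fwd_sound' relAll_5_5 ks6_ok F6_10890801216
    ⟨V5_9816780864_ok, trivial⟩ ⟨W6_10890522624_ok, W6_10890518592_ok, W6_10890264576_ok,
    W6_10890260544_ok, W6_9816780864_ok, W6_9816526848_ok, trivial⟩ F6_10890801216_chk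

theorem V6_10890539073_ok : Fwd.Has6 Inst.T 6 V6_10890539073 :=
  fwd_sound' relAll_5_5 ks6_ok F6_10890539073
    ⟨V5_9816780864_ok, trivial⟩ ⟨W6_10890518592_ok, W6_10890260544_ok, W6_10873745472_ok,
    W6_10873487424_ok, W6_9816780864_ok, W6_9800007744_ok, W6_9799749696_ok, trivial⟩
    F6_10890539073_chk

theorem V6_10890526977_ok : Fwd.Has6 Inst.T 6 V6_10890526977 :=
  fwd_sound' relAll_5_5 ks6_ok F6_10890526977
    ⟨V5_10872701184_ok, V5_9800007744_ok, trivial⟩ ⟨W6_10890002496_ok, W6_10889740416_ok,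
    W6_10873487424_ok, W6_10873225344_ok, W6_10872963264_ok, W6_10872701184_ok, W6_9800007744_ok,
    W6_9799745664_ok, W6_9799483584_ok, trivial⟩ F6_10890526977_chk

theorem V6_10890010944_ok : Fwd.Has6 Inst.T 6 V6_10890010944 :=
  fwd_sound' relAll_5_5 ks6_ok F6_10890010944
    ⟨V5_10873233408_ok, trivial⟩ ⟨W6_10890006528_ok, W6_10873233408_ok, W6_10873229376_ok,
    W6_10856456256_ok, W6_10856452224_ok, W6_10839679104_ok, W6_9816264768_ok, W6_9799491648_ok,
    W6_9799487616_ok, W6_9782710464_ok, W6_9765937344_ok, trivial⟩ F6_10890010944_chk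

theorem V6_10890006849_ok : Fwd.Has6 Inst.T 6 V6_10890006849 :=
  fwd_sound' relAll_5_5 ks6_ok F6_10890006849
    ⟨V5_9816002688_ok, trivial⟩ ⟨W6_10873229376_ok, W6_10856452224_ok, W6_9816264768_ok,
    W6_9816002688_ok, W6_9799487616_ok, W6_9782710464_ok, trivial⟩ F6_10890006849_chk

theorem V6_10873761984_ok : Fwd.Has6 Inst.T 6 V6_10873761984 :=
  fwd_sound' relAll_5_5 ks6_ok F6_10873761984
    ⟨V5_8726274048_ok, V5_8726265984_ok, trivial⟩ ⟨W6_10873749504_ok, W6_10873745472_ok,
    W6_10873491456_ok, W6_10873487424_ok, W6_10873483392_ok, W6_9800011776_ok, W6_9800007744_ok,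
    W6_9799749696_ok, W6_9799745664_ok, W6_8726274048_ok, W6_8726265984_ok, trivial⟩
    F6_10873761984_chk

theorem V6_10873757952_ok : Fwd.Has6 Inst.T 6 V6_10873757952 :=
  fwd_sound' relAll_5_5 ks6_ok F6_10873757952
    ⟨V5_8726274048_ok, V5_10873233408_ok, V5_8725741824_ok, V5_8726265984_ok, trivial⟩ ⟨
    W6_10873749504_ok, W6_10873491456_ok, W6_10873487424_ok, W6_10873233408_ok, W6_10873229376_ok,
    W6_10873225344_ok, W6_9800011776_ok, W6_9800007744_ok, W6_9799749696_ok, W6_9799745664_ok,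
    W6_9799491648_ok, W6_9799487616_ok, W6_9799483584_ok, W6_8726274048_ok, W6_8726265984_ok,
    W6_8725749888_ok, W6_8725741824_ok, trivial⟩ F6_10873757952_chk

theorem V6_10873753857_ok : Fwd.Has6 Inst.T 6 V6_10873753857 :=
  fwd_sound' relAll_5_5 ks6_ok F6_10873753857
    ⟨V5_8726265984_ok, V5_8725741824_ok, V5_9800007744_ok, trivial⟩ ⟨W6_10873487424_ok,
    W6_10873229376_ok, W6_10873225344_ok, W6_10872963264_ok, W6_9800007744_ok, W6_9799749696_ok,
    W6_9799745664_ok, W6_9799487616_ok, W6_9799483584_ok, W6_8726265984_ok, W6_8725741824_ok,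
    trivial⟩ F6_10873753857_chk

theorem V6_10873753794_ok : Fwd.Has6 Inst.T 6 V6_10873753794 :=
  fwd_sound' relAll_5_5 ks6_ok F6_10873753794
    ⟨V5_8726265984_ok, trivial⟩ ⟨W6_10873483392_ok, W6_10873225344_ok, W6_10872963264_ok,
    W6_9799745664_ok, W6_9799487616_ok, W6_9799483584_ok, W6_8726265984_ok, trivial⟩
    F6_10873753794_chk

theorem V6_10873499841_ok : Fwd.Has6 Inst.T 6 V6_10873499841 :=
  fwd_sound' relAll_5_5 ks6_ok F6_10873499841
    ⟨V5_10856706240_ok, trivial⟩ ⟨W6_10873487424_ok, W6_10873483392_ok, W6_10856706240_ok,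
    W6_9799749696_ok, W6_9799745664_ok, trivial⟩ F6_10873499841_chk

theorem V6_10873233792_ok : Fwd.Has6 Inst.T 6 V6_10873233792 :=
  fwd_sound' relAll_5_5 ks6_ok F6_10873233792
    ⟨V5_10873233408_ok, trivial⟩ ⟨W6_10873233408_ok, W6_10856456256_ok, W6_10839679104_ok,
    W6_9799491648_ok, W6_9765937344_ok, W6_8725749888_ok, W6_8692195584_ok, trivial⟩
    F6_10873233792_chk

theorem V6_10873233729_ok : Fwd.Has6 Inst.T 6 V6_10873233729 :=
  fwd_sound' relAll_5_5 ks6_ok F6_10873233729
    ⟨V5_8692195584_ok, V5_8725749888_ok, trivial⟩ ⟨W6_10873229376_ok, W6_10856456256_ok,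
    W6_10856452224_ok, W6_10839679104_ok, W6_9799491648_ok, W6_9799487616_ok, W6_9782710464_ok,
    W6_9765937344_ok, W6_8725749888_ok, W6_8692195584_ok, trivial⟩ F6_10873233729_chk

theorem V6_10873225476_ok : Fwd.Has6 Inst.T 6 V6_10873225476 :=
  fwd_sound' relAll_5_5 ks6_ok F6_10873225476
    ⟨V5_8725741824_ok, trivial⟩ ⟨W6_10872701184_ok, W6_10839671040_ok, W6_8725741824_ok, trivial⟩
    F6_10873225476_chk

theorem V6_10856456451_ok : Fwd.Has6 Inst.T 6 V6_10856456451 :=
  fwd_sound' relAll_5_5 ks6_ok F6_10856456451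
    ⟨V5_8692195584_ok, trivial⟩ ⟨W6_10856448192_ok, W6_10839671040_ok, W6_9782710464_ok,
    W6_9765937344_ok, W6_8692195584_ok, trivial⟩ F6_10856456451_chk

theorem V6_10839679236_ok : Fwd.Has6 Inst.T 6 V6_10839679236 :=
  fwd_sound' relAll_5_5 ks6_ok F6_10839679236
    ⟨V5_8692195584_ok, trivial⟩ ⟨W6_10839671040_ok, W6_8692195584_ok, trivial⟩ F6_10839679236_chk

theorem V6_9817055424_ok : Fwd.Has6 Inst.T 6 V6_9817055424 :=
  fwd_sound' relAll_5_5 ks6_ok F6_9817055424
    ⟨V5_9816256704_ok, trivial⟩ ⟨W6_9816780864_ok, W6_9816526848_ok, W6_9816518784_ok,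
    W6_9816264768_ok, W6_9816256704_ok, trivial⟩ F6_9817055424_chk

theorem V6_9817051329_ok : Fwd.Has6 Inst.T 6 V6_9817051329 :=
  fwd_sound' relAll_5_5 ks6_ok F6_9817051329
    ⟨V5_9816002688_ok, trivial⟩ ⟨W6_9816780864_ok, W6_9816518784_ok, W6_9816264768_ok,
    W6_9816256704_ok, W6_9816002688_ok, trivial⟩ F6_9817051329_chk

theorem V6_9817051266_ok : Fwd.Has6 Inst.T 6 V6_9817051266 :=
  fwd_sound' relAll_5_5 ks6_ok F6_9817051266
    ⟨V5_9816002688_ok, trivial⟩ ⟨W6_9816518784_ok, W6_9816002688_ok, trivial⟩ F6_9817051266_chk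

theorem V6_9816793344_ok : Fwd.Has6 Inst.T 6 V6_9816793344 :=
  fwd_sound' relAll_5_5 ks6_ok F6_9816793344
    ⟨V5_9816526848_ok, trivial⟩ ⟨W6_9816526848_ok, W6_9816264768_ok, W6_9800011776_ok,
    W6_9800007744_ok, W6_9799749696_ok, W6_9799745664_ok, W6_9799491648_ok, W6_9799487616_ok,
    W6_9799483584_ok, trivial⟩ F6_9816793344_chk

theorem V6_9816789312_ok : Fwd.Has6 Inst.T 6 V6_9816789312 :=
  fwd_sound' relAll_5_5 ks6_ok F6_9816789312
    ⟨V5_9800011776_ok, V5_9816526848_ok, trivial⟩ ⟨W6_9816526848_ok, W6_9816264768_ok,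
    W6_9816002688_ok, W6_9800011776_ok, W6_9799749696_ok, W6_9799487616_ok, trivial⟩
    F6_9816789312_chk

theorem V6_9816785091_ok : Fwd.Has6 Inst.T 6 V6_9816785091 :=
  fwd_sound' relAll_5_5 ks6_ok F6_9816785091
    ⟨V5_9816256704_ok, trivial⟩ ⟨W6_9816256704_ok, W6_9799483584_ok, trivial⟩ F6_9816785091_chk

theorem V6_9800024256_ok : Fwd.Has6 Inst.T 6 V6_9800024256 :=
  fwd_sound' relAll_5_5 ks6_ok F6_9800024256
    ⟨V5_8726274048_ok, trivial⟩ ⟨W6_9800011776_ok, W6_9800007744_ok, W6_8726274048_ok,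
    W6_8726265984_ok, trivial⟩ F6_9800024256_chk

theorem V6_9800016192_ok : Fwd.Has6 Inst.T 6 V6_9800016192 :=
  fwd_sound' relAll_5_5 ks6_ok F6_9800016192
    ⟨V5_8726274048_ok, trivial⟩ ⟨W6_9800011776_ok, W6_9799749696_ok, W6_9799491648_ok,
    W6_9799487616_ok, W6_8726274048_ok, W6_8725749888_ok, trivial⟩ F6_9800016192_chk

theorem V6_9799753986_ok : Fwd.Has6 Inst.T 6 V6_9799753986 :=
  fwd_sound' relAll_5_5 ks6_ok F6_9799753986
    ⟨V5_8725741824_ok, trivial⟩ ⟨W6_9799745664_ok, W6_9799487616_ok, W6_9799483584_ok,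
    W6_9782710464_ok, W6_8725749888_ok, W6_8725741824_ok, trivial⟩ F6_9799753986_chk

theorem V6_9765937539_ok : Fwd.Has6 Inst.T 6 V6_9765937539 :=
  fwd_sound' relAll_5_5 ks6_ok F6_9765937539
    ⟨V5_6544712064_ok, trivial⟩ ⟨W6_9765937344_ok, W6_8692195584_ok, W6_6544712064_ok, trivial⟩
    F6_9765937539_chk

theorem V6_8726282496_ok : Fwd.Has6 Inst.T 6 V6_8726282496 :=
  fwd_sound' relAll_5_5 ks6_ok F6_8726282496
    ⟨V5_8726274048_ok, trivial⟩ ⟨W6_8726274048_ok, W6_8726265984_ok, trivial⟩ F6_8726282496_chk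

theorem V6_8726274432_ok : Fwd.Has6 Inst.T 6 V6_8726274432 :=
  fwd_sound' relAll_5_5 ks6_ok F6_8726274432
    ⟨V5_8726274048_ok, trivial⟩ ⟨W6_8726274048_ok, W6_8725749888_ok, trivial⟩ F6_8726274432_chk

theorem V6_8692195716_ok : Fwd.Has6 Inst.T 6 V6_8692195716 :=
  fwd_sound' relAll_5_5 ks6_ok F6_8692195716
    ⟨V5_6544712064_ok, trivial⟩ ⟨W6_8692195584_ok, W6_6544712064_ok, trivial⟩ F6_8692195716_chk

theorem V6_6544712070_ok : Fwd.Has6 Inst.T 6 V6_6544712070 :=
  fwd_sound' relAll_5_5 ks6_ok F6_6544712070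
    ⟨V5_6544712064_ok, trivial⟩ ⟨W6_6544712064_ok, trivial⟩ F6_6544712070_chk

end Crest.Agent.R187.SN.Top
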