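import Crest.Agent.R187.SN.WOk
import Crest.Agent.R187.SN.KDec
import Crest.Agent.R187.SN.KE.B56
import Crest.Agent.R187.SN.KD.L_5_6
import Crest.Agent.R187.SN.KD.L_5_7
import Crest.Agent.R187.SN.TD.W7_1

/-!
# Row 187, PLAN S, block E4: kernel checks of the `W` tables (W7_1)
-/

set_option autoImplicit false
set_option Elab.async false

namespace Crest.Agent.R187.SN.Top

open Crest.Agent.R187.SN.KD Crest.Agent.R187.SN.KE Crest.Agent.R187.SN.KDec Crest.Agent.R187.SN.WOk

theorem W_15185485952_chk : wChk (nbDec bN_5_6) 30 ix_5_6 ix_5_7 W_15185485952 = true := by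
  decide +kernel

theorem W_15185489984_chk : wChk (nbDec bN_5_6) 30 ix_5_6 ix_5_7 W_15185489984 = true := by
  decide +kernel

theorem W_15185494016_chk : wChk (nbDec bN_5_6) 30 ix_5_6 ix_5_7 W_15185494016 = true := by
  decide +kernel

theorem W_15185748032_chk : wChk (nbDec bN_5_6) 30 ix_5_6 ix_5_7 W_15185748032 = true := by
  decide +kernel

theorem W_15185752064_chk : wChk (nbDec bN_5_6) 30 ix_5_6 ix_5_7 W_15185752064 = true := by
  decide +kernel

theorem W_15201222848_chk : wChk (nbDec bN_5_6) 30 ix_5_6 ix_5_7 W_15201222848 = true := by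
  decide +kernel

theorem W_15201480896_chk : wChk (nbDec bN_5_6) 30 ix_5_6 ix_5_7 W_15201480896 = true := by
  decide +kernel

theorem W_15201484928_chk : wChk (nbDec bN_5_6) 30 ix_5_6 ix_5_7 W_15201484928 = true := by
  decide +kernel

theorem W_15201488960_chk : wChk (nbDec bN_5_6) 30 ix_5_6 ix_5_7 W_15201488960 = true := by
  decide +kernel

theorem W_15201747008_chk : wChk (nbDec bN_5_6) 30 ix_5_6 ix_5_7 W_15201747008 = true := by
  decide +kernel

theorem W_15202001024_chk : wChk (nbDec bN_5_6) 30 ix_5_6 ix_5_7 W_15202001024 = true := by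
  decide +kernel

theorem W_15202009088_chk : wChk (nbDec bN_5_6) 30 ix_5_6 ix_5_7 W_15202009088 = true := by
  decide +kernel

theorem W_15202521152_chk : wChk (nbDec bN_5_6) 30 ix_5_6 ix_5_7 W_15202521152 = true := by
  decide +kernel

theorem W_15202525184_chk : wChk (nbDec bN_5_6) 30 ix_5_6 ix_5_7 W_15202525184 = true := by
  decide +kernel

theorem W_15202783232_chk : wChk (nbDec bN_5_6) 30 ix_5_6 ix_5_7 W_15202783232 = true := by
  decide +kernel

theorem W_15217995968_chk : wChk (nbDec bN_5_6) 30 ix_5_6 ix_5_7 W_15217995968 = true := by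
  decide +kernel

theorem W_15218000000_chk : wChk (nbDec bN_5_6) 30 ix_5_6 ix_5_7 W_15218000000 = true := by
  decide +kernel

theorem W_15218258048_chk : wChk (nbDec bN_5_6) 30 ix_5_6 ix_5_7 W_15218258048 = true := by
  decide +kernel

theorem W_15218262080_chk : wChk (nbDec bN_5_6) 30 ix_5_6 ix_5_7 W_15218262080 = true := by
  decide +kernel

theorem W_15218266112_chk : wChk (nbDec bN_5_6) 30 ix_5_6 ix_5_7 W_15218266112 = true := by
  decide +kernel

theorem W_15218516096_chk : wChk (nbDec bN_5_6) 30 ix_5_6 ix_5_7 W_15218516096 = true := by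
  decide +kernel

theorem W_15218524160_chk : wChk (nbDec bN_5_6) 30 ix_5_6 ix_5_7 W_15218524160 = true := by
  decide +kernel

theorem W_15219036224_chk : wChk (nbDec bN_5_6) 30 ix_5_6 ix_5_7 W_15219036224 = true := by
  decide +kernel

theorem W_15219298304_chk : wChk (nbDec bN_5_6) 30 ix_5_6 ix_5_7 W_15219298304 = true := by
  decide +kernel

theorem W_15219556352_chk : wChk (nbDec bN_5_6) 30 ix_5_6 ix_5_7 W_15219556352 = true := by
  decide +kernel

theorem W_15234773120_chk : wChk (nbDec bN_5_6) 30 ix_5_6 ix_5_7 W_15234773120 = true := by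
  decide +kernel

theorem W_15234777152_chk : wChk (nbDec bN_5_6) 30 ix_5_6 ix_5_7 W_15234777152 = true := by
  decide +kernel

theorem W_15235035200_chk : wChk (nbDec bN_5_6) 30 ix_5_6 ix_5_7 W_15235035200 = true := by
  decide +kernel

theorem W_15235039232_chk : wChk (nbDec bN_5_6) 30 ix_5_6 ix_5_7 W_15235039232 = true := by
  decide +kernel

theorem W_15235297280_chk : wChk (nbDec bN_5_6) 30 ix_5_6 ix_5_7 W_15235297280 = true := by
  decide +kernel

theorem W_15235551296_chk : wChk (nbDec bN_5_6) 30 ix_5_6 ix_5_7 W_15235551296 = true := by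
  decide +kernel

theorem W_15236071424_chk : wChk (nbDec bN_5_6) 30 ix_5_6 ix_5_7 W_15236071424 = true := by
  decide +kernel

theorem W_15251546240_chk : wChk (nbDec bN_5_6) 30 ix_5_6 ix_5_7 W_15251546240 = true := by
  decide +kernel

theorem W_15251550272_chk : wChk (nbDec bN_5_6) 30 ix_5_6 ix_5_7 W_15251550272 = true := by
  decide +kernel

theorem W_15251554304_chk : wChk (nbDec bN_5_6) 30 ix_5_6 ix_5_7 W_15251554304 = true := by
  decide +kernel

theorem W_15251808320_chk : wChk (nbDec bN_5_6) 30 ix_5_6 ix_5_7 W_15251808320 = true := by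
  decide +kernel

theorem W_15251812352_chk : wChk (nbDec bN_5_6) 30 ix_5_6 ix_5_7 W_15251812352 = true := by
  decide +kernel

theorem W_15252586496_chk : wChk (nbDec bN_5_6) 30 ix_5_6 ix_5_7 W_15252586496 = true := by
  decide +kernel

theorem W_15268061312_chk : wChk (nbDec bN_5_6) 30 ix_5_6 ix_5_7 W_15268061312 = true := by
  decide +kernel

theorem W_15268323392_chk : wChk (nbDec bN_5_6) 30 ix_5_6 ix_5_7 W_15268323392 = true := by
  decide +kernel

theorem W_15268327424_chk : wChk (nbDec bN_5_6) 30 ix_5_6 ix_5_7 W_15268327424 = true := by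
  decide +kernel

theorem W_15268581440_chk : wChk (nbDec bN_5_6) 30 ix_5_6 ix_5_7 W_15268581440 = true := by
  decide +kernel

theorem W_15268585472_chk : wChk (nbDec bN_5_6) 30 ix_5_6 ix_5_7 W_15268585472 = true := by
  decide +kernel

theorem W_15268843520_chk : wChk (nbDec bN_5_6) 30 ix_5_6 ix_5_7 W_15268843520 = true := by
  decide +kernel

theorem W_15269101568_chk : wChk (nbDec bN_5_6) 30 ix_5_6 ix_5_7 W_15269101568 = true := by
  decide +kernel

theorem W_16208380160_chk : wChk (nbDec bN_5_6) 30 ix_5_6 ix_5_7 W_16208380160 = true := by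
  decide +kernel

theorem W_16208388224_chk : wChk (nbDec bN_5_6) 30 ix_5_6 ix_5_7 W_16208388224 = true := by
  decide +kernel

theorem W_16225157312_chk : wChk (nbDec bN_5_6) 30 ix_5_6 ix_5_7 W_16225157312 = true := by
  decide +kernel

theorem W_16225161344_chk : wChk (nbDec bN_5_6) 30 ix_5_6 ix_5_7 W_16225161344 = true := by
  decide +kernel

theorem W_16225165376_chk : wChk (nbDec bN_5_6) 30 ix_5_6 ix_5_7 W_16225165376 = true := by
  decide +kernel

theorem W_16225415360_chk : wChk (nbDec bN_5_6) 30 ix_5_6 ix_5_7 W_16225415360 = true := by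
  decide +kernel

theorem W_16225419392_chk : wChk (nbDec bN_5_6) 30 ix_5_6 ix_5_7 W_16225419392 = true := by
  decide +kernel

theorem W_16225423424_chk : wChk (nbDec bN_5_6) 30 ix_5_6 ix_5_7 W_16225423424 = true := by
  decide +kernel

theorem W_16225427456_chk : wChk (nbDec bN_5_6) 30 ix_5_6 ix_5_7 W_16225427456 = true := by
  decide +kernel

theorem W_16241410304_chk : wChk (nbDec bN_5_6) 30 ix_5_6 ix_5_7 W_16241410304 = true := by
  decide +kernel

theorem W_16241672384_chk : wChk (nbDec bN_5_6) 30 ix_5_6 ix_5_7 W_16241672384 = true := by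
  decide +kernel

theorem W_16241676416_chk : wChk (nbDec bN_5_6) 30 ix_5_6 ix_5_7 W_16241676416 = true := by
  decide +kernel

theorem W_16241930432_chk : wChk (nbDec bN_5_6) 30 ix_5_6 ix_5_7 W_16241930432 = true := by
  decide +kernel

theorem W_16241934464_chk : wChk (nbDec bN_5_6) 30 ix_5_6 ix_5_7 W_16241934464 = true := by
  decide +kernel

theorem W_16242192512_chk : wChk (nbDec bN_5_6) 30 ix_5_6 ix_5_7 W_16242192512 = true := by
  decide +kernel

theorem W_16242196544_chk : wChk (nbDec bN_5_6) 30 ix_5_6 ix_5_7 W_16242196544 = true := by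
  decide +kernel

theorem W_16242450560_chk : wChk (nbDec bN_5_6) 30 ix_5_6 ix_5_7 W_16242450560 = true := by
  decide +kernel

theorem W_16242454592_chk : wChk (nbDec bN_5_6) 30 ix_5_6 ix_5_7 W_16242454592 = true := by
  decide +kernel

theorem W_16242458624_chk : wChk (nbDec bN_5_6) 30 ix_5_6 ix_5_7 W_16242458624 = true := by
  decide +kernel

theorem W_16258187456_chk : wChk (nbDec bN_5_6) 30 ix_5_6 ix_5_7 W_16258187456 = true := by
  decide +kernel

theorem W_16258445504_chk : wChk (nbDec bN_5_6) 30 ix_5_6 ix_5_7 W_16258445504 = true := by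
  decide +kernel

theorem W_16258449536_chk : wChk (nbDec bN_5_6) 30 ix_5_6 ix_5_7 W_16258449536 = true := by
  decide +kernel

theorem W_16258453568_chk : wChk (nbDec bN_5_6) 30 ix_5_6 ix_5_7 W_16258453568 = true := by
  decide +kernel

theorem W_16258707584_chk : wChk (nbDec bN_5_6) 30 ix_5_6 ix_5_7 W_16258707584 = true := by
  decide +kernel

theorem W_16258965632_chk : wChk (nbDec bN_5_6) 30 ix_5_6 ix_5_7 W_16258965632 = true := by
  decide +kernel

theorem W_16259485760_chk : wChk (nbDec bN_5_6) 30 ix_5_6 ix_5_7 W_16259485760 = true := by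
  decide +kernel

theorem W_16259489792_chk : wChk (nbDec bN_5_6) 30 ix_5_6 ix_5_7 W_16259489792 = true := by
  decide +kernel

theorem W_16274960576_chk : wChk (nbDec bN_5_6) 30 ix_5_6 ix_5_7 W_16274960576 = true := by
  decide +kernel

theorem W_16274964608_chk : wChk (nbDec bN_5_6) 30 ix_5_6 ix_5_7 W_16274964608 = true := by
  decide +kernel

theorem W_16275230720_chk : wChk (nbDec bN_5_6) 30 ix_5_6 ix_5_7 W_16275230720 = true := by
  decide +kernel

theorem W_16276000832_chk : wChk (nbDec bN_5_6) 30 ix_5_6 ix_5_7 W_16276000832 = true := by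
  decide +kernel

theorem W_16276262912_chk : wChk (nbDec bN_5_6) 30 ix_5_6 ix_5_7 W_16276262912 = true := by
  decide +kernel

theorem W_16276520960_chk : wChk (nbDec bN_5_6) 30 ix_5_6 ix_5_7 W_16276520960 = true := by
  decide +kernel

theorem W_16291737728_chk : wChk (nbDec bN_5_6) 30 ix_5_6 ix_5_7 W_16291737728 = true := by
  decide +kernel

theorem W_16291741760_chk : wChk (nbDec bN_5_6) 30 ix_5_6 ix_5_7 W_16291741760 = true := by
  decide +kernel

theorem W_16291995776_chk : wChk (nbDec bN_5_6) 30 ix_5_6 ix_5_7 W_16291995776 = true := by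
  decide +kernel

theorem W_16291999808_chk : wChk (nbDec bN_5_6) 30 ix_5_6 ix_5_7 W_16291999808 = true := by
  decide +kernel

theorem W_16292515904_chk : wChk (nbDec bN_5_6) 30 ix_5_6 ix_5_7 W_16292515904 = true := by
  decide +kernel

theorem W_16292777984_chk : wChk (nbDec bN_5_6) 30 ix_5_6 ix_5_7 W_16292777984 = true := by
  decide +kernel

theorem W_16293036032_chk : wChk (nbDec bN_5_6) 30 ix_5_6 ix_5_7 W_16293036032 = true := by
  decide +kernel

theorem W_16308252800_chk : wChk (nbDec bN_5_6) 30 ix_5_6 ix_5_7 W_16308252800 = true := by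
  decide +kernel

theorem W_16308510848_chk : wChk (nbDec bN_5_6) 30 ix_5_6 ix_5_7 W_16308510848 = true := by
  decide +kernel

theorem W_16308514880_chk : wChk (nbDec bN_5_6) 30 ix_5_6 ix_5_7 W_16308514880 = true := by
  decide +kernel

theorem W_16308518912_chk : wChk (nbDec bN_5_6) 30 ix_5_6 ix_5_7 W_16308518912 = true := by
  decide +kernel

theorem W_16309035008_chk : wChk (nbDec bN_5_6) 30 ix_5_6 ix_5_7 W_16309035008 = true := by
  decide +kernel

theorem W_16325025920_chk : wChk (nbDec bN_5_6) 30 ix_5_6 ix_5_7 W_16325025920 = true := by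
  decide +kernel

theorem W_16325029952_chk : wChk (nbDec bN_5_6) 30 ix_5_6 ix_5_7 W_16325029952 = true := by
  decide +kernel

theorem W_16325288000_chk : wChk (nbDec bN_5_6) 30 ix_5_6 ix_5_7 W_16325288000 = true := by
  decide +kernel

theorem W_16325292032_chk : wChk (nbDec bN_5_6) 30 ix_5_6 ix_5_7 W_16325292032 = true := by
  decide +kernel

theorem W_16325546048_chk : wChk (nbDec bN_5_6) 30 ix_5_6 ix_5_7 W_16325546048 = true := by
  decide +kernel

theorem W_16325550080_chk : wChk (nbDec bN_5_6) 30 ix_5_6 ix_5_7 W_16325550080 = true := by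
  decide +kernel

theorem W_16325808128_chk : wChk (nbDec bN_5_6) 30 ix_5_6 ix_5_7 W_16325808128 = true := by
  decide +kernel

theorem W_16341540992_chk : wChk (nbDec bN_5_6) 30 ix_5_6 ix_5_7 W_16341540992 = true := by
  decide +kernel

theorem W_16341803072_chk : wChk (nbDec bN_5_6) 30 ix_5_6 ix_5_7 W_16341803072 = true := by
  decide +kernel

theorem W_16341807104_chk : wChk (nbDec bN_5_6) 30 ix_5_6 ix_5_7 W_16341807104 = true := by
  decide +kernel

theorem W_16342061120_chk : wChk (nbDec bN_5_6) 30 ix_5_6 ix_5_7 W_16342061120 = true := by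
  decide +kernel

theorem W_16342065152_chk : wChk (nbDec bN_5_6) 30 ix_5_6 ix_5_7 W_16342065152 = true := by
  decide +kernel

theorem W_16342323200_chk : wChk (nbDec bN_5_6) 30 ix_5_6 ix_5_7 W_16342323200 = true := by
  decide +kernel

theorem W_16342581248_chk : wChk (nbDec bN_5_6) 30 ix_5_6 ix_5_7 W_16342581248 = true := by
  decide +kernel

theorem W_16358576192_chk : wChk (nbDec bN_5_6) 30 ix_5_6 ix_5_7 W_16358576192 = true := by
  decide +kernel

theorem W_16358580224_chk : wChk (nbDec bN_5_6) 30 ix_5_6 ix_5_7 W_16358580224 = true := by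
  decide +kernel

theorem W_16358838272_chk : wChk (nbDec bN_5_6) 30 ix_5_6 ix_5_7 W_16358838272 = true := by
  decide +kernel

theorem W_16359096320_chk : wChk (nbDec bN_5_6) 30 ix_5_6 ix_5_7 W_16359096320 = true := by
  decide +kernel

theorem W_17282121920_chk : wChk (nbDec bN_5_6) 30 ix_5_6 ix_5_7 W_17282121920 = true := by
  decide +kernel

theorem W_17282125952_chk : wChk (nbDec bN_5_6) 30 ix_5_6 ix_5_7 W_17282125952 = true := by
  decide +kernel

theorem W_17282129984_chk : wChk (nbDec bN_5_6) 30 ix_5_6 ix_5_7 W_17282129984 = true := by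
  decide +kernel

theorem W_17298374912_chk : wChk (nbDec bN_5_6) 30 ix_5_6 ix_5_7 W_17298374912 = true := by
  decide +kernel

theorem W_17298636992_chk : wChk (nbDec bN_5_6) 30 ix_5_6 ix_5_7 W_17298636992 = true := by
  decide +kernel

theorem W_17298895040_chk : wChk (nbDec bN_5_6) 30 ix_5_6 ix_5_7 W_17298895040 = true := by
  decide +kernel

theorem W_17298899072_chk : wChk (nbDec bN_5_6) 30 ix_5_6 ix_5_7 W_17298899072 = true := by
  decide +kernel

theorem W_17298903104_chk : wChk (nbDec bN_5_6) 30 ix_5_6 ix_5_7 W_17298903104 = true := by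
  decide +kernel

theorem W_17298907136_chk : wChk (nbDec bN_5_6) 30 ix_5_6 ix_5_7 W_17298907136 = true := by
  decide +kernel

theorem W_17299157120_chk : wChk (nbDec bN_5_6) 30 ix_5_6 ix_5_7 W_17299157120 = true := by
  decide +kernel

theorem W_17299161152_chk : wChk (nbDec bN_5_6) 30 ix_5_6 ix_5_7 W_17299161152 = true := by
  decide +kernel

theorem W_17299165184_chk : wChk (nbDec bN_5_6) 30 ix_5_6 ix_5_7 W_17299165184 = true := by
  decide +kernel

theorem W_17315152064_chk : wChk (nbDec bN_5_6) 30 ix_5_6 ix_5_7 W_17315152064 = true := by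
  decide +kernel

theorem W_17315414144_chk : wChk (nbDec bN_5_6) 30 ix_5_6 ix_5_7 W_17315414144 = true := by
  decide +kernel

theorem W_17315418176_chk : wChk (nbDec bN_5_6) 30 ix_5_6 ix_5_7 W_17315418176 = true := by
  decide +kernel

theorem W_17315672192_chk : wChk (nbDec bN_5_6) 30 ix_5_6 ix_5_7 W_17315672192 = true := by
  decide +kernel

theorem W_17315676224_chk : wChk (nbDec bN_5_6) 30 ix_5_6 ix_5_7 W_17315676224 = true := by
  decide +kernel

theorem W_17315680256_chk : wChk (nbDec bN_5_6) 30 ix_5_6 ix_5_7 W_17315680256 = true := by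
  decide +kernel

theorem W_17315930240_chk : wChk (nbDec bN_5_6) 30 ix_5_6 ix_5_7 W_17315930240 = true := by
  decide +kernel

theorem W_17315934272_chk : wChk (nbDec bN_5_6) 30 ix_5_6 ix_5_7 W_17315934272 = true := by
  decide +kernel

theorem W_17315938304_chk : wChk (nbDec bN_5_6) 30 ix_5_6 ix_5_7 W_17315938304 = true := by
  decide +kernel

theorem W_17316192320_chk : wChk (nbDec bN_5_6) 30 ix_5_6 ix_5_7 W_17316192320 = true := by
  decide +kernel

theorem W_17316196352_chk : wChk (nbDec bN_5_6) 30 ix_5_6 ix_5_7 W_17316196352 = true := by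
  decide +kernel

theorem W_17331925184_chk : wChk (nbDec bN_5_6) 30 ix_5_6 ix_5_7 W_17331925184 = true := by
  decide +kernel

theorem W_17331929216_chk : wChk (nbDec bN_5_6) 30 ix_5_6 ix_5_7 W_17331929216 = true := by
  decide +kernel

theorem W_17332187264_chk : wChk (nbDec bN_5_6) 30 ix_5_6 ix_5_7 W_17332187264 = true := by
  decide +kernel

theorem W_17332195328_chk : wChk (nbDec bN_5_6) 30 ix_5_6 ix_5_7 W_17332195328 = true := by
  decide +kernel

theorem W_17332445312_chk : wChk (nbDec bN_5_6) 30 ix_5_6 ix_5_7 W_17332445312 = true := by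
  decide +kernel

theorem W_17332965440_chk : wChk (nbDec bN_5_6) 30 ix_5_6 ix_5_7 W_17332965440 = true := by
  decide +kernel

theorem W_17333227520_chk : wChk (nbDec bN_5_6) 30 ix_5_6 ix_5_7 W_17333227520 = true := by
  decide +kernel

theorem W_17348702336_chk : wChk (nbDec bN_5_6) 30 ix_5_6 ix_5_7 W_17348702336 = true := by
  decide +kernel

theorem W_17348706368_chk : wChk (nbDec bN_5_6) 30 ix_5_6 ix_5_7 W_17348706368 = true := by
  decide +kernel

theorem W_17348960384_chk : wChk (nbDec bN_5_6) 30 ix_5_6 ix_5_7 W_17348960384 = true := by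
  decide +kernel

theorem W_17349480512_chk : wChk (nbDec bN_5_6) 30 ix_5_6 ix_5_7 W_17349480512 = true := by
  decide +kernel

theorem W_17349742592_chk : wChk (nbDec bN_5_6) 30 ix_5_6 ix_5_7 W_17349742592 = true := by
  decide +kernel

theorem W_17350000640_chk : wChk (nbDec bN_5_6) 30 ix_5_6 ix_5_7 W_17350000640 = true := by
  decide +kernel

theorem W_17365217408_chk : wChk (nbDec bN_5_6) 30 ix_5_6 ix_5_7 W_17365217408 = true := by
  decide +kernel

theorem W_17365475456_chk : wChk (nbDec bN_5_6) 30 ix_5_6 ix_5_7 W_17365475456 = true := by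
  decide +kernel

theorem W_17365479488_chk : wChk (nbDec bN_5_6) 30 ix_5_6 ix_5_7 W_17365479488 = true := by
  decide +kernel

theorem W_17365483520_chk : wChk (nbDec bN_5_6) 30 ix_5_6 ix_5_7 W_17365483520 = true := by
  decide +kernel

theorem W_17365995584_chk : wChk (nbDec bN_5_6) 30 ix_5_6 ix_5_7 W_17365995584 = true := by
  decide +kernel

theorem W_17365999616_chk : wChk (nbDec bN_5_6) 30 ix_5_6 ix_5_7 W_17365999616 = true := by
  decide +kernel

theorem W_17366515712_chk : wChk (nbDec bN_5_6) 30 ix_5_6 ix_5_7 W_17366515712 = true := by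
  decide +kernel

end Crest.Agent.R187.SN.Top
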