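import Crest.Agent.R187.SN.WOk
import Crest.Agent.R187.SN.KDec
import Crest.Agent.R187.SN.KE.B56
import Crest.Agent.R187.SN.KD.L_5_6
import Crest.Agent.R187.SN.KD.L_5_7
import Crest.Agent.R187.SN.TD.W7_2

/-!
# Row 187, PLAN S, block E4: kernel checks of the `W` tables (W7_2)
-/

set_option autoImplicit false
set_option Elab.async false

namespace Crest.Agent.R187.SN.Top

open Crest.Agent.R187.SN.KD Crest.Agent.R187.SN.KE Crest.Agent.R187.SN.KDec Crest.Agent.R187.SN.WOk

theorem W_17381990528_chk : wChk (nbDec bN_5_6) 30 ix_5_6 ix_5_7 W_17381990528 = true := by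
  decide +kernel

theorem W_17381994560_chk : wChk (nbDec bN_5_6) 30 ix_5_6 ix_5_7 W_17381994560 = true := by
  decide +kernel

theorem W_17382252608_chk : wChk (nbDec bN_5_6) 30 ix_5_6 ix_5_7 W_17382252608 = true := by
  decide +kernel

theorem W_17382256640_chk : wChk (nbDec bN_5_6) 30 ix_5_6 ix_5_7 W_17382256640 = true := by
  decide +kernel

theorem W_17382510656_chk : wChk (nbDec bN_5_6) 30 ix_5_6 ix_5_7 W_17382510656 = true := by
  decide +kernel

theorem W_17383030784_chk : wChk (nbDec bN_5_6) 30 ix_5_6 ix_5_7 W_17383030784 = true := by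
  decide +kernel

theorem W_17398505600_chk : wChk (nbDec bN_5_6) 30 ix_5_6 ix_5_7 W_17398505600 = true := by
  decide +kernel

theorem W_17398767680_chk : wChk (nbDec bN_5_6) 30 ix_5_6 ix_5_7 W_17398767680 = true := by
  decide +kernel

theorem W_17398771712_chk : wChk (nbDec bN_5_6) 30 ix_5_6 ix_5_7 W_17398771712 = true := by
  decide +kernel

theorem W_17399025728_chk : wChk (nbDec bN_5_6) 30 ix_5_6 ix_5_7 W_17399025728 = true := by
  decide +kernel

theorem W_17399029760_chk : wChk (nbDec bN_5_6) 30 ix_5_6 ix_5_7 W_17399029760 = true := by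
  decide +kernel

theorem W_17399287808_chk : wChk (nbDec bN_5_6) 30 ix_5_6 ix_5_7 W_17399287808 = true := by
  decide +kernel

theorem W_17399545856_chk : wChk (nbDec bN_5_6) 30 ix_5_6 ix_5_7 W_17399545856 = true := by
  decide +kernel

theorem W_17415282752_chk : wChk (nbDec bN_5_6) 30 ix_5_6 ix_5_7 W_17415282752 = true := by
  decide +kernel

theorem W_17415540800_chk : wChk (nbDec bN_5_6) 30 ix_5_6 ix_5_7 W_17415540800 = true := by
  decide +kernel

theorem W_17415544832_chk : wChk (nbDec bN_5_6) 30 ix_5_6 ix_5_7 W_17415544832 = true := by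
  decide +kernel

theorem W_17415802880_chk : wChk (nbDec bN_5_6) 30 ix_5_6 ix_5_7 W_17415802880 = true := by
  decide +kernel

theorem W_17416060928_chk : wChk (nbDec bN_5_6) 30 ix_5_6 ix_5_7 W_17416060928 = true := by
  decide +kernel

theorem W_17432055872_chk : wChk (nbDec bN_5_6) 30 ix_5_6 ix_5_7 W_17432055872 = true := by
  decide +kernel

theorem W_17432059904_chk : wChk (nbDec bN_5_6) 30 ix_5_6 ix_5_7 W_17432059904 = true := by
  decide +kernel

theorem W_17432317952_chk : wChk (nbDec bN_5_6) 30 ix_5_6 ix_5_7 W_17432317952 = true := by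
  decide +kernel

theorem W_17432576000_chk : wChk (nbDec bN_5_6) 30 ix_5_6 ix_5_7 W_17432576000 = true := by
  decide +kernel

theorem W_17448833024_chk : wChk (nbDec bN_5_6) 30 ix_5_6 ix_5_7 W_17448833024 = true := by
  decide +kernel

theorem W_17449091072_chk : wChk (nbDec bN_5_6) 30 ix_5_6 ix_5_7 W_17449091072 = true := by
  decide +kernel

theorem W_18355339520_chk : wChk (nbDec bN_5_6) 30 ix_5_6 ix_5_7 W_18355339520 = true := by
  decide +kernel

theorem W_18355863680_chk : wChk (nbDec bN_5_6) 30 ix_5_6 ix_5_7 W_18355863680 = true := by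
  decide +kernel

theorem W_18355867712_chk : wChk (nbDec bN_5_6) 30 ix_5_6 ix_5_7 W_18355867712 = true := by
  decide +kernel

theorem W_18355871744_chk : wChk (nbDec bN_5_6) 30 ix_5_6 ix_5_7 W_18355871744 = true := by
  decide +kernel

theorem W_18372116672_chk : wChk (nbDec bN_5_6) 30 ix_5_6 ix_5_7 W_18372116672 = true := by
  decide +kernel

theorem W_18372374720_chk : wChk (nbDec bN_5_6) 30 ix_5_6 ix_5_7 W_18372374720 = true := by
  decide +kernel

theorem W_18372378752_chk : wChk (nbDec bN_5_6) 30 ix_5_6 ix_5_7 W_18372378752 = true := by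
  decide +kernel

theorem W_18372382784_chk : wChk (nbDec bN_5_6) 30 ix_5_6 ix_5_7 W_18372382784 = true := by
  decide +kernel

theorem W_18372636800_chk : wChk (nbDec bN_5_6) 30 ix_5_6 ix_5_7 W_18372636800 = true := by
  decide +kernel

theorem W_18372640832_chk : wChk (nbDec bN_5_6) 30 ix_5_6 ix_5_7 W_18372640832 = true := by
  decide +kernel

theorem W_18372644864_chk : wChk (nbDec bN_5_6) 30 ix_5_6 ix_5_7 W_18372644864 = true := by
  decide +kernel

theorem W_18372898880_chk : wChk (nbDec bN_5_6) 30 ix_5_6 ix_5_7 W_18372898880 = true := by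
  decide +kernel

theorem W_18372902912_chk : wChk (nbDec bN_5_6) 30 ix_5_6 ix_5_7 W_18372902912 = true := by
  decide +kernel

theorem W_18388893824_chk : wChk (nbDec bN_5_6) 30 ix_5_6 ix_5_7 W_18388893824 = true := by
  decide +kernel

theorem W_18389151872_chk : wChk (nbDec bN_5_6) 30 ix_5_6 ix_5_7 W_18389151872 = true := by
  decide +kernel

theorem W_18389155904_chk : wChk (nbDec bN_5_6) 30 ix_5_6 ix_5_7 W_18389155904 = true := by
  decide +kernel

theorem W_18389159936_chk : wChk (nbDec bN_5_6) 30 ix_5_6 ix_5_7 W_18389159936 = true := by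
  decide +kernel

theorem W_18389409920_chk : wChk (nbDec bN_5_6) 30 ix_5_6 ix_5_7 W_18389409920 = true := by
  decide +kernel

theorem W_18389413952_chk : wChk (nbDec bN_5_6) 30 ix_5_6 ix_5_7 W_18389413952 = true := by
  decide +kernel

theorem W_18389417984_chk : wChk (nbDec bN_5_6) 30 ix_5_6 ix_5_7 W_18389417984 = true := by
  decide +kernel

theorem W_18389672000_chk : wChk (nbDec bN_5_6) 30 ix_5_6 ix_5_7 W_18389672000 = true := by
  decide +kernel

theorem W_18389676032_chk : wChk (nbDec bN_5_6) 30 ix_5_6 ix_5_7 W_18389676032 = true := by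
  decide +kernel

theorem W_18389930048_chk : wChk (nbDec bN_5_6) 30 ix_5_6 ix_5_7 W_18389930048 = true := by
  decide +kernel

theorem W_18389934080_chk : wChk (nbDec bN_5_6) 30 ix_5_6 ix_5_7 W_18389934080 = true := by
  decide +kernel

theorem W_18405666944_chk : wChk (nbDec bN_5_6) 30 ix_5_6 ix_5_7 W_18405666944 = true := by
  decide +kernel

theorem W_18405924992_chk : wChk (nbDec bN_5_6) 30 ix_5_6 ix_5_7 W_18405924992 = true := by
  decide +kernel

theorem W_18405929024_chk : wChk (nbDec bN_5_6) 30 ix_5_6 ix_5_7 W_18405929024 = true := by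
  decide +kernel

theorem W_18406187072_chk : wChk (nbDec bN_5_6) 30 ix_5_6 ix_5_7 W_18406187072 = true := by
  decide +kernel

theorem W_18406445120_chk : wChk (nbDec bN_5_6) 30 ix_5_6 ix_5_7 W_18406445120 = true := by
  decide +kernel

theorem W_18406449152_chk : wChk (nbDec bN_5_6) 30 ix_5_6 ix_5_7 W_18406449152 = true := by
  decide +kernel

theorem W_18406707200_chk : wChk (nbDec bN_5_6) 30 ix_5_6 ix_5_7 W_18406707200 = true := by
  decide +kernel

theorem W_18406965248_chk : wChk (nbDec bN_5_6) 30 ix_5_6 ix_5_7 W_18406965248 = true := by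
  decide +kernel

theorem W_18422182016_chk : wChk (nbDec bN_5_6) 30 ix_5_6 ix_5_7 W_18422182016 = true := by
  decide +kernel

theorem W_18422440064_chk : wChk (nbDec bN_5_6) 30 ix_5_6 ix_5_7 W_18422440064 = true := by
  decide +kernel

theorem W_18422444096_chk : wChk (nbDec bN_5_6) 30 ix_5_6 ix_5_7 W_18422444096 = true := by
  decide +kernel

theorem W_18422448128_chk : wChk (nbDec bN_5_6) 30 ix_5_6 ix_5_7 W_18422448128 = true := by
  decide +kernel

theorem W_18422960192_chk : wChk (nbDec bN_5_6) 30 ix_5_6 ix_5_7 W_18422960192 = true := by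
  decide +kernel

theorem W_18438955136_chk : wChk (nbDec bN_5_6) 30 ix_5_6 ix_5_7 W_18438955136 = true := by
  decide +kernel

theorem W_18438959168_chk : wChk (nbDec bN_5_6) 30 ix_5_6 ix_5_7 W_18438959168 = true := by
  decide +kernel

theorem W_18439217216_chk : wChk (nbDec bN_5_6) 30 ix_5_6 ix_5_7 W_18439217216 = true := by
  decide +kernel

theorem W_18439221248_chk : wChk (nbDec bN_5_6) 30 ix_5_6 ix_5_7 W_18439221248 = true := by
  decide +kernel

theorem W_18439475264_chk : wChk (nbDec bN_5_6) 30 ix_5_6 ix_5_7 W_18439475264 = true := by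
  decide +kernel

theorem W_18455470208_chk : wChk (nbDec bN_5_6) 30 ix_5_6 ix_5_7 W_18455470208 = true := by
  decide +kernel

theorem W_18455732288_chk : wChk (nbDec bN_5_6) 30 ix_5_6 ix_5_7 W_18455732288 = true := by
  decide +kernel

theorem W_18455736320_chk : wChk (nbDec bN_5_6) 30 ix_5_6 ix_5_7 W_18455736320 = true := by
  decide +kernel

theorem W_18455990336_chk : wChk (nbDec bN_5_6) 30 ix_5_6 ix_5_7 W_18455990336 = true := by
  decide +kernel

theorem W_18455994368_chk : wChk (nbDec bN_5_6) 30 ix_5_6 ix_5_7 W_18455994368 = true := by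
  decide +kernel

theorem W_18456252416_chk : wChk (nbDec bN_5_6) 30 ix_5_6 ix_5_7 W_18456252416 = true := by
  decide +kernel

theorem W_18456510464_chk : wChk (nbDec bN_5_6) 30 ix_5_6 ix_5_7 W_18456510464 = true := by
  decide +kernel

theorem W_18472247360_chk : wChk (nbDec bN_5_6) 30 ix_5_6 ix_5_7 W_18472247360 = true := by
  decide +kernel

theorem W_18472505408_chk : wChk (nbDec bN_5_6) 30 ix_5_6 ix_5_7 W_18472505408 = true := by
  decide +kernel

theorem W_18472509440_chk : wChk (nbDec bN_5_6) 30 ix_5_6 ix_5_7 W_18472509440 = true := by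
  decide +kernel

theorem W_18472767488_chk : wChk (nbDec bN_5_6) 30 ix_5_6 ix_5_7 W_18472767488 = true := by
  decide +kernel

theorem W_18473025536_chk : wChk (nbDec bN_5_6) 30 ix_5_6 ix_5_7 W_18473025536 = true := by
  decide +kernel

theorem W_18489020480_chk : wChk (nbDec bN_5_6) 30 ix_5_6 ix_5_7 W_18489020480 = true := by
  decide +kernel

theorem W_18489024512_chk : wChk (nbDec bN_5_6) 30 ix_5_6 ix_5_7 W_18489024512 = true := by
  decide +kernel

theorem W_18489282560_chk : wChk (nbDec bN_5_6) 30 ix_5_6 ix_5_7 W_18489282560 = true := by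
  decide +kernel

theorem W_18489540608_chk : wChk (nbDec bN_5_6) 30 ix_5_6 ix_5_7 W_18489540608 = true := by
  decide +kernel

theorem W_18505535552_chk : wChk (nbDec bN_5_6) 30 ix_5_6 ix_5_7 W_18505535552 = true := by
  decide +kernel

theorem W_18505797632_chk : wChk (nbDec bN_5_6) 30 ix_5_6 ix_5_7 W_18505797632 = true := by
  decide +kernel

theorem W_18506055680_chk : wChk (nbDec bN_5_6) 30 ix_5_6 ix_5_7 W_18506055680 = true := by
  decide +kernel

theorem W_18522312704_chk : wChk (nbDec bN_5_6) 30 ix_5_6 ix_5_7 W_18522312704 = true := by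
  decide +kernel

theorem W_18522570752_chk : wChk (nbDec bN_5_6) 30 ix_5_6 ix_5_7 W_18522570752 = true := by
  decide +kernel

theorem W_19429081280_chk : wChk (nbDec bN_5_6) 30 ix_5_6 ix_5_7 W_19429081280 = true := by
  decide +kernel

theorem W_19429343360_chk : wChk (nbDec bN_5_6) 30 ix_5_6 ix_5_7 W_19429343360 = true := by
  decide +kernel

theorem W_19429601408_chk : wChk (nbDec bN_5_6) 30 ix_5_6 ix_5_7 W_19429601408 = true := by
  decide +kernel

theorem W_19429605440_chk : wChk (nbDec bN_5_6) 30 ix_5_6 ix_5_7 W_19429605440 = true := by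
  decide +kernel

theorem W_19429609472_chk : wChk (nbDec bN_5_6) 30 ix_5_6 ix_5_7 W_19429609472 = true := by
  decide +kernel

theorem W_19445858432_chk : wChk (nbDec bN_5_6) 30 ix_5_6 ix_5_7 W_19445858432 = true := by
  decide +kernel

theorem W_19446116480_chk : wChk (nbDec bN_5_6) 30 ix_5_6 ix_5_7 W_19446116480 = true := by
  decide +kernel

theorem W_19446120512_chk : wChk (nbDec bN_5_6) 30 ix_5_6 ix_5_7 W_19446120512 = true := by
  decide +kernel

theorem W_19446124544_chk : wChk (nbDec bN_5_6) 30 ix_5_6 ix_5_7 W_19446124544 = true := by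
  decide +kernel

theorem W_19446374528_chk : wChk (nbDec bN_5_6) 30 ix_5_6 ix_5_7 W_19446374528 = true := by
  decide +kernel

theorem W_19446378560_chk : wChk (nbDec bN_5_6) 30 ix_5_6 ix_5_7 W_19446378560 = true := by
  decide +kernel

theorem W_19446382592_chk : wChk (nbDec bN_5_6) 30 ix_5_6 ix_5_7 W_19446382592 = true := by
  decide +kernel

theorem W_19446636608_chk : wChk (nbDec bN_5_6) 30 ix_5_6 ix_5_7 W_19446636608 = true := by
  decide +kernel

theorem W_19446640640_chk : wChk (nbDec bN_5_6) 30 ix_5_6 ix_5_7 W_19446640640 = true := by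
  decide +kernel

theorem W_19462631552_chk : wChk (nbDec bN_5_6) 30 ix_5_6 ix_5_7 W_19462631552 = true := by
  decide +kernel

theorem W_19462635584_chk : wChk (nbDec bN_5_6) 30 ix_5_6 ix_5_7 W_19462635584 = true := by
  decide +kernel

theorem W_19462889600_chk : wChk (nbDec bN_5_6) 30 ix_5_6 ix_5_7 W_19462889600 = true := by
  decide +kernel

theorem W_19462893632_chk : wChk (nbDec bN_5_6) 30 ix_5_6 ix_5_7 W_19462893632 = true := by
  decide +kernel

theorem W_19462897664_chk : wChk (nbDec bN_5_6) 30 ix_5_6 ix_5_7 W_19462897664 = true := by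
  decide +kernel

theorem W_19463151680_chk : wChk (nbDec bN_5_6) 30 ix_5_6 ix_5_7 W_19463151680 = true := by
  decide +kernel

theorem W_19463155712_chk : wChk (nbDec bN_5_6) 30 ix_5_6 ix_5_7 W_19463155712 = true := by
  decide +kernel

theorem W_19463409728_chk : wChk (nbDec bN_5_6) 30 ix_5_6 ix_5_7 W_19463409728 = true := by
  decide +kernel

theorem W_19463413760_chk : wChk (nbDec bN_5_6) 30 ix_5_6 ix_5_7 W_19463413760 = true := by
  decide +kernel

theorem W_19463671808_chk : wChk (nbDec bN_5_6) 30 ix_5_6 ix_5_7 W_19463671808 = true := by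
  decide +kernel

theorem W_19479146624_chk : wChk (nbDec bN_5_6) 30 ix_5_6 ix_5_7 W_19479146624 = true := by
  decide +kernel

theorem W_19479404672_chk : wChk (nbDec bN_5_6) 30 ix_5_6 ix_5_7 W_19479404672 = true := by
  decide +kernel

theorem W_19479408704_chk : wChk (nbDec bN_5_6) 30 ix_5_6 ix_5_7 W_19479408704 = true := by
  decide +kernel

theorem W_19479412736_chk : wChk (nbDec bN_5_6) 30 ix_5_6 ix_5_7 W_19479412736 = true := by
  decide +kernel

theorem W_19479666752_chk : wChk (nbDec bN_5_6) 30 ix_5_6 ix_5_7 W_19479666752 = true := by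
  decide +kernel

theorem W_19479670784_chk : wChk (nbDec bN_5_6) 30 ix_5_6 ix_5_7 W_19479670784 = true := by
  decide +kernel

theorem W_19479924800_chk : wChk (nbDec bN_5_6) 30 ix_5_6 ix_5_7 W_19479924800 = true := by
  decide +kernel

theorem W_19480186880_chk : wChk (nbDec bN_5_6) 30 ix_5_6 ix_5_7 W_19480186880 = true := by
  decide +kernel

theorem W_19480444928_chk : wChk (nbDec bN_5_6) 30 ix_5_6 ix_5_7 W_19480444928 = true := by
  decide +kernel

theorem W_19495919744_chk : wChk (nbDec bN_5_6) 30 ix_5_6 ix_5_7 W_19495919744 = true := by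
  decide +kernel

theorem W_19495923776_chk : wChk (nbDec bN_5_6) 30 ix_5_6 ix_5_7 W_19495923776 = true := by
  decide +kernel

theorem W_19496181824_chk : wChk (nbDec bN_5_6) 30 ix_5_6 ix_5_7 W_19496181824 = true := by
  decide +kernel

theorem W_19496185856_chk : wChk (nbDec bN_5_6) 30 ix_5_6 ix_5_7 W_19496185856 = true := by
  decide +kernel

theorem W_19496439872_chk : wChk (nbDec bN_5_6) 30 ix_5_6 ix_5_7 W_19496439872 = true := by
  decide +kernel

theorem W_19496443904_chk : wChk (nbDec bN_5_6) 30 ix_5_6 ix_5_7 W_19496443904 = true := by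
  decide +kernel

theorem W_19496701952_chk : wChk (nbDec bN_5_6) 30 ix_5_6 ix_5_7 W_19496701952 = true := by
  decide +kernel

theorem W_19496960000_chk : wChk (nbDec bN_5_6) 30 ix_5_6 ix_5_7 W_19496960000 = true := by
  decide +kernel

theorem W_19512434816_chk : wChk (nbDec bN_5_6) 30 ix_5_6 ix_5_7 W_19512434816 = true := by
  decide +kernel

theorem W_19512696896_chk : wChk (nbDec bN_5_6) 30 ix_5_6 ix_5_7 W_19512696896 = true := by
  decide +kernel

theorem W_19512700928_chk : wChk (nbDec bN_5_6) 30 ix_5_6 ix_5_7 W_19512700928 = true := by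
  decide +kernel

theorem W_19512954944_chk : wChk (nbDec bN_5_6) 30 ix_5_6 ix_5_7 W_19512954944 = true := by
  decide +kernel

theorem W_19512958976_chk : wChk (nbDec bN_5_6) 30 ix_5_6 ix_5_7 W_19512958976 = true := by
  decide +kernel

theorem W_19513217024_chk : wChk (nbDec bN_5_6) 30 ix_5_6 ix_5_7 W_19513217024 = true := by
  decide +kernel

theorem W_19513475072_chk : wChk (nbDec bN_5_6) 30 ix_5_6 ix_5_7 W_19513475072 = true := by
  decide +kernel

theorem W_19529211968_chk : wChk (nbDec bN_5_6) 30 ix_5_6 ix_5_7 W_19529211968 = true := by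
  decide +kernel

theorem W_19529470016_chk : wChk (nbDec bN_5_6) 30 ix_5_6 ix_5_7 W_19529470016 = true := by
  decide +kernel

end Crest.Agent.R187.SN.Top
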