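import Crest.Agent.R187.SN.WOk
import Crest.Agent.R187.SN.KDec
import Crest.Agent.R187.SN.KE.B56
import Crest.Agent.R187.SN.KD.L_5_6
import Crest.Agent.R187.SN.KD.L_5_7
import Crest.Agent.R187.SN.TD.W7_3

/-!
# Row 187, PLAN S, block E4: kernel checks of the `W` tables (W7_3)
-/

set_option autoImplicit false
set_option Elab.async false

namespace Crest.Agent.R187.SN.Top

open Crest.Agent.R187.SN.KD Crest.Agent.R187.SN.KE Crest.Agent.R187.SN.KDec Crest.Agent.R187.SN.WOk

theorem W_19529474048_chk : wChk (nbDec bN_5_6) 30 ix_5_6 ix_5_7 W_19529474048 = true := by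
  decide +kernel

theorem W_19529732096_chk : wChk (nbDec bN_5_6) 30 ix_5_6 ix_5_7 W_19529732096 = true := by
  decide +kernel

theorem W_19529990144_chk : wChk (nbDec bN_5_6) 30 ix_5_6 ix_5_7 W_19529990144 = true := by
  decide +kernel

theorem W_19545985088_chk : wChk (nbDec bN_5_6) 30 ix_5_6 ix_5_7 W_19545985088 = true := by
  decide +kernel

theorem W_19545989120_chk : wChk (nbDec bN_5_6) 30 ix_5_6 ix_5_7 W_19545989120 = true := by
  decide +kernel

theorem W_19546247168_chk : wChk (nbDec bN_5_6) 30 ix_5_6 ix_5_7 W_19546247168 = true := by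
  decide +kernel

theorem W_19546505216_chk : wChk (nbDec bN_5_6) 30 ix_5_6 ix_5_7 W_19546505216 = true := by
  decide +kernel

theorem W_19562762240_chk : wChk (nbDec bN_5_6) 30 ix_5_6 ix_5_7 W_19562762240 = true := by
  decide +kernel

theorem W_19563020288_chk : wChk (nbDec bN_5_6) 30 ix_5_6 ix_5_7 W_19563020288 = true := by
  decide +kernel

theorem W_19579277312_chk : wChk (nbDec bN_5_6) 30 ix_5_6 ix_5_7 W_19579277312 = true := by
  decide +kernel

theorem W_19579535360_chk : wChk (nbDec bN_5_6) 30 ix_5_6 ix_5_7 W_19579535360 = true := by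
  decide +kernel

theorem W_19596050432_chk : wChk (nbDec bN_5_6) 30 ix_5_6 ix_5_7 W_19596050432 = true := by
  decide +kernel

theorem W_19612565504_chk : wChk (nbDec bN_5_6) 30 ix_5_6 ix_5_7 W_19612565504 = true := by
  decide +kernel

theorem W_20469268736_chk : wChk (nbDec bN_5_6) 30 ix_5_6 ix_5_7 W_20469268736 = true := by
  decide +kernel

theorem W_20502823040_chk : wChk (nbDec bN_5_6) 30 ix_5_6 ix_5_7 W_20502823040 = true := by
  decide +kernel

theorem W_20503081088_chk : wChk (nbDec bN_5_6) 30 ix_5_6 ix_5_7 W_20503081088 = true := by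
  decide +kernel

theorem W_20503085120_chk : wChk (nbDec bN_5_6) 30 ix_5_6 ix_5_7 W_20503085120 = true := by
  decide +kernel

theorem W_20503339136_chk : wChk (nbDec bN_5_6) 30 ix_5_6 ix_5_7 W_20503339136 = true := by
  decide +kernel

theorem W_20503343168_chk : wChk (nbDec bN_5_6) 30 ix_5_6 ix_5_7 W_20503343168 = true := by
  decide +kernel

theorem W_20503347200_chk : wChk (nbDec bN_5_6) 30 ix_5_6 ix_5_7 W_20503347200 = true := by
  decide +kernel

theorem W_20519596160_chk : wChk (nbDec bN_5_6) 30 ix_5_6 ix_5_7 W_20519596160 = true := by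
  decide +kernel

theorem W_20519600192_chk : wChk (nbDec bN_5_6) 30 ix_5_6 ix_5_7 W_20519600192 = true := by
  decide +kernel

theorem W_20519854208_chk : wChk (nbDec bN_5_6) 30 ix_5_6 ix_5_7 W_20519854208 = true := by
  decide +kernel

theorem W_20519858240_chk : wChk (nbDec bN_5_6) 30 ix_5_6 ix_5_7 W_20519858240 = true := by
  decide +kernel

theorem W_20519862272_chk : wChk (nbDec bN_5_6) 30 ix_5_6 ix_5_7 W_20519862272 = true := by
  decide +kernel

theorem W_20520116288_chk : wChk (nbDec bN_5_6) 30 ix_5_6 ix_5_7 W_20520116288 = true := by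
  decide +kernel

theorem W_20520120320_chk : wChk (nbDec bN_5_6) 30 ix_5_6 ix_5_7 W_20520120320 = true := by
  decide +kernel

theorem W_20520374336_chk : wChk (nbDec bN_5_6) 30 ix_5_6 ix_5_7 W_20520374336 = true := by
  decide +kernel

theorem W_20520378368_chk : wChk (nbDec bN_5_6) 30 ix_5_6 ix_5_7 W_20520378368 = true := by
  decide +kernel

theorem W_20536369280_chk : wChk (nbDec bN_5_6) 30 ix_5_6 ix_5_7 W_20536369280 = true := by
  decide +kernel

theorem W_20536373312_chk : wChk (nbDec bN_5_6) 30 ix_5_6 ix_5_7 W_20536373312 = true := by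
  decide +kernel

theorem W_20536631360_chk : wChk (nbDec bN_5_6) 30 ix_5_6 ix_5_7 W_20536631360 = true := by
  decide +kernel

theorem W_20536635392_chk : wChk (nbDec bN_5_6) 30 ix_5_6 ix_5_7 W_20536635392 = true := by
  decide +kernel

theorem W_20536889408_chk : wChk (nbDec bN_5_6) 30 ix_5_6 ix_5_7 W_20536889408 = true := by
  decide +kernel

theorem W_20536893440_chk : wChk (nbDec bN_5_6) 30 ix_5_6 ix_5_7 W_20536893440 = true := by
  decide +kernel

theorem W_20537151488_chk : wChk (nbDec bN_5_6) 30 ix_5_6 ix_5_7 W_20537151488 = true := by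
  decide +kernel

theorem W_20537409536_chk : wChk (nbDec bN_5_6) 30 ix_5_6 ix_5_7 W_20537409536 = true := by
  decide +kernel

theorem W_20552884352_chk : wChk (nbDec bN_5_6) 30 ix_5_6 ix_5_7 W_20552884352 = true := by
  decide +kernel

theorem W_20552888384_chk : wChk (nbDec bN_5_6) 30 ix_5_6 ix_5_7 W_20552888384 = true := by
  decide +kernel

theorem W_20553146432_chk : wChk (nbDec bN_5_6) 30 ix_5_6 ix_5_7 W_20553146432 = true := by
  decide +kernel

theorem W_20553150464_chk : wChk (nbDec bN_5_6) 30 ix_5_6 ix_5_7 W_20553150464 = true := by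
  decide +kernel

theorem W_20553408512_chk : wChk (nbDec bN_5_6) 30 ix_5_6 ix_5_7 W_20553408512 = true := by
  decide +kernel

theorem W_20569399424_chk : wChk (nbDec bN_5_6) 30 ix_5_6 ix_5_7 W_20569399424 = true := by
  decide +kernel

theorem W_20569661504_chk : wChk (nbDec bN_5_6) 30 ix_5_6 ix_5_7 W_20569661504 = true := by
  decide +kernel

theorem W_20569665536_chk : wChk (nbDec bN_5_6) 30 ix_5_6 ix_5_7 W_20569665536 = true := by
  decide +kernel

theorem W_20569923584_chk : wChk (nbDec bN_5_6) 30 ix_5_6 ix_5_7 W_20569923584 = true := by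
  decide +kernel

theorem W_20570181632_chk : wChk (nbDec bN_5_6) 30 ix_5_6 ix_5_7 W_20570181632 = true := by
  decide +kernel

theorem W_20570439680_chk : wChk (nbDec bN_5_6) 30 ix_5_6 ix_5_7 W_20570439680 = true := by
  decide +kernel

theorem W_20586176576_chk : wChk (nbDec bN_5_6) 30 ix_5_6 ix_5_7 W_20586176576 = true := by
  decide +kernel

theorem W_20586434624_chk : wChk (nbDec bN_5_6) 30 ix_5_6 ix_5_7 W_20586434624 = true := by
  decide +kernel

theorem W_20586438656_chk : wChk (nbDec bN_5_6) 30 ix_5_6 ix_5_7 W_20586438656 = true := by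
  decide +kernel

theorem W_20586696704_chk : wChk (nbDec bN_5_6) 30 ix_5_6 ix_5_7 W_20586696704 = true := by
  decide +kernel

theorem W_20602949696_chk : wChk (nbDec bN_5_6) 30 ix_5_6 ix_5_7 W_20602949696 = true := by
  decide +kernel

theorem W_20603211776_chk : wChk (nbDec bN_5_6) 30 ix_5_6 ix_5_7 W_20603211776 = true := by
  decide +kernel

theorem W_20619464768_chk : wChk (nbDec bN_5_6) 30 ix_5_6 ix_5_7 W_20619464768 = true := by
  decide +kernel

theorem W_20619984896_chk : wChk (nbDec bN_5_6) 30 ix_5_6 ix_5_7 W_20619984896 = true := by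
  decide +kernel

theorem W_20636241920_chk : wChk (nbDec bN_5_6) 30 ix_5_6 ix_5_7 W_20636241920 = true := by
  decide +kernel

theorem W_20636499968_chk : wChk (nbDec bN_5_6) 30 ix_5_6 ix_5_7 W_20636499968 = true := by
  decide +kernel

theorem W_20653015040_chk : wChk (nbDec bN_5_6) 30 ix_5_6 ix_5_7 W_20653015040 = true := by
  decide +kernel

theorem W_20669530112_chk : wChk (nbDec bN_5_6) 30 ix_5_6 ix_5_7 W_20669530112 = true := by
  decide +kernel

theorem W_21559787648_chk : wChk (nbDec bN_5_6) 30 ix_5_6 ix_5_7 W_21559787648 = true := by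
  decide +kernel

theorem W_21576560768_chk : wChk (nbDec bN_5_6) 30 ix_5_6 ix_5_7 W_21576560768 = true := by
  decide +kernel

theorem W_21576564800_chk : wChk (nbDec bN_5_6) 30 ix_5_6 ix_5_7 W_21576564800 = true := by
  decide +kernel

theorem W_21576818816_chk : wChk (nbDec bN_5_6) 30 ix_5_6 ix_5_7 W_21576818816 = true := by
  decide +kernel

theorem W_21576822848_chk : wChk (nbDec bN_5_6) 30 ix_5_6 ix_5_7 W_21576822848 = true := by
  decide +kernel

theorem W_21576826880_chk : wChk (nbDec bN_5_6) 30 ix_5_6 ix_5_7 W_21576826880 = true := by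
  decide +kernel

theorem W_21577080896_chk : wChk (nbDec bN_5_6) 30 ix_5_6 ix_5_7 W_21577080896 = true := by
  decide +kernel

theorem W_21577084928_chk : wChk (nbDec bN_5_6) 30 ix_5_6 ix_5_7 W_21577084928 = true := by
  decide +kernel

theorem W_21593333888_chk : wChk (nbDec bN_5_6) 30 ix_5_6 ix_5_7 W_21593333888 = true := by
  decide +kernel

theorem W_21593337920_chk : wChk (nbDec bN_5_6) 30 ix_5_6 ix_5_7 W_21593337920 = true := by
  decide +kernel

theorem W_21593341952_chk : wChk (nbDec bN_5_6) 30 ix_5_6 ix_5_7 W_21593341952 = true := by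
  decide +kernel

theorem W_21593595968_chk : wChk (nbDec bN_5_6) 30 ix_5_6 ix_5_7 W_21593595968 = true := by
  decide +kernel

theorem W_21593600000_chk : wChk (nbDec bN_5_6) 30 ix_5_6 ix_5_7 W_21593600000 = true := by
  decide +kernel

theorem W_21593854016_chk : wChk (nbDec bN_5_6) 30 ix_5_6 ix_5_7 W_21593854016 = true := by
  decide +kernel

theorem W_21593858048_chk : wChk (nbDec bN_5_6) 30 ix_5_6 ix_5_7 W_21593858048 = true := by
  decide +kernel

theorem W_21594116096_chk : wChk (nbDec bN_5_6) 30 ix_5_6 ix_5_7 W_21594116096 = true := by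
  decide +kernel

theorem W_21609848960_chk : wChk (nbDec bN_5_6) 30 ix_5_6 ix_5_7 W_21609848960 = true := by
  decide +kernel

theorem W_21609852992_chk : wChk (nbDec bN_5_6) 30 ix_5_6 ix_5_7 W_21609852992 = true := by
  decide +kernel

theorem W_21610111040_chk : wChk (nbDec bN_5_6) 30 ix_5_6 ix_5_7 W_21610111040 = true := by
  decide +kernel

theorem W_21610369088_chk : wChk (nbDec bN_5_6) 30 ix_5_6 ix_5_7 W_21610369088 = true := by
  decide +kernel

theorem W_21610889216_chk : wChk (nbDec bN_5_6) 30 ix_5_6 ix_5_7 W_21610889216 = true := by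
  decide +kernel

theorem W_21626364032_chk : wChk (nbDec bN_5_6) 30 ix_5_6 ix_5_7 W_21626364032 = true := by
  decide +kernel

theorem W_21626626112_chk : wChk (nbDec bN_5_6) 30 ix_5_6 ix_5_7 W_21626626112 = true := by
  decide +kernel

theorem W_21626630144_chk : wChk (nbDec bN_5_6) 30 ix_5_6 ix_5_7 W_21626630144 = true := by
  decide +kernel

theorem W_21626884160_chk : wChk (nbDec bN_5_6) 30 ix_5_6 ix_5_7 W_21626884160 = true := by
  decide +kernel

theorem W_21626888192_chk : wChk (nbDec bN_5_6) 30 ix_5_6 ix_5_7 W_21626888192 = true := by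
  decide +kernel

theorem W_21627146240_chk : wChk (nbDec bN_5_6) 30 ix_5_6 ix_5_7 W_21627146240 = true := by
  decide +kernel

theorem W_21627404288_chk : wChk (nbDec bN_5_6) 30 ix_5_6 ix_5_7 W_21627404288 = true := by
  decide +kernel

theorem W_21643141184_chk : wChk (nbDec bN_5_6) 30 ix_5_6 ix_5_7 W_21643141184 = true := by
  decide +kernel

theorem W_21643399232_chk : wChk (nbDec bN_5_6) 30 ix_5_6 ix_5_7 W_21643399232 = true := by
  decide +kernel

theorem W_21643403264_chk : wChk (nbDec bN_5_6) 30 ix_5_6 ix_5_7 W_21643403264 = true := by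
  decide +kernel

theorem W_21643661312_chk : wChk (nbDec bN_5_6) 30 ix_5_6 ix_5_7 W_21643661312 = true := by
  decide +kernel

theorem W_21643919360_chk : wChk (nbDec bN_5_6) 30 ix_5_6 ix_5_7 W_21643919360 = true := by
  decide +kernel

theorem W_21659914304_chk : wChk (nbDec bN_5_6) 30 ix_5_6 ix_5_7 W_21659914304 = true := by
  decide +kernel

theorem W_21659918336_chk : wChk (nbDec bN_5_6) 30 ix_5_6 ix_5_7 W_21659918336 = true := by
  decide +kernel

theorem W_21660176384_chk : wChk (nbDec bN_5_6) 30 ix_5_6 ix_5_7 W_21660176384 = true := by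
  decide +kernel

theorem W_21660434432_chk : wChk (nbDec bN_5_6) 30 ix_5_6 ix_5_7 W_21660434432 = true := by
  decide +kernel

theorem W_21676691456_chk : wChk (nbDec bN_5_6) 30 ix_5_6 ix_5_7 W_21676691456 = true := by
  decide +kernel

theorem W_21676949504_chk : wChk (nbDec bN_5_6) 30 ix_5_6 ix_5_7 W_21676949504 = true := by
  decide +kernel

theorem W_21693206528_chk : wChk (nbDec bN_5_6) 30 ix_5_6 ix_5_7 W_21693206528 = true := by
  decide +kernel

theorem W_21693464576_chk : wChk (nbDec bN_5_6) 30 ix_5_6 ix_5_7 W_21693464576 = true := by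
  decide +kernel

theorem W_21709979648_chk : wChk (nbDec bN_5_6) 30 ix_5_6 ix_5_7 W_21709979648 = true := by
  decide +kernel

theorem W_21726494720_chk : wChk (nbDec bN_5_6) 30 ix_5_6 ix_5_7 W_21726494720 = true := by
  decide +kernel

theorem W_22616752256_chk : wChk (nbDec bN_5_6) 30 ix_5_6 ix_5_7 W_22616752256 = true := by
  decide +kernel

theorem W_22633529408_chk : wChk (nbDec bN_5_6) 30 ix_5_6 ix_5_7 W_22633529408 = true := by
  decide +kernel

theorem W_22633787456_chk : wChk (nbDec bN_5_6) 30 ix_5_6 ix_5_7 W_22633787456 = true := by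
  decide +kernel

theorem W_22650298496_chk : wChk (nbDec bN_5_6) 30 ix_5_6 ix_5_7 W_22650298496 = true := by
  decide +kernel

theorem W_22650302528_chk : wChk (nbDec bN_5_6) 30 ix_5_6 ix_5_7 W_22650302528 = true := by
  decide +kernel

theorem W_22650306560_chk : wChk (nbDec bN_5_6) 30 ix_5_6 ix_5_7 W_22650306560 = true := by
  decide +kernel

theorem W_22650560576_chk : wChk (nbDec bN_5_6) 30 ix_5_6 ix_5_7 W_22650560576 = true := by
  decide +kernel

theorem W_22650564608_chk : wChk (nbDec bN_5_6) 30 ix_5_6 ix_5_7 W_22650564608 = true := by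
  decide +kernel

theorem W_22650822656_chk : wChk (nbDec bN_5_6) 30 ix_5_6 ix_5_7 W_22650822656 = true := by
  decide +kernel

theorem W_22666813568_chk : wChk (nbDec bN_5_6) 30 ix_5_6 ix_5_7 W_22666813568 = true := by
  decide +kernel

theorem W_22666817600_chk : wChk (nbDec bN_5_6) 30 ix_5_6 ix_5_7 W_22666817600 = true := by
  decide +kernel

theorem W_22667075648_chk : wChk (nbDec bN_5_6) 30 ix_5_6 ix_5_7 W_22667075648 = true := by
  decide +kernel

theorem W_22667079680_chk : wChk (nbDec bN_5_6) 30 ix_5_6 ix_5_7 W_22667079680 = true := by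
  decide +kernel

theorem W_22667333696_chk : wChk (nbDec bN_5_6) 30 ix_5_6 ix_5_7 W_22667333696 = true := by
  decide +kernel

theorem W_22667337728_chk : wChk (nbDec bN_5_6) 30 ix_5_6 ix_5_7 W_22667337728 = true := by
  decide +kernel

theorem W_22667595776_chk : wChk (nbDec bN_5_6) 30 ix_5_6 ix_5_7 W_22667595776 = true := by
  decide +kernel

theorem W_22667853824_chk : wChk (nbDec bN_5_6) 30 ix_5_6 ix_5_7 W_22667853824 = true := by
  decide +kernel

theorem W_22683328640_chk : wChk (nbDec bN_5_6) 30 ix_5_6 ix_5_7 W_22683328640 = true := by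
  decide +kernel

theorem W_22683590720_chk : wChk (nbDec bN_5_6) 30 ix_5_6 ix_5_7 W_22683590720 = true := by
  decide +kernel

theorem W_22683594752_chk : wChk (nbDec bN_5_6) 30 ix_5_6 ix_5_7 W_22683594752 = true := by
  decide +kernel

theorem W_22683848768_chk : wChk (nbDec bN_5_6) 30 ix_5_6 ix_5_7 W_22683848768 = true := by
  decide +kernel

theorem W_22683852800_chk : wChk (nbDec bN_5_6) 30 ix_5_6 ix_5_7 W_22683852800 = true := by
  decide +kernel

theorem W_22684110848_chk : wChk (nbDec bN_5_6) 30 ix_5_6 ix_5_7 W_22684110848 = true := by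
  decide +kernel

theorem W_22684368896_chk : wChk (nbDec bN_5_6) 30 ix_5_6 ix_5_7 W_22684368896 = true := by
  decide +kernel

theorem W_22700105792_chk : wChk (nbDec bN_5_6) 30 ix_5_6 ix_5_7 W_22700105792 = true := by
  decide +kernel

theorem W_22700363840_chk : wChk (nbDec bN_5_6) 30 ix_5_6 ix_5_7 W_22700363840 = true := by
  decide +kernel

theorem W_22700367872_chk : wChk (nbDec bN_5_6) 30 ix_5_6 ix_5_7 W_22700367872 = true := by
  decide +kernel

theorem W_22700625920_chk : wChk (nbDec bN_5_6) 30 ix_5_6 ix_5_7 W_22700625920 = true := by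
  decide +kernel

theorem W_22700883968_chk : wChk (nbDec bN_5_6) 30 ix_5_6 ix_5_7 W_22700883968 = true := by
  decide +kernel

theorem W_22716878912_chk : wChk (nbDec bN_5_6) 30 ix_5_6 ix_5_7 W_22716878912 = true := by
  decide +kernel

theorem W_22716882944_chk : wChk (nbDec bN_5_6) 30 ix_5_6 ix_5_7 W_22716882944 = true := by
  decide +kernel

theorem W_22717140992_chk : wChk (nbDec bN_5_6) 30 ix_5_6 ix_5_7 W_22717140992 = true := by
  decide +kernel

theorem W_22717399040_chk : wChk (nbDec bN_5_6) 30 ix_5_6 ix_5_7 W_22717399040 = true := by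
  decide +kernel

theorem W_22733393984_chk : wChk (nbDec bN_5_6) 30 ix_5_6 ix_5_7 W_22733393984 = true := by
  decide +kernel

theorem W_22733656064_chk : wChk (nbDec bN_5_6) 30 ix_5_6 ix_5_7 W_22733656064 = true := by
  decide +kernel

theorem W_22733914112_chk : wChk (nbDec bN_5_6) 30 ix_5_6 ix_5_7 W_22733914112 = true := by
  decide +kernel

theorem W_22750171136_chk : wChk (nbDec bN_5_6) 30 ix_5_6 ix_5_7 W_22750171136 = true := by
  decide +kernel

theorem W_22750429184_chk : wChk (nbDec bN_5_6) 30 ix_5_6 ix_5_7 W_22750429184 = true := by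
  decide +kernel

theorem W_22766944256_chk : wChk (nbDec bN_5_6) 30 ix_5_6 ix_5_7 W_22766944256 = true := by
  decide +kernel

theorem W_23690494016_chk : wChk (nbDec bN_5_6) 30 ix_5_6 ix_5_7 W_23690494016 = true := by
  decide +kernel

theorem W_23707263104_chk : wChk (nbDec bN_5_6) 30 ix_5_6 ix_5_7 W_23707263104 = true := by
  decide +kernel

theorem W_23707267136_chk : wChk (nbDec bN_5_6) 30 ix_5_6 ix_5_7 W_23707267136 = true := by
  decide +kernel

theorem W_23707271168_chk : wChk (nbDec bN_5_6) 30 ix_5_6 ix_5_7 W_23707271168 = true := by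
  decide +kernel

theorem W_23707525184_chk : wChk (nbDec bN_5_6) 30 ix_5_6 ix_5_7 W_23707525184 = true := by
  decide +kernel

theorem W_23723778176_chk : wChk (nbDec bN_5_6) 30 ix_5_6 ix_5_7 W_23723778176 = true := by
  decide +kernel

theorem W_23724040256_chk : wChk (nbDec bN_5_6) 30 ix_5_6 ix_5_7 W_23724040256 = true := by
  decide +kernel

theorem W_23724044288_chk : wChk (nbDec bN_5_6) 30 ix_5_6 ix_5_7 W_23724044288 = true := by
  decide +kernel

theorem W_23724298304_chk : wChk (nbDec bN_5_6) 30 ix_5_6 ix_5_7 W_23724298304 = true := by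
  decide +kernel

theorem W_23724302336_chk : wChk (nbDec bN_5_6) 30 ix_5_6 ix_5_7 W_23724302336 = true := by
  decide +kernel

theorem W_23724560384_chk : wChk (nbDec bN_5_6) 30 ix_5_6 ix_5_7 W_23724560384 = true := by
  decide +kernel

theorem W_23740293248_chk : wChk (nbDec bN_5_6) 30 ix_5_6 ix_5_7 W_23740293248 = true := by
  decide +kernel

theorem W_23740555328_chk : wChk (nbDec bN_5_6) 30 ix_5_6 ix_5_7 W_23740555328 = true := by
  decide +kernel

theorem W_23740559360_chk : wChk (nbDec bN_5_6) 30 ix_5_6 ix_5_7 W_23740559360 = true := by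
  decide +kernel

theorem W_23740813376_chk : wChk (nbDec bN_5_6) 30 ix_5_6 ix_5_7 W_23740813376 = true := by
  decide +kernel

theorem W_23740817408_chk : wChk (nbDec bN_5_6) 30 ix_5_6 ix_5_7 W_23740817408 = true := by
  decide +kernel

theorem W_23741075456_chk : wChk (nbDec bN_5_6) 30 ix_5_6 ix_5_7 W_23741075456 = true := by
  decide +kernel

theorem W_23741333504_chk : wChk (nbDec bN_5_6) 30 ix_5_6 ix_5_7 W_23741333504 = true := by
  decide +kernel

theorem W_23757070400_chk : wChk (nbDec bN_5_6) 30 ix_5_6 ix_5_7 W_23757070400 = true := by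
  decide +kernel

theorem W_23757328448_chk : wChk (nbDec bN_5_6) 30 ix_5_6 ix_5_7 W_23757328448 = true := by
  decide +kernel

theorem W_23757332480_chk : wChk (nbDec bN_5_6) 30 ix_5_6 ix_5_7 W_23757332480 = true := by
  decide +kernel

theorem W_23757590528_chk : wChk (nbDec bN_5_6) 30 ix_5_6 ix_5_7 W_23757590528 = true := by
  decide +kernel

theorem W_23757848576_chk : wChk (nbDec bN_5_6) 30 ix_5_6 ix_5_7 W_23757848576 = true := by
  decide +kernel

theorem W_23773843520_chk : wChk (nbDec bN_5_6) 30 ix_5_6 ix_5_7 W_23773843520 = true := by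
  decide +kernel

theorem W_23773847552_chk : wChk (nbDec bN_5_6) 30 ix_5_6 ix_5_7 W_23773847552 = true := by
  decide +kernel

theorem W_23774105600_chk : wChk (nbDec bN_5_6) 30 ix_5_6 ix_5_7 W_23774105600 = true := by
  decide +kernel

theorem W_23774363648_chk : wChk (nbDec bN_5_6) 30 ix_5_6 ix_5_7 W_23774363648 = true := by
  decide +kernel

theorem W_23790620672_chk : wChk (nbDec bN_5_6) 30 ix_5_6 ix_5_7 W_23790620672 = true := by
  decide +kernel

theorem W_23790878720_chk : wChk (nbDec bN_5_6) 30 ix_5_6 ix_5_7 W_23790878720 = true := by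
  decide +kernel

theorem W_23807135744_chk : wChk (nbDec bN_5_6) 30 ix_5_6 ix_5_7 W_23807135744 = true := by
  decide +kernel

theorem W_23807393792_chk : wChk (nbDec bN_5_6) 30 ix_5_6 ix_5_7 W_23807393792 = true := by
  decide +kernel

theorem W_23823908864_chk : wChk (nbDec bN_5_6) 30 ix_5_6 ix_5_7 W_23823908864 = true := by
  decide +kernel

theorem W_23840423936_chk : wChk (nbDec bN_5_6) 30 ix_5_6 ix_5_7 W_23840423936 = true := by
  decide +kernel

theorem W_24764227712_chk : wChk (nbDec bN_5_6) 30 ix_5_6 ix_5_7 W_24764227712 = true := by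
  decide +kernel

theorem W_24764235776_chk : wChk (nbDec bN_5_6) 30 ix_5_6 ix_5_7 W_24764235776 = true := by
  decide +kernel

theorem W_24781004864_chk : wChk (nbDec bN_5_6) 30 ix_5_6 ix_5_7 W_24781004864 = true := by
  decide +kernel

theorem W_24781008896_chk : wChk (nbDec bN_5_6) 30 ix_5_6 ix_5_7 W_24781008896 = true := by
  decide +kernel

theorem W_24781262912_chk : wChk (nbDec bN_5_6) 30 ix_5_6 ix_5_7 W_24781262912 = true := by
  decide +kernel

theorem W_24781266944_chk : wChk (nbDec bN_5_6) 30 ix_5_6 ix_5_7 W_24781266944 = true := by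
  decide +kernel

theorem W_24797257856_chk : wChk (nbDec bN_5_6) 30 ix_5_6 ix_5_7 W_24797257856 = true := by
  decide +kernel

theorem W_24797519936_chk : wChk (nbDec bN_5_6) 30 ix_5_6 ix_5_7 W_24797519936 = true := by
  decide +kernel

theorem W_24797523968_chk : wChk (nbDec bN_5_6) 30 ix_5_6 ix_5_7 W_24797523968 = true := by
  decide +kernel

theorem W_24797777984_chk : wChk (nbDec bN_5_6) 30 ix_5_6 ix_5_7 W_24797777984 = true := by
  decide +kernel

theorem W_24797782016_chk : wChk (nbDec bN_5_6) 30 ix_5_6 ix_5_7 W_24797782016 = true := by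
  decide +kernel

theorem W_24798040064_chk : wChk (nbDec bN_5_6) 30 ix_5_6 ix_5_7 W_24798040064 = true := by
  decide +kernel

theorem W_24798298112_chk : wChk (nbDec bN_5_6) 30 ix_5_6 ix_5_7 W_24798298112 = true := by
  decide +kernel

theorem W_24814035008_chk : wChk (nbDec bN_5_6) 30 ix_5_6 ix_5_7 W_24814035008 = true := by
  decide +kernel

theorem W_24814293056_chk : wChk (nbDec bN_5_6) 30 ix_5_6 ix_5_7 W_24814293056 = true := by
  decide +kernel

theorem W_24814297088_chk : wChk (nbDec bN_5_6) 30 ix_5_6 ix_5_7 W_24814297088 = true := by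
  decide +kernel

theorem W_24814555136_chk : wChk (nbDec bN_5_6) 30 ix_5_6 ix_5_7 W_24814555136 = true := by
  decide +kernel

theorem W_24814813184_chk : wChk (nbDec bN_5_6) 30 ix_5_6 ix_5_7 W_24814813184 = true := by
  decide +kernel

theorem W_24830808128_chk : wChk (nbDec bN_5_6) 30 ix_5_6 ix_5_7 W_24830808128 = true := by
  decide +kernel

theorem W_24830812160_chk : wChk (nbDec bN_5_6) 30 ix_5_6 ix_5_7 W_24830812160 = true := by
  decide +kernel

theorem W_24831070208_chk : wChk (nbDec bN_5_6) 30 ix_5_6 ix_5_7 W_24831070208 = true := by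
  decide +kernel

theorem W_24831328256_chk : wChk (nbDec bN_5_6) 30 ix_5_6 ix_5_7 W_24831328256 = true := by
  decide +kernel

theorem W_24847585280_chk : wChk (nbDec bN_5_6) 30 ix_5_6 ix_5_7 W_24847585280 = true := by
  decide +kernel

theorem W_24847843328_chk : wChk (nbDec bN_5_6) 30 ix_5_6 ix_5_7 W_24847843328 = true := by
  decide +kernel

theorem W_24864100352_chk : wChk (nbDec bN_5_6) 30 ix_5_6 ix_5_7 W_24864100352 = true := by
  decide +kernel

theorem W_24864358400_chk : wChk (nbDec bN_5_6) 30 ix_5_6 ix_5_7 W_24864358400 = true := by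
  decide +kernel

theorem W_24880873472_chk : wChk (nbDec bN_5_6) 30 ix_5_6 ix_5_7 W_24880873472 = true := by
  decide +kernel

theorem W_25837969472_chk : wChk (nbDec bN_5_6) 30 ix_5_6 ix_5_7 W_25837969472 = true := by
  decide +kernel

theorem W_25837973504_chk : wChk (nbDec bN_5_6) 30 ix_5_6 ix_5_7 W_25837973504 = true := by
  decide +kernel

theorem W_25854222464_chk : wChk (nbDec bN_5_6) 30 ix_5_6 ix_5_7 W_25854222464 = true := by
  decide +kernel

theorem W_25854484544_chk : wChk (nbDec bN_5_6) 30 ix_5_6 ix_5_7 W_25854484544 = true := by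
  decide +kernel

theorem W_25854742592_chk : wChk (nbDec bN_5_6) 30 ix_5_6 ix_5_7 W_25854742592 = true := by
  decide +kernel

theorem W_25854746624_chk : wChk (nbDec bN_5_6) 30 ix_5_6 ix_5_7 W_25854746624 = true := by
  decide +kernel

theorem W_25870999616_chk : wChk (nbDec bN_5_6) 30 ix_5_6 ix_5_7 W_25870999616 = true := by
  decide +kernel

theorem W_25871261696_chk : wChk (nbDec bN_5_6) 30 ix_5_6 ix_5_7 W_25871261696 = true := by
  decide +kernel

theorem W_25871519744_chk : wChk (nbDec bN_5_6) 30 ix_5_6 ix_5_7 W_25871519744 = true := by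
  decide +kernel

theorem W_25871777792_chk : wChk (nbDec bN_5_6) 30 ix_5_6 ix_5_7 W_25871777792 = true := by
  decide +kernel

theorem W_25887772736_chk : wChk (nbDec bN_5_6) 30 ix_5_6 ix_5_7 W_25887772736 = true := by
  decide +kernel

theorem W_25887776768_chk : wChk (nbDec bN_5_6) 30 ix_5_6 ix_5_7 W_25887776768 = true := by
  decide +kernel

theorem W_25888034816_chk : wChk (nbDec bN_5_6) 30 ix_5_6 ix_5_7 W_25888034816 = true := by
  decide +kernel

theorem W_25888292864_chk : wChk (nbDec bN_5_6) 30 ix_5_6 ix_5_7 W_25888292864 = true := by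
  decide +kernel

theorem W_25904549888_chk : wChk (nbDec bN_5_6) 30 ix_5_6 ix_5_7 W_25904549888 = true := by
  decide +kernel

theorem W_25904807936_chk : wChk (nbDec bN_5_6) 30 ix_5_6 ix_5_7 W_25904807936 = true := by
  decide +kernel

theorem W_25921064960_chk : wChk (nbDec bN_5_6) 30 ix_5_6 ix_5_7 W_25921064960 = true := by
  decide +kernel

theorem W_25921323008_chk : wChk (nbDec bN_5_6) 30 ix_5_6 ix_5_7 W_25921323008 = true := by
  decide +kernel

theorem W_25937838080_chk : wChk (nbDec bN_5_6) 30 ix_5_6 ix_5_7 W_25937838080 = true := by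
  decide +kernel

theorem W_25954353152_chk : wChk (nbDec bN_5_6) 30 ix_5_6 ix_5_7 W_25954353152 = true := by
  decide +kernel

theorem W_26911187072_chk : wChk (nbDec bN_5_6) 30 ix_5_6 ix_5_7 W_26911187072 = true := by
  decide +kernel

theorem W_26911711232_chk : wChk (nbDec bN_5_6) 30 ix_5_6 ix_5_7 W_26911711232 = true := by
  decide +kernel

theorem W_26927964224_chk : wChk (nbDec bN_5_6) 30 ix_5_6 ix_5_7 W_26927964224 = true := by
  decide +kernel

theorem W_26928222272_chk : wChk (nbDec bN_5_6) 30 ix_5_6 ix_5_7 W_26928222272 = true := by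
  decide +kernel

theorem W_26928226304_chk : wChk (nbDec bN_5_6) 30 ix_5_6 ix_5_7 W_26928226304 = true := by
  decide +kernel

theorem W_26928484352_chk : wChk (nbDec bN_5_6) 30 ix_5_6 ix_5_7 W_26928484352 = true := by
  decide +kernel

theorem W_26944999424_chk : wChk (nbDec bN_5_6) 30 ix_5_6 ix_5_7 W_26944999424 = true := by
  decide +kernel

theorem W_26961514496_chk : wChk (nbDec bN_5_6) 30 ix_5_6 ix_5_7 W_26961514496 = true := by
  decide +kernel

theorem W_26978029568_chk : wChk (nbDec bN_5_6) 30 ix_5_6 ix_5_7 W_26978029568 = true := by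
  decide +kernel

theorem W_26978287616_chk : wChk (nbDec bN_5_6) 30 ix_5_6 ix_5_7 W_26978287616 = true := by
  decide +kernel

theorem W_26994802688_chk : wChk (nbDec bN_5_6) 30 ix_5_6 ix_5_7 W_26994802688 = true := by
  decide +kernel

theorem W_27011317760_chk : wChk (nbDec bN_5_6) 30 ix_5_6 ix_5_7 W_27011317760 = true := by
  decide +kernel

theorem W_27984928832_chk : wChk (nbDec bN_5_6) 30 ix_5_6 ix_5_7 W_27984928832 = true := by
  decide +kernel

theorem W_27985190912_chk : wChk (nbDec bN_5_6) 30 ix_5_6 ix_5_7 W_27985190912 = true := by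
  decide +kernel

theorem W_27985448960_chk : wChk (nbDec bN_5_6) 30 ix_5_6 ix_5_7 W_27985448960 = true := by
  decide +kernel

theorem W_28001705984_chk : wChk (nbDec bN_5_6) 30 ix_5_6 ix_5_7 W_28001705984 = true := by
  decide +kernel

theorem W_28001964032_chk : wChk (nbDec bN_5_6) 30 ix_5_6 ix_5_7 W_28001964032 = true := by
  decide +kernel

theorem W_28002222080_chk : wChk (nbDec bN_5_6) 30 ix_5_6 ix_5_7 W_28002222080 = true := by
  decide +kernel

theorem W_28018479104_chk : wChk (nbDec bN_5_6) 30 ix_5_6 ix_5_7 W_28018479104 = true := by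
  decide +kernel

theorem W_28018737152_chk : wChk (nbDec bN_5_6) 30 ix_5_6 ix_5_7 W_28018737152 = true := by
  decide +kernel

theorem W_28034994176_chk : wChk (nbDec bN_5_6) 30 ix_5_6 ix_5_7 W_28034994176 = true := by
  decide +kernel

theorem W_28035252224_chk : wChk (nbDec bN_5_6) 30 ix_5_6 ix_5_7 W_28035252224 = true := by
  decide +kernel

theorem W_28051767296_chk : wChk (nbDec bN_5_6) 30 ix_5_6 ix_5_7 W_28051767296 = true := by
  decide +kernel

theorem W_28068282368_chk : wChk (nbDec bN_5_6) 30 ix_5_6 ix_5_7 W_28068282368 = true := by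
  decide +kernel

theorem W_29025116288_chk : wChk (nbDec bN_5_6) 30 ix_5_6 ix_5_7 W_29025116288 = true := by
  decide +kernel

theorem W_29058670592_chk : wChk (nbDec bN_5_6) 30 ix_5_6 ix_5_7 W_29058670592 = true := by
  decide +kernel

theorem W_29058928640_chk : wChk (nbDec bN_5_6) 30 ix_5_6 ix_5_7 W_29058928640 = true := by
  decide +kernel

theorem W_29059186688_chk : wChk (nbDec bN_5_6) 30 ix_5_6 ix_5_7 W_29059186688 = true := by
  decide +kernel

theorem W_29075443712_chk : wChk (nbDec bN_5_6) 30 ix_5_6 ix_5_7 W_29075443712 = true := by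
  decide +kernel

theorem W_29075701760_chk : wChk (nbDec bN_5_6) 30 ix_5_6 ix_5_7 W_29075701760 = true := by
  decide +kernel

theorem W_29092216832_chk : wChk (nbDec bN_5_6) 30 ix_5_6 ix_5_7 W_29092216832 = true := by
  decide +kernel

theorem W_29108731904_chk : wChk (nbDec bN_5_6) 30 ix_5_6 ix_5_7 W_29108731904 = true := by
  decide +kernel

theorem W_29125246976_chk : wChk (nbDec bN_5_6) 30 ix_5_6 ix_5_7 W_29125246976 = true := by
  decide +kernel

theorem W_30115635200_chk : wChk (nbDec bN_5_6) 30 ix_5_6 ix_5_7 W_30115635200 = true := by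
  decide +kernel

theorem W_30132408320_chk : wChk (nbDec bN_5_6) 30 ix_5_6 ix_5_7 W_30132408320 = true := by
  decide +kernel

theorem W_30132666368_chk : wChk (nbDec bN_5_6) 30 ix_5_6 ix_5_7 W_30132666368 = true := by
  decide +kernel

theorem W_30149181440_chk : wChk (nbDec bN_5_6) 30 ix_5_6 ix_5_7 W_30149181440 = true := by
  decide +kernel

theorem W_30165696512_chk : wChk (nbDec bN_5_6) 30 ix_5_6 ix_5_7 W_30165696512 = true := by
  decide +kernel

theorem W_30182211584_chk : wChk (nbDec bN_5_6) 30 ix_5_6 ix_5_7 W_30182211584 = true := by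
  decide +kernel

theorem W_31172599808_chk : wChk (nbDec bN_5_6) 30 ix_5_6 ix_5_7 W_31172599808 = true := by
  decide +kernel

theorem W_31206146048_chk : wChk (nbDec bN_5_6) 30 ix_5_6 ix_5_7 W_31206146048 = true := by
  decide +kernel

theorem W_31222661120_chk : wChk (nbDec bN_5_6) 30 ix_5_6 ix_5_7 W_31222661120 = true := by
  decide +kernel

theorem W_31239176192_chk : wChk (nbDec bN_5_6) 30 ix_5_6 ix_5_7 W_31239176192 = true := by
  decide +kernel

theorem W_32263110656_chk : wChk (nbDec bN_5_6) 30 ix_5_6 ix_5_7 W_32263110656 = true := by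
  decide +kernel

theorem W_32279625728_chk : wChk (nbDec bN_5_6) 30 ix_5_6 ix_5_7 W_32279625728 = true := by
  decide +kernel

theorem W_32296140800_chk : wChk (nbDec bN_5_6) 30 ix_5_6 ix_5_7 W_32296140800 = true := by
  decide +kernel

theorem W_33320075264_chk : wChk (nbDec bN_5_6) 30 ix_5_6 ix_5_7 W_33320075264 = true := by
  decide +kernel

theorem W_33353105408_chk : wChk (nbDec bN_5_6) 30 ix_5_6 ix_5_7 W_33353105408 = true := by
  decide +kernel

theorem W_34410070016_chk : wChk (nbDec bN_5_6) 30 ix_5_6 ix_5_7 W_34410070016 = true := by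
  decide +kernel

theorem W_35467034624_chk : wChk (nbDec bN_5_6) 30 ix_5_6 ix_5_7 W_35467034624 = true := by
  decide +kernel

theorem W_37580963840_chk : wChk (nbDec bN_5_6) 30 ix_5_6 ix_5_7 W_37580963840 = true := by
  decide +kernel

end Crest.Agent.R187.SN.Top
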