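import Crest.Agent.R187.SN.TD.WC7_0
import Crest.Agent.R187.SN.TD.WC7_1
import Crest.Agent.R187.SN.TD.WC7_2
import Crest.Agent.R187.SN.TD.WC7_3
import Crest.Agent.R187.SN.WInst

/-!
# Row 187, PLAN S, block E4: the `W` tables are correct (WC7_0, WC7_1, WC7_2, WC7_3)
-/

set_option autoImplicit false

namespace Crest.Agent.R187.SN.Top

open Crest.Agent.R187.SN.Inst

theorem W_8726282432_ok : Fwd.WtOk Inst.T (Inst.MT 5 6) 6 W_8726282432 :=
  wt_ok6 W_8726282432_chk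

theorem W_9800016128_ok : Fwd.WtOk Inst.T (Inst.MT 5 6) 6 W_9800016128 :=
  wt_ok6 W_9800016128_chk

theorem W_9816527168_ok : Fwd.WtOk Inst.T (Inst.MT 5 6) 6 W_9816527168 :=
  wt_ok6 W_9816527168_chk

theorem W_10873233728_ok : Fwd.WtOk Inst.T (Inst.MT 5 6) 6 W_10873233728 :=
  wt_ok6 W_10873233728_chk

theorem W_10873753856_ok : Fwd.WtOk Inst.T (Inst.MT 5 6) 6 W_10873753856 :=
  wt_ok6 W_10873753856_chk

theorem W_10873757888_ok : Fwd.WtOk Inst.T (Inst.MT 5 6) 6 W_10873757888 :=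
  wt_ok6 W_10873757888_chk

theorem W_10873761920_ok : Fwd.WtOk Inst.T (Inst.MT 5 6) 6 W_10873761920 :=
  wt_ok6 W_10873761920_chk

theorem W_10873765952_ok : Fwd.WtOk Inst.T (Inst.MT 5 6) 6 W_10873765952 :=
  wt_ok6 W_10873765952_chk

theorem W_10890010880_ok : Fwd.WtOk Inst.T (Inst.MT 5 6) 6 W_10890010880 :=
  wt_ok6 W_10890010880_chk

theorem W_10890272960_ok : Fwd.WtOk Inst.T (Inst.MT 5 6) 6 W_10890272960 :=
  wt_ok6 W_10890272960_chk

theorem W_10890531008_ok : Fwd.WtOk Inst.T (Inst.MT 5 6) 6 W_10890531008 :=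
  wt_ok6 W_10890531008_chk

theorem W_10890535040_ok : Fwd.WtOk Inst.T (Inst.MT 5 6) 6 W_10890535040 :=
  wt_ok6 W_10890535040_chk

theorem W_10906788032_ok : Fwd.WtOk Inst.T (Inst.MT 5 6) 6 W_10906788032 :=
  wt_ok6 W_10906788032_chk

theorem W_10907042048_ok : Fwd.WtOk Inst.T (Inst.MT 5 6) 6 W_10907042048 :=
  wt_ok6 W_10907042048_chk

theorem W_10907050112_ok : Fwd.WtOk Inst.T (Inst.MT 5 6) 6 W_10907050112 :=
  wt_ok6 W_10907050112_chk

theorem W_10907304128_ok : Fwd.WtOk Inst.T (Inst.MT 5 6) 6 W_10907304128 :=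
  wt_ok6 W_10907304128_chk

theorem W_10907308160_ok : Fwd.WtOk Inst.T (Inst.MT 5 6) 6 W_10907308160 :=
  wt_ok6 W_10907308160_chk

theorem W_10907312192_ok : Fwd.WtOk Inst.T (Inst.MT 5 6) 6 W_10907312192 :=
  wt_ok6 W_10907312192_chk

theorem W_10907316224_ok : Fwd.WtOk Inst.T (Inst.MT 5 6) 6 W_10907316224 :=
  wt_ok6 W_10907316224_chk

theorem W_10907566208_ok : Fwd.WtOk Inst.T (Inst.MT 5 6) 6 W_10907566208 :=
  wt_ok6 W_10907566208_chk

theorem W_10907574272_ok : Fwd.WtOk Inst.T (Inst.MT 5 6) 6 W_10907574272 :=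
  wt_ok6 W_10907574272_chk

theorem W_10907828288_ok : Fwd.WtOk Inst.T (Inst.MT 5 6) 6 W_10907828288 :=
  wt_ok6 W_10907828288_chk

theorem W_10907832320_ok : Fwd.WtOk Inst.T (Inst.MT 5 6) 6 W_10907832320 :=
  wt_ok6 W_10907832320_chk

theorem W_11913421184_ok : Fwd.WtOk Inst.T (Inst.MT 5 6) 6 W_11913421184 :=
  wt_ok6 W_11913421184_chk

theorem W_11946975488_ok : Fwd.WtOk Inst.T (Inst.MT 5 6) 6 W_11946975488 :=
  wt_ok6 W_11946975488_chk

theorem W_11947233536_ok : Fwd.WtOk Inst.T (Inst.MT 5 6) 6 W_11947233536 :=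
  wt_ok6 W_11947233536_chk

theorem W_11947237568_ok : Fwd.WtOk Inst.T (Inst.MT 5 6) 6 W_11947237568 :=
  wt_ok6 W_11947237568_chk

theorem W_11947491584_ok : Fwd.WtOk Inst.T (Inst.MT 5 6) 6 W_11947491584 :=
  wt_ok6 W_11947491584_chk

theorem W_11947495616_ok : Fwd.WtOk Inst.T (Inst.MT 5 6) 6 W_11947495616 :=
  wt_ok6 W_11947495616_chk

theorem W_11947499648_ok : Fwd.WtOk Inst.T (Inst.MT 5 6) 6 W_11947499648 :=
  wt_ok6 W_11947499648_chk

theorem W_11947503680_ok : Fwd.WtOk Inst.T (Inst.MT 5 6) 6 W_11947503680 :=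
  wt_ok6 W_11947503680_chk

theorem W_11947507712_ok : Fwd.WtOk Inst.T (Inst.MT 5 6) 6 W_11947507712 :=
  wt_ok6 W_11947507712_chk

theorem W_11963748608_ok : Fwd.WtOk Inst.T (Inst.MT 5 6) 6 W_11963748608 :=
  wt_ok6 W_11963748608_chk

theorem W_11963752640_ok : Fwd.WtOk Inst.T (Inst.MT 5 6) 6 W_11963752640 :=
  wt_ok6 W_11963752640_chk

theorem W_11964010688_ok : Fwd.WtOk Inst.T (Inst.MT 5 6) 6 W_11964010688 :=
  wt_ok6 W_11964010688_chk

theorem W_11964014720_ok : Fwd.WtOk Inst.T (Inst.MT 5 6) 6 W_11964014720 :=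
  wt_ok6 W_11964014720_chk

theorem W_11964018752_ok : Fwd.WtOk Inst.T (Inst.MT 5 6) 6 W_11964018752 :=
  wt_ok6 W_11964018752_chk

theorem W_11964268736_ok : Fwd.WtOk Inst.T (Inst.MT 5 6) 6 W_11964268736 :=
  wt_ok6 W_11964268736_chk

theorem W_11964272768_ok : Fwd.WtOk Inst.T (Inst.MT 5 6) 6 W_11964272768 :=
  wt_ok6 W_11964272768_chk

theorem W_11964276800_ok : Fwd.WtOk Inst.T (Inst.MT 5 6) 6 W_11964276800 :=
  wt_ok6 W_11964276800_chk

theorem W_11964280832_ok : Fwd.WtOk Inst.T (Inst.MT 5 6) 6 W_11964280832 :=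
  wt_ok6 W_11964280832_chk

theorem W_11964526784_ok : Fwd.WtOk Inst.T (Inst.MT 5 6) 6 W_11964526784 :=
  wt_ok6 W_11964526784_chk

theorem W_11964534848_ok : Fwd.WtOk Inst.T (Inst.MT 5 6) 6 W_11964534848 :=
  wt_ok6 W_11964534848_chk

theorem W_11980521728_ok : Fwd.WtOk Inst.T (Inst.MT 5 6) 6 W_11980521728 :=
  wt_ok6 W_11980521728_chk

theorem W_11980525760_ok : Fwd.WtOk Inst.T (Inst.MT 5 6) 6 W_11980525760 :=
  wt_ok6 W_11980525760_chk

theorem W_11980529792_ok : Fwd.WtOk Inst.T (Inst.MT 5 6) 6 W_11980529792 :=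
  wt_ok6 W_11980529792_chk

theorem W_11980783808_ok : Fwd.WtOk Inst.T (Inst.MT 5 6) 6 W_11980783808 :=
  wt_ok6 W_11980783808_chk

theorem W_11980787840_ok : Fwd.WtOk Inst.T (Inst.MT 5 6) 6 W_11980787840 :=
  wt_ok6 W_11980787840_chk

theorem W_11980791872_ok : Fwd.WtOk Inst.T (Inst.MT 5 6) 6 W_11980791872 :=
  wt_ok6 W_11980791872_chk

theorem W_11980795904_ok : Fwd.WtOk Inst.T (Inst.MT 5 6) 6 W_11980795904 :=
  wt_ok6 W_11980795904_chk

theorem W_11981041856_ok : Fwd.WtOk Inst.T (Inst.MT 5 6) 6 W_11981041856 :=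
  wt_ok6 W_11981041856_chk

theorem W_11981045888_ok : Fwd.WtOk Inst.T (Inst.MT 5 6) 6 W_11981045888 :=
  wt_ok6 W_11981045888_chk

theorem W_11981049920_ok : Fwd.WtOk Inst.T (Inst.MT 5 6) 6 W_11981049920 :=
  wt_ok6 W_11981049920_chk

theorem W_11981053952_ok : Fwd.WtOk Inst.T (Inst.MT 5 6) 6 W_11981053952 :=
  wt_ok6 W_11981053952_chk

theorem W_11981303936_ok : Fwd.WtOk Inst.T (Inst.MT 5 6) 6 W_11981303936 :=
  wt_ok6 W_11981303936_chk

theorem W_11981312000_ok : Fwd.WtOk Inst.T (Inst.MT 5 6) 6 W_11981312000 :=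
  wt_ok6 W_11981312000_chk

theorem W_11981561984_ok : Fwd.WtOk Inst.T (Inst.MT 5 6) 6 W_11981561984 :=
  wt_ok6 W_11981561984_chk

theorem W_11981566016_ok : Fwd.WtOk Inst.T (Inst.MT 5 6) 6 W_11981566016 :=
  wt_ok6 W_11981566016_chk

theorem W_11981570048_ok : Fwd.WtOk Inst.T (Inst.MT 5 6) 6 W_11981570048 :=
  wt_ok6 W_11981570048_chk

theorem W_11997040832_ok : Fwd.WtOk Inst.T (Inst.MT 5 6) 6 W_11997040832 :=
  wt_ok6 W_11997040832_chk

theorem W_11997298880_ok : Fwd.WtOk Inst.T (Inst.MT 5 6) 6 W_11997298880 :=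
  wt_ok6 W_11997298880_chk

theorem W_11997302912_ok : Fwd.WtOk Inst.T (Inst.MT 5 6) 6 W_11997302912 :=
  wt_ok6 W_11997302912_chk

theorem W_11997556928_ok : Fwd.WtOk Inst.T (Inst.MT 5 6) 6 W_11997556928 :=
  wt_ok6 W_11997556928_chk

theorem W_11997560960_ok : Fwd.WtOk Inst.T (Inst.MT 5 6) 6 W_11997560960 :=
  wt_ok6 W_11997560960_chk

theorem W_11997564992_ok : Fwd.WtOk Inst.T (Inst.MT 5 6) 6 W_11997564992 :=
  wt_ok6 W_11997564992_chk

theorem W_11997569024_ok : Fwd.WtOk Inst.T (Inst.MT 5 6) 6 W_11997569024 :=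
  wt_ok6 W_11997569024_chk

theorem W_11997819008_ok : Fwd.WtOk Inst.T (Inst.MT 5 6) 6 W_11997819008 :=
  wt_ok6 W_11997819008_chk

theorem W_11997823040_ok : Fwd.WtOk Inst.T (Inst.MT 5 6) 6 W_11997823040 :=
  wt_ok6 W_11997823040_chk

theorem W_11997827072_ok : Fwd.WtOk Inst.T (Inst.MT 5 6) 6 W_11997827072 :=
  wt_ok6 W_11997827072_chk

theorem W_11998081088_ok : Fwd.WtOk Inst.T (Inst.MT 5 6) 6 W_11998081088 :=
  wt_ok6 W_11998081088_chk

theorem W_11998085120_ok : Fwd.WtOk Inst.T (Inst.MT 5 6) 6 W_11998085120 :=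
  wt_ok6 W_11998085120_chk

theorem W_11998343168_ok : Fwd.WtOk Inst.T (Inst.MT 5 6) 6 W_11998343168 :=
  wt_ok6 W_11998343168_chk

theorem W_11998597184_ok : Fwd.WtOk Inst.T (Inst.MT 5 6) 6 W_11998597184 :=
  wt_ok6 W_11998597184_chk

theorem W_13003940096_ok : Fwd.WtOk Inst.T (Inst.MT 5 6) 6 W_13003940096 :=
  wt_ok6 W_13003940096_chk

theorem W_13020713216_ok : Fwd.WtOk Inst.T (Inst.MT 5 6) 6 W_13020713216 :=
  wt_ok6 W_13020713216_chk

theorem W_13020717248_ok : Fwd.WtOk Inst.T (Inst.MT 5 6) 6 W_13020717248 :=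
  wt_ok6 W_13020717248_chk

theorem W_13020971264_ok : Fwd.WtOk Inst.T (Inst.MT 5 6) 6 W_13020971264 :=
  wt_ok6 W_13020971264_chk

theorem W_13020975296_ok : Fwd.WtOk Inst.T (Inst.MT 5 6) 6 W_13020975296 :=
  wt_ok6 W_13020975296_chk

theorem W_13020979328_ok : Fwd.WtOk Inst.T (Inst.MT 5 6) 6 W_13020979328 :=
  wt_ok6 W_13020979328_chk

theorem W_13021233344_ok : Fwd.WtOk Inst.T (Inst.MT 5 6) 6 W_13021233344 :=
  wt_ok6 W_13021233344_chk

theorem W_13021237376_ok : Fwd.WtOk Inst.T (Inst.MT 5 6) 6 W_13021237376 :=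
  wt_ok6 W_13021237376_chk

theorem W_13021241408_ok : Fwd.WtOk Inst.T (Inst.MT 5 6) 6 W_13021241408 :=
  wt_ok6 W_13021241408_chk

theorem W_13021245440_ok : Fwd.WtOk Inst.T (Inst.MT 5 6) 6 W_13021245440 :=
  wt_ok6 W_13021245440_chk

theorem W_13037486336_ok : Fwd.WtOk Inst.T (Inst.MT 5 6) 6 W_13037486336 :=
  wt_ok6 W_13037486336_chk

theorem W_13037490368_ok : Fwd.WtOk Inst.T (Inst.MT 5 6) 6 W_13037490368 :=
  wt_ok6 W_13037490368_chk

theorem W_13037494400_ok : Fwd.WtOk Inst.T (Inst.MT 5 6) 6 W_13037494400 :=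
  wt_ok6 W_13037494400_chk

theorem W_13037748416_ok : Fwd.WtOk Inst.T (Inst.MT 5 6) 6 W_13037748416 :=
  wt_ok6 W_13037748416_chk

theorem W_13037752448_ok : Fwd.WtOk Inst.T (Inst.MT 5 6) 6 W_13037752448 :=
  wt_ok6 W_13037752448_chk

theorem W_13037756480_ok : Fwd.WtOk Inst.T (Inst.MT 5 6) 6 W_13037756480 :=
  wt_ok6 W_13037756480_chk

theorem W_13038006464_ok : Fwd.WtOk Inst.T (Inst.MT 5 6) 6 W_13038006464 :=
  wt_ok6 W_13038006464_chk

theorem W_13038010496_ok : Fwd.WtOk Inst.T (Inst.MT 5 6) 6 W_13038010496 :=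
  wt_ok6 W_13038010496_chk

theorem W_13038018560_ok : Fwd.WtOk Inst.T (Inst.MT 5 6) 6 W_13038018560 :=
  wt_ok6 W_13038018560_chk

theorem W_13038268544_ok : Fwd.WtOk Inst.T (Inst.MT 5 6) 6 W_13038268544 :=
  wt_ok6 W_13038268544_chk

theorem W_13038272576_ok : Fwd.WtOk Inst.T (Inst.MT 5 6) 6 W_13038272576 :=
  wt_ok6 W_13038272576_chk

theorem W_13038276608_ok : Fwd.WtOk Inst.T (Inst.MT 5 6) 6 W_13038276608 :=
  wt_ok6 W_13038276608_chk

theorem W_13054001408_ok : Fwd.WtOk Inst.T (Inst.MT 5 6) 6 W_13054001408 :=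
  wt_ok6 W_13054001408_chk

theorem W_13054263488_ok : Fwd.WtOk Inst.T (Inst.MT 5 6) 6 W_13054263488 :=
  wt_ok6 W_13054263488_chk

theorem W_13054267520_ok : Fwd.WtOk Inst.T (Inst.MT 5 6) 6 W_13054267520 :=
  wt_ok6 W_13054267520_chk

theorem W_13054271552_ok : Fwd.WtOk Inst.T (Inst.MT 5 6) 6 W_13054271552 :=
  wt_ok6 W_13054271552_chk

theorem W_13054521536_ok : Fwd.WtOk Inst.T (Inst.MT 5 6) 6 W_13054521536 :=
  wt_ok6 W_13054521536_chk

theorem W_13054525568_ok : Fwd.WtOk Inst.T (Inst.MT 5 6) 6 W_13054525568 :=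
  wt_ok6 W_13054525568_chk

theorem W_13054529600_ok : Fwd.WtOk Inst.T (Inst.MT 5 6) 6 W_13054529600 :=
  wt_ok6 W_13054529600_chk

theorem W_13054533632_ok : Fwd.WtOk Inst.T (Inst.MT 5 6) 6 W_13054533632 :=
  wt_ok6 W_13054533632_chk

theorem W_13054783616_ok : Fwd.WtOk Inst.T (Inst.MT 5 6) 6 W_13054783616 :=
  wt_ok6 W_13054783616_chk

theorem W_13054787648_ok : Fwd.WtOk Inst.T (Inst.MT 5 6) 6 W_13054787648 :=
  wt_ok6 W_13054787648_chk

theorem W_13054791680_ok : Fwd.WtOk Inst.T (Inst.MT 5 6) 6 W_13054791680 :=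
  wt_ok6 W_13054791680_chk

theorem W_13055041664_ok : Fwd.WtOk Inst.T (Inst.MT 5 6) 6 W_13055041664 :=
  wt_ok6 W_13055041664_chk

theorem W_13055045696_ok : Fwd.WtOk Inst.T (Inst.MT 5 6) 6 W_13055045696 :=
  wt_ok6 W_13055045696_chk

theorem W_13055049728_ok : Fwd.WtOk Inst.T (Inst.MT 5 6) 6 W_13055049728 :=
  wt_ok6 W_13055049728_chk

theorem W_13055303744_ok : Fwd.WtOk Inst.T (Inst.MT 5 6) 6 W_13055303744 :=
  wt_ok6 W_13055303744_chk

theorem W_13055307776_ok : Fwd.WtOk Inst.T (Inst.MT 5 6) 6 W_13055307776 :=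
  wt_ok6 W_13055307776_chk

theorem W_13070778560_ok : Fwd.WtOk Inst.T (Inst.MT 5 6) 6 W_13070778560 :=
  wt_ok6 W_13070778560_chk

theorem W_13070782592_ok : Fwd.WtOk Inst.T (Inst.MT 5 6) 6 W_13070782592 :=
  wt_ok6 W_13070782592_chk

theorem W_13071036608_ok : Fwd.WtOk Inst.T (Inst.MT 5 6) 6 W_13071036608 :=
  wt_ok6 W_13071036608_chk

theorem W_13071040640_ok : Fwd.WtOk Inst.T (Inst.MT 5 6) 6 W_13071040640 :=
  wt_ok6 W_13071040640_chk

theorem W_13071044672_ok : Fwd.WtOk Inst.T (Inst.MT 5 6) 6 W_13071044672 :=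
  wt_ok6 W_13071044672_chk

theorem W_13071048704_ok : Fwd.WtOk Inst.T (Inst.MT 5 6) 6 W_13071048704 :=
  wt_ok6 W_13071048704_chk

theorem W_13071298688_ok : Fwd.WtOk Inst.T (Inst.MT 5 6) 6 W_13071298688 :=
  wt_ok6 W_13071298688_chk

theorem W_13071302720_ok : Fwd.WtOk Inst.T (Inst.MT 5 6) 6 W_13071302720 :=
  wt_ok6 W_13071302720_chk

theorem W_13071306752_ok : Fwd.WtOk Inst.T (Inst.MT 5 6) 6 W_13071306752 :=
  wt_ok6 W_13071306752_chk

theorem W_13071556736_ok : Fwd.WtOk Inst.T (Inst.MT 5 6) 6 W_13071556736 :=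
  wt_ok6 W_13071556736_chk

theorem W_13071560768_ok : Fwd.WtOk Inst.T (Inst.MT 5 6) 6 W_13071560768 :=
  wt_ok6 W_13071560768_chk

theorem W_13071564800_ok : Fwd.WtOk Inst.T (Inst.MT 5 6) 6 W_13071564800 :=
  wt_ok6 W_13071564800_chk

theorem W_13071818816_ok : Fwd.WtOk Inst.T (Inst.MT 5 6) 6 W_13071818816 :=
  wt_ok6 W_13071818816_chk

theorem W_13071822848_ok : Fwd.WtOk Inst.T (Inst.MT 5 6) 6 W_13071822848 :=
  wt_ok6 W_13071822848_chk

theorem W_13072076864_ok : Fwd.WtOk Inst.T (Inst.MT 5 6) 6 W_13072076864 :=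
  wt_ok6 W_13072076864_chk

theorem W_13072080896_ok : Fwd.WtOk Inst.T (Inst.MT 5 6) 6 W_13072080896 :=
  wt_ok6 W_13072080896_chk

theorem W_13087293632_ok : Fwd.WtOk Inst.T (Inst.MT 5 6) 6 W_13087293632 :=
  wt_ok6 W_13087293632_chk

theorem W_13087555712_ok : Fwd.WtOk Inst.T (Inst.MT 5 6) 6 W_13087555712 :=
  wt_ok6 W_13087555712_chk

theorem W_13087813760_ok : Fwd.WtOk Inst.T (Inst.MT 5 6) 6 W_13087813760 :=
  wt_ok6 W_13087813760_chk

theorem W_13087817792_ok : Fwd.WtOk Inst.T (Inst.MT 5 6) 6 W_13087817792 :=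
  wt_ok6 W_13087817792_chk

theorem W_13087821824_ok : Fwd.WtOk Inst.T (Inst.MT 5 6) 6 W_13087821824 :=
  wt_ok6 W_13087821824_chk

theorem W_13088071808_ok : Fwd.WtOk Inst.T (Inst.MT 5 6) 6 W_13088071808 :=
  wt_ok6 W_13088071808_chk

theorem W_13088075840_ok : Fwd.WtOk Inst.T (Inst.MT 5 6) 6 W_13088075840 :=
  wt_ok6 W_13088075840_chk

theorem W_13088079872_ok : Fwd.WtOk Inst.T (Inst.MT 5 6) 6 W_13088079872 :=
  wt_ok6 W_13088079872_chk

theorem W_13088333888_ok : Fwd.WtOk Inst.T (Inst.MT 5 6) 6 W_13088333888 :=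
  wt_ok6 W_13088333888_chk

theorem W_13088337920_ok : Fwd.WtOk Inst.T (Inst.MT 5 6) 6 W_13088337920 :=
  wt_ok6 W_13088337920_chk

theorem W_13088595968_ok : Fwd.WtOk Inst.T (Inst.MT 5 6) 6 W_13088595968 :=
  wt_ok6 W_13088595968_chk

theorem W_13088854016_ok : Fwd.WtOk Inst.T (Inst.MT 5 6) 6 W_13088854016 :=
  wt_ok6 W_13088854016_chk

theorem W_13089112064_ok : Fwd.WtOk Inst.T (Inst.MT 5 6) 6 W_13089112064 :=
  wt_ok6 W_13089112064_chk

theorem W_14060904704_ok : Fwd.WtOk Inst.T (Inst.MT 5 6) 6 W_14060904704 :=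
  wt_ok6 W_14060904704_chk

theorem W_14077681856_ok : Fwd.WtOk Inst.T (Inst.MT 5 6) 6 W_14077681856 :=
  wt_ok6 W_14077681856_chk

theorem W_14077939904_ok : Fwd.WtOk Inst.T (Inst.MT 5 6) 6 W_14077939904 :=
  wt_ok6 W_14077939904_chk

theorem W_14094450944_ok : Fwd.WtOk Inst.T (Inst.MT 5 6) 6 W_14094450944 :=
  wt_ok6 W_14094450944_chk

theorem W_14094454976_ok : Fwd.WtOk Inst.T (Inst.MT 5 6) 6 W_14094454976 :=
  wt_ok6 W_14094454976_chk

theorem W_14094459008_ok : Fwd.WtOk Inst.T (Inst.MT 5 6) 6 W_14094459008 :=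
  wt_ok6 W_14094459008_chk

theorem W_14094713024_ok : Fwd.WtOk Inst.T (Inst.MT 5 6) 6 W_14094713024 :=
  wt_ok6 W_14094713024_chk

theorem W_14094717056_ok : Fwd.WtOk Inst.T (Inst.MT 5 6) 6 W_14094717056 :=
  wt_ok6 W_14094717056_chk

theorem W_14094721088_ok : Fwd.WtOk Inst.T (Inst.MT 5 6) 6 W_14094721088 :=
  wt_ok6 W_14094721088_chk

theorem W_14094725120_ok : Fwd.WtOk Inst.T (Inst.MT 5 6) 6 W_14094725120 :=
  wt_ok6 W_14094725120_chk

theorem W_14094975104_ok : Fwd.WtOk Inst.T (Inst.MT 5 6) 6 W_14094975104 :=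
  wt_ok6 W_14094975104_chk

theorem W_14094979136_ok : Fwd.WtOk Inst.T (Inst.MT 5 6) 6 W_14094979136 :=
  wt_ok6 W_14094979136_chk

theorem W_14094983168_ok : Fwd.WtOk Inst.T (Inst.MT 5 6) 6 W_14094983168 :=
  wt_ok6 W_14094983168_chk

theorem W_14110970048_ok : Fwd.WtOk Inst.T (Inst.MT 5 6) 6 W_14110970048 :=
  wt_ok6 W_14110970048_chk

theorem W_14111228096_ok : Fwd.WtOk Inst.T (Inst.MT 5 6) 6 W_14111228096 :=
  wt_ok6 W_14111228096_chk

theorem W_14111232128_ok : Fwd.WtOk Inst.T (Inst.MT 5 6) 6 W_14111232128 :=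
  wt_ok6 W_14111232128_chk

theorem W_14111236160_ok : Fwd.WtOk Inst.T (Inst.MT 5 6) 6 W_14111236160 :=
  wt_ok6 W_14111236160_chk

theorem W_14111486144_ok : Fwd.WtOk Inst.T (Inst.MT 5 6) 6 W_14111486144 :=
  wt_ok6 W_14111486144_chk

theorem W_14111490176_ok : Fwd.WtOk Inst.T (Inst.MT 5 6) 6 W_14111490176 :=
  wt_ok6 W_14111490176_chk

theorem W_14111494208_ok : Fwd.WtOk Inst.T (Inst.MT 5 6) 6 W_14111494208 :=
  wt_ok6 W_14111494208_chk

theorem W_14111748224_ok : Fwd.WtOk Inst.T (Inst.MT 5 6) 6 W_14111748224 :=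
  wt_ok6 W_14111748224_chk

theorem W_14111752256_ok : Fwd.WtOk Inst.T (Inst.MT 5 6) 6 W_14111752256 :=
  wt_ok6 W_14111752256_chk

theorem W_14112010304_ok : Fwd.WtOk Inst.T (Inst.MT 5 6) 6 W_14112010304 :=
  wt_ok6 W_14112010304_chk

theorem W_14112014336_ok : Fwd.WtOk Inst.T (Inst.MT 5 6) 6 W_14112014336 :=
  wt_ok6 W_14112014336_chk

theorem W_14127481088_ok : Fwd.WtOk Inst.T (Inst.MT 5 6) 6 W_14127481088 :=
  wt_ok6 W_14127481088_chk

theorem W_14127743168_ok : Fwd.WtOk Inst.T (Inst.MT 5 6) 6 W_14127743168 :=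
  wt_ok6 W_14127743168_chk

theorem W_14127747200_ok : Fwd.WtOk Inst.T (Inst.MT 5 6) 6 W_14127747200 :=
  wt_ok6 W_14127747200_chk

theorem W_14128001216_ok : Fwd.WtOk Inst.T (Inst.MT 5 6) 6 W_14128001216 :=
  wt_ok6 W_14128001216_chk

theorem W_14128009280_ok : Fwd.WtOk Inst.T (Inst.MT 5 6) 6 W_14128009280 :=
  wt_ok6 W_14128009280_chk

theorem W_14128013312_ok : Fwd.WtOk Inst.T (Inst.MT 5 6) 6 W_14128013312 :=
  wt_ok6 W_14128013312_chk

theorem W_14128263296_ok : Fwd.WtOk Inst.T (Inst.MT 5 6) 6 W_14128263296 :=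
  wt_ok6 W_14128263296_chk

theorem W_14128267328_ok : Fwd.WtOk Inst.T (Inst.MT 5 6) 6 W_14128267328 :=
  wt_ok6 W_14128267328_chk

theorem W_14128521344_ok : Fwd.WtOk Inst.T (Inst.MT 5 6) 6 W_14128521344 :=
  wt_ok6 W_14128521344_chk

theorem W_14128525376_ok : Fwd.WtOk Inst.T (Inst.MT 5 6) 6 W_14128525376 :=
  wt_ok6 W_14128525376_chk

theorem W_14128529408_ok : Fwd.WtOk Inst.T (Inst.MT 5 6) 6 W_14128529408 :=
  wt_ok6 W_14128529408_chk

theorem W_14128783424_ok : Fwd.WtOk Inst.T (Inst.MT 5 6) 6 W_14128783424 :=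
  wt_ok6 W_14128783424_chk

theorem W_14128787456_ok : Fwd.WtOk Inst.T (Inst.MT 5 6) 6 W_14128787456 :=
  wt_ok6 W_14128787456_chk

theorem W_14129045504_ok : Fwd.WtOk Inst.T (Inst.MT 5 6) 6 W_14129045504 :=
  wt_ok6 W_14129045504_chk

theorem W_14144258240_ok : Fwd.WtOk Inst.T (Inst.MT 5 6) 6 W_14144258240 :=
  wt_ok6 W_14144258240_chk

theorem W_14144516288_ok : Fwd.WtOk Inst.T (Inst.MT 5 6) 6 W_14144516288 :=
  wt_ok6 W_14144516288_chk

theorem W_14144520320_ok : Fwd.WtOk Inst.T (Inst.MT 5 6) 6 W_14144520320 :=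
  wt_ok6 W_14144520320_chk

theorem W_14144524352_ok : Fwd.WtOk Inst.T (Inst.MT 5 6) 6 W_14144524352 :=
  wt_ok6 W_14144524352_chk

theorem W_14144778368_ok : Fwd.WtOk Inst.T (Inst.MT 5 6) 6 W_14144778368 :=
  wt_ok6 W_14144778368_chk

theorem W_14144782400_ok : Fwd.WtOk Inst.T (Inst.MT 5 6) 6 W_14144782400 :=
  wt_ok6 W_14144782400_chk

theorem W_14145036416_ok : Fwd.WtOk Inst.T (Inst.MT 5 6) 6 W_14145036416 :=
  wt_ok6 W_14145036416_chk

theorem W_14145040448_ok : Fwd.WtOk Inst.T (Inst.MT 5 6) 6 W_14145040448 :=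
  wt_ok6 W_14145040448_chk

theorem W_14145044480_ok : Fwd.WtOk Inst.T (Inst.MT 5 6) 6 W_14145044480 :=
  wt_ok6 W_14145044480_chk

theorem W_14145298496_ok : Fwd.WtOk Inst.T (Inst.MT 5 6) 6 W_14145298496 :=
  wt_ok6 W_14145298496_chk

theorem W_14145302528_ok : Fwd.WtOk Inst.T (Inst.MT 5 6) 6 W_14145302528 :=
  wt_ok6 W_14145302528_chk

theorem W_14145556544_ok : Fwd.WtOk Inst.T (Inst.MT 5 6) 6 W_14145556544 :=
  wt_ok6 W_14145556544_chk

theorem W_14145560576_ok : Fwd.WtOk Inst.T (Inst.MT 5 6) 6 W_14145560576 :=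
  wt_ok6 W_14145560576_chk

theorem W_14145818624_ok : Fwd.WtOk Inst.T (Inst.MT 5 6) 6 W_14145818624 :=
  wt_ok6 W_14145818624_chk

theorem W_14161293440_ok : Fwd.WtOk Inst.T (Inst.MT 5 6) 6 W_14161293440 :=
  wt_ok6 W_14161293440_chk

theorem W_14161297472_ok : Fwd.WtOk Inst.T (Inst.MT 5 6) 6 W_14161297472 :=
  wt_ok6 W_14161297472_chk

theorem W_14161301504_ok : Fwd.WtOk Inst.T (Inst.MT 5 6) 6 W_14161301504 :=
  wt_ok6 W_14161301504_chk

theorem W_14161551488_ok : Fwd.WtOk Inst.T (Inst.MT 5 6) 6 W_14161551488 :=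
  wt_ok6 W_14161551488_chk

theorem W_14161555520_ok : Fwd.WtOk Inst.T (Inst.MT 5 6) 6 W_14161555520 :=
  wt_ok6 W_14161555520_chk

theorem W_14161559552_ok : Fwd.WtOk Inst.T (Inst.MT 5 6) 6 W_14161559552 :=
  wt_ok6 W_14161559552_chk

theorem W_14161813568_ok : Fwd.WtOk Inst.T (Inst.MT 5 6) 6 W_14161813568 :=
  wt_ok6 W_14161813568_chk

theorem W_14161817600_ok : Fwd.WtOk Inst.T (Inst.MT 5 6) 6 W_14161817600 :=
  wt_ok6 W_14161817600_chk

theorem W_14162071616_ok : Fwd.WtOk Inst.T (Inst.MT 5 6) 6 W_14162071616 :=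
  wt_ok6 W_14162071616_chk

theorem W_14162333696_ok : Fwd.WtOk Inst.T (Inst.MT 5 6) 6 W_14162333696 :=
  wt_ok6 W_14162333696_chk

theorem W_14162591744_ok : Fwd.WtOk Inst.T (Inst.MT 5 6) 6 W_14162591744 :=
  wt_ok6 W_14162591744_chk

theorem W_14177546432_ok : Fwd.WtOk Inst.T (Inst.MT 5 6) 6 W_14177546432 :=
  wt_ok6 W_14177546432_chk

theorem W_14177808512_ok : Fwd.WtOk Inst.T (Inst.MT 5 6) 6 W_14177808512 :=
  wt_ok6 W_14177808512_chk

theorem W_14178070592_ok : Fwd.WtOk Inst.T (Inst.MT 5 6) 6 W_14178070592 :=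
  wt_ok6 W_14178070592_chk

theorem W_14178328640_ok : Fwd.WtOk Inst.T (Inst.MT 5 6) 6 W_14178328640 :=
  wt_ok6 W_14178328640_chk

theorem W_14178332672_ok : Fwd.WtOk Inst.T (Inst.MT 5 6) 6 W_14178332672 :=
  wt_ok6 W_14178332672_chk

theorem W_14178586688_ok : Fwd.WtOk Inst.T (Inst.MT 5 6) 6 W_14178586688 :=
  wt_ok6 W_14178586688_chk

theorem W_14178590720_ok : Fwd.WtOk Inst.T (Inst.MT 5 6) 6 W_14178590720 :=
  wt_ok6 W_14178590720_chk

theorem W_14178848768_ok : Fwd.WtOk Inst.T (Inst.MT 5 6) 6 W_14178848768 :=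
  wt_ok6 W_14178848768_chk

theorem W_14179106816_ok : Fwd.WtOk Inst.T (Inst.MT 5 6) 6 W_14179106816 :=
  wt_ok6 W_14179106816_chk

theorem W_15134646464_ok : Fwd.WtOk Inst.T (Inst.MT 5 6) 6 W_15134646464 :=
  wt_ok6 W_15134646464_chk

theorem W_15151415552_ok : Fwd.WtOk Inst.T (Inst.MT 5 6) 6 W_15151415552 :=
  wt_ok6 W_15151415552_chk

theorem W_15151419584_ok : Fwd.WtOk Inst.T (Inst.MT 5 6) 6 W_15151419584 :=
  wt_ok6 W_15151419584_chk

theorem W_15151423616_ok : Fwd.WtOk Inst.T (Inst.MT 5 6) 6 W_15151423616 :=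
  wt_ok6 W_15151423616_chk

theorem W_15151677632_ok : Fwd.WtOk Inst.T (Inst.MT 5 6) 6 W_15151677632 :=
  wt_ok6 W_15151677632_chk

theorem W_15151685696_ok : Fwd.WtOk Inst.T (Inst.MT 5 6) 6 W_15151685696 :=
  wt_ok6 W_15151685696_chk

theorem W_15167930624_ok : Fwd.WtOk Inst.T (Inst.MT 5 6) 6 W_15167930624 :=
  wt_ok6 W_15167930624_chk

theorem W_15168192704_ok : Fwd.WtOk Inst.T (Inst.MT 5 6) 6 W_15168192704 :=
  wt_ok6 W_15168192704_chk

theorem W_15168196736_ok : Fwd.WtOk Inst.T (Inst.MT 5 6) 6 W_15168196736 :=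
  wt_ok6 W_15168196736_chk

theorem W_15168200768_ok : Fwd.WtOk Inst.T (Inst.MT 5 6) 6 W_15168200768 :=
  wt_ok6 W_15168200768_chk

theorem W_15168450752_ok : Fwd.WtOk Inst.T (Inst.MT 5 6) 6 W_15168450752 :=
  wt_ok6 W_15168450752_chk

theorem W_15168454784_ok : Fwd.WtOk Inst.T (Inst.MT 5 6) 6 W_15168454784 :=
  wt_ok6 W_15168454784_chk

theorem W_15168458816_ok : Fwd.WtOk Inst.T (Inst.MT 5 6) 6 W_15168458816 :=
  wt_ok6 W_15168458816_chk

theorem W_15168462848_ok : Fwd.WtOk Inst.T (Inst.MT 5 6) 6 W_15168462848 :=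
  wt_ok6 W_15168462848_chk

theorem W_15168712832_ok : Fwd.WtOk Inst.T (Inst.MT 5 6) 6 W_15168712832 :=
  wt_ok6 W_15168712832_chk

theorem W_15168716864_ok : Fwd.WtOk Inst.T (Inst.MT 5 6) 6 W_15168716864 :=
  wt_ok6 W_15168716864_chk

theorem W_15168720896_ok : Fwd.WtOk Inst.T (Inst.MT 5 6) 6 W_15168720896 :=
  wt_ok6 W_15168720896_chk

theorem W_15184445696_ok : Fwd.WtOk Inst.T (Inst.MT 5 6) 6 W_15184445696 :=
  wt_ok6 W_15184445696_chk

theorem W_15184707776_ok : Fwd.WtOk Inst.T (Inst.MT 5 6) 6 W_15184707776 :=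
  wt_ok6 W_15184707776_chk

theorem W_15184711808_ok : Fwd.WtOk Inst.T (Inst.MT 5 6) 6 W_15184711808 :=
  wt_ok6 W_15184711808_chk

theorem W_15184965824_ok : Fwd.WtOk Inst.T (Inst.MT 5 6) 6 W_15184965824 :=
  wt_ok6 W_15184965824_chk

theorem W_15184969856_ok : Fwd.WtOk Inst.T (Inst.MT 5 6) 6 W_15184969856 :=
  wt_ok6 W_15184969856_chk

theorem W_15184973888_ok : Fwd.WtOk Inst.T (Inst.MT 5 6) 6 W_15184973888 :=
  wt_ok6 W_15184973888_chk

theorem W_15185227904_ok : Fwd.WtOk Inst.T (Inst.MT 5 6) 6 W_15185227904 :=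
  wt_ok6 W_15185227904_chk

theorem W_15185231936_ok : Fwd.WtOk Inst.T (Inst.MT 5 6) 6 W_15185231936 :=
  wt_ok6 W_15185231936_chk

theorem W_15185485952_ok : Fwd.WtOk Inst.T (Inst.MT 5 6) 6 W_15185485952 :=
  wt_ok6 W_15185485952_chk

theorem W_15185489984_ok : Fwd.WtOk Inst.T (Inst.MT 5 6) 6 W_15185489984 :=
  wt_ok6 W_15185489984_chk

theorem W_15185494016_ok : Fwd.WtOk Inst.T (Inst.MT 5 6) 6 W_15185494016 :=
  wt_ok6 W_15185494016_chk

theorem W_15185748032_ok : Fwd.WtOk Inst.T (Inst.MT 5 6) 6 W_15185748032 :=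
  wt_ok6 W_15185748032_chk

theorem W_15185752064_ok : Fwd.WtOk Inst.T (Inst.MT 5 6) 6 W_15185752064 :=
  wt_ok6 W_15185752064_chk

theorem W_15201222848_ok : Fwd.WtOk Inst.T (Inst.MT 5 6) 6 W_15201222848 :=
  wt_ok6 W_15201222848_chk

theorem W_15201480896_ok : Fwd.WtOk Inst.T (Inst.MT 5 6) 6 W_15201480896 :=
  wt_ok6 W_15201480896_chk

theorem W_15201484928_ok : Fwd.WtOk Inst.T (Inst.MT 5 6) 6 W_15201484928 :=
  wt_ok6 W_15201484928_chk

theorem W_15201488960_ok : Fwd.WtOk Inst.T (Inst.MT 5 6) 6 W_15201488960 :=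
  wt_ok6 W_15201488960_chk

theorem W_15201747008_ok : Fwd.WtOk Inst.T (Inst.MT 5 6) 6 W_15201747008 :=
  wt_ok6 W_15201747008_chk

theorem W_15202001024_ok : Fwd.WtOk Inst.T (Inst.MT 5 6) 6 W_15202001024 :=
  wt_ok6 W_15202001024_chk

theorem W_15202009088_ok : Fwd.WtOk Inst.T (Inst.MT 5 6) 6 W_15202009088 :=
  wt_ok6 W_15202009088_chk

theorem W_15202521152_ok : Fwd.WtOk Inst.T (Inst.MT 5 6) 6 W_15202521152 :=
  wt_ok6 W_15202521152_chk

theorem W_15202525184_ok : Fwd.WtOk Inst.T (Inst.MT 5 6) 6 W_15202525184 :=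
  wt_ok6 W_15202525184_chk

theorem W_15202783232_ok : Fwd.WtOk Inst.T (Inst.MT 5 6) 6 W_15202783232 :=
  wt_ok6 W_15202783232_chk

theorem W_15217995968_ok : Fwd.WtOk Inst.T (Inst.MT 5 6) 6 W_15217995968 :=
  wt_ok6 W_15217995968_chk

theorem W_15218000000_ok : Fwd.WtOk Inst.T (Inst.MT 5 6) 6 W_15218000000 :=
  wt_ok6 W_15218000000_chk

theorem W_15218258048_ok : Fwd.WtOk Inst.T (Inst.MT 5 6) 6 W_15218258048 :=
  wt_ok6 W_15218258048_chk

theorem W_15218262080_ok : Fwd.WtOk Inst.T (Inst.MT 5 6) 6 W_15218262080 :=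
  wt_ok6 W_15218262080_chk

theorem W_15218266112_ok : Fwd.WtOk Inst.T (Inst.MT 5 6) 6 W_15218266112 :=
  wt_ok6 W_15218266112_chk

theorem W_15218516096_ok : Fwd.WtOk Inst.T (Inst.MT 5 6) 6 W_15218516096 :=
  wt_ok6 W_15218516096_chk

theorem W_15218524160_ok : Fwd.WtOk Inst.T (Inst.MT 5 6) 6 W_15218524160 :=
  wt_ok6 W_15218524160_chk

theorem W_15219036224_ok : Fwd.WtOk Inst.T (Inst.MT 5 6) 6 W_15219036224 :=
  wt_ok6 W_15219036224_chk

theorem W_15219298304_ok : Fwd.WtOk Inst.T (Inst.MT 5 6) 6 W_15219298304 :=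
  wt_ok6 W_15219298304_chk

theorem W_15219556352_ok : Fwd.WtOk Inst.T (Inst.MT 5 6) 6 W_15219556352 :=
  wt_ok6 W_15219556352_chk

theorem W_15234773120_ok : Fwd.WtOk Inst.T (Inst.MT 5 6) 6 W_15234773120 :=
  wt_ok6 W_15234773120_chk

theorem W_15234777152_ok : Fwd.WtOk Inst.T (Inst.MT 5 6) 6 W_15234777152 :=
  wt_ok6 W_15234777152_chk

theorem W_15235035200_ok : Fwd.WtOk Inst.T (Inst.MT 5 6) 6 W_15235035200 :=
  wt_ok6 W_15235035200_chk

theorem W_15235039232_ok : Fwd.WtOk Inst.T (Inst.MT 5 6) 6 W_15235039232 :=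
  wt_ok6 W_15235039232_chk

theorem W_15235297280_ok : Fwd.WtOk Inst.T (Inst.MT 5 6) 6 W_15235297280 :=
  wt_ok6 W_15235297280_chk

theorem W_15235551296_ok : Fwd.WtOk Inst.T (Inst.MT 5 6) 6 W_15235551296 :=
  wt_ok6 W_15235551296_chk

theorem W_15236071424_ok : Fwd.WtOk Inst.T (Inst.MT 5 6) 6 W_15236071424 :=
  wt_ok6 W_15236071424_chk

theorem W_15251546240_ok : Fwd.WtOk Inst.T (Inst.MT 5 6) 6 W_15251546240 :=
  wt_ok6 W_15251546240_chk

theorem W_15251550272_ok : Fwd.WtOk Inst.T (Inst.MT 5 6) 6 W_15251550272 :=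
  wt_ok6 W_15251550272_chk

theorem W_15251554304_ok : Fwd.WtOk Inst.T (Inst.MT 5 6) 6 W_15251554304 :=
  wt_ok6 W_15251554304_chk

theorem W_15251808320_ok : Fwd.WtOk Inst.T (Inst.MT 5 6) 6 W_15251808320 :=
  wt_ok6 W_15251808320_chk

theorem W_15251812352_ok : Fwd.WtOk Inst.T (Inst.MT 5 6) 6 W_15251812352 :=
  wt_ok6 W_15251812352_chk

theorem W_15252586496_ok : Fwd.WtOk Inst.T (Inst.MT 5 6) 6 W_15252586496 :=
  wt_ok6 W_15252586496_chk

theorem W_15268061312_ok : Fwd.WtOk Inst.T (Inst.MT 5 6) 6 W_15268061312 :=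
  wt_ok6 W_15268061312_chk

theorem W_15268323392_ok : Fwd.WtOk Inst.T (Inst.MT 5 6) 6 W_15268323392 :=
  wt_ok6 W_15268323392_chk

theorem W_15268327424_ok : Fwd.WtOk Inst.T (Inst.MT 5 6) 6 W_15268327424 :=
  wt_ok6 W_15268327424_chk

theorem W_15268581440_ok : Fwd.WtOk Inst.T (Inst.MT 5 6) 6 W_15268581440 :=
  wt_ok6 W_15268581440_chk

theorem W_15268585472_ok : Fwd.WtOk Inst.T (Inst.MT 5 6) 6 W_15268585472 :=
  wt_ok6 W_15268585472_chk

theorem W_15268843520_ok : Fwd.WtOk Inst.T (Inst.MT 5 6) 6 W_15268843520 :=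
  wt_ok6 W_15268843520_chk

theorem W_15269101568_ok : Fwd.WtOk Inst.T (Inst.MT 5 6) 6 W_15269101568 :=
  wt_ok6 W_15269101568_chk

theorem W_16208380160_ok : Fwd.WtOk Inst.T (Inst.MT 5 6) 6 W_16208380160 :=
  wt_ok6 W_16208380160_chk

theorem W_16208388224_ok : Fwd.WtOk Inst.T (Inst.MT 5 6) 6 W_16208388224 :=
  wt_ok6 W_16208388224_chk

theorem W_16225157312_ok : Fwd.WtOk Inst.T (Inst.MT 5 6) 6 W_16225157312 :=
  wt_ok6 W_16225157312_chk

theorem W_16225161344_ok : Fwd.WtOk Inst.T (Inst.MT 5 6) 6 W_16225161344 :=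
  wt_ok6 W_16225161344_chk

theorem W_16225165376_ok : Fwd.WtOk Inst.T (Inst.MT 5 6) 6 W_16225165376 :=
  wt_ok6 W_16225165376_chk

theorem W_16225415360_ok : Fwd.WtOk Inst.T (Inst.MT 5 6) 6 W_16225415360 :=
  wt_ok6 W_16225415360_chk

theorem W_16225419392_ok : Fwd.WtOk Inst.T (Inst.MT 5 6) 6 W_16225419392 :=
  wt_ok6 W_16225419392_chk

theorem W_16225423424_ok : Fwd.WtOk Inst.T (Inst.MT 5 6) 6 W_16225423424 :=
  wt_ok6 W_16225423424_chk

theorem W_16225427456_ok : Fwd.WtOk Inst.T (Inst.MT 5 6) 6 W_16225427456 :=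
  wt_ok6 W_16225427456_chk

theorem W_16241410304_ok : Fwd.WtOk Inst.T (Inst.MT 5 6) 6 W_16241410304 :=
  wt_ok6 W_16241410304_chk

theorem W_16241672384_ok : Fwd.WtOk Inst.T (Inst.MT 5 6) 6 W_16241672384 :=
  wt_ok6 W_16241672384_chk

theorem W_16241676416_ok : Fwd.WtOk Inst.T (Inst.MT 5 6) 6 W_16241676416 :=
  wt_ok6 W_16241676416_chk

theorem W_16241930432_ok : Fwd.WtOk Inst.T (Inst.MT 5 6) 6 W_16241930432 :=
  wt_ok6 W_16241930432_chk

theorem W_16241934464_ok : Fwd.WtOk Inst.T (Inst.MT 5 6) 6 W_16241934464 :=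
  wt_ok6 W_16241934464_chk

theorem W_16242192512_ok : Fwd.WtOk Inst.T (Inst.MT 5 6) 6 W_16242192512 :=
  wt_ok6 W_16242192512_chk

theorem W_16242196544_ok : Fwd.WtOk Inst.T (Inst.MT 5 6) 6 W_16242196544 :=
  wt_ok6 W_16242196544_chk

theorem W_16242450560_ok : Fwd.WtOk Inst.T (Inst.MT 5 6) 6 W_16242450560 :=
  wt_ok6 W_16242450560_chk

theorem W_16242454592_ok : Fwd.WtOk Inst.T (Inst.MT 5 6) 6 W_16242454592 :=
  wt_ok6 W_16242454592_chk

theorem W_16242458624_ok : Fwd.WtOk Inst.T (Inst.MT 5 6) 6 W_16242458624 :=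
  wt_ok6 W_16242458624_chk

theorem W_16258187456_ok : Fwd.WtOk Inst.T (Inst.MT 5 6) 6 W_16258187456 :=
  wt_ok6 W_16258187456_chk

theorem W_16258445504_ok : Fwd.WtOk Inst.T (Inst.MT 5 6) 6 W_16258445504 :=
  wt_ok6 W_16258445504_chk

theorem W_16258449536_ok : Fwd.WtOk Inst.T (Inst.MT 5 6) 6 W_16258449536 :=
  wt_ok6 W_16258449536_chk

theorem W_16258453568_ok : Fwd.WtOk Inst.T (Inst.MT 5 6) 6 W_16258453568 :=
  wt_ok6 W_16258453568_chk

theorem W_16258707584_ok : Fwd.WtOk Inst.T (Inst.MT 5 6) 6 W_16258707584 :=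
  wt_ok6 W_16258707584_chk

theorem W_16258965632_ok : Fwd.WtOk Inst.T (Inst.MT 5 6) 6 W_16258965632 :=
  wt_ok6 W_16258965632_chk

theorem W_16259485760_ok : Fwd.WtOk Inst.T (Inst.MT 5 6) 6 W_16259485760 :=
  wt_ok6 W_16259485760_chk

theorem W_16259489792_ok : Fwd.WtOk Inst.T (Inst.MT 5 6) 6 W_16259489792 :=
  wt_ok6 W_16259489792_chk

theorem W_16274960576_ok : Fwd.WtOk Inst.T (Inst.MT 5 6) 6 W_16274960576 :=
  wt_ok6 W_16274960576_chk

theorem W_16274964608_ok : Fwd.WtOk Inst.T (Inst.MT 5 6) 6 W_16274964608 :=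
  wt_ok6 W_16274964608_chk

theorem W_16275230720_ok : Fwd.WtOk Inst.T (Inst.MT 5 6) 6 W_16275230720 :=
  wt_ok6 W_16275230720_chk

theorem W_16276000832_ok : Fwd.WtOk Inst.T (Inst.MT 5 6) 6 W_16276000832 :=
  wt_ok6 W_16276000832_chk

theorem W_16276262912_ok : Fwd.WtOk Inst.T (Inst.MT 5 6) 6 W_16276262912 :=
  wt_ok6 W_16276262912_chk

theorem W_16276520960_ok : Fwd.WtOk Inst.T (Inst.MT 5 6) 6 W_16276520960 :=
  wt_ok6 W_16276520960_chk

theorem W_16291737728_ok : Fwd.WtOk Inst.T (Inst.MT 5 6) 6 W_16291737728 :=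
  wt_ok6 W_16291737728_chk

theorem W_16291741760_ok : Fwd.WtOk Inst.T (Inst.MT 5 6) 6 W_16291741760 :=
  wt_ok6 W_16291741760_chk

theorem W_16291995776_ok : Fwd.WtOk Inst.T (Inst.MT 5 6) 6 W_16291995776 :=
  wt_ok6 W_16291995776_chk

theorem W_16291999808_ok : Fwd.WtOk Inst.T (Inst.MT 5 6) 6 W_16291999808 :=
  wt_ok6 W_16291999808_chk

theorem W_16292515904_ok : Fwd.WtOk Inst.T (Inst.MT 5 6) 6 W_16292515904 :=
  wt_ok6 W_16292515904_chk

theorem W_16292777984_ok : Fwd.WtOk Inst.T (Inst.MT 5 6) 6 W_16292777984 :=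
  wt_ok6 W_16292777984_chk

theorem W_16293036032_ok : Fwd.WtOk Inst.T (Inst.MT 5 6) 6 W_16293036032 :=
  wt_ok6 W_16293036032_chk

theorem W_16308252800_ok : Fwd.WtOk Inst.T (Inst.MT 5 6) 6 W_16308252800 :=
  wt_ok6 W_16308252800_chk

theorem W_16308510848_ok : Fwd.WtOk Inst.T (Inst.MT 5 6) 6 W_16308510848 :=
  wt_ok6 W_16308510848_chk

theorem W_16308514880_ok : Fwd.WtOk Inst.T (Inst.MT 5 6) 6 W_16308514880 :=
  wt_ok6 W_16308514880_chk

theorem W_16308518912_ok : Fwd.WtOk Inst.T (Inst.MT 5 6) 6 W_16308518912 :=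
  wt_ok6 W_16308518912_chk

theorem W_16309035008_ok : Fwd.WtOk Inst.T (Inst.MT 5 6) 6 W_16309035008 :=
  wt_ok6 W_16309035008_chk

theorem W_16325025920_ok : Fwd.WtOk Inst.T (Inst.MT 5 6) 6 W_16325025920 :=
  wt_ok6 W_16325025920_chk

theorem W_16325029952_ok : Fwd.WtOk Inst.T (Inst.MT 5 6) 6 W_16325029952 :=
  wt_ok6 W_16325029952_chk

theorem W_16325288000_ok : Fwd.WtOk Inst.T (Inst.MT 5 6) 6 W_16325288000 :=
  wt_ok6 W_16325288000_chk

theorem W_16325292032_ok : Fwd.WtOk Inst.T (Inst.MT 5 6) 6 W_16325292032 :=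
  wt_ok6 W_16325292032_chk

theorem W_16325546048_ok : Fwd.WtOk Inst.T (Inst.MT 5 6) 6 W_16325546048 :=
  wt_ok6 W_16325546048_chk

theorem W_16325550080_ok : Fwd.WtOk Inst.T (Inst.MT 5 6) 6 W_16325550080 :=
  wt_ok6 W_16325550080_chk

theorem W_16325808128_ok : Fwd.WtOk Inst.T (Inst.MT 5 6) 6 W_16325808128 :=
  wt_ok6 W_16325808128_chk

theorem W_16341540992_ok : Fwd.WtOk Inst.T (Inst.MT 5 6) 6 W_16341540992 :=
  wt_ok6 W_16341540992_chk

theorem W_16341803072_ok : Fwd.WtOk Inst.T (Inst.MT 5 6) 6 W_16341803072 :=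
  wt_ok6 W_16341803072_chk

theorem W_16341807104_ok : Fwd.WtOk Inst.T (Inst.MT 5 6) 6 W_16341807104 :=
  wt_ok6 W_16341807104_chk

theorem W_16342061120_ok : Fwd.WtOk Inst.T (Inst.MT 5 6) 6 W_16342061120 :=
  wt_ok6 W_16342061120_chk

theorem W_16342065152_ok : Fwd.WtOk Inst.T (Inst.MT 5 6) 6 W_16342065152 :=
  wt_ok6 W_16342065152_chk

theorem W_16342323200_ok : Fwd.WtOk Inst.T (Inst.MT 5 6) 6 W_16342323200 :=
  wt_ok6 W_16342323200_chk

theorem W_16342581248_ok : Fwd.WtOk Inst.T (Inst.MT 5 6) 6 W_16342581248 :=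
  wt_ok6 W_16342581248_chk

theorem W_16358576192_ok : Fwd.WtOk Inst.T (Inst.MT 5 6) 6 W_16358576192 :=
  wt_ok6 W_16358576192_chk

theorem W_16358580224_ok : Fwd.WtOk Inst.T (Inst.MT 5 6) 6 W_16358580224 :=
  wt_ok6 W_16358580224_chk

theorem W_16358838272_ok : Fwd.WtOk Inst.T (Inst.MT 5 6) 6 W_16358838272 :=
  wt_ok6 W_16358838272_chk

theorem W_16359096320_ok : Fwd.WtOk Inst.T (Inst.MT 5 6) 6 W_16359096320 :=
  wt_ok6 W_16359096320_chk

theorem W_17282121920_ok : Fwd.WtOk Inst.T (Inst.MT 5 6) 6 W_17282121920 :=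
  wt_ok6 W_17282121920_chk

theorem W_17282125952_ok : Fwd.WtOk Inst.T (Inst.MT 5 6) 6 W_17282125952 :=
  wt_ok6 W_17282125952_chk

theorem W_17282129984_ok : Fwd.WtOk Inst.T (Inst.MT 5 6) 6 W_17282129984 :=
  wt_ok6 W_17282129984_chk

theorem W_17298374912_ok : Fwd.WtOk Inst.T (Inst.MT 5 6) 6 W_17298374912 :=
  wt_ok6 W_17298374912_chk

theorem W_17298636992_ok : Fwd.WtOk Inst.T (Inst.MT 5 6) 6 W_17298636992 :=
  wt_ok6 W_17298636992_chk

theorem W_17298895040_ok : Fwd.WtOk Inst.T (Inst.MT 5 6) 6 W_17298895040 :=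
  wt_ok6 W_17298895040_chk

theorem W_17298899072_ok : Fwd.WtOk Inst.T (Inst.MT 5 6) 6 W_17298899072 :=
  wt_ok6 W_17298899072_chk

theorem W_17298903104_ok : Fwd.WtOk Inst.T (Inst.MT 5 6) 6 W_17298903104 :=
  wt_ok6 W_17298903104_chk

theorem W_17298907136_ok : Fwd.WtOk Inst.T (Inst.MT 5 6) 6 W_17298907136 :=
  wt_ok6 W_17298907136_chk

theorem W_17299157120_ok : Fwd.WtOk Inst.T (Inst.MT 5 6) 6 W_17299157120 :=
  wt_ok6 W_17299157120_chk

theorem W_17299161152_ok : Fwd.WtOk Inst.T (Inst.MT 5 6) 6 W_17299161152 :=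
  wt_ok6 W_17299161152_chk

theorem W_17299165184_ok : Fwd.WtOk Inst.T (Inst.MT 5 6) 6 W_17299165184 :=
  wt_ok6 W_17299165184_chk

theorem W_17315152064_ok : Fwd.WtOk Inst.T (Inst.MT 5 6) 6 W_17315152064 :=
  wt_ok6 W_17315152064_chk

theorem W_17315414144_ok : Fwd.WtOk Inst.T (Inst.MT 5 6) 6 W_17315414144 :=
  wt_ok6 W_17315414144_chk

theorem W_17315418176_ok : Fwd.WtOk Inst.T (Inst.MT 5 6) 6 W_17315418176 :=
  wt_ok6 W_17315418176_chk

theorem W_17315672192_ok : Fwd.WtOk Inst.T (Inst.MT 5 6) 6 W_17315672192 :=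
  wt_ok6 W_17315672192_chk

theorem W_17315676224_ok : Fwd.WtOk Inst.T (Inst.MT 5 6) 6 W_17315676224 :=
  wt_ok6 W_17315676224_chk

theorem W_17315680256_ok : Fwd.WtOk Inst.T (Inst.MT 5 6) 6 W_17315680256 :=
  wt_ok6 W_17315680256_chk

theorem W_17315930240_ok : Fwd.WtOk Inst.T (Inst.MT 5 6) 6 W_17315930240 :=
  wt_ok6 W_17315930240_chk

theorem W_17315934272_ok : Fwd.WtOk Inst.T (Inst.MT 5 6) 6 W_17315934272 :=
  wt_ok6 W_17315934272_chk

theorem W_17315938304_ok : Fwd.WtOk Inst.T (Inst.MT 5 6) 6 W_17315938304 :=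
  wt_ok6 W_17315938304_chk

theorem W_17316192320_ok : Fwd.WtOk Inst.T (Inst.MT 5 6) 6 W_17316192320 :=
  wt_ok6 W_17316192320_chk

theorem W_17316196352_ok : Fwd.WtOk Inst.T (Inst.MT 5 6) 6 W_17316196352 :=
  wt_ok6 W_17316196352_chk

theorem W_17331925184_ok : Fwd.WtOk Inst.T (Inst.MT 5 6) 6 W_17331925184 :=
  wt_ok6 W_17331925184_chk

theorem W_17331929216_ok : Fwd.WtOk Inst.T (Inst.MT 5 6) 6 W_17331929216 :=
  wt_ok6 W_17331929216_chk

theorem W_17332187264_ok : Fwd.WtOk Inst.T (Inst.MT 5 6) 6 W_17332187264 :=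
  wt_ok6 W_17332187264_chk

theorem W_17332195328_ok : Fwd.WtOk Inst.T (Inst.MT 5 6) 6 W_17332195328 :=
  wt_ok6 W_17332195328_chk

theorem W_17332445312_ok : Fwd.WtOk Inst.T (Inst.MT 5 6) 6 W_17332445312 :=
  wt_ok6 W_17332445312_chk

theorem W_17332965440_ok : Fwd.WtOk Inst.T (Inst.MT 5 6) 6 W_17332965440 :=
  wt_ok6 W_17332965440_chk

theorem W_17333227520_ok : Fwd.WtOk Inst.T (Inst.MT 5 6) 6 W_17333227520 :=
  wt_ok6 W_17333227520_chk

theorem W_17348702336_ok : Fwd.WtOk Inst.T (Inst.MT 5 6) 6 W_17348702336 :=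
  wt_ok6 W_17348702336_chk

theorem W_17348706368_ok : Fwd.WtOk Inst.T (Inst.MT 5 6) 6 W_17348706368 :=
  wt_ok6 W_17348706368_chk

theorem W_17348960384_ok : Fwd.WtOk Inst.T (Inst.MT 5 6) 6 W_17348960384 :=
  wt_ok6 W_17348960384_chk

theorem W_17349480512_ok : Fwd.WtOk Inst.T (Inst.MT 5 6) 6 W_17349480512 :=
  wt_ok6 W_17349480512_chk

theorem W_17349742592_ok : Fwd.WtOk Inst.T (Inst.MT 5 6) 6 W_17349742592 :=
  wt_ok6 W_17349742592_chk

theorem W_17350000640_ok : Fwd.WtOk Inst.T (Inst.MT 5 6) 6 W_17350000640 :=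
  wt_ok6 W_17350000640_chk

theorem W_17365217408_ok : Fwd.WtOk Inst.T (Inst.MT 5 6) 6 W_17365217408 :=
  wt_ok6 W_17365217408_chk

theorem W_17365475456_ok : Fwd.WtOk Inst.T (Inst.MT 5 6) 6 W_17365475456 :=
  wt_ok6 W_17365475456_chk

theorem W_17365479488_ok : Fwd.WtOk Inst.T (Inst.MT 5 6) 6 W_17365479488 :=
  wt_ok6 W_17365479488_chk

theorem W_17365483520_ok : Fwd.WtOk Inst.T (Inst.MT 5 6) 6 W_17365483520 :=
  wt_ok6 W_17365483520_chk

theorem W_17365995584_ok : Fwd.WtOk Inst.T (Inst.MT 5 6) 6 W_17365995584 :=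
  wt_ok6 W_17365995584_chk

theorem W_17365999616_ok : Fwd.WtOk Inst.T (Inst.MT 5 6) 6 W_17365999616 :=
  wt_ok6 W_17365999616_chk

theorem W_17366515712_ok : Fwd.WtOk Inst.T (Inst.MT 5 6) 6 W_17366515712 :=
  wt_ok6 W_17366515712_chk

theorem W_17381990528_ok : Fwd.WtOk Inst.T (Inst.MT 5 6) 6 W_17381990528 :=
  wt_ok6 W_17381990528_chk

theorem W_17381994560_ok : Fwd.WtOk Inst.T (Inst.MT 5 6) 6 W_17381994560 :=
  wt_ok6 W_17381994560_chk

theorem W_17382252608_ok : Fwd.WtOk Inst.T (Inst.MT 5 6) 6 W_17382252608 :=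
  wt_ok6 W_17382252608_chk

theorem W_17382256640_ok : Fwd.WtOk Inst.T (Inst.MT 5 6) 6 W_17382256640 :=
  wt_ok6 W_17382256640_chk

theorem W_17382510656_ok : Fwd.WtOk Inst.T (Inst.MT 5 6) 6 W_17382510656 :=
  wt_ok6 W_17382510656_chk

theorem W_17383030784_ok : Fwd.WtOk Inst.T (Inst.MT 5 6) 6 W_17383030784 :=
  wt_ok6 W_17383030784_chk

theorem W_17398505600_ok : Fwd.WtOk Inst.T (Inst.MT 5 6) 6 W_17398505600 :=
  wt_ok6 W_17398505600_chk

theorem W_17398767680_ok : Fwd.WtOk Inst.T (Inst.MT 5 6) 6 W_17398767680 :=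
  wt_ok6 W_17398767680_chk

theorem W_17398771712_ok : Fwd.WtOk Inst.T (Inst.MT 5 6) 6 W_17398771712 :=
  wt_ok6 W_17398771712_chk

theorem W_17399025728_ok : Fwd.WtOk Inst.T (Inst.MT 5 6) 6 W_17399025728 :=
  wt_ok6 W_17399025728_chk

theorem W_17399029760_ok : Fwd.WtOk Inst.T (Inst.MT 5 6) 6 W_17399029760 :=
  wt_ok6 W_17399029760_chk

theorem W_17399287808_ok : Fwd.WtOk Inst.T (Inst.MT 5 6) 6 W_17399287808 :=
  wt_ok6 W_17399287808_chk

theorem W_17399545856_ok : Fwd.WtOk Inst.T (Inst.MT 5 6) 6 W_17399545856 :=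
  wt_ok6 W_17399545856_chk

theorem W_17415282752_ok : Fwd.WtOk Inst.T (Inst.MT 5 6) 6 W_17415282752 :=
  wt_ok6 W_17415282752_chk

theorem W_17415540800_ok : Fwd.WtOk Inst.T (Inst.MT 5 6) 6 W_17415540800 :=
  wt_ok6 W_17415540800_chk

theorem W_17415544832_ok : Fwd.WtOk Inst.T (Inst.MT 5 6) 6 W_17415544832 :=
  wt_ok6 W_17415544832_chk

theorem W_17415802880_ok : Fwd.WtOk Inst.T (Inst.MT 5 6) 6 W_17415802880 :=
  wt_ok6 W_17415802880_chk

theorem W_17416060928_ok : Fwd.WtOk Inst.T (Inst.MT 5 6) 6 W_17416060928 :=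
  wt_ok6 W_17416060928_chk

theorem W_17432055872_ok : Fwd.WtOk Inst.T (Inst.MT 5 6) 6 W_17432055872 :=
  wt_ok6 W_17432055872_chk

theorem W_17432059904_ok : Fwd.WtOk Inst.T (Inst.MT 5 6) 6 W_17432059904 :=
  wt_ok6 W_17432059904_chk

theorem W_17432317952_ok : Fwd.WtOk Inst.T (Inst.MT 5 6) 6 W_17432317952 :=
  wt_ok6 W_17432317952_chk

theorem W_17432576000_ok : Fwd.WtOk Inst.T (Inst.MT 5 6) 6 W_17432576000 :=
  wt_ok6 W_17432576000_chk

theorem W_17448833024_ok : Fwd.WtOk Inst.T (Inst.MT 5 6) 6 W_17448833024 :=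
  wt_ok6 W_17448833024_chk

theorem W_17449091072_ok : Fwd.WtOk Inst.T (Inst.MT 5 6) 6 W_17449091072 :=
  wt_ok6 W_17449091072_chk

theorem W_18355339520_ok : Fwd.WtOk Inst.T (Inst.MT 5 6) 6 W_18355339520 :=
  wt_ok6 W_18355339520_chk

theorem W_18355863680_ok : Fwd.WtOk Inst.T (Inst.MT 5 6) 6 W_18355863680 :=
  wt_ok6 W_18355863680_chk

theorem W_18355867712_ok : Fwd.WtOk Inst.T (Inst.MT 5 6) 6 W_18355867712 :=
  wt_ok6 W_18355867712_chk

theorem W_18355871744_ok : Fwd.WtOk Inst.T (Inst.MT 5 6) 6 W_18355871744 :=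
  wt_ok6 W_18355871744_chk

theorem W_18372116672_ok : Fwd.WtOk Inst.T (Inst.MT 5 6) 6 W_18372116672 :=
  wt_ok6 W_18372116672_chk

theorem W_18372374720_ok : Fwd.WtOk Inst.T (Inst.MT 5 6) 6 W_18372374720 :=
  wt_ok6 W_18372374720_chk

theorem W_18372378752_ok : Fwd.WtOk Inst.T (Inst.MT 5 6) 6 W_18372378752 :=
  wt_ok6 W_18372378752_chk

theorem W_18372382784_ok : Fwd.WtOk Inst.T (Inst.MT 5 6) 6 W_18372382784 :=
  wt_ok6 W_18372382784_chk

theorem W_18372636800_ok : Fwd.WtOk Inst.T (Inst.MT 5 6) 6 W_18372636800 :=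
  wt_ok6 W_18372636800_chk

theorem W_18372640832_ok : Fwd.WtOk Inst.T (Inst.MT 5 6) 6 W_18372640832 :=
  wt_ok6 W_18372640832_chk

theorem W_18372644864_ok : Fwd.WtOk Inst.T (Inst.MT 5 6) 6 W_18372644864 :=
  wt_ok6 W_18372644864_chk

theorem W_18372898880_ok : Fwd.WtOk Inst.T (Inst.MT 5 6) 6 W_18372898880 :=
  wt_ok6 W_18372898880_chk

theorem W_18372902912_ok : Fwd.WtOk Inst.T (Inst.MT 5 6) 6 W_18372902912 :=
  wt_ok6 W_18372902912_chk

theorem W_18388893824_ok : Fwd.WtOk Inst.T (Inst.MT 5 6) 6 W_18388893824 :=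
  wt_ok6 W_18388893824_chk

theorem W_18389151872_ok : Fwd.WtOk Inst.T (Inst.MT 5 6) 6 W_18389151872 :=
  wt_ok6 W_18389151872_chk

theorem W_18389155904_ok : Fwd.WtOk Inst.T (Inst.MT 5 6) 6 W_18389155904 :=
  wt_ok6 W_18389155904_chk

theorem W_18389159936_ok : Fwd.WtOk Inst.T (Inst.MT 5 6) 6 W_18389159936 :=
  wt_ok6 W_18389159936_chk

theorem W_18389409920_ok : Fwd.WtOk Inst.T (Inst.MT 5 6) 6 W_18389409920 :=
  wt_ok6 W_18389409920_chk

theorem W_18389413952_ok : Fwd.WtOk Inst.T (Inst.MT 5 6) 6 W_18389413952 :=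
  wt_ok6 W_18389413952_chk

theorem W_18389417984_ok : Fwd.WtOk Inst.T (Inst.MT 5 6) 6 W_18389417984 :=
  wt_ok6 W_18389417984_chk

theorem W_18389672000_ok : Fwd.WtOk Inst.T (Inst.MT 5 6) 6 W_18389672000 :=
  wt_ok6 W_18389672000_chk

theorem W_18389676032_ok : Fwd.WtOk Inst.T (Inst.MT 5 6) 6 W_18389676032 :=
  wt_ok6 W_18389676032_chk

theorem W_18389930048_ok : Fwd.WtOk Inst.T (Inst.MT 5 6) 6 W_18389930048 :=
  wt_ok6 W_18389930048_chk

theorem W_18389934080_ok : Fwd.WtOk Inst.T (Inst.MT 5 6) 6 W_18389934080 :=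
  wt_ok6 W_18389934080_chk

theorem W_18405666944_ok : Fwd.WtOk Inst.T (Inst.MT 5 6) 6 W_18405666944 :=
  wt_ok6 W_18405666944_chk

theorem W_18405924992_ok : Fwd.WtOk Inst.T (Inst.MT 5 6) 6 W_18405924992 :=
  wt_ok6 W_18405924992_chk

theorem W_18405929024_ok : Fwd.WtOk Inst.T (Inst.MT 5 6) 6 W_18405929024 :=
  wt_ok6 W_18405929024_chk

theorem W_18406187072_ok : Fwd.WtOk Inst.T (Inst.MT 5 6) 6 W_18406187072 :=
  wt_ok6 W_18406187072_chk

theorem W_18406445120_ok : Fwd.WtOk Inst.T (Inst.MT 5 6) 6 W_18406445120 :=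
  wt_ok6 W_18406445120_chk

theorem W_18406449152_ok : Fwd.WtOk Inst.T (Inst.MT 5 6) 6 W_18406449152 :=
  wt_ok6 W_18406449152_chk

theorem W_18406707200_ok : Fwd.WtOk Inst.T (Inst.MT 5 6) 6 W_18406707200 :=
  wt_ok6 W_18406707200_chk

theorem W_18406965248_ok : Fwd.WtOk Inst.T (Inst.MT 5 6) 6 W_18406965248 :=
  wt_ok6 W_18406965248_chk

theorem W_18422182016_ok : Fwd.WtOk Inst.T (Inst.MT 5 6) 6 W_18422182016 :=
  wt_ok6 W_18422182016_chk

theorem W_18422440064_ok : Fwd.WtOk Inst.T (Inst.MT 5 6) 6 W_18422440064 :=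
  wt_ok6 W_18422440064_chk

theorem W_18422444096_ok : Fwd.WtOk Inst.T (Inst.MT 5 6) 6 W_18422444096 :=
  wt_ok6 W_18422444096_chk

theorem W_18422448128_ok : Fwd.WtOk Inst.T (Inst.MT 5 6) 6 W_18422448128 :=
  wt_ok6 W_18422448128_chk

theorem W_18422960192_ok : Fwd.WtOk Inst.T (Inst.MT 5 6) 6 W_18422960192 :=
  wt_ok6 W_18422960192_chk

theorem W_18438955136_ok : Fwd.WtOk Inst.T (Inst.MT 5 6) 6 W_18438955136 :=
  wt_ok6 W_18438955136_chk

theorem W_18438959168_ok : Fwd.WtOk Inst.T (Inst.MT 5 6) 6 W_18438959168 :=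
  wt_ok6 W_18438959168_chk

theorem W_18439217216_ok : Fwd.WtOk Inst.T (Inst.MT 5 6) 6 W_18439217216 :=
  wt_ok6 W_18439217216_chk

theorem W_18439221248_ok : Fwd.WtOk Inst.T (Inst.MT 5 6) 6 W_18439221248 :=
  wt_ok6 W_18439221248_chk

theorem W_18439475264_ok : Fwd.WtOk Inst.T (Inst.MT 5 6) 6 W_18439475264 :=
  wt_ok6 W_18439475264_chk

theorem W_18455470208_ok : Fwd.WtOk Inst.T (Inst.MT 5 6) 6 W_18455470208 :=
  wt_ok6 W_18455470208_chk

theorem W_18455732288_ok : Fwd.WtOk Inst.T (Inst.MT 5 6) 6 W_18455732288 :=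
  wt_ok6 W_18455732288_chk

theorem W_18455736320_ok : Fwd.WtOk Inst.T (Inst.MT 5 6) 6 W_18455736320 :=
  wt_ok6 W_18455736320_chk

theorem W_18455990336_ok : Fwd.WtOk Inst.T (Inst.MT 5 6) 6 W_18455990336 :=
  wt_ok6 W_18455990336_chk

theorem W_18455994368_ok : Fwd.WtOk Inst.T (Inst.MT 5 6) 6 W_18455994368 :=
  wt_ok6 W_18455994368_chk

theorem W_18456252416_ok : Fwd.WtOk Inst.T (Inst.MT 5 6) 6 W_18456252416 :=
  wt_ok6 W_18456252416_chk

theorem W_18456510464_ok : Fwd.WtOk Inst.T (Inst.MT 5 6) 6 W_18456510464 :=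
  wt_ok6 W_18456510464_chk

theorem W_18472247360_ok : Fwd.WtOk Inst.T (Inst.MT 5 6) 6 W_18472247360 :=
  wt_ok6 W_18472247360_chk

theorem W_18472505408_ok : Fwd.WtOk Inst.T (Inst.MT 5 6) 6 W_18472505408 :=
  wt_ok6 W_18472505408_chk

theorem W_18472509440_ok : Fwd.WtOk Inst.T (Inst.MT 5 6) 6 W_18472509440 :=
  wt_ok6 W_18472509440_chk

theorem W_18472767488_ok : Fwd.WtOk Inst.T (Inst.MT 5 6) 6 W_18472767488 :=
  wt_ok6 W_18472767488_chk

theorem W_18473025536_ok : Fwd.WtOk Inst.T (Inst.MT 5 6) 6 W_18473025536 :=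
  wt_ok6 W_18473025536_chk

theorem W_18489020480_ok : Fwd.WtOk Inst.T (Inst.MT 5 6) 6 W_18489020480 :=
  wt_ok6 W_18489020480_chk

theorem W_18489024512_ok : Fwd.WtOk Inst.T (Inst.MT 5 6) 6 W_18489024512 :=
  wt_ok6 W_18489024512_chk

theorem W_18489282560_ok : Fwd.WtOk Inst.T (Inst.MT 5 6) 6 W_18489282560 :=
  wt_ok6 W_18489282560_chk

theorem W_18489540608_ok : Fwd.WtOk Inst.T (Inst.MT 5 6) 6 W_18489540608 :=
  wt_ok6 W_18489540608_chk

theorem W_18505535552_ok : Fwd.WtOk Inst.T (Inst.MT 5 6) 6 W_18505535552 :=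
  wt_ok6 W_18505535552_chk

theorem W_18505797632_ok : Fwd.WtOk Inst.T (Inst.MT 5 6) 6 W_18505797632 :=
  wt_ok6 W_18505797632_chk

theorem W_18506055680_ok : Fwd.WtOk Inst.T (Inst.MT 5 6) 6 W_18506055680 :=
  wt_ok6 W_18506055680_chk

theorem W_18522312704_ok : Fwd.WtOk Inst.T (Inst.MT 5 6) 6 W_18522312704 :=
  wt_ok6 W_18522312704_chk

theorem W_18522570752_ok : Fwd.WtOk Inst.T (Inst.MT 5 6) 6 W_18522570752 :=
  wt_ok6 W_18522570752_chk

theorem W_19429081280_ok : Fwd.WtOk Inst.T (Inst.MT 5 6) 6 W_19429081280 :=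
  wt_ok6 W_19429081280_chk

theorem W_19429343360_ok : Fwd.WtOk Inst.T (Inst.MT 5 6) 6 W_19429343360 :=
  wt_ok6 W_19429343360_chk

theorem W_19429601408_ok : Fwd.WtOk Inst.T (Inst.MT 5 6) 6 W_19429601408 :=
  wt_ok6 W_19429601408_chk

theorem W_19429605440_ok : Fwd.WtOk Inst.T (Inst.MT 5 6) 6 W_19429605440 :=
  wt_ok6 W_19429605440_chk

theorem W_19429609472_ok : Fwd.WtOk Inst.T (Inst.MT 5 6) 6 W_19429609472 :=
  wt_ok6 W_19429609472_chk

theorem W_19445858432_ok : Fwd.WtOk Inst.T (Inst.MT 5 6) 6 W_19445858432 :=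
  wt_ok6 W_19445858432_chk

theorem W_19446116480_ok : Fwd.WtOk Inst.T (Inst.MT 5 6) 6 W_19446116480 :=
  wt_ok6 W_19446116480_chk

theorem W_19446120512_ok : Fwd.WtOk Inst.T (Inst.MT 5 6) 6 W_19446120512 :=
  wt_ok6 W_19446120512_chk

theorem W_19446124544_ok : Fwd.WtOk Inst.T (Inst.MT 5 6) 6 W_19446124544 :=
  wt_ok6 W_19446124544_chk

theorem W_19446374528_ok : Fwd.WtOk Inst.T (Inst.MT 5 6) 6 W_19446374528 :=
  wt_ok6 W_19446374528_chk

theorem W_19446378560_ok : Fwd.WtOk Inst.T (Inst.MT 5 6) 6 W_19446378560 :=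
  wt_ok6 W_19446378560_chk

theorem W_19446382592_ok : Fwd.WtOk Inst.T (Inst.MT 5 6) 6 W_19446382592 :=
  wt_ok6 W_19446382592_chk

theorem W_19446636608_ok : Fwd.WtOk Inst.T (Inst.MT 5 6) 6 W_19446636608 :=
  wt_ok6 W_19446636608_chk

theorem W_19446640640_ok : Fwd.WtOk Inst.T (Inst.MT 5 6) 6 W_19446640640 :=
  wt_ok6 W_19446640640_chk

theorem W_19462631552_ok : Fwd.WtOk Inst.T (Inst.MT 5 6) 6 W_19462631552 :=
  wt_ok6 W_19462631552_chk

theorem W_19462635584_ok : Fwd.WtOk Inst.T (Inst.MT 5 6) 6 W_19462635584 :=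
  wt_ok6 W_19462635584_chk

theorem W_19462889600_ok : Fwd.WtOk Inst.T (Inst.MT 5 6) 6 W_19462889600 :=
  wt_ok6 W_19462889600_chk

theorem W_19462893632_ok : Fwd.WtOk Inst.T (Inst.MT 5 6) 6 W_19462893632 :=
  wt_ok6 W_19462893632_chk

theorem W_19462897664_ok : Fwd.WtOk Inst.T (Inst.MT 5 6) 6 W_19462897664 :=
  wt_ok6 W_19462897664_chk

theorem W_19463151680_ok : Fwd.WtOk Inst.T (Inst.MT 5 6) 6 W_19463151680 :=
  wt_ok6 W_19463151680_chk

theorem W_19463155712_ok : Fwd.WtOk Inst.T (Inst.MT 5 6) 6 W_19463155712 :=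
  wt_ok6 W_19463155712_chk

theorem W_19463409728_ok : Fwd.WtOk Inst.T (Inst.MT 5 6) 6 W_19463409728 :=
  wt_ok6 W_19463409728_chk

theorem W_19463413760_ok : Fwd.WtOk Inst.T (Inst.MT 5 6) 6 W_19463413760 :=
  wt_ok6 W_19463413760_chk

theorem W_19463671808_ok : Fwd.WtOk Inst.T (Inst.MT 5 6) 6 W_19463671808 :=
  wt_ok6 W_19463671808_chk

theorem W_19479146624_ok : Fwd.WtOk Inst.T (Inst.MT 5 6) 6 W_19479146624 :=
  wt_ok6 W_19479146624_chk

theorem W_19479404672_ok : Fwd.WtOk Inst.T (Inst.MT 5 6) 6 W_19479404672 :=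
  wt_ok6 W_19479404672_chk

theorem W_19479408704_ok : Fwd.WtOk Inst.T (Inst.MT 5 6) 6 W_19479408704 :=
  wt_ok6 W_19479408704_chk

theorem W_19479412736_ok : Fwd.WtOk Inst.T (Inst.MT 5 6) 6 W_19479412736 :=
  wt_ok6 W_19479412736_chk

theorem W_19479666752_ok : Fwd.WtOk Inst.T (Inst.MT 5 6) 6 W_19479666752 :=
  wt_ok6 W_19479666752_chk

theorem W_19479670784_ok : Fwd.WtOk Inst.T (Inst.MT 5 6) 6 W_19479670784 :=
  wt_ok6 W_19479670784_chk

theorem W_19479924800_ok : Fwd.WtOk Inst.T (Inst.MT 5 6) 6 W_19479924800 :=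
  wt_ok6 W_19479924800_chk

theorem W_19480186880_ok : Fwd.WtOk Inst.T (Inst.MT 5 6) 6 W_19480186880 :=
  wt_ok6 W_19480186880_chk

theorem W_19480444928_ok : Fwd.WtOk Inst.T (Inst.MT 5 6) 6 W_19480444928 :=
  wt_ok6 W_19480444928_chk

theorem W_19495919744_ok : Fwd.WtOk Inst.T (Inst.MT 5 6) 6 W_19495919744 :=
  wt_ok6 W_19495919744_chk

theorem W_19495923776_ok : Fwd.WtOk Inst.T (Inst.MT 5 6) 6 W_19495923776 :=
  wt_ok6 W_19495923776_chk

theorem W_19496181824_ok : Fwd.WtOk Inst.T (Inst.MT 5 6) 6 W_19496181824 :=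
  wt_ok6 W_19496181824_chk

theorem W_19496185856_ok : Fwd.WtOk Inst.T (Inst.MT 5 6) 6 W_19496185856 :=
  wt_ok6 W_19496185856_chk

theorem W_19496439872_ok : Fwd.WtOk Inst.T (Inst.MT 5 6) 6 W_19496439872 :=
  wt_ok6 W_19496439872_chk

theorem W_19496443904_ok : Fwd.WtOk Inst.T (Inst.MT 5 6) 6 W_19496443904 :=
  wt_ok6 W_19496443904_chk

theorem W_19496701952_ok : Fwd.WtOk Inst.T (Inst.MT 5 6) 6 W_19496701952 :=
  wt_ok6 W_19496701952_chk

theorem W_19496960000_ok : Fwd.WtOk Inst.T (Inst.MT 5 6) 6 W_19496960000 :=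
  wt_ok6 W_19496960000_chk

theorem W_19512434816_ok : Fwd.WtOk Inst.T (Inst.MT 5 6) 6 W_19512434816 :=
  wt_ok6 W_19512434816_chk

theorem W_19512696896_ok : Fwd.WtOk Inst.T (Inst.MT 5 6) 6 W_19512696896 :=
  wt_ok6 W_19512696896_chk

theorem W_19512700928_ok : Fwd.WtOk Inst.T (Inst.MT 5 6) 6 W_19512700928 :=
  wt_ok6 W_19512700928_chk

theorem W_19512954944_ok : Fwd.WtOk Inst.T (Inst.MT 5 6) 6 W_19512954944 :=
  wt_ok6 W_19512954944_chk

theorem W_19512958976_ok : Fwd.WtOk Inst.T (Inst.MT 5 6) 6 W_19512958976 :=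
  wt_ok6 W_19512958976_chk

theorem W_19513217024_ok : Fwd.WtOk Inst.T (Inst.MT 5 6) 6 W_19513217024 :=
  wt_ok6 W_19513217024_chk

theorem W_19513475072_ok : Fwd.WtOk Inst.T (Inst.MT 5 6) 6 W_19513475072 :=
  wt_ok6 W_19513475072_chk

theorem W_19529211968_ok : Fwd.WtOk Inst.T (Inst.MT 5 6) 6 W_19529211968 :=
  wt_ok6 W_19529211968_chk

theorem W_19529470016_ok : Fwd.WtOk Inst.T (Inst.MT 5 6) 6 W_19529470016 :=
  wt_ok6 W_19529470016_chk

theorem W_19529474048_ok : Fwd.WtOk Inst.T (Inst.MT 5 6) 6 W_19529474048 :=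
  wt_ok6 W_19529474048_chk

theorem W_19529732096_ok : Fwd.WtOk Inst.T (Inst.MT 5 6) 6 W_19529732096 :=
  wt_ok6 W_19529732096_chk

theorem W_19529990144_ok : Fwd.WtOk Inst.T (Inst.MT 5 6) 6 W_19529990144 :=
  wt_ok6 W_19529990144_chk

theorem W_19545985088_ok : Fwd.WtOk Inst.T (Inst.MT 5 6) 6 W_19545985088 :=
  wt_ok6 W_19545985088_chk

theorem W_19545989120_ok : Fwd.WtOk Inst.T (Inst.MT 5 6) 6 W_19545989120 :=
  wt_ok6 W_19545989120_chk

theorem W_19546247168_ok : Fwd.WtOk Inst.T (Inst.MT 5 6) 6 W_19546247168 :=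
  wt_ok6 W_19546247168_chk

theorem W_19546505216_ok : Fwd.WtOk Inst.T (Inst.MT 5 6) 6 W_19546505216 :=
  wt_ok6 W_19546505216_chk

theorem W_19562762240_ok : Fwd.WtOk Inst.T (Inst.MT 5 6) 6 W_19562762240 :=
  wt_ok6 W_19562762240_chk

theorem W_19563020288_ok : Fwd.WtOk Inst.T (Inst.MT 5 6) 6 W_19563020288 :=
  wt_ok6 W_19563020288_chk

theorem W_19579277312_ok : Fwd.WtOk Inst.T (Inst.MT 5 6) 6 W_19579277312 :=
  wt_ok6 W_19579277312_chk

theorem W_19579535360_ok : Fwd.WtOk Inst.T (Inst.MT 5 6) 6 W_19579535360 :=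
  wt_ok6 W_19579535360_chk

theorem W_19596050432_ok : Fwd.WtOk Inst.T (Inst.MT 5 6) 6 W_19596050432 :=
  wt_ok6 W_19596050432_chk

theorem W_19612565504_ok : Fwd.WtOk Inst.T (Inst.MT 5 6) 6 W_19612565504 :=
  wt_ok6 W_19612565504_chk

theorem W_20469268736_ok : Fwd.WtOk Inst.T (Inst.MT 5 6) 6 W_20469268736 :=
  wt_ok6 W_20469268736_chk

theorem W_20502823040_ok : Fwd.WtOk Inst.T (Inst.MT 5 6) 6 W_20502823040 :=
  wt_ok6 W_20502823040_chk

theorem W_20503081088_ok : Fwd.WtOk Inst.T (Inst.MT 5 6) 6 W_20503081088 :=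
  wt_ok6 W_20503081088_chk

theorem W_20503085120_ok : Fwd.WtOk Inst.T (Inst.MT 5 6) 6 W_20503085120 :=
  wt_ok6 W_20503085120_chk

theorem W_20503339136_ok : Fwd.WtOk Inst.T (Inst.MT 5 6) 6 W_20503339136 :=
  wt_ok6 W_20503339136_chk

theorem W_20503343168_ok : Fwd.WtOk Inst.T (Inst.MT 5 6) 6 W_20503343168 :=
  wt_ok6 W_20503343168_chk

theorem W_20503347200_ok : Fwd.WtOk Inst.T (Inst.MT 5 6) 6 W_20503347200 :=
  wt_ok6 W_20503347200_chk

theorem W_20519596160_ok : Fwd.WtOk Inst.T (Inst.MT 5 6) 6 W_20519596160 :=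
  wt_ok6 W_20519596160_chk

theorem W_20519600192_ok : Fwd.WtOk Inst.T (Inst.MT 5 6) 6 W_20519600192 :=
  wt_ok6 W_20519600192_chk

theorem W_20519854208_ok : Fwd.WtOk Inst.T (Inst.MT 5 6) 6 W_20519854208 :=
  wt_ok6 W_20519854208_chk

theorem W_20519858240_ok : Fwd.WtOk Inst.T (Inst.MT 5 6) 6 W_20519858240 :=
  wt_ok6 W_20519858240_chk

theorem W_20519862272_ok : Fwd.WtOk Inst.T (Inst.MT 5 6) 6 W_20519862272 :=
  wt_ok6 W_20519862272_chk

theorem W_20520116288_ok : Fwd.WtOk Inst.T (Inst.MT 5 6) 6 W_20520116288 :=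
  wt_ok6 W_20520116288_chk

theorem W_20520120320_ok : Fwd.WtOk Inst.T (Inst.MT 5 6) 6 W_20520120320 :=
  wt_ok6 W_20520120320_chk

theorem W_20520374336_ok : Fwd.WtOk Inst.T (Inst.MT 5 6) 6 W_20520374336 :=
  wt_ok6 W_20520374336_chk

theorem W_20520378368_ok : Fwd.WtOk Inst.T (Inst.MT 5 6) 6 W_20520378368 :=
  wt_ok6 W_20520378368_chk

theorem W_20536369280_ok : Fwd.WtOk Inst.T (Inst.MT 5 6) 6 W_20536369280 :=
  wt_ok6 W_20536369280_chk

theorem W_20536373312_ok : Fwd.WtOk Inst.T (Inst.MT 5 6) 6 W_20536373312 :=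
  wt_ok6 W_20536373312_chk

theorem W_20536631360_ok : Fwd.WtOk Inst.T (Inst.MT 5 6) 6 W_20536631360 :=
  wt_ok6 W_20536631360_chk

theorem W_20536635392_ok : Fwd.WtOk Inst.T (Inst.MT 5 6) 6 W_20536635392 :=
  wt_ok6 W_20536635392_chk

theorem W_20536889408_ok : Fwd.WtOk Inst.T (Inst.MT 5 6) 6 W_20536889408 :=
  wt_ok6 W_20536889408_chk

theorem W_20536893440_ok : Fwd.WtOk Inst.T (Inst.MT 5 6) 6 W_20536893440 :=
  wt_ok6 W_20536893440_chk

theorem W_20537151488_ok : Fwd.WtOk Inst.T (Inst.MT 5 6) 6 W_20537151488 :=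
  wt_ok6 W_20537151488_chk

theorem W_20537409536_ok : Fwd.WtOk Inst.T (Inst.MT 5 6) 6 W_20537409536 :=
  wt_ok6 W_20537409536_chk

theorem W_20552884352_ok : Fwd.WtOk Inst.T (Inst.MT 5 6) 6 W_20552884352 :=
  wt_ok6 W_20552884352_chk

theorem W_20552888384_ok : Fwd.WtOk Inst.T (Inst.MT 5 6) 6 W_20552888384 :=
  wt_ok6 W_20552888384_chk

theorem W_20553146432_ok : Fwd.WtOk Inst.T (Inst.MT 5 6) 6 W_20553146432 :=
  wt_ok6 W_20553146432_chk

theorem W_20553150464_ok : Fwd.WtOk Inst.T (Inst.MT 5 6) 6 W_20553150464 :=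
  wt_ok6 W_20553150464_chk

theorem W_20553408512_ok : Fwd.WtOk Inst.T (Inst.MT 5 6) 6 W_20553408512 :=
  wt_ok6 W_20553408512_chk

theorem W_20569399424_ok : Fwd.WtOk Inst.T (Inst.MT 5 6) 6 W_20569399424 :=
  wt_ok6 W_20569399424_chk

theorem W_20569661504_ok : Fwd.WtOk Inst.T (Inst.MT 5 6) 6 W_20569661504 :=
  wt_ok6 W_20569661504_chk

theorem W_20569665536_ok : Fwd.WtOk Inst.T (Inst.MT 5 6) 6 W_20569665536 :=
  wt_ok6 W_20569665536_chk

theorem W_20569923584_ok : Fwd.WtOk Inst.T (Inst.MT 5 6) 6 W_20569923584 :=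
  wt_ok6 W_20569923584_chk

theorem W_20570181632_ok : Fwd.WtOk Inst.T (Inst.MT 5 6) 6 W_20570181632 :=
  wt_ok6 W_20570181632_chk

theorem W_20570439680_ok : Fwd.WtOk Inst.T (Inst.MT 5 6) 6 W_20570439680 :=
  wt_ok6 W_20570439680_chk

theorem W_20586176576_ok : Fwd.WtOk Inst.T (Inst.MT 5 6) 6 W_20586176576 :=
  wt_ok6 W_20586176576_chk

theorem W_20586434624_ok : Fwd.WtOk Inst.T (Inst.MT 5 6) 6 W_20586434624 :=
  wt_ok6 W_20586434624_chk

theorem W_20586438656_ok : Fwd.WtOk Inst.T (Inst.MT 5 6) 6 W_20586438656 :=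
  wt_ok6 W_20586438656_chk

theorem W_20586696704_ok : Fwd.WtOk Inst.T (Inst.MT 5 6) 6 W_20586696704 :=
  wt_ok6 W_20586696704_chk

theorem W_20602949696_ok : Fwd.WtOk Inst.T (Inst.MT 5 6) 6 W_20602949696 :=
  wt_ok6 W_20602949696_chk

theorem W_20603211776_ok : Fwd.WtOk Inst.T (Inst.MT 5 6) 6 W_20603211776 :=
  wt_ok6 W_20603211776_chk

theorem W_20619464768_ok : Fwd.WtOk Inst.T (Inst.MT 5 6) 6 W_20619464768 :=
  wt_ok6 W_20619464768_chk

theorem W_20619984896_ok : Fwd.WtOk Inst.T (Inst.MT 5 6) 6 W_20619984896 :=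
  wt_ok6 W_20619984896_chk

theorem W_20636241920_ok : Fwd.WtOk Inst.T (Inst.MT 5 6) 6 W_20636241920 :=
  wt_ok6 W_20636241920_chk

theorem W_20636499968_ok : Fwd.WtOk Inst.T (Inst.MT 5 6) 6 W_20636499968 :=
  wt_ok6 W_20636499968_chk

theorem W_20653015040_ok : Fwd.WtOk Inst.T (Inst.MT 5 6) 6 W_20653015040 :=
  wt_ok6 W_20653015040_chk

theorem W_20669530112_ok : Fwd.WtOk Inst.T (Inst.MT 5 6) 6 W_20669530112 :=
  wt_ok6 W_20669530112_chk

theorem W_21559787648_ok : Fwd.WtOk Inst.T (Inst.MT 5 6) 6 W_21559787648 :=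
  wt_ok6 W_21559787648_chk

theorem W_21576560768_ok : Fwd.WtOk Inst.T (Inst.MT 5 6) 6 W_21576560768 :=
  wt_ok6 W_21576560768_chk

theorem W_21576564800_ok : Fwd.WtOk Inst.T (Inst.MT 5 6) 6 W_21576564800 :=
  wt_ok6 W_21576564800_chk

theorem W_21576818816_ok : Fwd.WtOk Inst.T (Inst.MT 5 6) 6 W_21576818816 :=
  wt_ok6 W_21576818816_chk

theorem W_21576822848_ok : Fwd.WtOk Inst.T (Inst.MT 5 6) 6 W_21576822848 :=
  wt_ok6 W_21576822848_chk

theorem W_21576826880_ok : Fwd.WtOk Inst.T (Inst.MT 5 6) 6 W_21576826880 :=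
  wt_ok6 W_21576826880_chk

theorem W_21577080896_ok : Fwd.WtOk Inst.T (Inst.MT 5 6) 6 W_21577080896 :=
  wt_ok6 W_21577080896_chk

theorem W_21577084928_ok : Fwd.WtOk Inst.T (Inst.MT 5 6) 6 W_21577084928 :=
  wt_ok6 W_21577084928_chk

theorem W_21593333888_ok : Fwd.WtOk Inst.T (Inst.MT 5 6) 6 W_21593333888 :=
  wt_ok6 W_21593333888_chk

theorem W_21593337920_ok : Fwd.WtOk Inst.T (Inst.MT 5 6) 6 W_21593337920 :=
  wt_ok6 W_21593337920_chk

theorem W_21593341952_ok : Fwd.WtOk Inst.T (Inst.MT 5 6) 6 W_21593341952 :=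
  wt_ok6 W_21593341952_chk

theorem W_21593595968_ok : Fwd.WtOk Inst.T (Inst.MT 5 6) 6 W_21593595968 :=
  wt_ok6 W_21593595968_chk

theorem W_21593600000_ok : Fwd.WtOk Inst.T (Inst.MT 5 6) 6 W_21593600000 :=
  wt_ok6 W_21593600000_chk

theorem W_21593854016_ok : Fwd.WtOk Inst.T (Inst.MT 5 6) 6 W_21593854016 :=
  wt_ok6 W_21593854016_chk

theorem W_21593858048_ok : Fwd.WtOk Inst.T (Inst.MT 5 6) 6 W_21593858048 :=
  wt_ok6 W_21593858048_chk

theorem W_21594116096_ok : Fwd.WtOk Inst.T (Inst.MT 5 6) 6 W_21594116096 :=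
  wt_ok6 W_21594116096_chk

theorem W_21609848960_ok : Fwd.WtOk Inst.T (Inst.MT 5 6) 6 W_21609848960 :=
  wt_ok6 W_21609848960_chk

theorem W_21609852992_ok : Fwd.WtOk Inst.T (Inst.MT 5 6) 6 W_21609852992 :=
  wt_ok6 W_21609852992_chk

theorem W_21610111040_ok : Fwd.WtOk Inst.T (Inst.MT 5 6) 6 W_21610111040 :=
  wt_ok6 W_21610111040_chk

theorem W_21610369088_ok : Fwd.WtOk Inst.T (Inst.MT 5 6) 6 W_21610369088 :=
  wt_ok6 W_21610369088_chk

theorem W_21610889216_ok : Fwd.WtOk Inst.T (Inst.MT 5 6) 6 W_21610889216 :=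
  wt_ok6 W_21610889216_chk

theorem W_21626364032_ok : Fwd.WtOk Inst.T (Inst.MT 5 6) 6 W_21626364032 :=
  wt_ok6 W_21626364032_chk

theorem W_21626626112_ok : Fwd.WtOk Inst.T (Inst.MT 5 6) 6 W_21626626112 :=
  wt_ok6 W_21626626112_chk

theorem W_21626630144_ok : Fwd.WtOk Inst.T (Inst.MT 5 6) 6 W_21626630144 :=
  wt_ok6 W_21626630144_chk

theorem W_21626884160_ok : Fwd.WtOk Inst.T (Inst.MT 5 6) 6 W_21626884160 :=
  wt_ok6 W_21626884160_chk

theorem W_21626888192_ok : Fwd.WtOk Inst.T (Inst.MT 5 6) 6 W_21626888192 :=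
  wt_ok6 W_21626888192_chk

theorem W_21627146240_ok : Fwd.WtOk Inst.T (Inst.MT 5 6) 6 W_21627146240 :=
  wt_ok6 W_21627146240_chk

theorem W_21627404288_ok : Fwd.WtOk Inst.T (Inst.MT 5 6) 6 W_21627404288 :=
  wt_ok6 W_21627404288_chk

theorem W_21643141184_ok : Fwd.WtOk Inst.T (Inst.MT 5 6) 6 W_21643141184 :=
  wt_ok6 W_21643141184_chk

theorem W_21643399232_ok : Fwd.WtOk Inst.T (Inst.MT 5 6) 6 W_21643399232 :=
  wt_ok6 W_21643399232_chk

theorem W_21643403264_ok : Fwd.WtOk Inst.T (Inst.MT 5 6) 6 W_21643403264 :=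
  wt_ok6 W_21643403264_chk

theorem W_21643661312_ok : Fwd.WtOk Inst.T (Inst.MT 5 6) 6 W_21643661312 :=
  wt_ok6 W_21643661312_chk

theorem W_21643919360_ok : Fwd.WtOk Inst.T (Inst.MT 5 6) 6 W_21643919360 :=
  wt_ok6 W_21643919360_chk

theorem W_21659914304_ok : Fwd.WtOk Inst.T (Inst.MT 5 6) 6 W_21659914304 :=
  wt_ok6 W_21659914304_chk

theorem W_21659918336_ok : Fwd.WtOk Inst.T (Inst.MT 5 6) 6 W_21659918336 :=
  wt_ok6 W_21659918336_chk

theorem W_21660176384_ok : Fwd.WtOk Inst.T (Inst.MT 5 6) 6 W_21660176384 :=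
  wt_ok6 W_21660176384_chk

theorem W_21660434432_ok : Fwd.WtOk Inst.T (Inst.MT 5 6) 6 W_21660434432 :=
  wt_ok6 W_21660434432_chk

theorem W_21676691456_ok : Fwd.WtOk Inst.T (Inst.MT 5 6) 6 W_21676691456 :=
  wt_ok6 W_21676691456_chk

theorem W_21676949504_ok : Fwd.WtOk Inst.T (Inst.MT 5 6) 6 W_21676949504 :=
  wt_ok6 W_21676949504_chk

theorem W_21693206528_ok : Fwd.WtOk Inst.T (Inst.MT 5 6) 6 W_21693206528 :=
  wt_ok6 W_21693206528_chk

theorem W_21693464576_ok : Fwd.WtOk Inst.T (Inst.MT 5 6) 6 W_21693464576 :=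
  wt_ok6 W_21693464576_chk

theorem W_21709979648_ok : Fwd.WtOk Inst.T (Inst.MT 5 6) 6 W_21709979648 :=
  wt_ok6 W_21709979648_chk

theorem W_21726494720_ok : Fwd.WtOk Inst.T (Inst.MT 5 6) 6 W_21726494720 :=
  wt_ok6 W_21726494720_chk

theorem W_22616752256_ok : Fwd.WtOk Inst.T (Inst.MT 5 6) 6 W_22616752256 :=
  wt_ok6 W_22616752256_chk

theorem W_22633529408_ok : Fwd.WtOk Inst.T (Inst.MT 5 6) 6 W_22633529408 :=
  wt_ok6 W_22633529408_chk

theorem W_22633787456_ok : Fwd.WtOk Inst.T (Inst.MT 5 6) 6 W_22633787456 :=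
  wt_ok6 W_22633787456_chk

theorem W_22650298496_ok : Fwd.WtOk Inst.T (Inst.MT 5 6) 6 W_22650298496 :=
  wt_ok6 W_22650298496_chk

theorem W_22650302528_ok : Fwd.WtOk Inst.T (Inst.MT 5 6) 6 W_22650302528 :=
  wt_ok6 W_22650302528_chk

theorem W_22650306560_ok : Fwd.WtOk Inst.T (Inst.MT 5 6) 6 W_22650306560 :=
  wt_ok6 W_22650306560_chk

theorem W_22650560576_ok : Fwd.WtOk Inst.T (Inst.MT 5 6) 6 W_22650560576 :=
  wt_ok6 W_22650560576_chk

theorem W_22650564608_ok : Fwd.WtOk Inst.T (Inst.MT 5 6) 6 W_22650564608 :=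
  wt_ok6 W_22650564608_chk

theorem W_22650822656_ok : Fwd.WtOk Inst.T (Inst.MT 5 6) 6 W_22650822656 :=
  wt_ok6 W_22650822656_chk

theorem W_22666813568_ok : Fwd.WtOk Inst.T (Inst.MT 5 6) 6 W_22666813568 :=
  wt_ok6 W_22666813568_chk

theorem W_22666817600_ok : Fwd.WtOk Inst.T (Inst.MT 5 6) 6 W_22666817600 :=
  wt_ok6 W_22666817600_chk

theorem W_22667075648_ok : Fwd.WtOk Inst.T (Inst.MT 5 6) 6 W_22667075648 :=
  wt_ok6 W_22667075648_chk

theorem W_22667079680_ok : Fwd.WtOk Inst.T (Inst.MT 5 6) 6 W_22667079680 :=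
  wt_ok6 W_22667079680_chk

theorem W_22667333696_ok : Fwd.WtOk Inst.T (Inst.MT 5 6) 6 W_22667333696 :=
  wt_ok6 W_22667333696_chk

theorem W_22667337728_ok : Fwd.WtOk Inst.T (Inst.MT 5 6) 6 W_22667337728 :=
  wt_ok6 W_22667337728_chk

theorem W_22667595776_ok : Fwd.WtOk Inst.T (Inst.MT 5 6) 6 W_22667595776 :=
  wt_ok6 W_22667595776_chk

theorem W_22667853824_ok : Fwd.WtOk Inst.T (Inst.MT 5 6) 6 W_22667853824 :=
  wt_ok6 W_22667853824_chk

theorem W_22683328640_ok : Fwd.WtOk Inst.T (Inst.MT 5 6) 6 W_22683328640 :=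
  wt_ok6 W_22683328640_chk

theorem W_22683590720_ok : Fwd.WtOk Inst.T (Inst.MT 5 6) 6 W_22683590720 :=
  wt_ok6 W_22683590720_chk

theorem W_22683594752_ok : Fwd.WtOk Inst.T (Inst.MT 5 6) 6 W_22683594752 :=
  wt_ok6 W_22683594752_chk

theorem W_22683848768_ok : Fwd.WtOk Inst.T (Inst.MT 5 6) 6 W_22683848768 :=
  wt_ok6 W_22683848768_chk

theorem W_22683852800_ok : Fwd.WtOk Inst.T (Inst.MT 5 6) 6 W_22683852800 :=
  wt_ok6 W_22683852800_chk

theorem W_22684110848_ok : Fwd.WtOk Inst.T (Inst.MT 5 6) 6 W_22684110848 :=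
  wt_ok6 W_22684110848_chk

theorem W_22684368896_ok : Fwd.WtOk Inst.T (Inst.MT 5 6) 6 W_22684368896 :=
  wt_ok6 W_22684368896_chk

theorem W_22700105792_ok : Fwd.WtOk Inst.T (Inst.MT 5 6) 6 W_22700105792 :=
  wt_ok6 W_22700105792_chk

theorem W_22700363840_ok : Fwd.WtOk Inst.T (Inst.MT 5 6) 6 W_22700363840 :=
  wt_ok6 W_22700363840_chk

theorem W_22700367872_ok : Fwd.WtOk Inst.T (Inst.MT 5 6) 6 W_22700367872 :=
  wt_ok6 W_22700367872_chk

theorem W_22700625920_ok : Fwd.WtOk Inst.T (Inst.MT 5 6) 6 W_22700625920 :=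
  wt_ok6 W_22700625920_chk

theorem W_22700883968_ok : Fwd.WtOk Inst.T (Inst.MT 5 6) 6 W_22700883968 :=
  wt_ok6 W_22700883968_chk

theorem W_22716878912_ok : Fwd.WtOk Inst.T (Inst.MT 5 6) 6 W_22716878912 :=
  wt_ok6 W_22716878912_chk

theorem W_22716882944_ok : Fwd.WtOk Inst.T (Inst.MT 5 6) 6 W_22716882944 :=
  wt_ok6 W_22716882944_chk

theorem W_22717140992_ok : Fwd.WtOk Inst.T (Inst.MT 5 6) 6 W_22717140992 :=
  wt_ok6 W_22717140992_chk

theorem W_22717399040_ok : Fwd.WtOk Inst.T (Inst.MT 5 6) 6 W_22717399040 :=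
  wt_ok6 W_22717399040_chk

theorem W_22733393984_ok : Fwd.WtOk Inst.T (Inst.MT 5 6) 6 W_22733393984 :=
  wt_ok6 W_22733393984_chk

theorem W_22733656064_ok : Fwd.WtOk Inst.T (Inst.MT 5 6) 6 W_22733656064 :=
  wt_ok6 W_22733656064_chk

theorem W_22733914112_ok : Fwd.WtOk Inst.T (Inst.MT 5 6) 6 W_22733914112 :=
  wt_ok6 W_22733914112_chk

theorem W_22750171136_ok : Fwd.WtOk Inst.T (Inst.MT 5 6) 6 W_22750171136 :=
  wt_ok6 W_22750171136_chk

theorem W_22750429184_ok : Fwd.WtOk Inst.T (Inst.MT 5 6) 6 W_22750429184 :=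
  wt_ok6 W_22750429184_chk

theorem W_22766944256_ok : Fwd.WtOk Inst.T (Inst.MT 5 6) 6 W_22766944256 :=
  wt_ok6 W_22766944256_chk

theorem W_23690494016_ok : Fwd.WtOk Inst.T (Inst.MT 5 6) 6 W_23690494016 :=
  wt_ok6 W_23690494016_chk

theorem W_23707263104_ok : Fwd.WtOk Inst.T (Inst.MT 5 6) 6 W_23707263104 :=
  wt_ok6 W_23707263104_chk

theorem W_23707267136_ok : Fwd.WtOk Inst.T (Inst.MT 5 6) 6 W_23707267136 :=
  wt_ok6 W_23707267136_chk

theorem W_23707271168_ok : Fwd.WtOk Inst.T (Inst.MT 5 6) 6 W_23707271168 :=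
  wt_ok6 W_23707271168_chk

theorem W_23707525184_ok : Fwd.WtOk Inst.T (Inst.MT 5 6) 6 W_23707525184 :=
  wt_ok6 W_23707525184_chk

theorem W_23723778176_ok : Fwd.WtOk Inst.T (Inst.MT 5 6) 6 W_23723778176 :=
  wt_ok6 W_23723778176_chk

theorem W_23724040256_ok : Fwd.WtOk Inst.T (Inst.MT 5 6) 6 W_23724040256 :=
  wt_ok6 W_23724040256_chk

theorem W_23724044288_ok : Fwd.WtOk Inst.T (Inst.MT 5 6) 6 W_23724044288 :=
  wt_ok6 W_23724044288_chk

theorem W_23724298304_ok : Fwd.WtOk Inst.T (Inst.MT 5 6) 6 W_23724298304 :=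
  wt_ok6 W_23724298304_chk

theorem W_23724302336_ok : Fwd.WtOk Inst.T (Inst.MT 5 6) 6 W_23724302336 :=
  wt_ok6 W_23724302336_chk

theorem W_23724560384_ok : Fwd.WtOk Inst.T (Inst.MT 5 6) 6 W_23724560384 :=
  wt_ok6 W_23724560384_chk

theorem W_23740293248_ok : Fwd.WtOk Inst.T (Inst.MT 5 6) 6 W_23740293248 :=
  wt_ok6 W_23740293248_chk

theorem W_23740555328_ok : Fwd.WtOk Inst.T (Inst.MT 5 6) 6 W_23740555328 :=
  wt_ok6 W_23740555328_chk

theorem W_23740559360_ok : Fwd.WtOk Inst.T (Inst.MT 5 6) 6 W_23740559360 :=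
  wt_ok6 W_23740559360_chk

theorem W_23740813376_ok : Fwd.WtOk Inst.T (Inst.MT 5 6) 6 W_23740813376 :=
  wt_ok6 W_23740813376_chk

theorem W_23740817408_ok : Fwd.WtOk Inst.T (Inst.MT 5 6) 6 W_23740817408 :=
  wt_ok6 W_23740817408_chk

theorem W_23741075456_ok : Fwd.WtOk Inst.T (Inst.MT 5 6) 6 W_23741075456 :=
  wt_ok6 W_23741075456_chk

theorem W_23741333504_ok : Fwd.WtOk Inst.T (Inst.MT 5 6) 6 W_23741333504 :=
  wt_ok6 W_23741333504_chk

theorem W_23757070400_ok : Fwd.WtOk Inst.T (Inst.MT 5 6) 6 W_23757070400 :=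
  wt_ok6 W_23757070400_chk

theorem W_23757328448_ok : Fwd.WtOk Inst.T (Inst.MT 5 6) 6 W_23757328448 :=
  wt_ok6 W_23757328448_chk

theorem W_23757332480_ok : Fwd.WtOk Inst.T (Inst.MT 5 6) 6 W_23757332480 :=
  wt_ok6 W_23757332480_chk

theorem W_23757590528_ok : Fwd.WtOk Inst.T (Inst.MT 5 6) 6 W_23757590528 :=
  wt_ok6 W_23757590528_chk

theorem W_23757848576_ok : Fwd.WtOk Inst.T (Inst.MT 5 6) 6 W_23757848576 :=
  wt_ok6 W_23757848576_chk

theorem W_23773843520_ok : Fwd.WtOk Inst.T (Inst.MT 5 6) 6 W_23773843520 :=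
  wt_ok6 W_23773843520_chk

theorem W_23773847552_ok : Fwd.WtOk Inst.T (Inst.MT 5 6) 6 W_23773847552 :=
  wt_ok6 W_23773847552_chk

theorem W_23774105600_ok : Fwd.WtOk Inst.T (Inst.MT 5 6) 6 W_23774105600 :=
  wt_ok6 W_23774105600_chk

theorem W_23774363648_ok : Fwd.WtOk Inst.T (Inst.MT 5 6) 6 W_23774363648 :=
  wt_ok6 W_23774363648_chk

theorem W_23790620672_ok : Fwd.WtOk Inst.T (Inst.MT 5 6) 6 W_23790620672 :=
  wt_ok6 W_23790620672_chk

theorem W_23790878720_ok : Fwd.WtOk Inst.T (Inst.MT 5 6) 6 W_23790878720 :=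
  wt_ok6 W_23790878720_chk

theorem W_23807135744_ok : Fwd.WtOk Inst.T (Inst.MT 5 6) 6 W_23807135744 :=
  wt_ok6 W_23807135744_chk

theorem W_23807393792_ok : Fwd.WtOk Inst.T (Inst.MT 5 6) 6 W_23807393792 :=
  wt_ok6 W_23807393792_chk

theorem W_23823908864_ok : Fwd.WtOk Inst.T (Inst.MT 5 6) 6 W_23823908864 :=
  wt_ok6 W_23823908864_chk

theorem W_23840423936_ok : Fwd.WtOk Inst.T (Inst.MT 5 6) 6 W_23840423936 :=
  wt_ok6 W_23840423936_chk

theorem W_24764227712_ok : Fwd.WtOk Inst.T (Inst.MT 5 6) 6 W_24764227712 :=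
  wt_ok6 W_24764227712_chk

theorem W_24764235776_ok : Fwd.WtOk Inst.T (Inst.MT 5 6) 6 W_24764235776 :=
  wt_ok6 W_24764235776_chk

theorem W_24781004864_ok : Fwd.WtOk Inst.T (Inst.MT 5 6) 6 W_24781004864 :=
  wt_ok6 W_24781004864_chk

theorem W_24781008896_ok : Fwd.WtOk Inst.T (Inst.MT 5 6) 6 W_24781008896 :=
  wt_ok6 W_24781008896_chk

theorem W_24781262912_ok : Fwd.WtOk Inst.T (Inst.MT 5 6) 6 W_24781262912 :=
  wt_ok6 W_24781262912_chk

theorem W_24781266944_ok : Fwd.WtOk Inst.T (Inst.MT 5 6) 6 W_24781266944 :=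
  wt_ok6 W_24781266944_chk

theorem W_24797257856_ok : Fwd.WtOk Inst.T (Inst.MT 5 6) 6 W_24797257856 :=
  wt_ok6 W_24797257856_chk

theorem W_24797519936_ok : Fwd.WtOk Inst.T (Inst.MT 5 6) 6 W_24797519936 :=
  wt_ok6 W_24797519936_chk

theorem W_24797523968_ok : Fwd.WtOk Inst.T (Inst.MT 5 6) 6 W_24797523968 :=
  wt_ok6 W_24797523968_chk

theorem W_24797777984_ok : Fwd.WtOk Inst.T (Inst.MT 5 6) 6 W_24797777984 :=
  wt_ok6 W_24797777984_chk

theorem W_24797782016_ok : Fwd.WtOk Inst.T (Inst.MT 5 6) 6 W_24797782016 :=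
  wt_ok6 W_24797782016_chk

theorem W_24798040064_ok : Fwd.WtOk Inst.T (Inst.MT 5 6) 6 W_24798040064 :=
  wt_ok6 W_24798040064_chk

theorem W_24798298112_ok : Fwd.WtOk Inst.T (Inst.MT 5 6) 6 W_24798298112 :=
  wt_ok6 W_24798298112_chk

theorem W_24814035008_ok : Fwd.WtOk Inst.T (Inst.MT 5 6) 6 W_24814035008 :=
  wt_ok6 W_24814035008_chk

theorem W_24814293056_ok : Fwd.WtOk Inst.T (Inst.MT 5 6) 6 W_24814293056 :=
  wt_ok6 W_24814293056_chk

theorem W_24814297088_ok : Fwd.WtOk Inst.T (Inst.MT 5 6) 6 W_24814297088 :=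
  wt_ok6 W_24814297088_chk

theorem W_24814555136_ok : Fwd.WtOk Inst.T (Inst.MT 5 6) 6 W_24814555136 :=
  wt_ok6 W_24814555136_chk

theorem W_24814813184_ok : Fwd.WtOk Inst.T (Inst.MT 5 6) 6 W_24814813184 :=
  wt_ok6 W_24814813184_chk

theorem W_24830808128_ok : Fwd.WtOk Inst.T (Inst.MT 5 6) 6 W_24830808128 :=
  wt_ok6 W_24830808128_chk

theorem W_24830812160_ok : Fwd.WtOk Inst.T (Inst.MT 5 6) 6 W_24830812160 :=
  wt_ok6 W_24830812160_chk

theorem W_24831070208_ok : Fwd.WtOk Inst.T (Inst.MT 5 6) 6 W_24831070208 :=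
  wt_ok6 W_24831070208_chk

theorem W_24831328256_ok : Fwd.WtOk Inst.T (Inst.MT 5 6) 6 W_24831328256 :=
  wt_ok6 W_24831328256_chk

theorem W_24847585280_ok : Fwd.WtOk Inst.T (Inst.MT 5 6) 6 W_24847585280 :=
  wt_ok6 W_24847585280_chk

theorem W_24847843328_ok : Fwd.WtOk Inst.T (Inst.MT 5 6) 6 W_24847843328 :=
  wt_ok6 W_24847843328_chk

theorem W_24864100352_ok : Fwd.WtOk Inst.T (Inst.MT 5 6) 6 W_24864100352 :=
  wt_ok6 W_24864100352_chk

theorem W_24864358400_ok : Fwd.WtOk Inst.T (Inst.MT 5 6) 6 W_24864358400 :=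
  wt_ok6 W_24864358400_chk

theorem W_24880873472_ok : Fwd.WtOk Inst.T (Inst.MT 5 6) 6 W_24880873472 :=
  wt_ok6 W_24880873472_chk

theorem W_25837969472_ok : Fwd.WtOk Inst.T (Inst.MT 5 6) 6 W_25837969472 :=
  wt_ok6 W_25837969472_chk

theorem W_25837973504_ok : Fwd.WtOk Inst.T (Inst.MT 5 6) 6 W_25837973504 :=
  wt_ok6 W_25837973504_chk

theorem W_25854222464_ok : Fwd.WtOk Inst.T (Inst.MT 5 6) 6 W_25854222464 :=
  wt_ok6 W_25854222464_chk

theorem W_25854484544_ok : Fwd.WtOk Inst.T (Inst.MT 5 6) 6 W_25854484544 :=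
  wt_ok6 W_25854484544_chk

theorem W_25854742592_ok : Fwd.WtOk Inst.T (Inst.MT 5 6) 6 W_25854742592 :=
  wt_ok6 W_25854742592_chk

theorem W_25854746624_ok : Fwd.WtOk Inst.T (Inst.MT 5 6) 6 W_25854746624 :=
  wt_ok6 W_25854746624_chk

theorem W_25870999616_ok : Fwd.WtOk Inst.T (Inst.MT 5 6) 6 W_25870999616 :=
  wt_ok6 W_25870999616_chk

theorem W_25871261696_ok : Fwd.WtOk Inst.T (Inst.MT 5 6) 6 W_25871261696 :=
  wt_ok6 W_25871261696_chk

theorem W_25871519744_ok : Fwd.WtOk Inst.T (Inst.MT 5 6) 6 W_25871519744 :=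
  wt_ok6 W_25871519744_chk

theorem W_25871777792_ok : Fwd.WtOk Inst.T (Inst.MT 5 6) 6 W_25871777792 :=
  wt_ok6 W_25871777792_chk

theorem W_25887772736_ok : Fwd.WtOk Inst.T (Inst.MT 5 6) 6 W_25887772736 :=
  wt_ok6 W_25887772736_chk

theorem W_25887776768_ok : Fwd.WtOk Inst.T (Inst.MT 5 6) 6 W_25887776768 :=
  wt_ok6 W_25887776768_chk

theorem W_25888034816_ok : Fwd.WtOk Inst.T (Inst.MT 5 6) 6 W_25888034816 :=
  wt_ok6 W_25888034816_chk

theorem W_25888292864_ok : Fwd.WtOk Inst.T (Inst.MT 5 6) 6 W_25888292864 :=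
  wt_ok6 W_25888292864_chk

theorem W_25904549888_ok : Fwd.WtOk Inst.T (Inst.MT 5 6) 6 W_25904549888 :=
  wt_ok6 W_25904549888_chk

theorem W_25904807936_ok : Fwd.WtOk Inst.T (Inst.MT 5 6) 6 W_25904807936 :=
  wt_ok6 W_25904807936_chk

theorem W_25921064960_ok : Fwd.WtOk Inst.T (Inst.MT 5 6) 6 W_25921064960 :=
  wt_ok6 W_25921064960_chk

theorem W_25921323008_ok : Fwd.WtOk Inst.T (Inst.MT 5 6) 6 W_25921323008 :=
  wt_ok6 W_25921323008_chk

theorem W_25937838080_ok : Fwd.WtOk Inst.T (Inst.MT 5 6) 6 W_25937838080 :=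
  wt_ok6 W_25937838080_chk

theorem W_25954353152_ok : Fwd.WtOk Inst.T (Inst.MT 5 6) 6 W_25954353152 :=
  wt_ok6 W_25954353152_chk

theorem W_26911187072_ok : Fwd.WtOk Inst.T (Inst.MT 5 6) 6 W_26911187072 :=
  wt_ok6 W_26911187072_chk

theorem W_26911711232_ok : Fwd.WtOk Inst.T (Inst.MT 5 6) 6 W_26911711232 :=
  wt_ok6 W_26911711232_chk

theorem W_26927964224_ok : Fwd.WtOk Inst.T (Inst.MT 5 6) 6 W_26927964224 :=
  wt_ok6 W_26927964224_chk

theorem W_26928222272_ok : Fwd.WtOk Inst.T (Inst.MT 5 6) 6 W_26928222272 :=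
  wt_ok6 W_26928222272_chk

theorem W_26928226304_ok : Fwd.WtOk Inst.T (Inst.MT 5 6) 6 W_26928226304 :=
  wt_ok6 W_26928226304_chk

theorem W_26928484352_ok : Fwd.WtOk Inst.T (Inst.MT 5 6) 6 W_26928484352 :=
  wt_ok6 W_26928484352_chk

theorem W_26944999424_ok : Fwd.WtOk Inst.T (Inst.MT 5 6) 6 W_26944999424 :=
  wt_ok6 W_26944999424_chk

theorem W_26961514496_ok : Fwd.WtOk Inst.T (Inst.MT 5 6) 6 W_26961514496 :=
  wt_ok6 W_26961514496_chk

theorem W_26978029568_ok : Fwd.WtOk Inst.T (Inst.MT 5 6) 6 W_26978029568 :=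
  wt_ok6 W_26978029568_chk

theorem W_26978287616_ok : Fwd.WtOk Inst.T (Inst.MT 5 6) 6 W_26978287616 :=
  wt_ok6 W_26978287616_chk

theorem W_26994802688_ok : Fwd.WtOk Inst.T (Inst.MT 5 6) 6 W_26994802688 :=
  wt_ok6 W_26994802688_chk

theorem W_27011317760_ok : Fwd.WtOk Inst.T (Inst.MT 5 6) 6 W_27011317760 :=
  wt_ok6 W_27011317760_chk

theorem W_27984928832_ok : Fwd.WtOk Inst.T (Inst.MT 5 6) 6 W_27984928832 :=
  wt_ok6 W_27984928832_chk

theorem W_27985190912_ok : Fwd.WtOk Inst.T (Inst.MT 5 6) 6 W_27985190912 :=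
  wt_ok6 W_27985190912_chk

theorem W_27985448960_ok : Fwd.WtOk Inst.T (Inst.MT 5 6) 6 W_27985448960 :=
  wt_ok6 W_27985448960_chk

theorem W_28001705984_ok : Fwd.WtOk Inst.T (Inst.MT 5 6) 6 W_28001705984 :=
  wt_ok6 W_28001705984_chk

theorem W_28001964032_ok : Fwd.WtOk Inst.T (Inst.MT 5 6) 6 W_28001964032 :=
  wt_ok6 W_28001964032_chk

theorem W_28002222080_ok : Fwd.WtOk Inst.T (Inst.MT 5 6) 6 W_28002222080 :=
  wt_ok6 W_28002222080_chk

theorem W_28018479104_ok : Fwd.WtOk Inst.T (Inst.MT 5 6) 6 W_28018479104 :=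
  wt_ok6 W_28018479104_chk

theorem W_28018737152_ok : Fwd.WtOk Inst.T (Inst.MT 5 6) 6 W_28018737152 :=
  wt_ok6 W_28018737152_chk

theorem W_28034994176_ok : Fwd.WtOk Inst.T (Inst.MT 5 6) 6 W_28034994176 :=
  wt_ok6 W_28034994176_chk

theorem W_28035252224_ok : Fwd.WtOk Inst.T (Inst.MT 5 6) 6 W_28035252224 :=
  wt_ok6 W_28035252224_chk

theorem W_28051767296_ok : Fwd.WtOk Inst.T (Inst.MT 5 6) 6 W_28051767296 :=
  wt_ok6 W_28051767296_chk

theorem W_28068282368_ok : Fwd.WtOk Inst.T (Inst.MT 5 6) 6 W_28068282368 :=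
  wt_ok6 W_28068282368_chk

theorem W_29025116288_ok : Fwd.WtOk Inst.T (Inst.MT 5 6) 6 W_29025116288 :=
  wt_ok6 W_29025116288_chk

theorem W_29058670592_ok : Fwd.WtOk Inst.T (Inst.MT 5 6) 6 W_29058670592 :=
  wt_ok6 W_29058670592_chk

theorem W_29058928640_ok : Fwd.WtOk Inst.T (Inst.MT 5 6) 6 W_29058928640 :=
  wt_ok6 W_29058928640_chk

theorem W_29059186688_ok : Fwd.WtOk Inst.T (Inst.MT 5 6) 6 W_29059186688 :=
  wt_ok6 W_29059186688_chk

theorem W_29075443712_ok : Fwd.WtOk Inst.T (Inst.MT 5 6) 6 W_29075443712 :=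
  wt_ok6 W_29075443712_chk

theorem W_29075701760_ok : Fwd.WtOk Inst.T (Inst.MT 5 6) 6 W_29075701760 :=
  wt_ok6 W_29075701760_chk

theorem W_29092216832_ok : Fwd.WtOk Inst.T (Inst.MT 5 6) 6 W_29092216832 :=
  wt_ok6 W_29092216832_chk

theorem W_29108731904_ok : Fwd.WtOk Inst.T (Inst.MT 5 6) 6 W_29108731904 :=
  wt_ok6 W_29108731904_chk

theorem W_29125246976_ok : Fwd.WtOk Inst.T (Inst.MT 5 6) 6 W_29125246976 :=
  wt_ok6 W_29125246976_chk

theorem W_30115635200_ok : Fwd.WtOk Inst.T (Inst.MT 5 6) 6 W_30115635200 :=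
  wt_ok6 W_30115635200_chk

theorem W_30132408320_ok : Fwd.WtOk Inst.T (Inst.MT 5 6) 6 W_30132408320 :=
  wt_ok6 W_30132408320_chk

theorem W_30132666368_ok : Fwd.WtOk Inst.T (Inst.MT 5 6) 6 W_30132666368 :=
  wt_ok6 W_30132666368_chk

theorem W_30149181440_ok : Fwd.WtOk Inst.T (Inst.MT 5 6) 6 W_30149181440 :=
  wt_ok6 W_30149181440_chk

theorem W_30165696512_ok : Fwd.WtOk Inst.T (Inst.MT 5 6) 6 W_30165696512 :=
  wt_ok6 W_30165696512_chk

theorem W_30182211584_ok : Fwd.WtOk Inst.T (Inst.MT 5 6) 6 W_30182211584 :=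
  wt_ok6 W_30182211584_chk

theorem W_31172599808_ok : Fwd.WtOk Inst.T (Inst.MT 5 6) 6 W_31172599808 :=
  wt_ok6 W_31172599808_chk

theorem W_31206146048_ok : Fwd.WtOk Inst.T (Inst.MT 5 6) 6 W_31206146048 :=
  wt_ok6 W_31206146048_chk

theorem W_31222661120_ok : Fwd.WtOk Inst.T (Inst.MT 5 6) 6 W_31222661120 :=
  wt_ok6 W_31222661120_chk

theorem W_31239176192_ok : Fwd.WtOk Inst.T (Inst.MT 5 6) 6 W_31239176192 :=
  wt_ok6 W_31239176192_chk

theorem W_32263110656_ok : Fwd.WtOk Inst.T (Inst.MT 5 6) 6 W_32263110656 :=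
  wt_ok6 W_32263110656_chk

theorem W_32279625728_ok : Fwd.WtOk Inst.T (Inst.MT 5 6) 6 W_32279625728 :=
  wt_ok6 W_32279625728_chk

theorem W_32296140800_ok : Fwd.WtOk Inst.T (Inst.MT 5 6) 6 W_32296140800 :=
  wt_ok6 W_32296140800_chk

theorem W_33320075264_ok : Fwd.WtOk Inst.T (Inst.MT 5 6) 6 W_33320075264 :=
  wt_ok6 W_33320075264_chk

theorem W_33353105408_ok : Fwd.WtOk Inst.T (Inst.MT 5 6) 6 W_33353105408 :=
  wt_ok6 W_33353105408_chk

theorem W_34410070016_ok : Fwd.WtOk Inst.T (Inst.MT 5 6) 6 W_34410070016 :=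
  wt_ok6 W_34410070016_chk

theorem W_35467034624_ok : Fwd.WtOk Inst.T (Inst.MT 5 6) 6 W_35467034624 :=
  wt_ok6 W_35467034624_chk

theorem W_37580963840_ok : Fwd.WtOk Inst.T (Inst.MT 5 6) 6 W_37580963840 :=
  wt_ok6 W_37580963840_chk

end Crest.Agent.R187.SN.Top
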