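import Crest.Agent.R187.SN.Top
import Crest.Agent.R187.SN.TD.X6_0
import Crest.Agent.R187.SN.TD.X6_1
import Crest.Agent.R187.SN.TD.X6_2
import Crest.Agent.R187.SN.TD.X6_3
import Crest.Agent.R187.SN.TD.W7_0
import Crest.Agent.R187.SN.TD.W7_1

/-!
# Row 187, PLAN S, generated certificate data (mod 127): rank records and checks, chunk 5

Written by a C++ program (helper824).  The tables are only data: every property is checked by
the kernel.
-/

set_option autoImplicit false
set_option maxRecDepth 100000
set_option Elab.async false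

namespace Crest.Agent.R187.SN.Top

noncomputable def R_15268598016 : Rec := ⟨nat_lit 15268598016, nat_lit 4,
  [⟨V6_15235043328, [(nat_lit 44, nat_lit 15268598016), (nat_lit 87, nat_lit 16342339776), (nat_lit 89, nat_lit 16325562624), (nat_lit 21, nat_lit 17416081536), (nat_lit 101, nat_lit 17399304384), (nat_lit 31, nat_lit 17382527232), (nat_lit 9, nat_lit 18489823296), (nat_lit 95, nat_lit 18473046144), (nat_lit 104, nat_lit 18456268992), (nat_lit 16, nat_lit 19563565056), (nat_lit 121, nat_lit 19546787904), (nat_lit 32, nat_lit 19530010752), (nat_lit 21, nat_lit 20620529664), (nat_lit 92, nat_lit 20603752512), (nat_lit 2, nat_lit 21677494272)]⟩],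
  [W_15218262080]⟩
theorem C_15268598016 : chkRec R_15268598016 = true := by decide +kernel

noncomputable def R_15268851906 : Rec := ⟨nat_lit 15268851906, nat_lit 2,
  [⟨V6_15234511041, [(nat_lit 61, nat_lit 15268851906), (nat_lit 10, nat_lit 16342593729), (nat_lit 33, nat_lit 16342331586), (nat_lit 30, nat_lit 16325816514), (nat_lit 24, nat_lit 17416073409), (nat_lit 103, nat_lit 17415811266), (nat_lit 14, nat_lit 17399558337), (nat_lit 88, nat_lit 17399296194), (nat_lit 70, nat_lit 17382781122), (nat_lit 50, nat_lit 18489553089), (nat_lit 14, nat_lit 18489290946), (nat_lit 1, nat_lit 18473038017), (nat_lit 29, nat_lit 18472775874), (nat_lit 9, nat_lit 18456522945), (nat_lit 91, nat_lit 18456260802), (nat_lit 34, nat_lit 19563032769), (nat_lit 112, nat_lit 19546517697), (nat_lit 49, nat_lit 19546255554), (nat_lit 81, nat_lit 19530002625), (nat_lit 95, nat_lit 19529740482), (nat_lit 111, nat_lit 20619997377), (nat_lit 16, nat_lit 20603482305), (nat_lit 88, nat_lit 20603220162), (nat_lit 60, nat_lit 21676961985)]⟩,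
   ⟨V6_15201218754, [(nat_lit 117, nat_lit 15268851906), (nat_lit 55, nat_lit 16342331586), (nat_lit 95, nat_lit 16325816514), (nat_lit 96, nat_lit 17415811266), (nat_lit 102, nat_lit 17399296194), (nat_lit 40, nat_lit 17382781122), (nat_lit 14, nat_lit 18472775874), (nat_lit 64, nat_lit 18456260802), (nat_lit 65, nat_lit 18439745730), (nat_lit 109, nat_lit 19529740482), (nat_lit 85, nat_lit 19513225410), (nat_lit 25, nat_lit 19496710338), (nat_lit 12, nat_lit 20586705090), (nat_lit 42, nat_lit 20570190018), (nat_lit 83, nat_lit 21643669698)]⟩],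
  [W_15234773120]⟩
theorem C_15268851906 : chkRec R_15268851906 = true := by decide +kernel

noncomputable def R_15268855938 : Rec := ⟨nat_lit 15268855938, nat_lit 9,
  [⟨V6_15234777216, [(nat_lit 1, nat_lit 15268855938), (nat_lit 117, nat_lit 16342597761), (nat_lit 79, nat_lit 16342335618), (nat_lit 78, nat_lit 16325820546), (nat_lit 34, nat_lit 17416339584), (nat_lit 109, nat_lit 17416077441), (nat_lit 15, nat_lit 17415815298), (nat_lit 91, nat_lit 17399562369), (nat_lit 70, nat_lit 17399300226), (nat_lit 69, nat_lit 17382785154), (nat_lit 15, nat_lit 18489819264), (nat_lit 33, nat_lit 18489557121), (nat_lit 126, nat_lit 18473304192), (nat_lit 116, nat_lit 18473042049), (nat_lit 94, nat_lit 18472779906), (nat_lit 63, nat_lit 18456526977), (nat_lit 26, nat_lit 18456264834), (nat_lit 5, nat_lit 19563298944), (nat_lit 25, nat_lit 19546783872), (nat_lit 58, nat_lit 19546521729), (nat_lit 67, nat_lit 19530268800), (nat_lit 76, nat_lit 19530006657), (nat_lit 114, nat_lit 19529744514), (nat_lit 67, nat_lit 20620263552), (nat_lit 24, nat_lit 20603748480),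 (nat_lit 48, nat_lit 20603486337), (nat_lit 89, nat_lit 21677228160)]⟩],
  [W_15218516096, W_15184969856]⟩
theorem C_15268855938 : chkRec R_15268855938 = true := by decide +kernel

noncomputable def R_15268856001 : Rec := ⟨nat_lit 15268856001, nat_lit 14,
  [⟨V6_15218000064, [(nat_lit 121, nat_lit 15268856001), (nat_lit 33, nat_lit 16342597824), (nat_lit 89, nat_lit 16342335681), (nat_lit 49, nat_lit 16325820609), (nat_lit 45, nat_lit 17416077504), (nat_lit 124, nat_lit 17415815361), (nat_lit 27, nat_lit 17399562432), (nat_lit 11, nat_lit 17399300289), (nat_lit 77, nat_lit 17382785217), (nat_lit 3, nat_lit 18489557184), (nat_lit 38, nat_lit 18473042112), (nat_lit 90, nat_lit 18472779969), (nat_lit 103, nat_lit 18456527040), (nat_lit 19, nat_lit 18456264897), (nat_lit 126, nat_lit 18439749825), (nat_lit 124, nat_lit 19546521792), (nat_lit 62, nat_lit 19530006720), (nat_lit 104, nat_lit 19529744577), (nat_lit 29, nat_lit 19513491648), (nat_lit 114, nat_lit 19513229505), (nat_lit 10, nat_lit 20603486400), (nat_lit 4, nat_lit 20586971328), (nat_lit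 11, nat_lit 20586709185), (nat_lit 69, nat_lit 21660451008)]⟩],
  [W_15251550272, W_15201747008]⟩
theorem C_15268856001 : chkRec R_15268856001 = true := by decide +kernel

noncomputable def R_15268856064 : Rec := ⟨nat_lit 15268856064, nat_lit 17,
  [⟨V6_15268331520, [(nat_lit 49, nat_lit 15268856064), (nat_lit 44, nat_lit 16342597824), (nat_lit 122, nat_lit 16342335744), (nat_lit 74, nat_lit 17416339584), (nat_lit 41, nat_lit 17416077504), (nat_lit 120, nat_lit 17415815424), (nat_lit 23, nat_lit 18490081344), (nat_lit 23, nat_lit 18489819264), (nat_lit 36, nat_lit 18489557184), (nat_lit 76, nat_lit 19563823104), (nat_lit 71, nat_lit 19563561024), (nat_lit 125, nat_lit 19563298944), (nat_lit 124, nat_lit 20637302784), (nat_lit 29, nat_lit 20637040704), (nat_lit 20, nat_lit 21710782464)]⟩,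
   ⟨V6_15201222912, [(nat_lit 104, nat_lit 15268856064), (nat_lit 63, nat_lit 16342335744), (nat_lit 28, nat_lit 16325820672), (nat_lit 43, nat_lit 17415815424), (nat_lit 6, nat_lit 17399300352), (nat_lit 92, nat_lit 17382785280), (nat_lit 83, nat_lit 18472780032), (nat_lit 71, nat_lit 18456264960), (nat_lit 86, nat_lit 18439749888), (nat_lit 111, nat_lit 19529744640), (nat_lit 5, nat_lit 19513229568), (nat_lit 121, nat_lit 19496714496), (nat_lit 53, nat_lit 20586709248), (nat_lit 122, nat_lit 20570194176), (nat_lit 102, nat_lit 21643673856)]⟩],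
  [W_15235039232, W_15218524160]⟩
theorem C_15268856064 : chkRec R_15268856064 = true := by decide +kernel

noncomputable def R_15268860033 : Rec := ⟨nat_lit 15268860033, nat_lit 17,
  [⟨V6_15235293312, [(nat_lit 84, nat_lit 15268860033), (nat_lit 51, nat_lit 16342601856), (nat_lit 111, nat_lit 16342597761), (nat_lit 79, nat_lit 16325824641), (nat_lit 18, nat_lit 17416339584), (nat_lit 33, nat_lit 17416335489), (nat_lit 97, nat_lit 17399566464), (nat_lit 83, nat_lit 17399562369), (nat_lit 111, nat_lit 17382789249), (nat_lit 3, nat_lit 18490077312), (nat_lit 108, nat_lit 18490073217), (nat_lit 8, nat_lit 18473304192), (nat_lit 23, nat_lit 18473300097), (nat_lit 107, nat_lit 18456531072), (nat_lit 4, nat_lit 18456526977), (nat_lit 119, nat_lit 19563815040), (nat_lit 12, nat_lit 19547041920), (nat_lit 65, nat_lit 19547037825), (nat_lit 114, nat_lit 19530268800), (nat_lit 18, nat_lit 19530264705), (nat_lit 119, nat_lit 20620779648), (nat_lit 74, nat_lit 20604006528), (nat_lit 121, nat_lit 20604002433), (nat_lit 64, nat_lit 21677744256)]⟩],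
  [W_15201747008, W_15184973888]⟩
theorem C_15268860033 : chkRec R_15268860033 = true := by decide +kernel

noncomputable def R_15268860096 : Rec := ⟨nat_lit 15268860096, nat_lit 24,
  [⟨V6_15268589568, [(nat_lit 32, nat_lit 15268860096), (nat_lit 103, nat_lit 16342601856), (nat_lit 107, nat_lit 16342597824), (nat_lit 57, nat_lit 16342339776), (nat_lit 114, nat_lit 17416343616), (nat_lit 1, nat_lit 17416339584), (nat_lit 82, nat_lit 17416335552), (nat_lit 15, nat_lit 17416081536), (nat_lit 16, nat_lit 17416077504), (nat_lit 65, nat_lit 18490085376), (nat_lit 105, nat_lit 18490081344), (nat_lit 3, nat_lit 18490077312), (nat_lit 90, nat_lit 18489823296), (nat_lit 105, nat_lit 18489819264), (nat_lit 104, nat_lit 18489815232), (nat_lit 104, nat_lit 19563823104), (nat_lit 21, nat_lit 19563819072), (nat_lit 1, nat_lit 19563565056), (nat_lit 37, nat_lit 19563561024), (nat_lit 21, nat_lit 19563556992), (nat_lit 95, nat_lit 20637560832), (nat_lit 36, nat_lit 20637302784), (nat_lit 75, nat_lit 20637298752), (nat_lit 95, nat_lit 21711040512)]⟩,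
   ⟨V6_15235043328, [(nat_lit 95, nat_lit 15268860096), (nat_lit 98, nat_lit 16342601856), (nat_lit 126, nat_lit 16342339776), (nat_lit 21, nat_lit 16325824704), (nat_lit 116, nat_lit 17416343616), (nat_lit 112, nat_lit 17416081536), (nat_lit 14, nat_lit 17399566464), (nat_lit 66, nat_lit 17399304384), (nat_lit 88, nat_lit 17382789312), (nat_lit 22, nat_lit 18490085376), (nat_lit 98, nat_lit 18489823296), (nat_lit 39, nat_lit 18473308224), (nat_lit 67, nat_lit 18473046144), (nat_lit 57, nat_lit 18456531072), (nat_lit 50, nat_lit 18456268992), (nat_lit 1, nat_lit 19563565056), (nat_lit 98, nat_lit 19547049984), (nat_lit 108, nat_lit 19546787904), (nat_lit 58, nat_lit 19530272832), (nat_lit 81, nat_lit 19530010752), (nat_lit 67, nat_lit 20620529664), (nat_lit 89, nat_lit 20604014592), (nat_lit 25, nat_lit 20603752512), (nat_lit 83, nat_lit 21677494272)]⟩],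
  [W_15201747008, W_15184973888, W_15184969856]⟩
theorem C_15268860096 : chkRec R_15268860096 = true := by decide +kernel

noncomputable def R_15268864065 : Rec := ⟨nat_lit 15268864065, nat_lit 6,
  [⟨V6_15268843584, [(nat_lit 83, nat_lit 15268864065), (nat_lit 10, nat_lit 16342605888), (nat_lit 43, nat_lit 16342601793), (nat_lit 70, nat_lit 17416343616), (nat_lit 93, nat_lit 17416339521), (nat_lit 11, nat_lit 18490081344), (nat_lit 27, nat_lit 18490077249), (nat_lit 53, nat_lit 19563819072), (nat_lit 16, nat_lit 19563814977), (nat_lit 15, nat_lit 20637556800), (nat_lit 123, nat_lit 20637552705), (nat_lit 95, nat_lit 21711294528)]⟩,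
   ⟨V6_15168200769, [(nat_lit 61, nat_lit 15268864065), (nat_lit 71, nat_lit 16325828673), (nat_lit 51, nat_lit 17382793281), (nat_lit 76, nat_lit 18439757889), (nat_lit 56, nat_lit 19496722497), (nat_lit 66, nat_lit 20553687105), (nat_lit 45, nat_lit 21610651713)]⟩],
  [W_15184973888]⟩
theorem C_15268864065 : chkRec R_15268864065 = true := by decide +kernel

noncomputable def R_15268864128 : Rec := ⟨nat_lit 15268864128, nat_lit 28,
  [⟨V6_15201755136, [(nat_lit 66, nat_lit 15268864128), (nat_lit 9, nat_lit 16342605888), (nat_lit 79, nat_lit 16325828736), (nat_lit 100, nat_lit 17416347648), (nat_lit 26, nat_lit 17399570496), (nat_lit 73, nat_lit 17382793344), (nat_lit 98, nat_lit 18473312256), (nat_lit 4, nat_lit 18456535104), (nat_lit 80, nat_lit 18439757952), (nat_lit 53, nat_lit 19530276864), (nat_lit 102, nat_lit 19513499712), (nat_lit 66, nat_lit 19496722560), (nat_lit 22, nat_lit 20587241472), (nat_lit 116, nat_lit 20570464320), (nat_lit 71, nat_lit 21644206080)]⟩],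
  [W_15235297280, W_15201747008]⟩
theorem C_15268864128 : chkRec R_15268864128 = true := by decide +kernel

noncomputable def R_15269113986 : Rec := ⟨nat_lit 15269113986, nat_lit 5,
  [⟨V6_15235031169, [(nat_lit 87, nat_lit 15269113986), (nat_lit 13, nat_lit 16342855809), (nat_lit 65, nat_lit 16342851714), (nat_lit 111, nat_lit 16342593666), (nat_lit 45, nat_lit 16326078594), (nat_lit 6, nat_lit 17416593537), (nat_lit 71, nat_lit 17416335489), (nat_lit 80, nat_lit 17416331394), (nat_lit 44, nat_lit 17416073346), (nat_lit 66, nat_lit 17399820417), (nat_lit 73, nat_lit 17399816322), (nat_lit 109, nat_lit 17399558274), (nat_lit 14, nat_lit 17383043202), (nat_lit 61, nat_lit 18490073217), (nat_lit 99, nat_lit 18489815169), (nat_lit 104, nat_lit 18489811074), (nat_lit 76, nat_lit 18473558145), (nat_lit 1, nat_lit 18473300097), (nat_lit 86, nat_lit 18473296002), (nat_lit 116, nat_lit 18473037954), (nat_lit 100, nat_lit 18456785025), (nat_lit 52, nat_lit 18456780930), (nat_lit 98, nat_lit 18456522882), (nat_lit 41, nat_lit 19563552897), (nat_lit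 74, nat_lit 19547037825), (nat_lit 14, nat_lit 19546779777), (nat_lit 57, nat_lit 19546775682), (nat_lit 55, nat_lit 19530522753), (nat_lit 62, nat_lit 19530264705), (nat_lit 104, nat_lit 19530260610), (nat_lit 53, nat_lit 19530002562), (nat_lit 106, nat_lit 20620517505), (nat_lit 17, nat_lit 20604002433), (nat_lit 21, nat_lit 20603744385), (nat_lit 126, nat_lit 20603740290), (nat_lit 34, nat_lit 21677482113)]⟩],
  [W_15202001024]⟩
theorem C_15269113986 : chkRec R_15269113986 = true := by decide +kernel

noncomputable def R_15269114049 : Rec := ⟨nat_lit 15269114049, nat_lit 9,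
  [⟨V6_15268065345, [(nat_lit 68, nat_lit 15269114049), (nat_lit 21, nat_lit 16342855809), (nat_lit 80, nat_lit 16342593729), (nat_lit 63, nat_lit 17416597569), (nat_lit 3, nat_lit 17416335489), (nat_lit 32, nat_lit 17416073409), (nat_lit 33, nat_lit 18490077249), (nat_lit 33, nat_lit 18489815169), (nat_lit 13, nat_lit 18489553089), (nat_lit 123, nat_lit 19563556929), (nat_lit 27, nat_lit 19563294849), (nat_lit 122, nat_lit 19563032769), (nat_lit 37, nat_lit 20637036609), (nat_lit 97, nat_lit 20636774529), (nat_lit 22, nat_lit 21710516289)]⟩,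
   ⟨V6_15234773184, [(nat_lit 118, nat_lit 15269114049), (nat_lit 29, nat_lit 16342855872), (nat_lit 52, nat_lit 16342593729), (nat_lit 71, nat_lit 16326078657), (nat_lit 78, nat_lit 17416335552), (nat_lit 51, nat_lit 17416073409), (nat_lit 38, nat_lit 17399820480), (nat_lit 1, nat_lit 17399558337), (nat_lit 113, nat_lit 17383043265), (nat_lit 114, nat_lit 18489815232), (nat_lit 68, nat_lit 18489553089), (nat_lit 108, nat_lit 18473300160), (nat_lit 47, nat_lit 18473038017), (nat_lit 19, nat_lit 18456785088), (nat_lit 75, nat_lit 18456522945), (nat_lit 7, nat_lit 19563294912), (nat_lit 4, nat_lit 19546779840), (nat_lit 6, nat_lit 19546517697), (nat_lit 71, nat_lit 19530264768), (nat_lit 31, nat_lit 19530002625), (nat_lit 37, nat_lit 20620259520), (nat_lit 35, nat_lit 20603744448), (nat_lit 100, nat_lit 20603482305), (nat_lit 48, nat_lit 21677224128)]⟩],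
  [W_15251550272, W_15185227904]⟩
theorem C_15269114049 : chkRec R_15269114049 = true := by decide +kernel

noncomputable def R_15269118081 : Rec := ⟨nat_lit 15269118081, nat_lit 26,
  [⟨V6_15234777216, [(nat_lit 52, nat_lit 15269118081), (nat_lit 30, nat_lit 16342859904), (nat_lit 10, nat_lit 16342597761), (nat_lit 126, nat_lit 16326082689), (nat_lit 15, nat_lit 17416339584), (nat_lit 44, nat_lit 17416077441), (nat_lit 105, nat_lit 17399824512), (nat_lit 93, nat_lit 17399562369), (nat_lit 95, nat_lit 17383047297), (nat_lit 61, nat_lit 18489819264), (nat_lit 101, nat_lit 18489557121), (nat_lit 11, nat_lit 18473304192), (nat_lit 53, nat_lit 18473042049), (nat_lit 116, nat_lit 18456789120), (nat_lit 117, nat_lit 18456526977), (nat_lit 16, nat_lit 19563298944), (nat_lit 118, nat_lit 19546783872), (nat_lit 50, nat_lit 19546521729), (nat_lit 126, nat_lit 19530268800), (nat_lit 89, nat_lit 19530006657), (nat_lit 12, nat_lit 20620263552), (nat_lit 80, nat_lit 20603748480), (nat_lit 29, nat_lit 20603486337), (nat_lit 19, nat_lit 21677228160)]⟩],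
  [W_15268323392, W_15251808320, W_15251550272, W_15202001024, W_15185231936]⟩
theorem C_15269118081 : chkRec R_15269118081 = true := by decide +kernel

noncomputable def R_15269118144 : Rec := ⟨nat_lit 15269118144, nat_lit 36,
  [⟨V6_15268589568, [(nat_lit 50, nat_lit 15269118144), (nat_lit 96, nat_lit 16342859904), (nat_lit 10, nat_lit 16342855872), (nat_lit 117, nat_lit 16342597824), (nat_lit 5, nat_lit 17416601664), (nat_lit 51, nat_lit 17416597632), (nat_lit 55, nat_lit 17416339584), (nat_lit 91, nat_lit 17416335552), (nat_lit 2, nat_lit 17416077504), (nat_lit 56, nat_lit 18490343424), (nat_lit 65, nat_lit 18490339392), (nat_lit 18, nat_lit 18490081344), (nat_lit 10, nat_lit 18490077312), (nat_lit 15, nat_lit 18489819264), (nat_lit 97, nat_lit 18489815232), (nat_lit 23, nat_lit 19564081152), (nat_lit 27, nat_lit 19563823104), (nat_lit 21, nat_lit 19563819072), (nat_lit 105, nat_lit 19563561024), (nat_lit 81, nat_lit 19563556992), (nat_lit 59, nat_lit 20637560832), (nat_lit 6, nat_lit 20637302784), (nat_lit 114, nat_lit 20637298752),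 (nat_lit 110, nat_lit 21711040512)]⟩,
   ⟨V6_15268331520, [(nat_lit 22, nat_lit 15269118144), (nat_lit 104, nat_lit 16342859904), (nat_lit 76, nat_lit 16342597824), (nat_lit 70, nat_lit 17416601664), (nat_lit 8, nat_lit 17416339584), (nat_lit 28, nat_lit 17416077504), (nat_lit 95, nat_lit 18490343424), (nat_lit 23, nat_lit 18490081344), (nat_lit 61, nat_lit 18489819264), (nat_lit 45, nat_lit 18489557184), (nat_lit 123, nat_lit 19563823104), (nat_lit 106, nat_lit 19563561024), (nat_lit 32, nat_lit 19563298944), (nat_lit 41, nat_lit 20637302784), (nat_lit 26, nat_lit 20637040704), (nat_lit 109, nat_lit 21710782464)]⟩,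
   ⟨V6_15218000064, [(nat_lit 38, nat_lit 15269118144), (nat_lit 47, nat_lit 16342597824), (nat_lit 1, nat_lit 16326082752), (nat_lit 10, nat_lit 17416077504), (nat_lit 89, nat_lit 17399562432), (nat_lit 120, nat_lit 17383047360), (nat_lit 79, nat_lit 18489557184), (nat_lit 6, nat_lit 18473042112), (nat_lit 44, nat_lit 18456527040), (nat_lit 82, nat_lit 18440011968), (nat_lit 121, nat_lit 19546521792), (nat_lit 27, nat_lit 19530006720), (nat_lit 81, nat_lit 19513491648), (nat_lit 6, nat_lit 20603486400), (nat_lit 87, nat_lit 20586971328), (nat_lit 23, nat_lit 21660451008)]⟩],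
  [W_15218524160, W_15202009088, W_15168450752, W_15151677632]⟩
theorem C_15269118144 : chkRec R_15269118144 = true := by decide +kernel

noncomputable def R_15269122113 : Rec := ⟨nat_lit 15269122113, nat_lit 20,
  [⟨V6_15252328512, [(nat_lit 13, nat_lit 15269122113), (nat_lit 4, nat_lit 16342863936), (nat_lit 53, nat_lit 16342859841), (nat_lit 66, nat_lit 16326086721), (nat_lit 110, nat_lit 17416601664), (nat_lit 78, nat_lit 17416597569), (nat_lit 114, nat_lit 17399828544), (nat_lit 52, nat_lit 17399824449), (nat_lit 62, nat_lit 18490339392), (nat_lit 71, nat_lit 18490335297), (nat_lit 2, nat_lit 18473566272), (nat_lit 25, nat_lit 18473562177), (nat_lit 78, nat_lit 19564077120), (nat_lit 48, nat_lit 19564073025), (nat_lit 24, nat_lit 19547304000), (nat_lit 116, nat_lit 19547299905), (nat_lit 79, nat_lit 20637814848), (nat_lit 69, nat_lit 20621041728), (nat_lit 72, nat_lit 20621037633), (nat_lit 23, nat_lit 21694779456)]⟩],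
  [W_15201747008, W_15201488960, W_15184973888]⟩
theorem C_15269122113 : chkRec R_15269122113 = true := by decide +kernel

noncomputable def R_15269122176 : Rec := ⟨nat_lit 15269122176, nat_lit 48,
  [⟨V6_15252332544, [(nat_lit 68, nat_lit 15269122176), (nat_lit 4, nat_lit 16342863936), (nat_lit 118, nat_lit 16342859904), (nat_lit 21, nat_lit 16326086784), (nat_lit 121, nat_lit 17416605696), (nat_lit 110, nat_lit 17416601664), (nat_lit 74, nat_lit 17416597632), (nat_lit 114, nat_lit 17399828544), (nat_lit 91, nat_lit 17399824512), (nat_lit 98, nat_lit 18490343424), (nat_lit 62, nat_lit 18490339392), (nat_lit 35, nat_lit 18490335360), (nat_lit 39, nat_lit 18473570304), (nat_lit 2, nat_lit 18473566272), (nat_lit 124, nat_lit 18473562240), (nat_lit 66, nat_lit 19564081152), (nat_lit 78, nat_lit 19564077120), (nat_lit 89, nat_lit 19547308032), (nat_lit 24, nat_lit 19547304000), (nat_lit 61, nat_lit 19547299968), (nat_lit 76, nat_lit 20637818880), (nat_lit 47, nat_lit 20621045760), (nat_lit 69, nat_lit 20621041728), (nat_lit 27, nat_lit 21694783488)]⟩,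
   ⟨V6_15235043328, [(nat_lit 122, nat_lit 15269122176), (nat_lit 125, nat_lit 16342863936), (nat_lit 113, nat_lit 16342601856), (nat_lit 60, nat_lit 16326086784), (nat_lit 37, nat_lit 17416605696), (nat_lit 98, nat_lit 17416343616), (nat_lit 19, nat_lit 17416081536), (nat_lit 74, nat_lit 17399828544), (nat_lit 86, nat_lit 17399566464), (nat_lit 38, nat_lit 17383051392), (nat_lit 35, nat_lit 18490085376), (nat_lit 41, nat_lit 18489823296), (nat_lit 56, nat_lit 18473570304), (nat_lit 70, nat_lit 18473308224), (nat_lit 34, nat_lit 18473046144), (nat_lit 30, nat_lit 18456793152), (nat_lit 84, nat_lit 18456531072), (nat_lit 93, nat_lit 19563565056), (nat_lit 50, nat_lit 19547049984), (nat_lit 58, nat_lit 19546787904), (nat_lit 70, nat_lit 19530534912), (nat_lit 56, nat_lit 19530272832), (nat_lit 17, nat_lit 19530010752), (nat_lit 37, nat_lit 20620529664), (nat_lit 81, nat_lit 20604014592), (nat_lit 106, nat_lit 20603752512), (nat_lit 95, nat_lit 21677494272)]⟩],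
  [W_15202009088, W_15202001024, W_15201747008, W_15185231936, W_15184969856]⟩
theorem C_15269122176 : chkRec R_15269122176 = true := by decide +kernel

noncomputable def R_15269126208 : Rec := ⟨nat_lit 15269126208, nat_lit 41,
  [⟨V6_15252328512, [(nat_lit 104, nat_lit 15269126208), (nat_lit 79, nat_lit 16342863936), (nat_lit 49, nat_lit 16326090816), (nat_lit 85, nat_lit 17416601664), (nat_lit 71, nat_lit 17399828544), (nat_lit 4, nat_lit 18490339392), (nat_lit 85, nat_lit 18473566272), (nat_lit 10, nat_lit 19564077120), (nat_lit 36, nat_lit 19547304000), (nat_lit 13, nat_lit 20637814848), (nat_lit 86, nat_lit 20621041728), (nat_lit 4, nat_lit 21694779456)]⟩,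
   ⟨V6_15201755136, [(nat_lit 82, nat_lit 15269126208), (nat_lit 14, nat_lit 16342867968), (nat_lit 122, nat_lit 16342605888), (nat_lit 54, nat_lit 16326090816), (nat_lit 69, nat_lit 17416347648), (nat_lit 68, nat_lit 17399832576), (nat_lit 121, nat_lit 17399570496), (nat_lit 14, nat_lit 17383055424), (nat_lit 64, nat_lit 18473312256), (nat_lit 23, nat_lit 18456797184), (nat_lit 126, nat_lit 18456535104), (nat_lit 23, nat_lit 18440020032), (nat_lit 47, nat_lit 19530276864), (nat_lit 23, nat_lit 19513761792), (nat_lit 46, nat_lit 19513499712), (nat_lit 98, nat_lit 19496984640), (nat_lit 81, nat_lit 20587241472), (nat_lit 88, nat_lit 20570726400), (nat_lit 56, nat_lit 20570464320), (nat_lit 113, nat_lit 21644206080)]⟩],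
  [W_15202009088, W_15185231936, W_15184973888, W_15168462848, W_15168458816]⟩
theorem C_15269126208 : chkRec R_15269126208 = true := by decide +kernel

noncomputable def R_15269130240 : Rec := ⟨nat_lit 15269130240, nat_lit 10,
  [⟨V6_15269105664, [(nat_lit 97, nat_lit 15269130240), (nat_lit 2, nat_lit 16342867968), (nat_lit 6, nat_lit 17416605696), (nat_lit 61, nat_lit 18490343424), (nat_lit 114, nat_lit 19564081152), (nat_lit 120, nat_lit 20637818880), (nat_lit 13, nat_lit 21711556608)]⟩],
  [W_15202009088]⟩
theorem C_15269130240 : chkRec R_15269130240 = true := by decide +kernel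

noncomputable def R_15269372034 : Rec := ⟨nat_lit 15269372034, nat_lit 6,
  [⟨V6_15268061313, [(nat_lit 98, nat_lit 15269372034), (nat_lit 89, nat_lit 16343113857), (nat_lit 46, nat_lit 16342851714), (nat_lit 63, nat_lit 17416593537), (nat_lit 91, nat_lit 17416331394), (nat_lit 99, nat_lit 18490073217), (nat_lit 44, nat_lit 18489811074), (nat_lit 22, nat_lit 19563552897), (nat_lit 107, nat_lit 19563290754), (nat_lit 26, nat_lit 20637032577), (nat_lit 65, nat_lit 20636770434), (nat_lit 121, nat_lit 21710512257)]⟩,
   ⟨V6_15168708738, [(nat_lit 3, nat_lit 15269372034), (nat_lit 118, nat_lit 16326336642), (nat_lit 15, nat_lit 17383301250), (nat_lit 112, nat_lit 18440265858), (nat_lit 9, nat_lit 19497230466), (nat_lit 124, nat_lit 20554195074), (nat_lit 73, nat_lit 21611159682)]⟩],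
  [W_15268061312, W_15202001024]⟩
theorem C_15269372034 : chkRec R_15269372034 = true := by decide +kernel

noncomputable def R_15269376129 : Rec := ⟨nat_lit 15269376129, nat_lit 20,
  [⟨V6_15202263168, [(nat_lit 27, nat_lit 15269376129), (nat_lit 39, nat_lit 16343117952), (nat_lit 71, nat_lit 16343113857), (nat_lit 66, nat_lit 16326340737), (nat_lit 68, nat_lit 17416855680), (nat_lit 6, nat_lit 17400082560), (nat_lit 121, nat_lit 17400078465), (nat_lit 55, nat_lit 17383305345), (nat_lit 71, nat_lit 18473820288), (nat_lit 10, nat_lit 18457047168), (nat_lit 82, nat_lit 18457043073), (nat_lit 95, nat_lit 18440269953), (nat_lit 49, nat_lit 19530784896), (nat_lit 9, nat_lit 19514011776), (nat_lit 1, nat_lit 19514007681), (nat_lit 91, nat_lit 19497234561), (nat_lit 114, nat_lit 20587749504), (nat_lit 60, nat_lit 20570976384), (nat_lit 30, nat_lit 20570972289), (nat_lit 116, nat_lit 21644714112)]⟩],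
  [W_15268323392, W_15251808320, W_15251550272, W_15185489984]⟩
theorem C_15269376129 : chkRec R_15269376129 = true := by decide +kernel

noncomputable def R_15269376192 : Rec := ⟨nat_lit 15269376192, nat_lit 19,
  [⟨V6_15268589568, [(nat_lit 100, nat_lit 15269376192), (nat_lit 57, nat_lit 16343117952), (nat_lit 121, nat_lit 16342855872), (nat_lit 86, nat_lit 17416859712), (nat_lit 117, nat_lit 17416597632), (nat_lit 97, nat_lit 17416335552), (nat_lit 87, nat_lit 18490601472), (nat_lit 24, nat_lit 18490339392), (nat_lit 3, nat_lit 18490077312), (nat_lit 3, nat_lit 18489815232), (nat_lit 33, nat_lit 19564081152), (nat_lit 126, nat_lit 19563819072), (nat_lit 87, nat_lit 19563556992), (nat_lit 49, nat_lit 20637560832), (nat_lit 50, nat_lit 20637298752), (nat_lit 76, nat_lit 21711040512)]⟩,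
   ⟨V6_15168712896, [(nat_lit 49, nat_lit 15269376192), (nat_lit 107, nat_lit 16326340800), (nat_lit 118, nat_lit 17383305408), (nat_lit 9, nat_lit 18440270016), (nat_lit 20, nat_lit 19497234624), (nat_lit 78, nat_lit 20554199232), (nat_lit 7, nat_lit 21611163840)]⟩],
  [W_15251550272, W_15235297280, W_15168450752]⟩
theorem C_15269376192 : chkRec R_15269376192 = true := by decide +kernel

noncomputable def R_15269380161 : Rec := ⟨nat_lit 15269380161, nat_lit 21,
  [⟨V6_15235813440, [(nat_lit 98, nat_lit 15269380161), (nat_lit 73, nat_lit 16343121984), (nat_lit 108, nat_lit 16343117889), (nat_lit 72, nat_lit 16326344769), (nat_lit 100, nat_lit 17416859712), (nat_lit 79, nat_lit 17416855617), (nat_lit 36, nat_lit 17400086592), (nat_lit 118, nat_lit 17400082497), (nat_lit 83, nat_lit 17383309377), (nat_lit 89, nat_lit 18490597440), (nat_lit 126, nat_lit 18490593345), (nat_lit 35, nat_lit 18473824320), (nat_lit 1, nat_lit 18473820225), (nat_lit 83, nat_lit 18457051200), (nat_lit 41, nat_lit 18457047105), (nat_lit 13, nat_lit 19564335168), (nat_lit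 57, nat_lit 19547562048), (nat_lit 55, nat_lit 19547557953), (nat_lit 48, nat_lit 19530788928), (nat_lit 86, nat_lit 19530784833), (nat_lit 82, nat_lit 20621299776), (nat_lit 25, nat_lit 20604526656), (nat_lit 103, nat_lit 20604522561), (nat_lit 97, nat_lit 21678264384)]⟩],
  [W_15251550272, W_15234777152, W_15185231936, W_15168716864]⟩
theorem C_15269380161 : chkRec R_15269380161 = true := by decide +kernel

noncomputable def R_15269380224 : Rec := ⟨nat_lit 15269380224, nat_lit 66,
  [⟨V6_15268331520, [(nat_lit 77, nat_lit 15269380224), (nat_lit 62, nat_lit 16343121984), (nat_lit 67, nat_lit 16342859904), (nat_lit 88, nat_lit 17416863744), (nat_lit 78, nat_lit 17416601664), (nat_lit 86, nat_lit 17416339584), (nat_lit 15, nat_lit 18490343424), (nat_lit 115, nat_lit 18490081344), (nat_lit 28, nat_lit 18489819264), (nat_lit 100, nat_lit 19563823104), (nat_lit 71, nat_lit 19563561024), (nat_lit 27, nat_lit 19563298944), (nat_lit 46, nat_lit 20637302784), (nat_lit 39, nat_lit 20637040704), (nat_lit 8, nat_lit 21710782464)]⟩,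
   ⟨V6_15251816448, [(nat_lit 111, nat_lit 15269380224), (nat_lit 35, nat_lit 16343121984), (nat_lit 82, nat_lit 16342859904), (nat_lit 19, nat_lit 16326344832), (nat_lit 103, nat_lit 17416863744), (nat_lit 100, nat_lit 17416601664), (nat_lit 117, nat_lit 17416339584), (nat_lit 22, nat_lit 17400086592), (nat_lit 61, nat_lit 17399824512), (nat_lit 112, nat_lit 18490343424), (nat_lit 105, nat_lit 18490081344), (nat_lit 76, nat_lit 18489819264), (nat_lit 17, nat_lit 18473828352), (nat_lit 43, nat_lit 18473566272), (nat_lit 57, nat_lit 18473304192), (nat_lit 111, nat_lit 19563823104), (nat_lit 119, nat_lit 19563561024), (nat_lit 76, nat_lit 19547308032), (nat_lit 12, nat_lit 19547045952), (nat_lit 37, nat_lit 19546783872), (nat_lit 21, nat_lit 20637302784), (nat_lit 29, nat_lit 20620787712), (nat_lit 76, nat_lit 20620525632), (nat_lit 109, nat_lit 21694267392)]⟩,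
   ⟨V6_15234777216, [(nat_lit 20, nat_lit 15269380224), (nat_lit 50, nat_lit 16342859904), (nat_lit 23, nat_lit 16326344832), (nat_lit 124, nat_lit 17416339584), (nat_lit 105, nat_lit 17399824512), (nat_lit 86, nat_lit 17383309440), (nat_lit 122, nat_lit 18489819264), (nat_lit 19, nat_lit 18473304192), (nat_lit 67, nat_lit 18456789120), (nat_lit 75, nat_lit 19563298944), (nat_lit 40, nat_lit 19546783872), (nat_lit 63, nat_lit 19530268800), (nat_lit 2, nat_lit 20620263552), (nat_lit 108, nat_lit 20603748480), (nat_lit 75, nat_lit 21677228160)]⟩],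
  [W_15235297280, W_15202009088, W_15202001024, W_15185494016, W_15185489984, W_15168716864, W_15168712832]⟩
theorem C_15269380224 : chkRec R_15269380224 = true := by decide +kernel

noncomputable def R_15269384256 : Rec := ⟨nat_lit 15269384256, nat_lit 61,
  [⟨V6_15268843584, [(nat_lit 34, nat_lit 15269384256), (nat_lit 74, nat_lit 16343121984), (nat_lit 119, nat_lit 16342863936), (nat_lit 96, nat_lit 17416859712), (nat_lit 90, nat_lit 17416601664), (nat_lit 110, nat_lit 17416343616), (nat_lit 90, nat_lit 18490597440), (nat_lit 77, nat_lit 18490339392), (nat_lit 108, nat_lit 18490081344), (nat_lit 49, nat_lit 19564335168), (nat_lit 106, nat_lit 19564077120), (nat_lit 63, nat_lit 19563819072), (nat_lit 126, nat_lit 20637814848), (nat_lit 99, nat_lit 20637556800), (nat_lit 122, nat_lit 21711294528)]⟩,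
   ⟨V6_15235817472, [(nat_lit 5, nat_lit 15269384256), (nat_lit 113, nat_lit 16343126016), (nat_lit 69, nat_lit 16343121984), (nat_lit 12, nat_lit 16326348864), (nat_lit 21, nat_lit 17416863744), (nat_lit 75, nat_lit 17416859712), (nat_lit 9, nat_lit 17400090624), (nat_lit 73, nat_lit 17400086592), (nat_lit 8, nat_lit 17383313472), (nat_lit 63, nat_lit 18490601472), (nat_lit 54, nat_lit 18490597440), (nat_lit 61, nat_lit 18473828352), (nat_lit 46, nat_lit 18473824320), (nat_lit 82, nat_lit 18457055232), (nat_lit 56, nat_lit 18457051200), (nat_lit 65, nat_lit 19564339200), (nat_lit 123, nat_lit 19547566080), (nat_lit 54, nat_lit 19547562048), (nat_lit 37, nat_lit 19530792960), (nat_lit 72, nat_lit 19530788928), (nat_lit 3, nat_lit 20621303808), (nat_lit 58, nat_lit 20604530688), (nat_lit 76, nat_lit 20604526656), (nat_lit 53, nat_lit 21678268416)]⟩],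
  [W_15218266112, W_15202009088, W_15201747008, W_15185231936, W_15184973888, W_15168720896, W_15168716864]⟩
theorem C_15269384256 : chkRec R_15269384256 = true := by decide +kernel

noncomputable def R_15269388288 : Rec := ⟨nat_lit 15269388288, nat_lit 43,
  [⟨V6_15201755136, [(nat_lit 30, nat_lit 15269388288), (nat_lit 86, nat_lit 16342867968), (nat_lit 68, nat_lit 16326352896), (nat_lit 114, nat_lit 17416347648), (nat_lit 60, nat_lit 17399832576), (nat_lit 121, nat_lit 17383317504), (nat_lit 77, nat_lit 18473312256), (nat_lit 81, nat_lit 18456797184), (nat_lit 55, nat_lit 18440282112), (nat_lit 70, nat_lit 19530276864), (nat_lit 60, nat_lit 19513761792), (nat_lit 47, nat_lit 19497246720), (nat_lit 11, nat_lit 20587241472), (nat_lit 57, nat_lit 20570726400), (nat_lit 81, nat_lit 21644206080)]⟩,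
   ⟨V6_15168724992, [(nat_lit 52, nat_lit 15269388288), (nat_lit 98, nat_lit 16326352896), (nat_lit 6, nat_lit 17383317504), (nat_lit 121, nat_lit 18440282112), (nat_lit 29, nat_lit 19497246720), (nat_lit 75, nat_lit 20554211328), (nat_lit 80, nat_lit 21611175936)]⟩],
  [W_15269101568, W_15252586496, W_15235297280, W_15218524160]⟩
theorem C_15269388288 : chkRec R_15269388288 = true := by decide +kernel

noncomputable def R_15269634177 : Rec := ⟨nat_lit 15269634177, nat_lit 11,
  [⟨V6_15185748096, [(nat_lit 100, nat_lit 15269634177), (nat_lit 79, nat_lit 16343376000), (nat_lit 64, nat_lit 16326598785), (nat_lit 64, nat_lit 17400340608), (nat_lit 121, nat_lit 17383563393), (nat_lit 115, nat_lit 18457305216), (nat_lit 81, nat_lit 18440528001), (nat_lit 55, nat_lit 19514269824), (nat_lit 56, nat_lit 19497492609), (nat_lit 74, nat_lit 20571234432), (nat_lit 16, nat_lit 20554457217), (nat_lit 96, nat_lit 21628199040)]⟩,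
   ⟨V6_15185748033, [(nat_lit 79, nat_lit 15269634177), (nat_lit 60, nat_lit 16343375937), (nat_lit 1, nat_lit 16326598785), (nat_lit 57, nat_lit 17400340545), (nat_lit 53, nat_lit 17383563393), (nat_lit 94, nat_lit 18457305153), (nat_lit 50, nat_lit 18440528001), (nat_lit 3, nat_lit 19514269761), (nat_lit 63, nat_lit 19497492609), (nat_lit 1, nat_lit 20571234369), (nat_lit 104, nat_lit 20554457217), (nat_lit 112, nat_lit 21628198977)]⟩],
  [W_15268323392, W_15268061312, W_15251546240, W_15202001024]⟩
theorem C_15269634177 : chkRec R_15269634177 = true := by decide +kernel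

noncomputable def R_15269638209 : Rec := ⟨nat_lit 15269638209, nat_lit 18,
  [⟨V6_15185752128, [(nat_lit 3, nat_lit 15269638209), (nat_lit 90, nat_lit 16343380032), (nat_lit 7, nat_lit 16326602817), (nat_lit 7, nat_lit 17400344640), (nat_lit 43, nat_lit 17383567425), (nat_lit 86, nat_lit 18457309248), (nat_lit 118, nat_lit 18440532033), (nat_lit 8, nat_lit 19514273856), (nat_lit 22, nat_lit 19497496641), (nat_lit 20, nat_lit 20571238464), (nat_lit 97, nat_lit 20554461249), (nat_lit 74, nat_lit 21628203072)]⟩],
  [W_15268323392, W_15251808320, W_15251550272, W_15235551296]⟩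
theorem C_15269638209 : chkRec R_15269638209 = true := by decide +kernel

noncomputable def R_15269638272 : Rec := ⟨nat_lit 15269638272, nat_lit 41,
  [⟨V6_15202529280, [(nat_lit 27, nat_lit 15269638272), (nat_lit 21, nat_lit 16343380032), (nat_lit 15, nat_lit 16326602880), (nat_lit 64, nat_lit 17417121792), (nat_lit 103, nat_lit 17400344640), (nat_lit 1, nat_lit 17383567488), (nat_lit 17, nat_lit 18474086400), (nat_lit 94, nat_lit 18457309248), (nat_lit 102, nat_lit 18440532096), (nat_lit 39, nat_lit 19531051008), (nat_lit 111, nat_lit 19514273856), (nat_lit 27, nat_lit 19497496704), (nat_lit 9, nat_lit 20588015616), (nat_lit 59, nat_lit 20571238464), (nat_lit 81, nat_lit 21644980224)]⟩,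
   ⟨V6_15185748096, [(nat_lit 50, nat_lit 15269638272), (nat_lit 82, nat_lit 16343376000), (nat_lit 51, nat_lit 16326602880), (nat_lit 106, nat_lit 17400340608), (nat_lit 11, nat_lit 17383567488), (nat_lit 19, nat_lit 18457305216), (nat_lit 118, nat_lit 18440532096), (nat_lit 51, nat_lit 19514269824), (nat_lit 70, nat_lit 19497496704), (nat_lit 62, nat_lit 20571234432), (nat_lit 67, nat_lit 20554461312), (nat_lit 36, nat_lit 21628199040)]⟩],
  [W_15268585472, W_15268327424, W_15268323392, W_15268061312, W_15251812352, W_15251546240, W_15235297280]⟩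
theorem C_15269638272 : chkRec R_15269638272 = true := by decide +kernel

noncomputable def R_15269642304 : Rec := ⟨nat_lit 15269642304, nat_lit 62,
  [⟨V6_15269105664, [(nat_lit 107, nat_lit 15269642304), (nat_lit 32, nat_lit 16343384064), (nat_lit 119, nat_lit 16343380032), (nat_lit 26, nat_lit 16343121984), (nat_lit 78, nat_lit 17417121792), (nat_lit 120, nat_lit 17417117760), (nat_lit 76, nat_lit 17416863744), (nat_lit 39, nat_lit 17416859712), (nat_lit 119, nat_lit 17416601664), (nat_lit 49, nat_lit 18490859520), (nat_lit 61, nat_lit 18490855488), (nat_lit 20, nat_lit 18490601472), (nat_lit 14, nat_lit 18490597440), (nat_lit 117, nat_lit 18490343424), (nat_lit 51, nat_lit 18490339392), (nat_lit 108, nat_lit 19564597248), (nat_lit 96, nat_lit 19564339200), (nat_lit 122, nat_lit 19564335168), (nat_lit 68, nat_lit 19564081152), (nat_lit 54, nat_lit 19564077120), (nat_lit 45, nat_lit 20638076928), (nat_lit 81, nat_lit 20637818880), (nat_lit 20, nat_lit 20637814848), (nat_lit 40, nat_lit 21711556608)]⟩,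
   ⟨V6_15268843584, [(nat_lit 87, nat_lit 15269642304), (nat_lit 92, nat_lit 16343380032), (nat_lit 94, nat_lit 16343121984), (nat_lit 61, nat_lit 17417117760), (nat_lit 110, nat_lit 17416859712), (nat_lit 30, nat_lit 17416601664), (nat_lit 126, nat_lit 18490855488), (nat_lit 53, nat_lit 18490597440), (nat_lit 44, nat_lit 18490339392), (nat_lit 16, nat_lit 18490081344), (nat_lit 55, nat_lit 19564335168), (nat_lit 16, nat_lit 19564077120), (nat_lit 16, nat_lit 19563819072), (nat_lit 112, nat_lit 20637814848), (nat_lit 33, nat_lit 20637556800), (nat_lit 9, nat_lit 21711294528)]⟩,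
   ⟨V6_15268331520, [(nat_lit 67, nat_lit 15269642304), (nat_lit 113, nat_lit 16343384064), (nat_lit 3, nat_lit 16343121984), (nat_lit 61, nat_lit 17416863744), (nat_lit 27, nat_lit 17416601664), (nat_lit 5, nat_lit 18490343424), (nat_lit 6, nat_lit 18490081344), (nat_lit 13, nat_lit 19563823104), (nat_lit 81, nat_lit 19563561024), (nat_lit 72, nat_lit 20637302784), (nat_lit 43, nat_lit 20637040704), (nat_lit 101, nat_lit 21710782464)]⟩,
   ⟨V6_15251816448, [(nat_lit 68, nat_lit 15269642304), (nat_lit 75, nat_lit 16343384064), (nat_lit 57, nat_lit 16343121984), (nat_lit 125, nat_lit 16326606912), (nat_lit 18, nat_lit 17416863744), (nat_lit 103, nat_lit 17416601664), (nat_lit 18, nat_lit 17400348672), (nat_lit 32, nat_lit 17400086592), (nat_lit 122, nat_lit 18490343424), (nat_lit 11, nat_lit 18490081344), (nat_lit 67, nat_lit 18473828352), (nat_lit 62, nat_lit 18473566272), (nat_lit 3, nat_lit 19563823104), (nat_lit 66, nat_lit 19563561024), (nat_lit 47, nat_lit 19547308032), (nat_lit 39, nat_lit 19547045952), (nat_lit 66, nat_lit 20637302784),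 (nat_lit 79, nat_lit 20620787712), (nat_lit 75, nat_lit 20620525632), (nat_lit 23, nat_lit 21694267392)]⟩],
  [W_15202525184, W_15202521152, W_15202009088, W_15185752064, W_15185748032, W_15185494016, W_15185489984, W_15185231936]⟩
theorem C_15269642304 : chkRec R_15269642304 = true := by decide +kernel

noncomputable def R_15269646336 : Rec := ⟨nat_lit 15269646336, nat_lit 43,
  [⟨V6_15218528256, [(nat_lit 121, nat_lit 15269646336), (nat_lit 119, nat_lit 16343126016), (nat_lit 77, nat_lit 16326610944), (nat_lit 123, nat_lit 17416605696), (nat_lit 4, nat_lit 17400090624), (nat_lit 11, nat_lit 17383575552), (nat_lit 96, nat_lit 18490085376), (nat_lit 92, nat_lit 18473570304), (nat_lit 52, nat_lit 18457055232), (nat_lit 19, nat_lit 18440540160), (nat_lit 49, nat_lit 19547049984), (nat_lit 40, nat_lit 19530534912), (nat_lit 35, nat_lit 19514019840), (nat_lit 91, nat_lit 20604014592), (nat_lit 37, nat_lit 20587499520), (nat_lit 18, nat_lit 21660979200)]⟩],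
  [W_15269101568, W_15268843520, W_15268585472, W_15252586496, W_15251812352, W_15202525184, W_15185752064]⟩
theorem C_15269646336 : chkRec R_15269646336 = true := by decide +kernel

noncomputable def R_15269896257 : Rec := ⟨nat_lit 15269896257, nat_lit 8,
  [⟨V6_15268581441, [(nat_lit 35, nat_lit 15269896257), (nat_lit 123, nat_lit 16343633985), (nat_lit 45, nat_lit 16343375937), (nat_lit 110, nat_lit 17417113665), (nat_lit 90, nat_lit 17416855617), (nat_lit 34, nat_lit 18490593345), (nat_lit 90, nat_lit 18490335297), (nat_lit 40, nat_lit 19564073025), (nat_lit 48, nat_lit 19563814977), (nat_lit 80, nat_lit 20637552705), (nat_lit 8, nat_lit 20637294657), (nat_lit 28, nat_lit 21711032385)]⟩,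
   ⟨V6_15202783296, [(nat_lit 14, nat_lit 15269896257), (nat_lit 7, nat_lit 16343638080), (nat_lit 51, nat_lit 16343633985), (nat_lit 28, nat_lit 16326860865), (nat_lit 116, nat_lit 17417375808), (nat_lit 119, nat_lit 17400602688), (nat_lit 40, nat_lit 17400598593), (nat_lit 51, nat_lit 17383825473), (nat_lit 96, nat_lit 18474340416), (nat_lit 116, nat_lit 18457567296), (nat_lit 118, nat_lit 18457563201), (nat_lit 106, nat_lit 18440790081), (nat_lit 33, nat_lit 19531305024), (nat_lit 37, nat_lit 19514531904), (nat_lit 123, nat_lit 19514527809), (nat_lit 28, nat_lit 19497754689), (nat_lit 17, nat_lit 20588269632), (nat_lit 62, nat_lit 20571496512), (nat_lit 59, nat_lit 20571492417), (nat_lit 71, nat_lit 21645234240)]⟩],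
  [W_15268323392, W_15235551296]⟩
theorem C_15269896257 : chkRec R_15269896257 = true := by decide +kernel

noncomputable def R_15269896320 : Rec := ⟨nat_lit 15269896320, nat_lit 25,
  [⟨V6_15202263168, [(nat_lit 99, nat_lit 15269896320), (nat_lit 35, nat_lit 16343376000), (nat_lit 53, nat_lit 16326860928), (nat_lit 24, nat_lit 17416855680), (nat_lit 99, nat_lit 17400340608), (nat_lit 111, nat_lit 17383825536), (nat_lit 55, nat_lit 18473820288), (nat_lit 121, nat_lit 18457305216), (nat_lit 98, nat_lit 18440790144), (nat_lit 120, nat_lit 19530784896), (nat_lit 85, nat_lit 19514269824), (nat_lit 37, nat_lit 19497754752), (nat_lit 7, nat_lit 20587749504), (nat_lit 124, nat_lit 20571234432), (nat_lit 72, nat_lit 21644714112)]⟩],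
  [W_15268585472, W_15268323392, W_15202525184, W_15202001024]⟩
theorem C_15269896320 : chkRec R_15269896320 = true := by decide +kernel

noncomputable def R_15269900352 : Rec := ⟨nat_lit 15269900352, nat_lit 43,
  [⟨V6_15269105664, [(nat_lit 38, nat_lit 15269900352), (nat_lit 61, nat_lit 16343642112), (nat_lit 82, nat_lit 16343638080), (nat_lit 2, nat_lit 16343380032), (nat_lit 52, nat_lit 17417379840), (nat_lit 33, nat_lit 17417375808), (nat_lit 61, nat_lit 17417121792), (nat_lit 116, nat_lit 17417117760), (nat_lit 115, nat_lit 17416859712), (nat_lit 31, nat_lit 18491117568), (nat_lit 75, nat_lit 18490859520), (nat_lit 65, nat_lit 18490855488), (nat_lit 19, nat_lit 18490601472), (nat_lit 115, nat_lit 18490597440), (nat_lit 103, nat_lit 18490339392), (nat_lit 21, nat_lit 19564597248), (nat_lit 69, nat_lit 19564339200), (nat_lit 33, nat_lit 19564335168), (nat_lit 48, nat_lit 19564081152), (nat_lit 37, nat_lit 19564077120), (nat_lit 1, nat_lit 20638076928), (nat_lit 12, nat_lit 20637818880), (nat_lit 82, nat_lit 20637814848), (nat_lit 8,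 nat_lit 21711556608)]⟩,
   ⟨V6_15268843584, [(nat_lit 35, nat_lit 15269900352), (nat_lit 52, nat_lit 16343638080), (nat_lit 104, nat_lit 16343380032), (nat_lit 87, nat_lit 17417375808), (nat_lit 114, nat_lit 17417117760), (nat_lit 15, nat_lit 17416859712), (nat_lit 26, nat_lit 18490855488), (nat_lit 9, nat_lit 18490597440), (nat_lit 54, nat_lit 18490339392), (nat_lit 18, nat_lit 19564335168), (nat_lit 58, nat_lit 19564077120), (nat_lit 63, nat_lit 19563819072), (nat_lit 2, nat_lit 20637814848), (nat_lit 104, nat_lit 20637556800), (nat_lit 66, nat_lit 21711294528)]⟩,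
   ⟨V6_15202787328, [(nat_lit 63, nat_lit 15269900352), (nat_lit 2, nat_lit 16343642112), (nat_lit 61, nat_lit 16343638080), (nat_lit 39, nat_lit 16326864960), (nat_lit 43, nat_lit 17417379840), (nat_lit 69, nat_lit 17400606720), (nat_lit 17, nat_lit 17400602688), (nat_lit 65, nat_lit 17383829568), (nat_lit 101, nat_lit 18474344448), (nat_lit 90, nat_lit 18457571328), (nat_lit 1, nat_lit 18457567296), (nat_lit 122, nat_lit 18440794176), (nat_lit 4, nat_lit 19531309056), (nat_lit 99, nat_lit 19514535936), (nat_lit 106, nat_lit 19514531904), (nat_lit 9, nat_lit 19497758784), (nat_lit 109, nat_lit 20588273664), (nat_lit 38, nat_lit 20571500544), (nat_lit 119, nat_lit 20571496512), (nat_lit 89, nat_lit 21645238272)]⟩],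
  [W_15268585472, W_15268327424, W_15251812352, W_15251550272, W_15235551296, W_15235297280]⟩
theorem C_15269900352 : chkRec R_15269900352 = true := by decide +kernel

noncomputable def R_15269904384 : Rec := ⟨nat_lit 15269904384, nat_lit 46,
  [⟨V6_15268331520, [(nat_lit 34, nat_lit 15269904384), (nat_lit 61, nat_lit 16343384064), (nat_lit 65, nat_lit 17416863744), (nat_lit 97, nat_lit 18490343424), (nat_lit 52, nat_lit 19563823104), (nat_lit 85, nat_lit 20637302784), (nat_lit 17, nat_lit 21710782464)]⟩,
   ⟨V6_15251816448, [(nat_lit 8, nat_lit 15269904384), (nat_lit 27, nat_lit 16343384064), (nat_lit 119, nat_lit 16326868992), (nat_lit 40, nat_lit 17416863744), (nat_lit 83, nat_lit 17400348672), (nat_lit 30, nat_lit 18490343424), (nat_lit 66, nat_lit 18473828352), (nat_lit 12, nat_lit 19563823104), (nat_lit 118, nat_lit 19547308032), (nat_lit 25, nat_lit 20637302784), (nat_lit 29, nat_lit 20620787712), (nat_lit 83, nat_lit 21694267392)]⟩,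
   ⟨V6_15236333568, [(nat_lit 110, nat_lit 15269904384), (nat_lit 101, nat_lit 16343642112), (nat_lit 65, nat_lit 16326868992), (nat_lit 107, nat_lit 17417379840), (nat_lit 58, nat_lit 17400606720), (nat_lit 109, nat_lit 17383833600), (nat_lit 47, nat_lit 18491117568), (nat_lit 60, nat_lit 18474344448), (nat_lit 111, nat_lit 18457571328), (nat_lit 96, nat_lit 19564855296), (nat_lit 124, nat_lit 19548082176), (nat_lit 70, nat_lit 19531309056), (nat_lit 100, nat_lit 20621819904), (nat_lit 15, nat_lit 20605046784), (nat_lit 38, nat_lit 21678784512)]⟩],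
  [W_15269101568, W_15219298304, W_15202783232, W_15202525184, W_15202009088]⟩
theorem C_15269904384 : chkRec R_15269904384 = true := by decide +kernel

noncomputable def R_15270154305 : Rec := ⟨nat_lit 15270154305, nat_lit 4,
  [⟨V6_15268843584, [(nat_lit 120, nat_lit 15270154305), (nat_lit 110, nat_lit 16343896128), (nat_lit 77, nat_lit 16343633985), (nat_lit 15, nat_lit 17417375808), (nat_lit 111, nat_lit 17417113665), (nat_lit 94, nat_lit 18490855488), (nat_lit 73, nat_lit 18490593345), (nat_lit 27, nat_lit 19564335168), (nat_lit 1, nat_lit 19564073025), (nat_lit 29, nat_lit 20637814848), (nat_lit 76, nat_lit 20637552705), (nat_lit 117, nat_lit 21711294528)]⟩],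
  [W_15235551296]⟩
theorem C_15270154305 : chkRec R_15270154305 = true := by decide +kernel

noncomputable def R_15270158400 : Rec := ⟨nat_lit 15270158400, nat_lit 23,
  [⟨V6_15268843584, [(nat_lit 95, nat_lit 15270158400), (nat_lit 15, nat_lit 16343896128), (nat_lit 62, nat_lit 16343638080), (nat_lit 114, nat_lit 17417375808), (nat_lit 21, nat_lit 17417117760), (nat_lit 16, nat_lit 18490855488), (nat_lit 21, nat_lit 18490597440), (nat_lit 111, nat_lit 19564335168), (nat_lit 74, nat_lit 19564077120), (nat_lit 13, nat_lit 20637814848), (nat_lit 114, nat_lit 20637556800), (nat_lit 112, nat_lit 21711294528)]⟩,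
   ⟨V6_15252328512, [(nat_lit 64, nat_lit 15270158400), (nat_lit 21, nat_lit 16343896128), (nat_lit 78, nat_lit 16343638080), (nat_lit 4, nat_lit 16327123008), (nat_lit 111, nat_lit 17417375808), (nat_lit 56, nat_lit 17417117760), (nat_lit 36, nat_lit 17400860736), (nat_lit 56, nat_lit 17400602688), (nat_lit 4, nat_lit 18490855488), (nat_lit 17, nat_lit 18490597440), (nat_lit 105, nat_lit 18474340416), (nat_lit 18, nat_lit 18474082368), (nat_lit 26, nat_lit 19564335168), (nat_lit 49, nat_lit 19564077120), (nat_lit 56, nat_lit 19547820096), (nat_lit 101, nat_lit 19547562048), (nat_lit 93, nat_lit 20637814848), (nat_lit 95, nat_lit 20621299776), (nat_lit 34, nat_lit 20621041728), (nat_lit 59, nat_lit 21694779456)]⟩],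
  [W_15268843520, W_15268585472, W_15268581440, W_15219298304]⟩
theorem C_15270158400 : chkRec R_15270158400 = true := by decide +kernel

noncomputable def R_15270162432 : Rec := ⟨nat_lit 15270162432, nat_lit 27,
  [⟨V6_15269105664, [(nat_lit 81, nat_lit 15270162432), (nat_lit 43, nat_lit 16343900160), (nat_lit 51, nat_lit 16343642112), (nat_lit 103, nat_lit 17417637888), (nat_lit 29, nat_lit 17417379840), (nat_lit 104, nat_lit 17417121792), (nat_lit 100, nat_lit 18491117568), (nat_lit 33, nat_lit 18490859520), (nat_lit 49, nat_lit 18490601472), (nat_lit 55, nat_lit 19564597248), (nat_lit 68, nat_lit 19564339200), (nat_lit 9, nat_lit 19564081152), (nat_lit 56, nat_lit 20638076928), (nat_lit 122, nat_lit 20637818880), (nat_lit 87, nat_lit 21711556608)]⟩,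
   ⟨V6_15268589568, [(nat_lit 10, nat_lit 15270162432), (nat_lit 77, nat_lit 16343642112), (nat_lit 89, nat_lit 17417121792), (nat_lit 2, nat_lit 18490601472), (nat_lit 41, nat_lit 19564081152), (nat_lit 97, nat_lit 20637560832), (nat_lit 120, nat_lit 21711040512)]⟩],
  [W_15236071424, W_15235297280, W_15219556352]⟩
theorem C_15270162432 : chkRec R_15270162432 = true := by decide +kernel

noncomputable def R_15270416448 : Rec := ⟨nat_lit 15270416448, nat_lit 5,
  [⟨V6_15268843584, [(nat_lit 41, nat_lit 15270416448), (nat_lit 108, nat_lit 16343896128), (nat_lit 29, nat_lit 17417375808), (nat_lit 112, nat_lit 18490855488), (nat_lit 117, nat_lit 19564335168), (nat_lit 60, nat_lit 20637814848), (nat_lit 118, nat_lit 21711294528)]⟩],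
  [W_15268843520]⟩
theorem C_15270416448 : chkRec R_15270416448 = true := by decide +kernel

noncomputable def R_15270420480 : Rec := ⟨nat_lit 15270420480, nat_lit 18,
  [⟨V6_15269105664, [(nat_lit 89, nat_lit 15270420480), (nat_lit 5, nat_lit 16344158208), (nat_lit 85, nat_lit 16343900160), (nat_lit 105, nat_lit 17417637888), (nat_lit 77, nat_lit 17417379840), (nat_lit 116, nat_lit 18491117568), (nat_lit 96, nat_lit 18490859520), (nat_lit 124, nat_lit 19564597248), (nat_lit 48, nat_lit 19564339200), (nat_lit 65, nat_lit 20638076928), (nat_lit 35, nat_lit 20637818880), (nat_lit 90, nat_lit 21711556608)]⟩,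
   ⟨V6_15236333568, [(nat_lit 47, nat_lit 15270420480), (nat_lit 92, nat_lit 16344158208), (nat_lit 112, nat_lit 16343900160), (nat_lit 104, nat_lit 16327385088), (nat_lit 70, nat_lit 17417895936), (nat_lit 42, nat_lit 17417637888), (nat_lit 99, nat_lit 17417379840), (nat_lit 105, nat_lit 17401122816), (nat_lit 14, nat_lit 17400864768), (nat_lit 47, nat_lit 17384349696), (nat_lit 6, nat_lit 18491375616), (nat_lit 101, nat_lit 18491117568), (nat_lit 51, nat_lit 18474860544), (nat_lit 17, nat_lit 18474602496), (nat_lit 64, nat_lit 18474344448), (nat_lit 14, nat_lit 18458087424), (nat_lit 41, nat_lit 18457829376), (nat_lit 2, nat_lit 19564855296), (nat_lit 9, nat_lit 19548340224), (nat_lit 119, nat_lit 19548082176), (nat_lit 45, nat_lit 19531825152), (nat_lit 51, nat_lit 19531567104), (nat_lit 102, nat_lit 19531309056), (nat_lit 54, nat_lit 20621819904), (nat_lit 33, nat_lit 20605304832), (nat_lit 100, nat_lit 20605046784), (nat_lit 64, nat_lit 21678784512)]⟩],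
  [W_15269101568, W_15268585472, W_15252586496]⟩
theorem C_15270420480 : chkRec R_15270420480 = true := by decide +kernel

noncomputable def R_15270678528 : Rec := ⟨nat_lit 15270678528, nat_lit 5,
  [⟨V6_15269105664, [(nat_lit 111, nat_lit 15270678528), (nat_lit 72, nat_lit 16344158208), (nat_lit 110, nat_lit 17417637888), (nat_lit 33, nat_lit 18491117568), (nat_lit 6, nat_lit 19564597248), (nat_lit 36, nat_lit 20638076928), (nat_lit 37, nat_lit 21711556608)]⟩],
  [W_15252586496]⟩
theorem C_15270678528 : chkRec R_15270678528 = true := by decide +kernel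

noncomputable def R_15270936576 : Rec := ⟨nat_lit 15270936576, nat_lit 3,
  [⟨V6_15269363712, [(nat_lit 61, nat_lit 15270936576), (nat_lit 10, nat_lit 16344416256), (nat_lit 13, nat_lit 17417895936), (nat_lit 20, nat_lit 18491375616), (nat_lit 51, nat_lit 19564855296), (nat_lit 95, nat_lit 20638334976), (nat_lit 47, nat_lit 21711814656)]⟩],
  [W_15269101568]⟩
theorem C_15270936576 : chkRec R_15270936576 = true := by decide +kernel

noncomputable def R_16208388483 : Rec := ⟨nat_lit 16208388483, nat_lit 1,
  [⟨V6_9765937539, [(nat_lit 13, nat_lit 16208388483)]⟩],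
  [W_15134646464]⟩
theorem C_16208388483 : chkRec R_16208388483 = true := by decide +kernel

noncomputable def R_16225165572 : Rec := ⟨nat_lit 16225165572, nat_lit 1,
  [⟨V6_10839679236, [(nat_lit 75, nat_lit 16225165572), (nat_lit 97, nat_lit 17282130180)]⟩],
  [W_16208380160]⟩
theorem C_16225165572 : chkRec R_16225165572 = true := by decide +kernel

noncomputable def R_16225165635 : Rec := ⟨nat_lit 16225165635, nat_lit 1,
  [⟨V6_10856456451, [(nat_lit 12, nat_lit 16225165635), (nat_lit 69, nat_lit 17298907395)]⟩],
  [W_15134646464]⟩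
theorem C_16225165635 : chkRec R_16225165635 = true := by decide +kernel

noncomputable def R_16225165698 : Rec := ⟨nat_lit 16225165698, nat_lit 2,
  [⟨V6_11930198274, [(nat_lit 45, nat_lit 16225165698), (nat_lit 51, nat_lit 17298907458), (nat_lit 110, nat_lit 18372649218)]⟩],
  [W_16208388224]⟩
theorem C_16225165698 : chkRec R_16225165698 = true := by decide +kernel

noncomputable def R_16225427715 : Rec := ⟨nat_lit 16225427715, nat_lit 1,
  [⟨V6_10856456451, [(nat_lit 10, nat_lit 16225427715), (nat_lit 7, nat_lit 17298907395)]⟩],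
  [W_16225157312]⟩
theorem C_16225427715 : chkRec R_16225427715 = true := by decide +kernel

noncomputable def R_16225427778 : Rec := ⟨nat_lit 16225427778, nat_lit 1,
  [⟨V6_11930460480, [(nat_lit 20, nat_lit 16225427778), (nat_lit 24, nat_lit 17299169601), (nat_lit 118, nat_lit 18372911424)]⟩],
  [W_16225161344]⟩
theorem C_16225427778 : chkRec R_16225427778 = true := by decide +kernel

noncomputable def R_16225427841 : Rec := ⟨nat_lit 16225427841, nat_lit 1,
  [⟨V6_11930460480, [(nat_lit 113, nat_lit 16225427841), (nat_lit 104, nat_lit 17299169664), (nat_lit 74, nat_lit 17299169601), (nat_lit 25, nat_lit 18372911424)]⟩],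
  [W_16225165376]⟩
theorem C_16225427841 : chkRec R_16225427841 = true := by decide +kernel

noncomputable def R_16225431747 : Rec := ⟨nat_lit 16225431747, nat_lit 1,
  [⟨V6_14077931715, [(nat_lit 3, nat_lit 16225431747), (nat_lit 118, nat_lit 17299169475), (nat_lit 69, nat_lit 18372907203), (nat_lit 109, nat_lit 19446644931), (nat_lit 29, nat_lit 20520382659)]⟩],
  [W_16225415360]⟩
theorem C_16225431747 : chkRec R_16225431747 = true := by decide +kernel

noncomputable def R_16241938692 : Rec := ⟨nat_lit 16241938692, nat_lit 1,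
  [⟨V6_10873225476, [(nat_lit 11, nat_lit 16241938692), (nat_lit 30, nat_lit 17315676420)]⟩],
  [W_16208380160]⟩
theorem C_16241938692 : chkRec R_16241938692 = true := by decide +kernel

noncomputable def R_16241942787 : Rec := ⟨nat_lit 16241942787, nat_lit 4,
  [⟨V6_12987162882, [(nat_lit 37, nat_lit 16241942787), (nat_lit 125, nat_lit 17315684610), (nat_lit 97, nat_lit 17298907395), (nat_lit 66, nat_lit 18372649218), (nat_lit 26, nat_lit 18355872003), (nat_lit 108, nat_lit 19429613826)]⟩,
   ⟨V6_10856456451, [(nat_lit 26, nat_lit 16241942787), (nat_lit 76, nat_lit 17298907395)]⟩],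
  [W_16208380160, W_15168192704]⟩
theorem C_16241942787 : chkRec R_16241942787 = true := by decide +kernel

noncomputable def R_16241942850 : Rec := ⟨nat_lit 16241942850, nat_lit 5,
  [⟨V6_12987162882, [(nat_lit 64, nat_lit 16241942850), (nat_lit 107, nat_lit 17315684610), (nat_lit 124, nat_lit 17298907458), (nat_lit 69, nat_lit 18372649218), (nat_lit 123, nat_lit 18355872066), (nat_lit 117, nat_lit 19429613826)]⟩,
   ⟨V6_10873233729, [(nat_lit 115, nat_lit 16241942850), (nat_lit 55, nat_lit 17315684673)]⟩],
  [W_16208388224, W_15168196736]⟩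
theorem C_16241942850 : chkRec R_16241942850 = true := by decide +kernel

noncomputable def R_16241942913 : Rec := ⟨nat_lit 16241942913, nat_lit 5,
  [⟨V6_11930198400, [(nat_lit 66, nat_lit 16241942913), (nat_lit 82, nat_lit 17315684736), (nat_lit 95, nat_lit 17298907521), (nat_lit 22, nat_lit 18372649344)]⟩,
   ⟨V6_10873233792, [(nat_lit 87, nat_lit 16241942913), (nat_lit 28, nat_lit 17315684736)]⟩,
   ⟨V6_10873233729, [(nat_lit 74, nat_lit 16241942913), (nat_lit 121, nat_lit 17315684673)]⟩],
  [W_16225165376, W_16208388224, W_15134646464]⟩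
theorem C_16241942913 : chkRec R_16241942913 = true := by decide +kernel

noncomputable def R_16242196740 : Rec := ⟨nat_lit 16242196740, nat_lit 1,
  [⟨V6_10873225476, [(nat_lit 52, nat_lit 16242196740), (nat_lit 11, nat_lit 17315676420)]⟩],
  [W_16241410304]⟩
theorem C_16242196740 : chkRec R_16242196740 = true := by decide +kernel

noncomputable def R_16242200835 : Rec := ⟨nat_lit 16242200835, nat_lit 4,
  [⟨V6_14077939968, [(nat_lit 75, nat_lit 16242200835), (nat_lit 45, nat_lit 17315942658), (nat_lit 18, nat_lit 17299165443), (nat_lit 6, nat_lit 18389684481), (nat_lit 23, nat_lit 18372907266), (nat_lit 10, nat_lit 19463426304), (nat_lit 110, nat_lit 19446649089), (nat_lit 12, nat_lit 20520390912)]⟩],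
  [W_16241672384, W_15167930624, W_13020971264]⟩
theorem C_16242200835 : chkRec R_16242200835 = true := by decide +kernel

noncomputable def R_16242200898 : Rec := ⟨nat_lit 16242200898, nat_lit 2,
  [⟨V6_13004198082, [(nat_lit 27, nat_lit 16242200898), (nat_lit 94, nat_lit 17315942658), (nat_lit 107, nat_lit 17299165506), (nat_lit 124, nat_lit 18389684418), (nat_lit 7, nat_lit 18372907266), (nat_lit 87, nat_lit 19446649026)]⟩],
  [W_14094717056]⟩
theorem C_16242200898 : chkRec R_16242200898 = true := by decide +kernel

noncomputable def R_16242204867 : Rec := ⟨nat_lit 16242204867, nat_lit 3,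
  [⟨V6_13003940034, [(nat_lit 106, nat_lit 16242204867), (nat_lit 83, nat_lit 17315946690), (nat_lit 100, nat_lit 17315684547), (nat_lit 90, nat_lit 17299169475), (nat_lit 101, nat_lit 18389426370), (nat_lit 73, nat_lit 18372911298), (nat_lit 118, nat_lit 18372649155), (nat_lit 96, nat_lit 19446390978)]⟩],
  [W_16241930432, W_16225415360, W_15168450752]⟩
theorem C_16242204867 : chkRec R_16242204867 = true := by decide +kernel

noncomputable def R_16242204930 : Rec := ⟨nat_lit 16242204930, nat_lit 9,
  [⟨V6_14077944000, [(nat_lit 33, nat_lit 16242204930), (nat_lit 99, nat_lit 17315946753), (nat_lit 32, nat_lit 17315946690), (nat_lit 17, nat_lit 17299169538), (nat_lit 11, nat_lit 18389688576), (nat_lit 108, nat_lit 18389688513), (nat_lit 90, nat_lit 18372911361), (nat_lit 4, nat_lit 18372911298), (nat_lit 89, nat_lit 19463430336), (nat_lit 63, nat_lit 19446653184), (nat_lit 106, nat_lit 19446653121), (nat_lit 91, nat_lit 20520394944)]⟩,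
   ⟨V6_13004198082, [(nat_lit 61, nat_lit 16242204930), (nat_lit 119, nat_lit 17315946690), (nat_lit 75, nat_lit 17315942658), (nat_lit 4, nat_lit 17299169538), (nat_lit 16, nat_lit 18389684418), (nat_lit 30, nat_lit 18372911298), (nat_lit 126, nat_lit 18372907266), (nat_lit 63, nat_lit 19446649026)]⟩,
   ⟨V6_9799753986, [(nat_lit 115, nat_lit 16242204930)]⟩],
  [W_16241934464, W_15151423616, W_14094450944, W_13020971264]⟩
theorem C_16242204930 : chkRec R_16242204930 = true := by decide +kernel

noncomputable def R_16242204993 : Rec := ⟨nat_lit 16242204993, nat_lit 9,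
  [⟨V6_16225165377, [(nat_lit 123, nat_lit 16242204993), (nat_lit 94, nat_lit 17315946753), (nat_lit 96, nat_lit 17315684673), (nat_lit 23, nat_lit 17299169601), (nat_lit 118, nat_lit 18389688513), (nat_lit 32, nat_lit 18389426433), (nat_lit 21, nat_lit 18372911361), (nat_lit 26, nat_lit 18372649281), (nat_lit 34, nat_lit 19463430273), (nat_lit 113, nat_lit 19463168193), (nat_lit 21, nat_lit 19446653121), (nat_lit 96, nat_lit 19446391041), (nat_lit 51, nat_lit 20537172033), (nat_lit 29, nat_lit 20536909953), (nat_lit 37, nat_lit 20520394881), (nat_lit 100, nat_lit 20520132801), (nat_lit 96, nat_lit 21610651713), (nat_lit 30, nat_lit 21594136641), (nat_lit 62, nat_lit 21593874561), (nat_lit 23, nat_lit 22667616321)]⟩,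
   ⟨V6_11930460480, [(nat_lit 83, nat_lit 16242204993), (nat_lit 30, nat_lit 17315946816), (nat_lit 106, nat_lit 17299169601), (nat_lit 70, nat_lit 18372911424)]⟩,
   ⟨V6_10873233729, [(nat_lit 3, nat_lit 16242204993), (nat_lit 91, nat_lit 17315684673)]⟩],
  [W_15168200768, W_14094721088, W_11947233536, W_10873233728]⟩
theorem C_16242204993 : chkRec R_16242204993 = true := by decide +kernel

noncomputable def R_16242205056 : Rec := ⟨nat_lit 16242205056, nat_lit 6,
  [⟨V6_16242204672, [(nat_lit 46, nat_lit 16242205056), (nat_lit 34, nat_lit 17315946816), (nat_lit 90, nat_lit 18389688576), (nat_lit 78, nat_lit 19463430336), (nat_lit 57, nat_lit 20537172096), (nat_lit 97, nat_lit 21610913856), (nat_lit 105, nat_lit 22684655616)]⟩],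
  [W_16225165376, W_15151423616, W_13003940096, W_10873233728]⟩
theorem C_16242205056 : chkRec R_16242205056 = true := by decide +kernel

noncomputable def R_16242208962 : Rec := ⟨nat_lit 16242208962, nat_lit 3,
  [⟨V6_11947237506, [(nat_lit 39, nat_lit 16242208962), (nat_lit 99, nat_lit 17315950722), (nat_lit 87, nat_lit 17315946690), (nat_lit 31, nat_lit 18389688450)]⟩,
   ⟨V6_10873499841, [(nat_lit 32, nat_lit 16242208962), (nat_lit 65, nat_lit 17315950785)]⟩],
  [W_16225419392, W_16225415360, W_15151677632]⟩
theorem C_16242208962 : chkRec R_16242208962 = true := by decide +kernel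

noncomputable def R_16242209025 : Rec := ⟨nat_lit 16242209025, nat_lit 5,
  [⟨V6_14077948032, [(nat_lit 45, nat_lit 16242209025), (nat_lit 49, nat_lit 17315950848), (nat_lit 77, nat_lit 17315950785), (nat_lit 14, nat_lit 17299173633), (nat_lit 36, nat_lit 18389692608), (nat_lit 29, nat_lit 18389692545), (nat_lit 30, nat_lit 18372915456), (nat_lit 117, nat_lit 18372915393), (nat_lit 87, nat_lit 19463434368), (nat_lit 86, nat_lit 19446657216), (nat_lit 45, nat_lit 19446657153), (nat_lit 25, nat_lit 20520398976)]⟩,
   ⟨V6_13020983361, [(nat_lit 18, nat_lit 16242209025), (nat_lit 23, nat_lit 17315950785), (nat_lit 87, nat_lit 18389692545), (nat_lit 48, nat_lit 19463434305)]⟩,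
   ⟨V6_10873499841, [(nat_lit 38, nat_lit 16242209025), (nat_lit 8, nat_lit 17315950785)]⟩],
  [W_16242196544]⟩
theorem C_16242209025 : chkRec R_16242209025 = true := by decide +kernel

noncomputable def R_16242209088 : Rec := ⟨nat_lit 16242209088, nat_lit 4,
  [⟨V6_14094725184, [(nat_lit 18, nat_lit 16242209088), (nat_lit 44, nat_lit 17315950848), (nat_lit 121, nat_lit 18389692608), (nat_lit 78, nat_lit 19463434368), (nat_lit 79, nat_lit 20537176128)]⟩],
  [W_16225427456, W_15168462848]⟩
theorem C_16242209088 : chkRec R_16242209088 = true := by decide +kernel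

noncomputable def R_16242458883 : Rec := ⟨nat_lit 16242458883, nat_lit 3,
  [⟨V6_11947491585, [(nat_lit 76, nat_lit 16242458883), (nat_lit 116, nat_lit 17316200706), (nat_lit 111, nat_lit 18389942529)]⟩],
  [W_16241672384, W_16241410304]⟩
theorem C_16242458883 : chkRec R_16242458883 = true := by decide +kernel

noncomputable def R_16242462915 : Rec := ⟨nat_lit 16242462915, nat_lit 2,
  [⟨V6_11947491522, [(nat_lit 56, nat_lit 16242462915), (nat_lit 12, nat_lit 17316204738), (nat_lit 82, nat_lit 17316200643), (nat_lit 26, nat_lit 18389942466)]⟩],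
  [W_16241930432, W_15168450752]⟩
theorem C_16242462915 : chkRec R_16242462915 = true := by decide +kernel

noncomputable def R_16242462978 : Rec := ⟨nat_lit 16242462978, nat_lit 9,
  [⟨V6_13021233408, [(nat_lit 122, nat_lit 16242462978), (nat_lit 13, nat_lit 17316204801), (nat_lit 5, nat_lit 17316200706), (nat_lit 38, nat_lit 18389946624), (nat_lit 87, nat_lit 18389942529), (nat_lit 50, nat_lit 19463684352)]⟩],
  [W_16241676416, W_16241672384, W_15168196736, W_14094450944]⟩
theorem C_16242462978 : chkRec R_16242462978 = true := by decide +kernel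

noncomputable def R_16242463041 : Rec := ⟨nat_lit 16242463041, nat_lit 5,
  [⟨V6_14094979137, [(nat_lit 21, nat_lit 16242463041), (nat_lit 9, nat_lit 17316204801), (nat_lit 120, nat_lit 18389946561), (nat_lit 91, nat_lit 19463688321), (nat_lit 71, nat_lit 20537430081)]⟩],
  [W_16241676416, W_14094979136, W_13020713216]⟩
theorem C_16242463041 : chkRec R_16242463041 = true := by decide +kernel

noncomputable def R_16242467010 : Rec := ⟨nat_lit 16242467010, nat_lit 10,
  [⟨V6_15168712896, [(nat_lit 98, nat_lit 16242467010), (nat_lit 46, nat_lit 17316208833), (nat_lit 20, nat_lit 17316204738), (nat_lit 68, nat_lit 18389950656), (nat_lit 100, nat_lit 18389946561), (nat_lit 103, nat_lit 18389942466), (nat_lit 69, nat_lit 19463688384), (nat_lit 2, nat_lit 19463684289), (nat_lit 112, nat_lit 19463680194), (nat_lit 2, nat_lit 20537426112), (nat_lit 86, nat_lit 20537422017), (nat_lit 79, nat_lit 21611163840)]⟩,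
   ⟨V6_11947495554, [(nat_lit 68, nat_lit 16242467010), (nat_lit 91, nat_lit 17316208770), (nat_lit 104, nat_lit 17316204738), (nat_lit 10, nat_lit 18389946498)]⟩,
   ⟨V6_10873753794, [(nat_lit 118, nat_lit 16242467010), (nat_lit 83, nat_lit 17316204738)]⟩],
  [W_16242192512, W_16241930432, W_15168712832, W_13021237376]⟩
theorem C_16242467010 : chkRec R_16242467010 = true := by decide +kernel

noncomputable def R_16242467073 : Rec := ⟨nat_lit 16242467073, nat_lit 18,
  [⟨V6_13021233408, [(nat_lit 56, nat_lit 16242467073), (nat_lit 95, nat_lit 17316208896), (nat_lit 97, nat_lit 17316204801), (nat_lit 81, nat_lit 18389946624), (nat_lit 76, nat_lit 18389942529), (nat_lit 56, nat_lit 19463684352)]⟩,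
   ⟨V6_10873757952, [(nat_lit 33, nat_lit 16242467073), (nat_lit 15, nat_lit 17316208896)]⟩,
   ⟨V6_10873753857, [(nat_lit 91, nat_lit 16242467073), (nat_lit 78, nat_lit 17316204801)]⟩],
  [W_16242196544, W_15168716864, W_15168200768, W_14094979136]⟩
theorem C_16242467073 : chkRec R_16242467073 = true := by decide +kernel

noncomputable def R_16242467136 : Rec := ⟨nat_lit 16242467136, nat_lit 16,
  [⟨V6_15168724992, [(nat_lit 20, nat_lit 16242467136), (nat_lit 125, nat_lit 17316208896), (nat_lit 67, nat_lit 18389950656), (nat_lit 38, nat_lit 19463692416), (nat_lit 96, nat_lit 20537434176), (nat_lit 51, nat_lit 21611175936)]⟩],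
  [W_15168458816, W_15168200768, W_14094721088, W_13020713216, W_11947233536, W_10873233728]⟩
theorem C_16242467136 : chkRec R_16242467136 = true := by decide +kernel

noncomputable def R_16242471042 : Rec := ⟨nat_lit 16242471042, nat_lit 6,
  [⟨V6_15168708738, [(nat_lit 107, nat_lit 16242471042), (nat_lit 41, nat_lit 17316208770), (nat_lit 126, nat_lit 18389946498), (nat_lit 19, nat_lit 19463684226), (nat_lit 123, nat_lit 20537421954), (nat_lit 115, nat_lit 21611159682)]⟩,
   ⟨V6_11947495554, [(nat_lit 72, nat_lit 16242471042), (nat_lit 43, nat_lit 17316208770), (nat_lit 104, nat_lit 18389946498)]⟩],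
  [W_16242192512, W_13020979328]⟩
theorem C_16242471042 : chkRec R_16242471042 = true := by decide +kernel

noncomputable def R_16242471105 : Rec := ⟨nat_lit 16242471105, nat_lit 12,
  [⟨V6_13020983361, [(nat_lit 82, nat_lit 16242471105), (nat_lit 75, nat_lit 17316212865), (nat_lit 71, nat_lit 17315950785), (nat_lit 120, nat_lit 18389954625), (nat_lit 60, nat_lit 18389692545), (nat_lit 31, nat_lit 19463434305)]⟩,
   ⟨V6_11947499712, [(nat_lit 31, nat_lit 16242471105), (nat_lit 63, nat_lit 17316212928), (nat_lit 63, nat_lit 17316208833), (nat_lit 85, nat_lit 18389950656)]⟩,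
   ⟨V6_10873499841, [(nat_lit 126, nat_lit 16242471105), (nat_lit 102, nat_lit 17315950785)]⟩],
  [W_16242454592, W_16242196544, W_15168450752, W_10873761920]⟩
theorem C_16242471105 : chkRec R_16242471105 = true := by decide +kernel

noncomputable def R_16242471168 : Rec := ⟨nat_lit 16242471168, nat_lit 18,
  [⟨V6_14094987264, [(nat_lit 60, nat_lit 16242471168), (nat_lit 59, nat_lit 17316212928), (nat_lit 84, nat_lit 18389954688), (nat_lit 38, nat_lit 19463696448), (nat_lit 119, nat_lit 20537438208)]⟩,
   ⟨V6_13021233408, [(nat_lit 84, nat_lit 16242471168), (nat_lit 86, nat_lit 17316208896), (nat_lit 87, nat_lit 18389946624), (nat_lit 70, nat_lit 19463684352)]⟩,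
   ⟨V6_10873757952, [(nat_lit 33, nat_lit 16242471168), (nat_lit 47, nat_lit 17316208896)]⟩],
  [W_16242458624, W_16242196544, W_14094721088]⟩
theorem C_16242471168 : chkRec R_16242471168 = true := by decide +kernel

noncomputable def R_16242475137 : Rec := ⟨nat_lit 16242475137, nat_lit 7,
  [⟨V6_16242450561, [(nat_lit 118, nat_lit 16242475137), (nat_lit 26, nat_lit 17316212865), (nat_lit 78, nat_lit 18389950593), (nat_lit 31, nat_lit 19463688321), (nat_lit 85, nat_lit 20537426049), (nat_lit 36, nat_lit 21611163777), (nat_lit 42, nat_lit 22684901505)]⟩,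
   ⟨V6_13021241409, [(nat_lit 41, nat_lit 16242475137), (nat_lit 76, nat_lit 17316216897), (nat_lit 102, nat_lit 17316212865), (nat_lit 18, nat_lit 18389954625), (nat_lit 45, nat_lit 18389950593), (nat_lit 69, nat_lit 19463692353)]⟩],
  [W_14094979136, W_13021241408]⟩
theorem C_16242475137 : chkRec R_16242475137 = true := by decide +kernel

noncomputable def R_16242475200 : Rec := ⟨nat_lit 16242475200, nat_lit 13,
  [⟨V6_13021249536, [(nat_lit 93, nat_lit 16242475200), (nat_lit 78, nat_lit 17316216960), (nat_lit 24, nat_lit 18389958720), (nat_lit 114, nat_lit 19463700480)]⟩,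
   ⟨V6_11947499712, [(nat_lit 30, nat_lit 16242475200), (nat_lit 25, nat_lit 17316212928), (nat_lit 125, nat_lit 18389950656)]⟩],
  [W_16242458624, W_16242454592, W_8726282432]⟩
theorem C_16242475200 : chkRec R_16242475200 = true := by decide +kernel

noncomputable def R_16258711812 : Rec := ⟨nat_lit 16258711812, nat_lit 2,
  [⟨V6_12987154692, [(nat_lit 52, nat_lit 16258711812), (nat_lit 49, nat_lit 17315676420), (nat_lit 1, nat_lit 18372641028), (nat_lit 76, nat_lit 19429605636)]⟩,
   ⟨V6_10873225476, [(nat_lit 79, nat_lit 16258711812), (nat_lit 12, nat_lit 17315676420)]⟩],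
  [W_16241410304, W_15167930624]⟩
theorem C_16258711812 : chkRec R_16258711812 = true := by decide +kernel

noncomputable def R_16258715907 : Rec := ⟨nat_lit 16258715907, nat_lit 4,
  [⟨V6_16208384256, [(nat_lit 85, nat_lit 16258715907), (nat_lit 96, nat_lit 17332457730), (nat_lit 83, nat_lit 17315680515), (nat_lit 104, nat_lit 18406199553), (nat_lit 27, nat_lit 18389422338), (nat_lit 118, nat_lit 18372645123), (nat_lit 115, nat_lit 19479941376), (nat_lit 16, nat_lit 19463164161), (nat_lit 120, nat_lit 19446386946), (nat_lit 18, nat_lit 19429609731), (nat_lit 42, nat_lit 20536905984), (nat_lit 123, nat_lit 20520128769), (nat_lit 113, nat_lit 20503351554), (nat_lit 118, nat_lit 21593870592), (nat_lit 30, nat_lit 21577093377), (nat_lit 22, nat_lit 22650835200)]⟩,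
   ⟨V6_14060900610, [(nat_lit 125, nat_lit 16258715907), (nat_lit 107, nat_lit 17332457730), (nat_lit 20, nat_lit 17315680515), (nat_lit 84, nat_lit 18389422338), (nat_lit 4, nat_lit 18372645123), (nat_lit 64, nat_lit 19446386946), (nat_lit 18, nat_lit 19429609731), (nat_lit 93, nat_lit 20503351554)]⟩],
  [W_15167930624, W_14110970048, W_14094450944]⟩
theorem C_16258715907 : chkRec R_16258715907 = true := by decide +kernel

noncomputable def R_16258715970 : Rec := ⟨nat_lit 16258715970, nat_lit 3,
  [⟨V6_11963748672, [(nat_lit 37, nat_lit 16258715970), (nat_lit 19, nat_lit 17332457793), (nat_lit 104, nat_lit 18406199616)]⟩],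
  [W_16225161344, W_14110970048]⟩
theorem C_16258715970 : chkRec R_16258715970 = true := by decide +kernel

noncomputable def R_16258719939 : Rec := ⟨nat_lit 16258719939, nat_lit 4,
  [⟨V6_13037482179, [(nat_lit 2, nat_lit 16258719939), (nat_lit 74, nat_lit 17332457667), (nat_lit 56, nat_lit 18406195395), (nat_lit 23, nat_lit 19479933123)]⟩,
   ⟨V6_13003940034, [(nat_lit 66, nat_lit 16258719939), (nat_lit 69, nat_lit 17332461762), (nat_lit 29, nat_lit 17315684547), (nat_lit 8, nat_lit 18389426370), (nat_lit 13, nat_lit 18372649155), (nat_lit 61, nat_lit 19446390978)]⟩],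
  [W_16241930432, W_15184965824, W_15134646464]⟩
theorem C_16258719939 : chkRec R_16258719939 = true := by decide +kernel

noncomputable def R_16258720002 : Rec := ⟨nat_lit 16258720002, nat_lit 12,
  [⟨V6_15134646528, [(nat_lit 66, nat_lit 16258720002), (nat_lit 1, nat_lit 17332461825), (nat_lit 15, nat_lit 17315684610), (nat_lit 33, nat_lit 18406203648), (nat_lit 114, nat_lit 18389426433), (nat_lit 113, nat_lit 18372649218), (nat_lit 76, nat_lit 19463168256), (nat_lit 126, nat_lit 19446391041), (nat_lit 77, nat_lit 19429613826), (nat_lit 72, nat_lit 20520132864), (nat_lit 27, nat_lit 20503355649), (nat_lit 103, nat_lit 21577097472)]⟩,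
   ⟨V6_15134646402, [(nat_lit 88, nat_lit 16258720002), (nat_lit 126, nat_lit 17332461762), (nat_lit 70, nat_lit 17315684610), (nat_lit 75, nat_lit 18406203522), (nat_lit 21, nat_lit 18389426370), (nat_lit 57, nat_lit 18372649218), (nat_lit 96, nat_lit 19463168130), (nat_lit 50, nat_lit 19446390978), (nat_lit 39, nat_lit 19429613826), (nat_lit 98, nat_lit 20520132738), (nat_lit 18, nat_lit 20503355586), (nat_lit 43, nat_lit 21577097346)]⟩,
   ⟨V6_14060900610, [(nat_lit 96, nat_lit 16258720002), (nat_lit 117, nat_lit 17332457730), (nat_lit 38, nat_lit 17315684610), (nat_lit 79, nat_lit 18389422338), (nat_lit 53, nat_lit 18372649218), (nat_lit 85, nat_lit 19446386946), (nat_lit 71, nat_lit 19429613826), (nat_lit 2, nat_lit 20503351554)]⟩],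
  [W_15184969856, W_13037494400, W_11963748608, W_10890010880]⟩
theorem C_16258720002 : chkRec R_16258720002 = true := by decide +kernel

noncomputable def R_16258720065 : Rec := ⟨nat_lit 16258720065, nat_lit 11,
  [⟨V6_16225165377, [(nat_lit 40, nat_lit 16258720065), (nat_lit 105, nat_lit 17332461825), (nat_lit 17, nat_lit 17315684673), (nat_lit 49, nat_lit 18406203585), (nat_lit 116, nat_lit 18389426433), (nat_lit 105, nat_lit 18372649281), (nat_lit 97, nat_lit 19479945345), (nat_lit 39, nat_lit 19463168193), (nat_lit 87, nat_lit 19446391041), (nat_lit 48, nat_lit 20553687105), (nat_lit 39, nat_lit 20536909953), (nat_lit 12, nat_lit 20520132801), (nat_lit 114, nat_lit 21610651713), (nat_lit 115, nat_lit 21593874561), (nat_lit 112, nat_lit 22667616321)]⟩,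
   ⟨V6_14060904768, [(nat_lit 112, nat_lit 16258720065), (nat_lit 81, nat_lit 17332461888), (nat_lit 90, nat_lit 17315684673), (nat_lit 71, nat_lit 18389426496), (nat_lit 50, nat_lit 18372649281), (nat_lit 58, nat_lit 19446391104), (nat_lit 93, nat_lit 19429613889), (nat_lit 32, nat_lit 20503355712)]⟩,
   ⟨V6_10873233729, [(nat_lit 89, nat_lit 16258720065), (nat_lit 73, nat_lit 17315684673)]⟩],
  [W_15184973888, W_14111236160, W_11963748608, W_10890010880]⟩
theorem C_16258720065 : chkRec R_16258720065 = true := by decide +kernel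

noncomputable def R_16258720128 : Rec := ⟨nat_lit 16258720128, nat_lit 10,
  [⟨V6_16258719744, [(nat_lit 69, nat_lit 16258720128), (nat_lit 51, nat_lit 17332461888), (nat_lit 8, nat_lit 18406203648), (nat_lit 117, nat_lit 19479945408), (nat_lit 22, nat_lit 20553687168), (nat_lit 82, nat_lit 21627428928), (nat_lit 94, nat_lit 22701170688)]⟩,
   ⟨V6_11930198400, [(nat_lit 3, nat_lit 16258720128), (nat_lit 93, nat_lit 17315684736), (nat_lit 64, nat_lit 18372649344)]⟩],
  [W_16208388224, W_15134646464, W_14060904704, W_13037494400, W_13003940096, W_10890010880, W_10873233728]⟩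
theorem C_16258720128 : chkRec R_16258720128 = true := by decide +kernel

noncomputable def R_16258973955 : Rec := ⟨nat_lit 16258973955, nat_lit 4,
  [⟨V6_16258187520, [(nat_lit 81, nat_lit 16258973955), (nat_lit 14, nat_lit 17332715778), (nat_lit 105, nat_lit 17332453635), (nat_lit 102, nat_lit 18406457601), (nat_lit 54, nat_lit 18406195458), (nat_lit 62, nat_lit 18405933315), (nat_lit 97, nat_lit 19480199424), (nat_lit 42, nat_lit 19479937281), (nat_lit 47, nat_lit 19479675138), (nat_lit 32, nat_lit 19479412995), (nat_lit 65, nat_lit 20553679104), (nat_lit 87, nat_lit 20553416961), (nat_lit 28, nat_lit 20553154818), (nat_lit 74, nat_lit 21627158784), (nat_lit 116, nat_lit 21626896641), (nat_lit 9, nat_lit 22700638464)]⟩],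
  [W_15151677632, W_15151415552, W_14094713024]⟩
theorem C_16258973955 : chkRec R_16258973955 = true := by decide +kernel

noncomputable def R_16258977987 : Rec := ⟨nat_lit 16258977987, nat_lit 6,
  [⟨V6_14077939905, [(nat_lit 58, nat_lit 16258977987), (nat_lit 92, nat_lit 17332719810), (nat_lit 40, nat_lit 17315942595), (nat_lit 71, nat_lit 18406461633), (nat_lit 3, nat_lit 18389684418), (nat_lit 106, nat_lit 18372907203), (nat_lit 15, nat_lit 19463426241), (nat_lit 121, nat_lit 19446649026), (nat_lit 89, nat_lit 20520390849)]⟩,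
   ⟨V6_13037482179, [(nat_lit 63, nat_lit 16258977987), (nat_lit 67, nat_lit 17332715715), (nat_lit 14, nat_lit 17332457667), (nat_lit 80, nat_lit 18406453443), (nat_lit 112, nat_lit 18406195395), (nat_lit 106, nat_lit 19479933123)]⟩],
  [W_16258445504, W_16241930432, W_14111486144, W_14110970048]⟩
theorem C_16258977987 : chkRec R_16258977987 = true := by decide +kernel

noncomputable def R_16258978050 : Rec := ⟨nat_lit 16258978050, nat_lit 13,
  [⟨V6_15151157505, [(nat_lit 119, nat_lit 16258978050), (nat_lit 5, nat_lit 17332719873), (nat_lit 28, nat_lit 17332457730), (nat_lit 68, nat_lit 17315942658), (nat_lit 81, nat_lit 18406199553), (nat_lit 78, nat_lit 18405937410), (nat_lit 18, nat_lit 18389684481), (nat_lit 18, nat_lit 18389422338), (nat_lit 66, nat_lit 18372907266), (nat_lit 20, nat_lit 19479679233), (nat_lit 55, nat_lit 19463164161), (nat_lit 68, nat_lit 19462902018), (nat_lit 55, nat_lit 19446649089), (nat_lit 98, nat_lit 19446386946), (nat_lit 61, nat_lit 20536643841), (nat_lit 3, nat_lit 20520128769), (nat_lit 99, nat_lit 20519866626),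 (nat_lit 15, nat_lit 21593608449)]⟩,
   ⟨V6_14077939968, [(nat_lit 70, nat_lit 16258978050), (nat_lit 67, nat_lit 17332719873), (nat_lit 64, nat_lit 17315942658), (nat_lit 53, nat_lit 18406461696), (nat_lit 10, nat_lit 18389684481), (nat_lit 76, nat_lit 18372907266), (nat_lit 111, nat_lit 19463426304), (nat_lit 105, nat_lit 19446649089), (nat_lit 110, nat_lit 20520390912)]⟩,
   ⟨V6_14077939905, [(nat_lit 44, nat_lit 16258978050), (nat_lit 60, nat_lit 17332719873), (nat_lit 123, nat_lit 17332719810), (nat_lit 123, nat_lit 17315942658), (nat_lit 92, nat_lit 18406461633), (nat_lit 58, nat_lit 18389684481), (nat_lit 92, nat_lit 18389684418), (nat_lit 119, nat_lit 18372907266), (nat_lit 55, nat_lit 19463426241), (nat_lit 3, nat_lit 19446649089), (nat_lit 82, nat_lit 19446649026), (nat_lit 17, nat_lit 20520390849)]⟩,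
   ⟨V6_14077939842, [(nat_lit 83, nat_lit 16258978050), (nat_lit 6, nat_lit 17332719810), (nat_lit 37, nat_lit 17315942658), (nat_lit 18, nat_lit 18406461570), (nat_lit 57, nat_lit 18389684418), (nat_lit 93, nat_lit 18372907266), (nat_lit 89, nat_lit 19463426178), (nat_lit 110, nat_lit 19446649026), (nat_lit 31, nat_lit 20520390786)]⟩,
   ⟨V6_13004198082, [(nat_lit 87, nat_lit 16258978050), (nat_lit 86, nat_lit 17332719810), (nat_lit 45, nat_lit 17315942658), (nat_lit 65, nat_lit 18389684418), (nat_lit 22, nat_lit 18372907266), (nat_lit 93, nat_lit 19446649026)]⟩],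
  [W_16258449536, W_15184969856, W_15167930624, W_14094450944, W_11963748608]⟩
theorem C_16258978050 : chkRec R_16258978050 = true := by decide +kernel

noncomputable def R_16258978113 : Rec := ⟨nat_lit 16258978113, nat_lit 9,
  [⟨V6_16225423425, [(nat_lit 108, nat_lit 16258978113), (nat_lit 93, nat_lit 17332719873), (nat_lit 84, nat_lit 17315942721), (nat_lit 18, nat_lit 18406461633), (nat_lit 110, nat_lit 18389684481), (nat_lit 93, nat_lit 18372907329), (nat_lit 46, nat_lit 19480203393), (nat_lit 118, nat_lit 19463426241), (nat_lit 19, nat_lit 19446649089), (nat_lit 28, nat_lit 20553945153), (nat_lit 118, nat_lit 20537168001), (nat_lit 7, nat_lit 20520390849), (nat_lit 3, nat_lit 21610909761), (nat_lit 120, nat_lit 21594132609), (nat_lit 23, nat_lit 22667874369)]⟩,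
   ⟨V6_14077939905, [(nat_lit 57, nat_lit 16258978113), (nat_lit 80, nat_lit 17332719873), (nat_lit 49, nat_lit 17315942721), (nat_lit 55, nat_lit 18406461633), (nat_lit 91, nat_lit 18389684481), (nat_lit 77, nat_lit 18372907329), (nat_lit 120, nat_lit 19463426241), (nat_lit 60, nat_lit 19446649089), (nat_lit 71, nat_lit 20520390849)]⟩],
  [W_15184973888, W_11963748608, W_9816527168]⟩
theorem C_16258978113 : chkRec R_16258978113 = true := by decide +kernel

noncomputable def R_16258982082 : Rec := ⟨nat_lit 16258982082, nat_lit 17,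
  [⟨V6_15151681728, [(nat_lit 32, nat_lit 16258982082), (nat_lit 12, nat_lit 17332723905), (nat_lit 35, nat_lit 17332719810), (nat_lit 52, nat_lit 17315946690), (nat_lit 105, nat_lit 18406465728), (nat_lit 77, nat_lit 18406461633), (nat_lit 53, nat_lit 18389688513), (nat_lit 48, nat_lit 18389684418), (nat_lit 12, nat_lit 18372911298), (nat_lit 68, nat_lit 19480203456), (nat_lit 78, nat_lit 19463430336), (nat_lit 76, nat_lit 19463426241), (nat_lit 121, nat_lit 19446653121), (nat_lit 4, nat_lit 19446649026), (nat_lit 101, nat_lit 20537168064), (nat_lit 103, nat_lit 20520394944), (nat_lit 56, nat_lit 20520390849), (nat_lit 17, nat_lit 21594132672)]⟩,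
   ⟨V6_14077944000, [(nat_lit 82, nat_lit 16258982082), (nat_lit 93, nat_lit 17332723905), (nat_lit 104, nat_lit 17315946690), (nat_lit 102, nat_lit 18406465728), (nat_lit 48, nat_lit 18389688513), (nat_lit 60, nat_lit 18372911298), (nat_lit 101, nat_lit 19463430336), (nat_lit 123, nat_lit 19446653121), (nat_lit 20, nat_lit 20520394944)]⟩],
  [W_16241930432, W_15184969856, W_15151423616, W_14111486144, W_13037494400, W_10890272960]⟩
theorem C_16258982082 : chkRec R_16258982082 = true := by decide +kernel

noncomputable def R_16258982145 : Rec := ⟨nat_lit 16258982145, nat_lit 27,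
  [⟨V6_16225427520, [(nat_lit 40, nat_lit 16258982145), (nat_lit 45, nat_lit 17332723968), (nat_lit 89, nat_lit 17332723905), (nat_lit 73, nat_lit 17315946753), (nat_lit 56, nat_lit 18406465728), (nat_lit 88, nat_lit 18406465665), (nat_lit 120, nat_lit 18389688576), (nat_lit 63, nat_lit 18389688513), (nat_lit 44, nat_lit 18372911361), (nat_lit 68, nat_lit 19480207488), (nat_lit 74, nat_lit 19480207425), (nat_lit 20, nat_lit 19463430336), (nat_lit 126, nat_lit 19463430273), (nat_lit 19, nat_lit 19446653184), (nat_lit 94, nat_lit 19446653121), (nat_lit 57, nat_lit 20553949248), (nat_lit 45, nat_lit 20537172096), (nat_lit 43, nat_lit 20537172033), (nat_lit 61, nat_lit 20520394944), (nat_lit 66, nat_lit 20520394881), (nat_lit 87, nat_lit 21610913856), (nat_lit 85, nat_lit 21594136704), (nat_lit 38, nat_lit 21594136641), (nat_lit 114, nat_lit 22667878464)]⟩,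
   ⟨V6_16225165377, [(nat_lit 26, nat_lit 16258982145), (nat_lit 99, nat_lit 17332723905), (nat_lit 99, nat_lit 17332461825), (nat_lit 33, nat_lit 17315946753), (nat_lit 94, nat_lit 18406465665), (nat_lit 77, nat_lit 18406203585), (nat_lit 16, nat_lit 18389688513), (nat_lit 109, nat_lit 18389426433), (nat_lit 23, nat_lit 18372911361), (nat_lit 93, nat_lit 19480207425), (nat_lit 126, nat_lit 19479945345), (nat_lit 20, nat_lit 19463430273), (nat_lit 14, nat_lit 19463168193), (nat_lit 55, nat_lit 19446653121), (nat_lit 41, nat_lit 19446391041), (nat_lit 95, nat_lit 20553687105), (nat_lit 71, nat_lit 20537172033), (nat_lit 18, nat_lit 20536909953), (nat_lit 90, nat_lit 20520394881), (nat_lit 43, nat_lit 20520132801), (nat_lit 120, nat_lit 21610651713), (nat_lit 56, nat_lit 21594136641), (nat_lit 108, nat_lit 21593874561), (nat_lit 94, nat_lit 22667616321)]⟩,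
   ⟨V6_15151685697, [(nat_lit 22, nat_lit 16258982145), (nat_lit 44, nat_lit 17332723905), (nat_lit 34, nat_lit 17315946753), (nat_lit 47, nat_lit 18406465665), (nat_lit 59, nat_lit 18389688513), (nat_lit 94, nat_lit 18372911361), (nat_lit 66, nat_lit 19480207425), (nat_lit 79, nat_lit 19463430273), (nat_lit 115, nat_lit 19446653121), (nat_lit 40, nat_lit 20537172033), (nat_lit 1, nat_lit 20520394881), (nat_lit 19, nat_lit 21594136641)]⟩,
   ⟨V6_14077944000, [(nat_lit 107, nat_lit 16258982145), (nat_lit 90, nat_lit 17332723968), (nat_lit 45, nat_lit 17332723905), (nat_lit 90, nat_lit 17315946753), (nat_lit 38, nat_lit 18406465728), (nat_lit 38, nat_lit 18389688576), (nat_lit 12, nat_lit 18389688513), (nat_lit 83, nat_lit 18372911361), (nat_lit 15, nat_lit 19463430336), (nat_lit 76, nat_lit 19446653184), (nat_lit 18, nat_lit 19446653121), (nat_lit 110, nat_lit 20520394944)]⟩],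
  [W_15185231936, W_15184973888, W_15184969856, W_14094450944, W_10890272960, W_10890010880]⟩
theorem C_16258982145 : chkRec R_16258982145 = true := by decide +kernel

noncomputable def R_16258982208 : Rec := ⟨nat_lit 16258982208, nat_lit 24,
  [⟨V6_16258719744, [(nat_lit 6, nat_lit 16258982208), (nat_lit 106, nat_lit 17332723968), (nat_lit 57, nat_lit 17332461888), (nat_lit 95, nat_lit 18406465728), (nat_lit 92, nat_lit 18406203648), (nat_lit 50, nat_lit 19480207488), (nat_lit 15, nat_lit 19479945408), (nat_lit 10, nat_lit 20553949248), (nat_lit 53, nat_lit 20553687168), (nat_lit 122, nat_lit 21627691008), (nat_lit 5, nat_lit 21627428928), (nat_lit 66, nat_lit 22701170688)]⟩,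
   ⟨V6_14077944000, [(nat_lit 89, nat_lit 16258982208), (nat_lit 116, nat_lit 17332723968), (nat_lit 52, nat_lit 17315946816), (nat_lit 48, nat_lit 18406465728), (nat_lit 24, nat_lit 18389688576), (nat_lit 118, nat_lit 18372911424), (nat_lit 47, nat_lit 19463430336), (nat_lit 87, nat_lit 19446653184), (nat_lit 122, nat_lit 20520394944)]⟩],
  [W_16225423424, W_15184973888, W_15168458816, W_13037494400, W_13003940096, W_11963748608, W_11947233536, W_10890272960, W_10890010880, W_10873233728, W_9816527168]⟩
theorem C_16258982208 : chkRec R_16258982208 = true := by decide +kernel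

noncomputable def R_16258986114 : Rec := ⟨nat_lit 16258986114, nat_lit 4,
  [⟨V6_14077948032, [(nat_lit 96, nat_lit 16258986114), (nat_lit 81, nat_lit 17332727937), (nat_lit 66, nat_lit 17315950722), (nat_lit 11, nat_lit 18406469760), (nat_lit 50, nat_lit 18389692545), (nat_lit 126, nat_lit 18372915330), (nat_lit 47, nat_lit 19463434368), (nat_lit 17, nat_lit 19446657153), (nat_lit 42, nat_lit 20520398976)]⟩,
   ⟨V6_14077939842, [(nat_lit 98, nat_lit 16258986114), (nat_lit 117, nat_lit 17332723842), (nat_lit 102, nat_lit 17315950722), (nat_lit 100, nat_lit 18406461570), (nat_lit 20, nat_lit 18389688450), (nat_lit 28, nat_lit 18372915330), (nat_lit 88, nat_lit 19463426178), (nat_lit 51, nat_lit 19446653058), (nat_lit 26, nat_lit 20520390786)]⟩,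
   ⟨V6_11947237506, [(nat_lit 6, nat_lit 16258986114), (nat_lit 45, nat_lit 17332723842), (nat_lit 21, nat_lit 17315950722), (nat_lit 41, nat_lit 18389688450)]⟩],
  [W_16258965632, W_13020979328]⟩
theorem C_16258986114 : chkRec R_16258986114 = true := by decide +kernel

noncomputable def R_16258986177 : Rec := ⟨nat_lit 16258986177, nat_lit 14,
  [⟨V6_16225415361, [(nat_lit 30, nat_lit 16258986177), (nat_lit 72, nat_lit 17332723905), (nat_lit 22, nat_lit 17315950785), (nat_lit 75, nat_lit 18406461633), (nat_lit 36, nat_lit 18389688513), (nat_lit 123, nat_lit 18372915393), (nat_lit 90, nat_lit 19480199361), (nat_lit 47, nat_lit 19463426241), (nat_lit 85, nat_lit 19446653121), (nat_lit 112, nat_lit 20553937089), (nat_lit 21, nat_lit 20537163969), (nat_lit 29, nat_lit 20520390849), (nat_lit 93, nat_lit 21610901697), (nat_lit 1, nat_lit 21594128577), (nat_lit 3, nat_lit 22667866305)]⟩,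
   ⟨V6_15151677633, [(nat_lit 26, nat_lit 16258986177), (nat_lit 31, nat_lit 17332723905), (nat_lit 27, nat_lit 17315950785), (nat_lit 80, nat_lit 18406461633), (nat_lit 91, nat_lit 18389688513), (nat_lit 106, nat_lit 18372915393), (nat_lit 15, nat_lit 19480199361), (nat_lit 63, nat_lit 19463426241), (nat_lit 95, nat_lit 19446653121), (nat_lit 82, nat_lit 20537163969), (nat_lit 119, nat_lit 20520390849), (nat_lit 12, nat_lit 21594128577)]⟩,
   ⟨V6_13020983361, [(nat_lit 50, nat_lit 16258986177), (nat_lit 108, nat_lit 17332727937), (nat_lit 40, nat_lit 17315950785), (nat_lit 13, nat_lit 18406469697), (nat_lit 57, nat_lit 18389692545), (nat_lit 103, nat_lit 19463434305)]⟩],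
  [W_16242196544, W_15185231936, W_11964018752]⟩
theorem C_16258986177 : chkRec R_16258986177 = true := by decide +kernel

noncomputable def R_16258986240 : Rec := ⟨nat_lit 16258986240, nat_lit 16,
  [⟨V6_15151689792, [(nat_lit 121, nat_lit 16258986240), (nat_lit 115, nat_lit 17332728000), (nat_lit 60, nat_lit 17315950848), (nat_lit 68, nat_lit 18406469760), (nat_lit 7, nat_lit 18389692608), (nat_lit 9, nat_lit 18372915456), (nat_lit 109, nat_lit 19480211520), (nat_lit 117, nat_lit 19463434368), (nat_lit 61, nat_lit 19446657216), (nat_lit 93, nat_lit 20537176128), (nat_lit 69, nat_lit 20520398976), (nat_lit 41, nat_lit 21594140736)]⟩,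
   ⟨V6_14111502336, [(nat_lit 82, nat_lit 16258986240), (nat_lit 51, nat_lit 17332728000), (nat_lit 64, nat_lit 18406469760), (nat_lit 35, nat_lit 19480211520), (nat_lit 6, nat_lit 20553953280)]⟩,
   ⟨V6_14094725184, [(nat_lit 109, nat_lit 16258986240), (nat_lit 88, nat_lit 17332728000), (nat_lit 75, nat_lit 17315950848), (nat_lit 41, nat_lit 18406469760), (nat_lit 28, nat_lit 18389692608), (nat_lit 85, nat_lit 19480211520), (nat_lit 42, nat_lit 19463434368), (nat_lit 101, nat_lit 20537176128)]⟩],
  [W_16242196544, W_15185231936, W_13020971264, W_11947233536]⟩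
theorem C_16258986240 : chkRec R_16258986240 = true := by decide +kernel

noncomputable def R_16259236035 : Rec := ⟨nat_lit 16259236035, nat_lit 5,
  [⟨V6_15168712896, [(nat_lit 20, nat_lit 16259236035), (nat_lit 95, nat_lit 17332977858), (nat_lit 61, nat_lit 17332973763), (nat_lit 14, nat_lit 17316200643), (nat_lit 121, nat_lit 18406719681), (nat_lit 68, nat_lit 18406715586), (nat_lit 80, nat_lit 18389942466), (nat_lit 110, nat_lit 18389938371), (nat_lit 108, nat_lit 19480461504), (nat_lit 39, nat_lit 19480457409), (nat_lit 31, nat_lit 19463684289), (nat_lit 54, nat_lit 19463680194), (nat_lit 126, nat_lit 20554199232), (nat_lit 58, nat_lit 20537426112), (nat_lit 2, nat_lit 20537422017), (nat_lit 107, nat_lit 21611163840)]⟩],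
  [W_16258187456, W_16241930432, W_14111486144]⟩
theorem C_16259236035 : chkRec R_16259236035 = true := by decide +kernel

noncomputable def R_16259236098 : Rec := ⟨nat_lit 16259236098, nat_lit 10,
  [⟨V6_11964268800, [(nat_lit 106, nat_lit 16259236098), (nat_lit 51, nat_lit 17332977921), (nat_lit 92, nat_lit 18406719744)]⟩,
   ⟨V6_11947491522, [(nat_lit 58, nat_lit 16259236098), (nat_lit 106, nat_lit 17332977858), (nat_lit 43, nat_lit 17316200706), (nat_lit 9, nat_lit 18389942466)]⟩,
   ⟨V6_10890526977, [(nat_lit 51, nat_lit 16259236098), (nat_lit 52, nat_lit 17332977921)]⟩],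
  [W_16258187456, W_16241410304, W_15184969856, W_15167930624]⟩
theorem C_16259236098 : chkRec R_16259236098 = true := by decide +kernel

noncomputable def R_16259240130 : Rec := ⟨nat_lit 16259240130, nat_lit 19,
  [⟨V6_14094975168, [(nat_lit 114, nat_lit 16259240130), (nat_lit 22, nat_lit 17332981953), (nat_lit 86, nat_lit 17332977858), (nat_lit 10, nat_lit 17316204738), (nat_lit 3, nat_lit 18406723776), (nat_lit 91, nat_lit 18406719681), (nat_lit 79, nat_lit 18389946561), (nat_lit 45, nat_lit 18389942466), (nat_lit 22, nat_lit 19480461504), (nat_lit 45, nat_lit 19463688384), (nat_lit 29, nat_lit 19463684289), (nat_lit 31, nat_lit 20537426112)]⟩,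
   ⟨V6_11947495554, [(nat_lit 121, nat_lit 16259240130), (nat_lit 71, nat_lit 17332981890), (nat_lit 66, nat_lit 17316204738), (nat_lit 103, nat_lit 18389946498)]⟩],
  [W_16258707584, W_16258445504, W_15168712832, W_14111748224, W_14111486144, W_14110970048]⟩
theorem C_16259240130 : chkRec R_16259240130 = true := by decide +kernel

noncomputable def R_16259240193 : Rec := ⟨nat_lit 16259240193, nat_lit 28,
  [⟨V6_14094979137, [(nat_lit 5, nat_lit 16259240193), (nat_lit 32, nat_lit 17332981953), (nat_lit 85, nat_lit 17316204801), (nat_lit 38, nat_lit 18406723713), (nat_lit 91, nat_lit 18389946561), (nat_lit 54, nat_lit 19480465473), (nat_lit 73, nat_lit 19463688321), (nat_lit 106, nat_lit 20537430081)]⟩,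
   ⟨V6_13021233408, [(nat_lit 33, nat_lit 16259240193), (nat_lit 1, nat_lit 17332982016), (nat_lit 30, nat_lit 17332977921), (nat_lit 40, nat_lit 17316204801), (nat_lit 90, nat_lit 18406719744), (nat_lit 34, nat_lit 18389946624), (nat_lit 44, nat_lit 18389942529), (nat_lit 45, nat_lit 19463684352)]⟩,
   ⟨V6_11947495680, [(nat_lit 75, nat_lit 16259240193), (nat_lit 4, nat_lit 17332982016), (nat_lit 37, nat_lit 17316204801), (nat_lit 33, nat_lit 18389946624)]⟩,
   ⟨V6_10873753857, [(nat_lit 35, nat_lit 16259240193), (nat_lit 23, nat_lit 17316204801)]⟩],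
  [W_16242196544, W_15185231936, W_15184973888, W_15184707776, W_15168716864, W_15167930624]⟩
theorem C_16259240193 : chkRec R_16259240193 = true := by decide +kernel

noncomputable def R_16259240256 : Rec := ⟨nat_lit 16259240256, nat_lit 19,
  [⟨V6_16242462720, [(nat_lit 54, nat_lit 16259240256), (nat_lit 38, nat_lit 17332982016), (nat_lit 46, nat_lit 17316204864), (nat_lit 21, nat_lit 18406723776), (nat_lit 45, nat_lit 18389946624), (nat_lit 92, nat_lit 19480465536), (nat_lit 52, nat_lit 19463688384), (nat_lit 126, nat_lit 20554207296), (nat_lit 71, nat_lit 20537430144), (nat_lit 50, nat_lit 21627949056), (nat_lit 42, nat_lit 21611171904), (nat_lit 105, nat_lit 22684913664)]⟩,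
   ⟨V6_11947495680, [(nat_lit 112, nat_lit 16259240256), (nat_lit 63, nat_lit 17332982016), (nat_lit 79, nat_lit 17316204864), (nat_lit 28, nat_lit 18389946624)]⟩],
  [W_16258453568, W_16241676416, W_15184973888, W_14110970048, W_14094979136, W_13021237376]⟩
theorem C_16259240256 : chkRec R_16259240256 = true := by decide +kernel

noncomputable def R_16259244162 : Rec := ⟨nat_lit 16259244162, nat_lit 16,
  [⟨V6_16242450561, [(nat_lit 37, nat_lit 16259244162), (nat_lit 7, nat_lit 17332985985), (nat_lit 105, nat_lit 17332981890), (nat_lit 120, nat_lit 17316208770), (nat_lit 17, nat_lit 18406723713), (nat_lit 76, nat_lit 18406719618), (nat_lit 119, nat_lit 18389950593), (nat_lit 87, nat_lit 18389946498), (nat_lit 36, nat_lit 19480461441), (nat_lit 34, nat_lit 19480457346), (nat_lit 10, nat_lit 19463688321), (nat_lit 91, nat_lit 19463684226), (nat_lit 76, nat_lit 20554199169), (nat_lit 80, nat_lit 20554195074), (nat_lit 57, nat_lit 20537426049), (nat_lit 88, nat_lit 20537421954), (nat_lit 119, nat_lit 21627936897), (nat_lit 32, nat_lit 21611163777),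 (nat_lit 32, nat_lit 21611159682), (nat_lit 117, nat_lit 22684901505)]⟩,
   ⟨V6_15168708738, [(nat_lit 39, nat_lit 16259244162), (nat_lit 123, nat_lit 17332981890), (nat_lit 68, nat_lit 17316208770), (nat_lit 95, nat_lit 18406719618), (nat_lit 85, nat_lit 18389946498), (nat_lit 86, nat_lit 19480457346), (nat_lit 10, nat_lit 19463684226), (nat_lit 52, nat_lit 20554195074), (nat_lit 2, nat_lit 20537421954), (nat_lit 49, nat_lit 21611159682)]⟩,
   ⟨V6_11947495554, [(nat_lit 5, nat_lit 16259244162), (nat_lit 105, nat_lit 17332981890), (nat_lit 93, nat_lit 17316208770), (nat_lit 50, nat_lit 18389946498)]⟩],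
  [W_15168454784, W_15168196736, W_14094459008, W_13037494400, W_13020979328]⟩
theorem C_16259244162 : chkRec R_16259244162 = true := by decide +kernel

noncomputable def R_16259244225 : Rec := ⟨nat_lit 16259244225, nat_lit 41,
  [⟨V6_16259231808, [(nat_lit 103, nat_lit 16259244225), (nat_lit 37, nat_lit 17332986048), (nat_lit 30, nat_lit 17332985985), (nat_lit 93, nat_lit 17332981953), (nat_lit 71, nat_lit 18406727808), (nat_lit 55, nat_lit 18406727745), (nat_lit 104, nat_lit 18406723776), (nat_lit 3, nat_lit 18406723713), (nat_lit 12, nat_lit 18406719681), (nat_lit 103, nat_lit 19480469568), (nat_lit 98, nat_lit 19480465536), (nat_lit 56, nat_lit 19480465473), (nat_lit 79, nat_lit 19480461504), (nat_lit 109, nat_lit 19480461441), (nat_lit 52, nat_lit 19480457409), (nat_lit 12, nat_lit 20554207296), (nat_lit 81, nat_lit 20554203264), (nat_lit 48, nat_lit 20554203201), (nat_lit 122, nat_lit 20554199232), (nat_lit 23, nat_lit 20554199169), (nat_lit 93, nat_lit 21627945024), (nat_lit 43, nat_lit 21627940992), (nat_lit 58, nat_lit 21627940929),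 (nat_lit 82, nat_lit 22701682752)]⟩],
  [W_16242196544, W_15168450752, W_15168200768, W_14111236160, W_14094721088, W_14094454976, W_13037494400, W_13021237376, W_13021233344, W_13020975296, W_13020717248, W_11964014720, W_11964010688, W_11947237568, W_10890535040, W_10890531008, W_10890272960, W_10873757888]⟩
theorem C_16259244225 : chkRec R_16259244225 = true := by decide +kernel

noncomputable def R_16259244288 : Rec := ⟨nat_lit 16259244288, nat_lit 52,
  [⟨V6_16258719744, [(nat_lit 77, nat_lit 16259244288), (nat_lit 125, nat_lit 17332986048), (nat_lit 23, nat_lit 17332723968), (nat_lit 97, nat_lit 18406727808), (nat_lit 86, nat_lit 18406465728), (nat_lit 62, nat_lit 18406203648), (nat_lit 120, nat_lit 19480469568), (nat_lit 31, nat_lit 19480207488), (nat_lit 97, nat_lit 19479945408), (nat_lit 18, nat_lit 20554211328), (nat_lit 124, nat_lit 20553949248), (nat_lit 99, nat_lit 20553687168), (nat_lit 89, nat_lit 21627691008), (nat_lit 55, nat_lit 21627428928), (nat_lit 23, nat_lit 22701170688)]⟩,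
   ⟨V6_15168724992, [(nat_lit 108, nat_lit 16259244288), (nat_lit 82, nat_lit 17332986048), (nat_lit 69, nat_lit 17316208896), (nat_lit 38, nat_lit 18406727808), (nat_lit 124, nat_lit 18389950656), (nat_lit 39, nat_lit 19480469568), (nat_lit 54, nat_lit 19463692416), (nat_lit 58, nat_lit 20554211328), (nat_lit 121, nat_lit 20537434176), (nat_lit 104, nat_lit 21611175936)]⟩,
   ⟨V6_10873757952, [(nat_lit 54, nat_lit 16259244288), (nat_lit 50, nat_lit 17316208896)]⟩],
  [W_16242458624, W_16242196544, W_15185494016, W_15185231936, W_15184969856, W_15168716864, W_14094721088, W_13020971264]⟩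
theorem C_16259244288 : chkRec R_16259244288 = true := by decide +kernel

noncomputable def R_16259248257 : Rec := ⟨nat_lit 16259248257, nat_lit 26,
  [⟨V6_16242450561, [(nat_lit 46, nat_lit 16259248257), (nat_lit 80, nat_lit 17332985985), (nat_lit 92, nat_lit 17316212865), (nat_lit 87, nat_lit 18406723713), (nat_lit 86, nat_lit 18389950593), (nat_lit 37, nat_lit 19480461441), (nat_lit 24, nat_lit 19463688321), (nat_lit 36, nat_lit 20554199169), (nat_lit 12, nat_lit 20537426049), (nat_lit 6, nat_lit 21627936897), (nat_lit 84, nat_lit 21611163777), (nat_lit 113, nat_lit 22684901505)]⟩,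
   ⟨V6_14094979137, [(nat_lit 35, nat_lit 16259248257), (nat_lit 46, nat_lit 17332990017), (nat_lit 89, nat_lit 17332985985), (nat_lit 79, nat_lit 17316212865), (nat_lit 103, nat_lit 18406727745), (nat_lit 100, nat_lit 18406723713), (nat_lit 5, nat_lit 18389954625), (nat_lit 118, nat_lit 18389950593), (nat_lit 19, nat_lit 19480465473), (nat_lit 69, nat_lit 19463692353), (nat_lit 23, nat_lit 19463688321), (nat_lit 125, nat_lit 20537430081)]⟩,
   ⟨V6_14094725184, [(nat_lit 70, nat_lit 16259248257), (nat_lit 8, nat_lit 17332990080), (nat_lit 70, nat_lit 17332990017), (nat_lit 107, nat_lit 17332727937), (nat_lit 23, nat_lit 17316212865), (nat_lit 53, nat_lit 18406731840), (nat_lit 60, nat_lit 18406469760), (nat_lit 20, nat_lit 18406469697), (nat_lit 118, nat_lit 18389954688), (nat_lit 63, nat_lit 18389954625), (nat_lit 88, nat_lit 18389692545), (nat_lit 47, nat_lit 19480211520), (nat_lit 61, nat_lit 19463696448), (nat_lit 37, nat_lit 19463434368), (nat_lit 24, nat_lit 19463434305), (nat_lit 25, nat_lit 20537176128)]⟩,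
   ⟨V6_13021241409, [(nat_lit 7, nat_lit 16259248257), (nat_lit 70, nat_lit 17332990017), (nat_lit 70, nat_lit 17332985985), (nat_lit 19, nat_lit 17316212865), (nat_lit 85, nat_lit 18406727745), (nat_lit 29, nat_lit 18389954625), (nat_lit 118, nat_lit 18389950593), (nat_lit 17, nat_lit 19463692353)]⟩,
   ⟨V6_10890539073, [(nat_lit 79, nat_lit 16259248257), (nat_lit 32, nat_lit 17332990017)]⟩],
  [W_16242196544, W_15185489984, W_15185231936, W_10873761920]⟩
theorem C_16259248257 : chkRec R_16259248257 = true := by decide +kernel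

noncomputable def R_16259248320 : Rec := ⟨nat_lit 16259248320, nat_lit 42,
  [⟨V6_16259231808, [(nat_lit 19, nat_lit 16259248320), (nat_lit 81, nat_lit 17332990080), (nat_lit 21, nat_lit 17332986048), (nat_lit 19, nat_lit 18406731840), (nat_lit 59, nat_lit 18406727808), (nat_lit 15, nat_lit 18406723776), (nat_lit 86, nat_lit 19480469568), (nat_lit 51, nat_lit 19480465536), (nat_lit 45, nat_lit 19480461504), (nat_lit 36, nat_lit 20554207296), (nat_lit 61, nat_lit 20554203264), (nat_lit 106, nat_lit 20554199232), (nat_lit 28, nat_lit 21627945024), (nat_lit 58, nat_lit 21627940992), (nat_lit 82, nat_lit 22701682752)]⟩,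
   ⟨V6_14094987264, [(nat_lit 82, nat_lit 16259248320), (nat_lit 54, nat_lit 17332990080), (nat_lit 101, nat_lit 17316212928), (nat_lit 23, nat_lit 18406731840), (nat_lit 10, nat_lit 18389954688), (nat_lit 79, nat_lit 19480473600), (nat_lit 54, nat_lit 19463696448), (nat_lit 73, nat_lit 20537438208)]⟩],
  [W_15168720896, W_15168462848, W_15168450752, W_14111486144, W_14094983168, W_14094725120, W_14094721088, W_13021245440, W_13021237376, W_13021233344, W_13020975296, W_11964280832, W_11964268736, W_11964010688, W_11947237568, W_10890535040, W_10890531008, W_10890272960, W_10873761920, W_10873757888]⟩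
theorem C_16259248320 : chkRec R_16259248320 = true := by decide +kernel

noncomputable def R_16259252289 : Rec := ⟨nat_lit 16259252289, nat_lit 9,
  [⟨V6_14094979137, [(nat_lit 21, nat_lit 16259252289), (nat_lit 108, nat_lit 17332990017), (nat_lit 69, nat_lit 17316216897), (nat_lit 98, nat_lit 18406727745), (nat_lit 118, nat_lit 18389954625), (nat_lit 32, nat_lit 19480465473), (nat_lit 107, nat_lit 19463692353), (nat_lit 77, nat_lit 20537430081)]⟩,
   ⟨V6_10890539073, [(nat_lit 60, nat_lit 16259252289), (nat_lit 42, nat_lit 17332990017)]⟩],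
  [W_15185489984, W_10873765952]⟩
theorem C_16259252289 : chkRec R_16259252289 = true := by decide +kernel

noncomputable def R_16259252352 : Rec := ⟨nat_lit 16259252352, nat_lit 25,
  [⟨V6_15168724992, [(nat_lit 70, nat_lit 16259252352), (nat_lit 47, nat_lit 17332994112), (nat_lit 75, nat_lit 17332990080), (nat_lit 22, nat_lit 17316216960), (nat_lit 56, nat_lit 18406735872), (nat_lit 103, nat_lit 18406731840), (nat_lit 64, nat_lit 18406727808), (nat_lit 25, nat_lit 18389958720), (nat_lit 56, nat_lit 18389954688), (nat_lit 34, nat_lit 19480473600), (nat_lit 101, nat_lit 19480469568), (nat_lit 112, nat_lit 19463700480), (nat_lit 64, nat_lit 19463696448), (nat_lit 88, nat_lit 19463692416), (nat_lit 1, nat_lit 20554211328), (nat_lit 13, nat_lit 20537438208), (nat_lit 105, nat_lit 20537434176), (nat_lit 104, nat_lit 21611175936)]⟩,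
   ⟨V6_13021249536, [(nat_lit 86, nat_lit 16259252352), (nat_lit 32, nat_lit 17332994112), (nat_lit 50, nat_lit 17316216960), (nat_lit 11, nat_lit 18406735872), (nat_lit 123, nat_lit 18389958720), (nat_lit 85, nat_lit 19463700480)]⟩],
  [W_16242450560, W_15185494016, W_15185489984, W_15185485952]⟩
theorem C_16259252352 : chkRec R_16259252352 = true := by decide +kernel

noncomputable def R_16259494083 : Rec := ⟨nat_lit 16259494083, nat_lit 2,
  [⟨V6_13038268608, [(nat_lit 73, nat_lit 16259494083), (nat_lit 126, nat_lit 17333235906), (nat_lit 81, nat_lit 18406977729), (nat_lit 80, nat_lit 19480719552)]⟩],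
  [W_16258445504]⟩
theorem C_16259494083 : chkRec R_16259494083 = true := by decide +kernel

noncomputable def R_16259498178 : Rec := ⟨nat_lit 16259498178, nat_lit 8,
  [⟨V6_13038268608, [(nat_lit 11, nat_lit 16259498178), (nat_lit 124, nat_lit 17333240001), (nat_lit 26, nat_lit 17333235906), (nat_lit 67, nat_lit 18406981824), (nat_lit 34, nat_lit 18406977729), (nat_lit 31, nat_lit 19480719552)]⟩],
  [W_16258187456, W_15184969856]⟩
theorem C_16259498178 : chkRec R_16259498178 = true := by decide +kernel

noncomputable def R_16259498241 : Rec := ⟨nat_lit 16259498241, nat_lit 9,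
  [⟨V6_16258187520, [(nat_lit 11, nat_lit 16259498241), (nat_lit 7, nat_lit 17333240064), (nat_lit 116, nat_lit 17332977921), (nat_lit 121, nat_lit 18406719744), (nat_lit 4, nat_lit 18406457601), (nat_lit 12, nat_lit 19480199424), (nat_lit 105, nat_lit 19479937281), (nat_lit 57, nat_lit 20553679104), (nat_lit 55, nat_lit 20553416961), (nat_lit 79, nat_lit 21627158784), (nat_lit 114, nat_lit 21626896641), (nat_lit 67, nat_lit 22700638464)]⟩,
   ⟨V6_11964268800, [(nat_lit 42, nat_lit 16259498241), (nat_lit 6, nat_lit 17333240064), (nat_lit 72, nat_lit 17332977921), (nat_lit 14, nat_lit 18406719744)]⟩],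
  [W_15185231936, W_13038272576]⟩
theorem C_16259498241 : chkRec R_16259498241 = true := by decide +kernel

noncomputable def R_16259502210 : Rec := ⟨nat_lit 16259502210, nat_lit 8,
  [⟨V6_15185748096, [(nat_lit 76, nat_lit 16259502210), (nat_lit 98, nat_lit 17333244033), (nat_lit 82, nat_lit 17333239938), (nat_lit 124, nat_lit 18406985856), (nat_lit 77, nat_lit 18406981761), (nat_lit 122, nat_lit 18406977666), (nat_lit 66, nat_lit 19480723584), (nat_lit 27, nat_lit 19480719489), (nat_lit 43, nat_lit 19480715394), (nat_lit 74, nat_lit 20554461312), (nat_lit 15, nat_lit 20554457217), (nat_lit 105, nat_lit 21628199040)]⟩,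
   ⟨V6_14111744130, [(nat_lit 110, nat_lit 16259502210), (nat_lit 101, nat_lit 17333239938), (nat_lit 52, nat_lit 17332981890), (nat_lit 102, nat_lit 18406977666), (nat_lit 43, nat_lit 18406719618), (nat_lit 126, nat_lit 19480715394), (nat_lit 83, nat_lit 19480457346), (nat_lit 107, nat_lit 20554195074)]⟩],
  [W_15184969856, W_13038268544]⟩
theorem C_16259502210 : chkRec R_16259502210 = true := by decide +kernel

noncomputable def R_16259502273 : Rec := ⟨nat_lit 16259502273, nat_lit 23,
  [⟨V6_16259231808, [(nat_lit 3, nat_lit 16259502273), (nat_lit 61, nat_lit 17333244096), (nat_lit 75, nat_lit 17333244033), (nat_lit 76, nat_lit 17333240001), (nat_lit 18, nat_lit 17332981953), (nat_lit 17, nat_lit 18406985856), (nat_lit 54, nat_lit 18406985793), (nat_lit 80, nat_lit 18406981824), (nat_lit 42, nat_lit 18406981761), (nat_lit 73, nat_lit 18406977729), (nat_lit 96, nat_lit 18406723776), (nat_lit 58, nat_lit 18406723713), (nat_lit 94, nat_lit 18406719681), (nat_lit 123, nat_lit 19480727616), (nat_lit 23, nat_lit 19480723584), (nat_lit 16, nat_lit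 19480723521), (nat_lit 21, nat_lit 19480719552), (nat_lit 7, nat_lit 19480719489), (nat_lit 94, nat_lit 19480465536), (nat_lit 72, nat_lit 19480465473), (nat_lit 102, nat_lit 19480461504), (nat_lit 55, nat_lit 19480461441), (nat_lit 52, nat_lit 19480457409), (nat_lit 52, nat_lit 20554465344), (nat_lit 116, nat_lit 20554461312), (nat_lit 3, nat_lit 20554461249), (nat_lit 68, nat_lit 20554207296), (nat_lit 31, nat_lit 20554203264), (nat_lit 121, nat_lit 20554203201), (nat_lit 25, nat_lit 20554199232), (nat_lit 82, nat_lit 20554199169), (nat_lit 30, nat_lit 21628203072), (nat_lit 74, nat_lit 21627945024), (nat_lit 1, nat_lit 21627940992), (nat_lit 95, nat_lit 21627940929), (nat_lit 16, nat_lit 22701682752)]⟩],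
  [W_16258453568, W_15185231936, W_15184973888, W_14110970048, W_11964526784, W_11964010688, W_10890531008]⟩
theorem C_16259502273 : chkRec R_16259502273 = true := by decide +kernel

noncomputable def R_16259502336 : Rec := ⟨nat_lit 16259502336, nat_lit 22,
  [⟨V6_15185756160, [(nat_lit 97, nat_lit 16259502336), (nat_lit 116, nat_lit 17333244096), (nat_lit 59, nat_lit 17333240064), (nat_lit 62, nat_lit 18406985856), (nat_lit 74, nat_lit 18406981824), (nat_lit 43, nat_lit 19480727616), (nat_lit 33, nat_lit 19480723584), (nat_lit 3, nat_lit 20554469376), (nat_lit 117, nat_lit 20554465344), (nat_lit 96, nat_lit 21628207104)]⟩,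
   ⟨V6_14112018432, [(nat_lit 112, nat_lit 16259502336), (nat_lit 17, nat_lit 17333244096), (nat_lit 106, nat_lit 18406985856), (nat_lit 54, nat_lit 19480727616), (nat_lit 2, nat_lit 20554469376)]⟩],
  [W_16258453568, W_15184973888, W_15184969856, W_14111232128, W_11963748608]⟩
theorem C_16259502336 : chkRec R_16259502336 = true := by decide +kernel

noncomputable def R_16259506305 : Rec := ⟨nat_lit 16259506305, nat_lit 22,
  [⟨V6_16259231808, [(nat_lit 60, nat_lit 16259506305), (nat_lit 99, nat_lit 17333248128), (nat_lit 125, nat_lit 17333248065), (nat_lit 51, nat_lit 17333244033), (nat_lit 19, nat_lit 17332985985), (nat_lit 21, nat_lit 18406989888), (nat_lit 99, nat_lit 18406985856), (nat_lit 112, nat_lit 18406985793), (nat_lit 40, nat_lit 18406981761), (nat_lit 94, nat_lit 18406727808), (nat_lit 50, nat_lit 18406727745), (nat_lit 24, nat_lit 18406723713), (nat_lit 6, nat_lit 19480727616), (nat_lit 82, nat_lit 19480723584), (nat_lit 102, nat_lit 19480723521), (nat_lit 101, nat_lit 19480719489), (nat_lit 58, nat_lit 19480469568), (nat_lit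 41, nat_lit 19480465536), (nat_lit 19, nat_lit 19480465473), (nat_lit 47, nat_lit 19480461441), (nat_lit 101, nat_lit 20554465344), (nat_lit 90, nat_lit 20554461312), (nat_lit 54, nat_lit 20554461249), (nat_lit 8, nat_lit 20554207296), (nat_lit 59, nat_lit 20554203264), (nat_lit 3, nat_lit 20554203201), (nat_lit 68, nat_lit 20554199169), (nat_lit 122, nat_lit 21628203072), (nat_lit 105, nat_lit 21627945024), (nat_lit 2, nat_lit 21627940992), (nat_lit 90, nat_lit 21627940929), (nat_lit 11, nat_lit 22701682752)]⟩],
  [W_15185231936, W_15184973888, W_14111236160, W_13037494400]⟩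
theorem C_16259506305 : chkRec R_16259506305 = true := by decide +kernel

noncomputable def R_16259506368 : Rec := ⟨nat_lit 16259506368, nat_lit 38,
  [⟨V6_16258719744, [(nat_lit 124, nat_lit 16259506368), (nat_lit 80, nat_lit 17333248128), (nat_lit 11, nat_lit 17332986048), (nat_lit 39, nat_lit 18406989888), (nat_lit 124, nat_lit 18406727808), (nat_lit 4, nat_lit 18406465728), (nat_lit 101, nat_lit 19480731648), (nat_lit 67, nat_lit 19480469568), (nat_lit 123, nat_lit 19480207488), (nat_lit 79, nat_lit 19479945408), (nat_lit 93, nat_lit 20554211328), (nat_lit 80, nat_lit 20553949248), (nat_lit 53, nat_lit 20553687168), (nat_lit 84, nat_lit 21627691008), (nat_lit 8, nat_lit 21627428928), (nat_lit 17, nat_lit 22701170688)]⟩,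
   ⟨V6_14112018432, [(nat_lit 15, nat_lit 16259506368), (nat_lit 88, nat_lit 17333248128), (nat_lit 14, nat_lit 17333244096), (nat_lit 26, nat_lit 18406989888), (nat_lit 56, nat_lit 18406985856), (nat_lit 11, nat_lit 19480731648), (nat_lit 74, nat_lit 19480727616), (nat_lit 71, nat_lit 20554469376)]⟩],
  [W_15185494016, W_15185489984, W_15185231936, W_14111748224, W_14111486144, W_13038268544, W_11964526784, W_10890531008]⟩
theorem C_16259506368 : chkRec R_16259506368 = true := by decide +kernel

noncomputable def R_16259510337 : Rec := ⟨nat_lit 16259510337, nat_lit 11,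
  [⟨V6_15185752128, [(nat_lit 83, nat_lit 16259510337), (nat_lit 96, nat_lit 17333252160), (nat_lit 38, nat_lit 17333248065), (nat_lit 106, nat_lit 18406989888), (nat_lit 97, nat_lit 18406985793), (nat_lit 14, nat_lit 19480727616), (nat_lit 20, nat_lit 19480723521), (nat_lit 92, nat_lit 20554465344), (nat_lit 71, nat_lit 20554461249), (nat_lit 28, nat_lit 21628203072)]⟩],
  [W_16259485760, W_15185231936]⟩
theorem C_16259510337 : chkRec R_16259510337 = true := by decide +kernel

noncomputable def R_16259510400 : Rec := ⟨nat_lit 16259510400, nat_lit 26,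
  [⟨V6_14112018432, [(nat_lit 49, nat_lit 16259510400), (nat_lit 2, nat_lit 17333252160), (nat_lit 29, nat_lit 17333248128), (nat_lit 29, nat_lit 18406993920), (nat_lit 112, nat_lit 18406989888), (nat_lit 43, nat_lit 18406985856), (nat_lit 28, nat_lit 19480731648), (nat_lit 100, nat_lit 19480727616), (nat_lit 62, nat_lit 20554469376)]⟩,
   ⟨V6_14111502336, [(nat_lit 76, nat_lit 16259510400), (nat_lit 52, nat_lit 17333252160), (nat_lit 69, nat_lit 17332990080), (nat_lit 52, nat_lit 18406993920), (nat_lit 92, nat_lit 18406731840), (nat_lit 73, nat_lit 18406469760), (nat_lit 125, nat_lit 19480473600), (nat_lit 72, nat_lit 19480211520), (nat_lit 39, nat_lit 20553953280)]⟩,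
   ⟨V6_13038280704, [(nat_lit 52, nat_lit 16259510400), (nat_lit 69, nat_lit 17333252160), (nat_lit 109, nat_lit 17333248128), (nat_lit 54, nat_lit 18406993920), (nat_lit 24, nat_lit 18406989888), (nat_lit 102, nat_lit 19480731648)]⟩],
  [W_16259489792, W_15185494016, W_15185485952, W_15185231936, W_11964280832]⟩
theorem C_16259510400 : chkRec R_16259510400 = true := by decide +kernel

noncomputable def R_16259514432 : Rec := ⟨nat_lit 16259514432, nat_lit 13,
  [⟨V6_14112018432, [(nat_lit 17, nat_lit 16259514432), (nat_lit 98, nat_lit 17333256192), (nat_lit 16, nat_lit 17333252160), (nat_lit 102, nat_lit 18406993920), (nat_lit 77, nat_lit 18406989888), (nat_lit 6, nat_lit 19480731648), (nat_lit 79, nat_lit 19480727616), (nat_lit 47, nat_lit 20554469376)]⟩],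
  [W_16259485760, W_15185748032, W_15185489984]⟩
theorem C_16259514432 : chkRec R_16259514432 = true := by decide +kernel

noncomputable def R_16259518464 : Rec := ⟨nat_lit 16259518464, nat_lit 2,
  [⟨V6_14112018432, [(nat_lit 16, nat_lit 16259518464), (nat_lit 6, nat_lit 17333256192), (nat_lit 5, nat_lit 18406993920), (nat_lit 61, nat_lit 19480731648), (nat_lit 42, nat_lit 20554469376)]⟩],
  [W_16259489792]⟩
theorem C_16259518464 : chkRec R_16259518464 = true := by decide +kernel

noncomputable def R_16275226884 : Rec := ⟨nat_lit 16275226884, nat_lit 1,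
  [⟨V6_15134114052, [(nat_lit 30, nat_lit 16275226884), (nat_lit 99, nat_lit 17348706564), (nat_lit 27, nat_lit 17332191492), (nat_lit 96, nat_lit 18405671172), (nat_lit 8, nat_lit 18389156100), (nat_lit 119, nat_lit 19462635780), (nat_lit 103, nat_lit 19446120708), (nat_lit 51, nat_lit 20519600388), (nat_lit 108, nat_lit 20503085316), (nat_lit 99, nat_lit 21576564996)]⟩],
  [W_15167930624]⟩
theorem C_16275226884 : chkRec R_16275226884 = true := by decide +kernel

noncomputable def R_16275230979 : Rec := ⟨nat_lit 16275230979, nat_lit 1,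
  [⟨V6_11963486466, [(nat_lit 37, nat_lit 16275230979), (nat_lit 36, nat_lit 17348972802), (nat_lit 33, nat_lit 17332195587), (nat_lit 54, nat_lit 18405937410)]⟩],
  [W_16241672384]⟩
theorem C_16275230979 : chkRec R_16275230979 = true := by decide +kernel

noncomputable def R_16275489027 : Rec := ⟨nat_lit 16275489027, nat_lit 6,
  [⟨V6_16208380161, [(nat_lit 53, nat_lit 16275489027), (nat_lit 3, nat_lit 17349230850), (nat_lit 31, nat_lit 17332453635), (nat_lit 106, nat_lit 18422972673), (nat_lit 122, nat_lit 18406195458), (nat_lit 75, nat_lit 18389418243), (nat_lit 61, nat_lit 19479937281), (nat_lit 83, nat_lit 19463160066), (nat_lit 57, nat_lit 19446382851), (nat_lit 90, nat_lit 20536901889), (nat_lit 100, nat_lit 20520124674), (nat_lit 107, nat_lit 20503347459), (nat_lit 18, nat_lit 21593866497), (nat_lit 44, nat_lit 21577089282), (nat_lit 110, nat_lit 22650831105)]⟩,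
   ⟨V6_15134638338, [(nat_lit 13, nat_lit 16275489027), (nat_lit 26, nat_lit 17349230850), (nat_lit 37, nat_lit 17332453635), (nat_lit 9, nat_lit 18406195458), (nat_lit 32, nat_lit 18389418243), (nat_lit 84, nat_lit 19463160066), (nat_lit 84, nat_lit 19446382851), (nat_lit 78, nat_lit 20520124674), (nat_lit 70, nat_lit 20503347459), (nat_lit 62, nat_lit 21577089282)]⟩],
  [W_16241410304, W_13054263488, W_13054001408, W_11980521728]⟩
theorem C_16275489027 : chkRec R_16275489027 = true := by decide +kernel

noncomputable def R_16275493059 : Rec := ⟨nat_lit 16275493059, nat_lit 5,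
  [⟨V6_16208384193, [(nat_lit 43, nat_lit 16275493059), (nat_lit 24, nat_lit 17349234882), (nat_lit 121, nat_lit 17332457667), (nat_lit 86, nat_lit 18422976705), (nat_lit 87, nat_lit 18406199490), (nat_lit 92, nat_lit 18389422275), (nat_lit 107, nat_lit 19479941313), (nat_lit 29, nat_lit 19463164098), (nat_lit 75, nat_lit 19446386883), (nat_lit 85, nat_lit 20536905921), (nat_lit 38, nat_lit 20520128706), (nat_lit 94, nat_lit 20503351491), (nat_lit 17, nat_lit 21593870529), (nat_lit 98, nat_lit 21577093314), (nat_lit 118, nat_lit 22650835137)]⟩,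
   ⟨V6_15134642370, [(nat_lit 54, nat_lit 16275493059), (nat_lit 108, nat_lit 17349234882), (nat_lit 56, nat_lit 17332457667), (nat_lit 96, nat_lit 18406199490), (nat_lit 45, nat_lit 18389422275), (nat_lit 7, nat_lit 19463164098), (nat_lit 7, nat_lit 19446386883), (nat_lit 70, nat_lit 20520128706), (nat_lit 27, nat_lit 20503351491), (nat_lit 111, nat_lit 21577093314)]⟩,
   ⟨V6_13037482179, [(nat_lit 119, nat_lit 16275493059), (nat_lit 72, nat_lit 17349230787), (nat_lit 7, nat_lit 17332457667), (nat_lit 15, nat_lit 18422968515), (nat_lit 23, nat_lit 18406195395), (nat_lit 64, nat_lit 19479933123)]⟩],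
  [W_15201480896, W_14128001216, W_14110970048, W_11980525760]⟩
theorem C_16275493059 : chkRec R_16275493059 = true := by decide +kernel

noncomputable def R_16275493122 : Rec := ⟨nat_lit 16275493122, nat_lit 13,
  [⟨V6_16208384256, [(nat_lit 74, nat_lit 16275493122), (nat_lit 87, nat_lit 17349234945), (nat_lit 85, nat_lit 17332457730), (nat_lit 62, nat_lit 18422976768), (nat_lit 43, nat_lit 18406199553), (nat_lit 107, nat_lit 18389422338), (nat_lit 77, nat_lit 19479941376), (nat_lit 2, nat_lit 19463164161), (nat_lit 113, nat_lit 19446386946), (nat_lit 47, nat_lit 20536905984), (nat_lit 122, nat_lit 20520128769), (nat_lit 61, nat_lit 20503351554), (nat_lit 117, nat_lit 21593870592), (nat_lit 102, nat_lit 21577093377), (nat_lit 106, nat_lit 22650835200)]⟩,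
   ⟨V6_16208380161, [(nat_lit 36, nat_lit 16275493122), (nat_lit 54, nat_lit 17349234945), (nat_lit 87, nat_lit 17349230850), (nat_lit 96, nat_lit 17332457730), (nat_lit 1, nat_lit 18422972673), (nat_lit 26, nat_lit 18406199553), (nat_lit 4, nat_lit 18406195458), (nat_lit 59, nat_lit 18389422338), (nat_lit 88, nat_lit 19479937281), (nat_lit 84, nat_lit 19463164161), (nat_lit 37, nat_lit 19463160066), (nat_lit 34, nat_lit 19446386946), (nat_lit 99, nat_lit 20536901889), (nat_lit 23, nat_lit 20520128769), (nat_lit 31, nat_lit 20520124674), (nat_lit 37, nat_lit 20503351554), (nat_lit 22, nat_lit 21593866497), (nat_lit 21, nat_lit 21577093377), (nat_lit 32, nat_lit 21577089282), (nat_lit 91, nat_lit 22650831105)]⟩,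
   ⟨V6_15151419522, [(nat_lit 3, nat_lit 16275493122), (nat_lit 60, nat_lit 17349234882), (nat_lit 101, nat_lit 17332457730), (nat_lit 101, nat_lit 18422976642), (nat_lit 45, nat_lit 18406199490), (nat_lit 72, nat_lit 18389422338), (nat_lit 115, nat_lit 19479941250), (nat_lit 66, nat_lit 19463164098), (nat_lit 103, nat_lit 19446386946), (nat_lit 66, nat_lit 20536905858), (nat_lit 4, nat_lit 20520128706), (nat_lit 123, nat_lit 21593870466)]⟩,
   ⟨V6_15134642370, [(nat_lit 111, nat_lit 16275493122), (nat_lit 36, nat_lit 17349234882), (nat_lit 77, nat_lit 17332457730), (nat_lit 102, nat_lit 18406199490), (nat_lit 99, nat_lit 18389422338), (nat_lit 14, nat_lit 19463164098), (nat_lit 26, nat_lit 19446386946), (nat_lit 37, nat_lit 20520128706), (nat_lit 104, nat_lit 20503351554), (nat_lit 47, nat_lit 21577093314)]⟩,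
   ⟨V6_14060900610, [(nat_lit 18, nat_lit 16275493122), (nat_lit 104, nat_lit 17332457730), (nat_lit 93, nat_lit 18389422338), (nat_lit 1, nat_lit 19446386946), (nat_lit 3, nat_lit 20503351554)]⟩],
  [W_15201484928, W_14110970048, W_13054267520, W_13054263488, W_13054001408]⟩
theorem C_16275493122 : chkRec R_16275493122 = true := by decide +kernel

noncomputable def R_16275493185 : Rec := ⟨nat_lit 16275493185, nat_lit 7,
  [⟨V6_16208384256, [(nat_lit 80, nat_lit 16275493185), (nat_lit 81, nat_lit 17349235008), (nat_lit 6, nat_lit 17349234945), (nat_lit 78, nat_lit 17332457793), (nat_lit 48, nat_lit 18422976768), (nat_lit 38, nat_lit 18406199616), (nat_lit 64, nat_lit 18406199553), (nat_lit 32, nat_lit 18389422401), (nat_lit 1, nat_lit 19479941376), (nat_lit 111, nat_lit 19463164224), (nat_lit 42, nat_lit 19463164161), (nat_lit 43, nat_lit 19446387009), (nat_lit 121, nat_lit 20536905984), (nat_lit 36, nat_lit 20520128832), (nat_lit 39, nat_lit 20520128769), (nat_lit 60, nat_lit 20503351617), (nat_lit 3, nat_lit 21593870592), (nat_lit 40,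 nat_lit 21577093440), (nat_lit 5, nat_lit 21577093377), (nat_lit 7, nat_lit 22650835200)]⟩,
   ⟨V6_16208384193, [(nat_lit 63, nat_lit 16275493185), (nat_lit 119, nat_lit 17349234945), (nat_lit 111, nat_lit 17332457793), (nat_lit 55, nat_lit 18422976705), (nat_lit 2, nat_lit 18406199553), (nat_lit 27, nat_lit 18389422401), (nat_lit 123, nat_lit 19479941313), (nat_lit 67, nat_lit 19463164161), (nat_lit 21, nat_lit 19446387009), (nat_lit 7, nat_lit 20536905921), (nat_lit 79, nat_lit 20520128769), (nat_lit 88, nat_lit 20503351617), (nat_lit 29, nat_lit 21593870529), (nat_lit 111, nat_lit 21577093377), (nat_lit 68, nat_lit 22650835137)]⟩],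
  [W_14128009280, W_14127747200, W_14110970048]⟩
theorem C_16275493185 : chkRec R_16275493185 = true := by decide +kernel

noncomputable def R_16275497154 : Rec := ⟨nat_lit 16275497154, nat_lit 16,
  [⟨V6_16225165440, [(nat_lit 90, nat_lit 16275497154), (nat_lit 43, nat_lit 17349238977), (nat_lit 113, nat_lit 17349238914), (nat_lit 84, nat_lit 17332461762), (nat_lit 40, nat_lit 18422980800), (nat_lit 40, nat_lit 18422980737), (nat_lit 31, nat_lit 18406203585), (nat_lit 89, nat_lit 18406203522), (nat_lit 119, nat_lit 18389426370), (nat_lit 33, nat_lit 19496722560), (nat_lit 84, nat_lit 19479945408), (nat_lit 70, nat_lit 19479945345), (nat_lit 83, nat_lit 19463168193), (nat_lit 59, nat_lit 19463168130), (nat_lit 54, nat_lit 19446390978), (nat_lit 70, nat_lit 20553687168), (nat_lit 29, nat_lit 20536910016), (nat_lit 94, nat_lit 20536909953), (nat_lit 46, nat_lit 20520132801), (nat_lit 49, nat_lit 20520132738), (nat_lit 84, nat_lit 21610651776), (nat_lit 7, nat_lit 21593874624), (nat_lit 29, nat_lit 21593874561), (nat_lit 6, nat_lit 22667616384)]⟩,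
   ⟨V6_15134642370, [(nat_lit 8, nat_lit 16275497154), (nat_lit 1, nat_lit 17349234882), (nat_lit 58, nat_lit 17332461762), (nat_lit 51, nat_lit 18406199490), (nat_lit 36, nat_lit 18389426370), (nat_lit 91, nat_lit 19463164098), (nat_lit 19, nat_lit 19446390978), (nat_lit 39, nat_lit 20520128706), (nat_lit 105, nat_lit 20503355586), (nat_lit 1, nat_lit 21577093314)]⟩],
  [W_15184969856, W_14128001216, W_13054267520, W_13054263488, W_10906788032]⟩
theorem C_16275497154 : chkRec R_16275497154 = true := by decide +kernel

noncomputable def R_16275497217 : Rec := ⟨nat_lit 16275497217, nat_lit 26,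
  [⟨V6_14128013376, [(nat_lit 95, nat_lit 16275497217), (nat_lit 83, nat_lit 17349239040), (nat_lit 34, nat_lit 17349238977), (nat_lit 16, nat_lit 18422980800), (nat_lit 5, nat_lit 18422980737), (nat_lit 40, nat_lit 19496722560), (nat_lit 72, nat_lit 19496722497), (nat_lit 6, nat_lit 20570464320)]⟩],
  [W_16208388224, W_16208380160, W_15201747008, W_15184973888, W_15151415552, W_14094450944]⟩
theorem C_16275497217 : chkRec R_16275497217 = true := by decide +kernel

noncomputable def R_16275497280 : Rec := ⟨nat_lit 16275497280, nat_lit 22,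
  [⟨V6_15201755136, [(nat_lit 44, nat_lit 16275497280), (nat_lit 21, nat_lit 17349239040), (nat_lit 122, nat_lit 18422980800), (nat_lit 109, nat_lit 19496722560), (nat_lit 8, nat_lit 20570464320), (nat_lit 36, nat_lit 21644206080)]⟩],
  [W_16208388224, W_15184973888, W_15134646464, W_14128009280, W_13003940096, W_11980525760, W_11963748608, W_10906788032, W_10890010880, W_10873233728]⟩
theorem C_16275497280 : chkRec R_16275497280 = true := by decide +kernel

noncomputable def R_16275751107 : Rec := ⟨nat_lit 16275751107, nat_lit 7,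
  [⟨V6_14127481026, [(nat_lit 112, nat_lit 16275751107), (nat_lit 116, nat_lit 17349492930), (nat_lit 44, nat_lit 17349230787), (nat_lit 28, nat_lit 18422972610), (nat_lit 25, nat_lit 18422710467), (nat_lit 51, nat_lit 19496452290), (nat_lit 90, nat_lit 19496190147), (nat_lit 96, nat_lit 20569931970)]⟩,
   ⟨V6_14077931715, [(nat_lit 61, nat_lit 16275751107), (nat_lit 33, nat_lit 17349488835), (nat_lit 91, nat_lit 17332715715), (nat_lit 109, nat_lit 18406453443), (nat_lit 62, nat_lit 18389680323), (nat_lit 29, nat_lit 19463418051), (nat_lit 78, nat_lit 19446644931), (nat_lit 60, nat_lit 20520382659)]⟩,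
   ⟨V6_10907041986, [(nat_lit 98, nat_lit 16275751107), (nat_lit 104, nat_lit 17349492930)]⟩,
   ⟨V6_10907037891, [(nat_lit 15, nat_lit 16275751107), (nat_lit 118, nat_lit 17349488835)]⟩],
  [W_16258445504, W_16225157312, W_14111486144]⟩
theorem C_16275751107 : chkRec R_16275751107 = true := by decide +kernel

noncomputable def R_16275751170 : Rec := ⟨nat_lit 16275751170, nat_lit 16,
  [⟨V6_15201222912, [(nat_lit 20, nat_lit 16275751170), (nat_lit 118, nat_lit 17349492993), (nat_lit 31, nat_lit 17349230850), (nat_lit 117, nat_lit 18423234816), (nat_lit 33, nat_lit 18422972673), (nat_lit 121, nat_lit 18422710530), (nat_lit 53, nat_lit 19496714496), (nat_lit 79, nat_lit 19496452353), (nat_lit 126, nat_lit 19496190210), (nat_lit 54, nat_lit 20570194176), (nat_lit 97, nat_lit 20569932033), (nat_lit 92, nat_lit 21643673856)]⟩,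
   ⟨V6_10907042049, [(nat_lit 19, nat_lit 16275751170), (nat_lit 114, nat_lit 17349492993)]⟩,
   ⟨V6_10907041986, [(nat_lit 37, nat_lit 16275751170), (nat_lit 88, nat_lit 17349492930)]⟩],
  [W_16241934464, W_15168454784, W_15151677632, W_14111490176]⟩
theorem C_16275751170 : chkRec R_16275751170 = true := by decide +kernel

noncomputable def R_16275755202 : Rec := ⟨nat_lit 16275755202, nat_lit 24,
  [⟨V6_16225415361, [(nat_lit 10, nat_lit 16275755202), (nat_lit 96, nat_lit 17349497025), (nat_lit 8, nat_lit 17349492930), (nat_lit 86, nat_lit 17332719810), (nat_lit 80, nat_lit 18423234753), (nat_lit 50, nat_lit 18423230658), (nat_lit 39, nat_lit 18406461633), (nat_lit 66, nat_lit 18406457538), (nat_lit 6, nat_lit 18389684418), (nat_lit 110, nat_lit 19496972481), (nat_lit 98, nat_lit 19480199361), (nat_lit 32, nat_lit 19480195266), (nat_lit 96, nat_lit 19463426241), (nat_lit 66, nat_lit 19463422146), (nat_lit 30, nat_lit 19446649026), (nat_lit 24, nat_lit 20553937089), (nat_lit 84, nat_lit 20537163969), (nat_lit 75, nat_lit 20537159874), (nat_lit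 100, nat_lit 20520390849), (nat_lit 58, nat_lit 20520386754), (nat_lit 21, nat_lit 21610901697), (nat_lit 25, nat_lit 21594128577), (nat_lit 48, nat_lit 21594124482), (nat_lit 79, nat_lit 22667866305)]⟩,
   ⟨V6_15151681728, [(nat_lit 75, nat_lit 16275755202), (nat_lit 23, nat_lit 17349497025), (nat_lit 3, nat_lit 17332719810), (nat_lit 36, nat_lit 18423238848), (nat_lit 54, nat_lit 18406461633), (nat_lit 6, nat_lit 18389684418), (nat_lit 115, nat_lit 19480203456), (nat_lit 20, nat_lit 19463426241), (nat_lit 32, nat_lit 19446649026), (nat_lit 87, nat_lit 20537168064), (nat_lit 121, nat_lit 20520390849), (nat_lit 101, nat_lit 21594132672)]⟩,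
   ⟨V6_15151677633, [(nat_lit 122, nat_lit 16275755202), (nat_lit 123, nat_lit 17349497025), (nat_lit 47, nat_lit 17349492930), (nat_lit 34, nat_lit 17332719810), (nat_lit 18, nat_lit 18423234753), (nat_lit 67, nat_lit 18406461633), (nat_lit 5, nat_lit 18406457538), (nat_lit 83, nat_lit 18389684418), (nat_lit 101, nat_lit 19480199361), (nat_lit 26, nat_lit 19463426241), (nat_lit 99, nat_lit 19463422146), (nat_lit 89, nat_lit 19446649026), (nat_lit 74, nat_lit 20537163969), (nat_lit 60, nat_lit 20520390849), (nat_lit 97, nat_lit 20520386754), (nat_lit 46, nat_lit 21594128577)]⟩,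
   ⟨V6_14077939905, [(nat_lit 73, nat_lit 16275755202), (nat_lit 121, nat_lit 17349497025), (nat_lit 64, nat_lit 17332719810), (nat_lit 64, nat_lit 18406461633), (nat_lit 118, nat_lit 18389684418), (nat_lit 83, nat_lit 19463426241), (nat_lit 53, nat_lit 19446649026), (nat_lit 14, nat_lit 20520390849)]⟩],
  [W_16241676416, W_15201480896, W_14128263296, W_14128001216, W_14111486144, W_13054525568, W_13054267520, W_11980787840, W_11980783808, W_11980525760]⟩
theorem C_16275755202 : chkRec R_16275755202 = true := by decide +kernel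

noncomputable def R_16275755265 : Rec := ⟨nat_lit 16275755265, nat_lit 35,
  [⟨V6_16225423425, [(nat_lit 22, nat_lit 16275755265), (nat_lit 54, nat_lit 17349497025), (nat_lit 106, nat_lit 17332719873), (nat_lit 72, nat_lit 18423238785), (nat_lit 23, nat_lit 18406461633), (nat_lit 59, nat_lit 18389684481), (nat_lit 22, nat_lit 19496980545), (nat_lit 84, nat_lit 19480203393), (nat_lit 113, nat_lit 19463426241), (nat_lit 14, nat_lit 19446649089), (nat_lit 22, nat_lit 20553945153), (nat_lit 4, nat_lit 20537168001), (nat_lit 28, nat_lit 20520390849), (nat_lit 36, nat_lit 21610909761), (nat_lit 8, nat_lit 21594132609), (nat_lit 111, nat_lit 22667874369)]⟩,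
   ⟨V6_16224899265, [(nat_lit 103, nat_lit 16275755265), (nat_lit 9, nat_lit 17349497025), (nat_lit 117, nat_lit 17349234945), (nat_lit 121, nat_lit 17332719873), (nat_lit 119, nat_lit 18422976705), (nat_lit 124, nat_lit 18422714625), (nat_lit 63, nat_lit 18406461633), (nat_lit 82, nat_lit 18406199553), (nat_lit 117, nat_lit 18389684481), (nat_lit 33, nat_lit 19496456385), (nat_lit 8, nat_lit 19479941313), (nat_lit 105, nat_lit 19479679233), (nat_lit 22, nat_lit 19463426241), (nat_lit 122, nat_lit 19463164161), (nat_lit 78, nat_lit 19446649089), (nat_lit 45, nat_lit 20553420993), (nat_lit 112, nat_lit 20536905921), (nat_lit 83, nat_lit 20536643841), (nat_lit 82, nat_lit 20520390849), (nat_lit 52, nat_lit 20520128769), (nat_lit 37, nat_lit 21610385601), (nat_lit 64, nat_lit 21593870529), (nat_lit 83, nat_lit 21593608449), (nat_lit 51, nat_lit 22667350209)]⟩,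
   ⟨V6_15151681728, [(nat_lit 41, nat_lit 16275755265), (nat_lit 30, nat_lit 17349497088), (nat_lit 68, nat_lit 17349497025), (nat_lit 87, nat_lit 17332719873), (nat_lit 19, nat_lit 18423238848), (nat_lit 98, nat_lit 18406461696), (nat_lit 97, nat_lit 18406461633), (nat_lit 108, nat_lit 18389684481), (nat_lit 53, nat_lit 19480203456), (nat_lit 57, nat_lit 19463426304), (nat_lit 46, nat_lit 19463426241), (nat_lit 69, nat_lit 19446649089), (nat_lit 56, nat_lit 20537168064), (nat_lit 4, nat_lit 20520390912), (nat_lit 96, nat_lit 20520390849), (nat_lit 56, nat_lit 21594132672)]⟩,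
   ⟨V6_15151681665, [(nat_lit 13, nat_lit 16275755265), (nat_lit 6, nat_lit 17349497025), (nat_lit 99, nat_lit 17332719873), (nat_lit 99, nat_lit 18423238785), (nat_lit 68, nat_lit 18406461633), (nat_lit 58, nat_lit 18389684481), (nat_lit 75, nat_lit 19480203393), (nat_lit 32, nat_lit 19463426241), (nat_lit 23, nat_lit 19446649089), (nat_lit 32, nat_lit 20537168001), (nat_lit 102, nat_lit 20520390849), (nat_lit 25, nat_lit 21594132609)]⟩,
   ⟨V6_15151677633, [(nat_lit 65, nat_lit 16275755265), (nat_lit 71, nat_lit 17349497025), (nat_lit 30, nat_lit 17349492993), (nat_lit 97, nat_lit 17332719873), (nat_lit 73, nat_lit 18423234753), (nat_lit 118, nat_lit 18406461633), (nat_lit 86, nat_lit 18406457601), (nat_lit 97, nat_lit 18389684481), (nat_lit 9, nat_lit 19480199361), (nat_lit 9, nat_lit 19463426241), (nat_lit 5, nat_lit 19463422209), (nat_lit 53, nat_lit 19446649089), (nat_lit 125, nat_lit 20537163969), (nat_lit 56, nat_lit 20520390849), (nat_lit 64, nat_lit 20520386817), (nat_lit 67, nat_lit 21594128577)]⟩,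
   ⟨V6_14077939905, [(nat_lit 116, nat_lit 16275755265), (nat_lit 43, nat_lit 17349497025), (nat_lit 27, nat_lit 17332719873), (nat_lit 35, nat_lit 18406461633), (nat_lit 110, nat_lit 18389684481), (nat_lit 102, nat_lit 19463426241), (nat_lit 91, nat_lit 19446649089), (nat_lit 30, nat_lit 20520390849)]⟩],
  [W_15201747008, W_15185231936, W_13054529600, W_13054525568, W_11980787840, W_11980783808, W_10907042048]⟩
theorem C_16275755265 : chkRec R_16275755265 = true := by decide +kernel

noncomputable def R_16275755328 : Rec := ⟨nat_lit 16275755328, nat_lit 19,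
  [⟨V6_16275492864, [(nat_lit 97, nat_lit 16275755328), (nat_lit 105, nat_lit 17349497088), (nat_lit 96, nat_lit 17349235008), (nat_lit 33, nat_lit 18423238848), (nat_lit 48, nat_lit 18422976768), (nat_lit 4, nat_lit 19496980608), (nat_lit 52, nat_lit 19496718528), (nat_lit 77, nat_lit 20570722368), (nat_lit 116, nat_lit 20570460288), (nat_lit 25, nat_lit 21644464128), (nat_lit 102, nat_lit 21644202048), (nat_lit 51, nat_lit 22717943808)]⟩],
  [W_16275230720, W_16225423424, W_15184973888, W_13020713216, W_11964010688, W_11963748608, W_11947233536]⟩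
theorem C_16275755328 : chkRec R_16275755328 = true := by decide +kernel

noncomputable def R_16275759234 : Rec := ⟨nat_lit 16275759234, nat_lit 19,
  [⟨V6_16225165440, [(nat_lit 24, nat_lit 16275759234), (nat_lit 37, nat_lit 17349501057), (nat_lit 74, nat_lit 17349238914), (nat_lit 37, nat_lit 17332723842), (nat_lit 39, nat_lit 18423242880), (nat_lit 87, nat_lit 18422980737), (nat_lit 53, nat_lit 18406465665), (nat_lit 85, nat_lit 18406203522), (nat_lit 101, nat_lit 18389688450), (nat_lit 62, nat_lit 19496722560), (nat_lit 44, nat_lit 19480207488), (nat_lit 43, nat_lit 19479945345), (nat_lit 99, nat_lit 19463430273), (nat_lit 107, nat_lit 19463168130), (nat_lit 107, nat_lit 19446653058), (nat_lit 77, nat_lit 20553687168), (nat_lit 40, nat_lit 20537172096), (nat_lit 2, nat_lit 20536909953), (nat_lit 116, nat_lit 20520394881), (nat_lit 113, nat_lit 20520132738), (nat_lit 47, nat_lit 21610651776), (nat_lit 99, nat_lit 21594136704), (nat_lit 122, nat_lit 21593874561), (nat_lit 117, nat_lit 22667616384)]⟩,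
   ⟨V6_15151685760, [(nat_lit 125, nat_lit 16275759234), (nat_lit 123, nat_lit 17349501057), (nat_lit 5, nat_lit 17332723842), (nat_lit 60, nat_lit 18423242880), (nat_lit 90, nat_lit 18406465665), (nat_lit 10, nat_lit 18389688450), (nat_lit 107, nat_lit 19480207488), (nat_lit 118, nat_lit 19463430273), (nat_lit 11, nat_lit 19446653058), (nat_lit 18, nat_lit 20537172096), (nat_lit 117, nat_lit 20520394881), (nat_lit 126, nat_lit 21594136704)]⟩],
  [W_15202001024, W_14128263296, W_13054525568, W_13054267520, W_10907050112]⟩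
theorem C_16275759234 : chkRec R_16275759234 = true := by decide +kernel

noncomputable def R_16275759297 : Rec := ⟨nat_lit 16275759297, nat_lit 49,
  [⟨V6_16225427520, [(nat_lit 2, nat_lit 16275759297), (nat_lit 120, nat_lit 17349501120), (nat_lit 120, nat_lit 17349501057), (nat_lit 93, nat_lit 17332723905), (nat_lit 99, nat_lit 18423242880), (nat_lit 19, nat_lit 18423242817), (nat_lit 125, nat_lit 18406465728), (nat_lit 83, nat_lit 18406465665), (nat_lit 122, nat_lit 18389688513), (nat_lit 59, nat_lit 19496984640), (nat_lit 83, nat_lit 19480207488), (nat_lit 92, nat_lit 19480207425), (nat_lit 87, nat_lit 19463430336), (nat_lit 28, nat_lit 19463430273), (nat_lit 11, nat_lit 19446653121), (nat_lit 38, nat_lit 20553949248), (nat_lit 125, nat_lit 20537172096), (nat_lit 59, nat_lit 20537172033), (nat_lit 21, nat_lit 20520394944), (nat_lit 87, nat_lit 20520394881), (nat_lit 73, nat_lit 21610913856), (nat_lit 18, nat_lit 21594136704), (nat_lit 53, nat_lit 21594136641), (nat_lit 19, nat_lit 22667878464)]⟩,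
   ⟨V6_16225419456, [(nat_lit 92, nat_lit 16275759297), (nat_lit 72, nat_lit 17349501120), (nat_lit 76, nat_lit 17349497025), (nat_lit 12, nat_lit 17332723905), (nat_lit 69, nat_lit 18423238848), (nat_lit 43, nat_lit 18423234753), (nat_lit 41, nat_lit 18406465728), (nat_lit 120, nat_lit 18406461633), (nat_lit 19, nat_lit 18389688513), (nat_lit 90, nat_lit 19496976576), (nat_lit 64, nat_lit 19480203456), (nat_lit 15, nat_lit 19480199361), (nat_lit 108, nat_lit 19463430336), (nat_lit 18, nat_lit 19463426241), (nat_lit 87, nat_lit 19446653121), (nat_lit 30, nat_lit 20553941184), (nat_lit 61, nat_lit 20537168064), (nat_lit 64, nat_lit 20537163969), (nat_lit 125, nat_lit 20520394944), (nat_lit 120, nat_lit 20520390849), (nat_lit 9, nat_lit 21610905792), (nat_lit 22, nat_lit 21594132672), (nat_lit 7, nat_lit 21594128577), (nat_lit 108, nat_lit 22667870400)]⟩,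
   ⟨V6_16225415361, [(nat_lit 53, nat_lit 16275759297), (nat_lit 122, nat_lit 17349497025), (nat_lit 104, nat_lit 17332723905), (nat_lit 83, nat_lit 18423234753), (nat_lit 95, nat_lit 18406461633), (nat_lit 83, nat_lit 18389688513), (nat_lit 65, nat_lit 19496972481), (nat_lit 102, nat_lit 19480199361), (nat_lit 89, nat_lit 19463426241), (nat_lit 4, nat_lit 19446653121), (nat_lit 41, nat_lit 20553937089), (nat_lit 101, nat_lit 20537163969), (nat_lit 16, nat_lit 20520390849), (nat_lit 92, nat_lit 21610901697), (nat_lit 27, nat_lit 21594128577), (nat_lit 96, nat_lit 22667866305)]⟩,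
   ⟨V6_16225165377, [(nat_lit 6, nat_lit 16275759297), (nat_lit 98, nat_lit 17349501057), (nat_lit 79, nat_lit 17349238977), (nat_lit 122, nat_lit 17332723905), (nat_lit 102, nat_lit 18423242817), (nat_lit 108, nat_lit 18422980737), (nat_lit 80, nat_lit 18406465665), (nat_lit 85, nat_lit 18406203585), (nat_lit 33, nat_lit 18389688513), (nat_lit 83, nat_lit 19496722497), (nat_lit 71, nat_lit 19480207425), (nat_lit 107, nat_lit 19479945345), (nat_lit 75, nat_lit 19463430273), (nat_lit 115, nat_lit 19463168193), (nat_lit 24, nat_lit 19446653121), (nat_lit 9, nat_lit 20553687105), (nat_lit 124, nat_lit 20537172033), (nat_lit 94, nat_lit 20536909953), (nat_lit 84, nat_lit 20520394881), (nat_lit 23, nat_lit 20520132801), (nat_lit 15, nat_lit 21610651713), (nat_lit 38, nat_lit 21594136641), (nat_lit 32, nat_lit 21593874561), (nat_lit 43, nat_lit 22667616321)]⟩,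
   ⟨V6_15151685697, [(nat_lit 4, nat_lit 16275759297), (nat_lit 10, nat_lit 17349501057), (nat_lit 26, nat_lit 17332723905), (nat_lit 84, nat_lit 18423242817), (nat_lit 40, nat_lit 18406465665), (nat_lit 82, nat_lit 18389688513), (nat_lit 34, nat_lit 19480207425), (nat_lit 74, nat_lit 19463430273), (nat_lit 4, nat_lit 19446653121), (nat_lit 111, nat_lit 20537172033), (nat_lit 111, nat_lit 20520394881), (nat_lit 90, nat_lit 21594136641)]⟩,
   ⟨V6_15151681728, [(nat_lit 117, nat_lit 16275759297), (nat_lit 112, nat_lit 17349501120), (nat_lit 16, nat_lit 17349497025), (nat_lit 66, nat_lit 17332723905), (nat_lit 88, nat_lit 18423238848), (nat_lit 120, nat_lit 18406465728), (nat_lit 112, nat_lit 18406461633), (nat_lit 69, nat_lit 18389688513), (nat_lit 27, nat_lit 19480203456), (nat_lit 90, nat_lit 19463430336), (nat_lit 45, nat_lit 19463426241), (nat_lit 118, nat_lit 19446653121), (nat_lit 33, nat_lit 20537168064), (nat_lit 42, nat_lit 20520394944), (nat_lit 60, nat_lit 20520390849), (nat_lit 74, nat_lit 21594132672)]⟩],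
  [W_16242196544, W_15201747008, W_15185231936, W_13054529600, W_13054525568, W_13054267520, W_11980791872, W_11980787840, W_11980783808, W_10907050112]⟩
theorem C_16275759297 : chkRec R_16275759297 = true := by decide +kernel

noncomputable def R_16275759360 : Rec := ⟨nat_lit 16275759360, nat_lit 62,
  [⟨V6_16258719744, [(nat_lit 17, nat_lit 16275759360), (nat_lit 124, nat_lit 17349501120), (nat_lit 8, nat_lit 17349239040), (nat_lit 13, nat_lit 17332723968), (nat_lit 48, nat_lit 18423242880), (nat_lit 6, nat_lit 18422980800), (nat_lit 3, nat_lit 18406465728), (nat_lit 13, nat_lit 18406203648), (nat_lit 104, nat_lit 19496984640), (nat_lit 21, nat_lit 19496722560), (nat_lit 117, nat_lit 19480207488), (nat_lit 19, nat_lit 19479945408), (nat_lit 78, nat_lit 20570726400), (nat_lit 61, nat_lit 20570464320), (nat_lit 54, nat_lit 20553949248), (nat_lit 80, nat_lit 20553687168), (nat_lit 113, nat_lit 21644206080), (nat_lit 47, nat_lit 21627691008), (nat_lit 67, nat_lit 21627428928), (nat_lit 24, nat_lit 22701170688)]⟩,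
   ⟨V6_16242204672, [(nat_lit 17, nat_lit 16275759360), (nat_lit 88, nat_lit 17349501120), (nat_lit 97, nat_lit 17332723968), (nat_lit 56, nat_lit 18423242880), (nat_lit 37, nat_lit 18406465728), (nat_lit 107, nat_lit 18389688576), (nat_lit 102, nat_lit 19496984640), (nat_lit 66, nat_lit 19480207488), (nat_lit 60, nat_lit 19463430336), (nat_lit 30, nat_lit 20570726400), (nat_lit 116, nat_lit 20553949248), (nat_lit 38, nat_lit 20537172096), (nat_lit 68, nat_lit 21627691008), (nat_lit 71, nat_lit 21610913856), (nat_lit 112, nat_lit 22684655616)]⟩,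
   ⟨V6_15201755136, [(nat_lit 43, nat_lit 16275759360), (nat_lit 32, nat_lit 17349501120), (nat_lit 96, nat_lit 17349239040), (nat_lit 17, nat_lit 18423242880), (nat_lit 101, nat_lit 18422980800), (nat_lit 72, nat_lit 19496984640), (nat_lit 101, nat_lit 19496722560), (nat_lit 21, nat_lit 20570726400), (nat_lit 37, nat_lit 20570464320), (nat_lit 58, nat_lit 21644206080)]⟩],
  [W_15202009088, W_15201747008, W_15185231936, W_15184969856, W_14128267328, W_13054267520, W_13020971264, W_11980783808, W_10907042048, W_10906788032]⟩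
theorem C_16275759360 : chkRec R_16275759360 = true := by decide +kernel

noncomputable def R_16275763329 : Rec := ⟨nat_lit 16275763329, nat_lit 21,
  [⟨V6_16225423425, [(nat_lit 64, nat_lit 16275763329), (nat_lit 25, nat_lit 17349505089), (nat_lit 92, nat_lit 17349501057), (nat_lit 65, nat_lit 17332727937), (nat_lit 105, nat_lit 18423242817), (nat_lit 39, nat_lit 18423238785), (nat_lit 28, nat_lit 18406469697), (nat_lit 97, nat_lit 18406465665), (nat_lit 53, nat_lit 18389692545), (nat_lit 21, nat_lit 19496980545), (nat_lit 59, nat_lit 19480207425), (nat_lit 80, nat_lit 19480203393), (nat_lit 65, nat_lit 19463434305), (nat_lit 97, nat_lit 19463430273), (nat_lit 69, nat_lit 19446657153), (nat_lit 76, nat_lit 20553945153), (nat_lit 7, nat_lit 20537172033), (nat_lit 41, nat_lit 20537168001), (nat_lit 105, nat_lit 20520398913), (nat_lit 122, nat_lit 20520394881), (nat_lit 65, nat_lit 21610909761), (nat_lit 75, nat_lit 21594136641), (nat_lit 123, nat_lit 21594132609), (nat_lit 126, nat_lit 22667874369)]⟩,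
   ⟨V6_15151685697, [(nat_lit 17, nat_lit 16275763329), (nat_lit 111, nat_lit 17349505089), (nat_lit 71, nat_lit 17349501057), (nat_lit 109, nat_lit 17332727937), (nat_lit 108, nat_lit 18423242817), (nat_lit 38, nat_lit 18406469697), (nat_lit 2, nat_lit 18406465665), (nat_lit 90, nat_lit 18389692545), (nat_lit 90, nat_lit 19480207425), (nat_lit 98, nat_lit 19463434305), (nat_lit 74, nat_lit 19463430273), (nat_lit 94, nat_lit 19446657153), (nat_lit 27, nat_lit 20537172033), (nat_lit 103, nat_lit 20520398913), (nat_lit 106, nat_lit 20520394881), (nat_lit 12, nat_lit 21594136641)]⟩,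
   ⟨V6_15151681665, [(nat_lit 31, nat_lit 16275763329), (nat_lit 64, nat_lit 17349501057), (nat_lit 34, nat_lit 17332727937), (nat_lit 6, nat_lit 18423238785), (nat_lit 54, nat_lit 18406465665), (nat_lit 57, nat_lit 18389692545), (nat_lit 17, nat_lit 19480203393), (nat_lit 113, nat_lit 19463430273), (nat_lit 13, nat_lit 19446657153), (nat_lit 74, nat_lit 20537168001), (nat_lit 95, nat_lit 20520394881), (nat_lit 51, nat_lit 21594132609)]⟩,
   ⟨V6_14094725184, [(nat_lit 58, nat_lit 16275763329), (nat_lit 91, nat_lit 17349505152), (nat_lit 85, nat_lit 17349505089), (nat_lit 66, nat_lit 17332727937), (nat_lit 26, nat_lit 18423246912), (nat_lit 108, nat_lit 18406469760), (nat_lit 51, nat_lit 18406469697), (nat_lit 29, nat_lit 18389692545), (nat_lit 42, nat_lit 19480211520), (nat_lit 23, nat_lit 19463434368), (nat_lit 28, nat_lit 19463434305), (nat_lit 88, nat_lit 20537176128)]⟩],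
  [W_15202001024, W_15185231936, W_14128263296, W_11964018752, W_10907050112]⟩
theorem C_16275763329 : chkRec R_16275763329 = true := by decide +kernel

noncomputable def R_16275763392 : Rec := ⟨nat_lit 16275763392, nat_lit 36,
  [⟨V6_16225431552, [(nat_lit 54, nat_lit 16275763392), (nat_lit 89, nat_lit 17349505152), (nat_lit 88, nat_lit 17332728000), (nat_lit 71, nat_lit 18423246912), (nat_lit 31, nat_lit 18406469760), (nat_lit 109, nat_lit 18389692608), (nat_lit 40, nat_lit 19496988672), (nat_lit 106, nat_lit 19480211520), (nat_lit 88, nat_lit 19463434368), (nat_lit 92, nat_lit 19446657216), (nat_lit 8, nat_lit 20553953280), (nat_lit 90, nat_lit 20537176128), (nat_lit 97, nat_lit 20520398976), (nat_lit 38, nat_lit 21610917888), (nat_lit 53, nat_lit 21594140736), (nat_lit 37, nat_lit 22667882496)]⟩,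
   ⟨V6_16225419456, [(nat_lit 92, nat_lit 16275763392), (nat_lit 102, nat_lit 17349501120), (nat_lit 17, nat_lit 17332728000), (nat_lit 119, nat_lit 18423238848), (nat_lit 89, nat_lit 18406465728), (nat_lit 97, nat_lit 18389692608), (nat_lit 112, nat_lit 19496976576), (nat_lit 56, nat_lit 19480203456), (nat_lit 79, nat_lit 19463430336), (nat_lit 46, nat_lit 19446657216), (nat_lit 4, nat_lit 20553941184), (nat_lit 67, nat_lit 20537168064), (nat_lit 32, nat_lit 20520394944), (nat_lit 120, nat_lit 21610905792), (nat_lit 85, nat_lit 21594132672), (nat_lit 24, nat_lit 22667870400)]⟩,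
   ⟨V6_15151681728, [(nat_lit 16, nat_lit 16275763392), (nat_lit 74, nat_lit 17349501120), (nat_lit 79, nat_lit 17332728000), (nat_lit 126, nat_lit 18423238848), (nat_lit 118, nat_lit 18406465728), (nat_lit 54, nat_lit 18389692608), (nat_lit 103, nat_lit 19480203456), (nat_lit 87, nat_lit 19463430336), (nat_lit 19, nat_lit 19446657216), (nat_lit 30, nat_lit 20537168064), (nat_lit 90, nat_lit 20520394944), (nat_lit 55, nat_lit 21594132672)]⟩,
   ⟨V6_14077944000, [(nat_lit 88, nat_lit 16275763392), (nat_lit 126, nat_lit 17349501120), (nat_lit 102, nat_lit 17332728000), (nat_lit 111, nat_lit 18406465728), (nat_lit 87, nat_lit 18389692608), (nat_lit 98, nat_lit 19463430336), (nat_lit 73, nat_lit 19446657216), (nat_lit 52, nat_lit 20520394944)]⟩,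
   ⟨V6_13054537728, [(nat_lit 73, nat_lit 16275763392), (nat_lit 94, nat_lit 17349505152), (nat_lit 68, nat_lit 18423246912), (nat_lit 69, nat_lit 19496988672)]⟩],
  [W_15202009088, W_15185231936, W_15168462848, W_14128263296]⟩
theorem C_16275763392 : chkRec R_16275763392 = true := by decide +kernel

noncomputable def R_16276009155 : Rec := ⟨nat_lit 16276009155, nat_lit 2,
  [⟨V6_13037482179, [(nat_lit 105, nat_lit 16276009155), (nat_lit 43, nat_lit 17349488835), (nat_lit 52, nat_lit 17332973763), (nat_lit 72, nat_lit 18422968515), (nat_lit 4, nat_lit 18406453443), (nat_lit 29, nat_lit 19479933123)]⟩,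
   ⟨V6_10907037891, [(nat_lit 99, nat_lit 16276009155), (nat_lit 62, nat_lit 17349488835)]⟩],
  [W_16274960576, W_15168450752]⟩
theorem C_16276009155 : chkRec R_16276009155 = true := by decide +kernel

noncomputable def R_16276013250 : Rec := ⟨nat_lit 16276013250, nat_lit 25,
  [⟨V6_16274964672, [(nat_lit 75, nat_lit 16276013250), (nat_lit 28, nat_lit 17349755073), (nat_lit 51, nat_lit 17349492930), (nat_lit 86, nat_lit 18423496896), (nat_lit 81, nat_lit 18423234753), (nat_lit 118, nat_lit 18422972610), (nat_lit 121, nat_lit 19496976576), (nat_lit 89, nat_lit 19496714433), (nat_lit 125, nat_lit 19496452290), (nat_lit 60, nat_lit 20570456256), (nat_lit 49, nat_lit 20570194113), (nat_lit 69, nat_lit 20569931970), (nat_lit 64, nat_lit 21643935936), (nat_lit 90, nat_lit 21643673793), (nat_lit 120, nat_lit 22717415616)]⟩,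
   ⟨V6_16274960577, [(nat_lit 92, nat_lit 16276013250), (nat_lit 84, nat_lit 17349755073), (nat_lit 114, nat_lit 17349750978), (nat_lit 41, nat_lit 17349492930), (nat_lit 79, nat_lit 18423492801), (nat_lit 115, nat_lit 18423234753), (nat_lit 65, nat_lit 18423230658), (nat_lit 4, nat_lit 18422972610), (nat_lit 116, nat_lit 19496972481), (nat_lit 91, nat_lit 19496714433), (nat_lit 46, nat_lit 19496710338), (nat_lit 46, nat_lit 19496452290), (nat_lit 41, nat_lit 20570452161), (nat_lit 6, nat_lit 20570194113), (nat_lit 103, nat_lit 20570190018), (nat_lit 84, nat_lit 20569931970), (nat_lit 32, nat_lit 21643931841), (nat_lit 19, nat_lit 21643673793), (nat_lit 52, nat_lit 21643669698), (nat_lit 121, nat_lit 22717411521)]⟩,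
   ⟨V6_16241668290, [(nat_lit 29, nat_lit 16276013250), (nat_lit 63, nat_lit 17349750978), (nat_lit 116, nat_lit 17349492930), (nat_lit 124, nat_lit 17332977858), (nat_lit 72, nat_lit 18423230658), (nat_lit 38, nat_lit 18422972610), (nat_lit 116, nat_lit 18406715586), (nat_lit 50, nat_lit 18406457538), (nat_lit 99, nat_lit 18389942466), (nat_lit 118, nat_lit 19496710338), (nat_lit 2, nat_lit 19496452290), (nat_lit 4, nat_lit 19480195266), (nat_lit 89, nat_lit 19479937218), (nat_lit 61, nat_lit 19463680194), (nat_lit 86, nat_lit 19463422146), (nat_lit 12, nat_lit 20570190018), (nat_lit 118, nat_lit 20553674946), (nat_lit 72, nat_lit 20553416898), (nat_lit 32, nat_lit 20537159874), (nat_lit 103, nat_lit 20536901826), (nat_lit 76, nat_lit 21627154626), (nat_lit 46, nat_lit 21610639554), (nat_lit 110, nat_lit 21610381506), (nat_lit 120, nat_lit 22684119234)]⟩,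
   ⟨V6_15201218754, [(nat_lit 36, nat_lit 16276013250), (nat_lit 9, nat_lit 17349750978), (nat_lit 4, nat_lit 17349492930), (nat_lit 91, nat_lit 18423230658), (nat_lit 92, nat_lit 18422972610), (nat_lit 82, nat_lit 19496710338), (nat_lit 120, nat_lit 19496452290), (nat_lit 101, nat_lit 20570190018), (nat_lit 1, nat_lit 20569931970), (nat_lit 11, nat_lit 21643669698)]⟩],
  [W_15168712832, W_14111748224, W_14111486144, W_14094975104, W_13054783616, W_13021233344, W_11981045888, W_11981041856, W_11980783808, W_11964268736, W_10907304128]⟩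
theorem C_16276013250 : chkRec R_16276013250 = true := by decide +kernel

noncomputable def R_16276013313 : Rec := ⟨nat_lit 16276013313, nat_lit 32,
  [⟨V6_16274964672, [(nat_lit 33, nat_lit 16276013313), (nat_lit 84, nat_lit 17349755136), (nat_lit 1, nat_lit 17349755073), (nat_lit 99, nat_lit 17349492993), (nat_lit 92, nat_lit 18423496896), (nat_lit 116, nat_lit 18423234816), (nat_lit 43, nat_lit 18423234753), (nat_lit 74, nat_lit 18422972673), (nat_lit 41, nat_lit 19496976576), (nat_lit 52, nat_lit 19496714496), (nat_lit 9, nat_lit 19496714433), (nat_lit 115, nat_lit 19496452353), (nat_lit 4, nat_lit 20570456256), (nat_lit 5, nat_lit 20570194176), (nat_lit 87, nat_lit 20570194113), (nat_lit 74, nat_lit 20569932033), (nat_lit 46, nat_lit 21643935936), (nat_lit 21, nat_lit 21643673856), (nat_lit 87, nat_lit 21643673793), (nat_lit 84, nat_lit 22717415616)]⟩,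
   ⟨V6_16258187520, [(nat_lit 77, nat_lit 16276013313), (nat_lit 124, nat_lit 17349755136), (nat_lit 5, nat_lit 17349492993), (nat_lit 10, nat_lit 17332977921), (nat_lit 8, nat_lit 18423234816), (nat_lit 104, nat_lit 18422972673), (nat_lit 70, nat_lit 18406719744), (nat_lit 110, nat_lit 18406457601), (nat_lit 11, nat_lit 19496714496), (nat_lit 19, nat_lit 19496452353), (nat_lit 44, nat_lit 19480199424), (nat_lit 36, nat_lit 19479937281), (nat_lit 114, nat_lit 20570194176), (nat_lit 67, nat_lit 20569932033), (nat_lit 73, nat_lit 20553679104), (nat_lit 27, nat_lit 20553416961), (nat_lit 77, nat_lit 21643673856), (nat_lit 104, nat_lit 21627158784), (nat_lit 88, nat_lit 21626896641), (nat_lit 103, nat_lit 22700638464)]⟩,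
   ⟨V6_14127481089, [(nat_lit 61, nat_lit 16276013313), (nat_lit 7, nat_lit 17349492993), (nat_lit 27, nat_lit 18422972673), (nat_lit 50, nat_lit 19496452353), (nat_lit 49, nat_lit 20569932033)]⟩],
  [W_15201747008, W_15168716864, W_14128267328, W_13021233344, W_10907304128, W_10907042048]⟩
theorem C_16276013313 : chkRec R_16276013313 = true := by decide +kernel

noncomputable def R_16276017282 : Rec := ⟨nat_lit 16276017282, nat_lit 26,
  [⟨V6_15202263168, [(nat_lit 71, nat_lit 16276017282), (nat_lit 8, nat_lit 17349759105), (nat_lit 100, nat_lit 17349755010), (nat_lit 49, nat_lit 18423500928), (nat_lit 97, nat_lit 18423496833), (nat_lit 124, nat_lit 18423492738), (nat_lit 65, nat_lit 19497238656), (nat_lit 67, nat_lit 19497234561), (nat_lit 102, nat_lit 19497230466), (nat_lit 19, nat_lit 20570976384), (nat_lit 9, nat_lit 20570972289), (nat_lit 63, nat_lit 21644714112)]⟩],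
  [W_16242450560, W_16242192512, W_16241676416, W_15202001024, W_15185485952, W_15168712832, W_13054267520, W_13021237376]⟩
theorem C_16276017282 : chkRec R_16276017282 = true := by decide +kernel

noncomputable def R_16276017345 : Rec := ⟨nat_lit 16276017345, nat_lit 60,
  [⟨V6_16259231808, [(nat_lit 72, nat_lit 16276017345), (nat_lit 27, nat_lit 17349759168), (nat_lit 19, nat_lit 17349759105), (nat_lit 13, nat_lit 17349755073), (nat_lit 56, nat_lit 17332981953), (nat_lit 10, nat_lit 18423500928), (nat_lit 29, nat_lit 18423500865), (nat_lit 54, nat_lit 18423496896), (nat_lit 113, nat_lit 18423496833), (nat_lit 66, nat_lit 18423492801), (nat_lit 37, nat_lit 18406723776), (nat_lit 46, nat_lit 18406723713), (nat_lit 70, nat_lit 18406719681), (nat_lit 56, nat_lit 19497242688), (nat_lit 86, nat_lit 19497238656), (nat_lit 110, nat_lit 19497238593), (nat_lit 56, nat_lit 19497234624), (nat_lit 42, nat_lit 19497234561), (nat_lit 113, nat_lit 19480465536), (nat_lit 64, nat_lit 19480465473), (nat_lit 102, nat_lit 19480461504), (nat_lit 25, nat_lit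 19480461441), (nat_lit 94, nat_lit 19480457409), (nat_lit 109, nat_lit 20570980416), (nat_lit 17, nat_lit 20570976384), (nat_lit 105, nat_lit 20570976321), (nat_lit 9, nat_lit 20554207296), (nat_lit 75, nat_lit 20554203264), (nat_lit 96, nat_lit 20554203201), (nat_lit 120, nat_lit 20554199232), (nat_lit 75, nat_lit 20554199169), (nat_lit 99, nat_lit 21644718144), (nat_lit 3, nat_lit 21627945024), (nat_lit 28, nat_lit 21627940992), (nat_lit 70, nat_lit 21627940929), (nat_lit 80, nat_lit 22701682752)]⟩,
   ⟨V6_10907308161, [(nat_lit 106, nat_lit 16276017345), (nat_lit 36, nat_lit 17349759105)]⟩],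
  [W_16258453568, W_16242454592, W_16242196544, W_16241676416, W_15201747008, W_15185231936, W_15184973888, W_15168716864, W_14110970048, W_14094454976, W_13021237376, W_13021233344]⟩
theorem C_16276017345 : chkRec R_16276017345 = true := by decide +kernel

noncomputable def R_16276017408 : Rec := ⟨nat_lit 16276017408, nat_lit 71,
  [⟨V6_16275492864, [(nat_lit 62, nat_lit 16276017408), (nat_lit 99, nat_lit 17349759168), (nat_lit 68, nat_lit 17349497088), (nat_lit 88, nat_lit 18423500928), (nat_lit 61, nat_lit 18423238848), (nat_lit 106, nat_lit 18422976768), (nat_lit 29, nat_lit 19497242688), (nat_lit 53, nat_lit 19496980608), (nat_lit 88, nat_lit 19496718528), (nat_lit 125, nat_lit 20570984448), (nat_lit 85, nat_lit 20570722368), (nat_lit 116, nat_lit 20570460288), (nat_lit 103, nat_lit 21644464128), (nat_lit 8, nat_lit 21644202048), (nat_lit 68, nat_lit 22717943808)]⟩,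
   ⟨V6_16242462720, [(nat_lit 73, nat_lit 16276017408), (nat_lit 94, nat_lit 17349759168), (nat_lit 43, nat_lit 17332982016), (nat_lit 106, nat_lit 18423500928), (nat_lit 2, nat_lit 18406723776), (nat_lit 71, nat_lit 18389946624), (nat_lit 57, nat_lit 19497242688), (nat_lit 7, nat_lit 19480465536), (nat_lit 41, nat_lit 19463688384), (nat_lit 84, nat_lit 20570984448), (nat_lit 20, nat_lit 20554207296), (nat_lit 81, nat_lit 20537430144), (nat_lit 38, nat_lit 21627949056), (nat_lit 21, nat_lit 21611171904), (nat_lit 85, nat_lit 22684913664)]⟩],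
  [W_16242458624, W_15202009088, W_15201747008, W_15185494016, W_15185231936, W_13054263488, W_13054001408, W_11980783808, W_11947491584, W_10907304128, W_10907042048, W_10890531008]⟩
theorem C_16276017408 : chkRec R_16276017408 = true := by decide +kernel

noncomputable def R_16276021377 : Rec := ⟨nat_lit 16276021377, nat_lit 66,
  [⟨V6_16276004928, [(nat_lit 120, nat_lit 16276021377), (nat_lit 30, nat_lit 17349763200), (nat_lit 93, nat_lit 17349763137), (nat_lit 12, nat_lit 17349759105), (nat_lit 31, nat_lit 18423504960), (nat_lit 11, nat_lit 18423500928), (nat_lit 97, nat_lit 18423500865), (nat_lit 55, nat_lit 18423496833), (nat_lit 48, nat_lit 19497242688), (nat_lit 70, nat_lit 19497238656), (nat_lit 65, nat_lit 19497238593), (nat_lit 92, nat_lit 19497234561), (nat_lit 118, nat_lit 20570980416), (nat_lit 45, nat_lit 20570976384), (nat_lit 105, nat_lit 20570976321), (nat_lit 32, nat_lit 20570972289), (nat_lit 74, nat_lit 21644718144), (nat_lit 94, nat_lit 21644714112), (nat_lit 126, nat_lit 21644714049), (nat_lit 49, nat_lit 22718455872)]⟩,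
   ⟨V6_10907312256, [(nat_lit 41, nat_lit 16276021377), (nat_lit 111, nat_lit 17349763200)]⟩],
  [W_16242450560, W_16242196544, W_15201747008, W_15185231936, W_15168716864, W_15168200768, W_14111236160, W_14094979136, W_14094721088, W_14094459008, W_13037494400, W_13021237376, W_13020979328]⟩
theorem C_16276021377 : chkRec R_16276021377 = true := by decide +kernel

noncomputable def R_16276021440 : Rec := ⟨nat_lit 16276021440, nat_lit 108,
  [⟨V6_16276008960, [(nat_lit 20, nat_lit 16276021440), (nat_lit 83, nat_lit 17349763200), (nat_lit 118, nat_lit 17349759168), (nat_lit 90, nat_lit 18423504960), (nat_lit 77, nat_lit 18423500928), (nat_lit 53, nat_lit 18423496896), (nat_lit 66, nat_lit 19497246720), (nat_lit 82, nat_lit 19497242688), (nat_lit 109, nat_lit 19497238656), (nat_lit 114, nat_lit 19497234624), (nat_lit 35, nat_lit 20570984448), (nat_lit 64, nat_lit 20570980416), (nat_lit 61, nat_lit 20570976384), (nat_lit 14, nat_lit 21644722176), (nat_lit 10, nat_lit 21644718144), (nat_lit 87, nat_lit 22718459904)]⟩,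
   ⟨V6_16258719744, [(nat_lit 44, nat_lit 16276021440), (nat_lit 45, nat_lit 17349763200), (nat_lit 106, nat_lit 17349501120), (nat_lit 9, nat_lit 17332986048), (nat_lit 124, nat_lit 18423504960), (nat_lit 80, nat_lit 18423242880), (nat_lit 93, nat_lit 18422980800), (nat_lit 3, nat_lit 18406727808), (nat_lit 28, nat_lit 18406465728), (nat_lit 82, nat_lit 19497246720), (nat_lit 90, nat_lit 19496984640), (nat_lit 14, nat_lit 19496722560), (nat_lit 47, nat_lit 19480469568), (nat_lit 6, nat_lit 19480207488), (nat_lit 54, nat_lit 19479945408), (nat_lit 81, nat_lit 20570726400), (nat_lit 26, nat_lit 20570464320), (nat_lit 122, nat_lit 20554211328), (nat_lit 33, nat_lit 20553949248), (nat_lit 57, nat_lit 20553687168), (nat_lit 2, nat_lit 21644206080), (nat_lit 26, nat_lit 21627691008), (nat_lit 70, nat_lit 21627428928), (nat_lit 68, nat_lit 22701170688)]⟩,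
   ⟨V6_15168724992, [(nat_lit 101, nat_lit 16276021440), (nat_lit 70, nat_lit 17349763200), (nat_lit 12, nat_lit 17332986048), (nat_lit 53, nat_lit 18423504960), (nat_lit 47, nat_lit 18406727808), (nat_lit 121, nat_lit 18389950656), (nat_lit 109, nat_lit 19497246720), (nat_lit 101, nat_lit 19480469568), (nat_lit 104, nat_lit 19463692416), (nat_lit 125, nat_lit 20554211328), (nat_lit 97, nat_lit 20537434176), (nat_lit 5, nat_lit 21611175936)]⟩],
  [W_16242458624, W_16242196544, W_15202009088, W_15201747008, W_15185494016, W_15185489984, W_15185231936, W_15184969856, W_15168720896, W_15168716864, W_14128013312, W_14094983168]⟩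
theorem C_16276021440 : chkRec R_16276021440 = true := by decide +kernel

noncomputable def R_16276025409 : Rec := ⟨nat_lit 16276025409, nat_lit 28,
  [⟨V6_16276004928, [(nat_lit 107, nat_lit 16276025409), (nat_lit 23, nat_lit 17349767232), (nat_lit 119, nat_lit 17349763137), (nat_lit 67, nat_lit 18423504960), (nat_lit 42, nat_lit 18423500865), (nat_lit 12, nat_lit 19497242688), (nat_lit 18, nat_lit 19497238593), (nat_lit 110, nat_lit 20570980416), (nat_lit 122, nat_lit 20570976321), (nat_lit 84, nat_lit 21644718144), (nat_lit 23, nat_lit 21644714049), (nat_lit 106, nat_lit 22718455872)]⟩],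
  [W_16242454592, W_16242196544, W_15168716864, W_14094721088, W_13021241408, W_11980791872, W_11964018752]⟩
theorem C_16276025409 : chkRec R_16276025409 = true := by decide +kernel

noncomputable def R_16276025472 : Rec := ⟨nat_lit 16276025472, nat_lit 80,
  [⟨V6_16276004928, [(nat_lit 19, nat_lit 16276025472), (nat_lit 17, nat_lit 17349767232), (nat_lit 6, nat_lit 17349763200), (nat_lit 97, nat_lit 18423504960), (nat_lit 59, nat_lit 18423500928), (nat_lit 79, nat_lit 19497242688), (nat_lit 88, nat_lit 19497238656), (nat_lit 5, nat_lit 20570980416), (nat_lit 92, nat_lit 20570976384), (nat_lit 60, nat_lit 21644718144), (nat_lit 117, nat_lit 21644714112), (nat_lit 41, nat_lit 22718455872)]⟩,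
   ⟨V6_11981058048, [(nat_lit 16, nat_lit 16276025472), (nat_lit 118, nat_lit 17349767232), (nat_lit 10, nat_lit 18423508992)]⟩,
   ⟨V6_10907312256, [(nat_lit 108, nat_lit 16276025472), (nat_lit 73, nat_lit 17349763200)]⟩],
  [W_16242458624, W_16242450560, W_16242196544, W_15202009088, W_15185494016, W_15168720896, W_15168716864, W_15168462848, W_14094983168, W_14094725120, W_14094721088, W_13021245440, W_10907316224]⟩
theorem C_16276025472 : chkRec R_16276025472 = true := by decide +kernel

noncomputable def R_16276029504 : Rec := ⟨nat_lit 16276029504, nat_lit 37,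
  [⟨V6_16276004928, [(nat_lit 58, nat_lit 16276029504), (nat_lit 30, nat_lit 17349767232), (nat_lit 90, nat_lit 18423504960), (nat_lit 26, nat_lit 19497242688), (nat_lit 59, nat_lit 20570980416), (nat_lit 22, nat_lit 21644718144), (nat_lit 68, nat_lit 22718455872)]⟩,
   ⟨V6_10907316288, [(nat_lit 75, nat_lit 16276029504), (nat_lit 116, nat_lit 17349767232)]⟩],
  [W_16242458624, W_15185494016, W_15168720896, W_14094983168, W_13021245440, W_11964280832, W_10907316224]⟩
theorem C_16276029504 : chkRec R_16276029504 = true := by decide +kernel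

noncomputable def R_16276271298 : Rec := ⟨nat_lit 16276271298, nat_lit 9,
  [⟨V6_13038268608, [(nat_lit 41, nat_lit 16276271298), (nat_lit 71, nat_lit 17350013121), (nat_lit 43, nat_lit 17333235906), (nat_lit 7, nat_lit 18423754944), (nat_lit 125, nat_lit 18406977729), (nat_lit 8, nat_lit 19480719552)]⟩],
  [W_16258707584, W_16258445504]⟩
theorem C_16276271298 : chkRec R_16276271298 = true := by decide +kernel

noncomputable def R_16276275330 : Rec := ⟨nat_lit 16276275330, nat_lit 18,
  [⟨V6_15185748096, [(nat_lit 25, nat_lit 16276275330), (nat_lit 87, nat_lit 17350017153), (nat_lit 86, nat_lit 17350013058), (nat_lit 11, nat_lit 17333239938), (nat_lit 51, nat_lit 18423758976), (nat_lit 114, nat_lit 18423754881), (nat_lit 123, nat_lit 18423750786), (nat_lit 121, nat_lit 18406981761), (nat_lit 79, nat_lit 18406977666), (nat_lit 51, nat_lit 19497496704), (nat_lit 28, nat_lit 19497492609), (nat_lit 67, nat_lit 19480723584), (nat_lit 21, nat_lit 19480719489), (nat_lit 95, nat_lit 19480715394), (nat_lit 45, nat_lit 20571234432), (nat_lit 60,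 nat_lit 20554461312), (nat_lit 111, nat_lit 20554457217), (nat_lit 48, nat_lit 21628199040)]⟩,
   ⟨V6_14112006273, [(nat_lit 101, nat_lit 16276275330), (nat_lit 39, nat_lit 17350017153), (nat_lit 109, nat_lit 17350013058), (nat_lit 5, nat_lit 17333239938), (nat_lit 105, nat_lit 18423754881), (nat_lit 51, nat_lit 18423750786), (nat_lit 123, nat_lit 18406981761), (nat_lit 104, nat_lit 18406977666), (nat_lit 86, nat_lit 19497492609), (nat_lit 1, nat_lit 19480719489), (nat_lit 89, nat_lit 19480715394), (nat_lit 6, nat_lit 20554457217)]⟩,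
   ⟨V6_14111744130, [(nat_lit 65, nat_lit 16276275330), (nat_lit 30, nat_lit 17350013058), (nat_lit 84, nat_lit 17349755010), (nat_lit 12, nat_lit 17333239938), (nat_lit 27, nat_lit 18423750786), (nat_lit 77, nat_lit 18423492738), (nat_lit 14, nat_lit 18406977666), (nat_lit 7, nat_lit 18406719618), (nat_lit 89, nat_lit 19497230466), (nat_lit 48, nat_lit 19480715394), (nat_lit 110, nat_lit 19480457346), (nat_lit 4, nat_lit 20554195074)]⟩,
   ⟨V6_10907566209, [(nat_lit 22, nat_lit 16276275330), (nat_lit 5, nat_lit 17350017153)]⟩,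
   ⟨V6_10907304066, [(nat_lit 72, nat_lit 16276275330), (nat_lit 103, nat_lit 17349755010)]⟩],
  [W_16274964608, W_15202001024, W_15201484928, W_15185485952]⟩
theorem C_16276275330 : chkRec R_16276275330 = true := by decide +kernel

noncomputable def R_16276275393 : Rec := ⟨nat_lit 16276275393, nat_lit 41,
  [⟨V6_15202267200, [(nat_lit 17, nat_lit 16276275393), (nat_lit 24, nat_lit 17350017216), (nat_lit 46, nat_lit 17350017153), (nat_lit 106, nat_lit 17350013121), (nat_lit 122, nat_lit 17349755073), (nat_lit 88, nat_lit 18423758976), (nat_lit 32, nat_lit 18423758913), (nat_lit 126, nat_lit 18423754944), (nat_lit 111, nat_lit 18423754881), (nat_lit 90, nat_lit 18423496896), (nat_lit 21, nat_lit 18423496833), (nat_lit 96, nat_lit 18423492801), (nat_lit 8, nat_lit 19497500736), (nat_lit 108, nat_lit 19497496704), (nat_lit 120, nat_lit 19497496641), (nat_lit 51, nat_lit 19497238656), (nat_lit 17, nat_lit 19497238593), (nat_lit 105, nat_lit 19497234624), (nat_lit 72, nat_lit 19497234561), (nat_lit 63, nat_lit 20571238464), (nat_lit 49, nat_lit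 20570980416), (nat_lit 37, nat_lit 20570976384), (nat_lit 120, nat_lit 20570976321), (nat_lit 54, nat_lit 21644718144)]⟩],
  [W_15201747008, W_15185489984, W_15185231936, W_14111490176, W_14111486144, W_11964526784, W_11964268736, W_10907566208, W_10907304128]⟩
theorem C_16276275393 : chkRec R_16276275393 = true := by decide +kernel

noncomputable def R_16276275456 : Rec := ⟨nat_lit 16276275456, nat_lit 38,
  [⟨V6_16274964672, [(nat_lit 119, nat_lit 16276275456), (nat_lit 111, nat_lit 17350017216), (nat_lit 87, nat_lit 17349755136), (nat_lit 3, nat_lit 18423496896), (nat_lit 84, nat_lit 18423234816), (nat_lit 24, nat_lit 19496976576), (nat_lit 70, nat_lit 19496714496), (nat_lit 42, nat_lit 20570456256), (nat_lit 116, nat_lit 20570194176), (nat_lit 59, nat_lit 21643935936), (nat_lit 75, nat_lit 21643673856), (nat_lit 54, nat_lit 22717415616)]⟩,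
   ⟨V6_16258187520, [(nat_lit 81, nat_lit 16276275456), (nat_lit 74, nat_lit 17349755136), (nat_lit 11, nat_lit 17333240064), (nat_lit 89, nat_lit 18423234816), (nat_lit 85, nat_lit 18406719744), (nat_lit 49, nat_lit 19496714496), (nat_lit 44, nat_lit 19480199424), (nat_lit 54, nat_lit 20570194176), (nat_lit 95, nat_lit 20553679104), (nat_lit 21, nat_lit 21643673856), (nat_lit 111, nat_lit 21627158784), (nat_lit 19, nat_lit 22700638464)]⟩,
   ⟨V6_15185756160, [(nat_lit 116, nat_lit 16276275456), (nat_lit 6, nat_lit 17350017216), (nat_lit 94, nat_lit 17333240064), (nat_lit 19, nat_lit 18423758976), (nat_lit 123, nat_lit 18406981824), (nat_lit 12, nat_lit 19497500736), (nat_lit 15, nat_lit 19480723584), (nat_lit 46, nat_lit 20571242496), (nat_lit 53, nat_lit 20554465344), (nat_lit 114, nat_lit 21628207104)]⟩],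
  [W_15202009088, W_15201747008, W_15185494016]⟩
theorem C_16276275456 : chkRec R_16276275456 = true := by decide +kernel

noncomputable def R_16276279425 : Rec := ⟨nat_lit 16276279425, nat_lit 52,
  [⟨V6_15202263168, [(nat_lit 85, nat_lit 16276279425), (nat_lit 98, nat_lit 17350021248), (nat_lit 50, nat_lit 17350017153), (nat_lit 27, nat_lit 17349759105), (nat_lit 7, nat_lit 18423758976), (nat_lit 126, nat_lit 18423754881), (nat_lit 73, nat_lit 18423500928), (nat_lit 123, nat_lit 18423496833), (nat_lit 66, nat_lit 19497496704), (nat_lit 40, nat_lit 19497492609), (nat_lit 30, nat_lit 19497238656), (nat_lit 13, nat_lit 19497234561), (nat_lit 105, nat_lit 20571234432), (nat_lit 81, nat_lit 20570976384), (nat_lit 83, nat_lit 20570972289), (nat_lit 28, nat_lit 21644714112)]⟩,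
   ⟨V6_15185748033, [(nat_lit 6, nat_lit 16276279425), (nat_lit 95, nat_lit 17350021185), (nat_lit 69, nat_lit 17350017153), (nat_lit 101, nat_lit 17333244033), (nat_lit 107, nat_lit 18423758913), (nat_lit 53, nat_lit 18423754881), (nat_lit 10, nat_lit 18406985793), (nat_lit 89, nat_lit 18406981761), (nat_lit 118, nat_lit 19497496641), (nat_lit 57, nat_lit 19497492609), (nat_lit 97, nat_lit 19480723521), (nat_lit 66, nat_lit 19480719489), (nat_lit 47, nat_lit 20571234369), (nat_lit 77, nat_lit 20554461249), (nat_lit 1, nat_lit 20554457217), (nat_lit 58, nat_lit 21628198977)]⟩,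
   ⟨V6_14112006273, [(nat_lit 106, nat_lit 16276279425), (nat_lit 115, nat_lit 17350017153), (nat_lit 126, nat_lit 17333244033), (nat_lit 110, nat_lit 18423754881), (nat_lit 10, nat_lit 18406981761), (nat_lit 77, nat_lit 19497492609), (nat_lit 7, nat_lit 19480719489), (nat_lit 61, nat_lit 20554457217)]⟩,
   ⟨V6_10907308161, [(nat_lit 103, nat_lit 16276279425), (nat_lit 8, nat_lit 17349759105)]⟩],
  [W_16258453568, W_15201747008, W_15201488960, W_15185489984, W_15185231936, W_15184973888, W_14128525376, W_14112010304]⟩
theorem C_16276279425 : chkRec R_16276279425 = true := by decide +kernel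

noncomputable def R_16276279488 : Rec := ⟨nat_lit 16276279488, nat_lit 83,
  [⟨V6_16276008960, [(nat_lit 65, nat_lit 16276279488), (nat_lit 66, nat_lit 17350021248), (nat_lit 79, nat_lit 17350017216), (nat_lit 44, nat_lit 17349759168), (nat_lit 104, nat_lit 18423763008), (nat_lit 37, nat_lit 18423758976), (nat_lit 89, nat_lit 18423754944), (nat_lit 96, nat_lit 18423500928), (nat_lit 15, nat_lit 18423496896), (nat_lit 59, nat_lit 19497504768), (nat_lit 45, nat_lit 19497500736), (nat_lit 32, nat_lit 19497496704), (nat_lit 10, nat_lit 19497242688), (nat_lit 83, nat_lit 19497238656), (nat_lit 112, nat_lit 19497234624), (nat_lit 53, nat_lit 20571242496), (nat_lit 109, nat_lit 20571238464), (nat_lit 8, nat_lit 20570984448), (nat_lit 108, nat_lit 20570980416), (nat_lit 101, nat_lit 20570976384), (nat_lit 101, nat_lit 21644980224), (nat_lit 90, nat_lit 21644722176), (nat_lit 92, nat_lit 21644718144), (nat_lit 110, nat_lit 22718459904)]⟩,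
   ⟨V6_13055053824, [(nat_lit 119, nat_lit 16276279488), (nat_lit 108, nat_lit 17350021248), (nat_lit 43, nat_lit 18423763008), (nat_lit 109, nat_lit 19497504768)]⟩],
  [W_16275230720, W_16258453568, W_15202009088, W_15201747008, W_15185494016, W_15185231936, W_15184973888, W_15184969856, W_14111232128, W_14110970048, W_13054263488, W_11980525760, W_11964526784]⟩
theorem C_16276279488 : chkRec R_16276279488 = true := by decide +kernel

noncomputable def R_16276283457 : Rec := ⟨nat_lit 16276283457, nat_lit 36,
  [⟨V6_15185748033, [(nat_lit 55, nat_lit 16276283457), (nat_lit 37, nat_lit 17350021185), (nat_lit 122, nat_lit 17333248065), (nat_lit 94, nat_lit 18423758913), (nat_lit 48, nat_lit 18406985793), (nat_lit 95, nat_lit 19497496641), (nat_lit 73, nat_lit 19480723521), (nat_lit 105, nat_lit 20571234369), (nat_lit 87, nat_lit 20554461249), (nat_lit 119, nat_lit 21628198977)]⟩,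
   ⟨V6_14128013376, [(nat_lit 60, nat_lit 16276283457), (nat_lit 113, nat_lit 17350025280), (nat_lit 100, nat_lit 17349763137), (nat_lit 107, nat_lit 18423504960), (nat_lit 50, nat_lit 18423242817), (nat_lit 72, nat_lit 19496984640), (nat_lit 96, nat_lit 19496722497), (nat_lit 15, nat_lit 20570464320)]⟩],
  [W_16276000832, W_16259485760, W_15202521152, W_15201747008, W_15185489984, W_14112010304]⟩
theorem C_16276283457 : chkRec R_16276283457 = true := by decide +kernel

noncomputable def R_16276283520 : Rec := ⟨nat_lit 16276283520, nat_lit 98,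
  [⟨V6_16276267008, [(nat_lit 54, nat_lit 16276283520), (nat_lit 5, nat_lit 17350025280), (nat_lit 96, nat_lit 17350021248), (nat_lit 46, nat_lit 18423767040), (nat_lit 61, nat_lit 18423763008), (nat_lit 126, nat_lit 18423758976), (nat_lit 9, nat_lit 19497504768), (nat_lit 60, nat_lit 19497500736), (nat_lit 81, nat_lit 19497496704), (nat_lit 29, nat_lit 20571242496), (nat_lit 57, nat_lit 20571238464), (nat_lit 93, nat_lit 20571234432), (nat_lit 26, nat_lit 21644980224), (nat_lit 12, nat_lit 21644976192), (nat_lit 73, nat_lit 22718717952)]⟩,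
   ⟨V6_16258719744, [(nat_lit 59, nat_lit 16276283520), (nat_lit 9, nat_lit 17350025280), (nat_lit 92, nat_lit 17349763200), (nat_lit 65, nat_lit 17333248128), (nat_lit 87, nat_lit 18423767040), (nat_lit 55, nat_lit 18423504960), (nat_lit 58, nat_lit 18423242880), (nat_lit 70, nat_lit 18406989888), (nat_lit 72, nat_lit 18406727808), (nat_lit 109, nat_lit 19497246720), (nat_lit 73, nat_lit 19496984640), (nat_lit 115, nat_lit 19496722560), (nat_lit 121, nat_lit 19480731648), (nat_lit 100, nat_lit 19480469568), (nat_lit 98, nat_lit 19480207488), (nat_lit 3, nat_lit 20570726400), (nat_lit 76, nat_lit 20570464320), (nat_lit 98, nat_lit 20554211328), (nat_lit 5, nat_lit 20553949248), (nat_lit 108, nat_lit 20553687168), (nat_lit 103, nat_lit 21644206080), (nat_lit 61, nat_lit 21627691008), (nat_lit 85, nat_lit 21627428928), (nat_lit 106, nat_lit 22701170688)]⟩,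
   ⟨V6_15201755136, [(nat_lit 94, nat_lit 16276283520), (nat_lit 25, nat_lit 17350025280), (nat_lit 80, nat_lit 17349763200), (nat_lit 54, nat_lit 18423767040), (nat_lit 31, nat_lit 18423504960), (nat_lit 47, nat_lit 18423242880), (nat_lit 33, nat_lit 19497246720), (nat_lit 31, nat_lit 19496984640), (nat_lit 33, nat_lit 19496722560), (nat_lit 35, nat_lit 20570726400), (nat_lit 69, nat_lit 20570464320), (nat_lit 45, nat_lit 21644206080)]⟩],
  [W_15202525184, W_15202009088, W_15202001024, W_15201747008, W_15185494016, W_15185489984, W_15185485952, W_15185231936, W_15184969856, W_14128787456, W_14112010304, W_13055045696]⟩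
theorem C_16276283520 : chkRec R_16276283520 = true := by decide +kernel

noncomputable def R_16276287552 : Rec := ⟨nat_lit 16276287552, nat_lit 63,
  [⟨V6_16276267008, [(nat_lit 81, nat_lit 16276287552), (nat_lit 22, nat_lit 17350029312), (nat_lit 120, nat_lit 17350025280), (nat_lit 27, nat_lit 18423767040), (nat_lit 103, nat_lit 18423763008), (nat_lit 75, nat_lit 19497504768), (nat_lit 34, nat_lit 19497500736), (nat_lit 15, nat_lit 20571242496), (nat_lit 86, nat_lit 20571238464), (nat_lit 33, nat_lit 21644980224), (nat_lit 42, nat_lit 21644976192), (nat_lit 82, nat_lit 22718717952)]⟩,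
   ⟨V6_16276262976, [(nat_lit 75, nat_lit 16276287552), (nat_lit 32, nat_lit 17350025280), (nat_lit 102, nat_lit 18423763008), (nat_lit 37, nat_lit 19497500736), (nat_lit 63, nat_lit 20571238464), (nat_lit 24, nat_lit 21644976192), (nat_lit 56, nat_lit 22718713920)]⟩,
   ⟨V6_10907316288, [(nat_lit 121, nat_lit 16276287552), (nat_lit 2, nat_lit 17349767232)]⟩],
  [W_15202009088, W_15185494016, W_15185489984, W_15185231936, W_14112010304, W_14111494208, W_13037756480, W_11980795904, W_11980791872, W_11964280832, W_10907316224]⟩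
theorem C_16276287552 : chkRec R_16276287552 = true := by decide +kernel

noncomputable def R_16276291584 : Rec := ⟨nat_lit 16276291584, nat_lit 24,
  [⟨V6_13055053824, [(nat_lit 12, nat_lit 16276291584), (nat_lit 81, nat_lit 17350029312), (nat_lit 73, nat_lit 18423767040), (nat_lit 32, nat_lit 19497504768)]⟩,
   ⟨V6_11981058048, [(nat_lit 109, nat_lit 16276291584), (nat_lit 28, nat_lit 17350029312), (nat_lit 12, nat_lit 17349771264), (nat_lit 88, nat_lit 18423508992)]⟩,
   ⟨V6_10907578368, [(nat_lit 9, nat_lit 16276291584), (nat_lit 19, nat_lit 17350029312)]⟩],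
  [W_16276262912, W_16259489792, W_15185494016]⟩
theorem C_16276291584 : chkRec R_16276291584 = true := by decide +kernel

noncomputable def R_16276533378 : Rec := ⟨nat_lit 16276533378, nat_lit 7,
  [⟨V6_15202263168, [(nat_lit 94, nat_lit 16276533378), (nat_lit 79, nat_lit 17350275201), (nat_lit 48, nat_lit 17350271106), (nat_lit 42, nat_lit 17350013058), (nat_lit 77, nat_lit 18424017024), (nat_lit 67, nat_lit 18424012929), (nat_lit 87, nat_lit 18423754881), (nat_lit 38, nat_lit 18423750786), (nat_lit 3, nat_lit 18423492738), (nat_lit 18, nat_lit 19497754752), (nat_lit 6, nat_lit 19497496704), (nat_lit 50, nat_lit 19497492609), (nat_lit 75, nat_lit 19497234561), (nat_lit 16, nat_lit 19497230466), (nat_lit 119, nat_lit 20571234432), (nat_lit 72, nat_lit 20570976384), (nat_lit 69, nat_lit 20570972289), (nat_lit 29, nat_lit 21644714112)]⟩],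
  [W_15202001024, W_11981561984, W_11981303936]⟩
theorem C_16276533378 : chkRec R_16276533378 = true := by decide +kernel

noncomputable def R_16276533441 : Rec := ⟨nat_lit 16276533441, nat_lit 10,
  [⟨V6_14128787520, [(nat_lit 6, nat_lit 16276533441), (nat_lit 63, nat_lit 17350275264), (nat_lit 19, nat_lit 17350275201), (nat_lit 70, nat_lit 17350013121), (nat_lit 26, nat_lit 18424017024), (nat_lit 29, nat_lit 18424016961), (nat_lit 11, nat_lit 18423754944), (nat_lit 26, nat_lit 18423754881), (nat_lit 44, nat_lit 19497758784), (nat_lit 113, nat_lit 19497496704), (nat_lit 118, nat_lit 19497496641), (nat_lit 26, nat_lit 20571238464)]⟩],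
  [W_14128525376, W_14128001216, W_11981041856]⟩
theorem C_16276533441 : chkRec R_16276533441 = true := by decide +kernel

noncomputable def R_16276537473 : Rec := ⟨nat_lit 16276537473, nat_lit 30,
  [⟨V6_15202263168, [(nat_lit 116, nat_lit 16276537473), (nat_lit 24, nat_lit 17350279296), (nat_lit 49, nat_lit 17350275201), (nat_lit 57, nat_lit 17350017153), (nat_lit 108, nat_lit 18424017024), (nat_lit 31, nat_lit 18424012929), (nat_lit 93, nat_lit 18423758976), (nat_lit 85, nat_lit 18423754881), (nat_lit 114, nat_lit 18423496833), (nat_lit 48, nat_lit 19497754752), (nat_lit 74, nat_lit 19497496704), (nat_lit 81, nat_lit 19497492609), (nat_lit 105, nat_lit 19497238656), (nat_lit 66, nat_lit 19497234561), (nat_lit 80, nat_lit 20571234432), (nat_lit 4, nat_lit 20570976384), (nat_lit 5, nat_lit 20570972289), (nat_lit 17, nat_lit 21644714112)]⟩],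
  [W_15201747008, W_14128525376, W_13055303744, W_13055045696, W_11981566016, W_11981561984, W_10907828288, W_10907566208]⟩
theorem C_16276537473 : chkRec R_16276537473 = true := by decide +kernel

noncomputable def R_16276537536 : Rec := ⟨nat_lit 16276537536, nat_lit 44,
  [⟨V6_15202529280, [(nat_lit 79, nat_lit 16276537536), (nat_lit 49, nat_lit 17350279296), (nat_lit 71, nat_lit 17350275264), (nat_lit 73, nat_lit 17350017216), (nat_lit 67, nat_lit 18424021056), (nat_lit 48, nat_lit 18424017024), (nat_lit 83, nat_lit 18423758976), (nat_lit 23, nat_lit 18423754944), (nat_lit 28, nat_lit 19497762816), (nat_lit 22, nat_lit 19497758784), (nat_lit 19, nat_lit 19497500736), (nat_lit 83, nat_lit 19497496704), (nat_lit 120, nat_lit 20571500544), (nat_lit 94, nat_lit 20571242496), (nat_lit 69, nat_lit 20571238464), (nat_lit 62, nat_lit 21644980224)]⟩,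
   ⟨V6_13055311872, [(nat_lit 62, nat_lit 16276537536), (nat_lit 52, nat_lit 17350279296), (nat_lit 16, nat_lit 18424021056), (nat_lit 76, nat_lit 19497762816)]⟩],
  [W_15202009088, W_15201747008, W_14128787456, W_14128001216, W_10907828288, W_10907566208, W_10907304128]⟩
theorem C_16276537536 : chkRec R_16276537536 = true := by decide +kernel

noncomputable def R_16276541505 : Rec := ⟨nat_lit 16276541505, nat_lit 22,
  [⟨V6_16276262976, [(nat_lit 63, nat_lit 16276541505), (nat_lit 123, nat_lit 17350283328), (nat_lit 90, nat_lit 17350279233), (nat_lit 87, nat_lit 17350021185), (nat_lit 33, nat_lit 18424021056), (nat_lit 99, nat_lit 18424016961), (nat_lit 41, nat_lit 18423763008), (nat_lit 76, nat_lit 18423758913), (nat_lit 14, nat_lit 19497758784), (nat_lit 37, nat_lit 19497754689), (nat_lit 73, nat_lit 19497500736), (nat_lit 61, nat_lit 19497496641), (nat_lit 48, nat_lit 20571496512), (nat_lit 50, nat_lit 20571492417), (nat_lit 43, nat_lit 20571238464), (nat_lit 67, nat_lit 20571234369), (nat_lit 97, nat_lit 21645234240), (nat_lit 34, nat_lit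 21644976192), (nat_lit 2, nat_lit 21644972097), (nat_lit 40, nat_lit 22718713920)]⟩,
   ⟨V6_14129041473, [(nat_lit 62, nat_lit 16276541505), (nat_lit 41, nat_lit 17350279233), (nat_lit 27, nat_lit 18424016961), (nat_lit 33, nat_lit 19497754689), (nat_lit 109, nat_lit 20571492417)]⟩],
  [W_15201747008, W_13054529600, W_11981566016, W_11981049920, W_10907828288]⟩
theorem C_16276541505 : chkRec R_16276541505 = true := by decide +kernel

noncomputable def R_16276541568 : Rec := ⟨nat_lit 16276541568, nat_lit 63,
  [⟨V6_16275492864, [(nat_lit 117, nat_lit 16276541568), (nat_lit 96, nat_lit 17350283328), (nat_lit 42, nat_lit 17350021248), (nat_lit 109, nat_lit 18424025088), (nat_lit 43, nat_lit 18423763008), (nat_lit 115, nat_lit 18423500928), (nat_lit 77, nat_lit 19497504768), (nat_lit 37, nat_lit 19497242688), (nat_lit 9, nat_lit 19496980608), (nat_lit 41, nat_lit 20570984448), (nat_lit 123, nat_lit 20570722368), (nat_lit 112, nat_lit 20570460288), (nat_lit 99, nat_lit 21644464128), (nat_lit 95, nat_lit 21644202048), (nat_lit 97, nat_lit 22717943808)]⟩,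
   ⟨V6_15202787328, [(nat_lit 106, nat_lit 16276541568), (nat_lit 94, nat_lit 17350283328), (nat_lit 81, nat_lit 17350279296), (nat_lit 42, nat_lit 18424025088), (nat_lit 114, nat_lit 18424021056), (nat_lit 10, nat_lit 18424017024), (nat_lit 74, nat_lit 19497762816), (nat_lit 37, nat_lit 19497758784), (nat_lit 100, nat_lit 19497754752), (nat_lit 58, nat_lit 20571500544), (nat_lit 70, nat_lit 20571496512), (nat_lit 108, nat_lit 21645238272)]⟩],
  [W_15202525184, W_15202009088, W_15202001024, W_15201747008, W_14128787456, W_14128783424, W_14128521344, W_11981303936]⟩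
theorem C_16276541568 : chkRec R_16276541568 = true := by decide +kernel

noncomputable def R_16276545600 : Rec := ⟨nat_lit 16276545600, nat_lit 58,
  [⟨V6_15202787328, [(nat_lit 78, nat_lit 16276545600), (nat_lit 77, nat_lit 17350287360), (nat_lit 73, nat_lit 17350283328), (nat_lit 37, nat_lit 18424025088), (nat_lit 18, nat_lit 18424021056), (nat_lit 63, nat_lit 19497762816), (nat_lit 114, nat_lit 19497758784), (nat_lit 70, nat_lit 20571500544), (nat_lit 62, nat_lit 20571496512), (nat_lit 108, nat_lit 21645238272)]⟩,
   ⟨V6_15202783296, [(nat_lit 86, nat_lit 16276545600), (nat_lit 66, nat_lit 17350283328), (nat_lit 32, nat_lit 18424021056), (nat_lit 40, nat_lit 19497758784), (nat_lit 46, nat_lit 20571496512), (nat_lit 89, nat_lit 21645234240)]⟩,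
   ⟨V6_15201755136, [(nat_lit 83, nat_lit 16276545600), (nat_lit 5, nat_lit 17350287360), (nat_lit 17, nat_lit 17350025280), (nat_lit 47, nat_lit 18423767040), (nat_lit 120, nat_lit 18423504960), (nat_lit 99, nat_lit 19497246720), (nat_lit 70, nat_lit 19496984640), (nat_lit 93, nat_lit 20570726400), (nat_lit 51, nat_lit 20570464320), (nat_lit 3, nat_lit 21644206080)]⟩],
  [W_16276262912, W_16276000832, W_15202009088, W_15201747008, W_14128267328, W_10907832320, W_10907574272]⟩
theorem C_16276545600 : chkRec R_16276545600 = true := by decide +kernel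

noncomputable def R_16276549632 : Rec := ⟨nat_lit 16276549632, nat_lit 31,
  [⟨V6_15202787328, [(nat_lit 81, nat_lit 16276549632), (nat_lit 107, nat_lit 17350287360), (nat_lit 112, nat_lit 18424025088), (nat_lit 31, nat_lit 19497762816), (nat_lit 67, nat_lit 20571500544), (nat_lit 74, nat_lit 21645238272)]⟩,
   ⟨V6_11981574144, [(nat_lit 54, nat_lit 16276549632), (nat_lit 64, nat_lit 17350287360), (nat_lit 78, nat_lit 18424025088)]⟩,
   ⟨V6_11981058048, [(nat_lit 49, nat_lit 16276549632), (nat_lit 122, nat_lit 17350029312), (nat_lit 114, nat_lit 18423508992)]⟩],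
  [W_16276520960, W_16276262912, W_15202009088]⟩
theorem C_16276549632 : chkRec R_16276549632 = true := by decide +kernel

noncomputable def R_16292004099 : Rec := ⟨nat_lit 16292004099, nat_lit 3,
  [⟨V6_13070516418, [(nat_lit 9, nat_lit 16292004099), (nat_lit 48, nat_lit 17365745922), (nat_lit 25, nat_lit 17365745859), (nat_lit 76, nat_lit 17365483779), (nat_lit 79, nat_lit 18439487682), (nat_lit 13, nat_lit 18439225602), (nat_lit 47, nat_lit 18439225539), (nat_lit 33, nat_lit 19512967362)]⟩,
   ⟨V6_11997036801, [(nat_lit 86, nat_lit 16292004099), (nat_lit 31, nat_lit 17365745922), (nat_lit 22, nat_lit 18439487745)]⟩],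
  [W_16241672384, W_15167930624]⟩
theorem C_16292004099 : chkRec R_16292004099 = true := by decide +kernel

noncomputable def R_16292008131 : Rec := ⟨nat_lit 16292008131, nat_lit 2,
  [⟨V6_13070774466, [(nat_lit 59, nat_lit 16292008131), (nat_lit 97, nat_lit 17365749954), (nat_lit 67, nat_lit 17365745859), (nat_lit 39, nat_lit 18439487682), (nat_lit 114, nat_lit 18439483587), (nat_lit 23, nat_lit 19513225410)]⟩,
   ⟨V6_11997040833, [(nat_lit 60, nat_lit 16292008131), (nat_lit 125, nat_lit 17365749954), (nat_lit 101, nat_lit 18439491777)]⟩],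
  [W_16241672384]⟩
theorem C_16292008131 : chkRec R_16292008131 = true := by decide +kernel

noncomputable def R_16292008194 : Rec := ⟨nat_lit 16292008194, nat_lit 4,
  [⟨V6_15151157505, [(nat_lit 35, nat_lit 16292008194), (nat_lit 3, nat_lit 17365750017), (nat_lit 33, nat_lit 17348972802), (nat_lit 76, nat_lit 18422714625), (nat_lit 32, nat_lit 18405937410), (nat_lit 86, nat_lit 19479679233), (nat_lit 98, nat_lit 19462902018), (nat_lit 67, nat_lit 20536643841), (nat_lit 63, nat_lit 20519866626), (nat_lit 60, nat_lit 21593608449)]⟩,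
   ⟨V6_15151157442, [(nat_lit 23, nat_lit 16292008194), (nat_lit 80, nat_lit 17365749954), (nat_lit 68, nat_lit 17348972802), (nat_lit 64, nat_lit 18422714562), (nat_lit 40, nat_lit 18405937410), (nat_lit 68, nat_lit 19479679170), (nat_lit 41, nat_lit 19462902018), (nat_lit 70, nat_lit 20536643778), (nat_lit 5, nat_lit 20519866626), (nat_lit 117, nat_lit 21593608386)]⟩,
   ⟨V6_11997040833, [(nat_lit 45, nat_lit 16292008194), (nat_lit 18, nat_lit 17365750017), (nat_lit 54, nat_lit 17365749954), (nat_lit 37, nat_lit 18439491777)]⟩,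
   ⟨V6_11997036801, [(nat_lit 89, nat_lit 16292008194), (nat_lit 124, nat_lit 17365750017), (nat_lit 91, nat_lit 17365745922), (nat_lit 109, nat_lit 18439487745)]⟩],
  [W_15201484928]⟩
theorem C_16292008194 : chkRec R_16292008194 = true := by decide +kernel

noncomputable def R_16292008257 : Rec := ⟨nat_lit 16292008257, nat_lit 1,
  [⟨V6_11997040833, [(nat_lit 77, nat_lit 16292008257), (nat_lit 109, nat_lit 17365750017), (nat_lit 30, nat_lit 18439491777)]⟩],
  [W_16241676416]⟩
theorem C_16292008257 : chkRec R_16292008257 = true := by decide +kernel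

noncomputable def R_16292266179 : Rec := ⟨nat_lit 16292266179, nat_lit 6,
  [⟨V6_14144258241, [(nat_lit 120, nat_lit 16292266179), (nat_lit 36, nat_lit 17366008002), (nat_lit 14, nat_lit 17365745859), (nat_lit 14, nat_lit 18439749825), (nat_lit 111, nat_lit 18439487682), (nat_lit 12, nat_lit 18439225539), (nat_lit 123, nat_lit 19513229505), (nat_lit 22, nat_lit 19512967362), (nat_lit 100, nat_lit 20586709185)]⟩],
  [W_16258445504, W_16241930432, W_16225157312, W_13071036608]⟩
theorem C_16292266179 : chkRec R_16292266179 = true := by decide +kernel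

noncomputable def R_16292266242 : Rec := ⟨nat_lit 16292266242, nat_lit 14,
  [⟨V6_16208380161, [(nat_lit 3, nat_lit 16292266242), (nat_lit 98, nat_lit 17366008065), (nat_lit 94, nat_lit 17349230850), (nat_lit 48, nat_lit 18422972673), (nat_lit 25, nat_lit 18406195458), (nat_lit 123, nat_lit 19479937281), (nat_lit 5, nat_lit 19463160066), (nat_lit 61, nat_lit 20536901889), (nat_lit 54, nat_lit 20520124674), (nat_lit 42, nat_lit 21593866497), (nat_lit 40, nat_lit 21577089282), (nat_lit 95, nat_lit 22650831105)]⟩,
   ⟨V6_14144258304, [(nat_lit 12, nat_lit 16292266242), (nat_lit 61, nat_lit 17366008065), (nat_lit 122, nat_lit 17365745922), (nat_lit 102, nat_lit 18439749888), (nat_lit 122, nat_lit 18439487745), (nat_lit 97, nat_lit 18439225602), (nat_lit 50, nat_lit 19513229568), (nat_lit 78, nat_lit 19512967425), (nat_lit 61, nat_lit 20586709248)]⟩,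
   ⟨V6_14127481026, [(nat_lit 48, nat_lit 16292266242), (nat_lit 65, nat_lit 17366008002), (nat_lit 52, nat_lit 17365745922), (nat_lit 41, nat_lit 17349230850), (nat_lit 61, nat_lit 18439487682), (nat_lit 86, nat_lit 18439225602), (nat_lit 13, nat_lit 18422972610), (nat_lit 111, nat_lit 18422710530), (nat_lit 108, nat_lit 19512967362), (nat_lit 14, nat_lit 19496452290), (nat_lit 43, nat_lit 19496190210), (nat_lit 43, nat_lit 20569931970)]⟩,
   ⟨V6_13070516418, [(nat_lit 5, nat_lit 16292266242), (nat_lit 14, nat_lit 17366008002), (nat_lit 34, nat_lit 17365745922), (nat_lit 88, nat_lit 18439487682), (nat_lit 82, nat_lit 18439225602), (nat_lit 52, nat_lit 19512967362)]⟩],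
  [W_16241934464, W_16208380160, W_15184969856, W_13071040640]⟩
theorem C_16292266242 : chkRec R_16292266242 = true := by decide +kernel

noncomputable def R_16292270274 : Rec := ⟨nat_lit 16292270274, nat_lit 20,
  [⟨V6_16241668290, [(nat_lit 73, nat_lit 16292270274), (nat_lit 20, nat_lit 17366008002), (nat_lit 113, nat_lit 17365749954), (nat_lit 54, nat_lit 17349234882), (nat_lit 57, nat_lit 18439745730), (nat_lit 32, nat_lit 18439487682), (nat_lit 20, nat_lit 18422972610), (nat_lit 116, nat_lit 18422714562), (nat_lit 39, nat_lit 18406199490), (nat_lit 1, nat_lit 19513225410), (nat_lit 72, nat_lit 19496710338), (nat_lit 120, nat_lit 19496452290), (nat_lit 100, nat_lit 19479937218), (nat_lit 32, nat_lit 19479679170), (nat_lit 71, nat_lit 19463164098), (nat_lit 105, nat_lit 20570190018), (nat_lit 21, nat_lit 20553674946), (nat_lit 117, nat_lit 20553416898), (nat_lit 77, nat_lit 20536901826), (nat_lit 101, nat_lit 20536643778), (nat_lit 104, nat_lit 21627154626), (nat_lit 25, nat_lit 21610639554), (nat_lit 90, nat_lit 21610381506), (nat_lit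 124, nat_lit 22684119234)]⟩,
   ⟨V6_16225161408, [(nat_lit 116, nat_lit 16292270274), (nat_lit 17, nat_lit 17366012097), (nat_lit 13, nat_lit 17349234882), (nat_lit 60, nat_lit 18439753920), (nat_lit 96, nat_lit 18422976705), (nat_lit 44, nat_lit 18406199490), (nat_lit 63, nat_lit 19496718528), (nat_lit 101, nat_lit 19479941313), (nat_lit 12, nat_lit 19463164098), (nat_lit 89, nat_lit 20553683136), (nat_lit 50, nat_lit 20536905921), (nat_lit 73, nat_lit 20520128706), (nat_lit 52, nat_lit 21610647744), (nat_lit 96, nat_lit 21593870529), (nat_lit 58, nat_lit 22667612352)]⟩,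
   ⟨V6_16208384193, [(nat_lit 75, nat_lit 16292270274), (nat_lit 37, nat_lit 17366012097), (nat_lit 64, nat_lit 17349234882), (nat_lit 57, nat_lit 18422976705), (nat_lit 117, nat_lit 18406199490), (nat_lit 27, nat_lit 19479941313), (nat_lit 125, nat_lit 19463164098), (nat_lit 1, nat_lit 20536905921), (nat_lit 80, nat_lit 20520128706), (nat_lit 34, nat_lit 21593870529), (nat_lit 111, nat_lit 21577093314), (nat_lit 89, nat_lit 22650835137)]⟩,
   ⟨V6_15134642370, [(nat_lit 66, nat_lit 16292270274), (nat_lit 34, nat_lit 17349234882), (nat_lit 24, nat_lit 18406199490), (nat_lit 109, nat_lit 19463164098), (nat_lit 7, nat_lit 20520128706), (nat_lit 70, nat_lit 21577093314)]⟩],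
  [W_15201484928, W_14144778368, W_14144516288, W_13071040640, W_13070782592, W_13070778560, W_11997302912, W_11997040832]⟩
theorem C_16292270274 : chkRec R_16292270274 = true := by decide +kernel

noncomputable def R_16292270337 : Rec := ⟨nat_lit 16292270337, nat_lit 29,
  [⟨V6_16225161408, [(nat_lit 28, nat_lit 16292270337), (nat_lit 81, nat_lit 17366012160), (nat_lit 20, nat_lit 17366012097), (nat_lit 17, nat_lit 17349234945), (nat_lit 98, nat_lit 18439753920), (nat_lit 110, nat_lit 18422976768), (nat_lit 94, nat_lit 18422976705), (nat_lit 52, nat_lit 18406199553), (nat_lit 86, nat_lit 19496718528), (nat_lit 114, nat_lit 19479941376), (nat_lit 5, nat_lit 19479941313), (nat_lit 94, nat_lit 19463164161), (nat_lit 41, nat_lit 20553683136), (nat_lit 106, nat_lit 20536905984), (nat_lit 74, nat_lit 20536905921), (nat_lit 118, nat_lit 20520128769), (nat_lit 51, nat_lit 21610647744), (nat_lit 99, nat_lit 21593870592), (nat_lit 74, nat_lit 21593870529), (nat_lit 80, nat_lit 22667612352)]⟩,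
   ⟨V6_16224899265, [(nat_lit 116, nat_lit 16292270337), (nat_lit 86, nat_lit 17366012097), (nat_lit 58, nat_lit 17365750017), (nat_lit 40, nat_lit 17349234945), (nat_lit 12, nat_lit 18439491777), (nat_lit 58, nat_lit 18422976705), (nat_lit 75, nat_lit 18422714625), (nat_lit 4, nat_lit 18406199553), (nat_lit 116, nat_lit 19496456385), (nat_lit 10, nat_lit 19479941313), (nat_lit 111, nat_lit 19479679233), (nat_lit 88, nat_lit 19463164161), (nat_lit 42, nat_lit 20553420993), (nat_lit 34, nat_lit 20536905921), (nat_lit 14, nat_lit 20536643841), (nat_lit 114, nat_lit 20520128769), (nat_lit 5, nat_lit 21610385601), (nat_lit 98, nat_lit 21593870529), (nat_lit 37, nat_lit 21593608449), (nat_lit 118, nat_lit 22667350209)]⟩,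
   ⟨V6_16208384256, [(nat_lit 98, nat_lit 16292270337), (nat_lit 10, nat_lit 17366012160), (nat_lit 7, nat_lit 17349234945), (nat_lit 17, nat_lit 18422976768), (nat_lit 75, nat_lit 18406199553), (nat_lit 41, nat_lit 19479941376), (nat_lit 44, nat_lit 19463164161), (nat_lit 59, nat_lit 20536905984), (nat_lit 21, nat_lit 20520128769), (nat_lit 53, nat_lit 21593870592), (nat_lit 117, nat_lit 21577093377), (nat_lit 91, nat_lit 22650835200)]⟩,
   ⟨V6_16208384193, [(nat_lit 69, nat_lit 16292270337), (nat_lit 51, nat_lit 17366012097), (nat_lit 33, nat_lit 17349234945), (nat_lit 32, nat_lit 18422976705), (nat_lit 46, nat_lit 18406199553), (nat_lit 29, nat_lit 19479941313), (nat_lit 46, nat_lit 19463164161), (nat_lit 98, nat_lit 20536905921), (nat_lit 23, nat_lit 20520128769), (nat_lit 95, nat_lit 21593870529), (nat_lit 32, nat_lit 21577093377), (nat_lit 76, nat_lit 22650835137)]⟩,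
   ⟨V6_16208380161, [(nat_lit 1, nat_lit 16292270337), (nat_lit 28, nat_lit 17366008065), (nat_lit 35, nat_lit 17349234945), (nat_lit 36, nat_lit 18422972673), (nat_lit 4, nat_lit 18406199553), (nat_lit 55, nat_lit 19479937281), (nat_lit 70, nat_lit 19463164161), (nat_lit 101, nat_lit 20536901889), (nat_lit 5, nat_lit 20520128769), (nat_lit 85, nat_lit 21593866497), (nat_lit 110, nat_lit 21577093377), (nat_lit 5, nat_lit 22650831105)]⟩],
  [W_15218262080, W_15201747008, W_14144782400, W_13071044672, W_13070782592, W_11997302912, W_11997040832]⟩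
theorem C_16292270337 : chkRec R_16292270337 = true := by decide +kernel

noncomputable def R_16292270400 : Rec := ⟨nat_lit 16292270400, nat_lit 15,
  [⟨V6_16292007936, [(nat_lit 10, nat_lit 16292270400), (nat_lit 110, nat_lit 17366012160), (nat_lit 32, nat_lit 17365750080), (nat_lit 12, nat_lit 18439753920), (nat_lit 15, nat_lit 18439491840), (nat_lit 109, nat_lit 19513495680), (nat_lit 41, nat_lit 19513233600), (nat_lit 60, nat_lit 20587237440), (nat_lit 55, nat_lit 20586975360), (nat_lit 38, nat_lit 21660979200), (nat_lit 11, nat_lit 21660717120), (nat_lit 58, nat_lit 22734458880)]⟩],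
  [W_16258453568, W_15184973888, W_14110970048, W_13020713216, W_11997040832, W_11980525760, W_11963748608]⟩
theorem C_16292270400 : chkRec R_16292270400 = true := by decide +kernel

noncomputable def R_16292274306 : Rec := ⟨nat_lit 16292274306, nat_lit 14,
  [⟨V6_16225165440, [(nat_lit 39, nat_lit 16292274306), (nat_lit 9, nat_lit 17366016129), (nat_lit 104, nat_lit 17349238914), (nat_lit 99, nat_lit 18439757952), (nat_lit 6, nat_lit 18422980737), (nat_lit 98, nat_lit 18406203522), (nat_lit 123, nat_lit 19496722560), (nat_lit 46, nat_lit 19479945345), (nat_lit 96, nat_lit 19463168130), (nat_lit 77, nat_lit 20553687168), (nat_lit 19, nat_lit 20536909953), (nat_lit 76, nat_lit 20520132738), (nat_lit 35, nat_lit 21610651776), (nat_lit 6, nat_lit 21593874561), (nat_lit 83, nat_lit 22667616384)]⟩],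
  [W_15218516096, W_14144778368, W_13071040640, W_13054267520]⟩
theorem C_16292274306 : chkRec R_16292274306 = true := by decide +kernel

noncomputable def R_16292274369 : Rec := ⟨nat_lit 16292274369, nat_lit 35,
  [⟨V6_16225165377, [(nat_lit 11, nat_lit 16292274369), (nat_lit 69, nat_lit 17366016129), (nat_lit 126, nat_lit 17349238977), (nat_lit 70, nat_lit 18439757889), (nat_lit 54, nat_lit 18422980737), (nat_lit 85, nat_lit 18406203585), (nat_lit 101, nat_lit 19496722497), (nat_lit 28, nat_lit 19479945345), (nat_lit 37, nat_lit 19463168193), (nat_lit 59, nat_lit 20553687105), (nat_lit 29, nat_lit 20536909953), (nat_lit 25, nat_lit 20520132801), (nat_lit 39, nat_lit 21610651713), (nat_lit 1, nat_lit 21593874561), (nat_lit 7, nat_lit 22667616321)]⟩,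
   ⟨V6_14128013376, [(nat_lit 33, nat_lit 16292274369), (nat_lit 97, nat_lit 17366016192), (nat_lit 91, nat_lit 17366016129), (nat_lit 29, nat_lit 17349238977), (nat_lit 83, nat_lit 18439757952), (nat_lit 100, nat_lit 18439757889), (nat_lit 123, nat_lit 18422980800), (nat_lit 57, nat_lit 18422980737), (nat_lit 83, nat_lit 19513499712), (nat_lit 24, nat_lit 19496722560), (nat_lit 99, nat_lit 19496722497), (nat_lit 89, nat_lit 20570464320)]⟩],
  [W_16241930432, W_16208388224, W_15201747008, W_15184973888, W_14144782400, W_14128001216, W_13071036608, W_11997298880]⟩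
theorem C_16292274369 : chkRec R_16292274369 = true := by decide +kernel

noncomputable def R_16292274432 : Rec := ⟨nat_lit 16292274432, nat_lit 44,
  [⟨V6_15218528256, [(nat_lit 33, nat_lit 16292274432), (nat_lit 50, nat_lit 17366016192), (nat_lit 13, nat_lit 17366012160), (nat_lit 12, nat_lit 18439757952), (nat_lit 77, nat_lit 18439753920), (nat_lit 31, nat_lit 19513499712), (nat_lit 38, nat_lit 19513495680), (nat_lit 58, nat_lit 20587241472), (nat_lit 22, nat_lit 20587237440), (nat_lit 97, nat_lit 21660979200)]⟩],
  [W_16225157312, W_16208388224, W_16208380160, W_15218524160, W_15201747008, W_14128013312, W_13054263488]⟩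
theorem C_16292274432 : chkRec R_16292274432 = true := by decide +kernel

noncomputable def R_16292524227 : Rec := ⟨nat_lit 16292524227, nat_lit 3,
  [⟨V6_14077931715, [(nat_lit 66, nat_lit 16292524227), (nat_lit 122, nat_lit 17349488835), (nat_lit 95, nat_lit 18406453443), (nat_lit 98, nat_lit 19463418051), (nat_lit 26, nat_lit 20520382659)]⟩,
   ⟨V6_13070774466, [(nat_lit 126, nat_lit 16292524227), (nat_lit 57, nat_lit 17366266050), (nat_lit 13, nat_lit 17366003907), (nat_lit 77, nat_lit 18439745730), (nat_lit 2, nat_lit 18439483587), (nat_lit 20, nat_lit 19513225410)]⟩,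
   ⟨V6_13037482179, [(nat_lit 20, nat_lit 16292524227), (nat_lit 27, nat_lit 17366003907), (nat_lit 111, nat_lit 17349488835), (nat_lit 41, nat_lit 18422968515), (nat_lit 95, nat_lit 18406453443), (nat_lit 79, nat_lit 19479933123)]⟩],
  [W_14111486144]⟩
theorem C_16292524227 : chkRec R_16292524227 = true := by decide +kernel

noncomputable def R_16292528322 : Rec := ⟨nat_lit 16292528322, nat_lit 27,
  [⟨V6_16225415361, [(nat_lit 71, nat_lit 16292528322), (nat_lit 44, nat_lit 17366270145), (nat_lit 41, nat_lit 17366266050), (nat_lit 96, nat_lit 17349492930), (nat_lit 37, nat_lit 18440007873), (nat_lit 90, nat_lit 18423234753), (nat_lit 64, nat_lit 18423230658), (nat_lit 31, nat_lit 18406457538), (nat_lit 64, nat_lit 19496972481), (nat_lit 79, nat_lit 19480199361), (nat_lit 64, nat_lit 19480195266), (nat_lit 116, nat_lit 19463422146), (nat_lit 68, nat_lit 20553937089), (nat_lit 86, nat_lit 20537163969), (nat_lit 41, nat_lit 20537159874), (nat_lit 45, nat_lit 20520386754), (nat_lit 26, nat_lit 21610901697), (nat_lit 97, nat_lit 21594128577),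 (nat_lit 32, nat_lit 21594124482), (nat_lit 124, nat_lit 22667866305)]⟩,
   ⟨V6_15218000064, [(nat_lit 39, nat_lit 16292528322), (nat_lit 65, nat_lit 17366270145), (nat_lit 16, nat_lit 17366008002), (nat_lit 44, nat_lit 18440011968), (nat_lit 58, nat_lit 18439749825), (nat_lit 1, nat_lit 18439487682), (nat_lit 97, nat_lit 19513491648), (nat_lit 8, nat_lit 19513229505), (nat_lit 106, nat_lit 19512967362), (nat_lit 118, nat_lit 20586971328), (nat_lit 5, nat_lit 20586709185), (nat_lit 27, nat_lit 21660451008)]⟩,
   ⟨V6_15151677633, [(nat_lit 44, nat_lit 16292528322), (nat_lit 109, nat_lit 17366270145), (nat_lit 56, nat_lit 17349492930), (nat_lit 52, nat_lit 18423234753), (nat_lit 62, nat_lit 18406457538), (nat_lit 119, nat_lit 19480199361), (nat_lit 47, nat_lit 19463422146), (nat_lit 106, nat_lit 20537163969), (nat_lit 3, nat_lit 20520386754), (nat_lit 21, nat_lit 21594128577)]⟩,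
   ⟨V6_14144254146, [(nat_lit 92, nat_lit 16292528322), (nat_lit 7, nat_lit 17366266050), (nat_lit 107, nat_lit 17366008002), (nat_lit 72, nat_lit 18439745730), (nat_lit 20, nat_lit 18439487682), (nat_lit 46, nat_lit 19513225410), (nat_lit 90, nat_lit 19512967362), (nat_lit 22, nat_lit 20586705090)]⟩],
  [W_14128263296, W_14128001216, W_14111486144, W_13071298688, W_13071040640, W_13071036608, W_13054525568, W_11997560960, W_11997556928, W_11980783808]⟩
theorem C_16292528322 : chkRec R_16292528322 = true := by decide +kernel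

noncomputable def R_16292528385 : Rec := ⟨nat_lit 16292528385, nat_lit 32,
  [⟨V6_16291741761, [(nat_lit 44, nat_lit 16292528385), (nat_lit 14, nat_lit 17366270145), (nat_lit 62, nat_lit 17366008065), (nat_lit 98, nat_lit 18440011905), (nat_lit 98, nat_lit 18439749825), (nat_lit 54, nat_lit 18439487745), (nat_lit 20, nat_lit 19513753665), (nat_lit 96, nat_lit 19513491585), (nat_lit 123, nat_lit 19513229505), (nat_lit 84, nat_lit 19512967425), (nat_lit 20, nat_lit 20587233345), (nat_lit 97, nat_lit 20586971265), (nat_lit 120, nat_lit 20586709185), (nat_lit 48, nat_lit 21660713025), (nat_lit 71, nat_lit 21660450945), (nat_lit 51, nat_lit 22734192705)]⟩,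
   ⟨V6_16258187520, [(nat_lit 126, nat_lit 16292528385), (nat_lit 84, nat_lit 17366270208), (nat_lit 48, nat_lit 17366008065), (nat_lit 21, nat_lit 17349492993), (nat_lit 7, nat_lit 18439749888), (nat_lit 94, nat_lit 18439487745), (nat_lit 3, nat_lit 18423234816), (nat_lit 93, nat_lit 18422972673), (nat_lit 27, nat_lit 18406457601), (nat_lit 108, nat_lit 19513229568), (nat_lit 100, nat_lit 19512967425), (nat_lit 118, nat_lit 19496714496), (nat_lit 44, nat_lit 19496452353), (nat_lit 69, nat_lit 19480199424), (nat_lit 84, nat_lit 19479937281), (nat_lit 70, nat_lit 20586709248), (nat_lit 78, nat_lit 20570194176), (nat_lit 5, nat_lit 20569932033), (nat_lit 84, nat_lit 20553679104), (nat_lit 81, nat_lit 20553416961), (nat_lit 96, nat_lit 21643673856), (nat_lit 46, nat_lit 21627158784), (nat_lit 54, nat_lit 21626896641), (nat_lit 56, nat_lit 22700638464)]⟩,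
   ⟨V6_15151677633, [(nat_lit 43, nat_lit 16292528385), (nat_lit 6, nat_lit 17366270145), (nat_lit 94, nat_lit 17349492993), (nat_lit 81, nat_lit 18423234753), (nat_lit 3, nat_lit 18406457601), (nat_lit 94, nat_lit 19480199361), (nat_lit 38, nat_lit 19463422209), (nat_lit 37, nat_lit 20537163969), (nat_lit 48, nat_lit 20520386817), (nat_lit 31, nat_lit 21594128577)]⟩,
   ⟨V6_14144258304, [(nat_lit 6, nat_lit 16292528385), (nat_lit 22, nat_lit 17366270208), (nat_lit 124, nat_lit 17366008065), (nat_lit 73, nat_lit 18439749888), (nat_lit 70, nat_lit 18439487745), (nat_lit 10, nat_lit 19513229568), (nat_lit 113, nat_lit 19512967425), (nat_lit 35, nat_lit 20586709248)]⟩],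
  [W_16242196544, W_15201747008, W_13071302720, W_13054525568, W_11997560960, W_11997298880]⟩
theorem C_16292528385 : chkRec R_16292528385 = true := by decide +kernel

noncomputable def R_16292532354 : Rec := ⟨nat_lit 16292532354, nat_lit 24,
  [⟨V6_16291995777, [(nat_lit 67, nat_lit 16292532354), (nat_lit 124, nat_lit 17366274177), (nat_lit 85, nat_lit 17366270082), (nat_lit 3, nat_lit 17366012034), (nat_lit 101, nat_lit 18440011905), (nat_lit 88, nat_lit 18440007810), (nat_lit 57, nat_lit 18439753857), (nat_lit 23, nat_lit 18439749762), (nat_lit 114, nat_lit 18439491714), (nat_lit 19, nat_lit 19513749633), (nat_lit 105, nat_lit 19513745538), (nat_lit 16, nat_lit 19513491585), (nat_lit 76, nat_lit 19513487490), (nat_lit 68, nat_lit 19513233537), (nat_lit 107, nat_lit 19513229442), (nat_lit 78, nat_lit 20587487361), (nat_lit 24, nat_lit 20587229313), (nat_lit 49, nat_lit 20587225218), (nat_lit 122, nat_lit 20586971265), (nat_lit 14, nat_lit 20586967170), (nat_lit 116, nat_lit 21660967041), (nat_lit 63, nat_lit 21660708993), (nat_lit 109,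 nat_lit 21660704898), (nat_lit 20, nat_lit 22734446721)]⟩,
   ⟨V6_16225423488, [(nat_lit 71, nat_lit 16292532354), (nat_lit 75, nat_lit 17366274177), (nat_lit 20, nat_lit 17349496962), (nat_lit 63, nat_lit 18440016000), (nat_lit 50, nat_lit 18423238785), (nat_lit 97, nat_lit 18406461570), (nat_lit 9, nat_lit 19496980608), (nat_lit 87, nat_lit 19480203393), (nat_lit 38, nat_lit 19463426178), (nat_lit 49, nat_lit 20553945216), (nat_lit 116, nat_lit 20537168001), (nat_lit 83, nat_lit 20520390786), (nat_lit 80, nat_lit 21610909824), (nat_lit 50, nat_lit 21594132609), (nat_lit 99, nat_lit 22667874432)]⟩],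
  [W_15202001024, W_13071298688, W_13071040640, W_13054525568, W_13054267520, W_11997560960, W_11997302912, W_11980787840]⟩
theorem C_16292532354 : chkRec R_16292532354 = true := by decide +kernel

noncomputable def R_16292532417 : Rec := ⟨nat_lit 16292532417, nat_lit 62,
  [⟨V6_16225423488, [(nat_lit 20, nat_lit 16292532417), (nat_lit 124, nat_lit 17366274240), (nat_lit 49, nat_lit 17366274177), (nat_lit 120, nat_lit 17349497025), (nat_lit 110, nat_lit 18440016000), (nat_lit 105, nat_lit 18423238848), (nat_lit 125, nat_lit 18423238785), (nat_lit 81, nat_lit 18406461633), (nat_lit 2, nat_lit 19496980608), (nat_lit 109, nat_lit 19480203456), (nat_lit 91, nat_lit 19480203393), (nat_lit 86, nat_lit 19463426241), (nat_lit 9, nat_lit 20553945216), (nat_lit 82, nat_lit 20537168064), (nat_lit 101, nat_lit 20537168001), (nat_lit 92, nat_lit 20520390849), (nat_lit 122, nat_lit 21610909824), (nat_lit 60, nat_lit 21594132672), (nat_lit 16, nat_lit 21594132609), (nat_lit 78, nat_lit 22667874432)]⟩,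
   ⟨V6_16225423425, [(nat_lit 56, nat_lit 16292532417), (nat_lit 28, nat_lit 17366274177), (nat_lit 18, nat_lit 17349497025), (nat_lit 10, nat_lit 18440015937), (nat_lit 44, nat_lit 18423238785), (nat_lit 121, nat_lit 18406461633), (nat_lit 87, nat_lit 19496980545), (nat_lit 4, nat_lit 19480203393), (nat_lit 96, nat_lit 19463426241), (nat_lit 81, nat_lit 20553945153), (nat_lit 113, nat_lit 20537168001), (nat_lit 58, nat_lit 20520390849), (nat_lit 60, nat_lit 21610909761), (nat_lit 109, nat_lit 21594132609), (nat_lit 1, nat_lit 22667874369)]⟩,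
   ⟨V6_16225419456, [(nat_lit 5, nat_lit 16292532417), (nat_lit 7, nat_lit 17366274240), (nat_lit 119, nat_lit 17366270145), (nat_lit 23, nat_lit 17349497025), (nat_lit 85, nat_lit 18440011968), (nat_lit 45, nat_lit 18423238848), (nat_lit 113, nat_lit 18423234753), (nat_lit 92, nat_lit 18406461633), (nat_lit 16, nat_lit 19496976576), (nat_lit 45, nat_lit 19480203456), (nat_lit 91, nat_lit 19480199361), (nat_lit 48, nat_lit 19463426241), (nat_lit 101, nat_lit 20553941184), (nat_lit 7, nat_lit 20537168064), (nat_lit 40, nat_lit 20537163969), (nat_lit 53, nat_lit 20520390849), (nat_lit 6, nat_lit 21610905792), (nat_lit 86, nat_lit 21594132672), (nat_lit 61, nat_lit 21594128577), (nat_lit 104, nat_lit 22667870400)]⟩,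
   ⟨V6_16225415361, [(nat_lit 116, nat_lit 16292532417), (nat_lit 110, nat_lit 17366270145), (nat_lit 67, nat_lit 17349497025), (nat_lit 122, nat_lit 18440007873), (nat_lit 35, nat_lit 18423234753), (nat_lit 94, nat_lit 18406461633), (nat_lit 94, nat_lit 19496972481), (nat_lit 60, nat_lit 19480199361), (nat_lit 68, nat_lit 19463426241), (nat_lit 111, nat_lit 20553937089), (nat_lit 79, nat_lit 20537163969), (nat_lit 24, nat_lit 20520390849), (nat_lit 30, nat_lit 21610901697), (nat_lit 72, nat_lit 21594128577), (nat_lit 117, nat_lit 22667866305)]⟩,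
   ⟨V6_16225161408, [(nat_lit 28, nat_lit 16292532417), (nat_lit 96, nat_lit 17366274240), (nat_lit 20, nat_lit 17366012097), (nat_lit 7, nat_lit 17349497025), (nat_lit 15, nat_lit 18439753920), (nat_lit 114, nat_lit 18423238848), (nat_lit 74, nat_lit 18422976705), (nat_lit 110, nat_lit 18406461633), (nat_lit 89, nat_lit 19496718528), (nat_lit 85, nat_lit 19480203456), (nat_lit 49, nat_lit 19479941313), (nat_lit 79, nat_lit 19463426241), (nat_lit 125, nat_lit 20553683136), (nat_lit 1, nat_lit 20537168064), (nat_lit 66, nat_lit 20536905921), (nat_lit 29, nat_lit 20520390849), (nat_lit 25, nat_lit 21610647744), (nat_lit 97, nat_lit 21594132672), (nat_lit 95, nat_lit 21593870529), (nat_lit 16, nat_lit 22667612352)]⟩,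
   ⟨V6_15151681728, [(nat_lit 9, nat_lit 16292532417), (nat_lit 94, nat_lit 17366274240), (nat_lit 65, nat_lit 17349497025), (nat_lit 85, nat_lit 18423238848), (nat_lit 52, nat_lit 18406461633), (nat_lit 17, nat_lit 19480203456), (nat_lit 120, nat_lit 19463426241), (nat_lit 60, nat_lit 20537168064), (nat_lit 90, nat_lit 20520390849), (nat_lit 93, nat_lit 21594132672)]⟩],
  [W_15218262080, W_15201747008, W_15185231936, W_14144782400, W_14144524352, W_14144516288, W_13071302720, W_13071298688, W_13071044672, W_13054529600, W_11997564992, W_11997560960, W_11997556928, W_11997040832]⟩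
theorem C_16292532417 : chkRec R_16292532417 = true := by decide +kernel

noncomputable def R_16292532480 : Rec := ⟨nat_lit 16292532480, nat_lit 70,
  [⟨V6_16292007936, [(nat_lit 80, nat_lit 16292532480), (nat_lit 74, nat_lit 17366274240), (nat_lit 73, nat_lit 17366012160), (nat_lit 20, nat_lit 18440016000), (nat_lit 71, nat_lit 18439753920), (nat_lit 113, nat_lit 18439491840), (nat_lit 75, nat_lit 19513757760), (nat_lit 108, nat_lit 19513495680), (nat_lit 35, nat_lit 19513233600), (nat_lit 46, nat_lit 20587499520), (nat_lit 88, nat_lit 20587237440), (nat_lit 17, nat_lit 20586975360), (nat_lit 29, nat_lit 21660979200), (nat_lit 59, nat_lit 21660717120), (nat_lit 66, nat_lit 22734458880)]⟩,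
   ⟨V6_16275492864, [(nat_lit 71, nat_lit 16292532480), (nat_lit 75, nat_lit 17366274240), (nat_lit 71, nat_lit 17366012160), (nat_lit 53, nat_lit 17349497088), (nat_lit 4, nat_lit 18440016000), (nat_lit 94, nat_lit 18439753920), (nat_lit 121, nat_lit 18423238848), (nat_lit 124, nat_lit 18422976768), (nat_lit 80, nat_lit 19513757760), (nat_lit 95, nat_lit 19513495680), (nat_lit 126, nat_lit 19496980608), (nat_lit 98, nat_lit 19496718528), (nat_lit 32, nat_lit 20587499520), (nat_lit 24, nat_lit 20587237440), (nat_lit 74, nat_lit 20570722368), (nat_lit 93, nat_lit 20570460288), (nat_lit 92, nat_lit 21660979200), (nat_lit 109, nat_lit 21644464128), (nat_lit 39, nat_lit 21644202048), (nat_lit 85, nat_lit 22717943808)]⟩],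
  [W_16242196544, W_15218524160, W_15202009088, W_15185231936, W_14145044480, W_13054263488, W_13054001408, W_13020971264, W_11997298880, W_11997040832, W_11980783808, W_11947233536]⟩
theorem C_16292532480 : chkRec R_16292532480 = true := by decide +kernel

noncomputable def R_16292536449 : Rec := ⟨nat_lit 16292536449, nat_lit 61,
  [⟨V6_16225427520, [(nat_lit 83, nat_lit 16292536449), (nat_lit 24, nat_lit 17366278272), (nat_lit 98, nat_lit 17366278209), (nat_lit 13, nat_lit 17349501057), (nat_lit 125, nat_lit 18440020032), (nat_lit 76, nat_lit 18423242880), (nat_lit 80, nat_lit 18423242817), (nat_lit 15, nat_lit 18406465665), (nat_lit 70, nat_lit 19496984640), (nat_lit 61, nat_lit 19480207488), (nat_lit 54, nat_lit 19480207425), (nat_lit 20, nat_lit 19463430273), (nat_lit 115, nat_lit 20553949248), (nat_lit 97, nat_lit 20537172096), (nat_lit 15, nat_lit 20537172033), (nat_lit 13, nat_lit 20520394881), (nat_lit 97, nat_lit 21610913856), (nat_lit 74, nat_lit 21594136704), (nat_lit 19, nat_lit 21594136641), (nat_lit 40, nat_lit 22667878464)]⟩,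
   ⟨V6_16225423488, [(nat_lit 90, nat_lit 16292536449), (nat_lit 28, nat_lit 17366278272), (nat_lit 121, nat_lit 17366274177), (nat_lit 94, nat_lit 17349501057), (nat_lit 75, nat_lit 18440016000), (nat_lit 74, nat_lit 18423242880), (nat_lit 25, nat_lit 18423238785), (nat_lit 24, nat_lit 18406465665), (nat_lit 119, nat_lit 19496980608), (nat_lit 102, nat_lit 19480207488), (nat_lit 105, nat_lit 19480203393), (nat_lit 58, nat_lit 19463430273), (nat_lit 17, nat_lit 20553945216), (nat_lit 123, nat_lit 20537172096), (nat_lit 9, nat_lit 20537168001), (nat_lit 44, nat_lit 20520394881), (nat_lit 24, nat_lit 21610909824), (nat_lit 100, nat_lit 21594136704), (nat_lit 101, nat_lit 21594132609), (nat_lit 122, nat_lit 22667874432)]⟩,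
   ⟨V6_16225423425, [(nat_lit 106, nat_lit 16292536449), (nat_lit 115, nat_lit 17366278209), (nat_lit 51, nat_lit 17366274177), (nat_lit 2, nat_lit 17349501057), (nat_lit 112, nat_lit 18440015937), (nat_lit 101, nat_lit 18423242817), (nat_lit 85, nat_lit 18423238785), (nat_lit 66, nat_lit 18406465665), (nat_lit 29, nat_lit 19496980545), (nat_lit 81, nat_lit 19480207425), (nat_lit 73, nat_lit 19480203393), (nat_lit 33, nat_lit 19463430273), (nat_lit 19, nat_lit 20553945153), (nat_lit 64, nat_lit 20537172033), (nat_lit 83, nat_lit 20537168001), (nat_lit 98, nat_lit 20520394881), (nat_lit 24, nat_lit 21610909761), (nat_lit 107, nat_lit 21594136641), (nat_lit 61, nat_lit 21594132609), (nat_lit 119, nat_lit 22667874369)]⟩,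
   ⟨V6_16225165440, [(nat_lit 74, nat_lit 16292536449), (nat_lit 36, nat_lit 17366278272), (nat_lit 71, nat_lit 17366016129), (nat_lit 82, nat_lit 17349501057), (nat_lit 85, nat_lit 18439757952), (nat_lit 11, nat_lit 18423242880), (nat_lit 123, nat_lit 18422980737), (nat_lit 73, nat_lit 18406465665), (nat_lit 81, nat_lit 19496722560), (nat_lit 16, nat_lit 19480207488), (nat_lit 66, nat_lit 19479945345), (nat_lit 109, nat_lit 19463430273), (nat_lit 31, nat_lit 20553687168), (nat_lit 48, nat_lit 20537172096), (nat_lit 120, nat_lit 20536909953), (nat_lit 122, nat_lit 20520394881), (nat_lit 57, nat_lit 21610651776), (nat_lit 84, nat_lit 21594136704), (nat_lit 115, nat_lit 21593874561), (nat_lit 6, nat_lit 22667616384)]⟩,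
   ⟨V6_16225165377, [(nat_lit 42, nat_lit 16292536449), (nat_lit 62, nat_lit 17366278209), (nat_lit 49, nat_lit 17366016129), (nat_lit 72, nat_lit 17349501057), (nat_lit 110, nat_lit 18439757889), (nat_lit 122, nat_lit 18423242817), (nat_lit 24, nat_lit 18422980737), (nat_lit 42, nat_lit 18406465665), (nat_lit 8, nat_lit 19496722497), (nat_lit 61, nat_lit 19480207425), (nat_lit 125, nat_lit 19479945345), (nat_lit 108, nat_lit 19463430273), (nat_lit 72, nat_lit 20553687105), (nat_lit 10, nat_lit 20537172033), (nat_lit 94, nat_lit 20536909953), (nat_lit 87, nat_lit 20520394881), (nat_lit 57, nat_lit 21610651713), (nat_lit 28, nat_lit 21594136641), (nat_lit 21, nat_lit 21593874561), (nat_lit 35, nat_lit 22667616321)]⟩,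
   ⟨V6_15151685760, [(nat_lit 115, nat_lit 16292536449), (nat_lit 44, nat_lit 17366278272), (nat_lit 125, nat_lit 17349501057), (nat_lit 56, nat_lit 18423242880), (nat_lit 100, nat_lit 18406465665), (nat_lit 62, nat_lit 19480207488), (nat_lit 94, nat_lit 19463430273), (nat_lit 47, nat_lit 20537172096), (nat_lit 7, nat_lit 20520394881), (nat_lit 3, nat_lit 21594136704)]⟩,
   ⟨V6_15151685697, [(nat_lit 79, nat_lit 16292536449), (nat_lit 99, nat_lit 17366278209), (nat_lit 54, nat_lit 17349501057), (nat_lit 93, nat_lit 18423242817), (nat_lit 21, nat_lit 18406465665), (nat_lit 31, nat_lit 19480207425), (nat_lit 71, nat_lit 19463430273), (nat_lit 11, nat_lit 20537172033), (nat_lit 56, nat_lit 20520394881), (nat_lit 73, nat_lit 21594136641)]⟩],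
  [W_15218516096, W_15202001024, W_15201747008, W_15185231936, W_14144782400, W_13071302720, W_13071298688, W_13071044672, W_13071040640, W_11997564992, W_11997560960, W_11997302912]⟩
theorem C_16292536449 : chkRec R_16292536449 = true := by decide +kernel

noncomputable def R_16292536512 : Rec := ⟨nat_lit 16292536512, nat_lit 98,
  [⟨V6_16258719744, [(nat_lit 74, nat_lit 16292536512), (nat_lit 64, nat_lit 17366278272), (nat_lit 78, nat_lit 17366016192), (nat_lit 31, nat_lit 17349501120), (nat_lit 106, nat_lit 18440020032), (nat_lit 23, nat_lit 18439757952), (nat_lit 22, nat_lit 18423242880), (nat_lit 1, nat_lit 18422980800), (nat_lit 85, nat_lit 18406465728), (nat_lit 49, nat_lit 19513761792), (nat_lit 14, nat_lit 19513499712), (nat_lit 66, nat_lit 19496984640), (nat_lit 17, nat_lit 19496722560), (nat_lit 45, nat_lit 19480207488), (nat_lit 119, nat_lit 19479945408), (nat_lit 75, nat_lit 20587241472), (nat_lit 25, nat_lit 20570726400), (nat_lit 60, nat_lit 20570464320), (nat_lit 25, nat_lit 20553949248), (nat_lit 14, nat_lit 20553687168),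 (nat_lit 35, nat_lit 21644206080), (nat_lit 91, nat_lit 21627691008), (nat_lit 5, nat_lit 21627428928), (nat_lit 58, nat_lit 22701170688)]⟩,
   ⟨V6_16242204672, [(nat_lit 33, nat_lit 16292536512), (nat_lit 119, nat_lit 17366278272), (nat_lit 22, nat_lit 17349501120), (nat_lit 48, nat_lit 18440020032), (nat_lit 68, nat_lit 18423242880), (nat_lit 117, nat_lit 18406465728), (nat_lit 103, nat_lit 19513761792), (nat_lit 11, nat_lit 19496984640), (nat_lit 84, nat_lit 19480207488), (nat_lit 18, nat_lit 19463430336), (nat_lit 78, nat_lit 20570726400), (nat_lit 49, nat_lit 20553949248), (nat_lit 59, nat_lit 20537172096), (nat_lit 56, nat_lit 21627691008), (nat_lit 57, nat_lit 21610913856), (nat_lit 4, nat_lit 22684655616)]⟩,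
   ⟨V6_15201755136, [(nat_lit 101, nat_lit 16292536512), (nat_lit 99, nat_lit 17366278272), (nat_lit 44, nat_lit 17366016192), (nat_lit 8, nat_lit 17349501120), (nat_lit 76, nat_lit 18440020032), (nat_lit 80, nat_lit 18439757952), (nat_lit 66, nat_lit 18423242880), (nat_lit 38, nat_lit 18422980800), (nat_lit 11, nat_lit 19513761792), (nat_lit 117, nat_lit 19513499712), (nat_lit 75, nat_lit 19496984640), (nat_lit 112, nat_lit 19496722560), (nat_lit 85, nat_lit 20587241472), (nat_lit 80, nat_lit 20570726400), (nat_lit 1, nat_lit 20570464320), (nat_lit 109, nat_lit 21644206080)]⟩,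
   ⟨V6_14144790528, [(nat_lit 72, nat_lit 16292536512), (nat_lit 46, nat_lit 17366278272), (nat_lit 60, nat_lit 17366016192), (nat_lit 76, nat_lit 18440020032), (nat_lit 112, nat_lit 18439757952), (nat_lit 66, nat_lit 19513761792), (nat_lit 3, nat_lit 19513499712), (nat_lit 101, nat_lit 20587241472)]⟩,
   ⟨V6_13071310848, [(nat_lit 58, nat_lit 16292536512), (nat_lit 106, nat_lit 17366278272), (nat_lit 101, nat_lit 18440020032), (nat_lit 67, nat_lit 19513761792)]⟩],
  [W_16242196544, W_15218524160, W_15202009088, W_15201747008, W_15185231936, W_15184969856, W_14145044480, W_13071298688, W_13071040640, W_13071036608, W_13054263488, W_11997556928, W_11997298880, W_11980783808]⟩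
theorem C_16292536512 : chkRec R_16292536512 = true := by decide +kernel

noncomputable def R_16292540481 : Rec := ⟨nat_lit 16292540481, nat_lit 20,
  [⟨V6_15151685697, [(nat_lit 122, nat_lit 16292540481), (nat_lit 79, nat_lit 17366278209), (nat_lit 72, nat_lit 17349505089), (nat_lit 52, nat_lit 18423242817), (nat_lit 107, nat_lit 18406469697), (nat_lit 12, nat_lit 19480207425), (nat_lit 76, nat_lit 19463434305), (nat_lit 119, nat_lit 20537172033), (nat_lit 112, nat_lit 20520398913), (nat_lit 87, nat_lit 21594136641)]⟩,
   ⟨V6_14094725184, [(nat_lit 111, nat_lit 16292540481), (nat_lit 76, nat_lit 17366282304), (nat_lit 62, nat_lit 17349505089), (nat_lit 14, nat_lit 18423246912), (nat_lit 40, nat_lit 18406469697), (nat_lit 76, nat_lit 19480211520), (nat_lit 58, nat_lit 19463434305), (nat_lit 52, nat_lit 20537176128)]⟩,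
   ⟨V6_11997569088, [(nat_lit 14, nat_lit 16292540481), (nat_lit 94, nat_lit 17366282304), (nat_lit 94, nat_lit 17366278209), (nat_lit 22, nat_lit 18440020032)]⟩],
  [W_16292515904, W_16242196544, W_11997564992]⟩
theorem C_16292540481 : chkRec R_16292540481 = true := by decide +kernel

noncomputable def R_16292540544 : Rec := ⟨nat_lit 16292540544, nat_lit 51,
  [⟨V6_16242204672, [(nat_lit 11, nat_lit 16292540544), (nat_lit 17, nat_lit 17366282304), (nat_lit 85, nat_lit 17366278272), (nat_lit 49, nat_lit 17349505152), (nat_lit 107, nat_lit 18440024064), (nat_lit 51, nat_lit 18440020032), (nat_lit 35, nat_lit 18423246912), (nat_lit 20, nat_lit 18423242880), (nat_lit 109, nat_lit 18406469760), (nat_lit 34, nat_lit 19513761792), (nat_lit 42, nat_lit 19496988672), (nat_lit 108, nat_lit 19496984640), (nat_lit 46, nat_lit 19480211520), (nat_lit 39, nat_lit 19480207488), (nat_lit 119, nat_lit 19463434368), (nat_lit 18, nat_lit 20570726400), (nat_lit 65, nat_lit 20553953280), (nat_lit 39, nat_lit 20553949248), (nat_lit 56, nat_lit 20537176128), (nat_lit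 58, nat_lit 20537172096), (nat_lit 122, nat_lit 21627691008), (nat_lit 112, nat_lit 21610917888), (nat_lit 65, nat_lit 21610913856), (nat_lit 11, nat_lit 22684655616)]⟩,
   ⟨V6_16225423488, [(nat_lit 50, nat_lit 16292540544), (nat_lit 40, nat_lit 17366278272), (nat_lit 60, nat_lit 17349505152), (nat_lit 20, nat_lit 18440016000), (nat_lit 53, nat_lit 18423242880), (nat_lit 19, nat_lit 18406469760), (nat_lit 76, nat_lit 19496980608), (nat_lit 107, nat_lit 19480207488), (nat_lit 31, nat_lit 19463434368), (nat_lit 53, nat_lit 20553945216), (nat_lit 61, nat_lit 20537172096), (nat_lit 92, nat_lit 20520398976), (nat_lit 79, nat_lit 21610909824), (nat_lit 91, nat_lit 21594136704), (nat_lit 106, nat_lit 22667874432)]⟩,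
   ⟨V6_13071310848, [(nat_lit 1, nat_lit 16292540544), (nat_lit 121, nat_lit 17366282304), (nat_lit 112, nat_lit 17366278272), (nat_lit 45, nat_lit 18440024064), (nat_lit 20, nat_lit 18440020032), (nat_lit 85, nat_lit 19513761792)]⟩,
   ⟨V6_11997573120, [(nat_lit 96, nat_lit 16292540544), (nat_lit 73, nat_lit 17366282304), (nat_lit 60, nat_lit 18440024064)]⟩],
  [W_15202009088, W_15202001024, W_15185231936, W_14145044480, W_14145036416, W_13071298688, W_11997564992]⟩
theorem C_16292540544 : chkRec R_16292540544 = true := by decide +kernel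

noncomputable def R_16292786370 : Rec := ⟨nat_lit 16292786370, nat_lit 13,
  [⟨V6_16291475586, [(nat_lit 48, nat_lit 16292786370), (nat_lit 65, nat_lit 17366528130), (nat_lit 116, nat_lit 17366266050), (nat_lit 8, nat_lit 18440007810), (nat_lit 108, nat_lit 18439745730), (nat_lit 98, nat_lit 19513487490), (nat_lit 59, nat_lit 19513225410), (nat_lit 20, nat_lit 20586967170), (nat_lit 49, nat_lit 20586705090), (nat_lit 17, nat_lit 21660446850), (nat_lit 81, nat_lit 21660184770), (nat_lit 76, nat_lit 22733926530)]⟩,
   ⟨V6_16274960577, [(nat_lit 101, nat_lit 16292786370), (nat_lit 26, nat_lit 17366528193), (nat_lit 78, nat_lit 17366266050), (nat_lit 89, nat_lit 17349750978), (nat_lit 102, nat_lit 18440007873), (nat_lit 89, nat_lit 18439745730), (nat_lit 73, nat_lit 18423492801), (nat_lit 20, nat_lit 18423230658), (nat_lit 79, nat_lit 19513487553), (nat_lit 92, nat_lit 19513225410), (nat_lit 114, nat_lit 19496972481), (nat_lit 87, nat_lit 19496710338), (nat_lit 5, nat_lit 20586967233), (nat_lit 96, nat_lit 20586705090), (nat_lit 101, nat_lit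 20570452161), (nat_lit 49, nat_lit 20570190018), (nat_lit 3, nat_lit 21660446913), (nat_lit 30, nat_lit 21643931841), (nat_lit 66, nat_lit 21643669698), (nat_lit 66, nat_lit 22717411521)]⟩,
   ⟨V6_15168712896, [(nat_lit 93, nat_lit 16292786370), (nat_lit 54, nat_lit 17366528193), (nat_lit 98, nat_lit 17349750978), (nat_lit 107, nat_lit 18440270016), (nat_lit 47, nat_lit 18423492801), (nat_lit 3, nat_lit 18406715586), (nat_lit 89, nat_lit 19497234624), (nat_lit 92, nat_lit 19480457409), (nat_lit 2, nat_lit 19463680194), (nat_lit 103, nat_lit 20554199232), (nat_lit 107, nat_lit 20537422017), (nat_lit 58, nat_lit 21611163840)]⟩,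
   ⟨V6_14144254146, [(nat_lit 93, nat_lit 16292786370), (nat_lit 19, nat_lit 17366266050), (nat_lit 37, nat_lit 18439745730), (nat_lit 45, nat_lit 19513225410), (nat_lit 6, nat_lit 20586705090)]⟩,
   ⟨V6_13070774466, [(nat_lit 39, nat_lit 16292786370), (nat_lit 6, nat_lit 17366266050), (nat_lit 77, nat_lit 18439745730), (nat_lit 124, nat_lit 19513225410)]⟩],
  [W_15168712832, W_14111748224, W_13071298688, W_11997819008, W_11997556928, W_11981041856]⟩
theorem C_16292786370 : chkRec R_16292786370 = true := by decide +kernel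

noncomputable def R_16292790402 : Rec := ⟨nat_lit 16292790402, nat_lit 28,
  [⟨V6_16242450561, [(nat_lit 67, nat_lit 16292790402), (nat_lit 45, nat_lit 17366532225), (nat_lit 51, nat_lit 17366528130), (nat_lit 103, nat_lit 17349755010), (nat_lit 10, nat_lit 18440269953), (nat_lit 65, nat_lit 18440265858), (nat_lit 68, nat_lit 18423496833), (nat_lit 114, nat_lit 18423492738), (nat_lit 46, nat_lit 18406719618), (nat_lit 5, nat_lit 19514007681), (nat_lit 28, nat_lit 19497234561), (nat_lit 67, nat_lit 19497230466), (nat_lit 97, nat_lit 19480461441), (nat_lit 28, nat_lit 19480457346), (nat_lit 62, nat_lit 19463684226), (nat_lit 77, nat_lit 20570972289), (nat_lit 102, nat_lit 20554199169), (nat_lit 82, nat_lit 20554195074), (nat_lit 60, nat_lit 20537426049), (nat_lit 85, nat_lit 20537421954), (nat_lit 107, nat_lit 21627936897), (nat_lit 14, nat_lit 21611163777), (nat_lit 123, nat_lit 21611159682), (nat_lit 65, nat_lit 22684901505)]⟩,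
   ⟨V6_14145298560, [(nat_lit 20, nat_lit 16292790402), (nat_lit 50, nat_lit 17366532225), (nat_lit 79, nat_lit 17366528130), (nat_lit 19, nat_lit 18440274048), (nat_lit 126, nat_lit 18440269953), (nat_lit 96, nat_lit 18440265858), (nat_lit 34, nat_lit 19514011776), (nat_lit 34, nat_lit 19514007681), (nat_lit 20, nat_lit 20587749504)]⟩],
  [W_16274964608, W_16242450560, W_15218000000, W_15202001024, W_15185485952, W_15168712832, W_13071040640, W_11997560960]⟩
theorem C_16292790402 : chkRec R_16292790402 = true := by decide +kernel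

noncomputable def R_16292790465 : Rec := ⟨nat_lit 16292790465, nat_lit 66,
  [⟨V6_16291741824, [(nat_lit 105, nat_lit 16292790465), (nat_lit 49, nat_lit 17366532288), (nat_lit 78, nat_lit 17366532225), (nat_lit 109, nat_lit 17366270145), (nat_lit 60, nat_lit 18440274048), (nat_lit 30, nat_lit 18440011968), (nat_lit 107, nat_lit 18440011905), (nat_lit 78, nat_lit 18439749825), (nat_lit 101, nat_lit 19513753728), (nat_lit 43, nat_lit 19513491648), (nat_lit 71, nat_lit 19513491585), (nat_lit 69, nat_lit 19513229505), (nat_lit 19, nat_lit 20587233408), (nat_lit 45, nat_lit 20586971328), (nat_lit 64, nat_lit 20586971265), (nat_lit 121, nat_lit 20586709185), (nat_lit 58, nat_lit 21660713088), (nat_lit 74, nat_lit 21660451008), (nat_lit 71, nat_lit 21660450945), (nat_lit 15, nat_lit 22734192768)]⟩,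
   ⟨V6_16291741761, [(nat_lit 54, nat_lit 16292790465), (nat_lit 13, nat_lit 17366532225), (nat_lit 73, nat_lit 17366270145), (nat_lit 101, nat_lit 18440273985), (nat_lit 37, nat_lit 18440011905), (nat_lit 52, nat_lit 18439749825), (nat_lit 74, nat_lit 19513753665), (nat_lit 71, nat_lit 19513491585), (nat_lit 43, nat_lit 19513229505), (nat_lit 55, nat_lit 20587233345), (nat_lit 104, nat_lit 20586971265), (nat_lit 117, nat_lit 20586709185), (nat_lit 66, nat_lit 21660713025), (nat_lit 114, nat_lit 21660450945), (nat_lit 43, nat_lit 22734192705)]⟩,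
   ⟨V6_16274964672, [(nat_lit 49, nat_lit 16292790465), (nat_lit 89, nat_lit 17366532288), (nat_lit 31, nat_lit 17366270145), (nat_lit 103, nat_lit 17349755073), (nat_lit 114, nat_lit 18440011968), (nat_lit 24, nat_lit 18439749825), (nat_lit 91, nat_lit 18423496896), (nat_lit 74, nat_lit 18423234753), (nat_lit 91, nat_lit 19513491648), (nat_lit 18, nat_lit 19513229505), (nat_lit 39, nat_lit 19496976576), (nat_lit 31, nat_lit 19496714433), (nat_lit 27, nat_lit 20586971328), (nat_lit 101, nat_lit 20586709185), (nat_lit 49, nat_lit 20570456256), (nat_lit 111, nat_lit 20570194113), (nat_lit 111, nat_lit 21660451008), (nat_lit 13, nat_lit 21643935936), (nat_lit 33, nat_lit 21643673793), (nat_lit 116, nat_lit 22717415616)]⟩,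
   ⟨V6_16274960577, [(nat_lit 110, nat_lit 16292790465), (nat_lit 73, nat_lit 17366528193), (nat_lit 50, nat_lit 17366270145), (nat_lit 55, nat_lit 17349755073), (nat_lit 87, nat_lit 18440007873), (nat_lit 105, nat_lit 18439749825), (nat_lit 6, nat_lit 18423492801), (nat_lit 69, nat_lit 18423234753), (nat_lit 12, nat_lit 19513487553), (nat_lit 51, nat_lit 19513229505), (nat_lit 80, nat_lit 19496972481), (nat_lit 16, nat_lit 19496714433), (nat_lit 12, nat_lit 20586967233), (nat_lit 70, nat_lit 20586709185), (nat_lit 102, nat_lit 20570452161), (nat_lit 11, nat_lit 20570194113), (nat_lit 12, nat_lit 21660446913), (nat_lit 65, nat_lit 21643931841), (nat_lit 62, nat_lit 21643673793), (nat_lit 69, nat_lit 22717411521)]⟩],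
  [W_16242454592, W_16242196544, W_15185489984, W_15168716864, W_15168712832, W_14128525376, W_14128267328, W_14111752256, W_14094975104, W_13071560768, W_13054787648, W_13054783616, W_13021233344]⟩
theorem C_16292790465 : chkRec R_16292790465 = true := by decide +kernel

noncomputable def R_16292790528 : Rec := ⟨nat_lit 16292790528, nat_lit 60,
  [⟨V6_16291741824, [(nat_lit 103, nat_lit 16292790528), (nat_lit 15, nat_lit 17366532288), (nat_lit 39, nat_lit 17366270208), (nat_lit 45, nat_lit 18440274048), (nat_lit 111, nat_lit 18440011968), (nat_lit 41, nat_lit 18439749888), (nat_lit 78, nat_lit 19513753728), (nat_lit 78, nat_lit 19513491648), (nat_lit 100, nat_lit 19513229568), (nat_lit 106, nat_lit 20587233408), (nat_lit 110, nat_lit 20586971328), (nat_lit 69, nat_lit 20586709248), (nat_lit 99, nat_lit 21660713088), (nat_lit 33, nat_lit 21660451008), (nat_lit 52, nat_lit 22734192768)]⟩,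
   ⟨V6_16274964672, [(nat_lit 50, nat_lit 16292790528), (nat_lit 105, nat_lit 17366532288), (nat_lit 33, nat_lit 17366270208), (nat_lit 120, nat_lit 17349755136), (nat_lit 117, nat_lit 18440011968), (nat_lit 33, nat_lit 18439749888), (nat_lit 116, nat_lit 18423496896), (nat_lit 54, nat_lit 18423234816), (nat_lit 106, nat_lit 19513491648), (nat_lit 91, nat_lit 19513229568), (nat_lit 37, nat_lit 19496976576), (nat_lit 88, nat_lit 19496714496), (nat_lit 66, nat_lit 20586971328), (nat_lit 103, nat_lit 20586709248), (nat_lit 73, nat_lit 20570456256), (nat_lit 21, nat_lit 20570194176), (nat_lit 113, nat_lit 21660451008), (nat_lit 74, nat_lit 21643935936), (nat_lit 9, nat_lit 21643673856), (nat_lit 13, nat_lit 22717415616)]⟩,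
   ⟨V6_16258187520, [(nat_lit 92, nat_lit 16292790528), (nat_lit 63, nat_lit 17366270208), (nat_lit 32, nat_lit 17349755136), (nat_lit 87, nat_lit 18439749888), (nat_lit 30, nat_lit 18423234816), (nat_lit 95, nat_lit 18406719744), (nat_lit 21, nat_lit 19513229568), (nat_lit 87, nat_lit 19496714496), (nat_lit 125, nat_lit 19480199424), (nat_lit 104, nat_lit 20586709248), (nat_lit 47, nat_lit 20570194176), (nat_lit 48, nat_lit 20553679104), (nat_lit 33, nat_lit 21643673856), (nat_lit 100, nat_lit 21627158784), (nat_lit 12, nat_lit 22700638464)]⟩,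
   ⟨V6_14144258304, [(nat_lit 44, nat_lit 16292790528), (nat_lit 80, nat_lit 17366270208), (nat_lit 109, nat_lit 18439749888), (nat_lit 9, nat_lit 19513229568), (nat_lit 52, nat_lit 20586709248)]⟩],
  [W_16242458624, W_15202009088, W_15185494016, W_15168716864, W_14145044480, W_14128529408, W_11997823040]⟩
theorem C_16292790528 : chkRec R_16292790528 = true := by decide +kernel

noncomputable def R_16292794497 : Rec := ⟨nat_lit 16292794497, nat_lit 85,
  [⟨V6_16291995777, [(nat_lit 20, nat_lit 16292794497), (nat_lit 104, nat_lit 17366532225), (nat_lit 96, nat_lit 17366274177), (nat_lit 56, nat_lit 18440269953), (nat_lit 121, nat_lit 18440011905), (nat_lit 91, nat_lit 18439753857), (nat_lit 23, nat_lit 19514007681), (nat_lit 87, nat_lit 19513749633), (nat_lit 70, nat_lit 19513491585), (nat_lit 91, nat_lit 19513233537), (nat_lit 79, nat_lit 20587487361), (nat_lit 18, nat_lit 20587229313), (nat_lit 51, nat_lit 20586971265), (nat_lit 86, nat_lit 21660967041), (nat_lit 27, nat_lit 21660708993), (nat_lit 36, nat_lit 22734446721)]⟩,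
   ⟨V6_16276004928, [(nat_lit 83, nat_lit 16292794497), (nat_lit 41, nat_lit 17366536320), (nat_lit 121, nat_lit 17366536257), (nat_lit 81, nat_lit 17366532225), (nat_lit 64, nat_lit 17349759105), (nat_lit 19, nat_lit 18440278080), (nat_lit 116, nat_lit 18440274048), (nat_lit 118, nat_lit 18440273985), (nat_lit 116, nat_lit 18440269953), (nat_lit 40, nat_lit 18423500928), (nat_lit 67, nat_lit 18423500865), (nat_lit 37, nat_lit 18423496833), (nat_lit 91, nat_lit 19514015808), (nat_lit 45, nat_lit 19514011776), (nat_lit 49, nat_lit 19514011713), (nat_lit 44, nat_lit 19514007681), (nat_lit 77, nat_lit 19497242688), (nat_lit 51, nat_lit 19497238656), (nat_lit 90, nat_lit 19497238593), (nat_lit 60, nat_lit 19497234561), (nat_lit 56, nat_lit 20587753536), (nat_lit 62, nat_lit 20587749504), (nat_lit 35, nat_lit 20587749441), (nat_lit 59, nat_lit 20570980416), (nat_lit 81, nat_lit 20570976384), (nat_lit 123, nat_lit 20570976321), (nat_lit 77, nat_lit 20570972289), (nat_lit 85, nat_lit 21661491264), (nat_lit 69, nat_lit 21644718144), (nat_lit 55,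 nat_lit 21644714112), (nat_lit 75, nat_lit 21644714049), (nat_lit 17, nat_lit 22718455872)]⟩,
   ⟨V6_16242450561, [(nat_lit 87, nat_lit 16292794497), (nat_lit 115, nat_lit 17366532225), (nat_lit 74, nat_lit 17349759105), (nat_lit 126, nat_lit 18440269953), (nat_lit 54, nat_lit 18423496833), (nat_lit 96, nat_lit 18406723713), (nat_lit 28, nat_lit 19514007681), (nat_lit 126, nat_lit 19497234561), (nat_lit 123, nat_lit 19480461441), (nat_lit 85, nat_lit 19463688321), (nat_lit 27, nat_lit 20570972289), (nat_lit 94, nat_lit 20554199169), (nat_lit 78, nat_lit 20537426049), (nat_lit 56, nat_lit 21627936897), (nat_lit 10, nat_lit 21611163777), (nat_lit 67, nat_lit 22684901505)]⟩],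
  [W_16242454592, W_16242450560, W_16242196544, W_15218262080, W_15201747008, W_15201488960, W_15185231936, W_15168716864, W_14144782400, W_14144524352, W_13071044672, W_13071040640, W_13054267520, W_13021237376, W_11997564992, W_11997560960, W_11997302912]⟩
theorem C_16292794497 : chkRec R_16292794497 = true := by decide +kernel

noncomputable def R_16292794560 : Rec := ⟨nat_lit 16292794560, nat_lit 133,
  [⟨V6_16292007936, [(nat_lit 76, nat_lit 16292794560), (nat_lit 46, nat_lit 17366536320), (nat_lit 106, nat_lit 17366274240), (nat_lit 24, nat_lit 18440278080), (nat_lit 57, nat_lit 18440016000), (nat_lit 121, nat_lit 18439753920), (nat_lit 15, nat_lit 19514019840), (nat_lit 31, nat_lit 19513757760), (nat_lit 52, nat_lit 19513495680), (nat_lit 113, nat_lit 19513233600), (nat_lit 98, nat_lit 20587499520), (nat_lit 22, nat_lit 20587237440), (nat_lit 77, nat_lit 20586975360), (nat_lit 123, nat_lit 21660979200), (nat_lit 55, nat_lit 21660717120), (nat_lit 48, nat_lit 22734458880)]⟩,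
   ⟨V6_16276008960, [(nat_lit 64, nat_lit 16292794560), (nat_lit 41, nat_lit 17366536320), (nat_lit 46, nat_lit 17366532288), (nat_lit 46, nat_lit 17349759168), (nat_lit 19, nat_lit 18440278080), (nat_lit 116, nat_lit 18440274048), (nat_lit 84, nat_lit 18440270016), (nat_lit 40, nat_lit 18423500928), (nat_lit 86, nat_lit 18423496896), (nat_lit 110, nat_lit 19514019840), (nat_lit 91, nat_lit 19514015808), (nat_lit 45, nat_lit 19514011776), (nat_lit 77, nat_lit 19497242688), (nat_lit 51, nat_lit 19497238656), (nat_lit 24, nat_lit 19497234624), (nat_lit 77, nat_lit 20587757568), (nat_lit 56, nat_lit 20587753536), (nat_lit 68, nat_lit 20570984448), (nat_lit 59, nat_lit 20570980416), (nat_lit 81, nat_lit 20570976384), (nat_lit 3, nat_lit 21661495296), (nat_lit 54, nat_lit 21644722176), (nat_lit 69, nat_lit 21644718144), (nat_lit 82, nat_lit 22718459904)]⟩,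
   ⟨V6_16242462720, [(nat_lit 67, nat_lit 16292794560), (nat_lit 3, nat_lit 17366536320), (nat_lit 87, nat_lit 17349759168), (nat_lit 109, nat_lit 18440278080), (nat_lit 38, nat_lit 18423500928), (nat_lit 99, nat_lit 18406723776), (nat_lit 9, nat_lit 19514019840), (nat_lit 107, nat_lit 19497242688), (nat_lit 32, nat_lit 19480465536), (nat_lit 25, nat_lit 19463688384), (nat_lit 66, nat_lit 20570984448), (nat_lit 61, nat_lit 20554207296), (nat_lit 89, nat_lit 20537430144), (nat_lit 106, nat_lit 21627949056), (nat_lit 58, nat_lit 21611171904), (nat_lit 62, nat_lit 22684913664)]⟩,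
   ⟨V6_13071568896, [(nat_lit 122, nat_lit 16292794560), (nat_lit 4, nat_lit 17366536320), (nat_lit 11, nat_lit 18440278080), (nat_lit 84, nat_lit 19514019840)]⟩],
  [W_16275230720, W_16242458624, W_16242454592, W_16242196544, W_15218524160, W_15218262080, W_15202009088, W_15201747008, W_15185494016, W_15185489984, W_15168720896, W_15168716864, W_14145044480, W_14144516288, W_13071036608, W_11997556928, W_11997298880, W_11997040832]⟩
theorem C_16292794560 : chkRec R_16292794560 = true := by decide +kernel

noncomputable def R_16292798529 : Rec := ⟨nat_lit 16292798529, nat_lit 58,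
  [⟨V6_16276004928, [(nat_lit 121, nat_lit 16292798529), (nat_lit 97, nat_lit 17366540352), (nat_lit 54, nat_lit 17366536257), (nat_lit 46, nat_lit 17349763137), (nat_lit 101, nat_lit 18440278080), (nat_lit 78, nat_lit 18440273985), (nat_lit 13, nat_lit 18423504960), (nat_lit 6, nat_lit 18423500865), (nat_lit 92, nat_lit 19514015808), (nat_lit 117, nat_lit 19514011713), (nat_lit 78, nat_lit 19497242688), (nat_lit 76, nat_lit 19497238593), (nat_lit 112, nat_lit 20587753536), (nat_lit 20, nat_lit 20587749441), (nat_lit 22, nat_lit 20570980416), (nat_lit 17, nat_lit 20570976321), (nat_lit 32, nat_lit 21661491264), (nat_lit 10, nat_lit 21644718144), (nat_lit 67, nat_lit 21644714049), (nat_lit 52, nat_lit 22718455872)]⟩],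
  [W_16242196544, W_15184973888, W_15168716864, W_15168200768, W_14144782400, W_14111236160, W_14094979136, W_14094721088, W_13071044672, W_13054271552, W_13021241408, W_11997564992, W_11980791872]⟩
theorem C_16292798529 : chkRec R_16292798529 = true := by decide +kernel

noncomputable def R_16292798592 : Rec := ⟨nat_lit 16292798592, nat_lit 152,
  [⟨V6_16292782080, [(nat_lit 72, nat_lit 16292798592), (nat_lit 49, nat_lit 17366540352), (nat_lit 1, nat_lit 17366536320), (nat_lit 19, nat_lit 18440282112), (nat_lit 39, nat_lit 18440278080), (nat_lit 41, nat_lit 18440274048), (nat_lit 12, nat_lit 19514019840), (nat_lit 80, nat_lit 19514015808), (nat_lit 108, nat_lit 19514011776), (nat_lit 81, nat_lit 20587757568), (nat_lit 76, nat_lit 20587753536), (nat_lit 124, nat_lit 20587749504), (nat_lit 77, nat_lit 21661495296), (nat_lit 16, nat_lit 21661491264), (nat_lit 55, nat_lit 22735233024)]⟩,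
   ⟨V6_16258719744, [(nat_lit 24, nat_lit 16292798592), (nat_lit 14, nat_lit 17366540352), (nat_lit 100, nat_lit 17366278272), (nat_lit 57, nat_lit 17349763200), (nat_lit 27, nat_lit 18440282112), (nat_lit 111, nat_lit 18440020032), (nat_lit 54, nat_lit 18439757952), (nat_lit 77, nat_lit 18423504960), (nat_lit 84, nat_lit 18423242880), (nat_lit 36, nat_lit 18406727808), (nat_lit 25, nat_lit 19513761792), (nat_lit 75, nat_lit 19513499712), (nat_lit 53, nat_lit 19497246720), (nat_lit 67, nat_lit 19496984640), (nat_lit 79, nat_lit 19496722560), (nat_lit 35, nat_lit 19480469568), (nat_lit 53, nat_lit 19480207488), (nat_lit 14, nat_lit 20587241472), (nat_lit 79, nat_lit 20570726400), (nat_lit 35, nat_lit 20570464320), (nat_lit 9, nat_lit 20554211328), (nat_lit 79, nat_lit 20553949248), (nat_lit 108, nat_lit 20553687168), (nat_lit 99, nat_lit 21644206080), (nat_lit 10, nat_lit 21627691008), (nat_lit 123, nat_lit 21627428928), (nat_lit 105, nat_lit 22701170688)]⟩,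
   ⟨V6_16242462720, [(nat_lit 57, nat_lit 16292798592), (nat_lit 37, nat_lit 17366540352), (nat_lit 81, nat_lit 17366536320), (nat_lit 64, nat_lit 17349763200), (nat_lit 88, nat_lit 18440282112), (nat_lit 79, nat_lit 18440278080), (nat_lit 33, nat_lit 18423504960), (nat_lit 26, nat_lit 18423500928), (nat_lit 86, nat_lit 18406727808), (nat_lit 49, nat_lit 19514019840), (nat_lit 102, nat_lit 19497246720), (nat_lit 73, nat_lit 19497242688), (nat_lit 21, nat_lit 19480469568), (nat_lit 6, nat_lit 19480465536), (nat_lit 35, nat_lit 19463692416), (nat_lit 113, nat_lit 20570984448), (nat_lit 30, nat_lit 20554211328), (nat_lit 27, nat_lit 20554207296), (nat_lit 95, nat_lit 20537434176), (nat_lit 45, nat_lit 20537430144), (nat_lit 63, nat_lit 21627949056), (nat_lit 93, nat_lit 21611175936), (nat_lit 66, nat_lit 21611171904), (nat_lit 5, nat_lit 22684913664)]⟩,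
   ⟨V6_16242204672, [(nat_lit 115, nat_lit 16292798592), (nat_lit 126, nat_lit 17366540352), (nat_lit 51, nat_lit 17366278272), (nat_lit 12, nat_lit 17349763200), (nat_lit 43, nat_lit 18440282112), (nat_lit 91, nat_lit 18440020032), (nat_lit 9, nat_lit 18423504960), (nat_lit 98, nat_lit 18423242880), (nat_lit 91, nat_lit 18406727808), (nat_lit 37, nat_lit 19513761792), (nat_lit 62, nat_lit 19497246720), (nat_lit 117, nat_lit 19496984640), (nat_lit 122, nat_lit 19480469568), (nat_lit 82, nat_lit 19480207488), (nat_lit 57, nat_lit 19463692416), (nat_lit 89, nat_lit 20570726400), (nat_lit 71, nat_lit 20554211328), (nat_lit 38, nat_lit 20553949248), (nat_lit 70, nat_lit 20537434176), (nat_lit 95, nat_lit 20537172096), (nat_lit 55, nat_lit 21627691008), (nat_lit 37, nat_lit 21611175936), (nat_lit 95, nat_lit 21610913856), (nat_lit 9, nat_lit 22684655616)]⟩,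
   ⟨V6_15168724992, [(nat_lit 89, nat_lit 16292798592), (nat_lit 93, nat_lit 17366540352), (nat_lit 4, nat_lit 17349763200), (nat_lit 77, nat_lit 18440282112), (nat_lit 79, nat_lit 18423504960), (nat_lit 56, nat_lit 18406727808), (nat_lit 72, nat_lit 19497246720), (nat_lit 59, nat_lit 19480469568), (nat_lit 34, nat_lit 19463692416), (nat_lit 29, nat_lit 20554211328), (nat_lit 36, nat_lit 20537434176), (nat_lit 37, nat_lit 21611175936)]⟩],
  [W_16242458624, W_16242454592, W_16242450560, W_16242196544, W_15218524160, W_15202009088, W_15202001024, W_15201747008, W_15185494016, W_15185489984, W_15185485952, W_15168720896, W_15168716864, W_14145302528, W_14145036416, W_14128013312, W_14094983168, W_13071560768, W_13071556736, W_13071048704, W_11997819008, W_11997560960]⟩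
theorem C_16292798592 : chkRec R_16292798592 = true := by decide +kernel

noncomputable def R_16292802624 : Rec := ⟨nat_lit 16292802624, nat_lit 93,
  [⟨V6_16292782080, [(nat_lit 26, nat_lit 16292802624), (nat_lit 98, nat_lit 17366544384), (nat_lit 15, nat_lit 17366540352), (nat_lit 51, nat_lit 18440282112), (nat_lit 124, nat_lit 18440278080), (nat_lit 57, nat_lit 19514019840), (nat_lit 36, nat_lit 19514015808), (nat_lit 113, nat_lit 20587757568), (nat_lit 106, nat_lit 20587753536), (nat_lit 20, nat_lit 21661495296), (nat_lit 37, nat_lit 21661491264), (nat_lit 42, nat_lit 22735233024)]⟩,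
   ⟨V6_13071568896, [(nat_lit 81, nat_lit 16292802624), (nat_lit 67, nat_lit 17366544384), (nat_lit 58, nat_lit 17366540352), (nat_lit 51, nat_lit 18440282112), (nat_lit 1, nat_lit 18440278080), (nat_lit 98, nat_lit 19514019840)]⟩,
   ⟨V6_13071310848, [(nat_lit 29, nat_lit 16292802624), (nat_lit 79, nat_lit 17366544384), (nat_lit 122, nat_lit 17366540352), (nat_lit 98, nat_lit 17366282304), (nat_lit 61, nat_lit 18440282112), (nat_lit 74, nat_lit 18440024064), (nat_lit 49, nat_lit 18440020032), (nat_lit 51, nat_lit 19513761792)]⟩],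
  [W_16242458624, W_16242454592, W_16242196544, W_15202009088, W_15185494016, W_15185489984, W_15185231936, W_15168720896, W_15168716864, W_15168458816, W_14094983168, W_14094725120]⟩
theorem C_16292802624 : chkRec R_16292802624 = true := by decide +kernel

noncomputable def R_16292806656 : Rec := ⟨nat_lit 16292806656, nat_lit 30,
  [⟨V6_13071568896, [(nat_lit 67, nat_lit 16292806656), (nat_lit 103, nat_lit 17366544384), (nat_lit 16, nat_lit 18440282112), (nat_lit 94, nat_lit 19514019840)]⟩,
   ⟨V6_13021249536, [(nat_lit 1, nat_lit 16292806656), (nat_lit 126, nat_lit 17349771264), (nat_lit 73, nat_lit 18406735872), (nat_lit 9, nat_lit 19463700480)]⟩,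
   ⟨V6_11981058048, [(nat_lit 44, nat_lit 16292806656), (nat_lit 57, nat_lit 17366544384), (nat_lit 42, nat_lit 17349771264), (nat_lit 4, nat_lit 18423508992)]⟩],
  [W_16292777984, W_16242458624, W_15168720896]⟩
theorem C_16292806656 : chkRec R_16292806656 = true := by decide +kernel

noncomputable def R_16293048450 : Rec := ⟨nat_lit 16293048450, nat_lit 15,
  [⟨V6_16291475586, [(nat_lit 95, nat_lit 16293048450), (nat_lit 86, nat_lit 17366528130), (nat_lit 124, nat_lit 18440007810), (nat_lit 96, nat_lit 19513487490), (nat_lit 61, nat_lit 20586967170), (nat_lit 40, nat_lit 21660446850), (nat_lit 18, nat_lit 22733926530)]⟩,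
   ⟨V6_15185748096, [(nat_lit 49, nat_lit 16293048450), (nat_lit 52, nat_lit 17366790273), (nat_lit 91, nat_lit 17366786178), (nat_lit 5, nat_lit 17350013058), (nat_lit 92, nat_lit 18440532096), (nat_lit 27, nat_lit 18440528001), (nat_lit 105, nat_lit 18423754881), (nat_lit 42, nat_lit 18423750786), (nat_lit 80, nat_lit 18406977666), (nat_lit 49, nat_lit 19514269824), (nat_lit 74, nat_lit 19497496704), (nat_lit 8, nat_lit 19497492609), (nat_lit 7, nat_lit 19480719489), (nat_lit 20, nat_lit 19480715394), (nat_lit 116, nat_lit 20571234432), (nat_lit 124, nat_lit 20554461312), (nat_lit 125, nat_lit 20554457217), (nat_lit 88, nat_lit 21628199040)]⟩,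
   ⟨V6_14112006273, [(nat_lit 71, nat_lit 16293048450), (nat_lit 35, nat_lit 17366790273), (nat_lit 57, nat_lit 17366786178), (nat_lit 123, nat_lit 17350013058), (nat_lit 77, nat_lit 18440528001), (nat_lit 80, nat_lit 18423754881), (nat_lit 36, nat_lit 18423750786), (nat_lit 123, nat_lit 18406977666), (nat_lit 79, nat_lit 19497492609), (nat_lit 85, nat_lit 19480719489), (nat_lit 119, nat_lit 19480715394), (nat_lit 96, nat_lit 20554457217)]⟩,
   ⟨V6_13071294594, [(nat_lit 92, nat_lit 16293048450), (nat_lit 114, nat_lit 17366786178), (nat_lit 115, nat_lit 17366528130), (nat_lit 78, nat_lit 18440265858), (nat_lit 55, nat_lit 18440007810), (nat_lit 104, nat_lit 19513745538)]⟩,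
   ⟨V6_11998077057, [(nat_lit 113, nat_lit 16293048450), (nat_lit 96, nat_lit 17366790273), (nat_lit 34, nat_lit 17366786178), (nat_lit 28, nat_lit 18440528001)]⟩],
  [W_16291737728, W_15202001024, W_14111748224, W_11997819008, W_11981303936]⟩
theorem C_16293048450 : chkRec R_16293048450 = true := by decide +kernel

noncomputable def R_16293048513 : Rec := ⟨nat_lit 16293048513, nat_lit 29,
  [⟨V6_14128787520, [(nat_lit 25, nat_lit 16293048513), (nat_lit 35, nat_lit 17366790336), (nat_lit 42, nat_lit 17366790273), (nat_lit 72, nat_lit 17350013121), (nat_lit 9, nat_lit 18440532096), (nat_lit 95, nat_lit 18440532033), (nat_lit 47, nat_lit 18423754944), (nat_lit 124, nat_lit 18423754881), (nat_lit 9, nat_lit 19514273856), (nat_lit 99, nat_lit 19497496704), (nat_lit 75, nat_lit 19497496641), (nat_lit 2, nat_lit 20571238464)]⟩],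
  [W_16291737728, W_16274960576, W_16258445504, W_15185489984, W_14111748224, W_14111486144, W_13071560768, W_11997556928, W_11964526784]⟩
theorem C_16293048513 : chkRec R_16293048513 = true := by decide +kernel

noncomputable def R_16293052545 : Rec := ⟨nat_lit 16293052545, nat_lit 69,
  [⟨V6_16291995777, [(nat_lit 118, nat_lit 16293052545), (nat_lit 31, nat_lit 17366790273), (nat_lit 85, nat_lit 17366532225), (nat_lit 110, nat_lit 18440528001), (nat_lit 98, nat_lit 18440269953), (nat_lit 87, nat_lit 18440011905), (nat_lit 31, nat_lit 19514007681), (nat_lit 69, nat_lit 19513749633), (nat_lit 71, nat_lit 19513491585), (nat_lit 42, nat_lit 20587487361), (nat_lit 37, nat_lit 20587229313), (nat_lit 99, nat_lit 20586971265), (nat_lit 23, nat_lit 21660967041), (nat_lit 124, nat_lit 21660708993), (nat_lit 90, nat_lit 22734446721)]⟩,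
   ⟨V6_16291741824, [(nat_lit 70, nat_lit 16293052545), (nat_lit 33, nat_lit 17366794368), (nat_lit 57, nat_lit 17366532225), (nat_lit 8, nat_lit 18440274048), (nat_lit 37, nat_lit 18440011905), (nat_lit 111, nat_lit 19513753728), (nat_lit 114, nat_lit 19513491585), (nat_lit 51, nat_lit 20587233408), (nat_lit 96, nat_lit 20586971265), (nat_lit 64, nat_lit 21660713088), (nat_lit 102, nat_lit 21660450945), (nat_lit 80, nat_lit 22734192768)]⟩,
   ⟨V6_16291741761, [(nat_lit 23, nat_lit 16293052545), (nat_lit 17, nat_lit 17366794305), (nat_lit 73, nat_lit 17366532225), (nat_lit 42, nat_lit 18440273985), (nat_lit 103, nat_lit 18440011905), (nat_lit 66, nat_lit 19513753665), (nat_lit 114, nat_lit 19513491585), (nat_lit 57, nat_lit 20587233345), (nat_lit 29, nat_lit 20586971265), (nat_lit 102, nat_lit 21660713025), (nat_lit 1, nat_lit 21660450945), (nat_lit 123, nat_lit 22734192705)]⟩,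
   ⟨V6_15185748033, [(nat_lit 14, nat_lit 16293052545), (nat_lit 111, nat_lit 17366794305), (nat_lit 41, nat_lit 17366790273), (nat_lit 38, nat_lit 17350017153), (nat_lit 38, nat_lit 18440532033), (nat_lit 115, nat_lit 18440528001), (nat_lit 99, nat_lit 18423758913), (nat_lit 68, nat_lit 18423754881), (nat_lit 92, nat_lit 18406981761), (nat_lit 75, nat_lit 19514269761), (nat_lit 84, nat_lit 19497496641), (nat_lit 64, nat_lit 19497492609), (nat_lit 109, nat_lit 19480723521), (nat_lit 76, nat_lit 19480719489), (nat_lit 83, nat_lit 20571234369), (nat_lit 73, nat_lit 20554461249), (nat_lit 53, nat_lit 20554457217), (nat_lit 30, nat_lit 21628198977)]⟩,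
   ⟨V6_11998077057, [(nat_lit 59, nat_lit 16293052545), (nat_lit 6, nat_lit 17366790273), (nat_lit 117, nat_lit 18440528001)]⟩],
  [W_15202001024, W_15201747008, W_15185748032, W_15185489984, W_15185231936, W_14144782400, W_14128783424, W_14128525376, W_13071560768, W_13071040640, W_11998081088, W_11997819008]⟩
theorem C_16293052545 : chkRec R_16293052545 = true := by decide +kernel

noncomputable def R_16293052608 : Rec := ⟨nat_lit 16293052608, nat_lit 100,
  [⟨V6_16291741824, [(nat_lit 57, nat_lit 16293052608), (nat_lit 77, nat_lit 17366794368), (nat_lit 96, nat_lit 17366532288), (nat_lit 4, nat_lit 18440274048), (nat_lit 42, nat_lit 18440011968), (nat_lit 17, nat_lit 19513753728), (nat_lit 94, nat_lit 19513491648), (nat_lit 120, nat_lit 20587233408), (nat_lit 88, nat_lit 20586971328), (nat_lit 90, nat_lit 21660713088), (nat_lit 9, nat_lit 21660451008), (nat_lit 56, nat_lit 22734192768)]⟩,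
   ⟨V6_16276008960, [(nat_lit 66, nat_lit 16293052608), (nat_lit 23, nat_lit 17366794368), (nat_lit 107, nat_lit 17366790336), (nat_lit 116, nat_lit 17366532288), (nat_lit 28, nat_lit 17350017216), (nat_lit 49, nat_lit 18440536128), (nat_lit 51, nat_lit 18440532096), (nat_lit 25, nat_lit 18440274048), (nat_lit 76, nat_lit 18440270016), (nat_lit 43, nat_lit 18423758976), (nat_lit 78, nat_lit 18423754944), (nat_lit 90, nat_lit 18423496896), (nat_lit 10, nat_lit 19514277888), (nat_lit 47, nat_lit 19514273856), (nat_lit 17, nat_lit 19514015808), (nat_lit 16, nat_lit 19514011776), (nat_lit 68, nat_lit 19497500736), (nat_lit 69, nat_lit 19497496704), (nat_lit 16, nat_lit 19497238656), (nat_lit 92, nat_lit 19497234624), (nat_lit 126, nat_lit 20588015616), (nat_lit 45, nat_lit 20587757568), (nat_lit 124, nat_lit 20587753536), (nat_lit 89, nat_lit 20571242496), (nat_lit 12, nat_lit 20571238464), (nat_lit 103, nat_lit 20570980416), (nat_lit 114, nat_lit 20570976384), (nat_lit 126, nat_lit 21661495296), (nat_lit 81, nat_lit 21644980224), (nat_lit 14,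 nat_lit 21644722176), (nat_lit 14, nat_lit 21644718144), (nat_lit 107, nat_lit 22718459904)]⟩],
  [W_15218524160, W_15202009088, W_15201747008, W_15185752064, W_15185494016, W_15185231936, W_14145044480, W_14128787456, W_14112010304, W_13071040640, W_11997556928, W_11964526784]⟩
theorem C_16293052608 : chkRec R_16293052608 = true := by decide +kernel

noncomputable def R_16293056577 : Rec := ⟨nat_lit 16293056577, nat_lit 57,
  [⟨V6_16276004928, [(nat_lit 99, nat_lit 16293056577), (nat_lit 17, nat_lit 17366798400), (nat_lit 51, nat_lit 17366794305), (nat_lit 50, nat_lit 17366536257), (nat_lit 67, nat_lit 17350021185), (nat_lit 105, nat_lit 18440536128), (nat_lit 48, nat_lit 18440532033), (nat_lit 31, nat_lit 18440278080), (nat_lit 31, nat_lit 18440273985), (nat_lit 105, nat_lit 18423763008), (nat_lit 54, nat_lit 18423758913), (nat_lit 116, nat_lit 18423500865), (nat_lit 88, nat_lit 19514273856), (nat_lit 108, nat_lit 19514269761), (nat_lit 107, nat_lit 19514015808), (nat_lit 87, nat_lit 19514011713), (nat_lit 106, nat_lit 19497500736), (nat_lit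 41, nat_lit 19497496641), (nat_lit 80, nat_lit 19497242688), (nat_lit 50, nat_lit 19497238593), (nat_lit 8, nat_lit 20588011584), (nat_lit 46, nat_lit 20587753536), (nat_lit 51, nat_lit 20587749441), (nat_lit 66, nat_lit 20571238464), (nat_lit 47, nat_lit 20571234369), (nat_lit 68, nat_lit 20570980416), (nat_lit 33, nat_lit 20570976321), (nat_lit 100, nat_lit 21661491264), (nat_lit 33, nat_lit 21644976192), (nat_lit 15, nat_lit 21644718144), (nat_lit 21, nat_lit 21644714049), (nat_lit 91, nat_lit 22718455872)]⟩],
  [W_16258453568, W_15218262080, W_15201747008, W_15185231936, W_15184973888, W_14144782400, W_14144524352, W_13071044672, W_11997564992]⟩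
theorem C_16293056577 : chkRec R_16293056577 = true := by decide +kernel

end Crest.Agent.R187.SN.Top
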