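import Crest.Agent.R187.SN.Top
import Crest.Agent.R187.SN.TD.X6_0
import Crest.Agent.R187.SN.TD.X6_1
import Crest.Agent.R187.SN.TD.X6_2
import Crest.Agent.R187.SN.TD.X6_3
import Crest.Agent.R187.SN.TD.X6_4
import Crest.Agent.R187.SN.TD.W7_0
import Crest.Agent.R187.SN.TD.W7_1

/-!
# Row 187, PLAN S, generated certificate data (mod 127): rank records and checks, chunk 6

Written by a C++ program (helper824).  The tables are only data: every property is checked by
the kernel.
-/

set_option autoImplicit false
set_option maxRecDepth 100000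
set_option Elab.async false

namespace Crest.Agent.R187.SN.Top

noncomputable def R_16293056640 : Rec := ⟨nat_lit 16293056640, nat_lit 144,
  [⟨V6_16292782080, [(nat_lit 106, nat_lit 16293056640), (nat_lit 117, nat_lit 17366798400), (nat_lit 121, nat_lit 17366794368), (nat_lit 108, nat_lit 17366536320), (nat_lit 114, nat_lit 18440540160), (nat_lit 3, nat_lit 18440536128), (nat_lit 36, nat_lit 18440532096), (nat_lit 43, nat_lit 18440278080), (nat_lit 14, nat_lit 18440274048), (nat_lit 12, nat_lit 19514277888), (nat_lit 75, nat_lit 19514273856), (nat_lit 17, nat_lit 19514269824), (nat_lit 9, nat_lit 19514019840), (nat_lit 58, nat_lit 19514015808), (nat_lit 66, nat_lit 19514011776), (nat_lit 66, nat_lit 20588015616), (nat_lit 19, nat_lit 20588011584), (nat_lit 6, nat_lit 20587757568), (nat_lit 40, nat_lit 20587753536), (nat_lit 79, nat_lit 20587749504), (nat_lit 15, nat_lit 21661753344), (nat_lit 92, nat_lit 21661495296), (nat_lit 119, nat_lit 21661491264), (nat_lit 119, nat_lit 22735233024)]⟩,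
   ⟨V6_16276267008, [(nat_lit 50, nat_lit 16293056640), (nat_lit 113, nat_lit 17366798400), (nat_lit 95, nat_lit 17366794368), (nat_lit 24, nat_lit 17350021248), (nat_lit 66, nat_lit 18440540160), (nat_lit 80, nat_lit 18440536128), (nat_lit 27, nat_lit 18440532096), (nat_lit 97, nat_lit 18423763008), (nat_lit 56, nat_lit 18423758976), (nat_lit 97, nat_lit 19514277888), (nat_lit 59, nat_lit 19514273856), (nat_lit 88, nat_lit 19514269824), (nat_lit 117, nat_lit 19497504768), (nat_lit 10, nat_lit 19497500736), (nat_lit 74, nat_lit 19497496704), (nat_lit 78, nat_lit 20588015616), (nat_lit 51, nat_lit 20588011584), (nat_lit 7, nat_lit 20571242496), (nat_lit 16, nat_lit 20571238464), (nat_lit 33, nat_lit 20571234432), (nat_lit 85, nat_lit 21661753344), (nat_lit 100, nat_lit 21644980224), (nat_lit 61, nat_lit 21644976192), (nat_lit 36, nat_lit 22718717952)]⟩,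
   ⟨V6_15219302400, [(nat_lit 110, nat_lit 16293056640), (nat_lit 64, nat_lit 17366798400), (nat_lit 120, nat_lit 17366794368), (nat_lit 34, nat_lit 18440540160), (nat_lit 56, nat_lit 18440536128), (nat_lit 123, nat_lit 18440532096), (nat_lit 72, nat_lit 19514277888), (nat_lit 36, nat_lit 19514273856), (nat_lit 87, nat_lit 19514269824), (nat_lit 53, nat_lit 20588015616), (nat_lit 99, nat_lit 20588011584), (nat_lit 33, nat_lit 21661753344)]⟩],
  [W_16258453568, W_15218524160, W_15218262080, W_15201747008, W_15185494016, W_15185231936, W_15184973888, W_15184969856, W_14144782400, W_14144524352, W_14128267328, W_14127747200, W_14111748224, W_14111494208, W_14111232128, W_13071298688, W_13071044672, W_13071040640, W_13070782592, W_13054525568, W_13054267520, W_13037752448, W_11997564992, W_11997302912, W_11981049920, W_11980787840, W_11964534848, W_11964272768]⟩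
theorem C_16293056640 : chkRec R_16293056640 = true := by decide +kernel

noncomputable def R_16293060672 : Rec := ⟨nat_lit 16293060672, nat_lit 130,
  [⟨V6_16292782080, [(nat_lit 69, nat_lit 16293060672), (nat_lit 86, nat_lit 17366802432), (nat_lit 119, nat_lit 17366798400), (nat_lit 9, nat_lit 17366540352), (nat_lit 62, nat_lit 18440540160), (nat_lit 39, nat_lit 18440536128), (nat_lit 12, nat_lit 18440282112), (nat_lit 53, nat_lit 18440278080), (nat_lit 86, nat_lit 19514277888), (nat_lit 10, nat_lit 19514273856), (nat_lit 11, nat_lit 19514019840), (nat_lit 94, nat_lit 19514015808), (nat_lit 55, nat_lit 20588015616), (nat_lit 20, nat_lit 20588011584), (nat_lit 98, nat_lit 20587757568), (nat_lit 22, nat_lit 20587753536), (nat_lit 92, nat_lit 21661753344), (nat_lit 94, nat_lit 21661495296), (nat_lit 119, nat_lit 21661491264), (nat_lit 77, nat_lit 22735233024)]⟩,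
   ⟨V6_16276262976, [(nat_lit 23, nat_lit 16293060672), (nat_lit 103, nat_lit 17366798400), (nat_lit 76, nat_lit 17350025280), (nat_lit 39, nat_lit 18440536128), (nat_lit 35, nat_lit 18423763008), (nat_lit 89, nat_lit 19514273856), (nat_lit 41, nat_lit 19497500736), (nat_lit 20, nat_lit 20588011584), (nat_lit 57, nat_lit 20571238464), (nat_lit 74, nat_lit 21661749312), (nat_lit 89, nat_lit 21644976192), (nat_lit 21, nat_lit 22718713920)]⟩,
   ⟨V6_15219302400, [(nat_lit 22, nat_lit 16293060672), (nat_lit 38, nat_lit 17366802432), (nat_lit 102, nat_lit 17366798400), (nat_lit 43, nat_lit 18440540160), (nat_lit 93, nat_lit 18440536128), (nat_lit 8, nat_lit 19514277888), (nat_lit 81, nat_lit 19514273856), (nat_lit 23, nat_lit 20588015616), (nat_lit 24, nat_lit 20588011584), (nat_lit 50, nat_lit 21661753344)]⟩,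
   ⟨V6_13071568896, [(nat_lit 111, nat_lit 16293060672), (nat_lit 83, nat_lit 17366802432), (nat_lit 39, nat_lit 17366798400), (nat_lit 111, nat_lit 17366540352), (nat_lit 45, nat_lit 18440540160), (nat_lit 12, nat_lit 18440282112), (nat_lit 67, nat_lit 18440278080), (nat_lit 10, nat_lit 19514019840)]⟩],
  [W_16276262912, W_16259485760, W_15218524160, W_15202525184, W_15202009088, W_15201747008, W_15185494016, W_15185489984, W_15185231936, W_15184973888, W_14145044480, W_14128013312, W_14111236160, W_13071048704]⟩
theorem C_16293060672 : chkRec R_16293060672 = true := by decide +kernel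

noncomputable def R_16293064704 : Rec := ⟨nat_lit 16293064704, nat_lit 59,
  [⟨V6_15219302400, [(nat_lit 36, nat_lit 16293064704), (nat_lit 104, nat_lit 17366802432), (nat_lit 78, nat_lit 18440540160), (nat_lit 42, nat_lit 19514277888), (nat_lit 58, nat_lit 20588015616), (nat_lit 47, nat_lit 21661753344)]⟩,
   ⟨V6_13071310848, [(nat_lit 41, nat_lit 16293064704), (nat_lit 5, nat_lit 17366802432), (nat_lit 118, nat_lit 17366544384), (nat_lit 34, nat_lit 18440282112), (nat_lit 112, nat_lit 18440024064), (nat_lit 5, nat_lit 19513761792)]⟩,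
   ⟨V6_11997573120, [(nat_lit 37, nat_lit 16293064704), (nat_lit 80, nat_lit 17366544384), (nat_lit 107, nat_lit 18440024064)]⟩,
   ⟨V6_11981058048, [(nat_lit 78, nat_lit 16293064704), (nat_lit 118, nat_lit 17366544384), (nat_lit 25, nat_lit 17350029312), (nat_lit 34, nat_lit 18423508992)]⟩],
  [W_16276262912, W_16259489792, W_15219298304, W_15202009088, W_15185752064, W_15185494016, W_14112014336, W_11980795904]⟩
theorem C_16293064704 : chkRec R_16293064704 = true := by decide +kernel

noncomputable def R_16293306498 : Rec := ⟨nat_lit 16293306498, nat_lit 4,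
  [⟨V6_13054779522, [(nat_lit 34, nat_lit 16293306498), (nat_lit 110, nat_lit 17366786178), (nat_lit 62, nat_lit 17350271106), (nat_lit 69, nat_lit 18440265858), (nat_lit 1, nat_lit 18423750786), (nat_lit 58, nat_lit 19497230466)]⟩,
   ⟨V6_11981561985, [(nat_lit 71, nat_lit 16293306498), (nat_lit 53, nat_lit 17367048321), (nat_lit 111, nat_lit 17350271106), (nat_lit 31, nat_lit 18424012929)]⟩],
  [W_16291995776]⟩
theorem C_16293306498 : chkRec R_16293306498 = true := by decide +kernel

noncomputable def R_16293310593 : Rec := ⟨nat_lit 16293310593, nat_lit 36,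
  [⟨V6_16291995777, [(nat_lit 1, nat_lit 16293310593), (nat_lit 82, nat_lit 17367048321), (nat_lit 5, nat_lit 17366790273), (nat_lit 98, nat_lit 18440528001), (nat_lit 10, nat_lit 18440269953), (nat_lit 126, nat_lit 19514007681), (nat_lit 53, nat_lit 19513749633), (nat_lit 123, nat_lit 20587487361), (nat_lit 75, nat_lit 20587229313), (nat_lit 60, nat_lit 21660967041), (nat_lit 86, nat_lit 21660708993), (nat_lit 70, nat_lit 22734446721)]⟩,
   ⟨V6_14145298560, [(nat_lit 100, nat_lit 16293310593), (nat_lit 58, nat_lit 17367052416), (nat_lit 29, nat_lit 17367048321), (nat_lit 58, nat_lit 17366790273), (nat_lit 64, nat_lit 18440790144), (nat_lit 64, nat_lit 18440532096), (nat_lit 67, nat_lit 18440528001), (nat_lit 93, nat_lit 18440269953), (nat_lit 52, nat_lit 19514269824), (nat_lit 1, nat_lit 19514011776), (nat_lit 37, nat_lit 19514007681), (nat_lit 85, nat_lit 20587749504)]⟩],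
  [W_15202001024, W_14128783424, W_14128525376, W_13071818816, W_13071560768, W_13055303744, W_13055045696, W_13055041664, W_11998081088, W_11997819008, W_11981561984, W_11981303936]⟩
theorem C_16293310593 : chkRec R_16293310593 = true := by decide +kernel

noncomputable def R_16293310656 : Rec := ⟨nat_lit 16293310656, nat_lit 38,
  [⟨V6_15202529280, [(nat_lit 19, nat_lit 16293310656), (nat_lit 85, nat_lit 17367052416), (nat_lit 54, nat_lit 17366790336), (nat_lit 22, nat_lit 17350275264), (nat_lit 107, nat_lit 18440794176), (nat_lit 80, nat_lit 18440532096), (nat_lit 92, nat_lit 18424017024), (nat_lit 70, nat_lit 18423754944), (nat_lit 18, nat_lit 19514535936), (nat_lit 16, nat_lit 19514273856), (nat_lit 104, nat_lit 19497758784), (nat_lit 103, nat_lit 19497496704), (nat_lit 82, nat_lit 20588015616), (nat_lit 2, nat_lit 20571500544), (nat_lit 33, nat_lit 20571238464), (nat_lit 78, nat_lit 21644980224)]⟩],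
  [W_14145302528, W_14144516288, W_14128787456, W_14128001216, W_13071560768, W_13071298688, W_13071036608, W_11998343168, W_11998081088, W_11997819008, W_11997556928]⟩
theorem C_16293310656 : chkRec R_16293310656 = true := by decide +kernel

noncomputable def R_16293314625 : Rec := ⟨nat_lit 16293314625, nat_lit 41,
  [⟨V6_16291741761, [(nat_lit 30, nat_lit 16293314625), (nat_lit 33, nat_lit 17366794305), (nat_lit 96, nat_lit 18440273985), (nat_lit 88, nat_lit 19513753665), (nat_lit 67, nat_lit 20587233345), (nat_lit 22, nat_lit 21660713025), (nat_lit 65, nat_lit 22734192705)]⟩,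
   ⟨V6_16276262976, [(nat_lit 6, nat_lit 16293314625), (nat_lit 68, nat_lit 17367056448), (nat_lit 71, nat_lit 17367052353), (nat_lit 115, nat_lit 17366794305), (nat_lit 80, nat_lit 17350279233), (nat_lit 115, nat_lit 18440794176), (nat_lit 11, nat_lit 18440790081), (nat_lit 46, nat_lit 18440536128), (nat_lit 72, nat_lit 18440532033), (nat_lit 31, nat_lit 18424021056), (nat_lit 6, nat_lit 18424016961), (nat_lit 83, nat_lit 18423758913), (nat_lit 115, nat_lit 19514531904), (nat_lit 2, nat_lit 19514527809), (nat_lit 30, nat_lit 19514273856), (nat_lit 123, nat_lit 19514269761), (nat_lit 56, nat_lit 19497758784), (nat_lit 23, nat_lit 19497754689), (nat_lit 18, nat_lit 19497500736), (nat_lit 26, nat_lit 19497496641), (nat_lit 113, nat_lit 20588269632), (nat_lit 97, nat_lit 20588011584), (nat_lit 72, nat_lit 20588007489), (nat_lit 54, nat_lit 20571496512), (nat_lit 91, nat_lit 20571492417), (nat_lit 25, nat_lit 20571238464), (nat_lit 112, nat_lit 20571234369), (nat_lit 36, nat_lit 21661749312), (nat_lit 54, nat_lit 21645234240), (nat_lit 53, nat_lit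 21644976192), (nat_lit 50, nat_lit 21644972097), (nat_lit 87, nat_lit 22718713920)]⟩,
   ⟨V6_15202783296, [(nat_lit 105, nat_lit 16293314625), (nat_lit 3, nat_lit 17367056448), (nat_lit 39, nat_lit 17367052353), (nat_lit 27, nat_lit 17350279233), (nat_lit 76, nat_lit 18440794176), (nat_lit 39, nat_lit 18440790081), (nat_lit 59, nat_lit 18424021056), (nat_lit 103, nat_lit 18424016961), (nat_lit 98, nat_lit 19514531904), (nat_lit 126, nat_lit 19514527809), (nat_lit 110, nat_lit 19497758784), (nat_lit 122, nat_lit 19497754689), (nat_lit 68, nat_lit 20588269632), (nat_lit 95, nat_lit 20571496512), (nat_lit 35, nat_lit 20571492417), (nat_lit 125, nat_lit 21645234240)]⟩,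
   ⟨V6_14129041473, [(nat_lit 30, nat_lit 16293314625), (nat_lit 63, nat_lit 17367052353), (nat_lit 107, nat_lit 17350279233), (nat_lit 123, nat_lit 18440790081), (nat_lit 94, nat_lit 18424016961), (nat_lit 116, nat_lit 19514527809), (nat_lit 72, nat_lit 19497754689), (nat_lit 79, nat_lit 20571492417)]⟩],
  [W_15218262080, W_15201747008, W_14144782400, W_14128267328, W_13071302720, W_11998081088, W_11997823040]⟩
theorem C_16293314625 : chkRec R_16293314625 = true := by decide +kernel

noncomputable def R_16293314688 : Rec := ⟨nat_lit 16293314688, nat_lit 103,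
  [⟨V6_16292782080, [(nat_lit 44, nat_lit 16293314688), (nat_lit 7, nat_lit 17367056448), (nat_lit 1, nat_lit 17367052416), (nat_lit 59, nat_lit 17366794368), (nat_lit 19, nat_lit 18440798208), (nat_lit 46, nat_lit 18440794176), (nat_lit 37, nat_lit 18440790144), (nat_lit 4, nat_lit 18440536128), (nat_lit 79, nat_lit 18440532096), (nat_lit 55, nat_lit 18440274048), (nat_lit 34, nat_lit 19514535936), (nat_lit 68, nat_lit 19514531904), (nat_lit 43, nat_lit 19514277888), (nat_lit 48, nat_lit 19514273856), (nat_lit 125, nat_lit 19514269824), (nat_lit 14, nat_lit 19514015808), (nat_lit 41, nat_lit 19514011776), (nat_lit 109, nat_lit 20588273664), (nat_lit 17, nat_lit 20588015616), (nat_lit 45, nat_lit 20588011584), (nat_lit 34, nat_lit 20587757568), (nat_lit 122, nat_lit 20587753536), (nat_lit 68, nat_lit 20587749504), (nat_lit 9, nat_lit 21661753344), (nat_lit 108, nat_lit 21661495296), (nat_lit 86, nat_lit 21661491264), (nat_lit 120, nat_lit 22735233024)]⟩,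
   ⟨V6_15219302400, [(nat_lit 21, nat_lit 16293314688), (nat_lit 65, nat_lit 17367056448), (nat_lit 75, nat_lit 17367052416), (nat_lit 90, nat_lit 17366794368), (nat_lit 12, nat_lit 18440798208), (nat_lit 82, nat_lit 18440794176), (nat_lit 16, nat_lit 18440790144), (nat_lit 117, nat_lit 18440536128), (nat_lit 90, nat_lit 18440532096), (nat_lit 124, nat_lit 19514535936), (nat_lit 38, nat_lit 19514531904), (nat_lit 4, nat_lit 19514277888), (nat_lit 84, nat_lit 19514273856), (nat_lit 57, nat_lit 19514269824), (nat_lit 60, nat_lit 20588273664), (nat_lit 81, nat_lit 20588015616), (nat_lit 54, nat_lit 20588011584), (nat_lit 96, nat_lit 21661753344)]⟩],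
  [W_15218524160, W_15202009088, W_15201747008, W_14145044480, W_14129045504, W_14128787456, W_14128525376, W_14128267328, W_14128263296, W_13071040640, W_13055307776, W_11981566016]⟩
theorem C_16293314688 : chkRec R_16293314688 = true := by decide +kernel

noncomputable def R_16293318720 : Rec := ⟨nat_lit 16293318720, nat_lit 111,
  [⟨V6_16292007936, [(nat_lit 23, nat_lit 16293318720), (nat_lit 106, nat_lit 17367060480), (nat_lit 23, nat_lit 17366798400), (nat_lit 109, nat_lit 18440540160), (nat_lit 3, nat_lit 18440278080), (nat_lit 92, nat_lit 19514019840), (nat_lit 124, nat_lit 19513757760), (nat_lit 91, nat_lit 20587499520), (nat_lit 104, nat_lit 20587237440), (nat_lit 22, nat_lit 21660979200), (nat_lit 104, nat_lit 21660717120), (nat_lit 123, nat_lit 22734458880)]⟩,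
   ⟨V6_16276262976, [(nat_lit 35, nat_lit 16293318720), (nat_lit 101, nat_lit 17367056448), (nat_lit 120, nat_lit 17366798400), (nat_lit 109, nat_lit 17350283328), (nat_lit 87, nat_lit 18440794176), (nat_lit 83, nat_lit 18440536128), (nat_lit 110, nat_lit 18424021056), (nat_lit 81, nat_lit 18423763008), (nat_lit 107, nat_lit 19514531904), (nat_lit 110, nat_lit 19514273856), (nat_lit 59, nat_lit 19497758784), (nat_lit 17, nat_lit 19497500736), (nat_lit 73, nat_lit 20588269632), (nat_lit 72, nat_lit 20588011584), (nat_lit 67, nat_lit 20571496512), (nat_lit 80, nat_lit 20571238464), (nat_lit 33, nat_lit 21661749312), (nat_lit 97, nat_lit 21645234240), (nat_lit 34, nat_lit 21644976192), (nat_lit 95, nat_lit 22718713920)]⟩,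
   ⟨V6_15219302400, [(nat_lit 91, nat_lit 16293318720), (nat_lit 98, nat_lit 17367060480), (nat_lit 20, nat_lit 17367056448), (nat_lit 125, nat_lit 17366798400), (nat_lit 55, nat_lit 18440798208), (nat_lit 54, nat_lit 18440794176), (nat_lit 47, nat_lit 18440540160), (nat_lit 110, nat_lit 18440536128), (nat_lit 6, nat_lit 19514535936), (nat_lit 61, nat_lit 19514531904), (nat_lit 96, nat_lit 19514277888), (nat_lit 73, nat_lit 19514273856), (nat_lit 87, nat_lit 20588273664), (nat_lit 13, nat_lit 20588015616), (nat_lit 61, nat_lit 20588011584), (nat_lit 2, nat_lit 21661753344)]⟩,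
   ⟨V6_13071568896, [(nat_lit 20, nat_lit 16293318720), (nat_lit 60, nat_lit 17367060480), (nat_lit 59, nat_lit 17366798400), (nat_lit 61, nat_lit 18440540160), (nat_lit 49, nat_lit 18440278080), (nat_lit 58, nat_lit 19514019840)]⟩,
   ⟨V6_11998347264, [(nat_lit 120, nat_lit 16293318720), (nat_lit 83, nat_lit 17367060480), (nat_lit 107, nat_lit 17367056448), (nat_lit 117, nat_lit 18440798208)]⟩],
  [W_16276262912, W_15219298304, W_15218524160, W_15218262080, W_15202783232, W_15202525184, W_15202009088, W_15201747008, W_14145818624, W_14145044480, W_14129045504, W_13072076864]⟩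
theorem C_16293318720 : chkRec R_16293318720 = true := by decide +kernel

noncomputable def R_16293322752 : Rec := ⟨nat_lit 16293322752, nat_lit 66,
  [⟨V6_15202787328, [(nat_lit 77, nat_lit 16293322752), (nat_lit 99, nat_lit 17367060480), (nat_lit 4, nat_lit 17350287360), (nat_lit 95, nat_lit 18440798208), (nat_lit 37, nat_lit 18424025088), (nat_lit 108, nat_lit 19514535936), (nat_lit 121, nat_lit 19497762816), (nat_lit 47, nat_lit 20588273664), (nat_lit 59, nat_lit 20571500544), (nat_lit 103, nat_lit 21645238272)]⟩,
   ⟨V6_15201755136, [(nat_lit 51, nat_lit 16293322752), (nat_lit 114, nat_lit 17366802432), (nat_lit 25, nat_lit 17350287360), (nat_lit 123, nat_lit 18440282112), (nat_lit 77, nat_lit 18423767040), (nat_lit 27, nat_lit 19513761792), (nat_lit 12, nat_lit 19497246720), (nat_lit 51, nat_lit 20587241472), (nat_lit 66, nat_lit 20570726400), (nat_lit 84, nat_lit 21644206080)]⟩,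
   ⟨V6_13071310848, [(nat_lit 87, nat_lit 16293322752), (nat_lit 60, nat_lit 17366802432), (nat_lit 9, nat_lit 18440282112), (nat_lit 49, nat_lit 19513761792)]⟩],
  [W_16276520960, W_16276262912, W_15219556352, W_15219298304, W_15202783232, W_15202525184, W_14145818624, W_14145302528, W_14129045504, W_13055307776]⟩
theorem C_16293322752 : chkRec R_16293322752 = true := by decide +kernel

noncomputable def R_16293568641 : Rec := ⟨nat_lit 16293568641, nat_lit 8,
  [⟨V6_16291995777, [(nat_lit 37, nat_lit 16293568641), (nat_lit 100, nat_lit 17367048321), (nat_lit 67, nat_lit 18440528001), (nat_lit 57, nat_lit 19514007681), (nat_lit 79, nat_lit 20587487361), (nat_lit 29, nat_lit 21660967041), (nat_lit 82, nat_lit 22734446721)]⟩],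
  [W_14145298496, W_13071818816]⟩
theorem C_16293568641 : chkRec R_16293568641 = true := by decide +kernel

noncomputable def R_16293572673 : Rec := ⟨nat_lit 16293572673, nat_lit 17,
  [⟨V6_14145556545, [(nat_lit 78, nat_lit 16293572673), (nat_lit 39, nat_lit 17367310401), (nat_lit 12, nat_lit 17367052353), (nat_lit 26, nat_lit 18441048129), (nat_lit 41, nat_lit 18440790081), (nat_lit 35, nat_lit 18440532033), (nat_lit 108, nat_lit 19514527809), (nat_lit 18, nat_lit 19514269761), (nat_lit 70, nat_lit 20588007489)]⟩,
   ⟨V6_13072339008, [(nat_lit 62, nat_lit 16293572673), (nat_lit 26, nat_lit 17367314496), (nat_lit 106, nat_lit 17367310401), (nat_lit 75, nat_lit 18441052224), (nat_lit 63, nat_lit 18441048129), (nat_lit 112, nat_lit 19514789952)]⟩,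
   ⟨V6_13072076865, [(nat_lit 87, nat_lit 16293572673), (nat_lit 11, nat_lit 17367310401), (nat_lit 27, nat_lit 17367052353), (nat_lit 19, nat_lit 18441048129), (nat_lit 8, nat_lit 18440790081), (nat_lit 76, nat_lit 19514527809)]⟩,
   ⟨V6_11998597185, [(nat_lit 18, nat_lit 16293572673), (nat_lit 7, nat_lit 17367310401), (nat_lit 5, nat_lit 18441048129)]⟩,
   ⟨V6_11998339137, [(nat_lit 59, nat_lit 16293572673), (nat_lit 98, nat_lit 17367310401), (nat_lit 74, nat_lit 17367052353), (nat_lit 32, nat_lit 18440790081)]⟩,
   ⟨V6_11998081089, [(nat_lit 46, nat_lit 16293572673), (nat_lit 10, nat_lit 17367052353), (nat_lit 14, nat_lit 18440532033)]⟩],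
  [W_16292515904, W_16291999808, W_11998081088]⟩
theorem C_16293572673 : chkRec R_16293572673 = true := by decide +kernel

noncomputable def R_16293572736 : Rec := ⟨nat_lit 16293572736, nat_lit 34,
  [⟨V6_15219302400, [(nat_lit 120, nat_lit 16293572736), (nat_lit 109, nat_lit 17367314496), (nat_lit 6, nat_lit 17367310464), (nat_lit 8, nat_lit 17367052416), (nat_lit 78, nat_lit 18441056256), (nat_lit 75, nat_lit 18441052224), (nat_lit 28, nat_lit 18440794176), (nat_lit 62, nat_lit 18440790144), (nat_lit 15, nat_lit 18440532096), (nat_lit 63, nat_lit 19514793984), (nat_lit 51, nat_lit 19514535936), (nat_lit 120, nat_lit 19514531904), (nat_lit 3, nat_lit 19514273856), (nat_lit 106, nat_lit 19514269824), (nat_lit 69, nat_lit 20588273664), (nat_lit 63, nat_lit 20588015616), (nat_lit 96, nat_lit 20588011584), (nat_lit 109, nat_lit 21661753344)]⟩],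
  [W_14145560576, W_14145302528, W_13071822848, W_13071818816, W_13071560768, W_11998343168, W_11998081088, W_11997819008]⟩
theorem C_16293572736 : chkRec R_16293572736 = true := by decide +kernel

noncomputable def R_16293576768 : Rec := ⟨nat_lit 16293576768, nat_lit 51,
  [⟨V6_15219302400, [(nat_lit 56, nat_lit 16293576768), (nat_lit 17, nat_lit 17367318528), (nat_lit 36, nat_lit 17367314496), (nat_lit 61, nat_lit 17367056448), (nat_lit 106, nat_lit 18441056256), (nat_lit 26, nat_lit 18441052224), (nat_lit 51, nat_lit 18440798208), (nat_lit 115, nat_lit 18440794176), (nat_lit 71, nat_lit 18440536128), (nat_lit 102, nat_lit 19514793984), (nat_lit 63, nat_lit 19514535936), (nat_lit 96, nat_lit 19514531904), (nat_lit 14, nat_lit 19514277888), (nat_lit 5, nat_lit 19514273856), (nat_lit 68, nat_lit 20588273664), (nat_lit 41, nat_lit 20588015616), (nat_lit 40, nat_lit 20588011584), (nat_lit 115, nat_lit 21661753344)]⟩,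
   ⟨V6_14146080768, [(nat_lit 18, nat_lit 16293576768), (nat_lit 43, nat_lit 17367318528), (nat_lit 73, nat_lit 17367314496), (nat_lit 91, nat_lit 18441056256), (nat_lit 122, nat_lit 18441052224), (nat_lit 28, nat_lit 19514793984), (nat_lit 17, nat_lit 19514789952), (nat_lit 17, nat_lit 20588531712)]⟩,
   ⟨V6_13072343040, [(nat_lit 57, nat_lit 16293576768), (nat_lit 41, nat_lit 17367318528), (nat_lit 86, nat_lit 17367314496), (nat_lit 44, nat_lit 18441056256), (nat_lit 84, nat_lit 18441052224), (nat_lit 7, nat_lit 19514793984)]⟩,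
   ⟨V6_13072339008, [(nat_lit 75, nat_lit 16293576768), (nat_lit 89, nat_lit 17367314496), (nat_lit 92, nat_lit 18441052224), (nat_lit 116, nat_lit 19514789952)]⟩,
   ⟨V6_11998605312, [(nat_lit 91, nat_lit 16293576768), (nat_lit 60, nat_lit 17367318528), (nat_lit 30, nat_lit 17367314496), (nat_lit 116, nat_lit 18441056256)]⟩,
   ⟨V6_11998347264, [(nat_lit 31, nat_lit 16293576768), (nat_lit 125, nat_lit 17367318528), (nat_lit 66, nat_lit 17367056448), (nat_lit 60, nat_lit 18440798208)]⟩],
  [W_16292515904, W_16291741760, W_15218524160, W_15218262080, W_14145044480, W_11998081088]⟩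
theorem C_16293576768 : chkRec R_16293576768 = true := by decide +kernel

noncomputable def R_16293580800 : Rec := ⟨nat_lit 16293580800, nat_lit 34,
  [⟨V6_16292007936, [(nat_lit 18, nat_lit 16293580800), (nat_lit 107, nat_lit 17367060480), (nat_lit 12, nat_lit 18440540160), (nat_lit 14, nat_lit 19514019840), (nat_lit 35, nat_lit 20587499520), (nat_lit 45, nat_lit 21660979200), (nat_lit 9, nat_lit 22734458880)]⟩,
   ⟨V6_14146080768, [(nat_lit 56, nat_lit 16293580800), (nat_lit 78, nat_lit 17367318528), (nat_lit 8, nat_lit 18441056256), (nat_lit 38, nat_lit 19514793984), (nat_lit 37, nat_lit 20588531712)]⟩,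
   ⟨V6_11998605312, [(nat_lit 1, nat_lit 16293580800), (nat_lit 35, nat_lit 17367318528), (nat_lit 73, nat_lit 18441056256)]⟩],
  [W_15219556352, W_15219298304, W_14145818624, W_14145302528, W_13072080896, W_13071822848]⟩
theorem C_16293580800 : chkRec R_16293580800 = true := by decide +kernel

noncomputable def R_16308519171 : Rec := ⟨nat_lit 16308519171, nat_lit 2,
  [⟨V6_13070516418, [(nat_lit 14, nat_lit 16308519171), (nat_lit 8, nat_lit 17382260994), (nat_lit 3, nat_lit 17382260931), (nat_lit 123, nat_lit 17365483779), (nat_lit 93, nat_lit 18456002754), (nat_lit 72, nat_lit 18439225602), (nat_lit 20, nat_lit 18439225539), (nat_lit 28, nat_lit 19512967362)]⟩],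
  [W_15201222848]⟩
theorem C_16308519171 : chkRec R_16308519171 = true := by decide +kernel

noncomputable def R_16308781251 : Rec := ⟨nat_lit 16308781251, nat_lit 3,
  [⟨V6_13087555776, [(nat_lit 25, nat_lit 16308781251), (nat_lit 111, nat_lit 17382523074), (nat_lit 26, nat_lit 18456264897), (nat_lit 10, nat_lit 19530006720)]⟩],
  [W_16274960576, W_16258445504]⟩
theorem C_16308781251 : chkRec R_16308781251 = true := by decide +kernel

noncomputable def R_16308781314 : Rec := ⟨nat_lit 16308781314, nat_lit 7,
  [⟨V6_13087555776, [(nat_lit 90, nat_lit 16308781314), (nat_lit 59, nat_lit 17382523137), (nat_lit 78, nat_lit 17382523074), (nat_lit 122, nat_lit 18456264960), (nat_lit 48, nat_lit 18456264897), (nat_lit 71, nat_lit 19530006720)]⟩],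
  [W_16274964608, W_16258187456, W_16241410304, W_15167930624]⟩
theorem C_16308781314 : chkRec R_16308781314 = true := by decide +kernel

noncomputable def R_16308785346 : Rec := ⟨nat_lit 16308785346, nat_lit 6,
  [⟨V6_13087555776, [(nat_lit 84, nat_lit 16308785346), (nat_lit 61, nat_lit 17382527169), (nat_lit 43, nat_lit 17382523074), (nat_lit 22, nat_lit 18456268992), (nat_lit 37, nat_lit 18456264897), (nat_lit 49, nat_lit 19530006720)]⟩],
  [W_16258445504, W_16241676416, W_14144516288, W_14110970048]⟩
theorem C_16308785346 : chkRec R_16308785346 = true := by decide +kernel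

noncomputable def R_16308785409 : Rec := ⟨nat_lit 16308785409, nat_lit 8,
  [⟨V6_15151157505, [(nat_lit 37, nat_lit 16308785409), (nat_lit 16, nat_lit 17365750017), (nat_lit 21, nat_lit 18422714625), (nat_lit 112, nat_lit 19479679233), (nat_lit 85, nat_lit 20536643841), (nat_lit 15, nat_lit 21593608449)]⟩,
   ⟨V6_13087555776, [(nat_lit 36, nat_lit 16308785409), (nat_lit 109, nat_lit 17382527232), (nat_lit 126, nat_lit 17382527169), (nat_lit 82, nat_lit 17382523137), (nat_lit 9, nat_lit 18456268992), (nat_lit 5, nat_lit 18456264960), (nat_lit 44, nat_lit 18456264897), (nat_lit 39, nat_lit 19530006720)]⟩],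
  [W_15218262080]⟩
theorem C_16308785409 : chkRec R_16308785409 = true := by decide +kernel

noncomputable def R_16308785472 : Rec := ⟨nat_lit 16308785472, nat_lit 3,
  [⟨V6_13087559808, [(nat_lit 89, nat_lit 16308785472), (nat_lit 109, nat_lit 17382527232), (nat_lit 77, nat_lit 18456268992), (nat_lit 75, nat_lit 19530010752)]⟩],
  [W_16275230720]⟩
theorem C_16308785472 : chkRec R_16308785472 = true := by decide +kernel

noncomputable def R_16309039299 : Rec := ⟨nat_lit 16309039299, nat_lit 2,
  [⟨V6_15234511041, [(nat_lit 62, nat_lit 16309039299), (nat_lit 86, nat_lit 17382781122), (nat_lit 5, nat_lit 17382518979), (nat_lit 63, nat_lit 18456522945), (nat_lit 68, nat_lit 18456260802), (nat_lit 82, nat_lit 18455998659), (nat_lit 97, nat_lit 19530002625), (nat_lit 61, nat_lit 19529740482), (nat_lit 110, nat_lit 19529478339), (nat_lit 126, nat_lit 20603482305), (nat_lit 110, nat_lit 20603220162), (nat_lit 67, nat_lit 21676961985)]⟩,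
   ⟨V6_13037482179, [(nat_lit 29, nat_lit 16309039299), (nat_lit 8, nat_lit 17366003907), (nat_lit 82, nat_lit 18422968515), (nat_lit 79, nat_lit 19479933123)]⟩],
  [W_16241930432, W_13071036608]⟩
theorem C_16309039299 : chkRec R_16309039299 = true := by decide +kernel

noncomputable def R_16309043394 : Rec := ⟨nat_lit 16309043394, nat_lit 21,
  [⟨V6_14161035456, [(nat_lit 80, nat_lit 16309043394), (nat_lit 68, nat_lit 17382785217), (nat_lit 9, nat_lit 17382523074), (nat_lit 45, nat_lit 18456527040), (nat_lit 9, nat_lit 18456264897), (nat_lit 54, nat_lit 18456002754), (nat_lit 37, nat_lit 19530006720), (nat_lit 12, nat_lit 19529744577), (nat_lit 68, nat_lit 20603486400)]⟩,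
   ⟨V6_13087813824, [(nat_lit 25, nat_lit 16309043394), (nat_lit 74, nat_lit 17382785217), (nat_lit 36, nat_lit 17382781122), (nat_lit 83, nat_lit 18456527040), (nat_lit 8, nat_lit 18456522945), (nat_lit 82, nat_lit 19530264768)]⟩,
   ⟨V6_13087555776, [(nat_lit 43, nat_lit 16309043394), (nat_lit 107, nat_lit 17382785217), (nat_lit 72, nat_lit 17382523074), (nat_lit 7, nat_lit 18456527040), (nat_lit 81, nat_lit 18456264897), (nat_lit 22, nat_lit 19530006720)]⟩],
  [W_16291737728, W_16274960576, W_16258707584, W_16241934464, W_16241930432, W_16225157312]⟩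
theorem C_16309043394 : chkRec R_16309043394 = true := by decide +kernel

noncomputable def R_16309043457 : Rec := ⟨nat_lit 16309043457, nat_lit 27,
  [⟨V6_16208380161, [(nat_lit 109, nat_lit 16309043457), (nat_lit 61, nat_lit 17366008065), (nat_lit 74, nat_lit 18422972673), (nat_lit 115, nat_lit 19479937281), (nat_lit 119, nat_lit 20536901889), (nat_lit 48, nat_lit 21593866497), (nat_lit 69, nat_lit 22650831105)]⟩,
   ⟨V6_15234777216, [(nat_lit 126, nat_lit 16309043457), (nat_lit 94, nat_lit 17382785280), (nat_lit 13, nat_lit 17382785217), (nat_lit 106, nat_lit 17382523137), (nat_lit 102, nat_lit 18456527040), (nat_lit 100, nat_lit 18456526977), (nat_lit 58, nat_lit 18456264960), (nat_lit 88, nat_lit 18456264897), (nat_lit 56, nat_lit 18456002817), (nat_lit 23, nat_lit 19530268800), (nat_lit 52, nat_lit 19530006720), (nat_lit 5, nat_lit 19530006657), (nat_lit 82, nat_lit 19529744640), (nat_lit 117, nat_lit 19529744577), (nat_lit 56, nat_lit 20603748480), (nat_lit 63, nat_lit 20603486400), (nat_lit 111, nat_lit 20603486337), (nat_lit 88, nat_lit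 21677228160)]⟩],
  [W_15201747008, W_14144782400, W_13087817792, W_13071040640, W_13054001408]⟩
theorem C_16309043457 : chkRec R_16309043457 = true := by decide +kernel

noncomputable def R_16309047426 : Rec := ⟨nat_lit 16309047426, nat_lit 19,
  [⟨V6_15235293312, [(nat_lit 23, nat_lit 16309047426), (nat_lit 33, nat_lit 17382789249), (nat_lit 95, nat_lit 17382785154), (nat_lit 91, nat_lit 18456531072), (nat_lit 35, nat_lit 18456526977), (nat_lit 67, nat_lit 18456522882), (nat_lit 30, nat_lit 19530268800), (nat_lit 70, nat_lit 19530264705), (nat_lit 8, nat_lit 19530260610), (nat_lit 126, nat_lit 20604006528), (nat_lit 53, nat_lit 20604002433), (nat_lit 117, nat_lit 21677744256)]⟩],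
  [W_16241676416, W_16225161344, W_15201484928, W_14127747200, W_13087813760, W_13071040640, W_13070782592, W_13054267520]⟩
theorem C_16309047426 : chkRec R_16309047426 = true := by decide +kernel

noncomputable def R_16309047489 : Rec := ⟨nat_lit 16309047489, nat_lit 43,
  [⟨V6_16225161408, [(nat_lit 125, nat_lit 16309047489), (nat_lit 69, nat_lit 17382789312), (nat_lit 17, nat_lit 17366012097), (nat_lit 49, nat_lit 18439753920), (nat_lit 15, nat_lit 18422976705), (nat_lit 13, nat_lit 19496718528), (nat_lit 35, nat_lit 19479941313), (nat_lit 124, nat_lit 20553683136), (nat_lit 78, nat_lit 20536905921), (nat_lit 114, nat_lit 21610647744), (nat_lit 68, nat_lit 21593870529), (nat_lit 81, nat_lit 22667612352)]⟩,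
   ⟨V6_16208384193, [(nat_lit 114, nat_lit 16309047489), (nat_lit 37, nat_lit 17366012097), (nat_lit 124, nat_lit 18422976705), (nat_lit 76, nat_lit 19479941313), (nat_lit 93, nat_lit 20536905921), (nat_lit 77, nat_lit 21593870529), (nat_lit 71, nat_lit 22650835137)]⟩,
   ⟨V6_13087821888, [(nat_lit 26, nat_lit 16309047489), (nat_lit 10, nat_lit 17382789312), (nat_lit 69, nat_lit 17382789249), (nat_lit 119, nat_lit 18456531072), (nat_lit 55, nat_lit 18456531009), (nat_lit 105, nat_lit 19530272832)]⟩,
   ⟨V6_13087813824, [(nat_lit 109, nat_lit 16309047489), (nat_lit 35, nat_lit 17382789312), (nat_lit 30, nat_lit 17382785217), (nat_lit 67, nat_lit 18456527040), (nat_lit 63, nat_lit 18456522945), (nat_lit 91, nat_lit 19530264768)]⟩,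
   ⟨V6_13087559808, [(nat_lit 82, nat_lit 16309047489), (nat_lit 21, nat_lit 17382789312), (nat_lit 89, nat_lit 17382789249), (nat_lit 104, nat_lit 17382527169), (nat_lit 39, nat_lit 18456531072), (nat_lit 57, nat_lit 18456268992), (nat_lit 115, nat_lit 18456268929), (nat_lit 108, nat_lit 19530010752)]⟩],
  [W_16258453568, W_15235035200, W_15218262080, W_15201747008, W_14161555520, W_14161297472, W_14128001216]⟩
theorem C_16309047489 : chkRec R_16309047489 = true := by decide +kernel

noncomputable def R_16309047552 : Rec := ⟨nat_lit 16309047552, nat_lit 48,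
  [⟨V6_16225161408, [(nat_lit 104, nat_lit 16309047552), (nat_lit 120, nat_lit 17382789312), (nat_lit 8, nat_lit 17366012160), (nat_lit 107, nat_lit 18439753920), (nat_lit 70, nat_lit 18422976768), (nat_lit 117, nat_lit 19496718528), (nat_lit 18, nat_lit 19479941376), (nat_lit 55, nat_lit 20553683136), (nat_lit 9, nat_lit 20536905984), (nat_lit 36, nat_lit 21610647744), (nat_lit 78, nat_lit 21593870592), (nat_lit 1, nat_lit 22667612352)]⟩,
   ⟨V6_15235043328, [(nat_lit 115, nat_lit 16309047552), (nat_lit 95, nat_lit 17382789312), (nat_lit 20, nat_lit 17382527232), (nat_lit 4, nat_lit 18456531072), (nat_lit 71, nat_lit 18456268992), (nat_lit 9, nat_lit 19530272832), (nat_lit 2, nat_lit 19530010752), (nat_lit 57, nat_lit 20604014592), (nat_lit 1, nat_lit 20603752512), (nat_lit 122, nat_lit 21677494272)]⟩,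
   ⟨V6_14161563648, [(nat_lit 56, nat_lit 16309047552), (nat_lit 72, nat_lit 17382789312), (nat_lit 53, nat_lit 18456531072), (nat_lit 27, nat_lit 19530272832), (nat_lit 1, nat_lit 20604014592)]⟩],
  [W_15235039232, W_15218524160, W_15218262080, W_15201747008]⟩
theorem C_16309047552 : chkRec R_16309047552 = true := by decide +kernel

noncomputable def R_16309051521 : Rec := ⟨nat_lit 16309051521, nat_lit 38,
  [⟨V6_15235293312, [(nat_lit 94, nat_lit 16309051521), (nat_lit 98, nat_lit 17382793344), (nat_lit 16, nat_lit 17382789249), (nat_lit 108, nat_lit 18456531072), (nat_lit 103, nat_lit 18456526977), (nat_lit 91, nat_lit 19530268800), (nat_lit 103, nat_lit 19530264705), (nat_lit 26, nat_lit 20604006528), (nat_lit 78, nat_lit 20604002433), (nat_lit 3, nat_lit 21677744256)]⟩],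
  [W_16225165376, W_16208388224, W_15201747008, W_15168200768, W_15151423616, W_14111236160, W_14094459008, W_13071044672, W_13054271552, W_13037494400]⟩
theorem C_16309051521 : chkRec R_16309051521 = true := by decide +kernel

noncomputable def R_16309051584 : Rec := ⟨nat_lit 16309051584, nat_lit 62,
  [⟨V6_15201755136, [(nat_lit 46, nat_lit 16309051584), (nat_lit 33, nat_lit 17382793344), (nat_lit 58, nat_lit 17366016192), (nat_lit 11, nat_lit 18456535104), (nat_lit 126, nat_lit 18439757952), (nat_lit 87, nat_lit 18422980800), (nat_lit 107, nat_lit 19530276864), (nat_lit 74, nat_lit 19513499712), (nat_lit 35, nat_lit 19496722560), (nat_lit 19, nat_lit 20587241472), (nat_lit 58, nat_lit 20570464320), (nat_lit 123, nat_lit 21644206080)]⟩,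
   ⟨V6_14144790528, [(nat_lit 15, nat_lit 16309051584), (nat_lit 37, nat_lit 17382793344), (nat_lit 56, nat_lit 17366016192), (nat_lit 79, nat_lit 18456535104), (nat_lit 24, nat_lit 18439757952), (nat_lit 108, nat_lit 19530276864), (nat_lit 54, nat_lit 19513499712), (nat_lit 42, nat_lit 20587241472)]⟩,
   ⟨V6_13087825920, [(nat_lit 12, nat_lit 16309051584), (nat_lit 92, nat_lit 17382793344), (nat_lit 126, nat_lit 18456535104), (nat_lit 27, nat_lit 19530276864)]⟩],
  [W_16225157312, W_16208388224, W_15235297280, W_15218524160, W_15201747008, W_15184969856, W_13071036608, W_13054263488]⟩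
theorem C_16309051584 : chkRec R_16309051584 = true := by decide +kernel

noncomputable def R_16309301442 : Rec := ⟨nat_lit 16309301442, nat_lit 12,
  [⟨V6_16225415361, [(nat_lit 108, nat_lit 16309301442), (nat_lit 66, nat_lit 17383043265), (nat_lit 27, nat_lit 17366266050), (nat_lit 126, nat_lit 18440007873), (nat_lit 59, nat_lit 18423230658), (nat_lit 90, nat_lit 19496972481), (nat_lit 45, nat_lit 19480195266), (nat_lit 28, nat_lit 20553937089), (nat_lit 68, nat_lit 20537159874), (nat_lit 104, nat_lit 21610901697), (nat_lit 55, nat_lit 21594124482), (nat_lit 119, nat_lit 22667866305)]⟩,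
   ⟨V6_15234511041, [(nat_lit 11, nat_lit 16309301442), (nat_lit 92, nat_lit 17383043265), (nat_lit 23, nat_lit 17382781122), (nat_lit 27, nat_lit 18456522945), (nat_lit 76, nat_lit 18456260802), (nat_lit 40, nat_lit 19530002625), (nat_lit 1, nat_lit 19529740482), (nat_lit 12, nat_lit 20603482305), (nat_lit 7, nat_lit 20603220162), (nat_lit 24, nat_lit 21676961985)]⟩,
   ⟨V6_14144254146, [(nat_lit 14, nat_lit 16309301442), (nat_lit 90, nat_lit 17382781122), (nat_lit 17, nat_lit 17366266050), (nat_lit 51, nat_lit 18456260802), (nat_lit 115, nat_lit 18439745730), (nat_lit 118, nat_lit 19529740482), (nat_lit 119, nat_lit 19513225410), (nat_lit 21, nat_lit 20586705090)]⟩,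
   ⟨V6_13087813824, [(nat_lit 82, nat_lit 16309301442), (nat_lit 124, nat_lit 17383043265), (nat_lit 56, nat_lit 17382781122), (nat_lit 18, nat_lit 18456785088), (nat_lit 64, nat_lit 18456522945), (nat_lit 43, nat_lit 19530264768)]⟩,
   ⟨V6_13070774466, [(nat_lit 30, nat_lit 16309301442), (nat_lit 49, nat_lit 17382781122), (nat_lit 119, nat_lit 17366266050), (nat_lit 113, nat_lit 18456260802), (nat_lit 78, nat_lit 18439745730), (nat_lit 9, nat_lit 19513225410)]⟩],
  [W_16308252800, W_16291737728, W_16225415360, W_14111486144, W_13071298688]⟩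
theorem C_16309301442 : chkRec R_16309301442 = true := by decide +kernel

noncomputable def R_16309305474 : Rec := ⟨nat_lit 16309305474, nat_lit 27,
  [⟨V6_15234777216, [(nat_lit 84, nat_lit 16309305474), (nat_lit 13, nat_lit 17383047297), (nat_lit 54, nat_lit 17382785154), (nat_lit 85, nat_lit 18456789120), (nat_lit 37, nat_lit 18456526977), (nat_lit 51, nat_lit 18456264834), (nat_lit 121, nat_lit 19530268800), (nat_lit 27, nat_lit 19530006657), (nat_lit 72, nat_lit 19529744514), (nat_lit 49, nat_lit 20603748480), (nat_lit 1, nat_lit 20603486337), (nat_lit 107, nat_lit 21677228160)]⟩,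
   ⟨V6_13088071809, [(nat_lit 63, nat_lit 16309305474), (nat_lit 52, nat_lit 17383047297), (nat_lit 75, nat_lit 17383043202), (nat_lit 62, nat_lit 18456785025), (nat_lit 26, nat_lit 18456780930), (nat_lit 108, nat_lit 19530522753)]⟩],
  [W_16308510848, W_16242192512, W_15202001024, W_15168454784, W_13088071808, W_13087813760, W_13071040640]⟩
theorem C_16309305474 : chkRec R_16309305474 = true := by decide +kernel

noncomputable def R_16309305537 : Rec := ⟨nat_lit 16309305537, nat_lit 60,
  [⟨V6_16308518976, [(nat_lit 72, nat_lit 16309305537), (nat_lit 61, nat_lit 17383047360), (nat_lit 74, nat_lit 17383047297), (nat_lit 67, nat_lit 17382785217), (nat_lit 11, nat_lit 18456789120), (nat_lit 91, nat_lit 18456789057), (nat_lit 16, nat_lit 18456527040), (nat_lit 118, nat_lit 18456526977), (nat_lit 39, nat_lit 18456264897), (nat_lit 113, nat_lit 19530530880), (nat_lit 117, nat_lit 19530268800), (nat_lit 95, nat_lit 19530268737), (nat_lit 112, nat_lit 19530006720), (nat_lit 18, nat_lit 19530006657), (nat_lit 52, nat_lit 19529744577), (nat_lit 89,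 nat_lit 20604010560), (nat_lit 107, nat_lit 20603748480), (nat_lit 113, nat_lit 20603748417), (nat_lit 96, nat_lit 20603486400), (nat_lit 51, nat_lit 20603486337), (nat_lit 96, nat_lit 21677490240), (nat_lit 18, nat_lit 21677228160), (nat_lit 31, nat_lit 21677228097), (nat_lit 37, nat_lit 22750969920)]⟩,
   ⟨V6_16225419456, [(nat_lit 96, nat_lit 16309305537), (nat_lit 117, nat_lit 17383047360), (nat_lit 73, nat_lit 17366270145), (nat_lit 61, nat_lit 18440011968), (nat_lit 42, nat_lit 18423234753), (nat_lit 11, nat_lit 19496976576), (nat_lit 98, nat_lit 19480199361), (nat_lit 17, nat_lit 20553941184), (nat_lit 66, nat_lit 20537163969), (nat_lit 116, nat_lit 21610905792), (nat_lit 38, nat_lit 21594128577), (nat_lit 49, nat_lit 22667870400)]⟩,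
   ⟨V6_16225415361, [(nat_lit 117, nat_lit 16309305537), (nat_lit 47, nat_lit 17383043265), (nat_lit 44, nat_lit 17366270145), (nat_lit 31, nat_lit 18440007873), (nat_lit 22, nat_lit 18423234753), (nat_lit 53, nat_lit 19496972481), (nat_lit 6, nat_lit 19480199361), (nat_lit 101, nat_lit 20553937089), (nat_lit 124, nat_lit 20537163969), (nat_lit 90, nat_lit 21610901697), (nat_lit 74, nat_lit 21594128577), (nat_lit 57, nat_lit 22667866305)]⟩,
   ⟨V6_14161035456, [(nat_lit 35, nat_lit 16309305537), (nat_lit 86, nat_lit 17383047360), (nat_lit 46, nat_lit 17382785217), (nat_lit 66, nat_lit 18456527040), (nat_lit 112, nat_lit 18456264897), (nat_lit 16, nat_lit 19530006720), (nat_lit 3, nat_lit 19529744577), (nat_lit 56, nat_lit 20603486400)]⟩],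
  [W_16242196544, W_15201747008, W_15185231936, W_14161555520, W_14144782400, W_13087817792, W_13071302720, W_13071298688, W_13071040640]⟩
theorem C_16309305537 : chkRec R_16309305537 = true := by decide +kernel

noncomputable def R_16309305600 : Rec := ⟨nat_lit 16309305600, nat_lit 57,
  [⟨V6_16308781056, [(nat_lit 44, nat_lit 16309305600), (nat_lit 28, nat_lit 17383047360), (nat_lit 110, nat_lit 17382785280), (nat_lit 11, nat_lit 18456789120), (nat_lit 20, nat_lit 18456527040), (nat_lit 5, nat_lit 18456264960), (nat_lit 73, nat_lit 19530530880), (nat_lit 34, nat_lit 19530268800), (nat_lit 51, nat_lit 19530006720), (nat_lit 38, nat_lit 20604272640), (nat_lit 23, nat_lit 20604010560), (nat_lit 3, nat_lit 20603748480), (nat_lit 35, nat_lit 21677752320), (nat_lit 115, nat_lit 21677490240), (nat_lit 49, nat_lit 22751232000)]⟩,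
   ⟨V6_14161035456, [(nat_lit 112, nat_lit 16309305600), (nat_lit 116, nat_lit 17383047360), (nat_lit 97, nat_lit 17382785280), (nat_lit 30, nat_lit 18456527040), (nat_lit 44, nat_lit 18456264960), (nat_lit 97, nat_lit 19530006720), (nat_lit 49, nat_lit 19529744640), (nat_lit 119, nat_lit 20603486400)]⟩],
  [W_16242196544, W_15202009088, W_15201747008, W_15185231936, W_14145044480]⟩
theorem C_16309305600 : chkRec R_16309305600 = true := by decide +kernel

noncomputable def R_16309309569 : Rec := ⟨nat_lit 16309309569, nat_lit 74,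
  [⟨V6_16291995777, [(nat_lit 64, nat_lit 16309309569), (nat_lit 52, nat_lit 17383047297), (nat_lit 87, nat_lit 17382789249), (nat_lit 115, nat_lit 17366274177), (nat_lit 95, nat_lit 18456785025), (nat_lit 19, nat_lit 18456526977), (nat_lit 3, nat_lit 18456268929), (nat_lit 108, nat_lit 18440011905), (nat_lit 44, nat_lit 18439753857), (nat_lit 17, nat_lit 19530522753), (nat_lit 24, nat_lit 19530264705), (nat_lit 87, nat_lit 19530006657), (nat_lit 35, nat_lit 19513749633), (nat_lit 126, nat_lit 19513491585), (nat_lit 26, nat_lit 19513233537), (nat_lit 78, nat_lit 20604002433), (nat_lit 10, nat_lit 20603744385), (nat_lit 119, nat_lit 20587487361), (nat_lit 100, nat_lit 20587229313), (nat_lit 30, nat_lit 20586971265), (nat_lit 77, nat_lit 21677482113), (nat_lit 79, nat_lit 21660967041), (nat_lit 54, nat_lit 21660708993), (nat_lit 77, nat_lit 22734446721)]⟩,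
   ⟨V6_16225423425, [(nat_lit 25, nat_lit 16309309569), (nat_lit 43, nat_lit 17383051329), (nat_lit 117, nat_lit 17366274177), (nat_lit 110, nat_lit 18440015937), (nat_lit 11, nat_lit 18423238785), (nat_lit 54, nat_lit 19496980545), (nat_lit 26, nat_lit 19480203393), (nat_lit 116, nat_lit 20553945153), (nat_lit 24, nat_lit 20537168001), (nat_lit 120, nat_lit 21610909761), (nat_lit 47, nat_lit 21594132609), (nat_lit 103, nat_lit 22667874369)]⟩,
   ⟨V6_15235293312, [(nat_lit 60, nat_lit 16309309569), (nat_lit 103, nat_lit 17383051392), (nat_lit 7, nat_lit 17383047297), (nat_lit 41, nat_lit 17382789249), (nat_lit 53, nat_lit 18456789120), (nat_lit 119, nat_lit 18456785025), (nat_lit 125, nat_lit 18456531072), (nat_lit 3, nat_lit 18456526977), (nat_lit 76, nat_lit 19530526848), (nat_lit 87, nat_lit 19530522753), (nat_lit 1, nat_lit 19530268800), (nat_lit 29, nat_lit 19530264705), (nat_lit 109, nat_lit 20604264576), (nat_lit 33, nat_lit 20604006528), (nat_lit 114, nat_lit 20604002433), (nat_lit 14, nat_lit 21677744256)]⟩,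
   ⟨V6_15235031169, [(nat_lit 21, nat_lit 16309309569), (nat_lit 109, nat_lit 17383047297), (nat_lit 116, nat_lit 17382789249), (nat_lit 84, nat_lit 18456785025), (nat_lit 124, nat_lit 18456526977), (nat_lit 112, nat_lit 18456268929), (nat_lit 125, nat_lit 19530522753), (nat_lit 125, nat_lit 19530264705), (nat_lit 110, nat_lit 19530006657), (nat_lit 89, nat_lit 20604002433), (nat_lit 19, nat_lit 20603744385), (nat_lit 21, nat_lit 21677482113)]⟩,
   ⟨V6_13088071809, [(nat_lit 101, nat_lit 16309309569), (nat_lit 92, nat_lit 17383047297), (nat_lit 68, nat_lit 18456785025), (nat_lit 110, nat_lit 19530522753)]⟩],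
  [W_16258453568, W_16242196544, W_15218262080, W_15201747008, W_15201488960, W_15185231936, W_14161555520, W_14144782400, W_14144524352, W_13088075840, W_13071044672, W_13071040640, W_13054267520]⟩
theorem C_16309309569 : chkRec R_16309309569 = true := by decide +kernel

noncomputable def R_16309309632 : Rec := ⟨nat_lit 16309309632, nat_lit 113,
  [⟨V6_16308781056, [(nat_lit 69, nat_lit 16309309632), (nat_lit 18, nat_lit 17383051392), (nat_lit 48, nat_lit 17383047360), (nat_lit 107, nat_lit 17382789312), (nat_lit 68, nat_lit 18456793152), (nat_lit 119, nat_lit 18456789120), (nat_lit 124, nat_lit 18456531072), (nat_lit 23, nat_lit 18456527040), (nat_lit 22, nat_lit 18456268992), (nat_lit 70, nat_lit 19530534912), (nat_lit 91, nat_lit 19530530880), (nat_lit 29, nat_lit 19530272832), (nat_lit 65, nat_lit 19530268800), (nat_lit 59, nat_lit 19530010752), (nat_lit 34, nat_lit 19530006720), (nat_lit 94, nat_lit 20604272640), (nat_lit 71, nat_lit 20604014592), (nat_lit 120, nat_lit 20604010560), (nat_lit 52, nat_lit 20603752512), (nat_lit 3, nat_lit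 20603748480), (nat_lit 17, nat_lit 21677752320), (nat_lit 115, nat_lit 21677494272), (nat_lit 11, nat_lit 21677490240), (nat_lit 23, nat_lit 22751232000)]⟩,
   ⟨V6_16292007936, [(nat_lit 102, nat_lit 16309309632), (nat_lit 78, nat_lit 17383051392), (nat_lit 103, nat_lit 17382789312), (nat_lit 118, nat_lit 17366274240), (nat_lit 24, nat_lit 18456793152), (nat_lit 103, nat_lit 18456531072), (nat_lit 55, nat_lit 18456268992), (nat_lit 80, nat_lit 18440016000), (nat_lit 120, nat_lit 18439753920), (nat_lit 10, nat_lit 19530534912), (nat_lit 12, nat_lit 19530272832), (nat_lit 52, nat_lit 19530010752), (nat_lit 55, nat_lit 19513757760), (nat_lit 64, nat_lit 19513495680), (nat_lit 50, nat_lit 19513233600), (nat_lit 122, nat_lit 20604014592), (nat_lit 93, nat_lit 20603752512), (nat_lit 48, nat_lit 20587499520), (nat_lit 119, nat_lit 20587237440), (nat_lit 56, nat_lit 20586975360), (nat_lit 59, nat_lit 21677494272), (nat_lit 37, nat_lit 21660979200), (nat_lit 69, nat_lit 21660717120), (nat_lit 84, nat_lit 22734458880)]⟩,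
   ⟨V6_14161563648, [(nat_lit 72, nat_lit 16309309632), (nat_lit 46, nat_lit 17383051392), (nat_lit 60, nat_lit 17382789312), (nat_lit 76, nat_lit 18456793152), (nat_lit 112, nat_lit 18456531072), (nat_lit 66, nat_lit 19530534912), (nat_lit 3, nat_lit 19530272832), (nat_lit 101, nat_lit 20604014592)]⟩,
   ⟨V6_13088083968, [(nat_lit 15, nat_lit 16309309632), (nat_lit 115, nat_lit 17383051392), (nat_lit 94, nat_lit 18456793152), (nat_lit 2, nat_lit 19530534912)]⟩],
  [W_16242196544, W_15235297280, W_15218524160, W_15202009088, W_15201747008, W_15185231936, W_15151677632, W_14161817600, W_14145044480, W_14144516288, W_13071298688, W_13071036608, W_13054521536, W_13054263488]⟩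
theorem C_16309309632 : chkRec R_16309309632 = true := by decide +kernel

noncomputable def R_16309313601 : Rec := ⟨nat_lit 16309313601, nat_lit 46,
  [⟨V6_16309293120, [(nat_lit 110, nat_lit 16309313601), (nat_lit 79, nat_lit 17383055424), (nat_lit 112, nat_lit 17383051329), (nat_lit 24, nat_lit 18456793152), (nat_lit 96, nat_lit 18456789057), (nat_lit 59, nat_lit 19530530880), (nat_lit 116, nat_lit 19530526785), (nat_lit 37, nat_lit 20604268608), (nat_lit 63, nat_lit 20604264513), (nat_lit 88, nat_lit 21678006336), (nat_lit 32, nat_lit 21678002241), (nat_lit 14, nat_lit 22751744064)]⟩,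
   ⟨V6_16225165377, [(nat_lit 40, nat_lit 16309313601), (nat_lit 94, nat_lit 17382793281), (nat_lit 25, nat_lit 17366278209), (nat_lit 6, nat_lit 18439757889), (nat_lit 77, nat_lit 18423242817), (nat_lit 51, nat_lit 19496722497), (nat_lit 108, nat_lit 19480207425), (nat_lit 105, nat_lit 20553687105), (nat_lit 64, nat_lit 20537172033), (nat_lit 70, nat_lit 21610651713), (nat_lit 93, nat_lit 21594136641), (nat_lit 88, nat_lit 22667616321)]⟩,
   ⟨V6_15151685697, [(nat_lit 42, nat_lit 16309313601), (nat_lit 1, nat_lit 17366278209), (nat_lit 41, nat_lit 18423242817), (nat_lit 7, nat_lit 19480207425), (nat_lit 45, nat_lit 20537172033), (nat_lit 120, nat_lit 21594136641)]⟩],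
  [W_15201747008, W_14161555520, W_14144782400, W_13088075840, W_13087817792, W_13071302720, W_13071044672, W_13054529600]⟩
theorem C_16309313601 : chkRec R_16309313601 = true := by decide +kernel

noncomputable def R_16309313664 : Rec := ⟨nat_lit 16309313664, nat_lit 124,
  [⟨V6_16309297152, [(nat_lit 79, nat_lit 16309313664), (nat_lit 52, nat_lit 17383055424), (nat_lit 84, nat_lit 17383051392), (nat_lit 72, nat_lit 18456797184), (nat_lit 101, nat_lit 18456793152), (nat_lit 15, nat_lit 18456789120), (nat_lit 119, nat_lit 19530534912), (nat_lit 116, nat_lit 19530530880), (nat_lit 55, nat_lit 19530526848), (nat_lit 73, nat_lit 20604272640), (nat_lit 34, nat_lit 20604268608), (nat_lit 2, nat_lit 20604264576), (nat_lit 118, nat_lit 21678010368), (nat_lit 74, nat_lit 21678006336), (nat_lit 48, nat_lit 22751748096)]⟩,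
   ⟨V6_16258719744, [(nat_lit 104, nat_lit 16309313664), (nat_lit 64, nat_lit 17383055424), (nat_lit 119, nat_lit 17382793344), (nat_lit 45, nat_lit 17366278272), (nat_lit 46, nat_lit 18456797184), (nat_lit 8, nat_lit 18456535104), (nat_lit 46, nat_lit 18440020032), (nat_lit 9, nat_lit 18439757952), (nat_lit 11, nat_lit 18423242880), (nat_lit 26, nat_lit 19530276864), (nat_lit 36, nat_lit 19513761792), (nat_lit 93, nat_lit 19513499712), (nat_lit 25, nat_lit 19496984640), (nat_lit 124, nat_lit 19496722560), (nat_lit 77, nat_lit 19480207488), (nat_lit 126, nat_lit 20587241472), (nat_lit 96, nat_lit 20570726400), (nat_lit 102, nat_lit 20570464320), (nat_lit 23, nat_lit 20553949248), (nat_lit 3, nat_lit 20553687168), (nat_lit 96, nat_lit 21644206080), (nat_lit 104, nat_lit 21627691008), (nat_lit 94, nat_lit 21627428928), (nat_lit 94, nat_lit 22701170688)]⟩,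
   ⟨V6_16242204672, [(nat_lit 68, nat_lit 16309313664), (nat_lit 126, nat_lit 17383055424), (nat_lit 42, nat_lit 17366278272), (nat_lit 71, nat_lit 18456797184), (nat_lit 40, nat_lit 18440020032), (nat_lit 34, nat_lit 18423242880), (nat_lit 99, nat_lit 19513761792), (nat_lit 110, nat_lit 19496984640), (nat_lit 76, nat_lit 19480207488), (nat_lit 76, nat_lit 20570726400), (nat_lit 40, nat_lit 20553949248), (nat_lit 88, nat_lit 20537172096), (nat_lit 64, nat_lit 21627691008), (nat_lit 101, nat_lit 21610913856), (nat_lit 124, nat_lit 22684655616)]⟩,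
   ⟨V6_13087825920, [(nat_lit 25, nat_lit 16309313664), (nat_lit 9, nat_lit 17383055424), (nat_lit 95, nat_lit 17382793344), (nat_lit 70, nat_lit 18456797184), (nat_lit 100, nat_lit 18456535104), (nat_lit 83, nat_lit 19530276864)]⟩],
  [W_15235297280, W_15218524160, W_15202009088, W_15202001024, W_15201747008, W_15184969856, W_14161817600, W_14161813568, W_14161555520, W_14145044480, W_14145036416, W_13088071808, W_13071298688, W_13071040640]⟩
theorem C_16309313664 : chkRec R_16309313664 = true := by decide +kernel

noncomputable def R_16309317696 : Rec := ⟨nat_lit 16309317696, nat_lit 54,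
  [⟨V6_16309293120, [(nat_lit 86, nat_lit 16309317696), (nat_lit 35, nat_lit 17383055424), (nat_lit 56, nat_lit 18456793152), (nat_lit 100, nat_lit 19530530880), (nat_lit 57, nat_lit 20604268608), (nat_lit 58, nat_lit 21678006336), (nat_lit 93, nat_lit 22751744064)]⟩,
   ⟨V6_16225427520, [(nat_lit 97, nat_lit 16309317696), (nat_lit 26, nat_lit 17383055424), (nat_lit 119, nat_lit 17366282304), (nat_lit 48, nat_lit 18440020032), (nat_lit 72, nat_lit 18423246912), (nat_lit 31, nat_lit 19496984640), (nat_lit 111, nat_lit 19480211520), (nat_lit 121, nat_lit 20553949248), (nat_lit 104, nat_lit 20537176128), (nat_lit 67, nat_lit 21610913856), (nat_lit 92, nat_lit 21594140736), (nat_lit 16, nat_lit 22667878464)]⟩,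
   ⟨V6_13088083968, [(nat_lit 38, nat_lit 16309317696), (nat_lit 33, nat_lit 17383059456), (nat_lit 57, nat_lit 17383055424), (nat_lit 118, nat_lit 18456797184), (nat_lit 82, nat_lit 18456793152), (nat_lit 35, nat_lit 19530534912)]⟩],
  [W_15202009088, W_15185231936, W_15168462848, W_14161817600, W_14145044480, W_14094725120]⟩
theorem C_16309317696 : chkRec R_16309317696 = true := by decide +kernel

noncomputable def R_16309563522 : Rec := ⟨nat_lit 16309563522, nat_lit 21,
  [⟨V6_16291475586, [(nat_lit 9, nat_lit 16309563522), (nat_lit 120, nat_lit 17383043202), (nat_lit 11, nat_lit 17366528130), (nat_lit 26, nat_lit 18456522882), (nat_lit 54, nat_lit 18440007810), (nat_lit 34, nat_lit 19530002562), (nat_lit 28, nat_lit 19513487490), (nat_lit 40, nat_lit 20603482242), (nat_lit 4, nat_lit 20586967170), (nat_lit 70, nat_lit 21676961922), (nat_lit 70, nat_lit 21660446850), (nat_lit 1, nat_lit 22733926530)]⟩,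
   ⟨V6_13088333952, [(nat_lit 57, nat_lit 16309563522), (nat_lit 67, nat_lit 17383305345), (nat_lit 24, nat_lit 17383301250), (nat_lit 18, nat_lit 18457047168), (nat_lit 5, nat_lit 18457043073), (nat_lit 100, nat_lit 19530784896)]⟩,
   ⟨V6_13088071809, [(nat_lit 93, nat_lit 16309563522), (nat_lit 108, nat_lit 17383305345), (nat_lit 113, nat_lit 17383301250), (nat_lit 97, nat_lit 17383043202), (nat_lit 121, nat_lit 18457043073), (nat_lit 61, nat_lit 18456785025), (nat_lit 62, nat_lit 18456780930), (nat_lit 109, nat_lit 19530522753)]⟩],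
  [W_16242450560, W_16242192512, W_15202001024, W_15185485952, W_15168712832, W_13087813760]⟩
theorem C_16309563522 : chkRec R_16309563522 = true := by decide +kernel

noncomputable def R_16309563585 : Rec := ⟨nat_lit 16309563585, nat_lit 33,
  [⟨V6_16259231808, [(nat_lit 19, nat_lit 16309563585), (nat_lit 68, nat_lit 17383305408), (nat_lit 24, nat_lit 17383305345), (nat_lit 33, nat_lit 17366528193), (nat_lit 110, nat_lit 18457047168), (nat_lit 26, nat_lit 18457047105), (nat_lit 50, nat_lit 18440270016), (nat_lit 61, nat_lit 18440269953), (nat_lit 6, nat_lit 18423492801), (nat_lit 46, nat_lit 19530788928), (nat_lit 78, nat_lit 19514011776), (nat_lit 125, nat_lit 19514011713), (nat_lit 124, nat_lit 19497234624), (nat_lit 26, nat_lit 19497234561), (nat_lit 31, nat_lit 19480457409), (nat_lit 7, nat_lit 20587753536), (nat_lit 33, nat_lit 20570976384), (nat_lit 111, nat_lit 20570976321), (nat_lit 12, nat_lit 20554199232), (nat_lit 125, nat_lit 20554199169), (nat_lit 12, nat_lit 21644718144), (nat_lit 36, nat_lit 21627940992), (nat_lit 82, nat_lit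 21627940929), (nat_lit 64, nat_lit 22701682752)]⟩],
  [W_16308514880, W_16242454592, W_15185489984, W_14161555520, W_13088075840, W_13071560768]⟩
theorem C_16309563585 : chkRec R_16309563585 = true := by decide +kernel

noncomputable def R_16309567617 : Rec := ⟨nat_lit 16309567617, nat_lit 89,
  [⟨V6_16308518976, [(nat_lit 72, nat_lit 16309567617), (nat_lit 76, nat_lit 17383309440), (nat_lit 76, nat_lit 17383309377), (nat_lit 45, nat_lit 17383047297), (nat_lit 27, nat_lit 18457051200), (nat_lit 39, nat_lit 18456789120), (nat_lit 16, nat_lit 18456789057), (nat_lit 120, nat_lit 18456526977), (nat_lit 58, nat_lit 19530530880), (nat_lit 118, nat_lit 19530268800), (nat_lit 100, nat_lit 19530268737), (nat_lit 126, nat_lit 19530006657), (nat_lit 117, nat_lit 20604010560), (nat_lit 92, nat_lit 20603748480), (nat_lit 108, nat_lit 20603748417), (nat_lit 50, nat_lit 20603486337), (nat_lit 87, nat_lit 21677490240), (nat_lit 109, nat_lit 21677228160), (nat_lit 90, nat_lit 21677228097), (nat_lit 33, nat_lit 22750969920)]⟩,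
   ⟨V6_16291741824, [(nat_lit 121, nat_lit 16309567617), (nat_lit 118, nat_lit 17383309440), (nat_lit 82, nat_lit 17383047297), (nat_lit 59, nat_lit 17366532225), (nat_lit 105, nat_lit 18456789120), (nat_lit 103, nat_lit 18456526977), (nat_lit 3, nat_lit 18440274048), (nat_lit 72, nat_lit 18440011905), (nat_lit 44, nat_lit 19530268800), (nat_lit 123, nat_lit 19530006657), (nat_lit 117, nat_lit 19513753728), (nat_lit 17, nat_lit 19513491585), (nat_lit 35, nat_lit 20603748480), (nat_lit 40, nat_lit 20603486337), (nat_lit 75, nat_lit 20587233408), (nat_lit 88, nat_lit 20586971265), (nat_lit 29, nat_lit 21677228160), (nat_lit 60, nat_lit 21660713088), (nat_lit 118, nat_lit 21660450945), (nat_lit 41, nat_lit 22734192768)]⟩,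
   ⟨V6_15234777216, [(nat_lit 81, nat_lit 16309567617), (nat_lit 35, nat_lit 17383309440), (nat_lit 40, nat_lit 17383047297), (nat_lit 59, nat_lit 18456789120), (nat_lit 84, nat_lit 18456526977), (nat_lit 91, nat_lit 19530268800), (nat_lit 11, nat_lit 19530006657), (nat_lit 41, nat_lit 20603748480), (nat_lit 42, nat_lit 20603486337), (nat_lit 66, nat_lit 21677228160)]⟩],
  [W_16242454592, W_16242450560, W_15202001024, W_15168716864, W_15168712832, W_14161813568, W_14145036416, W_14128525376, W_14128521344, W_14128267328, W_14111752256, W_14111748224, W_14094975104, W_13088071808, W_13071560768, W_13071556736, W_13054787648, W_13054783616, W_13054525568, W_13038010496]⟩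
theorem C_16309567617 : chkRec R_16309567617 = true := by decide +kernel

noncomputable def R_16309567680 : Rec := ⟨nat_lit 16309567680, nat_lit 125,
  [⟨V6_16308518976, [(nat_lit 114, nat_lit 16309567680), (nat_lit 98, nat_lit 17383309440), (nat_lit 13, nat_lit 17383047360), (nat_lit 58, nat_lit 18457051200), (nat_lit 64, nat_lit 18456789120), (nat_lit 11, nat_lit 18456527040), (nat_lit 1, nat_lit 19530530880), (nat_lit 37, nat_lit 19530268800), (nat_lit 119, nat_lit 19530006720), (nat_lit 102, nat_lit 20604010560), (nat_lit 22, nat_lit 20603748480), (nat_lit 120, nat_lit 20603486400), (nat_lit 97, nat_lit 21677490240), (nat_lit 29, nat_lit 21677228160), (nat_lit 119, nat_lit 22750969920)]⟩,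
   ⟨V6_16291741824, [(nat_lit 86, nat_lit 16309567680), (nat_lit 92, nat_lit 17383309440), (nat_lit 111, nat_lit 17383047360), (nat_lit 3, nat_lit 17366532288), (nat_lit 16, nat_lit 18456789120), (nat_lit 52, nat_lit 18456527040), (nat_lit 85, nat_lit 18440274048), (nat_lit 26, nat_lit 18440011968), (nat_lit 59, nat_lit 19530268800), (nat_lit 29, nat_lit 19530006720), (nat_lit 20, nat_lit 19513753728), (nat_lit 80, nat_lit 19513491648), (nat_lit 105, nat_lit 20603748480), (nat_lit 40, nat_lit 20603486400), (nat_lit 94, nat_lit 20587233408), (nat_lit 118, nat_lit 20586971328), (nat_lit 45, nat_lit 21677228160), (nat_lit 114, nat_lit 21660713088), (nat_lit 100, nat_lit 21660451008), (nat_lit 60, nat_lit 22734192768)]⟩,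
   ⟨V6_16276008960, [(nat_lit 20, nat_lit 16309567680), (nat_lit 96, nat_lit 17383309440), (nat_lit 5, nat_lit 17383305408), (nat_lit 83, nat_lit 17366532288), (nat_lit 65, nat_lit 18457051200), (nat_lit 32, nat_lit 18457047168), (nat_lit 55, nat_lit 18440274048), (nat_lit 3, nat_lit 18440270016), (nat_lit 120, nat_lit 18423496896), (nat_lit 25, nat_lit 19530792960), (nat_lit 72, nat_lit 19530788928), (nat_lit 91, nat_lit 19514015808), (nat_lit 122, nat_lit 19514011776), (nat_lit 71, nat_lit 19497238656), (nat_lit 48, nat_lit 19497234624), (nat_lit 10, nat_lit 20604530688), (nat_lit 71, nat_lit 20587757568), (nat_lit 21, nat_lit 20587753536), (nat_lit 2, nat_lit 20570980416), (nat_lit 4, nat_lit 20570976384), (nat_lit 80, nat_lit 21661495296), (nat_lit 29, nat_lit 21644722176), (nat_lit 52, nat_lit 21644718144), (nat_lit 110, nat_lit 22718459904)]⟩],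
  [W_16308518912, W_16242458624, W_16242196544, W_15235297280, W_15218524160, W_15202009088, W_15185494016, W_15168716864, W_15168712832, W_14161817600, W_14145044480, W_13088337920, W_13021233344]⟩
theorem C_16309567680 : chkRec R_16309567680 = true := by decide +kernel

noncomputable def R_16309571649 : Rec := ⟨nat_lit 16309571649, nat_lit 67,
  [⟨V6_16276004928, [(nat_lit 65, nat_lit 16309571649), (nat_lit 114, nat_lit 17383313472), (nat_lit 65, nat_lit 17383309377), (nat_lit 44, nat_lit 17366536257), (nat_lit 110, nat_lit 18457051200), (nat_lit 84, nat_lit 18457047105), (nat_lit 66, nat_lit 18440278080), (nat_lit 89, nat_lit 18440273985), (nat_lit 117, nat_lit 18423500865), (nat_lit 109, nat_lit 19530788928), (nat_lit 85, nat_lit 19530784833), (nat_lit 72, nat_lit 19514015808), (nat_lit 107, nat_lit 19514011713), (nat_lit 24, nat_lit 19497242688), (nat_lit 26, nat_lit 19497238593), (nat_lit 35, nat_lit 20604526656), (nat_lit 113, nat_lit 20587753536), (nat_lit 63, nat_lit 20587749441), (nat_lit 20, nat_lit 20570980416), (nat_lit 69, nat_lit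 20570976321), (nat_lit 108, nat_lit 21661491264), (nat_lit 4, nat_lit 21644718144), (nat_lit 46, nat_lit 21644714049), (nat_lit 48, nat_lit 22718455872)]⟩,
   ⟨V6_15235813440, [(nat_lit 47, nat_lit 16309571649), (nat_lit 24, nat_lit 17383313472), (nat_lit 66, nat_lit 17383309377), (nat_lit 21, nat_lit 18457051200), (nat_lit 85, nat_lit 18457047105), (nat_lit 77, nat_lit 19530788928), (nat_lit 110, nat_lit 19530784833), (nat_lit 53, nat_lit 20604526656), (nat_lit 5, nat_lit 20604522561), (nat_lit 116, nat_lit 21678264384)]⟩],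
  [W_16258453568, W_16242196544, W_15218262080, W_15201747008, W_15201488960, W_15185231936, W_15168716864, W_14144782400, W_14144524352, W_14094979136, W_13088075840, W_13071044672]⟩
theorem C_16309571649 : chkRec R_16309571649 = true := by decide +kernel

noncomputable def R_16309571712 : Rec := ⟨nat_lit 16309571712, nat_lit 182,
  [⟨V6_16309297152, [(nat_lit 91, nat_lit 16309571712), (nat_lit 126, nat_lit 17383313472), (nat_lit 72, nat_lit 17383309440), (nat_lit 55, nat_lit 17383051392), (nat_lit 63, nat_lit 18457055232), (nat_lit 36, nat_lit 18457051200), (nat_lit 12, nat_lit 18457047168), (nat_lit 2, nat_lit 18456793152), (nat_lit 52, nat_lit 18456789120), (nat_lit 114, nat_lit 19530792960), (nat_lit 102, nat_lit 19530788928), (nat_lit 89, nat_lit 19530784896), (nat_lit 28, nat_lit 19530534912), (nat_lit 101, nat_lit 19530530880), (nat_lit 69, nat_lit 19530526848), (nat_lit 99, nat_lit 20604530688), (nat_lit 35, nat_lit 20604526656), (nat_lit 23, nat_lit 20604272640), (nat_lit 112, nat_lit 20604268608), (nat_lit 22, nat_lit 20604264576),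 (nat_lit 6, nat_lit 21678268416), (nat_lit 63, nat_lit 21678010368), (nat_lit 47, nat_lit 21678006336), (nat_lit 124, nat_lit 22751748096)]⟩,
   ⟨V6_16292782080, [(nat_lit 119, nat_lit 16309571712), (nat_lit 10, nat_lit 17383313472), (nat_lit 66, nat_lit 17383309440), (nat_lit 88, nat_lit 17366536320), (nat_lit 88, nat_lit 18457055232), (nat_lit 39, nat_lit 18457051200), (nat_lit 60, nat_lit 18457047168), (nat_lit 36, nat_lit 18440278080), (nat_lit 119, nat_lit 18440274048), (nat_lit 40, nat_lit 19530792960), (nat_lit 37, nat_lit 19530788928), (nat_lit 116, nat_lit 19530784896), (nat_lit 57, nat_lit 19514019840), (nat_lit 45, nat_lit 19514015808), (nat_lit 87, nat_lit 19514011776), (nat_lit 9, nat_lit 20604530688), (nat_lit 22, nat_lit 20604526656), (nat_lit 102, nat_lit 20587757568), (nat_lit 15, nat_lit 20587753536), (nat_lit 97, nat_lit 20587749504), (nat_lit 115, nat_lit 21678268416), (nat_lit 104, nat_lit 21661495296), (nat_lit 15, nat_lit 21661491264), (nat_lit 117, nat_lit 22735233024)]⟩,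
   ⟨V6_15235817472, [(nat_lit 54, nat_lit 16309571712), (nat_lit 103, nat_lit 17383313472), (nat_lit 82, nat_lit 17383309440), (nat_lit 19, nat_lit 18457055232), (nat_lit 106, nat_lit 18457051200), (nat_lit 65, nat_lit 18457047168), (nat_lit 100, nat_lit 19530792960), (nat_lit 50, nat_lit 19530788928), (nat_lit 15, nat_lit 19530784896), (nat_lit 123, nat_lit 20604530688), (nat_lit 74, nat_lit 20604526656), (nat_lit 67, nat_lit 21678268416)]⟩],
  [W_16258453568, W_16242458624, W_16242454592, W_16242450560, W_16242196544, W_16242192512, W_16241676416, W_15218262080, W_15202009088, W_15201747008, W_15201488960, W_15185231936, W_15184973888, W_15168720896, W_15168716864, W_15168712832, W_15168458816, W_15168454784, W_15168196736, W_14144782400, W_14144524352, W_14128267328, W_14128263296, W_14111494208, W_14111232128, W_14094979136, W_14094717056, W_13087821824, W_13087817792, W_13071044672, W_13070782592, W_13054267520, W_13037752448, W_13021237376]⟩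
theorem C_16309571712 : chkRec R_16309571712 = true := by decide +kernel

noncomputable def R_16309575744 : Rec := ⟨nat_lit 16309575744, nat_lit 159,
  [⟨V6_16309297152, [(nat_lit 13, nat_lit 16309575744), (nat_lit 32, nat_lit 17383317504), (nat_lit 5, nat_lit 17383313472), (nat_lit 12, nat_lit 17383055424), (nat_lit 95, nat_lit 18457055232), (nat_lit 123, nat_lit 18457051200), (nat_lit 26, nat_lit 18456797184), (nat_lit 98, nat_lit 18456793152), (nat_lit 69, nat_lit 19530792960), (nat_lit 42, nat_lit 19530788928), (nat_lit 66, nat_lit 19530534912), (nat_lit 62, nat_lit 19530530880), (nat_lit 40, nat_lit 20604530688), (nat_lit 124, nat_lit 20604526656), (nat_lit 26, nat_lit 20604272640), (nat_lit 68, nat_lit 20604268608), (nat_lit 24, nat_lit 21678268416), (nat_lit 120, nat_lit 21678010368), (nat_lit 9, nat_lit 21678006336), (nat_lit 16, nat_lit 22751748096)]⟩,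
   ⟨V6_16292782080, [(nat_lit 34, nat_lit 16309575744), (nat_lit 33, nat_lit 17383317504), (nat_lit 77, nat_lit 17383313472), (nat_lit 47, nat_lit 17366540352), (nat_lit 44, nat_lit 18457055232), (nat_lit 38, nat_lit 18457051200), (nat_lit 57, nat_lit 18440282112), (nat_lit 99, nat_lit 18440278080), (nat_lit 71, nat_lit 19530792960), (nat_lit 75, nat_lit 19530788928), (nat_lit 51, nat_lit 19514019840), (nat_lit 98, nat_lit 19514015808), (nat_lit 96, nat_lit 20604530688), (nat_lit 9, nat_lit 20604526656), (nat_lit 76, nat_lit 20587757568), (nat_lit 118, nat_lit 20587753536), (nat_lit 79, nat_lit 21678268416), (nat_lit 118, nat_lit 21661495296), (nat_lit 76, nat_lit 21661491264), (nat_lit 22, nat_lit 22735233024)]⟩,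
   ⟨V6_15235813440, [(nat_lit 32, nat_lit 16309575744), (nat_lit 60, nat_lit 17383313472), (nat_lit 6, nat_lit 18457051200), (nat_lit 71, nat_lit 19530788928), (nat_lit 88, nat_lit 20604526656), (nat_lit 104, nat_lit 21678264384)]⟩],
  [W_16242458624, W_16242454592, W_16242196544, W_15202009088, W_15201747008, W_15185494016, W_15185231936, W_15184973888, W_15168720896, W_15168716864, W_15168462848, W_15168458816, W_15168200768, W_14128267328, W_14111494208, W_14111236160, W_14094983168, W_14094979136, W_14094721088, W_13087821824, W_13087817792, W_13071048704, W_13071044672, W_13054271552, W_13037756480]⟩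
theorem C_16309575744 : chkRec R_16309575744 = true := by decide +kernel

noncomputable def R_16309579776 : Rec := ⟨nat_lit 16309579776, nat_lit 69,
  [⟨V6_15235817472, [(nat_lit 23, nat_lit 16309579776), (nat_lit 10, nat_lit 17383317504), (nat_lit 71, nat_lit 18457055232), (nat_lit 48, nat_lit 19530792960), (nat_lit 30, nat_lit 20604530688), (nat_lit 90, nat_lit 21678268416)]⟩,
   ⟨V6_13088342016, [(nat_lit 5, nat_lit 16309579776), (nat_lit 117, nat_lit 17383317504), (nat_lit 46, nat_lit 18457055232), (nat_lit 110, nat_lit 19530792960)]⟩],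
  [W_16242458624, W_15202009088, W_15185494016, W_15168720896, W_15168462848, W_14145044480, W_14094983168, W_13088337920]⟩
theorem C_16309579776 : chkRec R_16309579776 = true := by decide +kernel

noncomputable def R_16309821570 : Rec := ⟨nat_lit 16309821570, nat_lit 9,
  [⟨V6_13088071809, [(nat_lit 94, nat_lit 16309821570), (nat_lit 81, nat_lit 17383563393), (nat_lit 125, nat_lit 17383301250), (nat_lit 27, nat_lit 18457043073), (nat_lit 43, nat_lit 18456780930), (nat_lit 2, nat_lit 19530522753)]⟩,
   ⟨V6_13087809666, [(nat_lit 10, nat_lit 16309821570), (nat_lit 68, nat_lit 17383301250), (nat_lit 10, nat_lit 18456780930), (nat_lit 71, nat_lit 19530260610)]⟩],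
  [W_16308510848, W_15202001024]⟩
theorem C_16309821570 : chkRec R_16309821570 = true := by decide +kernel

noncomputable def R_16309825665 : Rec := ⟨nat_lit 16309825665, nat_lit 55,
  [⟨V6_15235293312, [(nat_lit 60, nat_lit 16309825665), (nat_lit 86, nat_lit 17383567488), (nat_lit 26, nat_lit 17383563393), (nat_lit 91, nat_lit 17383305345), (nat_lit 112, nat_lit 18457305216), (nat_lit 61, nat_lit 18457047168), (nat_lit 19, nat_lit 18457043073), (nat_lit 103, nat_lit 18456785025), (nat_lit 119, nat_lit 19530784896), (nat_lit 12, nat_lit 19530526848), (nat_lit 111, nat_lit 19530522753), (nat_lit 78, nat_lit 19530264705), (nat_lit 17, nat_lit 20604264576), (nat_lit 51, nat_lit 20604006528), (nat_lit 33, nat_lit 20604002433), (nat_lit 66, nat_lit 21677744256)]⟩,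
   ⟨V6_13088333952, [(nat_lit 104, nat_lit 16309825665), (nat_lit 1, nat_lit 17383567488), (nat_lit 116, nat_lit 17383563393), (nat_lit 94, nat_lit 17383305345), (nat_lit 108, nat_lit 18457305216), (nat_lit 88, nat_lit 18457047168), (nat_lit 36, nat_lit 18457043073), (nat_lit 50, nat_lit 19530784896)]⟩],
  [W_16308514880, W_16308252800, W_15185748032, W_15185489984, W_14161813568, W_14161555520, W_14128783424, W_14128525376, W_14112010304, W_13071818816, W_13071560768, W_13038268544]⟩
theorem C_16309825665 : chkRec R_16309825665 = true := by decide +kernel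

noncomputable def R_16309825728 : Rec := ⟨nat_lit 16309825728, nat_lit 61,
  [⟨V6_16276008960, [(nat_lit 89, nat_lit 16309825728), (nat_lit 11, nat_lit 17383567488), (nat_lit 122, nat_lit 17383305408), (nat_lit 95, nat_lit 17366790336), (nat_lit 114, nat_lit 18457309248), (nat_lit 42, nat_lit 18457047168), (nat_lit 70, nat_lit 18440532096), (nat_lit 98, nat_lit 18440270016), (nat_lit 47, nat_lit 18423754944), (nat_lit 121, nat_lit 19531051008), (nat_lit 88, nat_lit 19530788928), (nat_lit 89, nat_lit 19514273856), (nat_lit 8, nat_lit 19514011776), (nat_lit 23, nat_lit 19497496704), (nat_lit 101, nat_lit 19497234624), (nat_lit 28, nat_lit 20604530688), (nat_lit 73, nat_lit 20588015616), (nat_lit 107, nat_lit 20587753536), (nat_lit 11, nat_lit 20571238464), (nat_lit 110, nat_lit 20570976384), (nat_lit 91, nat_lit 21661495296), (nat_lit 39, nat_lit 21644980224), (nat_lit 65, nat_lit 21644718144), (nat_lit 61, nat_lit 22718459904)]⟩,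
   ⟨V6_15202529280, [(nat_lit 5, nat_lit 16309825728), (nat_lit 45, nat_lit 17383567488), (nat_lit 56, nat_lit 17366790336), (nat_lit 15, nat_lit 18457309248), (nat_lit 91, nat_lit 18440532096), (nat_lit 84, nat_lit 18423754944), (nat_lit 42, nat_lit 19531051008), (nat_lit 124, nat_lit 19514273856), (nat_lit 117, nat_lit 19497496704), (nat_lit 49, nat_lit 20588015616), (nat_lit 56, nat_lit 20571238464), (nat_lit 110, nat_lit 21644980224)]⟩],
  [W_16308514880, W_16308252800, W_15235297280, W_14161817600, W_14145302528, W_14144516288, W_13088337920, W_13071560768, W_13071298688, W_13071036608, W_13038268544]⟩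
theorem C_16309825728 : chkRec R_16309825728 = true := by decide +kernel

noncomputable def R_16309829697 : Rec := ⟨nat_lit 16309829697, nat_lit 63,
  [⟨V6_16308518976, [(nat_lit 90, nat_lit 16309829697), (nat_lit 115, nat_lit 17383571520), (nat_lit 37, nat_lit 17383309377), (nat_lit 101, nat_lit 18457051200), (nat_lit 102, nat_lit 18456789057), (nat_lit 52, nat_lit 19530530880), (nat_lit 74, nat_lit 19530268737), (nat_lit 120, nat_lit 20604010560), (nat_lit 69, nat_lit 20603748417), (nat_lit 46, nat_lit 21677490240), (nat_lit 113, nat_lit 21677228097), (nat_lit 121, nat_lit 22750969920)]⟩,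
   ⟨V6_15235813440, [(nat_lit 89, nat_lit 16309829697), (nat_lit 54, nat_lit 17383571520), (nat_lit 48, nat_lit 17383567425), (nat_lit 83, nat_lit 17383309377), (nat_lit 76, nat_lit 18457309248), (nat_lit 82, nat_lit 18457305153), (nat_lit 45, nat_lit 18457051200), (nat_lit 48, nat_lit 18457047105), (nat_lit 51, nat_lit 19531046976), (nat_lit 64, nat_lit 19531042881), (nat_lit 47, nat_lit 19530788928), (nat_lit 89, nat_lit 19530784833), (nat_lit 20, nat_lit 20604784704), (nat_lit 124, nat_lit 20604526656), (nat_lit 104, nat_lit 20604522561), (nat_lit 46, nat_lit 21678264384)]⟩,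
   ⟨V6_15185748033, [(nat_lit 82, nat_lit 16309829697), (nat_lit 80, nat_lit 17383567425), (nat_lit 21, nat_lit 17366794305), (nat_lit 90, nat_lit 18457305153), (nat_lit 91, nat_lit 18440532033), (nat_lit 124, nat_lit 18423758913), (nat_lit 56, nat_lit 19514269761), (nat_lit 17, nat_lit 19497496641), (nat_lit 78, nat_lit 19480723521), (nat_lit 38, nat_lit 20571234369), (nat_lit 61, nat_lit 20554461249), (nat_lit 105, nat_lit 21628198977)]⟩],
  [W_16292515904, W_16259485760, W_15201747008, W_15185489984, W_15185231936, W_14128525376, W_14112010304, W_13088333888, W_13071560768, W_13055045696]⟩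
theorem C_16309829697 : chkRec R_16309829697 = true := by decide +kernel

noncomputable def R_16309829760 : Rec := ⟨nat_lit 16309829760, nat_lit 162,
  [⟨V6_16309297152, [(nat_lit 4, nat_lit 16309829760), (nat_lit 101, nat_lit 17383571520), (nat_lit 114, nat_lit 17383567488), (nat_lit 2, nat_lit 17383309440), (nat_lit 33, nat_lit 18457313280), (nat_lit 103, nat_lit 18457309248), (nat_lit 62, nat_lit 18457305216), (nat_lit 17, nat_lit 18457051200), (nat_lit 55, nat_lit 18457047168), (nat_lit 27, nat_lit 18456789120), (nat_lit 11, nat_lit 19531051008), (nat_lit 94, nat_lit 19531046976), (nat_lit 1, nat_lit 19530792960), (nat_lit 10, nat_lit 19530788928), (nat_lit 77, nat_lit 19530784896), (nat_lit 88, nat_lit 19530530880), (nat_lit 67, nat_lit 19530526848), (nat_lit 19, nat_lit 20604788736), (nat_lit 33, nat_lit 20604530688), (nat_lit 61, nat_lit 20604526656), (nat_lit 3, nat_lit 20604272640), (nat_lit 34, nat_lit 20604268608), (nat_lit 66, nat_lit 20604264576), (nat_lit 82, nat_lit 21678268416), (nat_lit 119, nat_lit 21678010368), (nat_lit 111,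 nat_lit 21678006336), (nat_lit 64, nat_lit 22751748096)]⟩,
   ⟨V6_16308518976, [(nat_lit 101, nat_lit 16309829760), (nat_lit 36, nat_lit 17383571520), (nat_lit 50, nat_lit 17383309440), (nat_lit 74, nat_lit 18457051200), (nat_lit 121, nat_lit 18456789120), (nat_lit 80, nat_lit 19530530880), (nat_lit 92, nat_lit 19530268800), (nat_lit 46, nat_lit 20604010560), (nat_lit 39, nat_lit 20603748480), (nat_lit 89, nat_lit 21677490240), (nat_lit 32, nat_lit 21677228160), (nat_lit 126, nat_lit 22750969920)]⟩,
   ⟨V6_15235817472, [(nat_lit 85, nat_lit 16309829760), (nat_lit 77, nat_lit 17383571520), (nat_lit 87, nat_lit 17383567488), (nat_lit 94, nat_lit 17383309440), (nat_lit 112, nat_lit 18457313280), (nat_lit 19, nat_lit 18457309248), (nat_lit 30, nat_lit 18457305216), (nat_lit 43, nat_lit 18457051200), (nat_lit 118, nat_lit 18457047168), (nat_lit 1, nat_lit 19531051008), (nat_lit 108, nat_lit 19531046976), (nat_lit 90, nat_lit 19530792960), (nat_lit 107, nat_lit 19530788928), (nat_lit 120, nat_lit 19530784896), (nat_lit 110, nat_lit 20604788736),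 (nat_lit 41, nat_lit 20604530688), (nat_lit 31, nat_lit 20604526656), (nat_lit 69, nat_lit 21678268416)]⟩],
  [W_16308518912, W_15235297280, W_15218524160, W_15202525184, W_15202009088, W_15201747008, W_15185494016, W_15185231936, W_14161559552, W_14145302528, W_14145044480, W_14128787456, W_14128267328, W_14128263296, W_14112014336]⟩
theorem C_16309829760 : chkRec R_16309829760 = true := by decide +kernel

noncomputable def R_16309833792 : Rec := ⟨nat_lit 16309833792, nat_lit 167,
  [⟨V6_16309297152, [(nat_lit 111, nat_lit 16309833792), (nat_lit 11, nat_lit 17383575552), (nat_lit 117, nat_lit 17383571520), (nat_lit 32, nat_lit 17383313472), (nat_lit 70, nat_lit 18457313280), (nat_lit 36, nat_lit 18457309248), (nat_lit 6, nat_lit 18457055232), (nat_lit 42, nat_lit 18457051200), (nat_lit 99, nat_lit 18456793152), (nat_lit 36, nat_lit 19531051008), (nat_lit 80, nat_lit 19531046976), (nat_lit 34, nat_lit 19530792960), (nat_lit 68, nat_lit 19530788928), (nat_lit 107, nat_lit 19530534912), (nat_lit 37, nat_lit 19530530880), (nat_lit 90, nat_lit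 20604788736), (nat_lit 120, nat_lit 20604530688), (nat_lit 79, nat_lit 20604526656), (nat_lit 119, nat_lit 20604272640), (nat_lit 75, nat_lit 20604268608), (nat_lit 84, nat_lit 21678268416), (nat_lit 120, nat_lit 21678010368), (nat_lit 48, nat_lit 21678006336), (nat_lit 61, nat_lit 22751748096)]⟩,
   ⟨V6_16276262976, [(nat_lit 32, nat_lit 16309833792), (nat_lit 91, nat_lit 17383571520), (nat_lit 22, nat_lit 17366798400), (nat_lit 20, nat_lit 18457309248), (nat_lit 69, nat_lit 18440536128), (nat_lit 18, nat_lit 18423763008), (nat_lit 111, nat_lit 19531046976), (nat_lit 22, nat_lit 19514273856), (nat_lit 59, nat_lit 19497500736), (nat_lit 38, nat_lit 20604784704), (nat_lit 72, nat_lit 20588011584), (nat_lit 4, nat_lit 20571238464), (nat_lit 112, nat_lit 21661749312), (nat_lit 72, nat_lit 21644976192), (nat_lit 96, nat_lit 22718713920)]⟩,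
   ⟨V6_15235817472, [(nat_lit 102, nat_lit 16309833792), (nat_lit 115, nat_lit 17383575552), (nat_lit 98, nat_lit 17383571520), (nat_lit 6, nat_lit 17383313472), (nat_lit 49, nat_lit 18457313280), (nat_lit 35, nat_lit 18457309248), (nat_lit 26, nat_lit 18457055232), (nat_lit 39, nat_lit 18457051200), (nat_lit 61, nat_lit 19531051008), (nat_lit 73, nat_lit 19531046976), (nat_lit 12, nat_lit 19530792960), (nat_lit 118, nat_lit 19530788928), (nat_lit 120, nat_lit 20604788736), (nat_lit 126, nat_lit 20604530688), (nat_lit 11, nat_lit 20604526656), (nat_lit 49, nat_lit 21678268416)]⟩,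
   ⟨V6_15235813440, [(nat_lit 16, nat_lit 16309833792), (nat_lit 94, nat_lit 17383571520), (nat_lit 3, nat_lit 17383313472), (nat_lit 4, nat_lit 18457309248), (nat_lit 64, nat_lit 18457051200), (nat_lit 125, nat_lit 19531046976), (nat_lit 121, nat_lit 19530788928), (nat_lit 27, nat_lit 20604784704), (nat_lit 11, nat_lit 20604526656), (nat_lit 85, nat_lit 21678264384)]⟩],
  [W_16258453568, W_15235039232, W_15218524160, W_15218266112, W_15218262080, W_15202009088, W_15201747008, W_15201488960, W_15185494016, W_15185231936, W_14161559552, W_14161301504, W_14145044480, W_14144782400, W_14144524352, W_14128787456, W_14128267328, W_14111494208, W_13087821824, W_13087817792, W_13071306752, W_13071044672]⟩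
theorem C_16309833792 : chkRec R_16309833792 = true := by decide +kernel

noncomputable def R_16309837824 : Rec := ⟨nat_lit 16309837824, nat_lit 105,
  [⟨V6_15235817472, [(nat_lit 50, nat_lit 16309837824), (nat_lit 88, nat_lit 17383575552), (nat_lit 21, nat_lit 17383317504), (nat_lit 51, nat_lit 18457313280), (nat_lit 76, nat_lit 18457055232), (nat_lit 46, nat_lit 19531051008), (nat_lit 100, nat_lit 19530792960), (nat_lit 39, nat_lit 20604788736), (nat_lit 17, nat_lit 20604530688), (nat_lit 28, nat_lit 21678268416)]⟩,
   ⟨V6_14161563648, [(nat_lit 41, nat_lit 16309837824), (nat_lit 124, nat_lit 17383575552), (nat_lit 88, nat_lit 17383317504), (nat_lit 8, nat_lit 18457055232), (nat_lit 11, nat_lit 18456797184), (nat_lit 17, nat_lit 19530534912), (nat_lit 123, nat_lit 19530276864), (nat_lit 11, nat_lit 20604014592)]⟩,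
   ⟨V6_13088083968, [(nat_lit 85, nat_lit 16309837824), (nat_lit 122, nat_lit 17383575552), (nat_lit 16, nat_lit 17383317504), (nat_lit 125, nat_lit 18457055232), (nat_lit 19, nat_lit 18456797184), (nat_lit 39, nat_lit 19530534912)]⟩,
   ⟨V6_13087825920, [(nat_lit 116, nat_lit 16309837824), (nat_lit 103, nat_lit 17383317504), (nat_lit 116, nat_lit 18456797184), (nat_lit 87, nat_lit 19530276864)]⟩],
  [W_16276262912, W_16259489792, W_15235297280, W_15219298304, W_15218524160, W_15202525184, W_15202009088, W_15185494016, W_14128787456, W_14112014336]⟩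
theorem C_16309837824 : chkRec R_16309837824 = true := by decide +kernel

noncomputable def R_16310083713 : Rec := ⟨nat_lit 16310083713, nat_lit 24,
  [⟨V6_15235031169, [(nat_lit 42, nat_lit 16310083713), (nat_lit 33, nat_lit 17383563393), (nat_lit 118, nat_lit 18457043073), (nat_lit 58, nat_lit 19530522753), (nat_lit 34, nat_lit 20604002433), (nat_lit 79, nat_lit 21677482113)]⟩,
   ⟨V6_13088333952, [(nat_lit 5, nat_lit 16310083713), (nat_lit 39, nat_lit 17383825536), (nat_lit 111, nat_lit 17383563393), (nat_lit 96, nat_lit 18457305216), (nat_lit 1, nat_lit 18457043073), (nat_lit 13, nat_lit 19530784896)]⟩],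
  [W_15202001024, W_14161813568, W_14128783424, W_13088071808, W_13071818816, W_13055303744, W_13055041664]⟩
theorem C_16310083713 : chkRec R_16310083713 = true := by decide +kernel

noncomputable def R_16310087745 : Rec := ⟨nat_lit 16310087745, nat_lit 39,
  [⟨V6_16309293120, [(nat_lit 49, nat_lit 16310087745), (nat_lit 77, nat_lit 17383829568), (nat_lit 20, nat_lit 17383825473), (nat_lit 57, nat_lit 17383567425), (nat_lit 94, nat_lit 18457567296), (nat_lit 68, nat_lit 18457563201), (nat_lit 26, nat_lit 18457309248), (nat_lit 83, nat_lit 18457305153), (nat_lit 18, nat_lit 18457047105), (nat_lit 23, nat_lit 19531305024), (nat_lit 120, nat_lit 19531046976), (nat_lit 53, nat_lit 19531042881), (nat_lit 29, nat_lit 19530788928), (nat_lit 56, nat_lit 19530784833), (nat_lit 114, nat_lit 19530526785), (nat_lit 25, nat_lit 20604784704), (nat_lit 100, nat_lit 20604526656), (nat_lit 79, nat_lit 20604522561), (nat_lit 100, nat_lit 20604268608), (nat_lit 60, nat_lit 20604264513), (nat_lit 85, nat_lit 21678264384), (nat_lit 45, nat_lit 21678006336), (nat_lit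 11, nat_lit 21678002241), (nat_lit 45, nat_lit 22751744064)]⟩,
   ⟨V6_14129041473, [(nat_lit 126, nat_lit 16310087745), (nat_lit 124, nat_lit 17383825473), (nat_lit 91, nat_lit 17367052353), (nat_lit 72, nat_lit 18457563201), (nat_lit 107, nat_lit 18440790081), (nat_lit 87, nat_lit 18424016961), (nat_lit 2, nat_lit 19514527809), (nat_lit 33, nat_lit 19497754689), (nat_lit 77, nat_lit 20571492417)]⟩,
   ⟨V6_13088854080, [(nat_lit 80, nat_lit 16310087745), (nat_lit 95, nat_lit 17383829568), (nat_lit 104, nat_lit 17383825473), (nat_lit 64, nat_lit 18457567296), (nat_lit 69, nat_lit 18457563201), (nat_lit 38, nat_lit 19531305024)]⟩],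
  [W_16308514880, W_14161555520, W_14128783424, W_14128525376, W_13088333888, W_13071560768, W_13055303744, W_13055045696]⟩
theorem C_16310087745 : chkRec R_16310087745 = true := by decide +kernel

noncomputable def R_16310087808 : Rec := ⟨nat_lit 16310087808, nat_lit 97,
  [⟨V6_15235817472, [(nat_lit 83, nat_lit 16310087808), (nat_lit 20, nat_lit 17383829568), (nat_lit 26, nat_lit 17383825536), (nat_lit 51, nat_lit 17383567488), (nat_lit 65, nat_lit 18457571328), (nat_lit 92, nat_lit 18457567296), (nat_lit 63, nat_lit 18457309248), (nat_lit 59, nat_lit 18457305216), (nat_lit 104, nat_lit 18457047168), (nat_lit 3, nat_lit 19531309056), (nat_lit 112, nat_lit 19531051008), (nat_lit 15, nat_lit 19531046976), (nat_lit 86, nat_lit 19530788928), (nat_lit 56, nat_lit 19530784896), (nat_lit 30, nat_lit 20604788736), (nat_lit 93, nat_lit 20604530688), (nat_lit 65, nat_lit 20604526656), (nat_lit 80, nat_lit 21678268416)]⟩,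
   ⟨V6_15219302400, [(nat_lit 73, nat_lit 16310087808), (nat_lit 77, nat_lit 17383829568), (nat_lit 16, nat_lit 17383825536), (nat_lit 119, nat_lit 17383567488), (nat_lit 105, nat_lit 17367052416), (nat_lit 43, nat_lit 18457571328), (nat_lit 37, nat_lit 18457567296), (nat_lit 11, nat_lit 18457309248), (nat_lit 87, nat_lit 18457305216), (nat_lit 49, nat_lit 18440794176), (nat_lit 58, nat_lit 18440790144), (nat_lit 81, nat_lit 18440532096), (nat_lit 122, nat_lit 19531309056), (nat_lit 26, nat_lit 19531051008), (nat_lit 31, nat_lit 19531046976), (nat_lit 104, nat_lit 19514535936), (nat_lit 101, nat_lit 19514531904), (nat_lit 119, nat_lit 19514273856), (nat_lit 75, nat_lit 19514269824), (nat_lit 68, nat_lit 20604788736), (nat_lit 39, nat_lit 20588273664), (nat_lit 118, nat_lit 20588015616), (nat_lit 45, nat_lit 20588011584), (nat_lit 51, nat_lit 21661753344)]⟩,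
   ⟨V6_13088858112, [(nat_lit 71, nat_lit 16310087808), (nat_lit 100, nat_lit 17383829568), (nat_lit 84, nat_lit 17383825536), (nat_lit 94, nat_lit 18457571328), (nat_lit 54, nat_lit 18457567296), (nat_lit 106, nat_lit 19531309056)]⟩],
  [W_16308514880, W_15235297280, W_15202001024, W_14161817600, W_14161555520, W_14145302528, W_14129045504, W_14128787456, W_14128525376, W_14128263296, W_13088071808, W_13071298688, W_13055307776, W_13055045696]⟩
theorem C_16310087808 : chkRec R_16310087808 = true := by decide +kernel

noncomputable def R_16310091840 : Rec := ⟨nat_lit 16310091840, nat_lit 141,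
  [⟨V6_16308518976, [(nat_lit 5, nat_lit 16310091840), (nat_lit 69, nat_lit 17383571520), (nat_lit 16, nat_lit 18457051200), (nat_lit 57, nat_lit 19530530880), (nat_lit 117, nat_lit 20604010560), (nat_lit 46, nat_lit 21677490240), (nat_lit 32, nat_lit 22750969920)]⟩,
   ⟨V6_16276262976, [(nat_lit 14, nat_lit 16310091840), (nat_lit 29, nat_lit 17383829568), (nat_lit 100, nat_lit 17383571520), (nat_lit 56, nat_lit 17367056448), (nat_lit 14, nat_lit 18457567296), (nat_lit 58, nat_lit 18457309248), (nat_lit 3, nat_lit 18440794176), (nat_lit 69, nat_lit 18440536128), (nat_lit 38, nat_lit 18424021056), (nat_lit 97, nat_lit 19531305024), (nat_lit 99, nat_lit 19531046976), (nat_lit 10, nat_lit 19514531904), (nat_lit 102, nat_lit 19514273856), (nat_lit 57, nat_lit 19497758784), (nat_lit 8, nat_lit 19497500736), (nat_lit 29, nat_lit 20604784704), (nat_lit 43, nat_lit 20588269632), (nat_lit 41, nat_lit 20588011584), (nat_lit 29, nat_lit 20571496512), (nat_lit 44, nat_lit 20571238464), (nat_lit 85, nat_lit 21661749312), (nat_lit 96, nat_lit 21645234240),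 (nat_lit 40, nat_lit 21644976192), (nat_lit 64, nat_lit 22718713920)]⟩,
   ⟨V6_15235817472, [(nat_lit 105, nat_lit 16310091840), (nat_lit 115, nat_lit 17383833600), (nat_lit 28, nat_lit 17383829568), (nat_lit 10, nat_lit 17383571520), (nat_lit 44, nat_lit 18457571328), (nat_lit 83, nat_lit 18457567296), (nat_lit 69, nat_lit 18457313280), (nat_lit 38, nat_lit 18457309248), (nat_lit 126, nat_lit 18457051200), (nat_lit 22, nat_lit 19531309056), (nat_lit 46, nat_lit 19531051008), (nat_lit 96, nat_lit 19531046976), (nat_lit 70, nat_lit 19530792960), (nat_lit 81, nat_lit 19530788928), (nat_lit 104, nat_lit 20604788736), (nat_lit 48, nat_lit 20604530688), (nat_lit 122, nat_lit 20604526656), (nat_lit 39, nat_lit 21678268416)]⟩,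
   ⟨V6_15235813440, [(nat_lit 56, nat_lit 16310091840), (nat_lit 23, nat_lit 17383829568), (nat_lit 7, nat_lit 17383571520), (nat_lit 100, nat_lit 18457567296), (nat_lit 37, nat_lit 18457309248), (nat_lit 70, nat_lit 18457051200), (nat_lit 51, nat_lit 19531305024), (nat_lit 60, nat_lit 19531046976), (nat_lit 54, nat_lit 19530788928), (nat_lit 44, nat_lit 20604784704), (nat_lit 122, nat_lit 20604526656), (nat_lit 46, nat_lit 21678264384)]⟩,
   ⟨V6_13088858112, [(nat_lit 16, nat_lit 16310091840), (nat_lit 114, nat_lit 17383833600), (nat_lit 13, nat_lit 17383829568), (nat_lit 48, nat_lit 18457571328), (nat_lit 57, nat_lit 18457567296), (nat_lit 100, nat_lit 19531309056)]⟩],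
  [W_16308518912, W_15235297280, W_15235039232, W_15218524160, W_15202783232, W_15202009088, W_15201747008, W_14161559552, W_14145302528, W_14145044480, W_14128787456, W_14128267328, W_13055307776]⟩
theorem C_16310091840 : chkRec R_16310091840 = true := by decide +kernel

noncomputable def R_16310095872 : Rec := ⟨nat_lit 16310095872, nat_lit 101,
  [⟨V6_16308781056, [(nat_lit 43, nat_lit 16310095872), (nat_lit 13, nat_lit 17383833600), (nat_lit 16, nat_lit 17383575552), (nat_lit 27, nat_lit 18457313280), (nat_lit 59, nat_lit 18457055232), (nat_lit 67, nat_lit 19530792960), (nat_lit 13, nat_lit 19530534912), (nat_lit 72, nat_lit 20604272640), (nat_lit 46, nat_lit 20604014592), (nat_lit 101, nat_lit 21677752320), (nat_lit 108, nat_lit 21677494272), (nat_lit 18, nat_lit 22751232000)]⟩,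
   ⟨V6_15236333568, [(nat_lit 43, nat_lit 16310095872), (nat_lit 106, nat_lit 17383833600), (nat_lit 11, nat_lit 18457571328), (nat_lit 38, nat_lit 19531309056), (nat_lit 43, nat_lit 20605046784), (nat_lit 125, nat_lit 21678784512)]⟩,
   ⟨V6_14161563648, [(nat_lit 32, nat_lit 16310095872), (nat_lit 47, nat_lit 17383575552), (nat_lit 80, nat_lit 18457055232), (nat_lit 5, nat_lit 19530534912), (nat_lit 103, nat_lit 20604014592)]⟩,
   ⟨V6_13088858112, [(nat_lit 29, nat_lit 16310095872), (nat_lit 83, nat_lit 17383833600), (nat_lit 100, nat_lit 18457571328), (nat_lit 102, nat_lit 19531309056)]⟩],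
  [W_16276520960, W_16276262912, W_15219298304, W_15218524160, W_15202783232, W_15202525184, W_15202009088, W_14162333696, W_14145818624, W_14129045504, W_14128787456, W_13088854016, W_13055307776]⟩
theorem C_16310095872 : chkRec R_16310095872 = true := by decide +kernel

noncomputable def R_16310345793 : Rec := ⟨nat_lit 16310345793, nat_lit 17,
  [⟨V6_15235813440, [(nat_lit 116, nat_lit 16310345793), (nat_lit 93, nat_lit 17384087616), (nat_lit 24, nat_lit 17384083521), (nat_lit 67, nat_lit 17383825473), (nat_lit 95, nat_lit 18457825344), (nat_lit 46, nat_lit 18457567296), (nat_lit 85, nat_lit 18457563201), (nat_lit 33, nat_lit 18457305153), (nat_lit 14, nat_lit 19531305024), (nat_lit 39, nat_lit 19531046976), (nat_lit 88, nat_lit 19531042881), (nat_lit 53, nat_lit 19530784833), (nat_lit 117, nat_lit 20604784704), (nat_lit 24, nat_lit 20604526656), (nat_lit 28, nat_lit 20604522561), (nat_lit 55, nat_lit 21678264384)]⟩],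
  [W_16292515904, W_14161813568, W_13072076864]⟩
theorem C_16310345793 : chkRec R_16310345793 = true := by decide +kernel

noncomputable def R_16310345856 : Rec := ⟨nat_lit 16310345856, nat_lit 34,
  [⟨V6_14145298560, [(nat_lit 16, nat_lit 16310345856), (nat_lit 77, nat_lit 17383825536), (nat_lit 111, nat_lit 17367310464), (nat_lit 42, nat_lit 18457305216), (nat_lit 109, nat_lit 18440790144), (nat_lit 120, nat_lit 19530784896), (nat_lit 64, nat_lit 19514269824), (nat_lit 62, nat_lit 20587749504)]⟩,
   ⟨V6_13088333952, [(nat_lit 41, nat_lit 16310345856), (nat_lit 38, nat_lit 17383825536), (nat_lit 108, nat_lit 18457305216), (nat_lit 107, nat_lit 19530784896)]⟩],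
  [W_16309035008, W_14145560576, W_13088595968, W_13072080896]⟩
theorem C_16310345856 : chkRec R_16310345856 = true := by decide +kernel

noncomputable def R_16310349888 : Rec := ⟨nat_lit 16310349888, nat_lit 73,
  [⟨V6_15235817472, [(nat_lit 88, nat_lit 16310349888), (nat_lit 101, nat_lit 17384091648), (nat_lit 115, nat_lit 17384087616), (nat_lit 25, nat_lit 17383829568), (nat_lit 118, nat_lit 18457829376), (nat_lit 23, nat_lit 18457571328), (nat_lit 20, nat_lit 18457567296), (nat_lit 91, nat_lit 18457309248), (nat_lit 8, nat_lit 19531309056), (nat_lit 87, nat_lit 19531051008), (nat_lit 105, nat_lit 19531046976), (nat_lit 71, nat_lit 19530788928), (nat_lit 36, nat_lit 20604788736), (nat_lit 67, nat_lit 20604530688), (nat_lit 105, nat_lit 20604526656), (nat_lit 71, nat_lit 21678268416)]⟩,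
   ⟨V6_13089116160, [(nat_lit 90, nat_lit 16310349888), (nat_lit 110, nat_lit 17384091648), (nat_lit 74, nat_lit 17384087616), (nat_lit 70, nat_lit 18457829376), (nat_lit 36, nat_lit 18457825344), (nat_lit 66, nat_lit 19531567104)]⟩,
   ⟨V6_13088858112, [(nat_lit 41, nat_lit 16310349888), (nat_lit 66, nat_lit 17384091648), (nat_lit 20, nat_lit 17384087616), (nat_lit 125, nat_lit 17383829568), (nat_lit 61, nat_lit 18457829376), (nat_lit 2, nat_lit 18457571328), (nat_lit 78, nat_lit 18457567296), (nat_lit 71, nat_lit 19531309056)]⟩,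
   ⟨V6_13072343040, [(nat_lit 65, nat_lit 16310349888), (nat_lit 79, nat_lit 17384091648), (nat_lit 91, nat_lit 17384087616), (nat_lit 125, nat_lit 17367314496), (nat_lit 26, nat_lit 18457829376), (nat_lit 50, nat_lit 18441056256), (nat_lit 23, nat_lit 18441052224), (nat_lit 4, nat_lit 19514793984)]⟩],
  [W_16308514880, W_16292515904, W_15235297280, W_15219298304, W_14161555520, W_14145556544, W_14145302528, W_13071818816, W_13071560768]⟩
theorem C_16310349888 : chkRec R_16310349888 = true := by decide +kernel

noncomputable def R_16310353920 : Rec := ⟨nat_lit 16310353920, nat_lit 65,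
  [⟨V6_16308781056, [(nat_lit 46, nat_lit 16310353920), (nat_lit 90, nat_lit 17383833600), (nat_lit 73, nat_lit 18457313280), (nat_lit 64, nat_lit 19530792960), (nat_lit 33, nat_lit 20604272640), (nat_lit 115, nat_lit 21677752320), (nat_lit 23, nat_lit 22751232000)]⟩,
   ⟨V6_13089116160, [(nat_lit 9, nat_lit 16310353920), (nat_lit 31, nat_lit 17384091648), (nat_lit 72, nat_lit 18457829376), (nat_lit 19, nat_lit 19531567104)]⟩,
   ⟨V6_13088858112, [(nat_lit 2, nat_lit 16310353920), (nat_lit 44, nat_lit 17384091648), (nat_lit 8, nat_lit 17383833600), (nat_lit 70, nat_lit 18457829376), (nat_lit 78, nat_lit 18457571328), (nat_lit 34, nat_lit 19531309056)]⟩,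
   ⟨V6_13072343040, [(nat_lit 5, nat_lit 16310353920), (nat_lit 95, nat_lit 17384091648), (nat_lit 75, nat_lit 17367318528), (nat_lit 34, nat_lit 18457829376), (nat_lit 27, nat_lit 18441056256), (nat_lit 82, nat_lit 19514793984)]⟩],
  [W_15235297280, W_15219556352, W_15219298304, W_15218524160, W_14162591744, W_14145818624, W_14145302528]⟩
theorem C_16310353920 : chkRec R_16310353920 = true := by decide +kernel

noncomputable def R_16310603841 : Rec := ⟨nat_lit 16310603841, nat_lit 3,
  [⟨V6_13088854080, [(nat_lit 19, nat_lit 16310603841), (nat_lit 16, nat_lit 17384345664), (nat_lit 59, nat_lit 17384083521), (nat_lit 109, nat_lit 18457825344), (nat_lit 45, nat_lit 18457563201), (nat_lit 45, nat_lit 19531305024)]⟩,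
   ⟨V6_13088591937, [(nat_lit 117, nat_lit 16310603841), (nat_lit 10, nat_lit 17384083521), (nat_lit 32, nat_lit 18457563201), (nat_lit 37, nat_lit 19531042881)]⟩],
  [W_15235551296]⟩
theorem C_16310603841 : chkRec R_16310603841 = true := by decide +kernel

noncomputable def R_16310607936 : Rec := ⟨nat_lit 16310607936, nat_lit 23,
  [⟨V6_15235813440, [(nat_lit 74, nat_lit 16310607936), (nat_lit 61, nat_lit 17384345664), (nat_lit 108, nat_lit 17384087616), (nat_lit 92, nat_lit 18457825344), (nat_lit 36, nat_lit 18457567296), (nat_lit 84, nat_lit 19531305024), (nat_lit 107, nat_lit 19531046976), (nat_lit 48, nat_lit 20604784704), (nat_lit 52, nat_lit 20604526656), (nat_lit 74, nat_lit 21678264384)]⟩,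
   ⟨V6_13088858112, [(nat_lit 52, nat_lit 16310607936), (nat_lit 119, nat_lit 17384349696), (nat_lit 5, nat_lit 17384087616), (nat_lit 34, nat_lit 18457829376), (nat_lit 51, nat_lit 18457567296), (nat_lit 124, nat_lit 19531309056)]⟩],
  [W_14162333696, W_14162071616, W_14161813568, W_13088854016, W_13088595968, W_13088333888]⟩
theorem C_16310607936 : chkRec R_16310607936 = true := by decide +kernel

noncomputable def R_16310611968 : Rec := ⟨nat_lit 16310611968, nat_lit 30,
  [⟨V6_15236333568, [(nat_lit 40, nat_lit 16310611968), (nat_lit 43, nat_lit 17384349696), (nat_lit 100, nat_lit 17384091648), (nat_lit 62, nat_lit 18458087424), (nat_lit 115, nat_lit 18457829376), (nat_lit 31, nat_lit 18457571328), (nat_lit 38, nat_lit 19531825152), (nat_lit 5, nat_lit 19531567104), (nat_lit 33, nat_lit 19531309056), (nat_lit 3, nat_lit 20605304832), (nat_lit 99, nat_lit 20605046784), (nat_lit 11, nat_lit 21678784512)]⟩,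
   ⟨V6_14162853888, [(nat_lit 25, nat_lit 16310611968), (nat_lit 92, nat_lit 17384349696), (nat_lit 79, nat_lit 17384091648), (nat_lit 124, nat_lit 18458087424), (nat_lit 14, nat_lit 18457829376), (nat_lit 126, nat_lit 19531825152), (nat_lit 99, nat_lit 19531567104), (nat_lit 43, nat_lit 20605304832)]⟩,
   ⟨V6_13089374208, [(nat_lit 52, nat_lit 16310611968), (nat_lit 10, nat_lit 17384349696), (nat_lit 82, nat_lit 18458087424), (nat_lit 54, nat_lit 19531825152)]⟩,
   ⟨V6_13088858112, [(nat_lit 89, nat_lit 16310611968), (nat_lit 99, nat_lit 17384349696), (nat_lit 121, nat_lit 17384091648), (nat_lit 96, nat_lit 18457829376), (nat_lit 74, nat_lit 18457571328), (nat_lit 122, nat_lit 19531309056)]⟩],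
  [W_15235297280, W_14162591744, W_14161817600, W_13088854016]⟩
theorem C_16310611968 : chkRec R_16310611968 = true := by decide +kernel

noncomputable def R_16325296323 : Rec := ⟨nat_lit 16325296323, nat_lit 1,
  [⟨V6_14177808576, [(nat_lit 15, nat_lit 16325296323), (nat_lit 102, nat_lit 17399038146), (nat_lit 103, nat_lit 17399034051), (nat_lit 96, nat_lit 18472779969), (nat_lit 45, nat_lit 18472775874), (nat_lit 90, nat_lit 19546521792), (nat_lit 90, nat_lit 19546517697), (nat_lit 74, nat_lit 20620259520)]⟩],
  [W_16258187456]⟩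
theorem C_16325296323 : chkRec R_16325296323 = true := by decide +kernel

noncomputable def R_16325296386 : Rec := ⟨nat_lit 16325296386, nat_lit 3,
  [⟨V6_14177812608, [(nat_lit 19, nat_lit 16325296386), (nat_lit 74, nat_lit 17399038209), (nat_lit 102, nat_lit 17399038146), (nat_lit 70, nat_lit 18472780032), (nat_lit 96, nat_lit 18472779969), (nat_lit 43, nat_lit 18472779906), (nat_lit 90, nat_lit 19546521792), (nat_lit 44, nat_lit 19546521729), (nat_lit 98, nat_lit 20620263552)]⟩],
  [W_16241410304, W_15201222848]⟩
theorem C_16325296386 : chkRec R_16325296386 = true := by decide +kernel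

noncomputable def R_16325554371 : Rec := ⟨nat_lit 16325554371, nat_lit 1,
  [⟨V6_15251288256, [(nat_lit 22, nat_lit 16325554371), (nat_lit 41, nat_lit 17399296194), (nat_lit 1, nat_lit 17399034051), (nat_lit 107, nat_lit 18473038017), (nat_lit 83, nat_lit 18472775874), (nat_lit 31, nat_lit 18472513731), (nat_lit 95, nat_lit 19546779840), (nat_lit 65, nat_lit 19546517697), (nat_lit 86, nat_lit 19546255554), (nat_lit 85, nat_lit 20620259520), (nat_lit 94, nat_lit 20619997377), (nat_lit 36, nat_lit 21693739200)]⟩],
  [W_14177546432]⟩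
theorem C_16325554371 : chkRec R_16325554371 = true := by decide +kernel

noncomputable def R_16325558466 : Rec := ⟨nat_lit 16325558466, nat_lit 10,
  [⟨V6_14161035456, [(nat_lit 83, nat_lit 16325558466), (nat_lit 97, nat_lit 17399300289), (nat_lit 81, nat_lit 17399038146), (nat_lit 75, nat_lit 17382523074), (nat_lit 114, nat_lit 18473042112), (nat_lit 70, nat_lit 18472779969), (nat_lit 35, nat_lit 18456264897), (nat_lit 48, nat_lit 18456002754), (nat_lit 83, nat_lit 19546521792), (nat_lit 115, nat_lit 19530006720), (nat_lit 84, nat_lit 19529744577), (nat_lit 123, nat_lit 20603486400)]⟩,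
   ⟨V6_14144254146, [(nat_lit 65, nat_lit 16325558466), (nat_lit 48, nat_lit 17399296194), (nat_lit 111, nat_lit 17399038146), (nat_lit 103, nat_lit 17382523074), (nat_lit 37, nat_lit 18472775874), (nat_lit 13, nat_lit 18456260802), (nat_lit 56, nat_lit 18456002754), (nat_lit 105, nat_lit 18439487682), (nat_lit 16, nat_lit 19529740482), (nat_lit 92, nat_lit 19513225410), (nat_lit 118, nat_lit 19512967362), (nat_lit 4, nat_lit 20586705090)]⟩],
  [W_16291737728, W_16258445504, W_15234773120, W_14177808512]⟩
theorem C_16325558466 : chkRec R_16325558466 = true := by decide +kernel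

noncomputable def R_16325558529 : Rec := ⟨nat_lit 16325558529, nat_lit 12,
  [⟨V6_14178074688, [(nat_lit 92, nat_lit 16325558529), (nat_lit 63, nat_lit 17399300352), (nat_lit 61, nat_lit 17399300289), (nat_lit 81, nat_lit 18473042112), (nat_lit 65, nat_lit 18473042049), (nat_lit 12, nat_lit 19546783872), (nat_lit 47, nat_lit 19546783809), (nat_lit 78, nat_lit 20620525632)]⟩],
  [W_16291741760, W_16241410304, W_15234777152, W_15167930624]⟩
theorem C_16325558529 : chkRec R_16325558529 = true := by decide +kernel

noncomputable def R_16325562498 : Rec := ⟨nat_lit 16325562498, nat_lit 6,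
  [⟨V6_14178066561, [(nat_lit 47, nat_lit 16325562498), (nat_lit 47, nat_lit 17399304321), (nat_lit 63, nat_lit 17399300226), (nat_lit 18, nat_lit 18473042049), (nat_lit 64, nat_lit 18473037954), (nat_lit 57, nat_lit 19546779777), (nat_lit 118, nat_lit 19546775682), (nat_lit 84, nat_lit 20620517505)]⟩,
   ⟨V6_14161289346, [(nat_lit 96, nat_lit 16325562498), (nat_lit 83, nat_lit 17399300226), (nat_lit 45, nat_lit 17382527106), (nat_lit 32, nat_lit 18473037954), (nat_lit 85, nat_lit 18456264834), (nat_lit 112, nat_lit 19546775682), (nat_lit 107, nat_lit 19530002562), (nat_lit 5, nat_lit 20603740290)]⟩],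
  [W_16241676416, W_15201484928]⟩
theorem C_16325562498 : chkRec R_16325562498 = true := by decide +kernel

noncomputable def R_16325562561 : Rec := ⟨nat_lit 16325562561, nat_lit 13,
  [⟨V6_14178074688, [(nat_lit 42, nat_lit 16325562561), (nat_lit 43, nat_lit 17399304384), (nat_lit 68, nat_lit 17399304321), (nat_lit 84, nat_lit 17399300289), (nat_lit 101, nat_lit 18473046144), (nat_lit 111, nat_lit 18473046081), (nat_lit 5, nat_lit 18473042112), (nat_lit 26, nat_lit 18473042049), (nat_lit 48, nat_lit 19546787904), (nat_lit 114, nat_lit 19546783872), (nat_lit 114, nat_lit 19546783809), (nat_lit 51, nat_lit 20620525632)]⟩],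
  [W_16258453568, W_16258445504, W_15218262080]⟩
theorem C_16325562561 : chkRec R_16325562561 = true := by decide +kernel

noncomputable def R_16325562624 : Rec := ⟨nat_lit 16325562624, nat_lit 14,
  [⟨V6_14178074688, [(nat_lit 90, nat_lit 16325562624), (nat_lit 57, nat_lit 17399304384), (nat_lit 50, nat_lit 17399300352), (nat_lit 21, nat_lit 18473046144), (nat_lit 14, nat_lit 18473042112), (nat_lit 75, nat_lit 19546787904), (nat_lit 81, nat_lit 19546783872), (nat_lit 109, nat_lit 20620525632)]⟩],
  [W_16275230720, W_15235039232, W_15167930624]⟩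
theorem C_16325562624 : chkRec R_16325562624 = true := by decide +kernel

noncomputable def R_16325816514 : Rec := ⟨nat_lit 16325816514, nat_lit 9,
  [⟨V6_16241668290, [(nat_lit 112, nat_lit 16325816514), (nat_lit 25, nat_lit 17399296194), (nat_lit 99, nat_lit 17382781122), (nat_lit 38, nat_lit 18456260802), (nat_lit 102, nat_lit 18439745730), (nat_lit 73, nat_lit 19513225410), (nat_lit 49, nat_lit 19496710338), (nat_lit 54, nat_lit 20570190018), (nat_lit 51, nat_lit 20553674946), (nat_lit 89, nat_lit 21627154626), (nat_lit 96, nat_lit 21610639554), (nat_lit 102, nat_lit 22684119234)]⟩,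
   ⟨V6_15251288256, [(nat_lit 112, nat_lit 16325816514), (nat_lit 86, nat_lit 17399558337), (nat_lit 21, nat_lit 17399296194), (nat_lit 79, nat_lit 18473300160), (nat_lit 75, nat_lit 18473038017), (nat_lit 74, nat_lit 18472775874), (nat_lit 33, nat_lit 19546779840), (nat_lit 93, nat_lit 19546517697), (nat_lit 72, nat_lit 19546255554), (nat_lit 84, nat_lit 20620259520), (nat_lit 120, nat_lit 20619997377), (nat_lit 91, nat_lit 21693739200)]⟩,
   ⟨V6_15234511041, [(nat_lit 20, nat_lit 16325816514), (nat_lit 113, nat_lit 17399558337), (nat_lit 77, nat_lit 17399296194), (nat_lit 70, nat_lit 17382781122), (nat_lit 86, nat_lit 18473038017), (nat_lit 37, nat_lit 18472775874), (nat_lit 50, nat_lit 18456522945), (nat_lit 48, nat_lit 18456260802), (nat_lit 9, nat_lit 19546517697), (nat_lit 6, nat_lit 19546255554), (nat_lit 35, nat_lit 19530002625), (nat_lit 57, nat_lit 19529740482), (nat_lit 47, nat_lit 20619997377), (nat_lit 11, nat_lit 20603482305), (nat_lit 68, nat_lit 20603220162), (nat_lit 69, nat_lit 21676961985)]⟩,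
   ⟨V6_14177808576, [(nat_lit 63, nat_lit 16325816514), (nat_lit 98, nat_lit 17399558337), (nat_lit 69, nat_lit 17399296194), (nat_lit 91, nat_lit 18473300160), (nat_lit 69, nat_lit 18473038017), (nat_lit 33, nat_lit 18472775874), (nat_lit 72, nat_lit 19546779840), (nat_lit 92, nat_lit 19546517697), (nat_lit 98, nat_lit 20620259520)]⟩,
   ⟨V6_14177546370, [(nat_lit 87, nat_lit 16325816514), (nat_lit 58, nat_lit 17399558274), (nat_lit 108, nat_lit 17399296194), (nat_lit 75, nat_lit 18473037954), (nat_lit 72, nat_lit 18472775874), (nat_lit 11, nat_lit 19546517634), (nat_lit 120, nat_lit 19546255554), (nat_lit 100, nat_lit 20619997314)]⟩,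
   ⟨V6_14144254146, [(nat_lit 9, nat_lit 16325816514), (nat_lit 101, nat_lit 17399296194), (nat_lit 42, nat_lit 17382781122), (nat_lit 36, nat_lit 18472775874), (nat_lit 79, nat_lit 18456260802), (nat_lit 40, nat_lit 18439745730), (nat_lit 122, nat_lit 19529740482), (nat_lit 38, nat_lit 19513225410), (nat_lit 86, nat_lit 20586705090)]⟩],
  [W_16258707584, W_16241930432, W_14177546432]⟩
theorem C_16325816514 : chkRec R_16325816514 = true := by decide +kernel

noncomputable def R_16325820546 : Rec := ⟨nat_lit 16325820546, nat_lit 18,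
  [⟨V6_15234777216, [(nat_lit 108, nat_lit 16325820546), (nat_lit 65, nat_lit 17399562369), (nat_lit 115, nat_lit 17399300226), (nat_lit 114, nat_lit 17382785154), (nat_lit 98, nat_lit 18473304192), (nat_lit 77, nat_lit 18473042049), (nat_lit 82, nat_lit 18472779906), (nat_lit 4, nat_lit 18456526977), (nat_lit 55, nat_lit 18456264834), (nat_lit 7, nat_lit 19546783872), (nat_lit 43, nat_lit 19546521729), (nat_lit 57, nat_lit 19530268800), (nat_lit 91, nat_lit 19530006657), (nat_lit 60, nat_lit 19529744514), (nat_lit 99, nat_lit 20620263552), (nat_lit 5, nat_lit 20603748480), (nat_lit 49, nat_lit 20603486337), (nat_lit 75, nat_lit 21677228160)]⟩],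
  [W_16308510848, W_16291995776, W_16241934464, W_15251546240, W_14177808512]⟩
theorem C_16325820546 : chkRec R_16325820546 = true := by decide +kernel

noncomputable def R_16325820609 : Rec := ⟨nat_lit 16325820609, nat_lit 42,
  [⟨V6_15234777216, [(nat_lit 96, nat_lit 16325820609), (nat_lit 23, nat_lit 17399562432), (nat_lit 61, nat_lit 17399562369), (nat_lit 65, nat_lit 17399300289), (nat_lit 73, nat_lit 17382785217), (nat_lit 9, nat_lit 18473304192), (nat_lit 81, nat_lit 18473042112), (nat_lit 53, nat_lit 18473042049), (nat_lit 82, nat_lit 18472779969), (nat_lit 117, nat_lit 18456527040), (nat_lit 45, nat_lit 18456526977), (nat_lit 108, nat_lit 18456264897), (nat_lit 13, nat_lit 19546783872), (nat_lit 107, nat_lit 19546521792), (nat_lit 82, nat_lit 19546521729), (nat_lit 57, nat_lit 19530268800), (nat_lit 107, nat_lit 19530006720), (nat_lit 65, nat_lit 19530006657), (nat_lit 85, nat_lit 19529744577), (nat_lit 41, nat_lit 20620263552), (nat_lit 87, nat_lit 20603748480), (nat_lit 5, nat_lit 20603486400), (nat_lit 53, nat_lit 20603486337),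 (nat_lit 53, nat_lit 21677228160)]⟩,
   ⟨V6_14177812608, [(nat_lit 65, nat_lit 16325820609), (nat_lit 20, nat_lit 17399562432), (nat_lit 2, nat_lit 17399562369), (nat_lit 43, nat_lit 17399300289), (nat_lit 30, nat_lit 18473304192), (nat_lit 104, nat_lit 18473042112), (nat_lit 95, nat_lit 18473042049), (nat_lit 95, nat_lit 18472779969), (nat_lit 99, nat_lit 19546783872), (nat_lit 111, nat_lit 19546521792), (nat_lit 89, nat_lit 19546521729), (nat_lit 58, nat_lit 20620263552)]⟩,
   ⟨V6_14177808576, [(nat_lit 4, nat_lit 16325820609), (nat_lit 64, nat_lit 17399562432), (nat_lit 80, nat_lit 17399558337), (nat_lit 118, nat_lit 17399300289), (nat_lit 21, nat_lit 18473300160), (nat_lit 17, nat_lit 18473042112), (nat_lit 115, nat_lit 18473038017), (nat_lit 112, nat_lit 18472779969), (nat_lit 73, nat_lit 19546779840), (nat_lit 118, nat_lit 19546521792), (nat_lit 58, nat_lit 19546517697), (nat_lit 68, nat_lit 20620259520)]⟩,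
   ⟨V6_14161035456, [(nat_lit 99, nat_lit 16325820609), (nat_lit 110, nat_lit 17399562432), (nat_lit 85, nat_lit 17399300289), (nat_lit 47, nat_lit 17382785217), (nat_lit 89, nat_lit 18473042112), (nat_lit 62, nat_lit 18472779969), (nat_lit 48, nat_lit 18456527040), (nat_lit 120, nat_lit 18456264897), (nat_lit 119, nat_lit 19546521792), (nat_lit 72, nat_lit 19530006720), (nat_lit 120, nat_lit 19529744577), (nat_lit 10, nat_lit 20603486400)]⟩],
  [W_16308514880, W_16241930432, W_16225157312, W_15201747008, W_14178070592, W_14161555520, W_14144782400]⟩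
theorem C_16325820609 : chkRec R_16325820609 = true := by decide +kernel

noncomputable def R_16325820672 : Rec := ⟨nat_lit 16325820672, nat_lit 38,
  [⟨V6_15251816448, [(nat_lit 42, nat_lit 16325820672), (nat_lit 112, nat_lit 17399562432), (nat_lit 57, nat_lit 17399300352), (nat_lit 113, nat_lit 18473304192), (nat_lit 69, nat_lit 18473042112), (nat_lit 32, nat_lit 19547045952), (nat_lit 120, nat_lit 19546783872), (nat_lit 118, nat_lit 20620787712), (nat_lit 60, nat_lit 20620525632), (nat_lit 81, nat_lit 21694267392)]⟩,
   ⟨V6_14177812608, [(nat_lit 60, nat_lit 16325820672), (nat_lit 110, nat_lit 17399562432), (nat_lit 119, nat_lit 17399300352), (nat_lit 55, nat_lit 18473304192), (nat_lit 117, nat_lit 18473042112), (nat_lit 67, nat_lit 18472780032), (nat_lit 53, nat_lit 19546783872), (nat_lit 122, nat_lit 19546521792), (nat_lit 96, nat_lit 20620263552)]⟩,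
   ⟨V6_14144258304, [(nat_lit 118, nat_lit 16325820672), (nat_lit 26, nat_lit 17399300352), (nat_lit 85, nat_lit 17382785280), (nat_lit 91, nat_lit 18472780032), (nat_lit 48, nat_lit 18456264960), (nat_lit 87, nat_lit 18439749888), (nat_lit 5, nat_lit 19529744640), (nat_lit 89, nat_lit 19513229568), (nat_lit 41, nat_lit 20586709248)]⟩],
  [W_16308518912, W_16291741760, W_16225157312, W_15251554304, W_15234777152, W_15201747008]⟩
theorem C_16325820672 : chkRec R_16325820672 = true := by decide +kernel

noncomputable def R_16325824641 : Rec := ⟨nat_lit 16325824641, nat_lit 47,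
  [⟨V6_15235293312, [(nat_lit 88, nat_lit 16325824641), (nat_lit 74, nat_lit 17399566464), (nat_lit 118, nat_lit 17399562369), (nat_lit 44, nat_lit 17382789249), (nat_lit 108, nat_lit 18473304192), (nat_lit 57, nat_lit 18473300097), (nat_lit 74, nat_lit 18456531072), (nat_lit 7, nat_lit 18456526977), (nat_lit 113, nat_lit 19547041920), (nat_lit 17, nat_lit 19547037825), (nat_lit 86, nat_lit 19530268800), (nat_lit 89, nat_lit 19530264705), (nat_lit 112, nat_lit 20620779648), (nat_lit 61, nat_lit 20604006528), (nat_lit 25, nat_lit 20604002433), (nat_lit 53, nat_lit 21677744256)]⟩,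
   ⟨V6_15235031169, [(nat_lit 93, nat_lit 16325824641), (nat_lit 72, nat_lit 17399562369), (nat_lit 17, nat_lit 17399304321), (nat_lit 109, nat_lit 17382789249), (nat_lit 43, nat_lit 18473300097), (nat_lit 79, nat_lit 18473042049), (nat_lit 120, nat_lit 18456526977), (nat_lit 118, nat_lit 18456268929), (nat_lit 124, nat_lit 19547037825), (nat_lit 63, nat_lit 19546779777), (nat_lit 7, nat_lit 19530264705), (nat_lit 80, nat_lit 19530006657), (nat_lit 104, nat_lit 20620517505), (nat_lit 34, nat_lit 20604002433), (nat_lit 37, nat_lit 20603744385), (nat_lit 78, nat_lit 21677482113)]⟩],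
  [W_16258453568, W_16241676416, W_15218262080, W_15201747008, W_15184973888, W_14178070592, W_14144782400, W_14144524352]⟩
theorem C_16325824641 : chkRec R_16325824641 = true := by decide +kernel

noncomputable def R_16325824704 : Rec := ⟨nat_lit 16325824704, nat_lit 71,
  [⟨V6_15251816448, [(nat_lit 20, nat_lit 16325824704), (nat_lit 39, nat_lit 17399566464), (nat_lit 1, nat_lit 17399562432), (nat_lit 87, nat_lit 17399304384), (nat_lit 63, nat_lit 18473308224), (nat_lit 103, nat_lit 18473304192), (nat_lit 14, nat_lit 18473046144), (nat_lit 82, nat_lit 18473042112), (nat_lit 70, nat_lit 19547049984), (nat_lit 113, nat_lit 19547045952), (nat_lit 119, nat_lit 19546787904), (nat_lit 109, nat_lit 19546783872), (nat_lit 52, nat_lit 20620787712), (nat_lit 85, nat_lit 20620529664), (nat_lit 40, nat_lit 20620525632), (nat_lit 60, nat_lit 21694267392)]⟩,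
   ⟨V6_15235043328, [(nat_lit 108, nat_lit 16325824704), (nat_lit 63, nat_lit 17399566464), (nat_lit 1, nat_lit 17399304384), (nat_lit 62, nat_lit 17382789312), (nat_lit 126, nat_lit 18473308224), (nat_lit 106, nat_lit 18473046144), (nat_lit 99, nat_lit 18456531072), (nat_lit 30, nat_lit 18456268992), (nat_lit 121, nat_lit 19547049984), (nat_lit 33, nat_lit 19546787904), (nat_lit 115, nat_lit 19530272832), (nat_lit 33, nat_lit 19530010752), (nat_lit 91, nat_lit 20620529664), (nat_lit 32, nat_lit 20604014592), (nat_lit 112, nat_lit 20603752512), (nat_lit 62, nat_lit 21677494272)]⟩,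
   ⟨V6_14178078720, [(nat_lit 40, nat_lit 16325824704), (nat_lit 33, nat_lit 17399566464), (nat_lit 79, nat_lit 17399304384), (nat_lit 30, nat_lit 18473308224), (nat_lit 54, nat_lit 18473046144), (nat_lit 94, nat_lit 19547049984), (nat_lit 34, nat_lit 19546787904), (nat_lit 83, nat_lit 20620529664)]⟩,
   ⟨V6_14161563648, [(nat_lit 120, nat_lit 16325824704), (nat_lit 124, nat_lit 17399566464), (nat_lit 51, nat_lit 17382789312), (nat_lit 25, nat_lit 18473308224), (nat_lit 10, nat_lit 18456531072), (nat_lit 90, nat_lit 19547049984), (nat_lit 91, nat_lit 19530272832), (nat_lit 83, nat_lit 20604014592)]⟩],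
  [W_16225157312, W_15235297280, W_15218524160, W_15201747008, W_15184973888, W_15184969856, W_14178332672, W_14144516288]⟩
theorem C_16325824704 : chkRec R_16325824704 = true := by decide +kernel

noncomputable def R_16325828673 : Rec := ⟨nat_lit 16325828673, nat_lit 25,
  [⟨V6_16325808192, [(nat_lit 87, nat_lit 16325828673), (nat_lit 29, nat_lit 17399570496), (nat_lit 17, nat_lit 17399566401), (nat_lit 49, nat_lit 18473308224), (nat_lit 69, nat_lit 18473304129), (nat_lit 94, nat_lit 19547045952), (nat_lit 4, nat_lit 19547041857), (nat_lit 102, nat_lit 20620783680), (nat_lit 81, nat_lit 20620779585), (nat_lit 95, nat_lit 21694521408), (nat_lit 23, nat_lit 21694517313), (nat_lit 18, nat_lit 22768259136)]⟩,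
   ⟨V6_16225165377, [(nat_lit 47, nat_lit 16325828673), (nat_lit 106, nat_lit 17382793281), (nat_lit 42, nat_lit 18439757889), (nat_lit 38, nat_lit 19496722497), (nat_lit 30, nat_lit 20553687105), (nat_lit 53, nat_lit 21610651713), (nat_lit 58, nat_lit 22667616321)]⟩],
  [W_15201747008, W_15168200768, W_14144782400]⟩
theorem C_16325828673 : chkRec R_16325828673 = true := by decide +kernel

noncomputable def R_16325828736 : Rec := ⟨nat_lit 16325828736, nat_lit 64,
  [⟨V6_16325812224, [(nat_lit 93, nat_lit 16325828736), (nat_lit 58, nat_lit 17399570496), (nat_lit 123, nat_lit 17399566464), (nat_lit 51, nat_lit 18473312256), (nat_lit 98, nat_lit 18473308224), (nat_lit 90, nat_lit 18473304192), (nat_lit 79, nat_lit 19547049984), (nat_lit 61, nat_lit 19547045952), (nat_lit 76, nat_lit 19547041920), (nat_lit 57, nat_lit 20620787712), (nat_lit 77, nat_lit 20620783680), (nat_lit 12, nat_lit 20620779648), (nat_lit 73, nat_lit 21694525440), (nat_lit 63, nat_lit 21694521408), (nat_lit 34, nat_lit 22768263168)]⟩,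
   ⟨V6_14144790528, [(nat_lit 79, nat_lit 16325828736), (nat_lit 123, nat_lit 17399570496), (nat_lit 100, nat_lit 17382793344), (nat_lit 38, nat_lit 18473312256), (nat_lit 29, nat_lit 18456535104), (nat_lit 16, nat_lit 18439757952), (nat_lit 66, nat_lit 19530276864), (nat_lit 118, nat_lit 19513499712), (nat_lit 10, nat_lit 20587241472)]⟩],
  [W_16225165376, W_16208388224, W_15218524160, W_15201747008, W_15184973888, W_15184969856, W_15151423616, W_14161559552, W_14111232128]⟩
theorem C_16325828736 : chkRec R_16325828736 = true := by decide +kernel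

noncomputable def R_16326078594 : Rec := ⟨nat_lit 16326078594, nat_lit 15,
  [⟨V6_16308248706, [(nat_lit 46, nat_lit 16326078594), (nat_lit 4, nat_lit 17399816322), (nat_lit 77, nat_lit 17399558274), (nat_lit 66, nat_lit 17383043202), (nat_lit 24, nat_lit 18473296002), (nat_lit 100, nat_lit 18473037954), (nat_lit 13, nat_lit 18456780930), (nat_lit 2, nat_lit 18456522882), (nat_lit 25, nat_lit 19546775682), (nat_lit 49, nat_lit 19546517634), (nat_lit 32, nat_lit 19530260610), (nat_lit 4, nat_lit 19530002562), (nat_lit 113, nat_lit 20620255362), (nat_lit 41, nat_lit 20619997314), (nat_lit 9, nat_lit 20603740290), (nat_lit 126, nat_lit 20603482242), (nat_lit 63, nat_lit 21693735042), (nat_lit 57, nat_lit 21677219970), (nat_lit 90, nat_lit 21676961922), (nat_lit 18, nat_lit 22750699650)]⟩,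
   ⟨V6_16291475586, [(nat_lit 3, nat_lit 16326078594), (nat_lit 12, nat_lit 17399558274), (nat_lit 2, nat_lit 17383043202), (nat_lit 67, nat_lit 18473037954), (nat_lit 114, nat_lit 18456522882), (nat_lit 41, nat_lit 18440007810), (nat_lit 45, nat_lit 19546517634), (nat_lit 62, nat_lit 19530002562), (nat_lit 96, nat_lit 19513487490), (nat_lit 37, nat_lit 20619997314), (nat_lit 95, nat_lit 20603482242), (nat_lit 109, nat_lit 20586967170), (nat_lit 98, nat_lit 21676961922), (nat_lit 3, nat_lit 21660446850), (nat_lit 92, nat_lit 22733926530)]⟩,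
   ⟨V6_15235031169, [(nat_lit 96, nat_lit 16326078594), (nat_lit 119, nat_lit 17399820417), (nat_lit 40, nat_lit 17399816322), (nat_lit 30, nat_lit 17399558274), (nat_lit 121, nat_lit 17383043202), (nat_lit 28, nat_lit 18473558145), (nat_lit 66, nat_lit 18473300097), (nat_lit 58, nat_lit 18473296002), (nat_lit 32, nat_lit 18473037954), (nat_lit 28, nat_lit 18456785025), (nat_lit 41, nat_lit 18456780930), (nat_lit 9, nat_lit 18456522882), (nat_lit 61, nat_lit 19547037825), (nat_lit 38, nat_lit 19546779777), (nat_lit 123, nat_lit 19546775682), (nat_lit 7, nat_lit 19530522753), (nat_lit 42, nat_lit 19530264705), (nat_lit 55, nat_lit 19530260610), (nat_lit 92, nat_lit 19530002562), (nat_lit 78, nat_lit 20620517505), (nat_lit 3, nat_lit 20604002433), (nat_lit 22, nat_lit 20603744385), (nat_lit 87, nat_lit 20603740290), (nat_lit 119, nat_lit 21677482113)]⟩,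
   ⟨V6_14177546370, [(nat_lit 57, nat_lit 16326078594), (nat_lit 42, nat_lit 17399558274), (nat_lit 48, nat_lit 18473037954), (nat_lit 34, nat_lit 19546517634), (nat_lit 16, nat_lit 20619997314)]⟩],
  [W_16308510848, W_16242192512, W_15251546240, W_15202001024]⟩
theorem C_16326078594 : chkRec R_16326078594 = true := by decide +kernel

noncomputable def R_16326078657 : Rec := ⟨nat_lit 16326078657, nat_lit 28,
  [⟨V6_16274960577, [(nat_lit 69, nat_lit 16326078657), (nat_lit 64, nat_lit 17399558337), (nat_lit 5, nat_lit 17383043265), (nat_lit 48, nat_lit 18473038017), (nat_lit 44, nat_lit 18456522945), (nat_lit 121, nat_lit 18440007873), (nat_lit 39, nat_lit 19546517697), (nat_lit 94, nat_lit 19530002625), (nat_lit 56, nat_lit 19513487553), (nat_lit 45, nat_lit 19496972481), (nat_lit 43, nat_lit 20603482305), (nat_lit 100, nat_lit 20586967233), (nat_lit 7, nat_lit 20570452161), (nat_lit 11, nat_lit 21660446913), (nat_lit 31, nat_lit 21643931841), (nat_lit 7, nat_lit 22717411521)]⟩,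
   ⟨V6_16225415361, [(nat_lit 9, nat_lit 16326078657), (nat_lit 23, nat_lit 17383043265), (nat_lit 81, nat_lit 18440007873), (nat_lit 37, nat_lit 19496972481), (nat_lit 76, nat_lit 20553937089), (nat_lit 75, nat_lit 21610901697), (nat_lit 3, nat_lit 22667866305)]⟩,
   ⟨V6_15251288256, [(nat_lit 23, nat_lit 16326078657), (nat_lit 52, nat_lit 17399820480), (nat_lit 78, nat_lit 17399558337), (nat_lit 51, nat_lit 18473300160), (nat_lit 57, nat_lit 18473038017), (nat_lit 36, nat_lit 19546779840), (nat_lit 107, nat_lit 19546517697), (nat_lit 74, nat_lit 20620259520), (nat_lit 5, nat_lit 20619997377), (nat_lit 10, nat_lit 21693739200)]⟩,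
   ⟨V6_15234773184, [(nat_lit 65, nat_lit 16326078657), (nat_lit 19, nat_lit 17399820480), (nat_lit 107, nat_lit 17399558337), (nat_lit 72, nat_lit 17383043265), (nat_lit 61, nat_lit 18473300160), (nat_lit 68, nat_lit 18473038017), (nat_lit 46, nat_lit 18456785088), (nat_lit 36, nat_lit 18456522945), (nat_lit 55, nat_lit 19546779840), (nat_lit 55, nat_lit 19546517697), (nat_lit 9, nat_lit 19530264768), (nat_lit 97, nat_lit 19530002625), (nat_lit 33, nat_lit 20620259520), (nat_lit 71, nat_lit 20603744448), (nat_lit 105, nat_lit 20603482305), (nat_lit 126, nat_lit 21677224128)]⟩,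
   ⟨V6_14177808576, [(nat_lit 91, nat_lit 16326078657), (nat_lit 122, nat_lit 17399820480), (nat_lit 18, nat_lit 17399558337), (nat_lit 70, nat_lit 18473300160), (nat_lit 88, nat_lit 18473038017), (nat_lit 67, nat_lit 19546779840), (nat_lit 84, nat_lit 19546517697), (nat_lit 44, nat_lit 20620259520)]⟩,
   ⟨V6_14161293504, [(nat_lit 61, nat_lit 16326078657), (nat_lit 29, nat_lit 17399820480), (nat_lit 37, nat_lit 17399558337), (nat_lit 73, nat_lit 17383043265), (nat_lit 22, nat_lit 18473300160), (nat_lit 125, nat_lit 18473038017), (nat_lit 59, nat_lit 18456785088), (nat_lit 111, nat_lit 18456522945), (nat_lit 87, nat_lit 19546779840), (nat_lit 5, nat_lit 19530264768), (nat_lit 6, nat_lit 19530002625), (nat_lit 113, nat_lit 20603744448)]⟩],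
  [W_16325029952, W_16308514880, W_16225415360, W_15251550272, W_14178070592, W_14177546432, W_14161555520, W_14111486144]⟩
theorem C_16326078657 : chkRec R_16326078657 = true := by decide +kernel

noncomputable def R_16326082689 : Rec := ⟨nat_lit 16326082689, nat_lit 70,
  [⟨V6_15235293312, [(nat_lit 25, nat_lit 16326082689), (nat_lit 84, nat_lit 17399824512), (nat_lit 80, nat_lit 17399820417), (nat_lit 45, nat_lit 17399562369), (nat_lit 107, nat_lit 17383047297), (nat_lit 26, nat_lit 18473562240), (nat_lit 42, nat_lit 18473558145), (nat_lit 68, nat_lit 18473304192), (nat_lit 52, nat_lit 18473300097), (nat_lit 18, nat_lit 18456789120), (nat_lit 54, nat_lit 18456785025), (nat_lit 122, nat_lit 18456526977), (nat_lit 106, nat_lit 19547299968), (nat_lit 16, nat_lit 19547041920), (nat_lit 84, nat_lit 19547037825), (nat_lit 124, nat_lit 19530526848), (nat_lit 71, nat_lit 19530522753), (nat_lit 126, nat_lit 19530268800), (nat_lit 116, nat_lit 19530264705), (nat_lit 94, nat_lit 20620779648), (nat_lit 56, nat_lit 20604264576), (nat_lit 3, nat_lit 20604006528),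 (nat_lit 55, nat_lit 20604002433), (nat_lit 111, nat_lit 21677744256)]⟩,
   ⟨V6_15234777216, [(nat_lit 109, nat_lit 16326082689), (nat_lit 26, nat_lit 17399824512), (nat_lit 113, nat_lit 17399562369), (nat_lit 25, nat_lit 17383047297), (nat_lit 30, nat_lit 18473304192), (nat_lit 73, nat_lit 18473042049), (nat_lit 83, nat_lit 18456789120), (nat_lit 76, nat_lit 18456526977), (nat_lit 102, nat_lit 19546783872), (nat_lit 102, nat_lit 19546521729), (nat_lit 19, nat_lit 19530268800), (nat_lit 106, nat_lit 19530006657), (nat_lit 112, nat_lit 20620263552), (nat_lit 37, nat_lit 20603748480), (nat_lit 10, nat_lit 20603486337), (nat_lit 12, nat_lit 21677228160)]⟩,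
   ⟨V6_14177812608, [(nat_lit 3, nat_lit 16326082689), (nat_lit 11, nat_lit 17399824512), (nat_lit 62, nat_lit 17399562369), (nat_lit 100, nat_lit 18473304192), (nat_lit 35, nat_lit 18473042049), (nat_lit 5, nat_lit 19546783872), (nat_lit 120, nat_lit 19546521729), (nat_lit 81, nat_lit 20620263552)]⟩],
  [W_16308514880, W_16291741760, W_16242196544, W_15201747008, W_15185231936, W_14178328640, W_14178070592, W_14161813568, W_14161555520, W_14144782400]⟩
theorem C_16326082689 : chkRec R_16326082689 = true := by decide +kernel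

noncomputable def R_16326082752 : Rec := ⟨nat_lit 16326082752, nat_lit 100,
  [⟨V6_16325296128, [(nat_lit 39, nat_lit 16326082752), (nat_lit 57, nat_lit 17399824512), (nat_lit 106, nat_lit 17399562432), (nat_lit 66, nat_lit 18473566272), (nat_lit 29, nat_lit 18473304192), (nat_lit 107, nat_lit 18473042112), (nat_lit 124, nat_lit 19547308032), (nat_lit 34, nat_lit 19547045952), (nat_lit 58, nat_lit 19546783872), (nat_lit 1, nat_lit 19546521792), (nat_lit 117, nat_lit 20620787712), (nat_lit 1, nat_lit 20620525632), (nat_lit 24, nat_lit 20620263552), (nat_lit 106, nat_lit 21694267392), (nat_lit 7, nat_lit 21694005312), (nat_lit 52, nat_lit 22767747072)]⟩,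
   ⟨V6_16308781056, [(nat_lit 108, nat_lit 16326082752), (nat_lit 56, nat_lit 17399824512), (nat_lit 84, nat_lit 17399562432), (nat_lit 70, nat_lit 17383047360), (nat_lit 102, nat_lit 18473566272), (nat_lit 121, nat_lit 18473304192), (nat_lit 35, nat_lit 18473042112), (nat_lit 42, nat_lit 18456789120), (nat_lit 35, nat_lit 18456527040), (nat_lit 59, nat_lit 19547308032), (nat_lit 96, nat_lit 19547045952), (nat_lit 90, nat_lit 19546783872), (nat_lit 30, nat_lit 19530530880), (nat_lit 47, nat_lit 19530268800), (nat_lit 123, nat_lit 19530006720), (nat_lit 64, nat_lit 20620787712), (nat_lit 61, nat_lit 20620525632), (nat_lit 23, nat_lit 20604272640), (nat_lit 111, nat_lit 20604010560), (nat_lit 70, nat_lit 20603748480), (nat_lit 8, nat_lit 21694267392), (nat_lit 80, nat_lit 21677752320), (nat_lit 116, nat_lit 21677490240), (nat_lit 117, nat_lit 22751232000)]⟩,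
   ⟨V6_16308518976, [(nat_lit 80, nat_lit 16326082752), (nat_lit 96, nat_lit 17399824512), (nat_lit 3, nat_lit 17399562432), (nat_lit 123, nat_lit 17383047360), (nat_lit 1, nat_lit 18473566272), (nat_lit 77, nat_lit 18473304192), (nat_lit 26, nat_lit 18473042112), (nat_lit 75, nat_lit 18456789120), (nat_lit 82, nat_lit 18456527040), (nat_lit 66, nat_lit 19547045952), (nat_lit 106, nat_lit 19546783872), (nat_lit 74, nat_lit 19546521792), (nat_lit 94, nat_lit 19530530880), (nat_lit 124, nat_lit 19530268800), (nat_lit 9, nat_lit 19530006720), (nat_lit 123, nat_lit 20620525632), (nat_lit 116, nat_lit 20620263552), (nat_lit 15, nat_lit 20604010560), (nat_lit 80, nat_lit 20603748480), (nat_lit 92, nat_lit 20603486400), (nat_lit 21, nat_lit 21694005312), (nat_lit 24, nat_lit 21677490240), (nat_lit 115, nat_lit 21677228160), (nat_lit 28, nat_lit 22750969920)]⟩],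
  [W_16242196544, W_15235297280, W_15218524160, W_15202009088, W_15185231936, W_15151677632, W_14178332672, W_14161817600, W_14145044480, W_14094713024]⟩
theorem C_16326082752 : chkRec R_16326082752 = true := by decide +kernel

noncomputable def R_16326086721 : Rec := ⟨nat_lit 16326086721, nat_lit 52,
  [⟨V6_16309293120, [(nat_lit 2, nat_lit 16326086721), (nat_lit 51, nat_lit 17399828544), (nat_lit 43, nat_lit 17399824449), (nat_lit 70, nat_lit 17383051329), (nat_lit 32, nat_lit 18473566272), (nat_lit 29, nat_lit 18473562177), (nat_lit 14, nat_lit 18456793152), (nat_lit 86, nat_lit 18456789057), (nat_lit 53, nat_lit 19547304000), (nat_lit 51, nat_lit 19547299905), (nat_lit 1, nat_lit 19530530880), (nat_lit 86, nat_lit 19530526785), (nat_lit 53, nat_lit 20621041728), (nat_lit 122, nat_lit 20621037633), (nat_lit 91, nat_lit 20604268608), (nat_lit 43, nat_lit 20604264513), (nat_lit 81, nat_lit 21694779456), (nat_lit 57, nat_lit 21678006336), (nat_lit 17, nat_lit 21678002241), (nat_lit 8, nat_lit 22751744064)]⟩,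
   ⟨V6_15252328512, [(nat_lit 103, nat_lit 16326086721), (nat_lit 58, nat_lit 17399828544), (nat_lit 96, nat_lit 17399824449), (nat_lit 19, nat_lit 18473566272), (nat_lit 89, nat_lit 18473562177), (nat_lit 112, nat_lit 19547304000), (nat_lit 33, nat_lit 19547299905), (nat_lit 54, nat_lit 20621041728), (nat_lit 65, nat_lit 20621037633), (nat_lit 111, nat_lit 21694779456)]⟩],
  [W_16258453568, W_16242196544, W_15218262080, W_15201747008, W_15201488960, W_15185231936, W_14144782400, W_14144524352]⟩
theorem C_16326086721 : chkRec R_16326086721 = true := by decide +kernel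

noncomputable def R_16326086784 : Rec := ⟨nat_lit 16326086784, nat_lit 136,
  [⟨V6_16325812224, [(nat_lit 2, nat_lit 16326086784), (nat_lit 102, nat_lit 17399828544), (nat_lit 67, nat_lit 17399824512), (nat_lit 58, nat_lit 17399566464), (nat_lit 76, nat_lit 18473570304), (nat_lit 38, nat_lit 18473566272), (nat_lit 70, nat_lit 18473562240), (nat_lit 51, nat_lit 18473308224), (nat_lit 11, nat_lit 18473304192), (nat_lit 49, nat_lit 19547308032), (nat_lit 93, nat_lit 19547304000), (nat_lit 92, nat_lit 19547299968), (nat_lit 89, nat_lit 19547049984), (nat_lit 69, nat_lit 19547045952), (nat_lit 23, nat_lit 19547041920), (nat_lit 33, nat_lit 20621045760), (nat_lit 65, nat_lit 20621041728), (nat_lit 28, nat_lit 20620787712), (nat_lit 5, nat_lit 20620783680), (nat_lit 33, nat_lit 20620779648), (nat_lit 7, nat_lit 21694783488), (nat_lit 31, nat_lit 21694525440), (nat_lit 120, nat_lit 21694521408), (nat_lit 75, nat_lit 22768263168)]⟩,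
   ⟨V6_16309297152, [(nat_lit 78, nat_lit 16326086784), (nat_lit 55, nat_lit 17399828544), (nat_lit 16, nat_lit 17399824512), (nat_lit 80, nat_lit 17383051392), (nat_lit 13, nat_lit 18473570304), (nat_lit 37, nat_lit 18473566272), (nat_lit 80, nat_lit 18473562240), (nat_lit 40, nat_lit 18456793152), (nat_lit 87, nat_lit 18456789120), (nat_lit 50, nat_lit 19547308032), (nat_lit 97, nat_lit 19547304000), (nat_lit 60, nat_lit 19547299968), (nat_lit 33, nat_lit 19530534912), (nat_lit 21, nat_lit 19530530880), (nat_lit 10, nat_lit 19530526848), (nat_lit 46, nat_lit 20621045760), (nat_lit 97, nat_lit 20621041728), (nat_lit 24, nat_lit 20604272640), (nat_lit 6, nat_lit 20604268608), (nat_lit 4, nat_lit 20604264576), (nat_lit 20, nat_lit 21694783488), (nat_lit 69, nat_lit 21678010368), (nat_lit 54, nat_lit 21678006336), (nat_lit 16, nat_lit 22751748096)]⟩,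
   ⟨V6_15252332544, [(nat_lit 117, nat_lit 16326086784), (nat_lit 75, nat_lit 17399828544), (nat_lit 93, nat_lit 17399824512), (nat_lit 20, nat_lit 18473570304), (nat_lit 18, nat_lit 18473566272), (nat_lit 35, nat_lit 18473562240), (nat_lit 5, nat_lit 19547308032), (nat_lit 66, nat_lit 19547304000), (nat_lit 96, nat_lit 19547299968), (nat_lit 76, nat_lit 20621045760), (nat_lit 118, nat_lit 20621041728), (nat_lit 124, nat_lit 21694783488)]⟩],
  [W_16258453568, W_16242196544, W_16241676416, W_16225423424, W_15202009088, W_15201747008, W_15201484928, W_15185231936, W_15184973888, W_15184969856, W_15168458816, W_15168454784, W_15168196736, W_14145044480, W_14144782400, W_14144524352, W_14128267328, W_14128263296, W_14111494208, W_14111232128, W_14094717056]⟩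
theorem C_16326086784 : chkRec R_16326086784 = true := by decide +kernel

noncomputable def R_16326090816 : Rec := ⟨nat_lit 16326090816, nat_lit 111,
  [⟨V6_16325812224, [(nat_lit 84, nat_lit 16326090816), (nat_lit 57, nat_lit 17399832576), (nat_lit 34, nat_lit 17399828544), (nat_lit 54, nat_lit 17399570496), (nat_lit 116, nat_lit 18473570304), (nat_lit 100, nat_lit 18473566272), (nat_lit 45, nat_lit 18473312256), (nat_lit 11, nat_lit 18473308224), (nat_lit 74, nat_lit 19547308032), (nat_lit 111, nat_lit 19547304000), (nat_lit 82, nat_lit 19547049984), (nat_lit 42, nat_lit 19547045952), (nat_lit 112, nat_lit 20621045760), (nat_lit 4, nat_lit 20621041728), (nat_lit 101, nat_lit 20620787712), (nat_lit 67, nat_lit 20620783680), (nat_lit 32, nat_lit 21694783488), (nat_lit 88, nat_lit 21694525440), (nat_lit 95, nat_lit 21694521408), (nat_lit 2, nat_lit 22768263168)]⟩,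
   ⟨V6_16242204672, [(nat_lit 79, nat_lit 16326090816), (nat_lit 37, nat_lit 17399832576), (nat_lit 65, nat_lit 17383055424), (nat_lit 94, nat_lit 18456797184), (nat_lit 70, nat_lit 18440020032), (nat_lit 51, nat_lit 19513761792), (nat_lit 100, nat_lit 19496984640), (nat_lit 118, nat_lit 20570726400), (nat_lit 8, nat_lit 20553949248), (nat_lit 24, nat_lit 21627691008), (nat_lit 107, nat_lit 21610913856), (nat_lit 3, nat_lit 22684655616)]⟩,
   ⟨V6_15252332544, [(nat_lit 105, nat_lit 16326090816), (nat_lit 89, nat_lit 17399832576), (nat_lit 25, nat_lit 17399828544), (nat_lit 84, nat_lit 18473570304), (nat_lit 34, nat_lit 18473566272), (nat_lit 119, nat_lit 19547308032), (nat_lit 46, nat_lit 19547304000), (nat_lit 104, nat_lit 20621045760), (nat_lit 103, nat_lit 20621041728), (nat_lit 77, nat_lit 21694783488)]⟩],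
  [W_16242196544, W_16225427456, W_16225423424, W_16225165376, W_15202009088, W_15201747008, W_15184973888, W_15168462848, W_15168458816, W_14178586688, W_14145044480, W_14144782400, W_14128267328, W_14128013312, W_14111494208, W_14111236160, W_14094721088]⟩
theorem C_16326090816 : chkRec R_16326090816 = true := by decide +kernel

noncomputable def R_16326094848 : Rec := ⟨nat_lit 16326094848, nat_lit 36,
  [⟨V6_15252332544, [(nat_lit 40, nat_lit 16326094848), (nat_lit 45, nat_lit 17399832576), (nat_lit 2, nat_lit 18473570304), (nat_lit 89, nat_lit 19547308032), (nat_lit 8, nat_lit 20621045760), (nat_lit 24, nat_lit 21694783488)]⟩],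
  [W_15202009088, W_14161817600, W_14145044480]⟩
theorem C_16326094848 : chkRec R_16326094848 = true := by decide +kernel

noncomputable def R_16326336642 : Rec := ⟨nat_lit 16326336642, nat_lit 8,
  [⟨V6_16242450561, [(nat_lit 69, nat_lit 16326336642), (nat_lit 50, nat_lit 17400078465), (nat_lit 105, nat_lit 17383301250), (nat_lit 103, nat_lit 18457043073), (nat_lit 74, nat_lit 18440265858), (nat_lit 14, nat_lit 19514007681), (nat_lit 15, nat_lit 19497230466), (nat_lit 5, nat_lit 20570972289), (nat_lit 52, nat_lit 20554195074), (nat_lit 29, nat_lit 21627936897), (nat_lit 124, nat_lit 21611159682), (nat_lit 83, nat_lit 22684901505)]⟩],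
  [W_16242450560, W_15251546240, W_14128521344]⟩
theorem C_16326336642 : chkRec R_16326336642 = true := by decide +kernel

noncomputable def R_16326340737 : Rec := ⟨nat_lit 16326340737, nat_lit 57,
  [⟨V6_16259231808, [(nat_lit 48, nat_lit 16326340737), (nat_lit 21, nat_lit 17400082560), (nat_lit 24, nat_lit 17400082497), (nat_lit 81, nat_lit 17383305345), (nat_lit 14, nat_lit 18473824320), (nat_lit 55, nat_lit 18457047168), (nat_lit 113, nat_lit 18457047105), (nat_lit 13, nat_lit 18440269953), (nat_lit 26, nat_lit 19530788928), (nat_lit 2, nat_lit 19514011776), (nat_lit 99, nat_lit 19514011713), (nat_lit 72, nat_lit 19497234561), (nat_lit 118, nat_lit 20587753536), (nat_lit 121, nat_lit 20570976384), (nat_lit 99, nat_lit 20570976321), (nat_lit 92, nat_lit 20554199169), (nat_lit 116, nat_lit 21644718144), (nat_lit 51, nat_lit 21627940992), (nat_lit 54, nat_lit 21627940929), (nat_lit 62, nat_lit 22701682752)]⟩],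
  [W_16325029952, W_16325025920, W_16308514880, W_16308252800, W_16242450560, W_15251808320, W_15251550272, W_15251546240, W_15202001024, W_15185485952, W_14178328640, W_14178070592, W_14177808512, W_14161813568, W_14161555520]⟩
theorem C_16326340737 : chkRec R_16326340737 = true := by decide +kernel

noncomputable def R_16326340800 : Rec := ⟨nat_lit 16326340800, nat_lit 63,
  [⟨V6_16276008960, [(nat_lit 1, nat_lit 16326340800), (nat_lit 3, nat_lit 17400082560), (nat_lit 7, nat_lit 17383305408), (nat_lit 90, nat_lit 18473824320), (nat_lit 37, nat_lit 18457047168), (nat_lit 120, nat_lit 18440270016), (nat_lit 4, nat_lit 19547566080), (nat_lit 2, nat_lit 19530788928), (nat_lit 48, nat_lit 19514011776), (nat_lit 23, nat_lit 19497234624), (nat_lit 84, nat_lit 20604530688), (nat_lit 59, nat_lit 20587753536), (nat_lit 124, nat_lit 20570976384), (nat_lit 23, nat_lit 21661495296), (nat_lit 70, nat_lit 21644718144), (nat_lit 94, nat_lit 22718459904)]⟩,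
   ⟨V6_14177808576, [(nat_lit 30, nat_lit 16326340800), (nat_lit 43, nat_lit 17399820480), (nat_lit 57, nat_lit 18473300160), (nat_lit 35, nat_lit 19546779840), (nat_lit 47, nat_lit 20620259520)]⟩],
  [W_16325292032, W_16325029952, W_16308514880, W_16308252800, W_16242454592, W_15251812352, W_15235297280, W_15168712832, W_14178332672, W_14178070592]⟩
theorem C_16326340800 : chkRec R_16326340800 = true := by decide +kernel

noncomputable def R_16326344769 : Rec := ⟨nat_lit 16326344769, nat_lit 67,
  [⟨V6_16308518976, [(nat_lit 87, nat_lit 16326344769), (nat_lit 69, nat_lit 17400086592), (nat_lit 5, nat_lit 17399824449), (nat_lit 69, nat_lit 17383309377), (nat_lit 24, nat_lit 18473566272), (nat_lit 10, nat_lit 18473304129), (nat_lit 35, nat_lit 18457051200), (nat_lit 51, nat_lit 18456789057), (nat_lit 74, nat_lit 19547045952), (nat_lit 119, nat_lit 19546783809), (nat_lit 7, nat_lit 19530530880), (nat_lit 120, nat_lit 19530268737), (nat_lit 110, nat_lit 20620525632), (nat_lit 47, nat_lit 20620263489), (nat_lit 125, nat_lit 20604010560), (nat_lit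 96, nat_lit 20603748417), (nat_lit 54, nat_lit 21694005312), (nat_lit 27, nat_lit 21677490240), (nat_lit 83, nat_lit 21677228097), (nat_lit 34, nat_lit 22750969920)]⟩,
   ⟨V6_15252328512, [(nat_lit 107, nat_lit 16326344769), (nat_lit 103, nat_lit 17400086592), (nat_lit 55, nat_lit 17400082497), (nat_lit 18, nat_lit 17399824449), (nat_lit 37, nat_lit 18473824320), (nat_lit 18, nat_lit 18473820225), (nat_lit 68, nat_lit 18473566272), (nat_lit 4, nat_lit 18473562177), (nat_lit 24, nat_lit 19547562048), (nat_lit 90, nat_lit 19547557953), (nat_lit 91, nat_lit 19547304000), (nat_lit 28, nat_lit 19547299905), (nat_lit 8, nat_lit 20621299776), (nat_lit 36, nat_lit 20621041728), (nat_lit 90, nat_lit 20621037633), (nat_lit 44, nat_lit 21694779456)]⟩,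
   ⟨V6_14178848832, [(nat_lit 58, nat_lit 16326344769), (nat_lit 26, nat_lit 17400086592), (nat_lit 26, nat_lit 17400082497), (nat_lit 49, nat_lit 18473824320), (nat_lit 49, nat_lit 18473820225), (nat_lit 21, nat_lit 19547562048), (nat_lit 41, nat_lit 19547557953), (nat_lit 81, nat_lit 20621299776)]⟩],
  [W_16242454592, W_16242196544, W_15201747008, W_15185489984, W_15185231936, W_15168716864, W_14178070592, W_14128525376, W_14128267328]⟩
theorem C_16326344769 : chkRec R_16326344769 = true := by decide +kernel

noncomputable def R_16326344832 : Rec := ⟨nat_lit 16326344832, nat_lit 163,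
  [⟨V6_16325296128, [(nat_lit 44, nat_lit 16326344832), (nat_lit 29, nat_lit 17400086592), (nat_lit 56, nat_lit 17399824512), (nat_lit 106, nat_lit 18473828352), (nat_lit 67, nat_lit 18473566272), (nat_lit 75, nat_lit 18473304192), (nat_lit 21, nat_lit 19547308032), (nat_lit 41, nat_lit 19547045952), (nat_lit 80, nat_lit 19546783872), (nat_lit 8, nat_lit 20620787712), (nat_lit 37, nat_lit 20620525632), (nat_lit 23, nat_lit 20620263552), (nat_lit 75, nat_lit 21694267392), (nat_lit 106, nat_lit 21694005312), (nat_lit 18, nat_lit 22767747072)]⟩,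
   ⟨V6_16292782080, [(nat_lit 107, nat_lit 16326344832), (nat_lit 37, nat_lit 17400086592), (nat_lit 74, nat_lit 17400082560), (nat_lit 90, nat_lit 17383309440), (nat_lit 92, nat_lit 18473828352), (nat_lit 73, nat_lit 18473824320), (nat_lit 93, nat_lit 18473820288), (nat_lit 114, nat_lit 18457051200), (nat_lit 23, nat_lit 18457047168), (nat_lit 126, nat_lit 18440274048), (nat_lit 3, nat_lit 19547566080), (nat_lit 88, nat_lit 19547562048), (nat_lit 112, nat_lit 19530792960), (nat_lit 55, nat_lit 19530788928), (nat_lit 1, nat_lit 19530784896), (nat_lit 78, nat_lit 19514015808), (nat_lit 12, nat_lit 19514011776), (nat_lit 58, nat_lit 20621303808), (nat_lit 97, nat_lit 20604530688), (nat_lit 40, nat_lit 20604526656), (nat_lit 110, nat_lit 20587757568), (nat_lit 90, nat_lit 20587753536), (nat_lit 32, nat_lit 20587749504), (nat_lit 114, nat_lit 21678268416), (nat_lit 67, nat_lit 21661495296), (nat_lit 66, nat_lit 21661491264), (nat_lit 14, nat_lit 22735233024)]⟩,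
   ⟨V6_16291741824, [(nat_lit 95, nat_lit 16326344832), (nat_lit 26, nat_lit 17399824512), (nat_lit 80, nat_lit 17383309440), (nat_lit 39, nat_lit 18473304192), (nat_lit 42, nat_lit 18456789120), (nat_lit 44, nat_lit 18440274048), (nat_lit 125, nat_lit 19546783872), (nat_lit 104, nat_lit 19530268800), (nat_lit 32, nat_lit 19513753728), (nat_lit 72, nat_lit 20620263552), (nat_lit 90, nat_lit 20603748480), (nat_lit 25, nat_lit 20587233408), (nat_lit 85, nat_lit 21677228160), (nat_lit 72, nat_lit 21660713088), (nat_lit 59, nat_lit 22734192768)]⟩,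
   ⟨V6_15235817472, [(nat_lit 64, nat_lit 16326344832), (nat_lit 77, nat_lit 17400086592), (nat_lit 50, nat_lit 17400082560), (nat_lit 31, nat_lit 17383309440), (nat_lit 55, nat_lit 18473828352), (nat_lit 90, nat_lit 18473824320), (nat_lit 116, nat_lit 18473820288), (nat_lit 7, nat_lit 18457051200), (nat_lit 99, nat_lit 18457047168), (nat_lit 123, nat_lit 19547566080), (nat_lit 126, nat_lit 19547562048), (nat_lit 26, nat_lit 19530792960), (nat_lit 40, nat_lit 19530788928), (nat_lit 91, nat_lit 19530784896), (nat_lit 108, nat_lit 20621303808), (nat_lit 98, nat_lit 20604530688), (nat_lit 123, nat_lit 20604526656), (nat_lit 62, nat_lit 21678268416)]⟩],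
  [W_16325292032, W_16242458624, W_16242454592, W_16242450560, W_16242196544, W_15235297280, W_15218524160, W_15202009088, W_15201747008, W_15185494016, W_15185231936, W_15168716864, W_15168712832, W_15168454784, W_14178332672, W_14178328640, W_14161559552, W_14128267328]⟩
theorem C_16326344832 : chkRec R_16326344832 = true := by decide +kernel

noncomputable def R_16326348864 : Rec := ⟨nat_lit 16326348864, nat_lit 171,
  [⟨V6_16292782080, [(nat_lit 122, nat_lit 16326348864), (nat_lit 11, nat_lit 17400090624), (nat_lit 17, nat_lit 17400086592), (nat_lit 112, nat_lit 17383313472), (nat_lit 51, nat_lit 18473828352), (nat_lit 105, nat_lit 18473824320), (nat_lit 70, nat_lit 18457055232), (nat_lit 90, nat_lit 18457051200), (nat_lit 63, nat_lit 18440278080), (nat_lit 82, nat_lit 19547566080), (nat_lit 117, nat_lit 19547562048), (nat_lit 7, nat_lit 19530792960), (nat_lit 88, nat_lit 19530788928), (nat_lit 64, nat_lit 19514019840), (nat_lit 84, nat_lit 19514015808), (nat_lit 91, nat_lit 20621303808), (nat_lit 47, nat_lit 20604530688), (nat_lit 106,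 nat_lit 20604526656), (nat_lit 103, nat_lit 20587757568), (nat_lit 3, nat_lit 20587753536), (nat_lit 59, nat_lit 21678268416), (nat_lit 39, nat_lit 21661495296), (nat_lit 60, nat_lit 21661491264), (nat_lit 52, nat_lit 22735233024)]⟩,
   ⟨V6_15252328512, [(nat_lit 118, nat_lit 16326348864), (nat_lit 5, nat_lit 17400086592), (nat_lit 116, nat_lit 17399828544), (nat_lit 71, nat_lit 18473824320), (nat_lit 110, nat_lit 18473566272), (nat_lit 126, nat_lit 19547562048), (nat_lit 29, nat_lit 19547304000), (nat_lit 21, nat_lit 20621299776), (nat_lit 49, nat_lit 20621041728), (nat_lit 37, nat_lit 21694779456)]⟩,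
   ⟨V6_15235817472, [(nat_lit 36, nat_lit 16326348864), (nat_lit 23, nat_lit 17400090624), (nat_lit 80, nat_lit 17400086592), (nat_lit 36, nat_lit 17383313472), (nat_lit 65, nat_lit 18473828352), (nat_lit 79, nat_lit 18473824320), (nat_lit 18, nat_lit 18457055232), (nat_lit 59, nat_lit 18457051200), (nat_lit 60, nat_lit 19547566080), (nat_lit 3, nat_lit 19547562048), (nat_lit 81, nat_lit 19530792960), (nat_lit 64, nat_lit 19530788928), (nat_lit 95, nat_lit 20621303808), (nat_lit 92, nat_lit 20604530688), (nat_lit 91, nat_lit 20604526656), (nat_lit 41, nat_lit 21678268416)]⟩,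
   ⟨V6_15235813440, [(nat_lit 65, nat_lit 16326348864), (nat_lit 126, nat_lit 17400086592), (nat_lit 18, nat_lit 17383313472), (nat_lit 82, nat_lit 18473824320), (nat_lit 61, nat_lit 18457051200), (nat_lit 32, nat_lit 19547562048), (nat_lit 85, nat_lit 19530788928), (nat_lit 9, nat_lit 20621299776), (nat_lit 91, nat_lit 20604526656), (nat_lit 57, nat_lit 21678264384)]⟩,
   ⟨V6_14178848832, [(nat_lit 109, nat_lit 16326348864), (nat_lit 111, nat_lit 17400086592), (nat_lit 70, nat_lit 18473824320), (nat_lit 15, nat_lit 19547562048), (nat_lit 38, nat_lit 20621299776)]⟩],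
  [W_16258453568, W_16242458624, W_16242196544, W_15235297280, W_15235039232, W_15218524160, W_15202009088, W_15201747008, W_15185494016, W_15185231936, W_15168720896, W_15168716864, W_15168458816, W_14178070592, W_14161559552, W_14161301504, W_14144524352, W_14128267328, W_14111494208, W_14094979136]⟩
theorem C_16326348864 : chkRec R_16326348864 = true := by decide +kernel

noncomputable def R_16326352896 : Rec := ⟨nat_lit 16326352896, nat_lit 99,
  [⟨V6_16326328320, [(nat_lit 57, nat_lit 16326352896), (nat_lit 36, nat_lit 17400090624), (nat_lit 116, nat_lit 18473828352), (nat_lit 104, nat_lit 19547566080), (nat_lit 38, nat_lit 20621303808), (nat_lit 35, nat_lit 21695041536), (nat_lit 38, nat_lit 22768779264)]⟩,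
   ⟨V6_15235817472, [(nat_lit 116, nat_lit 16326352896), (nat_lit 70, nat_lit 17400090624), (nat_lit 15, nat_lit 17383317504), (nat_lit 46, nat_lit 18473828352), (nat_lit 52, nat_lit 18457055232), (nat_lit 31, nat_lit 19547566080), (nat_lit 119, nat_lit 19530792960), (nat_lit 51, nat_lit 20621303808), (nat_lit 8, nat_lit 20604530688), (nat_lit 57, nat_lit 21678268416)]⟩,
   ⟨V6_15168724992, [(nat_lit 125, nat_lit 16326352896), (nat_lit 5, nat_lit 17383317504), (nat_lit 121, nat_lit 18440282112), (nat_lit 4, nat_lit 19497246720), (nat_lit 53, nat_lit 20554211328), (nat_lit 100, nat_lit 21611175936)]⟩,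
   ⟨V6_14144790528, [(nat_lit 25, nat_lit 16326352896), (nat_lit 19, nat_lit 17399832576), (nat_lit 68, nat_lit 17383317504), (nat_lit 33, nat_lit 18473312256), (nat_lit 16, nat_lit 18456797184), (nat_lit 47, nat_lit 18440282112), (nat_lit 15, nat_lit 19530276864), (nat_lit 80, nat_lit 19513761792), (nat_lit 59, nat_lit 20587241472)]⟩],
  [W_16242458624, W_15235297280, W_15218524160, W_15202009088, W_15185494016, W_15168720896, W_14178848768, W_14178590720, W_14178332672, W_14094983168]⟩
theorem C_16326352896 : chkRec R_16326352896 = true := by decide +kernel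

noncomputable def R_16326598785 : Rec := ⟨nat_lit 16326598785, nat_lit 27,
  [⟨V6_15235031169, [(nat_lit 86, nat_lit 16326598785), (nat_lit 71, nat_lit 17400078465), (nat_lit 75, nat_lit 17383563393), (nat_lit 56, nat_lit 18473558145), (nat_lit 116, nat_lit 18457043073), (nat_lit 20, nat_lit 19547037825), (nat_lit 73, nat_lit 19530522753), (nat_lit 126, nat_lit 20620517505), (nat_lit 20, nat_lit 20604002433), (nat_lit 1, nat_lit 21677482113)]⟩,
   ⟨V6_15185748096, [(nat_lit 12, nat_lit 16326598785), (nat_lit 30, nat_lit 17400340608), (nat_lit 38, nat_lit 17383563393), (nat_lit 63, nat_lit 18457305216), (nat_lit 121, nat_lit 18440528001), (nat_lit 98, nat_lit 19514269824), (nat_lit 21, nat_lit 19497492609), (nat_lit 117, nat_lit 20571234432), (nat_lit 79, nat_lit 20554457217), (nat_lit 42, nat_lit 21628199040)]⟩,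
   ⟨V6_15185748033, [(nat_lit 24, nat_lit 16326598785), (nat_lit 15, nat_lit 17400340545), (nat_lit 3, nat_lit 17383563393), (nat_lit 124, nat_lit 18457305153), (nat_lit 1, nat_lit 18440528001), (nat_lit 95, nat_lit 19514269761), (nat_lit 103, nat_lit 19497492609), (nat_lit 54, nat_lit 20571234369), (nat_lit 69, nat_lit 20554457217), (nat_lit 3, nat_lit 21628198977)]⟩,
   ⟨V6_14112006273, [(nat_lit 122, nat_lit 16326598785), (nat_lit 5, nat_lit 17383563393), (nat_lit 124, nat_lit 18440528001), (nat_lit 1, nat_lit 19497492609), (nat_lit 18, nat_lit 20554457217)]⟩],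
  [W_16325288000, W_15251808320, W_15251546240, W_14178328640, W_14161813568, W_14128783424]⟩
theorem C_16326598785 : chkRec R_16326598785 = true := by decide +kernel

noncomputable def R_16326602817 : Rec := ⟨nat_lit 16326602817, nat_lit 49,
  [⟨V6_16276262976, [(nat_lit 57, nat_lit 16326602817), (nat_lit 29, nat_lit 17400344640), (nat_lit 2, nat_lit 17400340545), (nat_lit 98, nat_lit 17383567425), (nat_lit 25, nat_lit 18474082368), (nat_lit 86, nat_lit 18474078273), (nat_lit 122, nat_lit 18457309248), (nat_lit 51, nat_lit 18457305153), (nat_lit 4, nat_lit 18440532033), (nat_lit 114, nat_lit 19547820096), (nat_lit 5, nat_lit 19531046976), (nat_lit 72, nat_lit 19531042881), (nat_lit 43, nat_lit 19514273856), (nat_lit 24, nat_lit 19514269761), (nat_lit 53, nat_lit 19497496641), (nat_lit 120, nat_lit 20604784704), (nat_lit 72, nat_lit 20588011584), (nat_lit 36, nat_lit 20588007489), (nat_lit 79, nat_lit 20571238464), (nat_lit 98, nat_lit 20571234369), (nat_lit 58, nat_lit 21661749312), (nat_lit 63, nat_lit 21644976192), (nat_lit 126, nat_lit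 21644972097), (nat_lit 107, nat_lit 22718713920)]⟩,
   ⟨V6_15252328512, [(nat_lit 40, nat_lit 16326602817), (nat_lit 43, nat_lit 17400344640), (nat_lit 1, nat_lit 17400340545), (nat_lit 109, nat_lit 17400082497), (nat_lit 13, nat_lit 18474082368), (nat_lit 78, nat_lit 18474078273), (nat_lit 7, nat_lit 18473824320), (nat_lit 119, nat_lit 18473820225), (nat_lit 102, nat_lit 18473562177), (nat_lit 93, nat_lit 19547820096), (nat_lit 56, nat_lit 19547562048), (nat_lit 116, nat_lit 19547557953), (nat_lit 57, nat_lit 19547304000), (nat_lit 43, nat_lit 19547299905), (nat_lit 39, nat_lit 20621299776), (nat_lit 59, nat_lit 20621041728), (nat_lit 21, nat_lit 20621037633), (nat_lit 35, nat_lit 21694779456)]⟩,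
   ⟨V6_14178848832, [(nat_lit 98, nat_lit 16326602817), (nat_lit 118, nat_lit 17400344640), (nat_lit 4, nat_lit 17400340545), (nat_lit 70, nat_lit 17400082497), (nat_lit 53, nat_lit 18474082368), (nat_lit 18, nat_lit 18474078273), (nat_lit 23, nat_lit 18473824320), (nat_lit 77, nat_lit 18473820225), (nat_lit 54, nat_lit 19547820096), (nat_lit 49, nat_lit 19547562048), (nat_lit 98, nat_lit 19547557953), (nat_lit 125, nat_lit 20621299776)]⟩],
  [W_16325546048, W_16325029952, W_16308514880, W_15251550272, W_15185489984, W_14178070592, W_14161555520, W_14128525376, W_14112010304]⟩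
theorem C_16326602817 : chkRec R_16326602817 = true := by decide +kernel

noncomputable def R_16326602880 : Rec := ⟨nat_lit 16326602880, nat_lit 114,
  [⟨V6_16325812224, [(nat_lit 73, nat_lit 16326602880), (nat_lit 34, nat_lit 17400344640), (nat_lit 76, nat_lit 17400340608), (nat_lit 56, nat_lit 17400082560), (nat_lit 62, nat_lit 18474086400), (nat_lit 24, nat_lit 18474082368), (nat_lit 104, nat_lit 18473824320), (nat_lit 34, nat_lit 18473820288), (nat_lit 117, nat_lit 18473562240), (nat_lit 109, nat_lit 19547824128), (nat_lit 42, nat_lit 19547566080), (nat_lit 60, nat_lit 19547562048), (nat_lit 73, nat_lit 19547304000), (nat_lit 43, nat_lit 19547299968), (nat_lit 69, nat_lit 19547041920), (nat_lit 70, nat_lit 20621303808), (nat_lit 83, nat_lit 20621045760), (nat_lit 81, nat_lit 20621041728), (nat_lit 20, nat_lit 20620783680), (nat_lit 64, nat_lit 20620779648), (nat_lit 106, nat_lit 21694783488), (nat_lit 106, nat_lit 21694525440), (nat_lit 64, nat_lit 21694521408), (nat_lit 26, nat_lit 22768263168)]⟩,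
   ⟨V6_15252332544, [(nat_lit 41, nat_lit 16326602880), (nat_lit 72, nat_lit 17400344640), (nat_lit 44, nat_lit 17400340608), (nat_lit 63, nat_lit 17400082560), (nat_lit 51, nat_lit 18474086400), (nat_lit 7, nat_lit 18474082368), (nat_lit 121, nat_lit 18473824320), (nat_lit 124, nat_lit 18473820288), (nat_lit 122, nat_lit 18473562240), (nat_lit 79, nat_lit 19547824128), (nat_lit 56, nat_lit 19547566080), (nat_lit 79, nat_lit 19547562048), (nat_lit 60, nat_lit 19547304000), (nat_lit 78, nat_lit 19547299968), (nat_lit 123, nat_lit 20621303808), (nat_lit 68, nat_lit 20621045760), (nat_lit 22, nat_lit 20621041728), (nat_lit 9, nat_lit 21694783488)]⟩,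
   ⟨V6_15219302400, [(nat_lit 85, nat_lit 16326602880), (nat_lit 32, nat_lit 17400344640), (nat_lit 93, nat_lit 17400340608), (nat_lit 52, nat_lit 17383567488), (nat_lit 81, nat_lit 18474086400), (nat_lit 93, nat_lit 18474082368), (nat_lit 90, nat_lit 18457309248), (nat_lit 16, nat_lit 18457305216), (nat_lit 15, nat_lit 18440532096), (nat_lit 53, nat_lit 19547824128), (nat_lit 121, nat_lit 19531051008), (nat_lit 76, nat_lit 19531046976), (nat_lit 59, nat_lit 19514273856), (nat_lit 117, nat_lit 19514269824), (nat_lit 7, nat_lit 20604788736), (nat_lit 30, nat_lit 20588015616), (nat_lit 4, nat_lit 20588011584), (nat_lit 97, nat_lit 21661753344)]⟩],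
  [W_16325292032, W_16325029952, W_16308514880, W_15235297280, W_15185752064, W_15185489984, W_15185485952, W_14178070592, W_14161817600, W_14161555520, W_14145302528, W_14128787456, W_14128525376, W_14128263296, W_14112010304, W_14111748224]⟩
theorem C_16326602880 : chkRec R_16326602880 = true := by decide +kernel

noncomputable def R_16326606912 : Rec := ⟨nat_lit 16326606912, nat_lit 167,
  [⟨V6_16325296128, [(nat_lit 26, nat_lit 16326606912), (nat_lit 108, nat_lit 17400348672), (nat_lit 14, nat_lit 17400086592), (nat_lit 17, nat_lit 18473828352), (nat_lit 99, nat_lit 18473566272), (nat_lit 64, nat_lit 19547308032), (nat_lit 121, nat_lit 19547045952), (nat_lit 77, nat_lit 20620787712), (nat_lit 112, nat_lit 20620525632), (nat_lit 92, nat_lit 21694267392), (nat_lit 13, nat_lit 21694005312), (nat_lit 82, nat_lit 22767747072)]⟩,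
   ⟨V6_16308518976, [(nat_lit 36, nat_lit 16326606912), (nat_lit 126, nat_lit 17400086592), (nat_lit 73, nat_lit 17383571520), (nat_lit 65, nat_lit 18473566272), (nat_lit 73, nat_lit 18457051200), (nat_lit 78, nat_lit 19547045952), (nat_lit 18, nat_lit 19530530880), (nat_lit 60, nat_lit 20620525632), (nat_lit 3, nat_lit 20604010560), (nat_lit 39, nat_lit 21694005312), (nat_lit 27, nat_lit 21677490240), (nat_lit 85, nat_lit 22750969920)]⟩,
   ⟨V6_15252328512, [(nat_lit 74, nat_lit 16326606912), (nat_lit 58, nat_lit 17400344640), (nat_lit 39, nat_lit 17400086592), (nat_lit 59, nat_lit 18474082368), (nat_lit 64, nat_lit 18473824320), (nat_lit 36, nat_lit 18473566272), (nat_lit 15, nat_lit 19547820096), (nat_lit 65, nat_lit 19547562048), (nat_lit 42, nat_lit 19547304000), (nat_lit 5, nat_lit 20621299776), (nat_lit 28, nat_lit 20621041728), (nat_lit 60, nat_lit 21694779456)]⟩,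
   ⟨V6_15235817472, [(nat_lit 37, nat_lit 16326606912), (nat_lit 102, nat_lit 17400348672), (nat_lit 90, nat_lit 17400344640), (nat_lit 116, nat_lit 17400086592), (nat_lit 75, nat_lit 17383571520), (nat_lit 69, nat_lit 18474086400), (nat_lit 54, nat_lit 18474082368), (nat_lit 22, nat_lit 18473828352), (nat_lit 73, nat_lit 18473824320), (nat_lit 66, nat_lit 18457313280), (nat_lit 99, nat_lit 18457309248), (nat_lit 51, nat_lit 18457051200), (nat_lit 18, nat_lit 19547824128), (nat_lit 39, nat_lit 19547566080), (nat_lit 59, nat_lit 19547562048), (nat_lit 34, nat_lit 19531051008), (nat_lit 52, nat_lit 19531046976), (nat_lit 3, nat_lit 19530792960), (nat_lit 81, nat_lit 19530788928), (nat_lit 87, nat_lit 20621303808), (nat_lit 124, nat_lit 20604788736), (nat_lit 26, nat_lit 20604530688), (nat_lit 29, nat_lit 20604526656), (nat_lit 14, nat_lit 21678268416)]⟩,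
   ⟨V6_15235813440, [(nat_lit 90, nat_lit 16326606912), (nat_lit 19, nat_lit 17400344640), (nat_lit 43, nat_lit 17400086592), (nat_lit 116, nat_lit 17383571520), (nat_lit 106, nat_lit 18474082368), (nat_lit 124, nat_lit 18473824320), (nat_lit 73, nat_lit 18457309248), (nat_lit 113, nat_lit 18457051200), (nat_lit 7, nat_lit 19547820096), (nat_lit 79, nat_lit 19547562048), (nat_lit 96, nat_lit 19531046976), (nat_lit 54, nat_lit 19530788928), (nat_lit 111, nat_lit 20621299776), (nat_lit 119, nat_lit 20604784704), (nat_lit 29, nat_lit 20604526656), (nat_lit 13, nat_lit 21678264384)]⟩,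
   ⟨V6_14179110912, [(nat_lit 91, nat_lit 16326606912), (nat_lit 41, nat_lit 17400348672), (nat_lit 108, nat_lit 17400344640), (nat_lit 72, nat_lit 18474086400), (nat_lit 10, nat_lit 18474082368), (nat_lit 71, nat_lit 19547824128), (nat_lit 93, nat_lit 19547820096), (nat_lit 93, nat_lit 20621561856)]⟩,
   ⟨V6_14178848832, [(nat_lit 74, nat_lit 16326606912), (nat_lit 106, nat_lit 17400344640), (nat_lit 53, nat_lit 17400086592), (nat_lit 94, nat_lit 18474082368), (nat_lit 47, nat_lit 18473824320), (nat_lit 21, nat_lit 19547820096), (nat_lit 41, nat_lit 19547562048), (nat_lit 3, nat_lit 20621299776)]⟩],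
  [W_16325292032, W_16276262912, W_15235297280, W_15218524160, W_15202525184, W_15202009088, W_15201747008, W_15185494016, W_15185231936, W_14161559552, W_14145302528, W_14145044480, W_14128787456, W_14128267328, W_14112014336]⟩
theorem C_16326606912 : chkRec R_16326606912 = true := by decide +kernel

noncomputable def R_16326610944 : Rec := ⟨nat_lit 16326610944, nat_lit 116,
  [⟨V6_16325812224, [(nat_lit 82, nat_lit 16326610944), (nat_lit 32, nat_lit 17400348672), (nat_lit 65, nat_lit 17400090624), (nat_lit 2, nat_lit 18474086400), (nat_lit 13, nat_lit 18473828352), (nat_lit 104, nat_lit 18473570304), (nat_lit 45, nat_lit 19547824128), (nat_lit 9, nat_lit 19547566080), (nat_lit 95, nat_lit 19547308032), (nat_lit 114, nat_lit 19547049984), (nat_lit 44, nat_lit 20621303808), (nat_lit 16, nat_lit 20621045760), (nat_lit 68, nat_lit 20620787712), (nat_lit 124, nat_lit 21694783488), (nat_lit 23, nat_lit 21694525440), (nat_lit 60, nat_lit 22768263168)]⟩,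
   ⟨V6_16292007936, [(nat_lit 37, nat_lit 16326610944), (nat_lit 65, nat_lit 17400090624), (nat_lit 116, nat_lit 17383575552), (nat_lit 5, nat_lit 18473570304), (nat_lit 95, nat_lit 18457055232), (nat_lit 85, nat_lit 18440540160), (nat_lit 88, nat_lit 19547049984), (nat_lit 108, nat_lit 19530534912), (nat_lit 29, nat_lit 19514019840), (nat_lit 96, nat_lit 20620529664), (nat_lit 10, nat_lit 20604014592), (nat_lit 31, nat_lit 20587499520), (nat_lit 93, nat_lit 21677494272), (nat_lit 9, nat_lit 21660979200), (nat_lit 91, nat_lit 22734458880)]⟩,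
   ⟨V6_15252332544, [(nat_lit 67, nat_lit 16326610944), (nat_lit 20, nat_lit 17400348672), (nat_lit 107, nat_lit 17400090624), (nat_lit 59, nat_lit 18474086400), (nat_lit 14, nat_lit 18473828352), (nat_lit 14, nat_lit 18473570304), (nat_lit 120, nat_lit 19547824128), (nat_lit 12, nat_lit 19547566080), (nat_lit 103, nat_lit 19547308032), (nat_lit 12, nat_lit 20621303808), (nat_lit 33, nat_lit 20621045760), (nat_lit 92, nat_lit 21694783488)]⟩],
  [W_16276262912, W_15219298304, W_15218524160, W_15202525184, W_15202009088, W_15185752064, W_15185494016, W_14162333696, W_14161817600, W_14145044480, W_14128787456, W_14112014336]⟩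
theorem C_16326610944 : chkRec R_16326610944 = true := by decide +kernel

noncomputable def R_16326860865 : Rec := ⟨nat_lit 16326860865, nat_lit 29,
  [⟨V6_15252328512, [(nat_lit 87, nat_lit 16326860865), (nat_lit 18, nat_lit 17400602688), (nat_lit 126, nat_lit 17400598593), (nat_lit 66, nat_lit 17400340545), (nat_lit 14, nat_lit 18474340416), (nat_lit 101, nat_lit 18474082368), (nat_lit 97, nat_lit 18474078273), (nat_lit 64, nat_lit 18473820225), (nat_lit 97, nat_lit 19547820096), (nat_lit 79, nat_lit 19547562048), (nat_lit 6, nat_lit 19547557953), (nat_lit 77, nat_lit 19547299905), (nat_lit 114, nat_lit 20621299776), (nat_lit 111, nat_lit 20621041728), (nat_lit 86, nat_lit 20621037633), (nat_lit 97, nat_lit 21694779456)]⟩,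
   ⟨V6_14178848832, [(nat_lit 93, nat_lit 16326860865), (nat_lit 9, nat_lit 17400602688), (nat_lit 109, nat_lit 17400598593), (nat_lit 10, nat_lit 17400340545), (nat_lit 81, nat_lit 18474340416), (nat_lit 21, nat_lit 18474082368), (nat_lit 81, nat_lit 18474078273), (nat_lit 19, nat_lit 18473820225), (nat_lit 85, nat_lit 19547820096), (nat_lit 85, nat_lit 19547562048), (nat_lit 62, nat_lit 19547557953), (nat_lit 43, nat_lit 20621299776)]⟩],
  [W_16325546048, W_16292515904, W_14161813568, W_14145556544, W_14128783424]⟩
theorem C_16326860865 : chkRec R_16326860865 = true := by decide +kernel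

noncomputable def R_16326860928 : Rec := ⟨nat_lit 16326860928, nat_lit 50,
  [⟨V6_15252332544, [(nat_lit 89, nat_lit 16326860928), (nat_lit 36, nat_lit 17400602688), (nat_lit 1, nat_lit 17400340608), (nat_lit 29, nat_lit 18474344448), (nat_lit 75, nat_lit 18474082368), (nat_lit 21, nat_lit 18473820288), (nat_lit 79, nat_lit 19547824128), (nat_lit 31, nat_lit 19547562048), (nat_lit 120, nat_lit 19547299968), (nat_lit 89, nat_lit 20621303808), (nat_lit 95, nat_lit 20621041728), (nat_lit 111, nat_lit 21694783488)]⟩,
   ⟨V6_14145298560, [(nat_lit 56, nat_lit 16326860928), (nat_lit 92, nat_lit 17400340608), (nat_lit 85, nat_lit 17383825536), (nat_lit 7, nat_lit 18473820288), (nat_lit 28, nat_lit 18457305216), (nat_lit 14, nat_lit 18440790144), (nat_lit 100, nat_lit 19530784896), (nat_lit 53, nat_lit 19514269824), (nat_lit 87, nat_lit 20587749504)]⟩],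
  [W_16325550080, W_16325025920, W_15202525184, W_14178590720, W_14178328640, W_14161813568, W_14145560576, W_14129045504]⟩
theorem C_16326860928 : chkRec R_16326860928 = true := by decide +kernel

noncomputable def R_16326864960 : Rec := ⟨nat_lit 16326864960, nat_lit 120,
  [⟨V6_16325812224, [(nat_lit 71, nat_lit 16326864960), (nat_lit 14, nat_lit 17400606720), (nat_lit 35, nat_lit 17400602688), (nat_lit 102, nat_lit 17400344640), (nat_lit 10, nat_lit 18474344448), (nat_lit 87, nat_lit 18474086400), (nat_lit 32, nat_lit 18474082368), (nat_lit 54, nat_lit 18473824320), (nat_lit 83, nat_lit 19547824128), (nat_lit 18, nat_lit 19547566080), (nat_lit 92, nat_lit 19547562048), (nat_lit 85, nat_lit 19547304000), (nat_lit 98, nat_lit 20621303808), (nat_lit 116, nat_lit 20621045760), (nat_lit 28, nat_lit 20621041728), (nat_lit 10, nat_lit 20620783680), (nat_lit 40, nat_lit 21694783488), (nat_lit 76, nat_lit 21694525440), (nat_lit 113, nat_lit 21694521408), (nat_lit 20, nat_lit 22768263168)]⟩,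
   ⟨V6_15252332544, [(nat_lit 77, nat_lit 16326864960), (nat_lit 78, nat_lit 17400606720), (nat_lit 10, nat_lit 17400602688), (nat_lit 89, nat_lit 17400344640), (nat_lit 65, nat_lit 18474344448), (nat_lit 90, nat_lit 18474086400), (nat_lit 94, nat_lit 18474082368), (nat_lit 119, nat_lit 18473824320), (nat_lit 52, nat_lit 19547824128), (nat_lit 24, nat_lit 19547566080), (nat_lit 28, nat_lit 19547562048), (nat_lit 89, nat_lit 19547304000), (nat_lit 96, nat_lit 20621303808), (nat_lit 17, nat_lit 20621045760), (nat_lit 86, nat_lit 20621041728), (nat_lit 1, nat_lit 21694783488)]⟩,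
   ⟨V6_15252328512, [(nat_lit 82, nat_lit 16326864960), (nat_lit 77, nat_lit 17400602688), (nat_lit 71, nat_lit 17400344640), (nat_lit 67, nat_lit 18474340416), (nat_lit 34, nat_lit 18474082368), (nat_lit 56, nat_lit 18473824320), (nat_lit 101, nat_lit 19547820096), (nat_lit 87, nat_lit 19547562048), (nat_lit 45, nat_lit 19547304000), (nat_lit 74, nat_lit 20621299776), (nat_lit 11, nat_lit 20621041728), (nat_lit 118, nat_lit 21694779456)]⟩,
   ⟨V6_14178848832, [(nat_lit 14, nat_lit 16326864960), (nat_lit 102, nat_lit 17400602688), (nat_lit 121, nat_lit 17400344640), (nat_lit 52, nat_lit 18474340416), (nat_lit 80, nat_lit 18474082368), (nat_lit 57, nat_lit 18473824320), (nat_lit 116, nat_lit 19547820096), (nat_lit 92, nat_lit 19547562048), (nat_lit 19, nat_lit 20621299776)]⟩],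
  [W_16325292032, W_16325029952, W_16308514880, W_16276262912, W_15235297280, W_15219298304, W_15202783232, W_15202525184, W_14161817600, W_14145818624, W_14145302528, W_14129045504, W_14128787456, W_14128783424, W_14128525376]⟩
theorem C_16326864960 : chkRec R_16326864960 = true := by decide +kernel

noncomputable def R_16326868992 : Rec := ⟨nat_lit 16326868992, nat_lit 103,
  [⟨V6_16326328320, [(nat_lit 64, nat_lit 16326868992), (nat_lit 41, nat_lit 17400606720), (nat_lit 78, nat_lit 17400348672), (nat_lit 53, nat_lit 18474344448), (nat_lit 84, nat_lit 18474086400), (nat_lit 41, nat_lit 18473828352), (nat_lit 79, nat_lit 19548082176), (nat_lit 37, nat_lit 19547824128), (nat_lit 63, nat_lit 19547566080), (nat_lit 26, nat_lit 20621819904), (nat_lit 37, nat_lit 20621561856), (nat_lit 70, nat_lit 20621303808), (nat_lit 30, nat_lit 21695299584), (nat_lit 57, nat_lit 21695041536), (nat_lit 103, nat_lit 22768779264)]⟩,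
   ⟨V6_16325296128, [(nat_lit 24, nat_lit 16326868992), (nat_lit 1, nat_lit 17400348672), (nat_lit 26, nat_lit 18473828352), (nat_lit 45, nat_lit 19547308032), (nat_lit 79, nat_lit 20620787712), (nat_lit 43, nat_lit 21694267392), (nat_lit 52, nat_lit 22767747072)]⟩,
   ⟨V6_16308781056, [(nat_lit 17, nat_lit 16326868992), (nat_lit 99, nat_lit 17400348672), (nat_lit 11, nat_lit 17383833600), (nat_lit 37, nat_lit 18473828352), (nat_lit 25, nat_lit 18457313280), (nat_lit 4, nat_lit 19547308032), (nat_lit 10, nat_lit 19530792960), (nat_lit 104, nat_lit 20620787712), (nat_lit 83, nat_lit 20604272640), (nat_lit 32, nat_lit 21694267392), (nat_lit 81, nat_lit 21677752320), (nat_lit 63, nat_lit 22751232000)]⟩,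
   ⟨V6_15236333568, [(nat_lit 71, nat_lit 16326868992), (nat_lit 11, nat_lit 17400606720), (nat_lit 119, nat_lit 17383833600), (nat_lit 84, nat_lit 18474344448), (nat_lit 48, nat_lit 18457571328), (nat_lit 63, nat_lit 19548082176), (nat_lit 20, nat_lit 19531309056), (nat_lit 114, nat_lit 20621819904), (nat_lit 99, nat_lit 20605046784), (nat_lit 98, nat_lit 21678784512)]⟩,
   ⟨V6_14179110912, [(nat_lit 123, nat_lit 16326868992), (nat_lit 30, nat_lit 17400606720), (nat_lit 58, nat_lit 17400348672), (nat_lit 64, nat_lit 18474344448), (nat_lit 56, nat_lit 18474086400), (nat_lit 110, nat_lit 19548082176), (nat_lit 16, nat_lit 19547824128), (nat_lit 8, nat_lit 20621561856)]⟩],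
  [W_16276520960, W_16276262912, W_15219298304, W_15218524160, W_15202783232, W_15202525184, W_15202009088, W_14145818624, W_14145560576, W_14145044480, W_14129045504, W_14128787456]⟩
theorem C_16326868992 : chkRec R_16326868992 = true := by decide +kernel

noncomputable def R_16327118913 : Rec := ⟨nat_lit 16327118913, nat_lit 8,
  [⟨V6_14178848832, [(nat_lit 9, nat_lit 16327118913), (nat_lit 126, nat_lit 17400860736), (nat_lit 42, nat_lit 17400598593), (nat_lit 20, nat_lit 18474340416), (nat_lit 43, nat_lit 18474078273), (nat_lit 21, nat_lit 19547820096), (nat_lit 55, nat_lit 19547557953), (nat_lit 88, nat_lit 20621299776)]⟩],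
  [W_16292515904]⟩
theorem C_16327118913 : chkRec R_16327118913 = true := by decide +kernel

noncomputable def R_16327123008 : Rec := ⟨nat_lit 16327123008, nat_lit 60,
  [⟨V6_16325812224, [(nat_lit 62, nat_lit 16327123008), (nat_lit 66, nat_lit 17400864768), (nat_lit 75, nat_lit 17400602688), (nat_lit 18, nat_lit 18474344448), (nat_lit 30, nat_lit 18474082368), (nat_lit 86, nat_lit 19547824128), (nat_lit 13, nat_lit 19547562048), (nat_lit 6, nat_lit 20621303808), (nat_lit 57, nat_lit 20621041728), (nat_lit 43, nat_lit 21694783488), (nat_lit 124, nat_lit 21694521408), (nat_lit 29, nat_lit 22768263168)]⟩,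
   ⟨V6_14178848832, [(nat_lit 115, nat_lit 16327123008), (nat_lit 113, nat_lit 17400860736), (nat_lit 19, nat_lit 17400602688), (nat_lit 69, nat_lit 18474340416), (nat_lit 75, nat_lit 18474082368), (nat_lit 13, nat_lit 19547820096), (nat_lit 13, nat_lit 19547562048), (nat_lit 35, nat_lit 20621299776)]⟩],
  [W_16325546048, W_16292515904, W_15219298304, W_14178848768, W_14162333696, W_14162071616, W_14161813568, W_14145818624, W_14145560576, W_14145556544]⟩
theorem C_16327123008 : chkRec R_16327123008 = true := by decide +kernel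

noncomputable def R_16327127040 : Rec := ⟨nat_lit 16327127040, nat_lit 66,
  [⟨V6_16325812224, [(nat_lit 50, nat_lit 16327127040), (nat_lit 85, nat_lit 17400864768), (nat_lit 28, nat_lit 17400606720), (nat_lit 12, nat_lit 18474344448), (nat_lit 56, nat_lit 18474086400), (nat_lit 103, nat_lit 19547824128), (nat_lit 56, nat_lit 19547566080), (nat_lit 39, nat_lit 20621303808), (nat_lit 123, nat_lit 20621045760), (nat_lit 78, nat_lit 21694783488), (nat_lit 84, nat_lit 21694525440), (nat_lit 40, nat_lit 22768263168)]⟩,
   ⟨V6_14179110912, [(nat_lit 97, nat_lit 16327127040), (nat_lit 112, nat_lit 17400864768), (nat_lit 54, nat_lit 17400606720), (nat_lit 117, nat_lit 18474602496), (nat_lit 121, nat_lit 18474344448), (nat_lit 94, nat_lit 18474086400), (nat_lit 105, nat_lit 19548082176), (nat_lit 81, nat_lit 19547824128), (nat_lit 61, nat_lit 20621561856)]⟩],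
  [W_15252586496, W_15235297280, W_15219556352, W_15219298304, W_14179106816, W_14162591744, W_14161817600, W_14145818624, W_14145302528]⟩
theorem C_16327127040 : chkRec R_16327127040 = true := by decide +kernel

noncomputable def R_16327381056 : Rec := ⟨nat_lit 16327381056, nat_lit 18,
  [⟨V6_14179110912, [(nat_lit 116, nat_lit 16327381056), (nat_lit 57, nat_lit 17401122816), (nat_lit 8, nat_lit 17400860736), (nat_lit 82, nat_lit 18474602496), (nat_lit 116, nat_lit 18474340416), (nat_lit 33, nat_lit 19548082176), (nat_lit 66, nat_lit 19547820096), (nat_lit 48, nat_lit 20621561856)]⟩,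
   ⟨V6_14178848832, [(nat_lit 75, nat_lit 16327381056), (nat_lit 104, nat_lit 17400860736), (nat_lit 56, nat_lit 18474340416), (nat_lit 19, nat_lit 19547820096), (nat_lit 18, nat_lit 20621299776)]⟩],
  [W_16325546048, W_15235551296, W_14162333696]⟩
theorem C_16327381056 : chkRec R_16327381056 = true := by decide +kernel

noncomputable def R_16327385088 : Rec := ⟨nat_lit 16327385088, nat_lit 31,
  [⟨V6_15252332544, [(nat_lit 45, nat_lit 16327385088), (nat_lit 104, nat_lit 17400864768), (nat_lit 51, nat_lit 18474344448), (nat_lit 57, nat_lit 19547824128), (nat_lit 126, nat_lit 20621303808), (nat_lit 117, nat_lit 21694783488)]⟩],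
  [W_16325550080, W_15252586496, W_15236071424, W_14162591744]⟩
theorem C_16327385088 : chkRec R_16327385088 = true := by decide +kernel

noncomputable def R_16327643136 : Rec := ⟨nat_lit 16327643136, nat_lit 8,
  [⟨V6_14179110912, [(nat_lit 66, nat_lit 16327643136), (nat_lit 123, nat_lit 17401122816), (nat_lit 3, nat_lit 18474602496), (nat_lit 17, nat_lit 19548082176), (nat_lit 41, nat_lit 20621561856)]⟩],
  [W_15252586496, W_14178848768]⟩
theorem C_16327643136 : chkRec R_16327643136 = true := by decide +kernel

noncomputable def R_16342073538 : Rec := ⟨nat_lit 16342073538, nat_lit 4,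
  [⟨V6_16274960577, [(nat_lit 91, nat_lit 16342073538), (nat_lit 76, nat_lit 17415815361), (nat_lit 28, nat_lit 17415811266), (nat_lit 47, nat_lit 17399038146), (nat_lit 79, nat_lit 18489553089), (nat_lit 112, nat_lit 18472779969), (nat_lit 52, nat_lit 18472775874), (nat_lit 47, nat_lit 18456002754), (nat_lit 112, nat_lit 19546517697), (nat_lit 49, nat_lit 19529744577), (nat_lit 99, nat_lit 19529740482), (nat_lit 14, nat_lit 19512967362), (nat_lit 42, nat_lit 20603482305), (nat_lit 95, nat_lit 20586709185), (nat_lit 46, nat_lit 20586705090), (nat_lit 62, nat_lit 20569931970), (nat_lit 85, nat_lit 21660446913), (nat_lit 19, nat_lit 21643673793), (nat_lit 116, nat_lit 21643669698), (nat_lit 95, nat_lit 22717411521)]⟩],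
  [W_16291737728]⟩
theorem C_16342073538 : chkRec R_16342073538 = true := by decide +kernel

noncomputable def R_16342073601 : Rec := ⟨nat_lit 16342073601, nat_lit 4,
  [⟨V6_15201222912, [(nat_lit 21, nat_lit 16342073601), (nat_lit 61, nat_lit 17415815424), (nat_lit 60, nat_lit 17399038209), (nat_lit 30, nat_lit 18472780032), (nat_lit 103, nat_lit 18456002817), (nat_lit 103, nat_lit 19529744640), (nat_lit 122, nat_lit 19512967425), (nat_lit 101, nat_lit 20586709248), (nat_lit 78, nat_lit 20569932033), (nat_lit 47, nat_lit 21643673856)]⟩],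
  [W_15234777152]⟩
theorem C_16342073601 : chkRec R_16342073601 = true := by decide +kernel

noncomputable def R_16342331586 : Rec := ⟨nat_lit 16342331586, nat_lit 3,
  [⟨V6_16241668290, [(nat_lit 33, nat_lit 16342331586), (nat_lit 122, nat_lit 17399296194), (nat_lit 57, nat_lit 18456260802), (nat_lit 117, nat_lit 19513225410), (nat_lit 38, nat_lit 20570190018), (nat_lit 16, nat_lit 21627154626), (nat_lit 40, nat_lit 22684119234)]⟩,
   ⟨V6_15234511041, [(nat_lit 48, nat_lit 16342331586), (nat_lit 122, nat_lit 17416073409), (nat_lit 59, nat_lit 17415811266), (nat_lit 10, nat_lit 17399296194), (nat_lit 98, nat_lit 18489553089), (nat_lit 87, nat_lit 18489290946), (nat_lit 72, nat_lit 18473038017), (nat_lit 102, nat_lit 18472775874), (nat_lit 72, nat_lit 18456260802), (nat_lit 9, nat_lit 19563032769), (nat_lit 87, nat_lit 19546517697), (nat_lit 124, nat_lit 19546255554), (nat_lit 49, nat_lit 19530002625), (nat_lit 40, nat_lit 19529740482), (nat_lit 122, nat_lit 20619997377), (nat_lit 28, nat_lit 20603482305), (nat_lit 1, nat_lit 20603220162), (nat_lit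 51, nat_lit 21676961985)]⟩,
   ⟨V6_15201218754, [(nat_lit 80, nat_lit 16342331586), (nat_lit 18, nat_lit 17415811266), (nat_lit 52, nat_lit 17399296194), (nat_lit 58, nat_lit 18472775874), (nat_lit 126, nat_lit 18456260802), (nat_lit 86, nat_lit 19529740482), (nat_lit 83, nat_lit 19513225410), (nat_lit 26, nat_lit 20586705090), (nat_lit 87, nat_lit 20570190018), (nat_lit 2, nat_lit 21643669698)]⟩],
  [W_16291737728]⟩
theorem C_16342331586 : chkRec R_16342331586 = true := by decide +kernel

noncomputable def R_16342335618 : Rec := ⟨nat_lit 16342335618, nat_lit 8,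
  [⟨V6_15235031169, [(nat_lit 81, nat_lit 16342335618), (nat_lit 79, nat_lit 17416077441), (nat_lit 76, nat_lit 17416073346), (nat_lit 68, nat_lit 17399300226), (nat_lit 36, nat_lit 18489815169), (nat_lit 96, nat_lit 18489811074), (nat_lit 37, nat_lit 18473042049), (nat_lit 38, nat_lit 18473037954), (nat_lit 54, nat_lit 18456264834), (nat_lit 118, nat_lit 19563552897), (nat_lit 36, nat_lit 19546779777), (nat_lit 12, nat_lit 19546775682), (nat_lit 99, nat_lit 19530006657), (nat_lit 28, nat_lit 19530002562), (nat_lit 93, nat_lit 20620517505), (nat_lit 35, nat_lit 20603744385), (nat_lit 113, nat_lit 20603740290), (nat_lit 20, nat_lit 21677482113)]⟩],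
  [W_16291737728, W_16274964608]⟩
theorem C_16342335618 : chkRec R_16342335618 = true := by decide +kernel

noncomputable def R_16342335681 : Rec := ⟨nat_lit 16342335681, nat_lit 17,
  [⟨V6_16274960577, [(nat_lit 18, nat_lit 16342335681), (nat_lit 96, nat_lit 17416073409), (nat_lit 114, nat_lit 17415815361), (nat_lit 19, nat_lit 17399300289), (nat_lit 91, nat_lit 18489553089), (nat_lit 23, nat_lit 18473038017), (nat_lit 48, nat_lit 18472779969), (nat_lit 78, nat_lit 18456264897), (nat_lit 24, nat_lit 19546517697), (nat_lit 16, nat_lit 19530002625), (nat_lit 3, nat_lit 19529744577), (nat_lit 106, nat_lit 19513229505), (nat_lit 92, nat_lit 20603482305), (nat_lit 74, nat_lit 20586967233), (nat_lit 35, nat_lit 20586709185), (nat_lit 62, nat_lit 20570194113), (nat_lit 19, nat_lit 21660446913), (nat_lit 21, nat_lit 21643931841), (nat_lit 115, nat_lit 21643673793), (nat_lit 97, nat_lit 22717411521)]⟩,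
   ⟨V6_15218000064, [(nat_lit 20, nat_lit 16342335681), (nat_lit 62, nat_lit 17416077504), (nat_lit 6, nat_lit 17415815361), (nat_lit 29, nat_lit 17399300289), (nat_lit 119, nat_lit 18489557184), (nat_lit 72, nat_lit 18473042112), (nat_lit 105, nat_lit 18472779969), (nat_lit 109, nat_lit 18456264897), (nat_lit 80, nat_lit 19546521792), (nat_lit 42, nat_lit 19530006720), (nat_lit 32, nat_lit 19529744577), (nat_lit 111, nat_lit 19513229505), (nat_lit 79, nat_lit 20603486400), (nat_lit 101, nat_lit 20586971328), (nat_lit 28, nat_lit 20586709185), (nat_lit 61, nat_lit 21660451008)]⟩],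
  [W_16308514880, W_15251550272, W_15218262080]⟩
theorem C_16342335681 : chkRec R_16342335681 = true := by decide +kernel

noncomputable def R_16342335744 : Rec := ⟨nat_lit 16342335744, nat_lit 16,
  [⟨V6_15268331520, [(nat_lit 109, nat_lit 16342335744), (nat_lit 42, nat_lit 17416077504), (nat_lit 16, nat_lit 17415815424), (nat_lit 5, nat_lit 18489819264), (nat_lit 85, nat_lit 18489557184), (nat_lit 87, nat_lit 19563561024), (nat_lit 37, nat_lit 19563298944), (nat_lit 3, nat_lit 20637302784), (nat_lit 115, nat_lit 20637040704), (nat_lit 51, nat_lit 21710782464)]⟩,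
   ⟨V6_15201222912, [(nat_lit 49, nat_lit 16342335744), (nat_lit 65, nat_lit 17415815424), (nat_lit 89, nat_lit 17399300352), (nat_lit 26, nat_lit 18472780032), (nat_lit 74, nat_lit 18456264960), (nat_lit 113, nat_lit 19529744640), (nat_lit 81, nat_lit 19513229568), (nat_lit 108, nat_lit 20586709248), (nat_lit 39, nat_lit 20570194176), (nat_lit 106, nat_lit 21643673856)]⟩],
  [W_16308518912, W_15235039232, W_15167930624]⟩
theorem C_16342335744 : chkRec R_16342335744 = true := by decide +kernel

noncomputable def R_16342339713 : Rec := ⟨nat_lit 16342339713, nat_lit 13,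
  [⟨V6_16291995777, [(nat_lit 107, nat_lit 16342339713), (nat_lit 90, nat_lit 17416077441), (nat_lit 74, nat_lit 17399304321), (nat_lit 64, nat_lit 18489815169), (nat_lit 23, nat_lit 18473042049), (nat_lit 112, nat_lit 18456268929), (nat_lit 53, nat_lit 19563552897), (nat_lit 71, nat_lit 19546779777), (nat_lit 37, nat_lit 19530006657), (nat_lit 90, nat_lit 19513233537), (nat_lit 40, nat_lit 20620517505), (nat_lit 105, nat_lit 20603744385), (nat_lit 7, nat_lit 20586971265), (nat_lit 87, nat_lit 21677482113), (nat_lit 8, nat_lit 21660708993), (nat_lit 57, nat_lit 22734446721)]⟩],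
  [W_16258453568, W_15218262080, W_15201488960]⟩
theorem C_16342339713 : chkRec R_16342339713 = true := by decide +kernel

noncomputable def R_16342339776 : Rec := ⟨nat_lit 16342339776, nat_lit 19,
  [⟨V6_15268589568, [(nat_lit 118, nat_lit 16342339776), (nat_lit 120, nat_lit 17416081536), (nat_lit 49, nat_lit 17416077504), (nat_lit 116, nat_lit 18489823296), (nat_lit 27, nat_lit 18489819264), (nat_lit 21, nat_lit 18489815232), (nat_lit 14, nat_lit 19563565056), (nat_lit 38, nat_lit 19563561024), (nat_lit 88, nat_lit 19563556992), (nat_lit 67, nat_lit 20637302784), (nat_lit 97, nat_lit 20637298752), (nat_lit 104, nat_lit 21711040512)]⟩,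
   ⟨V6_15235043328, [(nat_lit 67, nat_lit 16342339776), (nat_lit 7, nat_lit 17416081536), (nat_lit 103, nat_lit 17399304384), (nat_lit 36, nat_lit 18489823296), (nat_lit 26, nat_lit 18473046144), (nat_lit 66, nat_lit 18456268992), (nat_lit 14, nat_lit 19563565056), (nat_lit 122, nat_lit 19546787904), (nat_lit 125, nat_lit 19530010752), (nat_lit 109, nat_lit 20620529664), (nat_lit 58, nat_lit 20603752512), (nat_lit 85, nat_lit 21677494272)]⟩],
  [W_16241676416, W_15235039232, W_15218262080]⟩
theorem C_16342339776 : chkRec R_16342339776 = true := by decide +kernel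

noncomputable def R_16342593666 : Rec := ⟨nat_lit 16342593666, nat_lit 10,
  [⟨V6_15235031169, [(nat_lit 53, nat_lit 16342593666), (nat_lit 120, nat_lit 17416335489), (nat_lit 67, nat_lit 17416331394), (nat_lit 45, nat_lit 17416073346), (nat_lit 7, nat_lit 17399558274), (nat_lit 82, nat_lit 18490073217), (nat_lit 110, nat_lit 18489815169), (nat_lit 111, nat_lit 18489811074), (nat_lit 94, nat_lit 18473300097), (nat_lit 10, nat_lit 18473296002), (nat_lit 49, nat_lit 18473037954), (nat_lit 39, nat_lit 18456522882), (nat_lit 83, nat_lit 19563552897), (nat_lit 15, nat_lit 19547037825), (nat_lit 42, nat_lit 19546779777), (nat_lit 117, nat_lit 19546775682), (nat_lit 118, nat_lit 19530264705), (nat_lit 66, nat_lit 19530260610), (nat_lit 108, nat_lit 19530002562), (nat_lit 72, nat_lit 20620517505), (nat_lit 83, nat_lit 20604002433), (nat_lit 104, nat_lit 20603744385), (nat_lit 66, nat_lit 20603740290), (nat_lit 8, nat_lit 21677482113)]⟩],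
  [W_16308510848, W_16291737728, W_15251546240]⟩
theorem C_16342593666 : chkRec R_16342593666 = true := by decide +kernel

noncomputable def R_16342593729 : Rec := ⟨nat_lit 16342593729, nat_lit 15,
  [⟨V6_16274960577, [(nat_lit 40, nat_lit 16342593729), (nat_lit 11, nat_lit 17416073409), (nat_lit 86, nat_lit 17399558337), (nat_lit 122, nat_lit 18489553089), (nat_lit 78, nat_lit 18473038017), (nat_lit 14, nat_lit 18456522945), (nat_lit 59, nat_lit 19546517697), (nat_lit 70, nat_lit 19530002625), (nat_lit 92, nat_lit 19513487553), (nat_lit 53, nat_lit 20603482305), (nat_lit 78, nat_lit 20586967233), (nat_lit 45, nat_lit 20570452161), (nat_lit 126, nat_lit 21660446913), (nat_lit 14, nat_lit 21643931841), (nat_lit 122, nat_lit 22717411521)]⟩,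
   ⟨V6_15268065345, [(nat_lit 88, nat_lit 16342593729), (nat_lit 35, nat_lit 17416335489), (nat_lit 73, nat_lit 17416073409), (nat_lit 91, nat_lit 18490077249), (nat_lit 92, nat_lit 18489815169), (nat_lit 49, nat_lit 18489553089), (nat_lit 8, nat_lit 19563556929), (nat_lit 106, nat_lit 19563294849), (nat_lit 19, nat_lit 19563032769), (nat_lit 5, nat_lit 20637036609), (nat_lit 43, nat_lit 20636774529), (nat_lit 106, nat_lit 21710516289)]⟩,
   ⟨V6_15251288256, [(nat_lit 66, nat_lit 16342593729), (nat_lit 107, nat_lit 17416335552), (nat_lit 89, nat_lit 17416073409), (nat_lit 81, nat_lit 17399558337), (nat_lit 77, nat_lit 18489815232), (nat_lit 18, nat_lit 18489553089), (nat_lit 80, nat_lit 18473300160), (nat_lit 45, nat_lit 18473038017), (nat_lit 20, nat_lit 19563294912), (nat_lit 110, nat_lit 19563032769), (nat_lit 12, nat_lit 19546779840), (nat_lit 100, nat_lit 19546517697), (nat_lit 35, nat_lit 20636774592), (nat_lit 126, nat_lit 20620259520), (nat_lit 40, nat_lit 20619997377), (nat_lit 62, nat_lit 21693739200)]⟩,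
   ⟨V6_15234773184, [(nat_lit 108, nat_lit 16342593729), (nat_lit 44, nat_lit 17416335552), (nat_lit 33, nat_lit 17416073409), (nat_lit 116, nat_lit 17399558337), (nat_lit 43, nat_lit 18489815232), (nat_lit 100, nat_lit 18489553089), (nat_lit 16, nat_lit 18473300160), (nat_lit 47, nat_lit 18473038017), (nat_lit 23, nat_lit 18456522945), (nat_lit 125, nat_lit 19563294912), (nat_lit 103, nat_lit 19546779840), (nat_lit 106, nat_lit 19546517697), (nat_lit 37, nat_lit 19530264768), (nat_lit 29, nat_lit 19530002625), (nat_lit 15, nat_lit 20620259520), (nat_lit 119, nat_lit 20603744448), (nat_lit 29, nat_lit 20603482305), (nat_lit 13, nat_lit 21677224128)]⟩,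
   ⟨V6_15234511041, [(nat_lit 44, nat_lit 16342593729), (nat_lit 112, nat_lit 17416073409), (nat_lit 102, nat_lit 17399558337), (nat_lit 59, nat_lit 18489553089), (nat_lit 77, nat_lit 18473038017), (nat_lit 84, nat_lit 18456522945), (nat_lit 6, nat_lit 19563032769), (nat_lit 108, nat_lit 19546517697), (nat_lit 86, nat_lit 19530002625), (nat_lit 58, nat_lit 20619997377), (nat_lit 87, nat_lit 20603482305), (nat_lit 70, nat_lit 21676961985)]⟩],
  [W_16325029952, W_16308514880, W_16241930432, W_15251550272]⟩
theorem C_16342593729 : chkRec R_16342593729 = true := by decide +kernel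

noncomputable def R_16342597761 : Rec := ⟨nat_lit 16342597761, nat_lit 42,
  [⟨V6_15235293312, [(nat_lit 95, nat_lit 16342597761), (nat_lit 78, nat_lit 17416339584), (nat_lit 47, nat_lit 17416335489), (nat_lit 116, nat_lit 17399562369), (nat_lit 92, nat_lit 18490077312), (nat_lit 59, nat_lit 18490073217), (nat_lit 89, nat_lit 18473304192), (nat_lit 70, nat_lit 18473300097), (nat_lit 61, nat_lit 18456526977), (nat_lit 36, nat_lit 19563815040), (nat_lit 46, nat_lit 19547041920), (nat_lit 126, nat_lit 19547037825), (nat_lit 52, nat_lit 19530268800), (nat_lit 106, nat_lit 19530264705), (nat_lit 68, nat_lit 20620779648), (nat_lit 74, nat_lit 20604006528), (nat_lit 117, nat_lit 20604002433), (nat_lit 90, nat_lit 21677744256)]⟩,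
   ⟨V6_15235031169, [(nat_lit 105, nat_lit 16342597761), (nat_lit 40, nat_lit 17416335489), (nat_lit 110, nat_lit 17416077441), (nat_lit 88, nat_lit 17399562369), (nat_lit 122, nat_lit 18490073217), (nat_lit 29, nat_lit 18489815169), (nat_lit 84, nat_lit 18473300097), (nat_lit 126, nat_lit 18473042049), (nat_lit 66, nat_lit 18456526977), (nat_lit 30, nat_lit 19563552897), (nat_lit 45, nat_lit 19547037825), (nat_lit 105, nat_lit 19546779777), (nat_lit 54, nat_lit 19530264705), (nat_lit 96, nat_lit 19530006657), (nat_lit 60, nat_lit 20620517505), (nat_lit 88, nat_lit 20604002433), (nat_lit 123, nat_lit 20603744385), (nat_lit 52, nat_lit 21677482113)]⟩],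
  [W_16308514880, W_16291741760, W_15251550272, W_15234777152, W_15218262080, W_15201747008]⟩
theorem C_16342597761 : chkRec R_16342597761 = true := by decide +kernel

noncomputable def R_16342597824 : Rec := ⟨nat_lit 16342597824, nat_lit 58,
  [⟨V6_16325296128, [(nat_lit 14, nat_lit 16342597824), (nat_lit 99, nat_lit 17416339584), (nat_lit 19, nat_lit 17416077504), (nat_lit 52, nat_lit 17399562432), (nat_lit 66, nat_lit 18490081344), (nat_lit 98, nat_lit 18489819264), (nat_lit 100, nat_lit 18489557184), (nat_lit 14, nat_lit 18473304192), (nat_lit 71, nat_lit 18473042112), (nat_lit 24, nat_lit 19563823104), (nat_lit 118, nat_lit 19563561024), (nat_lit 60, nat_lit 19563298944), (nat_lit 57, nat_lit 19547045952), (nat_lit 25, nat_lit 19546783872), (nat_lit 50, nat_lit 19546521792), (nat_lit 115, nat_lit 20637302784), (nat_lit 61, nat_lit 20637040704), (nat_lit 53, nat_lit 20620787712), (nat_lit 71, nat_lit 20620525632), (nat_lit 79, nat_lit 20620263552), (nat_lit 51, nat_lit 21710782464), (nat_lit 20, nat_lit 21694267392), (nat_lit 112, nat_lit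 21694005312), (nat_lit 104, nat_lit 22767747072)]⟩,
   ⟨V6_15268331520, [(nat_lit 7, nat_lit 16342597824), (nat_lit 86, nat_lit 17416339584), (nat_lit 66, nat_lit 17416077504), (nat_lit 29, nat_lit 18490081344), (nat_lit 1, nat_lit 18489819264), (nat_lit 105, nat_lit 18489557184), (nat_lit 110, nat_lit 19563823104), (nat_lit 26, nat_lit 19563561024), (nat_lit 121, nat_lit 19563298944), (nat_lit 39, nat_lit 20637302784), (nat_lit 28, nat_lit 20637040704), (nat_lit 94, nat_lit 21710782464)]⟩,
   ⟨V6_15251816448, [(nat_lit 4, nat_lit 16342597824), (nat_lit 117, nat_lit 17416339584), (nat_lit 47, nat_lit 17416077504), (nat_lit 15, nat_lit 17399562432), (nat_lit 32, nat_lit 18490081344), (nat_lit 39, nat_lit 18489819264), (nat_lit 60, nat_lit 18473304192), (nat_lit 109, nat_lit 18473042112), (nat_lit 84, nat_lit 19563823104), (nat_lit 40, nat_lit 19563561024), (nat_lit 43, nat_lit 19547045952), (nat_lit 52, nat_lit 19546783872), (nat_lit 4, nat_lit 20637302784), (nat_lit 67, nat_lit 20620787712), (nat_lit 108, nat_lit 20620525632), (nat_lit 47,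 nat_lit 21694267392)]⟩],
  [W_16241930432, W_15268327424, W_15235297280, W_15218524160, W_15201747008, W_15184969856]⟩
theorem C_16342597824 : chkRec R_16342597824 = true := by decide +kernel

noncomputable def R_16342601793 : Rec := ⟨nat_lit 16342601793, nat_lit 28,
  [⟨V6_16325808192, [(nat_lit 73, nat_lit 16342601793), (nat_lit 40, nat_lit 17416343616), (nat_lit 28, nat_lit 17416339521), (nat_lit 35, nat_lit 17399566401), (nat_lit 21, nat_lit 18490081344), (nat_lit 28, nat_lit 18490077249), (nat_lit 123, nat_lit 18473308224), (nat_lit 55, nat_lit 18473304129), (nat_lit 6, nat_lit 19563819072), (nat_lit 14, nat_lit 19563814977), (nat_lit 49, nat_lit 19547045952), (nat_lit 114, nat_lit 19547041857), (nat_lit 54, nat_lit 20637556800), (nat_lit 103, nat_lit 20637552705), (nat_lit 126, nat_lit 20620783680), (nat_lit 46, nat_lit 20620779585), (nat_lit 41, nat_lit 21711294528), (nat_lit 93, nat_lit 21694521408), (nat_lit 79, nat_lit 21694517313), (nat_lit 62, nat_lit 22768259136)]⟩],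
  [W_16258453568, W_15218262080, W_15201747008, W_15184973888]⟩
theorem C_16342601793 : chkRec R_16342601793 = true := by decide +kernel

noncomputable def R_16342601856 : Rec := ⟨nat_lit 16342601856, nat_lit 73,
  [⟨V6_16292007936, [(nat_lit 10, nat_lit 16342601856), (nat_lit 105, nat_lit 17416343616), (nat_lit 53, nat_lit 17416081536), (nat_lit 83, nat_lit 17399566464), (nat_lit 18, nat_lit 18490085376), (nat_lit 39, nat_lit 18489823296), (nat_lit 36, nat_lit 18473308224), (nat_lit 49, nat_lit 18473046144), (nat_lit 115, nat_lit 18456531072), (nat_lit 10, nat_lit 19563565056), (nat_lit 45, nat_lit 19547049984), (nat_lit 95, nat_lit 19546787904), (nat_lit 12, nat_lit 19530272832), (nat_lit 79, nat_lit 19530010752), (nat_lit 74, nat_lit 19513495680), (nat_lit 65, nat_lit 20620529664), (nat_lit 78, nat_lit 20604014592), (nat_lit 53, nat_lit 20603752512), (nat_lit 45, nat_lit 20587237440), (nat_lit 27, nat_lit 20586975360), (nat_lit 99, nat_lit 21677494272), (nat_lit 40, nat_lit 21660979200), (nat_lit 62, nat_lit 21660717120), (nat_lit 108, nat_lit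 22734458880)]⟩,
   ⟨V6_15235293312, [(nat_lit 33, nat_lit 16342601856), (nat_lit 112, nat_lit 17416339584), (nat_lit 99, nat_lit 17399566464), (nat_lit 32, nat_lit 18490077312), (nat_lit 34, nat_lit 18473304192), (nat_lit 98, nat_lit 18456531072), (nat_lit 67, nat_lit 19563815040), (nat_lit 33, nat_lit 19547041920), (nat_lit 44, nat_lit 19530268800), (nat_lit 52, nat_lit 20620779648), (nat_lit 27, nat_lit 20604006528), (nat_lit 25, nat_lit 21677744256)]⟩,
   ⟨V6_15235043328, [(nat_lit 33, nat_lit 16342601856), (nat_lit 47, nat_lit 17416343616), (nat_lit 122, nat_lit 17416081536), (nat_lit 104, nat_lit 17399566464), (nat_lit 87, nat_lit 18490085376), (nat_lit 57, nat_lit 18489823296), (nat_lit 9, nat_lit 18473308224), (nat_lit 36, nat_lit 18473046144), (nat_lit 21, nat_lit 18456531072), (nat_lit 41, nat_lit 19563565056), (nat_lit 9, nat_lit 19547049984), (nat_lit 30, nat_lit 19546787904), (nat_lit 1, nat_lit 19530272832), (nat_lit 66, nat_lit 19530010752), (nat_lit 110, nat_lit 20620529664), (nat_lit 56, nat_lit 20604014592), (nat_lit 39, nat_lit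 20603752512), (nat_lit 7, nat_lit 21677494272)]⟩],
  [W_15268585472, W_15251812352, W_15235297280, W_15235039232, W_15218524160, W_15201747008]⟩
theorem C_16342601856 : chkRec R_16342601856 = true := by decide +kernel

noncomputable def R_16342605888 : Rec := ⟨nat_lit 16342605888, nat_lit 49,
  [⟨V6_16258719744, [(nat_lit 2, nat_lit 16342605888), (nat_lit 114, nat_lit 17416347648), (nat_lit 67, nat_lit 17399570496), (nat_lit 18, nat_lit 18473312256), (nat_lit 96, nat_lit 18456535104), (nat_lit 89, nat_lit 19530276864), (nat_lit 81, nat_lit 19513499712), (nat_lit 64, nat_lit 20587241472), (nat_lit 76, nat_lit 20570464320), (nat_lit 84, nat_lit 21644206080), (nat_lit 102, nat_lit 21627428928), (nat_lit 12, nat_lit 22701170688)]⟩,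
   ⟨V6_15201755136, [(nat_lit 22, nat_lit 16342605888), (nat_lit 22, nat_lit 17416347648), (nat_lit 117, nat_lit 17399570496), (nat_lit 107, nat_lit 18473312256), (nat_lit 8, nat_lit 18456535104), (nat_lit 7, nat_lit 19530276864), (nat_lit 51, nat_lit 19513499712), (nat_lit 81, nat_lit 20587241472), (nat_lit 69, nat_lit 20570464320), (nat_lit 33, nat_lit 21644206080)]⟩],
  [W_15268843520, W_15235297280, W_15218524160, W_15201747008]⟩
theorem C_16342605888 : chkRec R_16342605888 = true := by decide +kernel

noncomputable def R_16342851714 : Rec := ⟨nat_lit 16342851714, nat_lit 6,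
  [⟨V6_16341540993, [(nat_lit 38, nat_lit 16342851714), (nat_lit 50, nat_lit 17416593537), (nat_lit 77, nat_lit 17416331394), (nat_lit 19, nat_lit 18490073217), (nat_lit 8, nat_lit 18489811074), (nat_lit 104, nat_lit 19563552897), (nat_lit 50, nat_lit 19563290754), (nat_lit 88, nat_lit 20637032577), (nat_lit 81, nat_lit 20636770434), (nat_lit 85, nat_lit 21710512257), (nat_lit 70, nat_lit 21710250114), (nat_lit 24, nat_lit 22783991937)]⟩,
   ⟨V6_16308248706, [(nat_lit 90, nat_lit 16342851714), (nat_lit 124, nat_lit 17416331394), (nat_lit 74, nat_lit 17399816322), (nat_lit 72, nat_lit 18489811074), (nat_lit 121, nat_lit 18473296002), (nat_lit 97, nat_lit 18456780930), (nat_lit 115, nat_lit 19563290754), (nat_lit 95, nat_lit 19546775682), (nat_lit 81, nat_lit 19530260610), (nat_lit 13, nat_lit 20636770434), (nat_lit 114, nat_lit 20620255362), (nat_lit 76, nat_lit 20603740290), (nat_lit 3, nat_lit 21693735042), (nat_lit 39, nat_lit 21677219970), (nat_lit 14, nat_lit 22750699650)]⟩,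
   ⟨V6_16291733634, [(nat_lit 91, nat_lit 16342851714), (nat_lit 96, nat_lit 17416331394), (nat_lit 99, nat_lit 17399816322), (nat_lit 26, nat_lit 18489811074), (nat_lit 10, nat_lit 18473296002), (nat_lit 30, nat_lit 18456780930), (nat_lit 96, nat_lit 19563290754), (nat_lit 97, nat_lit 19546775682), (nat_lit 124, nat_lit 19530260610), (nat_lit 115, nat_lit 19513745538), (nat_lit 16, nat_lit 20620255362), (nat_lit 118, nat_lit 20603740290), (nat_lit 68, nat_lit 20587225218), (nat_lit 109, nat_lit 21677219970), (nat_lit 113, nat_lit 21660704898), (nat_lit 28, nat_lit 22734184578)]⟩],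
  [W_15268061312, W_15202001024]⟩
theorem C_16342851714 : chkRec R_16342851714 = true := by decide +kernel

noncomputable def R_16342855809 : Rec := ⟨nat_lit 16342855809, nat_lit 40,
  [⟨V6_15235293312, [(nat_lit 109, nat_lit 16342855809), (nat_lit 17, nat_lit 17416597632), (nat_lit 6, nat_lit 17416593537), (nat_lit 84, nat_lit 17416335489), (nat_lit 47, nat_lit 17399820417), (nat_lit 25, nat_lit 18490335360), (nat_lit 107, nat_lit 18490077312), (nat_lit 119, nat_lit 18490073217), (nat_lit 106, nat_lit 18473562240), (nat_lit 49, nat_lit 18473558145), (nat_lit 50, nat_lit 18473300097), (nat_lit 114, nat_lit 18456785025), (nat_lit 125, nat_lit 19563815040), (nat_lit 95, nat_lit 19547299968), (nat_lit 50, nat_lit 19547041920), (nat_lit 23, nat_lit 19547037825), (nat_lit 117, nat_lit 19530526848), (nat_lit 105, nat_lit 19530522753), (nat_lit 88, nat_lit 19530264705), (nat_lit 33, nat_lit 20620779648), (nat_lit 8, nat_lit 20604264576), (nat_lit 49, nat_lit 20604006528), (nat_lit 90, nat_lit 20604002433), (nat_lit 65, nat_lit 21677744256)]⟩],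
  [W_16341803072, W_16325288000, W_16325029952, W_16308514880, W_16308252800, W_15268323392, W_15268061312, W_15251808320, W_15251550272, W_15202001024]⟩
theorem C_16342855809 : chkRec R_16342855809 = true := by decide +kernel

noncomputable def R_16342855872 : Rec := ⟨nat_lit 16342855872, nat_lit 39,
  [⟨V6_16342069248, [(nat_lit 109, nat_lit 16342855872), (nat_lit 3, nat_lit 17416597632), (nat_lit 39, nat_lit 17416335552), (nat_lit 77, nat_lit 18490339392), (nat_lit 55, nat_lit 18490077312), (nat_lit 19, nat_lit 18489815232), (nat_lit 60, nat_lit 19564081152), (nat_lit 82, nat_lit 19563819072), (nat_lit 110, nat_lit 19563556992), (nat_lit 107, nat_lit 19563294912), (nat_lit 73, nat_lit 20637560832), (nat_lit 107, nat_lit 20637298752), (nat_lit 28, nat_lit 20637036672), (nat_lit 39, nat_lit 21711040512), (nat_lit 114, nat_lit 21710778432), (nat_lit 103, nat_lit 22784520192)]⟩,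
   ⟨V6_15268589568, [(nat_lit 10, nat_lit 16342855872), (nat_lit 72, nat_lit 17416597632), (nat_lit 114, nat_lit 17416335552), (nat_lit 45, nat_lit 18490339392), (nat_lit 30, nat_lit 18490077312), (nat_lit 51, nat_lit 18489815232), (nat_lit 15, nat_lit 19564081152), (nat_lit 37, nat_lit 19563819072), (nat_lit 85, nat_lit 19563556992), (nat_lit 30, nat_lit 20637560832), (nat_lit 28, nat_lit 20637298752), (nat_lit 121, nat_lit 21711040512)]⟩,
   ⟨V6_15234773184, [(nat_lit 79, nat_lit 16342855872), (nat_lit 123, nat_lit 17416335552), (nat_lit 44, nat_lit 17399820480), (nat_lit 12, nat_lit 18489815232), (nat_lit 81, nat_lit 18473300160), (nat_lit 75, nat_lit 18456785088), (nat_lit 52, nat_lit 19563294912), (nat_lit 54, nat_lit 19546779840), (nat_lit 30, nat_lit 19530264768), (nat_lit 17, nat_lit 20620259520), (nat_lit 107, nat_lit 20603744448), (nat_lit 73, nat_lit 21677224128)]⟩],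
  [W_16325292032, W_16242192512, W_16241930432, W_15251812352, W_15235297280, W_15168450752]⟩
theorem C_16342855872 : chkRec R_16342855872 = true := by decide +kernel

noncomputable def R_16342859841 : Rec := ⟨nat_lit 16342859841, nat_lit 43,
  [⟨V6_16291741761, [(nat_lit 91, nat_lit 16342859841), (nat_lit 96, nat_lit 17416339521), (nat_lit 99, nat_lit 17399824449), (nat_lit 26, nat_lit 18489819201), (nat_lit 10, nat_lit 18473304129), (nat_lit 30, nat_lit 18456789057), (nat_lit 96, nat_lit 19563298881), (nat_lit 97, nat_lit 19546783809), (nat_lit 124, nat_lit 19530268737), (nat_lit 115, nat_lit 19513753665), (nat_lit 16, nat_lit 20620263489), (nat_lit 118, nat_lit 20603748417), (nat_lit 68, nat_lit 20587233345), (nat_lit 109, nat_lit 21677228097), (nat_lit 113, nat_lit 21660713025), (nat_lit 28, nat_lit 22734192705)]⟩,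
   ⟨V6_15268843584, [(nat_lit 82, nat_lit 16342859841), (nat_lit 116, nat_lit 17416601664), (nat_lit 118, nat_lit 17416597569), (nat_lit 112, nat_lit 17416339521), (nat_lit 3, nat_lit 18490339392), (nat_lit 119, nat_lit 18490335297), (nat_lit 109, nat_lit 18490081344), (nat_lit 73, nat_lit 18490077249), (nat_lit 48, nat_lit 19564077120), (nat_lit 74, nat_lit 19564073025), (nat_lit 123, nat_lit 19563819072), (nat_lit 77, nat_lit 19563814977), (nat_lit 72, nat_lit 20637814848), (nat_lit 18, nat_lit 20637556800), (nat_lit 4, nat_lit 20637552705), (nat_lit 6, nat_lit 21711294528)]⟩,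
   ⟨V6_15268581441, [(nat_lit 76, nat_lit 16342859841), (nat_lit 79, nat_lit 17416597569), (nat_lit 71, nat_lit 17416339521), (nat_lit 76, nat_lit 18490335297), (nat_lit 15, nat_lit 18490077249), (nat_lit 89, nat_lit 18489819201), (nat_lit 10, nat_lit 19564073025), (nat_lit 93, nat_lit 19563814977), (nat_lit 105, nat_lit 19563556929), (nat_lit 25, nat_lit 20637552705), (nat_lit 34, nat_lit 20637294657), (nat_lit 11, nat_lit 21711032385)]⟩,
   ⟨V6_15252328512, [(nat_lit 21, nat_lit 16342859841), (nat_lit 116, nat_lit 17416601664), (nat_lit 39, nat_lit 17416597569), (nat_lit 114, nat_lit 17399824449), (nat_lit 46, nat_lit 18490339392), (nat_lit 40, nat_lit 18490335297), (nat_lit 73, nat_lit 18473566272), (nat_lit 73, nat_lit 18473562177), (nat_lit 97, nat_lit 19564077120), (nat_lit 5, nat_lit 19564073025), (nat_lit 35, nat_lit 19547304000), (nat_lit 35, nat_lit 19547299905), (nat_lit 95, nat_lit 20637814848), (nat_lit 15, nat_lit 20621041728), (nat_lit 120, nat_lit 20621037633), (nat_lit 76, nat_lit 21694779456)]⟩],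
  [W_16292515904, W_16242196544, W_15234777152, W_15201747008, W_15185231936]⟩
theorem C_16342859841 : chkRec R_16342859841 = true := by decide +kernel

noncomputable def R_16342859904 : Rec := ⟨nat_lit 16342859904, nat_lit 112,
  [⟨V6_16308518976, [(nat_lit 125, nat_lit 16342859904), (nat_lit 43, nat_lit 17416601664), (nat_lit 69, nat_lit 17416339584), (nat_lit 66, nat_lit 17399824512), (nat_lit 85, nat_lit 18490081344), (nat_lit 109, nat_lit 18489819264), (nat_lit 38, nat_lit 18473566272), (nat_lit 118, nat_lit 18473304192), (nat_lit 47, nat_lit 18456789120), (nat_lit 19, nat_lit 19563561024), (nat_lit 78, nat_lit 19563298944), (nat_lit 108, nat_lit 19547045952), (nat_lit 5, nat_lit 19546783872), (nat_lit 66, nat_lit 19530530880), (nat_lit 40, nat_lit 19530268800), (nat_lit 43, nat_lit 20637040704), (nat_lit 29, nat_lit 20620525632), (nat_lit 29, nat_lit 20620263552), (nat_lit 6, nat_lit 20604010560), (nat_lit 121, nat_lit 20603748480), (nat_lit 117, nat_lit 21694005312), (nat_lit 76, nat_lit 21677490240), (nat_lit 67, nat_lit 21677228160),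 (nat_lit 72, nat_lit 22750969920)]⟩,
   ⟨V6_16291741824, [(nat_lit 24, nat_lit 16342859904), (nat_lit 63, nat_lit 17416339584), (nat_lit 61, nat_lit 17399824512), (nat_lit 25, nat_lit 18489819264), (nat_lit 78, nat_lit 18473304192), (nat_lit 107, nat_lit 18456789120), (nat_lit 63, nat_lit 19563298944), (nat_lit 20, nat_lit 19546783872), (nat_lit 2, nat_lit 19530268800), (nat_lit 8, nat_lit 19513753728), (nat_lit 74, nat_lit 20620263552), (nat_lit 6, nat_lit 20603748480), (nat_lit 124, nat_lit 20587233408), (nat_lit 12, nat_lit 21677228160), (nat_lit 94, nat_lit 21660713088), (nat_lit 66, nat_lit 22734192768)]⟩,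
   ⟨V6_15268331520, [(nat_lit 104, nat_lit 16342859904), (nat_lit 104, nat_lit 17416601664), (nat_lit 33, nat_lit 17416339584), (nat_lit 1, nat_lit 18490343424), (nat_lit 121, nat_lit 18490081344), (nat_lit 48, nat_lit 18489819264), (nat_lit 66, nat_lit 19563823104), (nat_lit 25, nat_lit 19563561024), (nat_lit 110, nat_lit 19563298944), (nat_lit 50, nat_lit 20637302784), (nat_lit 33, nat_lit 20637040704), (nat_lit 57, nat_lit 21710782464)]⟩,
   ⟨V6_15252332544, [(nat_lit 90, nat_lit 16342859904), (nat_lit 49, nat_lit 17416601664), (nat_lit 58, nat_lit 17416597632), (nat_lit 45, nat_lit 17399824512), (nat_lit 55, nat_lit 18490343424), (nat_lit 26, nat_lit 18490339392), (nat_lit 2, nat_lit 18490335360), (nat_lit 102, nat_lit 18473566272), (nat_lit 7, nat_lit 18473562240), (nat_lit 51, nat_lit 19564081152), (nat_lit 99, nat_lit 19564077120), (nat_lit 32, nat_lit 19547308032), (nat_lit 75, nat_lit 19547304000), (nat_lit 34, nat_lit 19547299968), (nat_lit 53, nat_lit 20637818880), (nat_lit 50, nat_lit 20621045760), (nat_lit 14, nat_lit 20621041728),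 (nat_lit 74, nat_lit 21694783488)]⟩],
  [W_16342065152, W_16242196544, W_15268585472, W_15268327424, W_15235297280, W_15218524160, W_15202009088, W_15202001024, W_15201747008, W_15185231936, W_15168454784]⟩
theorem C_16342859904 : chkRec R_16342859904 = true := by decide +kernel

noncomputable def R_16342863936 : Rec := ⟨nat_lit 16342863936, nat_lit 109,
  [⟨V6_16292007936, [(nat_lit 42, nat_lit 16342863936), (nat_lit 38, nat_lit 17416605696), (nat_lit 43, nat_lit 17416343616), (nat_lit 71, nat_lit 17399828544), (nat_lit 76, nat_lit 18490085376), (nat_lit 114, nat_lit 18489823296), (nat_lit 68, nat_lit 18473570304), (nat_lit 15, nat_lit 18473308224), (nat_lit 83, nat_lit 18456793152), (nat_lit 27, nat_lit 19563565056), (nat_lit 118, nat_lit 19547049984), (nat_lit 65, nat_lit 19546787904), (nat_lit 71, nat_lit 19530534912), (nat_lit 16, nat_lit 19530272832), (nat_lit 47, nat_lit 19513757760), (nat_lit 111, nat_lit 20620529664), (nat_lit 72, nat_lit 20604014592), (nat_lit 100, nat_lit 20603752512), (nat_lit 59, nat_lit 20587499520), (nat_lit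 86, nat_lit 20587237440), (nat_lit 126, nat_lit 21677494272), (nat_lit 92, nat_lit 21660979200), (nat_lit 87, nat_lit 21660717120), (nat_lit 40, nat_lit 22734458880)]⟩,
   ⟨V6_15269105664, [(nat_lit 112, nat_lit 16342863936), (nat_lit 123, nat_lit 17416605696), (nat_lit 98, nat_lit 17416601664), (nat_lit 126, nat_lit 18490343424), (nat_lit 63, nat_lit 18490339392), (nat_lit 61, nat_lit 19564081152), (nat_lit 78, nat_lit 19564077120), (nat_lit 26, nat_lit 20637818880), (nat_lit 118, nat_lit 20637814848), (nat_lit 123, nat_lit 21711556608)]⟩,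
   ⟨V6_15268843584, [(nat_lit 6, nat_lit 16342863936), (nat_lit 77, nat_lit 17416601664), (nat_lit 104, nat_lit 17416343616), (nat_lit 17, nat_lit 18490339392), (nat_lit 41, nat_lit 18490081344), (nat_lit 9, nat_lit 19564077120), (nat_lit 125, nat_lit 19563819072), (nat_lit 102, nat_lit 20637814848), (nat_lit 68, nat_lit 20637556800), (nat_lit 96, nat_lit 21711294528)]⟩,
   ⟨V6_15252332544, [(nat_lit 111, nat_lit 16342863936), (nat_lit 119, nat_lit 17416605696), (nat_lit 2, nat_lit 17416601664), (nat_lit 38, nat_lit 17399828544), (nat_lit 91, nat_lit 18490343424), (nat_lit 28, nat_lit 18490339392), (nat_lit 38, nat_lit 18473570304), (nat_lit 5, nat_lit 18473566272), (nat_lit 72, nat_lit 19564081152), (nat_lit 16, nat_lit 19564077120), (nat_lit 74, nat_lit 19547308032), (nat_lit 122, nat_lit 19547304000), (nat_lit 10, nat_lit 20637818880), (nat_lit 65, nat_lit 20621045760), (nat_lit 90, nat_lit 20621041728), (nat_lit 49, nat_lit 21694783488)]⟩,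
   ⟨V6_15252328512, [(nat_lit 106, nat_lit 16342863936), (nat_lit 77, nat_lit 17416601664), (nat_lit 125, nat_lit 17399828544), (nat_lit 49, nat_lit 18490339392), (nat_lit 97, nat_lit 18473566272), (nat_lit 42, nat_lit 19564077120), (nat_lit 36, nat_lit 19547304000), (nat_lit 124, nat_lit 20637814848), (nat_lit 44, nat_lit 20621041728), (nat_lit 103, nat_lit 21694779456)]⟩],
  [W_16242196544, W_16225423424, W_15268585472, W_15251812352, W_15235297280, W_15235039232, W_15218524160, W_15202009088, W_15201747008, W_15185231936]⟩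
theorem C_16342863936 : chkRec R_16342863936 = true := by decide +kernel

noncomputable def R_16342867968 : Rec := ⟨nat_lit 16342867968, nat_lit 59,
  [⟨V6_16242204672, [(nat_lit 80, nat_lit 16342867968), (nat_lit 61, nat_lit 17399832576), (nat_lit 92, nat_lit 18456797184), (nat_lit 122, nat_lit 19513761792), (nat_lit 19, nat_lit 20570726400), (nat_lit 8, nat_lit 21627691008), (nat_lit 20, nat_lit 22684655616)]⟩,
   ⟨V6_15269105664, [(nat_lit 126, nat_lit 16342867968), (nat_lit 14, nat_lit 17416605696), (nat_lit 103, nat_lit 18490343424), (nat_lit 97, nat_lit 19564081152), (nat_lit 29, nat_lit 20637818880), (nat_lit 92, nat_lit 21711556608)]⟩,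
   ⟨V6_15201755136, [(nat_lit 5, nat_lit 16342867968), (nat_lit 73, nat_lit 17416347648), (nat_lit 56, nat_lit 17399832576), (nat_lit 46, nat_lit 18473312256), (nat_lit 79, nat_lit 18456797184), (nat_lit 55, nat_lit 19530276864), (nat_lit 124, nat_lit 19513761792), (nat_lit 126, nat_lit 20587241472), (nat_lit 26, nat_lit 20570726400), (nat_lit 69, nat_lit 21644206080)]⟩],
  [W_15269101568, W_15268843520, W_15235297280, W_15218524160, W_15202009088]⟩
theorem C_16342867968 : chkRec R_16342867968 = true := by decide +kernel

noncomputable def R_16343113857 : Rec := ⟨nat_lit 16343113857, nat_lit 24,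
  [⟨V6_15202263168, [(nat_lit 104, nat_lit 16343113857), (nat_lit 36, nat_lit 17416855680), (nat_lit 25, nat_lit 17400078465), (nat_lit 76, nat_lit 18473820288), (nat_lit 117, nat_lit 18457043073), (nat_lit 117, nat_lit 19530784896), (nat_lit 72, nat_lit 19514007681), (nat_lit 95, nat_lit 20587749504), (nat_lit 96, nat_lit 20570972289), (nat_lit 9, nat_lit 21644714112)]⟩],
  [W_16341803072, W_16341540992, W_16325288000, W_16242450560, W_15268323392, W_15251808320]⟩
theorem C_16343113857 : chkRec R_16343113857 = true := by decide +kernel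

noncomputable def R_16343117889 : Rec := ⟨nat_lit 16343117889, nat_lit 40,
  [⟨V6_16259231808, [(nat_lit 116, nat_lit 16343117889), (nat_lit 103, nat_lit 17416859712), (nat_lit 121, nat_lit 17400082497), (nat_lit 85, nat_lit 18473824320), (nat_lit 81, nat_lit 18457047105), (nat_lit 118, nat_lit 19530788928), (nat_lit 2, nat_lit 19514011713), (nat_lit 44, nat_lit 20587753536), (nat_lit 49, nat_lit 20570976321), (nat_lit 104, nat_lit 21644718144), (nat_lit 116, nat_lit 21627940929), (nat_lit 46, nat_lit 22701682752)]⟩],
  [W_16342061120, W_16341803072, W_16325546048, W_16325029952, W_16292515904, W_15268581440, W_15268323392, W_15251808320, W_15235551296]⟩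
theorem C_16343117889 : chkRec R_16343117889 = true := by decide +kernel

noncomputable def R_16343117952 : Rec := ⟨nat_lit 16343117952, nat_lit 96,
  [⟨V6_16276008960, [(nat_lit 11, nat_lit 16343117952), (nat_lit 108, nat_lit 17416859712), (nat_lit 74, nat_lit 17400082560), (nat_lit 102, nat_lit 18490601472), (nat_lit 35, nat_lit 18473824320), (nat_lit 50, nat_lit 18457047168), (nat_lit 52, nat_lit 19547566080), (nat_lit 72, nat_lit 19530788928), (nat_lit 106, nat_lit 19514011776), (nat_lit 123, nat_lit 20604530688), (nat_lit 28, nat_lit 20587753536), (nat_lit 103, nat_lit 20570976384), (nat_lit 42, nat_lit 21661495296), (nat_lit 34, nat_lit 21644718144), (nat_lit 108, nat_lit 22718459904)]⟩,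
   ⟨V6_15235817472, [(nat_lit 110, nat_lit 16343117952), (nat_lit 94, nat_lit 17416859712), (nat_lit 96, nat_lit 17416855680), (nat_lit 82, nat_lit 17400082560), (nat_lit 93, nat_lit 18490601472), (nat_lit 114, nat_lit 18490597440), (nat_lit 121, nat_lit 18473824320), (nat_lit 71, nat_lit 18473820288), (nat_lit 23, nat_lit 18457047168), (nat_lit 34, nat_lit 19564339200), (nat_lit 80, nat_lit 19547566080), (nat_lit 86, nat_lit 19547562048), (nat_lit 95, nat_lit 19530788928), (nat_lit 29, nat_lit 19530784896), (nat_lit 107, nat_lit 20621303808), (nat_lit 102, nat_lit 20604530688), (nat_lit 64, nat_lit 20604526656), (nat_lit 88, nat_lit 21678268416)]⟩],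
  [W_16342065152, W_16341807104, W_16341803072, W_16325292032, W_16325029952, W_16325025920, W_16308514880, W_16308252800, W_16242454592, W_16242450560, W_15268585472, W_15268327424, W_15268061312, W_15251812352, W_15251546240, W_15235297280, W_15202001024, W_15185485952, W_15168712832]⟩
theorem C_16343117952 : chkRec R_16343117952 = true := by decide +kernel

noncomputable def R_16343121984 : Rec := ⟨nat_lit 16343121984, nat_lit 139,
  [⟨V6_16325296128, [(nat_lit 53, nat_lit 16343121984), (nat_lit 95, nat_lit 17416863744), (nat_lit 36, nat_lit 17416601664), (nat_lit 99, nat_lit 17400086592), (nat_lit 24, nat_lit 18490343424), (nat_lit 26, nat_lit 18490081344), (nat_lit 41, nat_lit 18473828352), (nat_lit 98, nat_lit 18473566272), (nat_lit 25, nat_lit 19563823104), (nat_lit 30, nat_lit 19563561024), (nat_lit 46, nat_lit 19547308032), (nat_lit 28, nat_lit 19547045952), (nat_lit 96, nat_lit 20637302784), (nat_lit 66, nat_lit 20637040704), (nat_lit 5, nat_lit 20620787712), (nat_lit 84, nat_lit 20620525632), (nat_lit 30, nat_lit 21710782464), (nat_lit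 55, nat_lit 21694267392), (nat_lit 102, nat_lit 21694005312), (nat_lit 35, nat_lit 22767747072)]⟩,
   ⟨V6_16308518976, [(nat_lit 51, nat_lit 16343121984), (nat_lit 14, nat_lit 17416601664), (nat_lit 2, nat_lit 17400086592), (nat_lit 3, nat_lit 18490081344), (nat_lit 90, nat_lit 18473566272), (nat_lit 94, nat_lit 18457051200), (nat_lit 95, nat_lit 19563561024), (nat_lit 17, nat_lit 19547045952), (nat_lit 51, nat_lit 19530530880), (nat_lit 2, nat_lit 20637040704), (nat_lit 45, nat_lit 20620525632), (nat_lit 96, nat_lit 20604010560), (nat_lit 52, nat_lit 21694005312), (nat_lit 97, nat_lit 21677490240), (nat_lit 3, nat_lit 22750969920)]⟩,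
   ⟨V6_15268331520, [(nat_lit 116, nat_lit 16343121984), (nat_lit 53, nat_lit 17416863744), (nat_lit 25, nat_lit 17416601664), (nat_lit 114, nat_lit 18490343424), (nat_lit 73, nat_lit 18490081344), (nat_lit 104, nat_lit 19563823104), (nat_lit 125, nat_lit 19563561024), (nat_lit 69, nat_lit 20637302784), (nat_lit 99, nat_lit 20637040704), (nat_lit 3, nat_lit 21710782464)]⟩,
   ⟨V6_15235817472, [(nat_lit 15, nat_lit 16343121984), (nat_lit 104, nat_lit 17416863744), (nat_lit 47, nat_lit 17416859712), (nat_lit 22, nat_lit 17400086592), (nat_lit 49, nat_lit 18490601472), (nat_lit 46, nat_lit 18490597440), (nat_lit 68, nat_lit 18473828352), (nat_lit 87, nat_lit 18473824320), (nat_lit 10, nat_lit 18457051200), (nat_lit 83, nat_lit 19564339200), (nat_lit 49, nat_lit 19547566080), (nat_lit 101, nat_lit 19547562048), (nat_lit 103, nat_lit 19530792960), (nat_lit 24, nat_lit 19530788928), (nat_lit 116, nat_lit 20621303808), (nat_lit 30, nat_lit 20604530688), (nat_lit 115, nat_lit 20604526656), (nat_lit 126, nat_lit 21678268416)]⟩,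
   ⟨V6_15235813440, [(nat_lit 27, nat_lit 16343121984), (nat_lit 5, nat_lit 17416859712), (nat_lit 41, nat_lit 17400086592), (nat_lit 83, nat_lit 18490597440), (nat_lit 26, nat_lit 18473824320), (nat_lit 62, nat_lit 18457051200), (nat_lit 89, nat_lit 19564335168), (nat_lit 19, nat_lit 19547562048), (nat_lit 16, nat_lit 19530788928), (nat_lit 13, nat_lit 20621299776), (nat_lit 115, nat_lit 20604526656), (nat_lit 18, nat_lit 21678264384)]⟩],
  [W_16342065152, W_16276000832, W_16242458624, W_16242454592, W_16242196544, W_15268843520, W_15268585472, W_15268327424, W_15235297280, W_15218524160, W_15202009088, W_15201747008, W_15185494016, W_15185231936, W_15168716864]⟩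
theorem C_16343121984 : chkRec R_16343121984 = true := by decide +kernel

noncomputable def R_16343126016 : Rec := ⟨nat_lit 16343126016, nat_lit 96,
  [⟨V6_16242462720, [(nat_lit 97, nat_lit 16343126016), (nat_lit 120, nat_lit 17400090624), (nat_lit 29, nat_lit 18457055232), (nat_lit 113, nat_lit 19514019840), (nat_lit 104, nat_lit 20570984448), (nat_lit 124, nat_lit 21627949056), (nat_lit 56, nat_lit 22684913664)]⟩,
   ⟨V6_15269105664, [(nat_lit 53, nat_lit 16343126016), (nat_lit 27, nat_lit 17416863744), (nat_lit 93, nat_lit 17416605696), (nat_lit 104, nat_lit 18490601472), (nat_lit 86, nat_lit 18490343424), (nat_lit 20, nat_lit 19564339200), (nat_lit 55, nat_lit 19564081152), (nat_lit 88, nat_lit 20638076928), (nat_lit 36, nat_lit 20637818880), (nat_lit 22, nat_lit 21711556608)]⟩,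
   ⟨V6_15235817472, [(nat_lit 79, nat_lit 16343126016), (nat_lit 68, nat_lit 17416863744), (nat_lit 110, nat_lit 17400090624), (nat_lit 92, nat_lit 18490601472), (nat_lit 66, nat_lit 18473828352), (nat_lit 123, nat_lit 18457055232), (nat_lit 18, nat_lit 19564339200), (nat_lit 79, nat_lit 19547566080), (nat_lit 63, nat_lit 19530792960), (nat_lit 86, nat_lit 20621303808), (nat_lit 30, nat_lit 20604530688), (nat_lit 56, nat_lit 21678268416)]⟩],
  [W_16275230720, W_16242458624, W_15269101568, W_15268585472, W_15251812352, W_15235297280, W_15235039232, W_15218524160, W_15202009088]⟩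
theorem C_16343126016 : chkRec R_16343126016 = true := by decide +kernel

noncomputable def R_16343375937 : Rec := ⟨nat_lit 16343375937, nat_lit 26,
  [⟨V6_16276262976, [(nat_lit 41, nat_lit 16343375937), (nat_lit 80, nat_lit 17417117760), (nat_lit 81, nat_lit 17417113665), (nat_lit 67, nat_lit 17400340545), (nat_lit 57, nat_lit 18490855488), (nat_lit 120, nat_lit 18474082368), (nat_lit 10, nat_lit 18474078273), (nat_lit 29, nat_lit 18457305153), (nat_lit 41, nat_lit 19547820096), (nat_lit 11, nat_lit 19531046976), (nat_lit 57, nat_lit 19531042881), (nat_lit 54, nat_lit 19514269761), (nat_lit 61, nat_lit 20604784704), (nat_lit 96, nat_lit 20588011584), (nat_lit 75, nat_lit 20588007489), (nat_lit 52, nat_lit 20571234369), (nat_lit 23, nat_lit 21661749312), (nat_lit 44, nat_lit 21644976192), (nat_lit 74, nat_lit 21644972097), (nat_lit 68, nat_lit 22718713920)]⟩,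
   ⟨V6_15185748033, [(nat_lit 80, nat_lit 16343375937), (nat_lit 36, nat_lit 17400340545), (nat_lit 91, nat_lit 18457305153), (nat_lit 47, nat_lit 19514269761), (nat_lit 69, nat_lit 20571234369), (nat_lit 99, nat_lit 21628198977)]⟩],
  [W_16342061120, W_16341803072, W_16325546048, W_16292515904, W_15268323392, W_15185748032]⟩
theorem C_16343375937 : chkRec R_16343375937 = true := by decide +kernel

noncomputable def R_16343376000 : Rec := ⟨nat_lit 16343376000, nat_lit 51,
  [⟨V6_15219302400, [(nat_lit 110, nat_lit 16343376000), (nat_lit 27, nat_lit 17417117760), (nat_lit 87, nat_lit 17400340608), (nat_lit 94, nat_lit 18490859520), (nat_lit 39, nat_lit 18474082368), (nat_lit 41, nat_lit 18457305216), (nat_lit 74, nat_lit 19547824128), (nat_lit 3, nat_lit 19531046976), (nat_lit 98, nat_lit 19514269824), (nat_lit 55, nat_lit 20604788736), (nat_lit 56, nat_lit 20588011584), (nat_lit 93, nat_lit 21661753344)]⟩,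
   ⟨V6_15202263168, [(nat_lit 107, nat_lit 16343376000), (nat_lit 24, nat_lit 17416855680), (nat_lit 17, nat_lit 17400340608), (nat_lit 114, nat_lit 18473820288), (nat_lit 99, nat_lit 18457305216), (nat_lit 36, nat_lit 19530784896), (nat_lit 14, nat_lit 19514269824), (nat_lit 57, nat_lit 20587749504), (nat_lit 11, nat_lit 20571234432), (nat_lit 81, nat_lit 21644714112)]⟩],
  [W_16342065152, W_16341803072, W_16341540992, W_16325550080, W_16325025920, W_16259489792, W_15268585472, W_15268061312, W_15202525184]⟩
theorem C_16343376000 : chkRec R_16343376000 = true := by decide +kernel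

noncomputable def R_16343380032 : Rec := ⟨nat_lit 16343380032, nat_lit 111,
  [⟨V6_16276267008, [(nat_lit 12, nat_lit 16343380032), (nat_lit 1, nat_lit 17417121792), (nat_lit 58, nat_lit 17417117760), (nat_lit 22, nat_lit 17400344640), (nat_lit 61, nat_lit 18490859520), (nat_lit 46, nat_lit 18474086400), (nat_lit 16, nat_lit 18474082368), (nat_lit 73, nat_lit 18457309248), (nat_lit 3, nat_lit 19547824128), (nat_lit 4, nat_lit 19531051008), (nat_lit 16, nat_lit 19531046976), (nat_lit 65, nat_lit 19514273856), (nat_lit 41, nat_lit 20604788736), (nat_lit 3, nat_lit 20588015616), (nat_lit 48, nat_lit 20588011584), (nat_lit 21, nat_lit 20571238464), (nat_lit 108, nat_lit 21661753344), (nat_lit 74, nat_lit 21644980224), (nat_lit 13, nat_lit 21644976192), (nat_lit 47, nat_lit 22718717952)]⟩,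
   ⟨V6_16276008960, [(nat_lit 118, nat_lit 16343380032), (nat_lit 99, nat_lit 17417121792), (nat_lit 113, nat_lit 17416859712), (nat_lit 125, nat_lit 17400344640), (nat_lit 85, nat_lit 18490601472), (nat_lit 44, nat_lit 18474086400), (nat_lit 73, nat_lit 18473824320), (nat_lit 74, nat_lit 18457309248), (nat_lit 57, nat_lit 19547566080), (nat_lit 18, nat_lit 19531051008), (nat_lit 81, nat_lit 19530788928), (nat_lit 56, nat_lit 19514273856), (nat_lit 38, nat_lit 20604530688), (nat_lit 75, nat_lit 20588015616), (nat_lit 29, nat_lit 20587753536), (nat_lit 69, nat_lit 20571238464), (nat_lit 56, nat_lit 21661495296), (nat_lit 18, nat_lit 21644980224), (nat_lit 11, nat_lit 21644718144), (nat_lit 71, nat_lit 22718459904)]⟩],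
  [W_16342065152, W_16342061120, W_16341807104, W_16341803072, W_16325546048, W_16325292032, W_16325029952, W_16308514880, W_16259485760, W_15268843520, W_15268585472, W_15268581440, W_15268327424, W_15268323392, W_15251812352, W_15235551296, W_15235297280, W_15219298304, W_15202521152]⟩
theorem C_16343380032 : chkRec R_16343380032 = true := by decide +kernel

noncomputable def R_16343384064 : Rec := ⟨nat_lit 16343384064, nat_lit 99,
  [⟨V6_16326328320, [(nat_lit 110, nat_lit 16343384064), (nat_lit 72, nat_lit 17417121792), (nat_lit 79, nat_lit 17416863744), (nat_lit 107, nat_lit 17400348672), (nat_lit 12, nat_lit 18490859520), (nat_lit 90, nat_lit 18490601472), (nat_lit 90, nat_lit 18474086400), (nat_lit 102, nat_lit 18473828352), (nat_lit 91, nat_lit 19564597248), (nat_lit 55, nat_lit 19564339200), (nat_lit 99, nat_lit 19547824128), (nat_lit 25, nat_lit 19547566080), (nat_lit 119, nat_lit 20638334976), (nat_lit 38, nat_lit 20638076928), (nat_lit 18, nat_lit 20621561856), (nat_lit 122, nat_lit 20621303808), (nat_lit 53, nat_lit 21711814656),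 (nat_lit 97, nat_lit 21695299584), (nat_lit 24, nat_lit 21695041536), (nat_lit 23, nat_lit 22768779264)]⟩,
   ⟨V6_16325296128, [(nat_lit 113, nat_lit 16343384064), (nat_lit 113, nat_lit 17416863744), (nat_lit 3, nat_lit 17400348672), (nat_lit 47, nat_lit 18490343424), (nat_lit 43, nat_lit 18473828352), (nat_lit 29, nat_lit 19563823104), (nat_lit 18, nat_lit 19547308032), (nat_lit 7, nat_lit 20637302784), (nat_lit 124, nat_lit 20620787712), (nat_lit 102, nat_lit 21710782464), (nat_lit 6, nat_lit 21694267392), (nat_lit 118, nat_lit 22767747072)]⟩,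
   ⟨V6_16308781056, [(nat_lit 114, nat_lit 16343384064), (nat_lit 12, nat_lit 17416863744), (nat_lit 43, nat_lit 17400348672), (nat_lit 61, nat_lit 18490343424), (nat_lit 27, nat_lit 18473828352), (nat_lit 44, nat_lit 18457313280), (nat_lit 30, nat_lit 19563823104), (nat_lit 27, nat_lit 19547308032), (nat_lit 110, nat_lit 19530792960), (nat_lit 7, nat_lit 20637302784), (nat_lit 70, nat_lit 20620787712), (nat_lit 95, nat_lit 20604272640), (nat_lit 34, nat_lit 21694267392), (nat_lit 116, nat_lit 21677752320), (nat_lit 38, nat_lit 22751232000)]⟩,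
   ⟨V6_15269105664, [(nat_lit 10, nat_lit 16343384064), (nat_lit 25, nat_lit 17417121792), (nat_lit 19, nat_lit 17416863744), (nat_lit 32, nat_lit 18490859520), (nat_lit 67, nat_lit 18490601472), (nat_lit 125, nat_lit 18490343424), (nat_lit 105, nat_lit 19564597248), (nat_lit 74, nat_lit 19564339200), (nat_lit 40, nat_lit 19564081152), (nat_lit 35, nat_lit 20638076928), (nat_lit 69, nat_lit 20637818880), (nat_lit 39, nat_lit 21711556608)]⟩,
   ⟨V6_15268331520, [(nat_lit 75, nat_lit 16343384064), (nat_lit 47, nat_lit 17416863744), (nat_lit 1, nat_lit 18490343424), (nat_lit 80, nat_lit 19563823104), (nat_lit 9, nat_lit 20637302784), (nat_lit 61, nat_lit 21710782464)]⟩],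
  [W_16276262912, W_16259489792, W_15235297280, W_15219298304, W_15218524160, W_15202525184, W_15202009088, W_15185752064, W_15185494016]⟩
theorem C_16343384064 : chkRec R_16343384064 = true := by decide +kernel

noncomputable def R_16343633985 : Rec := ⟨nat_lit 16343633985, nat_lit 8,
  [⟨V6_15268581441, [(nat_lit 3, nat_lit 16343633985), (nat_lit 84, nat_lit 17417113665), (nat_lit 81, nat_lit 18490593345), (nat_lit 113, nat_lit 19564073025), (nat_lit 75, nat_lit 20637552705), (nat_lit 51, nat_lit 21711032385)]⟩,
   ⟨V6_15202783296, [(nat_lit 57, nat_lit 16343633985), (nat_lit 93, nat_lit 17417375808), (nat_lit 54, nat_lit 17400598593), (nat_lit 27, nat_lit 18474340416), (nat_lit 80, nat_lit 18457563201), (nat_lit 80, nat_lit 19531305024), (nat_lit 59, nat_lit 19514527809), (nat_lit 2, nat_lit 20588269632), (nat_lit 121, nat_lit 20571492417), (nat_lit 55, nat_lit 21645234240)]⟩],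
  [W_16342061120, W_16325546048]⟩
theorem C_16343633985 : chkRec R_16343633985 = true := by decide +kernel

noncomputable def R_16343638080 : Rec := ⟨nat_lit 16343638080, nat_lit 71,
  [⟨V6_16276267008, [(nat_lit 67, nat_lit 16343638080), (nat_lit 74, nat_lit 17417379840), (nat_lit 23, nat_lit 17417117760), (nat_lit 77, nat_lit 17400602688), (nat_lit 41, nat_lit 18490859520), (nat_lit 81, nat_lit 18474344448), (nat_lit 72, nat_lit 18474082368), (nat_lit 75, nat_lit 18457567296), (nat_lit 80, nat_lit 19547824128), (nat_lit 54, nat_lit 19531309056), (nat_lit 88, nat_lit 19531046976), (nat_lit 88, nat_lit 19514531904), (nat_lit 71, nat_lit 20604788736), (nat_lit 113, nat_lit 20588273664), (nat_lit 106, nat_lit 20588011584), (nat_lit 29, nat_lit 20571496512), (nat_lit 101, nat_lit 21661753344), (nat_lit 14, nat_lit 21645238272), (nat_lit 112, nat_lit 21644976192), (nat_lit 77, nat_lit 22718717952)]⟩,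
   ⟨V6_15268843584, [(nat_lit 125, nat_lit 16343638080), (nat_lit 123, nat_lit 17417375808), (nat_lit 49, nat_lit 17417117760), (nat_lit 77, nat_lit 18490855488), (nat_lit 23, nat_lit 18490597440), (nat_lit 109, nat_lit 19564335168), (nat_lit 90, nat_lit 19564077120), (nat_lit 62, nat_lit 20637814848), (nat_lit 68, nat_lit 20637556800), (nat_lit 91, nat_lit 21711294528)]⟩,
   ⟨V6_15202787328, [(nat_lit 110, nat_lit 16343638080), (nat_lit 110, nat_lit 17417379840), (nat_lit 77, nat_lit 17400602688), (nat_lit 27, nat_lit 18474344448), (nat_lit 40, nat_lit 18457567296), (nat_lit 35, nat_lit 19531309056), (nat_lit 1, nat_lit 19514531904), (nat_lit 24, nat_lit 20588273664), (nat_lit 91, nat_lit 20571496512), (nat_lit 38, nat_lit 21645238272)]⟩],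
  [W_16342065152, W_16342061120, W_16341803072, W_16325546048, W_16276262912, W_16276000832, W_15268843520, W_15268585472, W_15235551296, W_15219298304, W_15202783232]⟩
theorem C_16343638080 : chkRec R_16343638080 = true := by decide +kernel

noncomputable def R_16343642112 : Rec := ⟨nat_lit 16343642112, nat_lit 77,
  [⟨V6_15269105664, [(nat_lit 44, nat_lit 16343642112), (nat_lit 63, nat_lit 17417379840), (nat_lit 35, nat_lit 17417121792), (nat_lit 101, nat_lit 18491117568), (nat_lit 74, nat_lit 18490859520), (nat_lit 92, nat_lit 18490601472), (nat_lit 48, nat_lit 19564597248), (nat_lit 25, nat_lit 19564339200), (nat_lit 83, nat_lit 19564081152), (nat_lit 49, nat_lit 20638076928), (nat_lit 9, nat_lit 20637818880), (nat_lit 85, nat_lit 21711556608)]⟩,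
   ⟨V6_15236333568, [(nat_lit 46, nat_lit 16343642112), (nat_lit 81, nat_lit 17417379840), (nat_lit 86, nat_lit 17400606720), (nat_lit 54, nat_lit 18491117568), (nat_lit 42, nat_lit 18474344448), (nat_lit 116, nat_lit 18457571328), (nat_lit 20, nat_lit 19564855296), (nat_lit 6, nat_lit 19548082176), (nat_lit 120, nat_lit 19531309056), (nat_lit 68, nat_lit 20621819904), (nat_lit 95, nat_lit 20605046784), (nat_lit 13, nat_lit 21678784512)]⟩,
   ⟨V6_15202787328, [(nat_lit 41, nat_lit 16343642112), (nat_lit 35, nat_lit 17417379840), (nat_lit 3, nat_lit 17400606720), (nat_lit 20, nat_lit 18474344448), (nat_lit 69, nat_lit 18457571328), (nat_lit 76, nat_lit 19531309056), (nat_lit 23, nat_lit 19514535936), (nat_lit 58, nat_lit 20588273664), (nat_lit 36, nat_lit 20571500544), (nat_lit 41, nat_lit 21645238272)]⟩,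
   ⟨V6_15202529280, [(nat_lit 35, nat_lit 16343642112), (nat_lit 90, nat_lit 17417121792), (nat_lit 71, nat_lit 17400606720), (nat_lit 104, nat_lit 18474086400), (nat_lit 116, nat_lit 18457571328), (nat_lit 23, nat_lit 19531051008), (nat_lit 99, nat_lit 19514535936), (nat_lit 37, nat_lit 20588015616), (nat_lit 7, nat_lit 20571500544), (nat_lit 30, nat_lit 21644980224)]⟩],
  [W_16342065152, W_16341807104, W_16325292032, W_16276520960, W_16276262912, W_15269101568, W_15268585472, W_15268327424, W_15251812352, W_15235297280]⟩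
theorem C_16343642112 : chkRec R_16343642112 = true := by decide +kernel

noncomputable def R_16343896128 : Rec := ⟨nat_lit 16343896128, nat_lit 24,
  [⟨V6_15268843584, [(nat_lit 18, nat_lit 16343896128), (nat_lit 99, nat_lit 17417375808), (nat_lit 42, nat_lit 18490855488), (nat_lit 52, nat_lit 19564335168), (nat_lit 30, nat_lit 20637814848), (nat_lit 99, nat_lit 21711294528)]⟩,
   ⟨V6_15252328512, [(nat_lit 76, nat_lit 16343896128), (nat_lit 73, nat_lit 17417375808), (nat_lit 34, nat_lit 17400860736), (nat_lit 74, nat_lit 18490855488), (nat_lit 13, nat_lit 18474340416), (nat_lit 106, nat_lit 19564335168), (nat_lit 91, nat_lit 19547820096), (nat_lit 29, nat_lit 20637814848), (nat_lit 16, nat_lit 20621299776), (nat_lit 48, nat_lit 21694779456)]⟩],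
  [W_16292515904, W_15268843520, W_15219298304]⟩
theorem C_16343896128 : chkRec R_16343896128 = true := by decide +kernel

noncomputable def R_16343900160 : Rec := ⟨nat_lit 16343900160, nat_lit 47,
  [⟨V6_15269105664, [(nat_lit 81, nat_lit 16343900160), (nat_lit 114, nat_lit 17417637888), (nat_lit 72, nat_lit 17417379840), (nat_lit 7, nat_lit 18491117568), (nat_lit 37, nat_lit 18490859520), (nat_lit 9, nat_lit 19564597248), (nat_lit 116, nat_lit 19564339200), (nat_lit 37, nat_lit 20638076928), (nat_lit 115, nat_lit 20637818880), (nat_lit 21, nat_lit 21711556608)]⟩,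
   ⟨V6_15252332544, [(nat_lit 124, nat_lit 16343900160), (nat_lit 79, nat_lit 17417379840), (nat_lit 2, nat_lit 17400864768), (nat_lit 94, nat_lit 18490859520), (nat_lit 68, nat_lit 18474344448), (nat_lit 66, nat_lit 19564339200), (nat_lit 95, nat_lit 19547824128), (nat_lit 54, nat_lit 20637818880), (nat_lit 113, nat_lit 20621303808), (nat_lit 85, nat_lit 21694783488)]⟩],
  [W_16342065152, W_16325550080, W_15269101568, W_15252586496, W_15219556352, W_15219298304]⟩
theorem C_16343900160 : chkRec R_16343900160 = true := by decide +kernel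

noncomputable def R_16344158208 : Rec := ⟨nat_lit 16344158208, nat_lit 20,
  [⟨V6_15269105664, [(nat_lit 27, nat_lit 16344158208), (nat_lit 37, nat_lit 17417637888), (nat_lit 56, nat_lit 18491117568), (nat_lit 85, nat_lit 19564597248), (nat_lit 101, nat_lit 20638076928), (nat_lit 121, nat_lit 21711556608)]⟩,
   ⟨V6_15236333568, [(nat_lit 65, nat_lit 16344158208), (nat_lit 79, nat_lit 17417895936), (nat_lit 91, nat_lit 17417637888), (nat_lit 97, nat_lit 17401122816), (nat_lit 81, nat_lit 18491375616), (nat_lit 40, nat_lit 18491117568), (nat_lit 39, nat_lit 18474860544), (nat_lit 48, nat_lit 18474602496), (nat_lit 7, nat_lit 18458087424), (nat_lit 68, nat_lit 19564855296), (nat_lit 48, nat_lit 19548340224), (nat_lit 56, nat_lit 19548082176), (nat_lit 106, nat_lit 19531825152), (nat_lit 2, nat_lit 19531567104), (nat_lit 48, nat_lit 20621819904), (nat_lit 73, nat_lit 20605304832), (nat_lit 82, nat_lit 20605046784), (nat_lit 98, nat_lit 21678784512)]⟩],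
  [W_16342581248, W_15269101568, W_15268843520, W_15252586496]⟩
theorem C_16344158208 : chkRec R_16344158208 = true := by decide +kernel

noncomputable def R_16344416256 : Rec := ⟨nat_lit 16344416256, nat_lit 3,
  [⟨V6_15269363712, [(nat_lit 57, nat_lit 16344416256), (nat_lit 83, nat_lit 17417895936), (nat_lit 101, nat_lit 18491375616), (nat_lit 73, nat_lit 19564855296), (nat_lit 52, nat_lit 20638334976), (nat_lit 54, nat_lit 21711814656)]⟩],
  [W_16342581248]⟩
theorem C_16344416256 : chkRec R_16344416256 = true := by decide +kernel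

noncomputable def R_16358846658 : Rec := ⟨nat_lit 16358846658, nat_lit 1,
  [⟨V6_16291475586, [(nat_lit 50, nat_lit 16358846658), (nat_lit 60, nat_lit 17432588418), (nat_lit 120, nat_lit 17432326338), (nat_lit 82, nat_lit 17415811266), (nat_lit 35, nat_lit 18506068098), (nat_lit 24, nat_lit 18489553026), (nat_lit 44, nat_lit 18489290946), (nat_lit 46, nat_lit 18472775874), (nat_lit 126, nat_lit 19563032706), (nat_lit 2, nat_lit 19546517634), (nat_lit 57, nat_lit 19546255554), (nat_lit 47, nat_lit 19529740482), (nat_lit 9, nat_lit 20619997314), (nat_lit 93, nat_lit 20603482242), (nat_lit 18, nat_lit 20603220162), (nat_lit 71, nat_lit 20586705090), (nat_lit 111, nat_lit 21676961922), (nat_lit 116, nat_lit 21660446850), (nat_lit 48, nat_lit 21660184770), (nat_lit 124, nat_lit 22733926530)]⟩],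
  [W_16274960576]⟩
theorem C_16358846658 : chkRec R_16358846658 = true := by decide +kernel

noncomputable def R_16358850690 : Rec := ⟨nat_lit 16358850690, nat_lit 1,
  [⟨V6_16291733634, [(nat_lit 126, nat_lit 16358850690), (nat_lit 56, nat_lit 17432588418), (nat_lit 100, nat_lit 17415815298), (nat_lit 13, nat_lit 18506326146), (nat_lit 124, nat_lit 18489553026), (nat_lit 95, nat_lit 18472779906), (nat_lit 12, nat_lit 19563290754), (nat_lit 95, nat_lit 19546517634), (nat_lit 42, nat_lit 19529744514), (nat_lit 32, nat_lit 20620255362), (nat_lit 36, nat_lit 20603482242), (nat_lit 122, nat_lit 20586709122), (nat_lit 57, nat_lit 21677219970), (nat_lit 49, nat_lit 21660446850), (nat_lit 3, nat_lit 22734184578)]⟩],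
  [W_16274964608]⟩
theorem C_16358850690 : chkRec R_16358850690 = true := by decide +kernel

noncomputable def R_16358850753 : Rec := ⟨nat_lit 16358850753, nat_lit 5,
  [⟨V6_16291741761, [(nat_lit 34, nat_lit 16358850753), (nat_lit 97, nat_lit 17432592513), (nat_lit 33, nat_lit 17415815361), (nat_lit 90, nat_lit 18506334273), (nat_lit 125, nat_lit 18489557121), (nat_lit 53, nat_lit 18472779969), (nat_lit 12, nat_lit 19563298881), (nat_lit 29, nat_lit 19546521729), (nat_lit 72, nat_lit 19529744577), (nat_lit 35, nat_lit 20620263489), (nat_lit 41, nat_lit 20603486337), (nat_lit 34, nat_lit 20586709185), (nat_lit 96, nat_lit 21677228097), (nat_lit 79, nat_lit 21660450945), (nat_lit 102, nat_lit 22734192705)]⟩],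
  [W_16308514880]⟩
theorem C_16358850753 : chkRec R_16358850753 = true := by decide +kernel

noncomputable def R_16358850816 : Rec := ⟨nat_lit 16358850816, nat_lit 3,
  [⟨V6_16325296128, [(nat_lit 126, nat_lit 16358850816), (nat_lit 103, nat_lit 17432592576), (nat_lit 92, nat_lit 17415815424), (nat_lit 122, nat_lit 18506334336), (nat_lit 74, nat_lit 18489557184), (nat_lit 12, nat_lit 18472780032), (nat_lit 108, nat_lit 19580076096), (nat_lit 59, nat_lit 19563298944), (nat_lit 88, nat_lit 19546521792), (nat_lit 60, nat_lit 20653817856), (nat_lit 42, nat_lit 20637040704), (nat_lit 93, nat_lit 20620263552), (nat_lit 29, nat_lit 21710782464), (nat_lit 33, nat_lit 21694005312), (nat_lit 100, nat_lit 22767747072)]⟩],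
  [W_16308518912]⟩
theorem C_16358850816 : chkRec R_16358850816 = true := by decide +kernel

noncomputable def R_16359108738 : Rec := ⟨nat_lit 16359108738, nat_lit 4,
  [⟨V6_16291733634, [(nat_lit 120, nat_lit 16359108738), (nat_lit 19, nat_lit 17432846466), (nat_lit 49, nat_lit 17432588418), (nat_lit 51, nat_lit 17416073346), (nat_lit 25, nat_lit 18506326146), (nat_lit 109, nat_lit 18489811074), (nat_lit 75, nat_lit 18489553026), (nat_lit 49, nat_lit 18473037954), (nat_lit 58, nat_lit 19563290754), (nat_lit 104, nat_lit 19546775682), (nat_lit 34, nat_lit 19546517634), (nat_lit 54, nat_lit 19530002562), (nat_lit 76, nat_lit 20620255362), (nat_lit 114, nat_lit 20603740290), (nat_lit 15, nat_lit 20603482242), (nat_lit 26, nat_lit 20586967170), (nat_lit 115, nat_lit 21677219970), (nat_lit 41, nat_lit 21660704898), (nat_lit 21, nat_lit 21660446850), (nat_lit 11, nat_lit 22734184578)]⟩,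
   ⟨V6_16291475586, [(nat_lit 32, nat_lit 16359108738), (nat_lit 45, nat_lit 17432588418), (nat_lit 86, nat_lit 17416073346), (nat_lit 104, nat_lit 18506068098), (nat_lit 115, nat_lit 18489553026), (nat_lit 100, nat_lit 18473037954), (nat_lit 106, nat_lit 19563032706), (nat_lit 3, nat_lit 19546517634), (nat_lit 80, nat_lit 19530002562), (nat_lit 68, nat_lit 20619997314), (nat_lit 118, nat_lit 20603482242), (nat_lit 107, nat_lit 20586967170), (nat_lit 21, nat_lit 21676961922), (nat_lit 93, nat_lit 21660446850), (nat_lit 20, nat_lit 22733926530)]⟩],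
  [W_16308510848]⟩
theorem C_16359108738 : chkRec R_16359108738 = true := by decide +kernel

noncomputable def R_16359108801 : Rec := ⟨nat_lit 16359108801, nat_lit 5,
  [⟨V6_16308252864, [(nat_lit 24, nat_lit 16359108801), (nat_lit 59, nat_lit 17432850624), (nat_lit 70, nat_lit 17432588481), (nat_lit 59, nat_lit 17416073409), (nat_lit 63, nat_lit 18506330304), (nat_lit 43, nat_lit 18506068161), (nat_lit 93, nat_lit 18489815232), (nat_lit 84, nat_lit 18489553089), (nat_lit 83, nat_lit 18473038017), (nat_lit 34, nat_lit 19579809984), (nat_lit 27, nat_lit 19563294912), (nat_lit 58, nat_lit 19563032769), (nat_lit 67, nat_lit 19546779840), (nat_lit 30, nat_lit 19546517697), (nat_lit 121, nat_lit 19530002625), (nat_lit 113, nat_lit 20636774592), (nat_lit 23, nat_lit 20620259520), (nat_lit 67, nat_lit 20619997377), (nat_lit 76, nat_lit 20603744448), (nat_lit 103, nat_lit 20603482305), (nat_lit 18, nat_lit 21693739200), (nat_lit 14, nat_lit 21677224128), (nat_lit 10, nat_lit 21676961985), (nat_lit 121, nat_lit 22750703808)]⟩,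
   ⟨V6_16274960577, [(nat_lit 25, nat_lit 16359108801), (nat_lit 78, nat_lit 17432588481), (nat_lit 105, nat_lit 17416073409), (nat_lit 103, nat_lit 18489553089), (nat_lit 100, nat_lit 18473038017), (nat_lit 92, nat_lit 19546517697), (nat_lit 86, nat_lit 19530002625), (nat_lit 97, nat_lit 20603482305), (nat_lit 101, nat_lit 20586967233), (nat_lit 50, nat_lit 21660446913), (nat_lit 11, nat_lit 21643931841), (nat_lit 82, nat_lit 22717411521)]⟩],
  [W_16308514880]⟩
theorem C_16359108801 : chkRec R_16359108801 = true := by decide +kernel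

noncomputable def R_16359112833 : Rec := ⟨nat_lit 16359112833, nat_lit 13,
  [⟨V6_16291741761, [(nat_lit 36, nat_lit 16359112833), (nat_lit 5, nat_lit 17432854593), (nat_lit 78, nat_lit 17432592513), (nat_lit 32, nat_lit 17416077441), (nat_lit 118, nat_lit 18506334273), (nat_lit 23, nat_lit 18489819201), (nat_lit 5, nat_lit 18489557121), (nat_lit 103, nat_lit 18473042049), (nat_lit 77, nat_lit 19563298881), (nat_lit 50, nat_lit 19546783809), (nat_lit 27, nat_lit 19546521729), (nat_lit 105, nat_lit 19530006657), (nat_lit 120, nat_lit 20620263489), (nat_lit 96, nat_lit 20603748417), (nat_lit 58, nat_lit 20603486337), (nat_lit 104, nat_lit 20586971265), (nat_lit 25, nat_lit 21677228097), (nat_lit 2, nat_lit 21660713025), (nat_lit 101, nat_lit 21660450945), (nat_lit 18, nat_lit 22734192705)]⟩],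
  [W_16308514880, W_16308510848, W_16291995776]⟩
theorem C_16359112833 : chkRec R_16359112833 = true := by decide +kernel

noncomputable def R_16359112896 : Rec := ⟨nat_lit 16359112896, nat_lit 17,
  [⟨V6_16274964672, [(nat_lit 76, nat_lit 16359112896), (nat_lit 39, nat_lit 17432592576), (nat_lit 116, nat_lit 17416077504), (nat_lit 115, nat_lit 18489557184), (nat_lit 50, nat_lit 18473042112), (nat_lit 46, nat_lit 19546521792), (nat_lit 43, nat_lit 19530006720), (nat_lit 112, nat_lit 20603486400), (nat_lit 114, nat_lit 20586971328), (nat_lit 25, nat_lit 21660451008), (nat_lit 69, nat_lit 21643935936), (nat_lit 41, nat_lit 22717415616)]⟩],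
  [W_16325292032, W_16308514880]⟩
theorem C_16359112896 : chkRec R_16359112896 = true := by decide +kernel

noncomputable def R_16359116865 : Rec := ⟨nat_lit 16359116865, nat_lit 5,
  [⟨V6_16342323264, [(nat_lit 117, nat_lit 16359116865), (nat_lit 110, nat_lit 17432858688), (nat_lit 75, nat_lit 17432854593), (nat_lit 87, nat_lit 17416081473), (nat_lit 113, nat_lit 18506596416), (nat_lit 40, nat_lit 18506592321), (nat_lit 12, nat_lit 18489823296), (nat_lit 33, nat_lit 18489819201), (nat_lit 91, nat_lit 19580334144), (nat_lit 5, nat_lit 19580330049), (nat_lit 74, nat_lit 19563561024), (nat_lit 106, nat_lit 19563556929), (nat_lit 46, nat_lit 20654071872), (nat_lit 50, nat_lit 20654067777), (nat_lit 102, nat_lit 20637298752), (nat_lit 55, nat_lit 20637294657), (nat_lit 73, nat_lit 21727809600), (nat_lit 90, nat_lit 21711036480), (nat_lit 66, nat_lit 21711032385), (nat_lit 58, nat_lit 22784774208)]⟩],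
  [W_16325546048]⟩
theorem C_16359116865 : chkRec R_16359116865 = true := by decide +kernel

noncomputable def R_16359116928 : Rec := ⟨nat_lit 16359116928, nat_lit 18,
  [⟨V6_16292007936, [(nat_lit 54, nat_lit 16359116928), (nat_lit 114, nat_lit 17432858688), (nat_lit 69, nat_lit 17416081536), (nat_lit 11, nat_lit 18506600448), (nat_lit 122, nat_lit 18489823296), (nat_lit 125, nat_lit 18473046144), (nat_lit 119, nat_lit 19563565056), (nat_lit 21, nat_lit 19546787904), (nat_lit 110, nat_lit 19530010752), (nat_lit 118, nat_lit 20620529664), (nat_lit 70, nat_lit 20603752512), (nat_lit 43, nat_lit 20586975360), (nat_lit 98, nat_lit 21677494272), (nat_lit 79, nat_lit 21660717120), (nat_lit 11, nat_lit 22734458880)]⟩],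
  [W_16325550080, W_16275230720, W_16258453568]⟩
theorem C_16359116928 : chkRec R_16359116928 = true := by decide +kernel

noncomputable def R_16359366786 : Rec := ⟨nat_lit 16359366786, nat_lit 2,
  [⟨V6_16358318208, [(nat_lit 9, nat_lit 16359366786), (nat_lit 92, nat_lit 17433108609), (nat_lit 12, nat_lit 17432846466), (nat_lit 48, nat_lit 18506850432), (nat_lit 97, nat_lit 18506588289), (nat_lit 56, nat_lit 18506326146), (nat_lit 104, nat_lit 19580330112), (nat_lit 110, nat_lit 19580067969), (nat_lit 70, nat_lit 19579805826), (nat_lit 27, nat_lit 20653809792), (nat_lit 3, nat_lit 20653547649), (nat_lit 39, nat_lit 20653285506), (nat_lit 111, nat_lit 21727289472), (nat_lit 70, nat_lit 21727027329), (nat_lit 105, nat_lit 22800769152)]⟩,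
   ⟨V6_16308248706, [(nat_lit 3, nat_lit 16359366786), (nat_lit 99, nat_lit 17432846466), (nat_lit 64, nat_lit 17416331394), (nat_lit 41, nat_lit 18506326146), (nat_lit 59, nat_lit 18489811074), (nat_lit 56, nat_lit 18473296002), (nat_lit 88, nat_lit 19579805826), (nat_lit 5, nat_lit 19563290754), (nat_lit 112, nat_lit 19546775682), (nat_lit 76, nat_lit 19530260610), (nat_lit 78, nat_lit 20636770434), (nat_lit 7, nat_lit 20620255362), (nat_lit 102, nat_lit 20603740290), (nat_lit 119, nat_lit 21693735042), (nat_lit 115, nat_lit 21677219970), (nat_lit 21, nat_lit 22750699650)]⟩],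
  [W_16308510848]⟩
theorem C_16359366786 : chkRec R_16359366786 = true := by decide +kernel

noncomputable def R_16359370881 : Rec := ⟨nat_lit 16359370881, nat_lit 17,
  [⟨V6_16341803073, [(nat_lit 126, nat_lit 16359370881), (nat_lit 113, nat_lit 17433112641), (nat_lit 69, nat_lit 17433108609), (nat_lit 81, nat_lit 17432850561), (nat_lit 4, nat_lit 17416335489), (nat_lit 18, nat_lit 18506850369), (nat_lit 125, nat_lit 18506592321), (nat_lit 109, nat_lit 18506588289), (nat_lit 44, nat_lit 18506330241), (nat_lit 112, nat_lit 18490077249), (nat_lit 86, nat_lit 18490073217), (nat_lit 123, nat_lit 18489815169), (nat_lit 10, nat_lit 19580330049), (nat_lit 25, nat_lit 19580072001), (nat_lit 116, nat_lit 19580067969), (nat_lit 76, nat_lit 19579809921), (nat_lit 78, nat_lit 19563814977), (nat_lit 88, nat_lit 19563556929), (nat_lit 103, nat_lit 19563552897), (nat_lit 23, nat_lit 19563294849), (nat_lit 34, nat_lit 20653809729), (nat_lit 73, nat_lit 20653551681), (nat_lit 17, nat_lit 20653547649), (nat_lit 69, nat_lit 20637294657), (nat_lit 55, nat_lit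 20637036609), (nat_lit 60, nat_lit 20637032577), (nat_lit 92, nat_lit 20636774529), (nat_lit 24, nat_lit 21727289409), (nat_lit 114, nat_lit 21710774337), (nat_lit 23, nat_lit 21710516289), (nat_lit 66, nat_lit 21710512257), (nat_lit 22, nat_lit 22784254017)]⟩,
   ⟨V6_16291995777, [(nat_lit 23, nat_lit 16359370881), (nat_lit 118, nat_lit 17433108609), (nat_lit 8, nat_lit 17432850561), (nat_lit 100, nat_lit 17416335489), (nat_lit 32, nat_lit 18506588289), (nat_lit 35, nat_lit 18490073217), (nat_lit 114, nat_lit 18489815169), (nat_lit 3, nat_lit 18473300097), (nat_lit 7, nat_lit 19563552897), (nat_lit 59, nat_lit 19547037825), (nat_lit 111, nat_lit 19546779777), (nat_lit 20, nat_lit 19530264705), (nat_lit 51, nat_lit 20620517505), (nat_lit 111, nat_lit 20604002433), (nat_lit 22, nat_lit 20603744385), (nat_lit 28, nat_lit 20587229313), (nat_lit 115, nat_lit 21677482113), (nat_lit 57, nat_lit 21660967041), (nat_lit 96, nat_lit 21660708993), (nat_lit 125, nat_lit 22734446721)]⟩],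
  [W_16341803072, W_16325029952, W_16308514880, W_16308510848]⟩
theorem C_16359370881 : chkRec R_16359370881 = true := by decide +kernel

noncomputable def R_16359370944 : Rec := ⟨nat_lit 16359370944, nat_lit 20,
  [⟨V6_16342069248, [(nat_lit 16, nat_lit 16359370944), (nat_lit 102, nat_lit 17433112704), (nat_lit 100, nat_lit 17432850624), (nat_lit 85, nat_lit 17416335552), (nat_lit 125, nat_lit 18506854464), (nat_lit 37, nat_lit 18506592384), (nat_lit 74, nat_lit 18506330304), (nat_lit 119, nat_lit 18490077312), (nat_lit 112, nat_lit 18489815232), (nat_lit 114, nat_lit 19580596224), (nat_lit 100, nat_lit 19580334144), (nat_lit 122, nat_lit 19580072064), (nat_lit 80, nat_lit 19563819072), (nat_lit 121, nat_lit 19563556992), (nat_lit 5, nat_lit 19563294912), (nat_lit 55, nat_lit 20654075904), (nat_lit 54, nat_lit 20653813824), (nat_lit 102, nat_lit 20637560832), (nat_lit 98, nat_lit 20637298752), (nat_lit 36, nat_lit 20637036672), (nat_lit 32, nat_lit 21727555584), (nat_lit 20, nat_lit 21711040512), (nat_lit 86, nat_lit 21710778432), (nat_lit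 71, nat_lit 22784520192)]⟩],
  [W_16325292032, W_16325029952, W_16308514880]⟩
theorem C_16359370944 : chkRec R_16359370944 = true := by decide +kernel

noncomputable def R_16359374913 : Rec := ⟨nat_lit 16359374913, nat_lit 21,
  [⟨V6_16308518976, [(nat_lit 4, nat_lit 16359374913), (nat_lit 77, nat_lit 17433116736), (nat_lit 99, nat_lit 17432854593), (nat_lit 94, nat_lit 17416339521), (nat_lit 31, nat_lit 18506596416), (nat_lit 96, nat_lit 18506334273), (nat_lit 43, nat_lit 18490081344), (nat_lit 64, nat_lit 18489819201), (nat_lit 21, nat_lit 18473304129), (nat_lit 82, nat_lit 19580076096), (nat_lit 68, nat_lit 19563561024), (nat_lit 40, nat_lit 19563298881), (nat_lit 108, nat_lit 19547045952), (nat_lit 95, nat_lit 19546783809), (nat_lit 60, nat_lit 19530268737), (nat_lit 50, nat_lit 20637040704), (nat_lit 92, nat_lit 20620525632), (nat_lit 17, nat_lit 20620263489), (nat_lit 91, nat_lit 20604010560), (nat_lit 37, nat_lit 20603748417), (nat_lit 6, nat_lit 21694005312), (nat_lit 73, nat_lit 21677490240), (nat_lit 37, nat_lit 21677228097), (nat_lit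 56, nat_lit 22750969920)]⟩],
  [W_16342061120, W_16325546048, W_16308514880, W_16291741760]⟩
theorem C_16359374913 : chkRec R_16359374913 = true := by decide +kernel

noncomputable def R_16359374976 : Rec := ⟨nat_lit 16359374976, nat_lit 45,
  [⟨V6_16325296128, [(nat_lit 115, nat_lit 16359374976), (nat_lit 112, nat_lit 17433116736), (nat_lit 15, nat_lit 17432854656), (nat_lit 67, nat_lit 17416339584), (nat_lit 103, nat_lit 18506858496), (nat_lit 110, nat_lit 18506596416), (nat_lit 72, nat_lit 18506334336), (nat_lit 104, nat_lit 18490081344), (nat_lit 95, nat_lit 18489819264), (nat_lit 23, nat_lit 18473304192), (nat_lit 95, nat_lit 19580338176), (nat_lit 42, nat_lit 19580076096), (nat_lit 119, nat_lit 19563823104), (nat_lit 81, nat_lit 19563561024), (nat_lit 28, nat_lit 19563298944), (nat_lit 45, nat_lit 19547045952), (nat_lit 81, nat_lit 19546783872), (nat_lit 35, nat_lit 20653817856), (nat_lit 26, nat_lit 20637302784), (nat_lit 75, nat_lit 20637040704), (nat_lit 81, nat_lit 20620787712), (nat_lit 107, nat_lit 20620525632), (nat_lit 15, nat_lit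 20620263552), (nat_lit 55, nat_lit 21710782464), (nat_lit 122, nat_lit 21694267392), (nat_lit 91, nat_lit 21694005312), (nat_lit 125, nat_lit 22767747072)]⟩,
   ⟨V6_16291741824, [(nat_lit 67, nat_lit 16359374976), (nat_lit 66, nat_lit 17432854656), (nat_lit 17, nat_lit 17416339584), (nat_lit 49, nat_lit 18506334336), (nat_lit 94, nat_lit 18489819264), (nat_lit 78, nat_lit 18473304192), (nat_lit 106, nat_lit 19563298944), (nat_lit 71, nat_lit 19546783872), (nat_lit 110, nat_lit 19530268800), (nat_lit 58, nat_lit 20620263552), (nat_lit 92, nat_lit 20603748480), (nat_lit 8, nat_lit 20587233408), (nat_lit 126, nat_lit 21677228160), (nat_lit 33, nat_lit 21660713088), (nat_lit 68, nat_lit 22734192768)]⟩],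
  [W_16342065152, W_16325292032, W_16308518912, W_16308514880, W_16308510848, W_16291741760]⟩
theorem C_16359374976 : chkRec R_16359374976 = true := by decide +kernel

noncomputable def R_16359379008 : Rec := ⟨nat_lit 16359379008, nat_lit 41,
  [⟨V6_16275492864, [(nat_lit 56, nat_lit 16359379008), (nat_lit 29, nat_lit 17433120768), (nat_lit 46, nat_lit 17416343616), (nat_lit 46, nat_lit 18490085376), (nat_lit 83, nat_lit 18473308224), (nat_lit 39, nat_lit 19547049984), (nat_lit 86, nat_lit 19530272832), (nat_lit 107, nat_lit 20604014592), (nat_lit 72, nat_lit 20587237440), (nat_lit 77, nat_lit 21660979200), (nat_lit 75, nat_lit 21644202048), (nat_lit 69, nat_lit 22717943808)]⟩],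
  [W_16325808128, W_16325550080, W_16325546048, W_16275230720]⟩
theorem C_16359379008 : chkRec R_16359379008 = true := by decide +kernel

noncomputable def R_16359383040 : Rec := ⟨nat_lit 16359383040, nat_lit 16,
  [⟨V6_16258719744, [(nat_lit 124, nat_lit 16359383040), (nat_lit 9, nat_lit 17416347648), (nat_lit 112, nat_lit 18473312256), (nat_lit 15, nat_lit 19530276864), (nat_lit 118, nat_lit 20587241472), (nat_lit 3, nat_lit 21644206080), (nat_lit 54, nat_lit 22701170688)]⟩],
  [W_16342581248, W_16325808128]⟩
theorem C_16359383040 : chkRec R_16359383040 = true := by decide +kernel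

noncomputable def R_16359628929 : Rec := ⟨nat_lit 16359628929, nat_lit 12,
  [⟨V6_16291995777, [(nat_lit 3, nat_lit 16359628929), (nat_lit 47, nat_lit 17433108609), (nat_lit 35, nat_lit 17416593537), (nat_lit 22, nat_lit 18506588289), (nat_lit 71, nat_lit 18490073217), (nat_lit 115, nat_lit 18473558145), (nat_lit 72, nat_lit 19563552897), (nat_lit 57, nat_lit 19547037825), (nat_lit 44, nat_lit 19530522753), (nat_lit 107, nat_lit 20620517505), (nat_lit 38, nat_lit 20604002433), (nat_lit 56, nat_lit 20587487361), (nat_lit 98, nat_lit 21677482113), (nat_lit 89, nat_lit 21660967041), (nat_lit 64, nat_lit 22734446721)]⟩],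
  [W_16341803072, W_16341540992, W_16325288000, W_16325025920]⟩
theorem C_16359628929 : chkRec R_16359628929 = true := by decide +kernel

noncomputable def R_16359632961 : Rec := ⟨nat_lit 16359632961, nat_lit 20,
  [⟨V6_16309293120, [(nat_lit 86, nat_lit 16359632961), (nat_lit 3, nat_lit 17433374784), (nat_lit 103, nat_lit 17433370689), (nat_lit 50, nat_lit 17416597569), (nat_lit 44, nat_lit 18507112512), (nat_lit 24, nat_lit 18507108417), (nat_lit 81, nat_lit 18490339392), (nat_lit 43, nat_lit 18490335297), (nat_lit 88, nat_lit 18473562177), (nat_lit 14, nat_lit 19580850240), (nat_lit 55, nat_lit 19564077120), (nat_lit 5, nat_lit 19564073025), (nat_lit 84, nat_lit 19547304000), (nat_lit 24, nat_lit 19547299905), (nat_lit 23, nat_lit 19530526785), (nat_lit 91, nat_lit 20637814848), (nat_lit 66, nat_lit 20621041728), (nat_lit 93, nat_lit 20621037633), (nat_lit 67, nat_lit 20604268608), (nat_lit 68, nat_lit 20604264513), (nat_lit 125, nat_lit 21694779456), (nat_lit 120, nat_lit 21678006336), (nat_lit 50, nat_lit 21678002241), (nat_lit 103, nat_lit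 22751744064)]⟩],
  [W_16358576192, W_16341803072, W_16325546048, W_16325029952, W_16308514880]⟩
theorem C_16359632961 : chkRec R_16359632961 = true := by decide +kernel

noncomputable def R_16359633024 : Rec := ⟨nat_lit 16359633024, nat_lit 47,
  [⟨V6_16309297152, [(nat_lit 60, nat_lit 16359633024), (nat_lit 118, nat_lit 17433374784), (nat_lit 25, nat_lit 17433370752), (nat_lit 48, nat_lit 17416597632), (nat_lit 22, nat_lit 18507116544), (nat_lit 122, nat_lit 18507112512), (nat_lit 11, nat_lit 18490339392), (nat_lit 95, nat_lit 18490335360), (nat_lit 15, nat_lit 18473562240), (nat_lit 109, nat_lit 19580854272), (nat_lit 96, nat_lit 19564081152), (nat_lit 89, nat_lit 19564077120), (nat_lit 2, nat_lit 19547304000), (nat_lit 61, nat_lit 19547299968), (nat_lit 77, nat_lit 19530526848), (nat_lit 31, nat_lit 20637818880), (nat_lit 58, nat_lit 20621045760), (nat_lit 56, nat_lit 20621041728), (nat_lit 53, nat_lit 20604268608), (nat_lit 75, nat_lit 20604264576), (nat_lit 49, nat_lit 21694783488), (nat_lit 93, nat_lit 21678010368), (nat_lit 21, nat_lit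 21678006336), (nat_lit 13, nat_lit 22751748096)]⟩],
  [W_16358580224, W_16342065152, W_16341807104, W_16341803072, W_16325292032, W_16325029952, W_16308514880, W_16308510848, W_16308252800, W_16242192512]⟩
theorem C_16359633024 : chkRec R_16359633024 = true := by decide +kernel

noncomputable def R_16359637056 : Rec := ⟨nat_lit 16359637056, nat_lit 67,
  [⟨V6_16309293120, [(nat_lit 58, nat_lit 16359637056), (nat_lit 90, nat_lit 17433374784), (nat_lit 59, nat_lit 17416601664), (nat_lit 114, nat_lit 18507112512), (nat_lit 105, nat_lit 18490339392), (nat_lit 99, nat_lit 18473566272), (nat_lit 70, nat_lit 19580850240), (nat_lit 92, nat_lit 19564077120), (nat_lit 38, nat_lit 19547304000), (nat_lit 32, nat_lit 19530530880), (nat_lit 91, nat_lit 20637814848), (nat_lit 18, nat_lit 20621041728), (nat_lit 82, nat_lit 20604268608), (nat_lit 19, nat_lit 21694779456), (nat_lit 2, nat_lit 21678006336), (nat_lit 124, nat_lit 22751744064)]⟩,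
   ⟨V6_16308518976, [(nat_lit 44, nat_lit 16359637056), (nat_lit 47, nat_lit 17433116736), (nat_lit 39, nat_lit 17416601664), (nat_lit 9, nat_lit 18506596416), (nat_lit 35, nat_lit 18490081344), (nat_lit 123, nat_lit 18473566272), (nat_lit 109, nat_lit 19580076096), (nat_lit 22, nat_lit 19563561024), (nat_lit 85, nat_lit 19547045952), (nat_lit 74, nat_lit 19530530880), (nat_lit 53, nat_lit 20637040704), (nat_lit 99, nat_lit 20620525632), (nat_lit 55, nat_lit 20604010560), (nat_lit 10, nat_lit 21694005312), (nat_lit 48, nat_lit 21677490240), (nat_lit 28, nat_lit 22750969920)]⟩],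
  [W_16358838272, W_16342323200, W_16342065152, W_16342061120, W_16325546048, W_16325292032, W_16308518912, W_16308514880, W_16242196544]⟩
theorem C_16359637056 : chkRec R_16359637056 = true := by decide +kernel

noncomputable def R_16359641088 : Rec := ⟨nat_lit 16359641088, nat_lit 45,
  [⟨V6_16275492864, [(nat_lit 19, nat_lit 16359641088), (nat_lit 9, nat_lit 17433120768), (nat_lit 46, nat_lit 17416605696), (nat_lit 62, nat_lit 18490085376), (nat_lit 58, nat_lit 18473570304), (nat_lit 93, nat_lit 19547049984), (nat_lit 41, nat_lit 19530534912), (nat_lit 125, nat_lit 20604014592), (nat_lit 74, nat_lit 20587499520), (nat_lit 67, nat_lit 21660979200), (nat_lit 36, nat_lit 21644464128), (nat_lit 76, nat_lit 22717943808)]⟩],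
  [W_16342581248, W_16342323200, W_16325808128, W_16325550080]⟩
theorem C_16359641088 : chkRec R_16359641088 = true := by decide +kernel

noncomputable def R_16359891009 : Rec := ⟨nat_lit 16359891009, nat_lit 17,
  [⟨V6_16276004928, [(nat_lit 97, nat_lit 16359891009), (nat_lit 10, nat_lit 17433632832), (nat_lit 58, nat_lit 17416855617), (nat_lit 108, nat_lit 18490597440), (nat_lit 75, nat_lit 18473820225), (nat_lit 101, nat_lit 19547562048), (nat_lit 97, nat_lit 19530784833), (nat_lit 97, nat_lit 20604526656), (nat_lit 89, nat_lit 20587749441), (nat_lit 31, nat_lit 21661491264), (nat_lit 34, nat_lit 21644714049), (nat_lit 27, nat_lit 22718455872)]⟩],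
  [W_16358576192, W_16342061120, W_16341803072, W_16292515904]⟩
theorem C_16359891009 : chkRec R_16359891009 = true := by decide +kernel

noncomputable def R_16359891072 : Rec := ⟨nat_lit 16359891072, nat_lit 27,
  [⟨V6_16276004928, [(nat_lit 41, nat_lit 16359891072), (nat_lit 92, nat_lit 17433632832), (nat_lit 30, nat_lit 17416855680), (nat_lit 51, nat_lit 18490597440), (nat_lit 42, nat_lit 18473820288), (nat_lit 36, nat_lit 19547562048), (nat_lit 125, nat_lit 19530784896), (nat_lit 10, nat_lit 20604526656), (nat_lit 122, nat_lit 20587749504), (nat_lit 38, nat_lit 21661491264), (nat_lit 45, nat_lit 21644714112), (nat_lit 97, nat_lit 22718455872)]⟩],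
  [W_16358580224, W_16342065152, W_16341803072, W_16308510848, W_16258965632, W_16242450560]⟩
theorem C_16359891072 : chkRec R_16359891072 = true := by decide +kernel

noncomputable def R_16359895104 : Rec := ⟨nat_lit 16359895104, nat_lit 67,
  [⟨V6_16358584320, [(nat_lit 68, nat_lit 16359895104), (nat_lit 85, nat_lit 17433636864), (nat_lit 41, nat_lit 17433374784), (nat_lit 38, nat_lit 18507116544), (nat_lit 72, nat_lit 18506854464), (nat_lit 20, nat_lit 19580596224), (nat_lit 106, nat_lit 19580334144), (nat_lit 28, nat_lit 20654075904), (nat_lit 109, nat_lit 20653813824), (nat_lit 90, nat_lit 21727555584), (nat_lit 94, nat_lit 21727293504), (nat_lit 29, nat_lit 22801035264)]⟩,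
   ⟨V6_16276008960, [(nat_lit 49, nat_lit 16359895104), (nat_lit 73, nat_lit 17433636864), (nat_lit 72, nat_lit 17416859712), (nat_lit 72, nat_lit 18490601472), (nat_lit 25, nat_lit 18473824320), (nat_lit 50, nat_lit 19547566080), (nat_lit 107, nat_lit 19530788928), (nat_lit 46, nat_lit 20604530688), (nat_lit 63, nat_lit 20587753536), (nat_lit 115, nat_lit 21661495296), (nat_lit 18, nat_lit 21644718144), (nat_lit 108, nat_lit 22718459904)]⟩],
  [W_16358838272, W_16358580224, W_16342065152, W_16342061120, W_16341807104, W_16341803072, W_16325546048, W_16325292032, W_16325029952, W_16308514880, W_16292515904, W_16242454592]⟩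
theorem C_16359895104 : chkRec R_16359895104 = true := by decide +kernel

noncomputable def R_16359899136 : Rec := ⟨nat_lit 16359899136, nat_lit 51,
  [⟨V6_16359358464, [(nat_lit 123, nat_lit 16359899136), (nat_lit 75, nat_lit 17433636864), (nat_lit 79, nat_lit 17433378816), (nat_lit 17, nat_lit 18507374592), (nat_lit 112, nat_lit 18507116544), (nat_lit 9, nat_lit 18506858496), (nat_lit 71, nat_lit 19581112320), (nat_lit 19, nat_lit 19580854272), (nat_lit 3, nat_lit 19580596224), (nat_lit 84, nat_lit 20654850048), (nat_lit 27, nat_lit 20654592000), (nat_lit 86, nat_lit 20654333952), (nat_lit 104, nat_lit 21728329728), (nat_lit 94, nat_lit 21728071680), (nat_lit 9, nat_lit 22801809408)]⟩,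
   ⟨V6_16308781056, [(nat_lit 125, nat_lit 16359899136), (nat_lit 51, nat_lit 17433378816), (nat_lit 20, nat_lit 17416863744), (nat_lit 73, nat_lit 18506858496), (nat_lit 2, nat_lit 18490343424), (nat_lit 114, nat_lit 18473828352), (nat_lit 56, nat_lit 19580338176), (nat_lit 120, nat_lit 19563823104), (nat_lit 118, nat_lit 19547308032), (nat_lit 116, nat_lit 19530792960), (nat_lit 7, nat_lit 20637302784), (nat_lit 32, nat_lit 20620787712), (nat_lit 96, nat_lit 20604272640), (nat_lit 120, nat_lit 21694267392), (nat_lit 89, nat_lit 21677752320), (nat_lit 79, nat_lit 22751232000)]⟩],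
  [W_16359096320, W_16358838272, W_16342581248, W_16342065152, W_16325292032, W_16308518912, W_16242458624]⟩
theorem C_16359899136 : chkRec R_16359899136 = true := by decide +kernel

noncomputable def R_16360149057 : Rec := ⟨nat_lit 16360149057, nat_lit 7,
  [⟨V6_16276262976, [(nat_lit 112, nat_lit 16360149057), (nat_lit 5, nat_lit 17433890880), (nat_lit 29, nat_lit 17417113665), (nat_lit 54, nat_lit 18490855488), (nat_lit 101, nat_lit 18474078273), (nat_lit 114, nat_lit 19547820096), (nat_lit 112, nat_lit 19531042881), (nat_lit 112, nat_lit 20604784704), (nat_lit 108, nat_lit 20588007489), (nat_lit 79, nat_lit 21661749312), (nat_lit 17, nat_lit 21644972097), (nat_lit 77, nat_lit 22718713920)]⟩],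
  [W_16342061120, W_16325546048]⟩
theorem C_16360149057 : chkRec R_16360149057 = true := by decide +kernel

noncomputable def R_16360153152 : Rec := ⟨nat_lit 16360153152, nat_lit 44,
  [⟨V6_16358842368, [(nat_lit 6, nat_lit 16360153152), (nat_lit 64, nat_lit 17433894912), (nat_lit 13, nat_lit 17433632832), (nat_lit 43, nat_lit 18507374592), (nat_lit 101, nat_lit 18507112512), (nat_lit 5, nat_lit 19580854272), (nat_lit 67, nat_lit 19580592192), (nat_lit 8, nat_lit 20654333952), (nat_lit 104, nat_lit 20654071872), (nat_lit 31, nat_lit 21727813632), (nat_lit 3, nat_lit 21727551552), (nat_lit 58, nat_lit 22801293312)]⟩,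
   ⟨V6_16276267008, [(nat_lit 99, nat_lit 16360153152), (nat_lit 49, nat_lit 17433894912), (nat_lit 104, nat_lit 17417117760), (nat_lit 104, nat_lit 18490859520), (nat_lit 22, nat_lit 18474082368), (nat_lit 44, nat_lit 19547824128), (nat_lit 84, nat_lit 19531046976), (nat_lit 10, nat_lit 20604788736), (nat_lit 91, nat_lit 20588011584), (nat_lit 25, nat_lit 21661753344), (nat_lit 26, nat_lit 21644976192), (nat_lit 29, nat_lit 22718717952)]⟩],
  [W_16358838272, W_16358580224, W_16358576192, W_16342065152, W_16342061120, W_16341803072, W_16325546048, W_16292515904, W_16259485760]⟩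
theorem C_16360153152 : chkRec R_16360153152 = true := by decide +kernel

noncomputable def R_16360157184 : Rec := ⟨nat_lit 16360157184, nat_lit 51,
  [⟨V6_16359358464, [(nat_lit 94, nat_lit 16360157184), (nat_lit 112, nat_lit 17433894912), (nat_lit 35, nat_lit 17433636864), (nat_lit 91, nat_lit 18507632640), (nat_lit 16, nat_lit 18507374592), (nat_lit 48, nat_lit 18507116544), (nat_lit 64, nat_lit 19581370368), (nat_lit 114, nat_lit 19581112320), (nat_lit 46, nat_lit 19580854272), (nat_lit 46, nat_lit 19580596224), (nat_lit 125, nat_lit 20654850048), (nat_lit 27, nat_lit 20654592000), (nat_lit 64, nat_lit 20654333952), (nat_lit 74, nat_lit 21728329728), (nat_lit 47, nat_lit 21728071680), (nat_lit 107, nat_lit 22801809408)]⟩,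
   ⟨V6_16358584320, [(nat_lit 52, nat_lit 16360157184), (nat_lit 19, nat_lit 17433636864), (nat_lit 116, nat_lit 18507116544), (nat_lit 98, nat_lit 19580596224), (nat_lit 12, nat_lit 20654075904), (nat_lit 62, nat_lit 21727555584), (nat_lit 66, nat_lit 22801035264)]⟩,
   ⟨V6_16276267008, [(nat_lit 59, nat_lit 16360157184), (nat_lit 75, nat_lit 17433894912), (nat_lit 37, nat_lit 17417121792), (nat_lit 13, nat_lit 18490859520), (nat_lit 12, nat_lit 18474086400), (nat_lit 80, nat_lit 19547824128), (nat_lit 22, nat_lit 19531051008), (nat_lit 50, nat_lit 20604788736), (nat_lit 92, nat_lit 20588015616), (nat_lit 105, nat_lit 21661753344), (nat_lit 17, nat_lit 21644980224), (nat_lit 37, nat_lit 22718717952)]⟩],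
  [W_16358838272, W_16358580224, W_16342581248, W_16342065152, W_16341807104, W_16325292032, W_16276262912, W_16259489792]⟩
theorem C_16360157184 : chkRec R_16360157184 = true := by decide +kernel

noncomputable def R_16360411200 : Rec := ⟨nat_lit 16360411200, nat_lit 20,
  [⟨V6_16325808192, [(nat_lit 26, nat_lit 16360411200), (nat_lit 24, nat_lit 17433890880), (nat_lit 126, nat_lit 17417375808), (nat_lit 86, nat_lit 18507370560), (nat_lit 104, nat_lit 18490855488), (nat_lit 26, nat_lit 18474340416), (nat_lit 101, nat_lit 19580850240), (nat_lit 40, nat_lit 19564335168), (nat_lit 62, nat_lit 19547820096), (nat_lit 79, nat_lit 20654329920), (nat_lit 18, nat_lit 20637814848), (nat_lit 65, nat_lit 20621299776), (nat_lit 61, nat_lit 21711294528), (nat_lit 12, nat_lit 21694779456), (nat_lit 44, nat_lit 22768259136)]⟩],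
  [W_16358838272, W_16342323200, W_16325546048]⟩
theorem C_16360411200 : chkRec R_16360411200 = true := by decide +kernel

noncomputable def R_16360415232 : Rec := ⟨nat_lit 16360415232, nat_lit 31,
  [⟨V6_16276267008, [(nat_lit 110, nat_lit 16360415232), (nat_lit 21, nat_lit 17433894912), (nat_lit 39, nat_lit 17417379840), (nat_lit 64, nat_lit 18490859520), (nat_lit 90, nat_lit 18474344448), (nat_lit 105, nat_lit 19547824128), (nat_lit 122, nat_lit 19531309056), (nat_lit 22, nat_lit 20604788736), (nat_lit 45, nat_lit 20588273664), (nat_lit 63, nat_lit 21661753344), (nat_lit 84, nat_lit 21645238272), (nat_lit 106, nat_lit 22718717952)]⟩],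
  [W_16359096320, W_16358580224, W_16342581248, W_16342323200, W_16342065152]⟩
theorem C_16360415232 : chkRec R_16360415232 = true := by decide +kernel

noncomputable def R_16360673280 : Rec := ⟨nat_lit 16360673280, nat_lit 17,
  [⟨V6_16359358464, [(nat_lit 112, nat_lit 16360673280), (nat_lit 77, nat_lit 17434411008), (nat_lit 19, nat_lit 17434152960), (nat_lit 18, nat_lit 18507890688), (nat_lit 119, nat_lit 18507632640), (nat_lit 92, nat_lit 19581370368), (nat_lit 91, nat_lit 19581112320), (nat_lit 35, nat_lit 20654850048), (nat_lit 123, nat_lit 20654592000), (nat_lit 109, nat_lit 21728329728), (nat_lit 80, nat_lit 21728071680), (nat_lit 50, nat_lit 22801809408)]⟩,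
   ⟨V6_16326328320, [(nat_lit 64, nat_lit 16360673280), (nat_lit 9, nat_lit 17434411008), (nat_lit 46, nat_lit 17434152960), (nat_lit 69, nat_lit 17417637888), (nat_lit 111, nat_lit 18507890688), (nat_lit 125, nat_lit 18507632640), (nat_lit 71, nat_lit 18491375616), (nat_lit 72, nat_lit 18491117568), (nat_lit 101, nat_lit 18474602496), (nat_lit 48, nat_lit 19581370368), (nat_lit 16, nat_lit 19581112320), (nat_lit 99, nat_lit 19564855296), (nat_lit 49, nat_lit 19564597248), (nat_lit 35, nat_lit 19548340224), (nat_lit 108, nat_lit 19548082176), (nat_lit 43, nat_lit 20654850048), (nat_lit 61, nat_lit 20638334976), (nat_lit 2, nat_lit 20638076928), (nat_lit 61, nat_lit 20621819904), (nat_lit 21, nat_lit 20621561856), (nat_lit 106, nat_lit 21711814656), (nat_lit 67, nat_lit 21695299584), (nat_lit 103, nat_lit 21695041536), (nat_lit 15, nat_lit 22768779264)]⟩],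
  [W_16358838272, W_16342581248, W_16293036032]⟩
theorem C_16360673280 : chkRec R_16360673280 = true := by decide +kernel

noncomputable def R_16360931328 : Rec := ⟨nat_lit 16360931328, nat_lit 4,
  [⟨V6_16359358464, [(nat_lit 22, nat_lit 16360931328), (nat_lit 17, nat_lit 17434411008), (nat_lit 18, nat_lit 18507890688), (nat_lit 106, nat_lit 19581370368), (nat_lit 14, nat_lit 20654850048), (nat_lit 61, nat_lit 21728329728), (nat_lit 10, nat_lit 22801809408)]⟩],
  [W_16342581248]⟩
theorem C_16360931328 : chkRec R_16360931328 = true := by decide +kernel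

noncomputable def R_17282130180 : Rec := ⟨nat_lit 17282130180, nat_lit 1,
  [⟨V6_10839679236, [(nat_lit 21, nat_lit 17282130180)]⟩],
  [W_16208380160]⟩
theorem C_17282130180 : chkRec R_17282130180 = true := by decide +kernel

noncomputable def R_17282130306 : Rec := ⟨nat_lit 17282130306, nat_lit 2,
  [⟨V6_12987162882, [(nat_lit 38, nat_lit 17282130306), (nat_lit 34, nat_lit 18355872066), (nat_lit 28, nat_lit 19429613826)]⟩],
  [W_16208388224]⟩
theorem C_17282130306 : chkRec R_17282130306 = true := by decide +kernel

noncomputable def R_17298907395 : Rec := ⟨nat_lit 17298907395, nat_lit 2,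
  [⟨V6_11930194179, [(nat_lit 98, nat_lit 17298907395), (nat_lit 71, nat_lit 18372645123)]⟩,
   ⟨V6_10856456451, [(nat_lit 90, nat_lit 17298907395)]⟩],
  [W_17282121920, W_15134646464]⟩
theorem C_17298907395 : chkRec R_17298907395 = true := by decide +kernel

noncomputable def R_17298907458 : Rec := ⟨nat_lit 17298907458, nat_lit 2,
  [⟨V6_11930198274, [(nat_lit 83, nat_lit 17298907458), (nat_lit 91, nat_lit 18372649218)]⟩],
  [W_16208388224]⟩
theorem C_17298907458 : chkRec R_17298907458 = true := by decide +kernel

noncomputable def R_17298907521 : Rec := ⟨nat_lit 17298907521, nat_lit 3,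
  [⟨V6_16225165377, [(nat_lit 26, nat_lit 17298907521), (nat_lit 99, nat_lit 18372649281), (nat_lit 49, nat_lit 19446391041), (nat_lit 24, nat_lit 20520132801), (nat_lit 74, nat_lit 21593874561), (nat_lit 79, nat_lit 22667616321)]⟩],
  [W_17282129984, W_11913421184]⟩
theorem C_17298907521 : chkRec R_17298907521 = true := by decide +kernel

noncomputable def R_17299165443 : Rec := ⟨nat_lit 17299165443, nat_lit 1,
  [⟨V6_11930194179, [(nat_lit 75, nat_lit 17299165443), (nat_lit 26, nat_lit 18372645123)]⟩],
  [W_17298636992]⟩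
theorem C_17299165443 : chkRec R_17299165443 = true := by decide +kernel

noncomputable def R_17299165506 : Rec := ⟨nat_lit 17299165506, nat_lit 1,
  [⟨V6_14077939842, [(nat_lit 35, nat_lit 17299165506), (nat_lit 80, nat_lit 18372907266), (nat_lit 21, nat_lit 19446649026), (nat_lit 51, nat_lit 20520390786)]⟩],
  [W_16225161344]⟩
theorem C_17299165506 : chkRec R_17299165506 = true := by decide +kernel

noncomputable def R_17299169475 : Rec := ⟨nat_lit 17299169475, nat_lit 2,
  [⟨V6_13003940034, [(nat_lit 112, nat_lit 17299169475), (nat_lit 83, nat_lit 18372911298), (nat_lit 10, nat_lit 18372649155), (nat_lit 37, nat_lit 19446390978)]⟩],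
  [W_17298895040, W_16225415360]⟩
theorem C_17299169475 : chkRec R_17299169475 = true := by decide +kernel

noncomputable def R_17299169538 : Rec := ⟨nat_lit 17299169538, nat_lit 2,
  [⟨V6_11930198274, [(nat_lit 101, nat_lit 17299169538), (nat_lit 13, nat_lit 18372649218)]⟩],
  [W_17298899072]⟩
theorem C_17299169538 : chkRec R_17299169538 = true := by decide +kernel

noncomputable def R_17299169601 : Rec := ⟨nat_lit 17299169601, nat_lit 2,
  [⟨V6_15151685697, [(nat_lit 107, nat_lit 17299169601), (nat_lit 65, nat_lit 18372911361), (nat_lit 99, nat_lit 19446653121), (nat_lit 72, nat_lit 20520394881), (nat_lit 45, nat_lit 21594136641)]⟩],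
  [W_17298903104]⟩
theorem C_17299169601 : chkRec R_17299169601 = true := by decide +kernel

noncomputable def R_17299169664 : Rec := ⟨nat_lit 17299169664, nat_lit 1,
  [⟨V6_11930198400, [(nat_lit 34, nat_lit 17299169664), (nat_lit 110, nat_lit 18372649344)]⟩],
  [W_17298907136]⟩
theorem C_17299169664 : chkRec R_17299169664 = true := by decide +kernel

noncomputable def R_17299173633 : Rec := ⟨nat_lit 17299173633, nat_lit 1,
  [⟨V6_14077948032, [(nat_lit 9, nat_lit 17299173633), (nat_lit 78, nat_lit 18372915456), (nat_lit 121, nat_lit 18372915393), (nat_lit 80, nat_lit 19446657216), (nat_lit 116, nat_lit 19446657153), (nat_lit 38, nat_lit 20520398976)]⟩],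
  [W_16225423424]⟩
theorem C_17299173633 : chkRec R_17299173633 = true := by decide +kernel

noncomputable def R_17299173696 : Rec := ⟨nat_lit 17299173696, nat_lit 1,
  [⟨V6_11930460480, [(nat_lit 65, nat_lit 17299173696), (nat_lit 92, nat_lit 18372911424)]⟩],
  [W_17299165184]⟩
theorem C_17299173696 : chkRec R_17299173696 = true := by decide +kernel

noncomputable def R_17315676420 : Rec := ⟨nat_lit 17315676420, nat_lit 2,
  [⟨V6_12987154692, [(nat_lit 66, nat_lit 17315676420), (nat_lit 61, nat_lit 18372641028), (nat_lit 18, nat_lit 19429605636)]⟩,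
   ⟨V6_10873225476, [(nat_lit 68, nat_lit 17315676420)]⟩],
  [W_17298374912, W_16241410304]⟩
theorem C_17315676420 : chkRec R_17315676420 = true := by decide +kernel

noncomputable def R_17315680515 : Rec := ⟨nat_lit 17315680515, nat_lit 3,
  [⟨V6_15134642370, [(nat_lit 64, nat_lit 17315680515), (nat_lit 34, nat_lit 18389422338), (nat_lit 78, nat_lit 18389422275), (nat_lit 112, nat_lit 18372645123), (nat_lit 87, nat_lit 19463164098), (nat_lit 15, nat_lit 19446386946), (nat_lit 56, nat_lit 19446386883), (nat_lit 62, nat_lit 19429609731), (nat_lit 10, nat_lit 20520128706), (nat_lit 62, nat_lit 20503351554), (nat_lit 21, nat_lit 20503351491), (nat_lit 28, nat_lit 21577093314)]⟩,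
   ⟨V6_14060900610, [(nat_lit 10, nat_lit 17315680515), (nat_lit 5, nat_lit 18389422338), (nat_lit 29, nat_lit 18372645123), (nat_lit 25, nat_lit 19446386946), (nat_lit 126, nat_lit 19429609731), (nat_lit 14, nat_lit 20503351554)]⟩,
   ⟨V6_14060896515, [(nat_lit 11, nat_lit 17315680515), (nat_lit 112, nat_lit 18389418243), (nat_lit 101, nat_lit 18372645123), (nat_lit 86, nat_lit 19446382851), (nat_lit 19, nat_lit 19429609731), (nat_lit 2, nat_lit 20503347459)]⟩],
  [W_15167930624, W_14094450944]⟩
theorem C_17315680515 : chkRec R_17315680515 = true := by decide +kernel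

noncomputable def R_17315680578 : Rec := ⟨nat_lit 17315680578, nat_lit 1,
  [⟨V6_14060900610, [(nat_lit 85, nat_lit 17315680578), (nat_lit 21, nat_lit 18389422338), (nat_lit 8, nat_lit 18372645186), (nat_lit 112, nat_lit 19446386946), (nat_lit 87, nat_lit 19429609794), (nat_lit 94, nat_lit 20503351554)]⟩],
  [W_16241676416]⟩
theorem C_17315680578 : chkRec R_17315680578 = true := by decide +kernel

noncomputable def R_17315684547 : Rec := ⟨nat_lit 17315684547, nat_lit 2,
  [⟨V6_14060904642, [(nat_lit 92, nat_lit 17315684547), (nat_lit 46, nat_lit 18389426370), (nat_lit 89, nat_lit 18372649155), (nat_lit 103, nat_lit 19446390978), (nat_lit 67, nat_lit 19429613763), (nat_lit 78, nat_lit 20503355586)]⟩],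
  [W_17298895040, W_16241930432]⟩
theorem C_17315684547 : chkRec R_17315684547 = true := by decide +kernel

noncomputable def R_17315684610 : Rec := ⟨nat_lit 17315684610, nat_lit 10,
  [⟨V6_15134646402, [(nat_lit 105, nat_lit 17315684610), (nat_lit 123, nat_lit 18389426370), (nat_lit 65, nat_lit 18372649218), (nat_lit 33, nat_lit 19463168130), (nat_lit 1, nat_lit 19446390978), (nat_lit 57, nat_lit 19429613826), (nat_lit 40, nat_lit 20520132738), (nat_lit 79, nat_lit 20503355586), (nat_lit 72, nat_lit 21577097346)]⟩,
   ⟨V6_15134638338, [(nat_lit 117, nat_lit 17315684610), (nat_lit 26, nat_lit 18389422338), (nat_lit 21, nat_lit 18372649218), (nat_lit 9, nat_lit 19463160066), (nat_lit 84, nat_lit 19446386946), (nat_lit 45, nat_lit 19429613826), (nat_lit 106, nat_lit 20520124674), (nat_lit 12, nat_lit 20503351554), (nat_lit 73, nat_lit 21577089282)]⟩,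
   ⟨V6_14060904642, [(nat_lit 6, nat_lit 17315684610), (nat_lit 17, nat_lit 18389426370), (nat_lit 97, nat_lit 18372649218), (nat_lit 27, nat_lit 19446390978), (nat_lit 40, nat_lit 19429613826), (nat_lit 119, nat_lit 20503355586)]⟩,
   ⟨V6_14060900610, [(nat_lit 57, nat_lit 17315684610), (nat_lit 25, nat_lit 18389422338), (nat_lit 105, nat_lit 18372649218), (nat_lit 87, nat_lit 19446386946), (nat_lit 94, nat_lit 19429613826), (nat_lit 123, nat_lit 20503351554)]⟩],
  [W_17298899072, W_16241934464, W_14094450944]⟩
theorem C_17315684610 : chkRec R_17315684610 = true := by decide +kernel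

end Crest.Agent.R187.SN.Top
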