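import Crest.Agent.R187.SN.Top
import Crest.Agent.R187.SN.TD.X6_0
import Crest.Agent.R187.SN.TD.X6_1
import Crest.Agent.R187.SN.TD.X6_2
import Crest.Agent.R187.SN.TD.X6_3
import Crest.Agent.R187.SN.TD.X6_4
import Crest.Agent.R187.SN.TD.X6_5
import Crest.Agent.R187.SN.TD.X6_6
import Crest.Agent.R187.SN.TD.W7_0
import Crest.Agent.R187.SN.TD.W7_1
import Crest.Agent.R187.SN.TD.W7_2

/-!
# Row 187, PLAN S, generated certificate data (mod 127): rank records and checks, chunk 7

Written by a C++ program (helper824).  The tables are only data: every property is checked by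
the kernel.
-/

set_option autoImplicit false
set_option maxRecDepth 100000
set_option Elab.async false

namespace Crest.Agent.R187.SN.Top

noncomputable def R_17315684673 : Rec := ⟨nat_lit 17315684673, nat_lit 8,
  [⟨V6_15134646465, [(nat_lit 72, nat_lit 17315684673), (nat_lit 49, nat_lit 18389426433), (nat_lit 18, nat_lit 18372649281), (nat_lit 8, nat_lit 19463168193), (nat_lit 38, nat_lit 19446391041), (nat_lit 7, nat_lit 19429613889), (nat_lit 91, nat_lit 20520132801), (nat_lit 103, nat_lit 20503355649), (nat_lit 112, nat_lit 21577097409)]⟩,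
   ⟨V6_14060904768, [(nat_lit 79, nat_lit 17315684673), (nat_lit 12, nat_lit 18389426496), (nat_lit 79, nat_lit 18372649281), (nat_lit 101, nat_lit 19446391104), (nat_lit 93, nat_lit 19429613889), (nat_lit 31, nat_lit 20503355712)]⟩,
   ⟨V6_10873233729, [(nat_lit 105, nat_lit 17315684673)]⟩],
  [W_17298903104, W_15168200768]⟩
theorem C_17315684673 : chkRec R_17315684673 = true := by decide +kernel

noncomputable def R_17315684736 : Rec := ⟨nat_lit 17315684736, nat_lit 9,
  [⟨V6_17315684352, [(nat_lit 11, nat_lit 17315684736), (nat_lit 40, nat_lit 18389426496), (nat_lit 65, nat_lit 19463168256), (nat_lit 28, nat_lit 20536910016), (nat_lit 86, nat_lit 21610651776), (nat_lit 65, nat_lit 22684393536), (nat_lit 122, nat_lit 23758135296)]⟩,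
   ⟨V6_11930198400, [(nat_lit 83, nat_lit 17315684736), (nat_lit 43, nat_lit 18372649344)]⟩],
  [W_17282129984, W_16208388224, W_15134646464, W_14077681856, W_14060904704, W_13003940096, W_10873233728]⟩
theorem C_17315684736 : chkRec R_17315684736 = true := by decide +kernel

noncomputable def R_17315938563 : Rec := ⟨nat_lit 17315938563, nat_lit 4,
  [⟨V6_15151677633, [(nat_lit 36, nat_lit 17315938563), (nat_lit 80, nat_lit 18389680386), (nat_lit 121, nat_lit 18389680323), (nat_lit 41, nat_lit 18372903171), (nat_lit 5, nat_lit 19463422209), (nat_lit 81, nat_lit 19463422146), (nat_lit 124, nat_lit 19446644994), (nat_lit 109, nat_lit 19446644931), (nat_lit 94, nat_lit 20537163969), (nat_lit 122, nat_lit 20520386817), (nat_lit 73, nat_lit 20520386754), (nat_lit 121, nat_lit 21594128577)]⟩],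
  [W_17315152064, W_16241410304, W_15167930624]⟩
theorem C_17315938563 : chkRec R_17315938563 = true := by decide +kernel

noncomputable def R_17315942595 : Rec := ⟨nat_lit 17315942595, nat_lit 3,
  [⟨V6_14077931715, [(nat_lit 79, nat_lit 17315942595), (nat_lit 36, nat_lit 18389680323), (nat_lit 20, nat_lit 18372907203), (nat_lit 84, nat_lit 19463418051), (nat_lit 32, nat_lit 19446644931), (nat_lit 26, nat_lit 20520382659)]⟩,
   ⟨V6_13004198082, [(nat_lit 3, nat_lit 17315942595), (nat_lit 27, nat_lit 18389684418), (nat_lit 83, nat_lit 18372907203), (nat_lit 88, nat_lit 19446649026)]⟩],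
  [W_17298636992, W_16241672384]⟩
theorem C_17315942595 : chkRec R_17315942595 = true := by decide +kernel

noncomputable def R_17315942658 : Rec := ⟨nat_lit 17315942658, nat_lit 8,
  [⟨V6_15151157442, [(nat_lit 6, nat_lit 17315942658), (nat_lit 114, nat_lit 18389684418), (nat_lit 20, nat_lit 18389422338), (nat_lit 92, nat_lit 18372907266), (nat_lit 36, nat_lit 19463164098), (nat_lit 75, nat_lit 19462902018), (nat_lit 17, nat_lit 19446649026), (nat_lit 42, nat_lit 19446386946), (nat_lit 17, nat_lit 20536643778), (nat_lit 74, nat_lit 20520128706), (nat_lit 74, nat_lit 20519866626), (nat_lit 79, nat_lit 21593608386)]⟩,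
   ⟨V6_14077939968, [(nat_lit 91, nat_lit 17315942658), (nat_lit 62, nat_lit 18389684481), (nat_lit 31, nat_lit 18372907266), (nat_lit 69, nat_lit 19463426304), (nat_lit 105, nat_lit 19446649089), (nat_lit 51, nat_lit 20520390912)]⟩,
   ⟨V6_14077939842, [(nat_lit 3, nat_lit 17315942658), (nat_lit 122, nat_lit 18389684418), (nat_lit 63, nat_lit 18372907266), (nat_lit 119, nat_lit 19463426178), (nat_lit 123, nat_lit 19446649026), (nat_lit 108, nat_lit 20520390786)]⟩,
   ⟨V6_13004198082, [(nat_lit 62, nat_lit 17315942658), (nat_lit 50, nat_lit 18389684418), (nat_lit 19, nat_lit 18372907266), (nat_lit 119, nat_lit 19446649026)]⟩],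
  [W_17315414144, W_17298899072, W_14094450944]⟩
theorem C_17315942658 : chkRec R_17315942658 = true := by decide +kernel

noncomputable def R_17315942721 : Rec := ⟨nat_lit 17315942721, nat_lit 5,
  [⟨V6_14077939905, [(nat_lit 86, nat_lit 17315942721), (nat_lit 83, nat_lit 18389684481), (nat_lit 109, nat_lit 18372907329), (nat_lit 103, nat_lit 19463426241), (nat_lit 5, nat_lit 19446649089), (nat_lit 10, nat_lit 20520390849)]⟩],
  [W_17315418176, W_17298903104, W_11947233536]⟩
theorem C_17315942721 : chkRec R_17315942721 = true := by decide +kernel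

noncomputable def R_17315946690 : Rec := ⟨nat_lit 17315946690, nat_lit 11,
  [⟨V6_14077944000, [(nat_lit 50, nat_lit 17315946690), (nat_lit 55, nat_lit 18389688513), (nat_lit 91, nat_lit 18372911298), (nat_lit 10, nat_lit 19463430336), (nat_lit 87, nat_lit 19446653121), (nat_lit 35, nat_lit 20520394944)]⟩,
   ⟨V6_14077939842, [(nat_lit 39, nat_lit 17315946690), (nat_lit 119, nat_lit 18389688450), (nat_lit 68, nat_lit 18389684418), (nat_lit 106, nat_lit 18372911298), (nat_lit 42, nat_lit 19463426178), (nat_lit 25, nat_lit 19446653058), (nat_lit 15, nat_lit 19446649026), (nat_lit 114, nat_lit 20520390786)]⟩,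
   ⟨V6_14077681794, [(nat_lit 116, nat_lit 17315946690), (nat_lit 13, nat_lit 18389688450), (nat_lit 96, nat_lit 18389426370), (nat_lit 54, nat_lit 18372911298), (nat_lit 71, nat_lit 19463168130), (nat_lit 110, nat_lit 19446653058), (nat_lit 99, nat_lit 19446390978), (nat_lit 26, nat_lit 20520132738)]⟩,
   ⟨V6_13004198082, [(nat_lit 51, nat_lit 17315946690), (nat_lit 82, nat_lit 18389684418), (nat_lit 111, nat_lit 18372911298), (nat_lit 30, nat_lit 19446649026)]⟩],
  [W_17315672192, W_17298895040, W_16241930432, W_16225415360, W_15151423616]⟩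
theorem C_17315946690 : chkRec R_17315946690 = true := by decide +kernel

noncomputable def R_17315946753 : Rec := ⟨nat_lit 17315946753, nat_lit 18,
  [⟨V6_17299161153, [(nat_lit 33, nat_lit 17315946753), (nat_lit 15, nat_lit 18389688513), (nat_lit 26, nat_lit 18389684481), (nat_lit 18, nat_lit 18372911361), (nat_lit 11, nat_lit 19463430273), (nat_lit 97, nat_lit 19463426241), (nat_lit 35, nat_lit 19463422209), (nat_lit 30, nat_lit 19446653121), (nat_lit 59, nat_lit 19446649089), (nat_lit 69, nat_lit 20537172033), (nat_lit 112, nat_lit 20537168001), (nat_lit 122, nat_lit 20537163969), (nat_lit 105, nat_lit 20520394881), (nat_lit 63, nat_lit 20520390849), (nat_lit 52, nat_lit 20520386817), (nat_lit 16, nat_lit 21610909761), (nat_lit 21, nat_lit 21610905729), (nat_lit 73, nat_lit 21594136641), (nat_lit 32, nat_lit 21594132609), (nat_lit 3, nat_lit 21594128577), (nat_lit 54, nat_lit 22684647489), (nat_lit 1, nat_lit 22667874369), (nat_lit 38, nat_lit 22667870337), (nat_lit 69, nat_lit 23741612097)]⟩,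
   ⟨V6_15151685697, [(nat_lit 74, nat_lit 17315946753), (nat_lit 45, nat_lit 18389688513), (nat_lit 53, nat_lit 18372911361), (nat_lit 118, nat_lit 19463430273), (nat_lit 89, nat_lit 19446653121), (nat_lit 78, nat_lit 20537172033), (nat_lit 94, nat_lit 20520394881), (nat_lit 7, nat_lit 21594136641)]⟩,
   ⟨V6_14077939968, [(nat_lit 53, nat_lit 17315946753), (nat_lit 66, nat_lit 18389688576), (nat_lit 79, nat_lit 18389684481), (nat_lit 49, nat_lit 18372911361), (nat_lit 54, nat_lit 19463426304), (nat_lit 117, nat_lit 19446653184), (nat_lit 95, nat_lit 19446649089), (nat_lit 49, nat_lit 20520390912)]⟩],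
  [W_16242196544, W_15168200768, W_14094721088, W_14094450944, W_11947233536]⟩
theorem C_17315946753 : chkRec R_17315946753 = true := by decide +kernel

noncomputable def R_17315946816 : Rec := ⟨nat_lit 17315946816, nat_lit 15,
  [⟨V6_16242204672, [(nat_lit 11, nat_lit 17315946816), (nat_lit 63, nat_lit 18389688576), (nat_lit 98, nat_lit 19463430336), (nat_lit 54, nat_lit 20537172096), (nat_lit 36, nat_lit 21610913856), (nat_lit 24, nat_lit 22684655616)]⟩],
  [W_17315680256, W_17298907136, W_17298903104, W_15151419584, W_13003940096, W_10873233728]⟩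
theorem C_17315946816 : chkRec R_17315946816 = true := by decide +kernel

noncomputable def R_17315950722 : Rec := ⟨nat_lit 17315950722, nat_lit 2,
  [⟨V6_14077939842, [(nat_lit 86, nat_lit 17315950722), (nat_lit 116, nat_lit 18389688450), (nat_lit 41, nat_lit 18372915330), (nat_lit 105, nat_lit 19463426178), (nat_lit 60, nat_lit 19446653058), (nat_lit 1, nat_lit 20520390786)]⟩,
   ⟨V6_11947237506, [(nat_lit 70, nat_lit 17315950722), (nat_lit 60, nat_lit 18389688450)]⟩],
  [W_17315930240]⟩
theorem C_17315950722 : chkRec R_17315950722 = true := by decide +kernel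

noncomputable def R_17315950785 : Rec := ⟨nat_lit 17315950785, nat_lit 8,
  [⟨V6_16225415361, [(nat_lit 90, nat_lit 17315950785), (nat_lit 90, nat_lit 18389688513), (nat_lit 86, nat_lit 18372915393), (nat_lit 13, nat_lit 19463426241), (nat_lit 65, nat_lit 19446653121), (nat_lit 51, nat_lit 20537163969), (nat_lit 42, nat_lit 20520390849), (nat_lit 80, nat_lit 21610901697), (nat_lit 8, nat_lit 21594128577), (nat_lit 62, nat_lit 22667866305)]⟩,
   ⟨V6_13020983361, [(nat_lit 2, nat_lit 17315950785), (nat_lit 110, nat_lit 18389692545), (nat_lit 33, nat_lit 19463434305)]⟩,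
   ⟨V6_10873499841, [(nat_lit 78, nat_lit 17315950785)]⟩],
  [W_17315934272, W_14094721088]⟩
theorem C_17315950785 : chkRec R_17315950785 = true := by decide +kernel

noncomputable def R_17315950848 : Rec := ⟨nat_lit 17315950848, nat_lit 9,
  [⟨V6_14094725184, [(nat_lit 111, nat_lit 17315950848), (nat_lit 89, nat_lit 18389692608), (nat_lit 86, nat_lit 19463434368), (nat_lit 91, nat_lit 20537176128)]⟩,
   ⟨V6_14077939968, [(nat_lit 109, nat_lit 17315950848), (nat_lit 85, nat_lit 18389688576), (nat_lit 18, nat_lit 18372915456), (nat_lit 43, nat_lit 19463426304), (nat_lit 79, nat_lit 19446653184), (nat_lit 50, nat_lit 20520390912)]⟩],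
  [W_17315938304, W_17299165184, W_13020971264]⟩
theorem C_17315950848 : chkRec R_17315950848 = true := by decide +kernel

noncomputable def R_17316200643 : Rec := ⟨nat_lit 17316200643, nat_lit 1,
  [⟨V6_11947491522, [(nat_lit 85, nat_lit 17316200643), (nat_lit 2, nat_lit 18389942466)]⟩],
  [W_17315152064]⟩
theorem C_17316200643 : chkRec R_17316200643 = true := by decide +kernel

noncomputable def R_17316200706 : Rec := ⟨nat_lit 17316200706, nat_lit 9,
  [⟨V6_13021233408, [(nat_lit 67, nat_lit 17316200706), (nat_lit 90, nat_lit 18389942529), (nat_lit 2, nat_lit 19463684352)]⟩],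
  [W_17315414144, W_17315152064, W_16241410304, W_14094450944]⟩
theorem C_17316200706 : chkRec R_17316200706 = true := by decide +kernel

noncomputable def R_17316204738 : Rec := ⟨nat_lit 17316204738, nat_lit 9,
  [⟨V6_15168712896, [(nat_lit 105, nat_lit 17316204738), (nat_lit 58, nat_lit 18389946561), (nat_lit 95, nat_lit 18389942466), (nat_lit 56, nat_lit 19463688384), (nat_lit 34, nat_lit 19463684289), (nat_lit 83, nat_lit 19463680194), (nat_lit 18, nat_lit 20537426112), (nat_lit 16, nat_lit 20537422017), (nat_lit 91, nat_lit 21611163840)]⟩,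
   ⟨V6_11947491522, [(nat_lit 56, nat_lit 17316204738), (nat_lit 68, nat_lit 18389942466)]⟩,
   ⟨V6_10873753794, [(nat_lit 23, nat_lit 17316204738)]⟩],
  [W_17315414144, W_16242192512, W_16241930432]⟩
theorem C_17316204738 : chkRec R_17316204738 = true := by decide +kernel

noncomputable def R_17316204801 : Rec := ⟨nat_lit 17316204801, nat_lit 17,
  [⟨V6_14094979137, [(nat_lit 73, nat_lit 17316204801), (nat_lit 94, nat_lit 18389946561), (nat_lit 68, nat_lit 19463688321), (nat_lit 69, nat_lit 20537430081)]⟩,
   ⟨V6_11947495680, [(nat_lit 102, nat_lit 17316204801), (nat_lit 36, nat_lit 18389946624)]⟩,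
   ⟨V6_10873753857, [(nat_lit 84, nat_lit 17316204801)]⟩],
  [W_17315676224, W_17315414144, W_16242196544, W_15167930624]⟩
theorem C_17316204801 : chkRec R_17316204801 = true := by decide +kernel

noncomputable def R_17316204864 : Rec := ⟨nat_lit 17316204864, nat_lit 8,
  [⟨V6_16242462720, [(nat_lit 23, nat_lit 17316204864), (nat_lit 74, nat_lit 18389946624), (nat_lit 101, nat_lit 19463688384), (nat_lit 9, nat_lit 20537430144), (nat_lit 6, nat_lit 21611171904), (nat_lit 4, nat_lit 22684913664)]⟩],
  [W_17315680256, W_17315418176]⟩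
theorem C_17316204864 : chkRec R_17316204864 = true := by decide +kernel

noncomputable def R_17316208770 : Rec := ⟨nat_lit 17316208770, nat_lit 12,
  [⟨V6_16242450561, [(nat_lit 96, nat_lit 17316208770), (nat_lit 22, nat_lit 18389950593), (nat_lit 124, nat_lit 18389946498), (nat_lit 51, nat_lit 19463688321), (nat_lit 25, nat_lit 19463684226), (nat_lit 60, nat_lit 20537426049), (nat_lit 122, nat_lit 20537421954), (nat_lit 38, nat_lit 21611163777), (nat_lit 121, nat_lit 21611159682), (nat_lit 64, nat_lit 22684901505)]⟩,
   ⟨V6_15168708738, [(nat_lit 29, nat_lit 17316208770), (nat_lit 54, nat_lit 18389946498), (nat_lit 113, nat_lit 19463684226), (nat_lit 124, nat_lit 20537421954), (nat_lit 94, nat_lit 21611159682)]⟩],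
  [W_15168454784, W_15168196736, W_14094459008]⟩
theorem C_17316208770 : chkRec R_17316208770 = true := by decide +kernel

noncomputable def R_17316208833 : Rec := ⟨nat_lit 17316208833, nat_lit 21,
  [⟨V6_15168720960, [(nat_lit 49, nat_lit 17316208833), (nat_lit 115, nat_lit 18389950656), (nat_lit 3, nat_lit 18389950593), (nat_lit 61, nat_lit 18389946561), (nat_lit 86, nat_lit 19463692416), (nat_lit 68, nat_lit 19463692353), (nat_lit 80, nat_lit 19463688384), (nat_lit 75, nat_lit 19463688321), (nat_lit 45, nat_lit 20537434176), (nat_lit 94, nat_lit 20537430144), (nat_lit 14, nat_lit 20537430081), (nat_lit 90, nat_lit 21611171904)]⟩],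
  [W_17315934272, W_16242196544, W_16241930432, W_15168200768]⟩
theorem C_17316208833 : chkRec R_17316208833 = true := by decide +kernel

noncomputable def R_17316208896 : Rec := ⟨nat_lit 17316208896, nat_lit 34,
  [⟨V6_17315684352, [(nat_lit 104, nat_lit 17316208896), (nat_lit 115, nat_lit 18389950656), (nat_lit 62, nat_lit 18389688576), (nat_lit 121, nat_lit 19463692416), (nat_lit 44, nat_lit 19463430336), (nat_lit 6, nat_lit 19463168256), (nat_lit 63, nat_lit 20537434176), (nat_lit 123, nat_lit 20537172096), (nat_lit 113, nat_lit 20536910016), (nat_lit 9, nat_lit 21611175936), (nat_lit 85, nat_lit 21610913856), (nat_lit 126, nat_lit 21610651776), (nat_lit 86, nat_lit 22684655616), (nat_lit 25, nat_lit 22684393536), (nat_lit 27, nat_lit 23758135296)]⟩,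
   ⟨V6_15168724992, [(nat_lit 43, nat_lit 17316208896), (nat_lit 75, nat_lit 18389950656), (nat_lit 65, nat_lit 19463692416), (nat_lit 66, nat_lit 20537434176), (nat_lit 59, nat_lit 21611175936)]⟩],
  [W_17315938304, W_16242458624, W_16242196544, W_14094450944, W_13021233344, W_13020971264, W_11947491584]⟩
theorem C_17316208896 : chkRec R_17316208896 = true := by decide +kernel

noncomputable def R_17316212865 : Rec := ⟨nat_lit 17316212865, nat_lit 15,
  [⟨V6_16242450561, [(nat_lit 55, nat_lit 17316212865), (nat_lit 119, nat_lit 18389950593), (nat_lit 50, nat_lit 19463688321), (nat_lit 126, nat_lit 20537426049), (nat_lit 56, nat_lit 21611163777), (nat_lit 20, nat_lit 22684901505)]⟩,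
   ⟨V6_14094979137, [(nat_lit 21, nat_lit 17316212865), (nat_lit 9, nat_lit 18389954625), (nat_lit 54, nat_lit 18389950593), (nat_lit 114, nat_lit 19463692353), (nat_lit 122, nat_lit 19463688321), (nat_lit 126, nat_lit 20537430081)]⟩,
   ⟨V6_13020983361, [(nat_lit 33, nat_lit 17316212865), (nat_lit 84, nat_lit 18389954625), (nat_lit 75, nat_lit 18389692545), (nat_lit 40, nat_lit 19463434305)]⟩],
  [W_17316192320, W_17315934272, W_16242450560]⟩
theorem C_17316212865 : chkRec R_17316212865 = true := by decide +kernel

noncomputable def R_17316212928 : Rec := ⟨nat_lit 17316212928, nat_lit 23,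
  [⟨V6_15168724992, [(nat_lit 70, nat_lit 17316212928), (nat_lit 114, nat_lit 18389954688), (nat_lit 119, nat_lit 18389950656), (nat_lit 47, nat_lit 19463696448), (nat_lit 59, nat_lit 19463692416), (nat_lit 92, nat_lit 20537438208), (nat_lit 72, nat_lit 20537434176), (nat_lit 52, nat_lit 21611175936)]⟩,
   ⟨V6_14094987264, [(nat_lit 92, nat_lit 17316212928), (nat_lit 124, nat_lit 18389954688), (nat_lit 116, nat_lit 19463696448), (nat_lit 113, nat_lit 20537438208)]⟩],
  [W_17315938304, W_17315934272, W_15168712832, W_15168450752, W_10873761920]⟩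
theorem C_17316212928 : chkRec R_17316212928 = true := by decide +kernel

noncomputable def R_17316216897 : Rec := ⟨nat_lit 17316216897, nat_lit 4,
  [⟨V6_14094979137, [(nat_lit 29, nat_lit 17316216897), (nat_lit 69, nat_lit 18389954625), (nat_lit 89, nat_lit 19463692353), (nat_lit 3, nat_lit 20537430081)]⟩],
  [W_17316192320]⟩
theorem C_17316216897 : chkRec R_17316216897 = true := by decide +kernel

noncomputable def R_17316216960 : Rec := ⟨nat_lit 17316216960, nat_lit 17,
  [⟨V6_17316192384, [(nat_lit 124, nat_lit 17316216960), (nat_lit 80, nat_lit 18389954688), (nat_lit 1, nat_lit 19463692416), (nat_lit 29, nat_lit 20537430144), (nat_lit 94, nat_lit 21611167872), (nat_lit 60, nat_lit 22684905600), (nat_lit 13, nat_lit 23758643328)]⟩,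
   ⟨V6_13021249536, [(nat_lit 31, nat_lit 17316216960), (nat_lit 88, nat_lit 18389958720), (nat_lit 94, nat_lit 19463700480)]⟩],
  [W_16242458624, W_14094983168, W_11947503680, W_10873761920]⟩
theorem C_17316216960 : chkRec R_17316216960 = true := by decide +kernel

noncomputable def R_17332195587 : Rec := ⟨nat_lit 17332195587, nat_lit 1,
  [⟨V6_11963486466, [(nat_lit 26, nat_lit 17332195587), (nat_lit 29, nat_lit 18405937410)]⟩],
  [W_17298636992]⟩
theorem C_17332195587 : chkRec R_17332195587 = true := by decide +kernel

noncomputable def R_17332453635 : Rec := ⟨nat_lit 17332453635, nat_lit 5,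
  [⟨V6_16208380161, [(nat_lit 79, nat_lit 17332453635), (nat_lit 12, nat_lit 18406195458), (nat_lit 109, nat_lit 18389418243), (nat_lit 3, nat_lit 19479937281), (nat_lit 120, nat_lit 19463160066), (nat_lit 43, nat_lit 19446382851), (nat_lit 62, nat_lit 20536901889), (nat_lit 59, nat_lit 20520124674), (nat_lit 121, nat_lit 20503347459), (nat_lit 65, nat_lit 21593866497), (nat_lit 23, nat_lit 21577089282), (nat_lit 124, nat_lit 22650831105)]⟩,
   ⟨V6_15134638338, [(nat_lit 82, nat_lit 17332453635), (nat_lit 80, nat_lit 18406195458), (nat_lit 99, nat_lit 18389418243), (nat_lit 48, nat_lit 19463160066), (nat_lit 50, nat_lit 19446382851), (nat_lit 13, nat_lit 20520124674), (nat_lit 21, nat_lit 20503347459), (nat_lit 119, nat_lit 21577089282)]⟩],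
  [W_17315152064, W_16241410304, W_14094450944]⟩
theorem C_17332453635 : chkRec R_17332453635 = true := by decide +kernel

noncomputable def R_17332457667 : Rec := ⟨nat_lit 17332457667, nat_lit 4,
  [⟨V6_16208384193, [(nat_lit 56, nat_lit 17332457667), (nat_lit 113, nat_lit 18406199490), (nat_lit 21, nat_lit 18389422275), (nat_lit 60, nat_lit 19479941313), (nat_lit 114, nat_lit 19463164098), (nat_lit 98, nat_lit 19446386883), (nat_lit 97, nat_lit 20536905921), (nat_lit 37, nat_lit 20520128706), (nat_lit 7, nat_lit 20503351491), (nat_lit 30, nat_lit 21593870529), (nat_lit 79, nat_lit 21577093314), (nat_lit 67, nat_lit 22650835137)]⟩,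
   ⟨V6_13037482179, [(nat_lit 104, nat_lit 17332457667), (nat_lit 73, nat_lit 18406195395), (nat_lit 90, nat_lit 19479933123)]⟩],
  [W_16258445504, W_16241930432, W_14110970048]⟩
theorem C_17332457667 : chkRec R_17332457667 = true := by decide +kernel

noncomputable def R_17332457730 : Rec := ⟨nat_lit 17332457730, nat_lit 11,
  [⟨V6_16208384256, [(nat_lit 101, nat_lit 17332457730), (nat_lit 101, nat_lit 18406199553), (nat_lit 64, nat_lit 18389422338), (nat_lit 95, nat_lit 19479941376), (nat_lit 73, nat_lit 19463164161), (nat_lit 30, nat_lit 19446386946), (nat_lit 115, nat_lit 20536905984), (nat_lit 87, nat_lit 20520128769), (nat_lit 117, nat_lit 20503351554), (nat_lit 71, nat_lit 21593870592), (nat_lit 77, nat_lit 21577093377), (nat_lit 123, nat_lit 22650835200)]⟩,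
   ⟨V6_15151419522, [(nat_lit 123, nat_lit 17332457730), (nat_lit 117, nat_lit 18406199490), (nat_lit 49, nat_lit 18389422338), (nat_lit 15, nat_lit 19479941250), (nat_lit 68, nat_lit 19463164098), (nat_lit 124, nat_lit 19446386946), (nat_lit 65, nat_lit 20536905858), (nat_lit 91, nat_lit 20520128706), (nat_lit 12, nat_lit 21593870466)]⟩,
   ⟨V6_15134638338, [(nat_lit 1, nat_lit 17332457730), (nat_lit 25, nat_lit 18406195458), (nat_lit 40, nat_lit 18389422338), (nat_lit 67, nat_lit 19463160066), (nat_lit 68, nat_lit 19446386946), (nat_lit 116, nat_lit 20520124674), (nat_lit 91, nat_lit 20503351554), (nat_lit 60, nat_lit 21577089282)]⟩,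
   ⟨V6_14060900610, [(nat_lit 16, nat_lit 17332457730), (nat_lit 58, nat_lit 18389422338), (nat_lit 16, nat_lit 19446386946), (nat_lit 12, nat_lit 20503351554)]⟩],
  [W_17315414144, W_15184969856, W_14110970048]⟩
theorem C_17332457730 : chkRec R_17332457730 = true := by decide +kernel

noncomputable def R_17332457793 : Rec := ⟨nat_lit 17332457793, nat_lit 6,
  [⟨V6_15151157505, [(nat_lit 27, nat_lit 17332457793), (nat_lit 78, nat_lit 18406199553), (nat_lit 35, nat_lit 18405937473), (nat_lit 3, nat_lit 18389422401), (nat_lit 82, nat_lit 19479679233), (nat_lit 60, nat_lit 19463164161), (nat_lit 70, nat_lit 19462902081), (nat_lit 28, nat_lit 19446387009), (nat_lit 51, nat_lit 20536643841), (nat_lit 68, nat_lit 20520128769), (nat_lit 100, nat_lit 20519866689), (nat_lit 119, nat_lit 21593608449)]⟩,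
   ⟨V6_15134642433, [(nat_lit 100, nat_lit 17332457793), (nat_lit 8, nat_lit 18406199553), (nat_lit 98, nat_lit 18389422401), (nat_lit 66, nat_lit 19463164161), (nat_lit 102, nat_lit 19446387009), (nat_lit 36, nat_lit 20520128769), (nat_lit 65, nat_lit 20503351617), (nat_lit 93, nat_lit 21577093377)]⟩,
   ⟨V6_14077677888, [(nat_lit 26, nat_lit 17332457793), (nat_lit 51, nat_lit 18406199616), (nat_lit 91, nat_lit 18389422401), (nat_lit 19, nat_lit 19463164224), (nat_lit 118, nat_lit 19446387009), (nat_lit 122, nat_lit 20520128832)]⟩,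
   ⟨V6_13037228352, [(nat_lit 88, nat_lit 17332457793), (nat_lit 26, nat_lit 18406199616), (nat_lit 27, nat_lit 18405937473), (nat_lit 18, nat_lit 19479679296)]⟩],
  [W_17315418176, W_15184973888]⟩
theorem C_17332457793 : chkRec R_17332457793 = true := by decide +kernel

noncomputable def R_17332461762 : Rec := ⟨nat_lit 17332461762, nat_lit 13,
  [⟨V6_15151419522, [(nat_lit 99, nat_lit 17332461762), (nat_lit 63, nat_lit 18406203522), (nat_lit 80, nat_lit 18406199490), (nat_lit 78, nat_lit 18389426370), (nat_lit 62, nat_lit 19479941250), (nat_lit 39, nat_lit 19463168130), (nat_lit 40, nat_lit 19463164098), (nat_lit 39, nat_lit 19446390978), (nat_lit 106, nat_lit 20536905858), (nat_lit 44, nat_lit 20520132738), (nat_lit 106, nat_lit 20520128706), (nat_lit 62, nat_lit 21593870466)]⟩,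
   ⟨V6_15134646465, [(nat_lit 37, nat_lit 17332461762), (nat_lit 21, nat_lit 18406203585), (nat_lit 104, nat_lit 18389426370), (nat_lit 30, nat_lit 19463168193), (nat_lit 52, nat_lit 19446390978), (nat_lit 19, nat_lit 20520132801), (nat_lit 110, nat_lit 20503355586), (nat_lit 41, nat_lit 21577097409)]⟩,
   ⟨V6_15134646402, [(nat_lit 46, nat_lit 17332461762), (nat_lit 45, nat_lit 18406203522), (nat_lit 53, nat_lit 18389426370), (nat_lit 121, nat_lit 19463168130), (nat_lit 17, nat_lit 19446390978), (nat_lit 81, nat_lit 20520132738), (nat_lit 97, nat_lit 20503355586), (nat_lit 81, nat_lit 21577097346)]⟩,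
   ⟨V6_14077681794, [(nat_lit 108, nat_lit 17332461762), (nat_lit 104, nat_lit 18406203522), (nat_lit 36, nat_lit 18389426370), (nat_lit 124, nat_lit 19463168130), (nat_lit 45, nat_lit 19446390978), (nat_lit 99, nat_lit 20520132738)]⟩,
   ⟨V6_14060904642, [(nat_lit 78, nat_lit 17332461762), (nat_lit 124, nat_lit 18389426370), (nat_lit 78, nat_lit 19446390978), (nat_lit 122, nat_lit 20503355586)]⟩],
  [W_16241930432, W_16208388224, W_15184969856, W_13037494400]⟩
theorem C_17332461762 : chkRec R_17332461762 = true := by decide +kernel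

noncomputable def R_17332461825 : Rec := ⟨nat_lit 17332461825, nat_lit 23,
  [⟨V6_16225165440, [(nat_lit 89, nat_lit 17332461825), (nat_lit 100, nat_lit 18406203648), (nat_lit 61, nat_lit 18406203585), (nat_lit 53, nat_lit 18389426433), (nat_lit 85, nat_lit 19479945408), (nat_lit 90, nat_lit 19479945345), (nat_lit 115, nat_lit 19463168256), (nat_lit 55, nat_lit 19463168193), (nat_lit 59, nat_lit 19446391041), (nat_lit 50, nat_lit 20553687168), (nat_lit 61, nat_lit 20536910016), (nat_lit 59, nat_lit 20536909953), (nat_lit 120, nat_lit 20520132864), (nat_lit 32, nat_lit 20520132801), (nat_lit 41, nat_lit 21610651776), (nat_lit 7, nat_lit 21593874624), (nat_lit 125, nat_lit 21593874561), (nat_lit 64, nat_lit 22667616384)]⟩,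
   ⟨V6_16225165377, [(nat_lit 31, nat_lit 17332461825), (nat_lit 86, nat_lit 18406203585), (nat_lit 36, nat_lit 18389426433), (nat_lit 55, nat_lit 19479945345), (nat_lit 64, nat_lit 19463168193), (nat_lit 52, nat_lit 19446391041), (nat_lit 76, nat_lit 20553687105), (nat_lit 6, nat_lit 20536909953), (nat_lit 5, nat_lit 20520132801), (nat_lit 71, nat_lit 21610651713), (nat_lit 67, nat_lit 21593874561), (nat_lit 59, nat_lit 22667616321)]⟩,
   ⟨V6_16208380161, [(nat_lit 19, nat_lit 17332461825), (nat_lit 16, nat_lit 18406199553), (nat_lit 48, nat_lit 18389426433), (nat_lit 5, nat_lit 19479937281), (nat_lit 2, nat_lit 19463164161), (nat_lit 44, nat_lit 19446391041), (nat_lit 46, nat_lit 20536901889), (nat_lit 33, nat_lit 20520128769), (nat_lit 107, nat_lit 20503355649), (nat_lit 108, nat_lit 21593866497), (nat_lit 126, nat_lit 21577093377), (nat_lit 45, nat_lit 22650831105)]⟩],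
  [W_16208380160, W_15184973888, W_15184969856, W_14111236160, W_13037494400, W_11963748608, W_10890010880]⟩
theorem C_17332461825 : chkRec R_17332461825 = true := by decide +kernel

noncomputable def R_17332461888 : Rec := ⟨nat_lit 17332461888, nat_lit 19,
  [⟨V6_16258719744, [(nat_lit 15, nat_lit 17332461888), (nat_lit 109, nat_lit 18406203648), (nat_lit 99, nat_lit 19479945408), (nat_lit 39, nat_lit 20553687168), (nat_lit 26, nat_lit 21627428928), (nat_lit 102, nat_lit 22701170688)]⟩],
  [W_17315680256, W_17298903104, W_17282129984, W_16208388224, W_13003940096, W_10890010880, W_10873233728]⟩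
theorem C_17332461888 : chkRec R_17332461888 = true := by decide +kernel

noncomputable def R_17332715715 : Rec := ⟨nat_lit 17332715715, nat_lit 6,
  [⟨V6_15151677633, [(nat_lit 39, nat_lit 17332715715), (nat_lit 29, nat_lit 18406457538), (nat_lit 90, nat_lit 18389680323), (nat_lit 97, nat_lit 19480199361), (nat_lit 75, nat_lit 19463422146), (nat_lit 25, nat_lit 19446644931), (nat_lit 63, nat_lit 20537163969), (nat_lit 33, nat_lit 20520386754), (nat_lit 28, nat_lit 21594128577)]⟩],
  [W_17331925184, W_17315152064, W_14111486144]⟩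
theorem C_17332715715 : chkRec R_17332715715 = true := by decide +kernel

noncomputable def R_17332715778 : Rec := ⟨nat_lit 17332715778, nat_lit 11,
  [⟨V6_16258187520, [(nat_lit 55, nat_lit 17332715778), (nat_lit 81, nat_lit 18406457601), (nat_lit 98, nat_lit 18406195458), (nat_lit 30, nat_lit 19480199424), (nat_lit 15, nat_lit 19479937281), (nat_lit 79, nat_lit 19479675138), (nat_lit 85, nat_lit 20553679104), (nat_lit 56, nat_lit 20553416961), (nat_lit 109, nat_lit 20553154818), (nat_lit 106, nat_lit 21627158784), (nat_lit 47, nat_lit 21626896641), (nat_lit 110, nat_lit 22700638464)]⟩,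
   ⟨V6_15151677633, [(nat_lit 3, nat_lit 17332715778), (nat_lit 9, nat_lit 18406457601), (nat_lit 5, nat_lit 18406457538), (nat_lit 99, nat_lit 18389680386), (nat_lit 1, nat_lit 19480199361), (nat_lit 55, nat_lit 19463422209), (nat_lit 89, nat_lit 19463422146), (nat_lit 119, nat_lit 19446644994), (nat_lit 8, nat_lit 20537163969), (nat_lit 32, nat_lit 20520386817), (nat_lit 63, nat_lit 20520386754), (nat_lit 34, nat_lit 21594128577)]⟩],
  [W_17331929216, W_15184969856, W_13020971264]⟩
theorem C_17332715778 : chkRec R_17332715778 = true := by decide +kernel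

noncomputable def R_17332719810 : Rec := ⟨nat_lit 17332719810, nat_lit 20,
  [⟨V6_16225415361, [(nat_lit 101, nat_lit 17332719810), (nat_lit 96, nat_lit 18406461633), (nat_lit 75, nat_lit 18406457538), (nat_lit 46, nat_lit 18389684418), (nat_lit 73, nat_lit 19480199361), (nat_lit 60, nat_lit 19480195266), (nat_lit 114, nat_lit 19463426241), (nat_lit 91, nat_lit 19463422146), (nat_lit 120, nat_lit 19446649026), (nat_lit 86, nat_lit 20553937089), (nat_lit 81, nat_lit 20537163969), (nat_lit 123, nat_lit 20537159874), (nat_lit 73, nat_lit 20520390849), (nat_lit 112, nat_lit 20520386754), (nat_lit 35, nat_lit 21610901697), (nat_lit 11, nat_lit 21594128577), (nat_lit 89, nat_lit 21594124482), (nat_lit 19, nat_lit 22667866305)]⟩,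
   ⟨V6_15151681728, [(nat_lit 5, nat_lit 17332719810), (nat_lit 45, nat_lit 18406461633), (nat_lit 46, nat_lit 18389684418), (nat_lit 120, nat_lit 19480203456), (nat_lit 119, nat_lit 19463426241), (nat_lit 1, nat_lit 19446649026), (nat_lit 62, nat_lit 20537168064), (nat_lit 115, nat_lit 20520390849), (nat_lit 116, nat_lit 21594132672)]⟩,
   ⟨V6_14077939905, [(nat_lit 22, nat_lit 17332719810), (nat_lit 11, nat_lit 18406461633), (nat_lit 58, nat_lit 18389684418), (nat_lit 43, nat_lit 19463426241), (nat_lit 85, nat_lit 19446649026), (nat_lit 28, nat_lit 20520390849)]⟩],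
  [W_17332187264, W_17315672192, W_15184969856, W_14111486144]⟩
theorem C_17332719810 : chkRec R_17332719810 = true := by decide +kernel

noncomputable def R_17332719873 : Rec := ⟨nat_lit 17332719873, nat_lit 28,
  [⟨V6_17299161153, [(nat_lit 23, nat_lit 17332719873), (nat_lit 13, nat_lit 18406461633), (nat_lit 63, nat_lit 18406457601), (nat_lit 52, nat_lit 18389684481), (nat_lit 106, nat_lit 19480203393), (nat_lit 53, nat_lit 19480199361), (nat_lit 70, nat_lit 19463426241), (nat_lit 120, nat_lit 19463422209), (nat_lit 76, nat_lit 19446649089), (nat_lit 12, nat_lit 20553945153), (nat_lit 49, nat_lit 20553941121), (nat_lit 87, nat_lit 20537168001), (nat_lit 20, nat_lit 20537163969), (nat_lit 56, nat_lit 20520390849), (nat_lit 85, nat_lit 20520386817), (nat_lit 4, nat_lit 21627682881), (nat_lit 35, nat_lit 21610909761), (nat_lit 96, nat_lit 21610905729), (nat_lit 32, nat_lit 21594132609), (nat_lit 59, nat_lit 21594128577), (nat_lit 12, nat_lit 22684647489), (nat_lit 105, nat_lit 22667874369), (nat_lit 47, nat_lit 22667870337), (nat_lit 101, nat_lit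 23741612097)]⟩,
   ⟨V6_16225423425, [(nat_lit 21, nat_lit 17332719873), (nat_lit 5, nat_lit 18406461633), (nat_lit 8, nat_lit 18389684481), (nat_lit 111, nat_lit 19480203393), (nat_lit 113, nat_lit 19463426241), (nat_lit 68, nat_lit 19446649089), (nat_lit 31, nat_lit 20553945153), (nat_lit 86, nat_lit 20537168001), (nat_lit 114, nat_lit 20520390849), (nat_lit 44, nat_lit 21610909761), (nat_lit 29, nat_lit 21594132609), (nat_lit 126, nat_lit 22667874369)]⟩,
   ⟨V6_15151681665, [(nat_lit 28, nat_lit 17332719873), (nat_lit 70, nat_lit 18406461633), (nat_lit 38, nat_lit 18389684481), (nat_lit 22, nat_lit 19480203393), (nat_lit 32, nat_lit 19463426241), (nat_lit 21, nat_lit 19446649089), (nat_lit 53, nat_lit 20537168001), (nat_lit 125, nat_lit 20520390849), (nat_lit 43, nat_lit 21594132609)]⟩,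
   ⟨V6_14077939968, [(nat_lit 27, nat_lit 17332719873), (nat_lit 9, nat_lit 18406461696), (nat_lit 31, nat_lit 18389684481), (nat_lit 93, nat_lit 19463426304), (nat_lit 103, nat_lit 19446649089), (nat_lit 29, nat_lit 20520390912)]⟩,
   ⟨V6_14077939905, [(nat_lit 100, nat_lit 17332719873), (nat_lit 107, nat_lit 18406461633), (nat_lit 2, nat_lit 18389684481), (nat_lit 102, nat_lit 19463426241), (nat_lit 61, nat_lit 19446649089), (nat_lit 104, nat_lit 20520390849)]⟩],
  [W_16258453568, W_16242196544, W_15185231936, W_15184973888, W_14094450944, W_13020971264]⟩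
theorem C_17332719873 : chkRec R_17332719873 = true := by decide +kernel

noncomputable def R_17332719936 : Rec := ⟨nat_lit 17332719936, nat_lit 18,
  [⟨V6_17315942400, [(nat_lit 54, nat_lit 17332719936), (nat_lit 96, nat_lit 18406461696), (nat_lit 81, nat_lit 18389684544), (nat_lit 66, nat_lit 19480203456), (nat_lit 20, nat_lit 19463426304), (nat_lit 81, nat_lit 20553945216), (nat_lit 18, nat_lit 20537168064), (nat_lit 41, nat_lit 21627686976), (nat_lit 99, nat_lit 21610909824), (nat_lit 1, nat_lit 22701428736), (nat_lit 71, nat_lit 22684651584), (nat_lit 36, nat_lit 23758393344)]⟩,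
   ⟨V6_14077939968, [(nat_lit 101, nat_lit 17332719936), (nat_lit 23, nat_lit 18406461696), (nat_lit 31, nat_lit 18389684544), (nat_lit 116, nat_lit 19463426304), (nat_lit 59, nat_lit 19446649152), (nat_lit 70, nat_lit 20520390912)]⟩],
  [W_17332195328, W_16258453568, W_15184973888, W_14110970048, W_11964010688, W_11963748608]⟩
theorem C_17332719936 : chkRec R_17332719936 = true := by decide +kernel

noncomputable def R_17332723842 : Rec := ⟨nat_lit 17332723842, nat_lit 14,
  [⟨V6_17315930241, [(nat_lit 95, nat_lit 17332723842), (nat_lit 40, nat_lit 18406465665), (nat_lit 94, nat_lit 18406461570), (nat_lit 42, nat_lit 18389688450), (nat_lit 115, nat_lit 19480203393), (nat_lit 97, nat_lit 19480199298), (nat_lit 82, nat_lit 19463430273), (nat_lit 60, nat_lit 19463426178), (nat_lit 81, nat_lit 20553941121), (nat_lit 104, nat_lit 20553937026), (nat_lit 22, nat_lit 20537168001), (nat_lit 66, nat_lit 20537163906), (nat_lit 51, nat_lit 21627678849), (nat_lit 86, nat_lit 21627674754), (nat_lit 94, nat_lit 21610905729), (nat_lit 67, nat_lit 21610901634),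 (nat_lit 16, nat_lit 22701416577), (nat_lit 32, nat_lit 22684643457), (nat_lit 118, nat_lit 22684639362), (nat_lit 107, nat_lit 23758381185)]⟩,
   ⟨V6_14077939842, [(nat_lit 5, nat_lit 17332723842), (nat_lit 16, nat_lit 18406461570), (nat_lit 78, nat_lit 18389688450), (nat_lit 6, nat_lit 19463426178), (nat_lit 66, nat_lit 19446653058), (nat_lit 23, nat_lit 20520390786)]⟩,
   ⟨V6_14077681794, [(nat_lit 80, nat_lit 17332723842), (nat_lit 81, nat_lit 18406203522), (nat_lit 32, nat_lit 18389688450), (nat_lit 119, nat_lit 19463168130), (nat_lit 11, nat_lit 19446653058), (nat_lit 81, nat_lit 20520132738)]⟩],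
  [W_17332445312, W_17299157120, W_15151423616, W_13037494400, W_13020979328, W_11964014720]⟩
theorem C_17332723842 : chkRec R_17332723842 = true := by decide +kernel

noncomputable def R_17332723905 : Rec := ⟨nat_lit 17332723905, nat_lit 40,
  [⟨V6_17299161153, [(nat_lit 34, nat_lit 17332723905), (nat_lit 113, nat_lit 18406465665), (nat_lit 23, nat_lit 18406461633), (nat_lit 75, nat_lit 18389688513), (nat_lit 35, nat_lit 19480207425), (nat_lit 91, nat_lit 19480203393), (nat_lit 21, nat_lit 19480199361), (nat_lit 99, nat_lit 19463430273), (nat_lit 86, nat_lit 19463426241), (nat_lit 28, nat_lit 19446653121), (nat_lit 62, nat_lit 20553945153), (nat_lit 21, nat_lit 20553941121), (nat_lit 4, nat_lit 20537172033), (nat_lit 52, nat_lit 20537168001), (nat_lit 115, nat_lit 20537163969), (nat_lit 24, nat_lit 20520394881), (nat_lit 75, nat_lit 20520390849), (nat_lit 111, nat_lit 21627682881), (nat_lit 86, nat_lit 21610909761), (nat_lit 45, nat_lit 21610905729), (nat_lit 31, nat_lit 21594136641), (nat_lit 123, nat_lit 21594132609), (nat_lit 43, nat_lit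 21594128577), (nat_lit 11, nat_lit 22684647489), (nat_lit 59, nat_lit 22667874369), (nat_lit 66, nat_lit 22667870337), (nat_lit 3, nat_lit 23741612097)]⟩,
   ⟨V6_16225165377, [(nat_lit 22, nat_lit 17332723905), (nat_lit 52, nat_lit 18406465665), (nat_lit 53, nat_lit 18406203585), (nat_lit 89, nat_lit 18389688513), (nat_lit 2, nat_lit 19480207425), (nat_lit 83, nat_lit 19479945345), (nat_lit 2, nat_lit 19463430273), (nat_lit 37, nat_lit 19463168193), (nat_lit 92, nat_lit 19446653121), (nat_lit 98, nat_lit 20553687105), (nat_lit 103, nat_lit 20537172033), (nat_lit 108, nat_lit 20536909953), (nat_lit 65, nat_lit 20520394881), (nat_lit 90, nat_lit 20520132801), (nat_lit 74, nat_lit 21610651713), (nat_lit 4, nat_lit 21594136641), (nat_lit 108, nat_lit 21593874561), (nat_lit 40, nat_lit 22667616321)]⟩,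
   ⟨V6_15151685697, [(nat_lit 38, nat_lit 17332723905), (nat_lit 26, nat_lit 18406465665), (nat_lit 98, nat_lit 18389688513), (nat_lit 26, nat_lit 19480207425), (nat_lit 46, nat_lit 19463430273), (nat_lit 100, nat_lit 19446653121), (nat_lit 126, nat_lit 20537172033), (nat_lit 36, nat_lit 20520394881), (nat_lit 83, nat_lit 21594136641)]⟩,
   ⟨V6_15151677633, [(nat_lit 9, nat_lit 17332723905), (nat_lit 104, nat_lit 18406461633), (nat_lit 34, nat_lit 18389688513), (nat_lit 40, nat_lit 19480199361), (nat_lit 80, nat_lit 19463426241), (nat_lit 52, nat_lit 19446653121), (nat_lit 47, nat_lit 20537163969), (nat_lit 6, nat_lit 20520390849), (nat_lit 89, nat_lit 21594128577)]⟩,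
   ⟨V6_14077944000, [(nat_lit 10, nat_lit 17332723905), (nat_lit 88, nat_lit 18406465728), (nat_lit 35, nat_lit 18389688513), (nat_lit 105, nat_lit 19463430336), (nat_lit 104, nat_lit 19446653121), (nat_lit 86, nat_lit 20520394944)]⟩,
   ⟨V6_14077939905, [(nat_lit 50, nat_lit 17332723905), (nat_lit 33, nat_lit 18406461633), (nat_lit 18, nat_lit 18389688513), (nat_lit 60, nat_lit 19463426241), (nat_lit 25, nat_lit 19446653121), (nat_lit 103, nat_lit 20520390849)]⟩],
  [W_17315934272, W_16242196544, W_15185231936, W_15168200768, W_14111236160, W_14094721088, W_13037494400]⟩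
theorem C_17332723905 : chkRec R_17332723905 = true := by decide +kernel

noncomputable def R_17332723968 : Rec := ⟨nat_lit 17332723968, nat_lit 48,
  [⟨V6_17299169280, [(nat_lit 84, nat_lit 17332723968), (nat_lit 99, nat_lit 18406465728), (nat_lit 30, nat_lit 18389688576), (nat_lit 92, nat_lit 19480207488), (nat_lit 10, nat_lit 19463430336), (nat_lit 6, nat_lit 19446653184), (nat_lit 11, nat_lit 20553949248), (nat_lit 96, nat_lit 20537172096), (nat_lit 92, nat_lit 20520394944), (nat_lit 82, nat_lit 21627691008), (nat_lit 30, nat_lit 21610913856), (nat_lit 82, nat_lit 21594136704), (nat_lit 35, nat_lit 22684655616), (nat_lit 19, nat_lit 22667878464), (nat_lit 69, nat_lit 23741620224)]⟩,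
   ⟨V6_16258719744, [(nat_lit 25, nat_lit 17332723968), (nat_lit 34, nat_lit 18406465728), (nat_lit 26, nat_lit 18406203648), (nat_lit 61, nat_lit 19480207488), (nat_lit 58, nat_lit 19479945408), (nat_lit 113, nat_lit 20553949248), (nat_lit 97, nat_lit 20553687168), (nat_lit 48, nat_lit 21627691008), (nat_lit 19, nat_lit 21627428928), (nat_lit 47, nat_lit 22701170688)]⟩,
   ⟨V6_16242204672, [(nat_lit 40, nat_lit 17332723968), (nat_lit 123, nat_lit 18406465728), (nat_lit 38, nat_lit 18389688576), (nat_lit 80, nat_lit 19480207488), (nat_lit 80, nat_lit 19463430336), (nat_lit 64, nat_lit 20553949248), (nat_lit 31, nat_lit 20537172096), (nat_lit 10, nat_lit 21627691008), (nat_lit 111, nat_lit 21610913856), (nat_lit 16, nat_lit 22684655616)]⟩],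
  [W_17315938304, W_17298899072, W_15185231936, W_15184973888, W_15184969856, W_14111232128, W_14094450944, W_13020971264, W_11947233536]⟩
theorem C_17332723968 : chkRec R_17332723968 = true := by decide +kernel

noncomputable def R_17332727937 : Rec := ⟨nat_lit 17332727937, nat_lit 16,
  [⟨V6_17315930241, [(nat_lit 17, nat_lit 17332727937), (nat_lit 117, nat_lit 18406465665), (nat_lit 93, nat_lit 18389692545), (nat_lit 33, nat_lit 19480203393), (nat_lit 106, nat_lit 19463430273), (nat_lit 59, nat_lit 20553941121), (nat_lit 96, nat_lit 20537168001), (nat_lit 50, nat_lit 21627678849), (nat_lit 101, nat_lit 21610905729), (nat_lit 59, nat_lit 22701416577), (nat_lit 95, nat_lit 22684643457), (nat_lit 53, nat_lit 23758381185)]⟩,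
   ⟨V6_15151689792, [(nat_lit 86, nat_lit 17332727937), (nat_lit 60, nat_lit 18406469760), (nat_lit 4, nat_lit 18406469697), (nat_lit 123, nat_lit 18389692545), (nat_lit 113, nat_lit 19480211520), (nat_lit 31, nat_lit 19463434368), (nat_lit 61, nat_lit 19463434305), (nat_lit 121, nat_lit 19446657153), (nat_lit 47, nat_lit 20537176128), (nat_lit 58, nat_lit 20520398976), (nat_lit 22, nat_lit 20520398913), (nat_lit 41, nat_lit 21594140736)]⟩,
   ⟨V6_15151685697, [(nat_lit 17, nat_lit 17332727937), (nat_lit 113, nat_lit 18406469697), (nat_lit 121, nat_lit 18406465665), (nat_lit 117, nat_lit 18389692545), (nat_lit 26, nat_lit 19480207425), (nat_lit 120, nat_lit 19463434305), (nat_lit 71, nat_lit 19463430273), (nat_lit 24, nat_lit 19446657153), (nat_lit 107, nat_lit 20537172033), (nat_lit 64, nat_lit 20520398913), (nat_lit 75, nat_lit 20520394881), (nat_lit 115, nat_lit 21594136641)]⟩],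
  [W_16242196544, W_15185231936]⟩
theorem C_17332727937 : chkRec R_17332727937 = true := by decide +kernel

noncomputable def R_17332728000 : Rec := ⟨nat_lit 17332728000, nat_lit 28,
  [⟨V6_16242204672, [(nat_lit 4, nat_lit 17332728000), (nat_lit 126, nat_lit 18406469760), (nat_lit 78, nat_lit 18406465728), (nat_lit 103, nat_lit 18389692608), (nat_lit 126, nat_lit 19480211520), (nat_lit 67, nat_lit 19480207488), (nat_lit 41, nat_lit 19463434368), (nat_lit 85, nat_lit 19463430336), (nat_lit 86, nat_lit 20553953280), (nat_lit 29, nat_lit 20553949248), (nat_lit 35, nat_lit 20537176128), (nat_lit 84, nat_lit 20537172096), (nat_lit 84, nat_lit 21627691008), (nat_lit 87, nat_lit 21610917888), (nat_lit 18, nat_lit 21610913856), (nat_lit 106, nat_lit 22684655616)]⟩,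
   ⟨V6_16225431552, [(nat_lit 19, nat_lit 17332728000), (nat_lit 97, nat_lit 18406469760), (nat_lit 97, nat_lit 18389692608), (nat_lit 95, nat_lit 19480211520), (nat_lit 63, nat_lit 19463434368), (nat_lit 80, nat_lit 19446657216), (nat_lit 121, nat_lit 20553953280), (nat_lit 14, nat_lit 20537176128), (nat_lit 41, nat_lit 20520398976), (nat_lit 34, nat_lit 21610917888), (nat_lit 114, nat_lit 21594140736), (nat_lit 35, nat_lit 22667882496)]⟩,
   ⟨V6_14077944000, [(nat_lit 48, nat_lit 17332728000), (nat_lit 42, nat_lit 18406465728), (nat_lit 18, nat_lit 18389692608), (nat_lit 93, nat_lit 19463430336), (nat_lit 69, nat_lit 19446657216), (nat_lit 28, nat_lit 20520394944)]⟩],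
  [W_17315938304, W_17315934272, W_15185231936]⟩
theorem C_17332728000 : chkRec R_17332728000 = true := by decide +kernel

noncomputable def R_17332973763 : Rec := ⟨nat_lit 17332973763, nat_lit 1,
  [⟨V6_13037482179, [(nat_lit 2, nat_lit 17332973763), (nat_lit 44, nat_lit 18406453443), (nat_lit 93, nat_lit 19479933123)]⟩],
  [W_17331925184]⟩
theorem C_17332973763 : chkRec R_17332973763 = true := by decide +kernel

noncomputable def R_17332977858 : Rec := ⟨nat_lit 17332977858, nat_lit 18,
  [⟨V6_14094975168, [(nat_lit 87, nat_lit 17332977858), (nat_lit 12, nat_lit 18406719681), (nat_lit 16, nat_lit 18389942466), (nat_lit 53, nat_lit 19480461504), (nat_lit 112, nat_lit 19463684289), (nat_lit 7, nat_lit 20537426112)]⟩,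
   ⟨V6_11947491522, [(nat_lit 48, nat_lit 17332977858), (nat_lit 111, nat_lit 18389942466)]⟩],
  [W_17332187264, W_17331929216, W_17331925184, W_17315152064, W_16258707584, W_16258445504]⟩
theorem C_17332977858 : chkRec R_17332977858 = true := by decide +kernel

noncomputable def R_17332977921 : Rec := ⟨nat_lit 17332977921, nat_lit 22,
  [⟨V6_16258187520, [(nat_lit 108, nat_lit 17332977921), (nat_lit 72, nat_lit 18406719744), (nat_lit 43, nat_lit 18406457601), (nat_lit 73, nat_lit 19480199424), (nat_lit 32, nat_lit 19479937281), (nat_lit 68, nat_lit 20553679104), (nat_lit 9, nat_lit 20553416961), (nat_lit 92, nat_lit 21627158784), (nat_lit 60, nat_lit 21626896641), (nat_lit 104, nat_lit 22700638464)]⟩,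
   ⟨V6_13021233408, [(nat_lit 100, nat_lit 17332977921), (nat_lit 37, nat_lit 18406719744), (nat_lit 13, nat_lit 18389942529), (nat_lit 9, nat_lit 19463684352)]⟩,
   ⟨V6_11947491585, [(nat_lit 25, nat_lit 17332977921), (nat_lit 34, nat_lit 18389942529)]⟩],
  [W_16242196544, W_15185231936, W_15168716864, W_14111490176]⟩
theorem C_17332977921 : chkRec R_17332977921 = true := by decide +kernel

noncomputable def R_17332981890 : Rec := ⟨nat_lit 17332981890, nat_lit 19,
  [⟨V6_17316192384, [(nat_lit 14, nat_lit 17332981890), (nat_lit 85, nat_lit 18406723713), (nat_lit 22, nat_lit 18406719618), (nat_lit 78, nat_lit 18389946498), (nat_lit 115, nat_lit 19480465536), (nat_lit 90, nat_lit 19480461441), (nat_lit 71, nat_lit 19480457346), (nat_lit 126, nat_lit 19463688321), (nat_lit 124, nat_lit 19463684226), (nat_lit 42, nat_lit 20554203264), (nat_lit 102, nat_lit 20554199169), (nat_lit 14, nat_lit 20554195074), (nat_lit 70, nat_lit 20537430144), (nat_lit 67, nat_lit 20537426049), (nat_lit 28, nat_lit 20537421954), (nat_lit 39, nat_lit 21627940992), (nat_lit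 11, nat_lit 21627936897), (nat_lit 2, nat_lit 21611167872), (nat_lit 47, nat_lit 21611163777), (nat_lit 7, nat_lit 21611159682), (nat_lit 1, nat_lit 22701678720), (nat_lit 31, nat_lit 22684905600), (nat_lit 41, nat_lit 22684901505), (nat_lit 22, nat_lit 23758643328)]⟩],
  [W_16242450560, W_15185485952, W_15168454784, W_15168196736, W_13021237376]⟩
theorem C_17332981890 : chkRec R_17332981890 = true := by decide +kernel

noncomputable def R_17332981953 : Rec := ⟨nat_lit 17332981953, nat_lit 45,
  [⟨V6_16259231808, [(nat_lit 115, nat_lit 17332981953), (nat_lit 77, nat_lit 18406723776), (nat_lit 33, nat_lit 18406723713), (nat_lit 111, nat_lit 18406719681), (nat_lit 115, nat_lit 19480465536), (nat_lit 80, nat_lit 19480465473), (nat_lit 4, nat_lit 19480461504), (nat_lit 113, nat_lit 19480461441), (nat_lit 93, nat_lit 19480457409), (nat_lit 119, nat_lit 20554207296), (nat_lit 123, nat_lit 20554203264), (nat_lit 1, nat_lit 20554203201), (nat_lit 75, nat_lit 20554199232), (nat_lit 45, nat_lit 20554199169), (nat_lit 79, nat_lit 21627945024), (nat_lit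 27, nat_lit 21627940992), (nat_lit 27, nat_lit 21627940929), (nat_lit 47, nat_lit 22701682752)]⟩],
  [W_17315934272, W_17315418176, W_16258453568, W_16242196544, W_15184973888, W_15168716864, W_14110970048, W_14094454976, W_13021237376, W_13021233344, W_13020975296, W_11964010688]⟩
theorem C_17332981953 : chkRec R_17332981953 = true := by decide +kernel

noncomputable def R_17332982016 : Rec := ⟨nat_lit 17332982016, nat_lit 53,
  [⟨V6_17316200448, [(nat_lit 49, nat_lit 17332982016), (nat_lit 121, nat_lit 18406723776), (nat_lit 55, nat_lit 18406719744), (nat_lit 79, nat_lit 18389946624), (nat_lit 85, nat_lit 19480465536), (nat_lit 61, nat_lit 19480461504), (nat_lit 33, nat_lit 19463688384), (nat_lit 39, nat_lit 19463684352), (nat_lit 54, nat_lit 20554207296), (nat_lit 20, nat_lit 20554203264), (nat_lit 118, nat_lit 20537430144), (nat_lit 123, nat_lit 20537426112), (nat_lit 23, nat_lit 21627949056), (nat_lit 27, nat_lit 21627945024), (nat_lit 109, nat_lit 21611171904), (nat_lit 7, nat_lit 21611167872), (nat_lit 94, nat_lit 22701686784), (nat_lit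 66, nat_lit 22684913664), (nat_lit 125, nat_lit 22684909632), (nat_lit 117, nat_lit 23758651392)]⟩,
   ⟨V6_16242462720, [(nat_lit 17, nat_lit 17332982016), (nat_lit 11, nat_lit 18406723776), (nat_lit 86, nat_lit 18389946624), (nat_lit 34, nat_lit 19480465536), (nat_lit 34, nat_lit 19463688384), (nat_lit 78, nat_lit 20554207296), (nat_lit 10, nat_lit 20537430144), (nat_lit 36, nat_lit 21627949056), (nat_lit 44, nat_lit 21611171904), (nat_lit 83, nat_lit 22684913664)]⟩],
  [W_17332195328, W_17315938304, W_17315418176, W_16258453568, W_15185231936, W_15184973888, W_15184969856, W_15167930624, W_14110970048, W_13020971264, W_11964010688, W_11963748608, W_11947491584, W_10890531008]⟩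
theorem C_17332982016 : chkRec R_17332982016 = true := by decide +kernel

noncomputable def R_17332985985 : Rec := ⟨nat_lit 17332985985, nat_lit 49,
  [⟨V6_16259231808, [(nat_lit 80, nat_lit 17332985985), (nat_lit 102, nat_lit 18406727808), (nat_lit 64, nat_lit 18406727745), (nat_lit 60, nat_lit 18406723713), (nat_lit 58, nat_lit 19480469568), (nat_lit 90, nat_lit 19480465536), (nat_lit 50, nat_lit 19480465473), (nat_lit 30, nat_lit 19480461441), (nat_lit 100, nat_lit 20554207296), (nat_lit 10, nat_lit 20554203264), (nat_lit 69, nat_lit 20554203201), (nat_lit 113, nat_lit 20554199169), (nat_lit 73, nat_lit 21627945024), (nat_lit 41, nat_lit 21627940992), (nat_lit 113, nat_lit 21627940929), (nat_lit 97, nat_lit 22701682752)]⟩],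
  [W_16242196544, W_15185231936, W_15184973888, W_15168716864, W_15168200768, W_14111236160, W_14094721088, W_13037494400, W_13021237376, W_11964014720, W_10890535040]⟩
theorem C_17332985985 : chkRec R_17332985985 = true := by decide +kernel

noncomputable def R_17332986048 : Rec := ⟨nat_lit 17332986048, nat_lit 80,
  [⟨V6_17315684352, [(nat_lit 96, nat_lit 17332986048), (nat_lit 43, nat_lit 18406727808), (nat_lit 65, nat_lit 18406465728), (nat_lit 97, nat_lit 18389950656), (nat_lit 35, nat_lit 19480469568), (nat_lit 19, nat_lit 19480207488), (nat_lit 39, nat_lit 19479945408), (nat_lit 100, nat_lit 19463692416), (nat_lit 47, nat_lit 19463430336), (nat_lit 33, nat_lit 20554211328), (nat_lit 82, nat_lit 20553949248), (nat_lit 11, nat_lit 20553687168), (nat_lit 46, nat_lit 20537434176), (nat_lit 117, nat_lit 20537172096), (nat_lit 73, nat_lit 20536910016), (nat_lit 82, nat_lit 21627691008), (nat_lit 105, nat_lit 21627428928), (nat_lit 4, nat_lit 21611175936), (nat_lit 30, nat_lit 21610913856), (nat_lit 62, nat_lit 21610651776), (nat_lit 22, nat_lit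 22701170688), (nat_lit 62, nat_lit 22684655616), (nat_lit 80, nat_lit 22684393536), (nat_lit 4, nat_lit 23758135296)]⟩,
   ⟨V6_16258719744, [(nat_lit 70, nat_lit 17332986048), (nat_lit 36, nat_lit 18406727808), (nat_lit 125, nat_lit 18406465728), (nat_lit 36, nat_lit 19480469568), (nat_lit 18, nat_lit 19480207488), (nat_lit 33, nat_lit 19479945408), (nat_lit 17, nat_lit 20554211328), (nat_lit 109, nat_lit 20553949248), (nat_lit 61, nat_lit 20553687168), (nat_lit 16, nat_lit 21627691008), (nat_lit 115, nat_lit 21627428928), (nat_lit 74, nat_lit 22701170688)]⟩,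
   ⟨V6_16242462720, [(nat_lit 31, nat_lit 17332986048), (nat_lit 86, nat_lit 18406727808), (nat_lit 39, nat_lit 18406723776), (nat_lit 111, nat_lit 18389950656), (nat_lit 47, nat_lit 19480469568), (nat_lit 22, nat_lit 19480465536), (nat_lit 105, nat_lit 19463692416), (nat_lit 20, nat_lit 19463688384), (nat_lit 99, nat_lit 20554211328), (nat_lit 22, nat_lit 20554207296), (nat_lit 21, nat_lit 20537434176), (nat_lit 114, nat_lit 20537430144), (nat_lit 13, nat_lit 21627949056), (nat_lit 19, nat_lit 21611175936), (nat_lit 119, nat_lit 21611171904), (nat_lit 118, nat_lit 22684913664)]⟩,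
   ⟨V6_15168724992, [(nat_lit 51, nat_lit 17332986048), (nat_lit 56, nat_lit 18406727808), (nat_lit 124, nat_lit 18389950656), (nat_lit 126, nat_lit 19480469568), (nat_lit 102, nat_lit 19463692416), (nat_lit 83, nat_lit 20554211328), (nat_lit 24, nat_lit 20537434176), (nat_lit 125, nat_lit 21611175936)]⟩],
  [W_17316196352, W_17315938304, W_17315934272, W_16242458624, W_15185494016, W_15185489984, W_15185231936, W_15184969856, W_15168712832, W_10890531008]⟩
theorem C_17332986048 : chkRec R_17332986048 = true := by decide +kernel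

noncomputable def R_17332990017 : Rec := ⟨nat_lit 17332990017, nat_lit 20,
  [⟨V6_17332965441, [(nat_lit 75, nat_lit 17332990017), (nat_lit 34, nat_lit 18406727745), (nat_lit 39, nat_lit 19480465473), (nat_lit 70, nat_lit 20554203201), (nat_lit 50, nat_lit 21627940929), (nat_lit 26, nat_lit 22701678657), (nat_lit 50, nat_lit 23775416385)]⟩,
   ⟨V6_14094979137, [(nat_lit 84, nat_lit 17332990017), (nat_lit 30, nat_lit 18406727745), (nat_lit 57, nat_lit 18389954625), (nat_lit 64, nat_lit 19480465473), (nat_lit 58, nat_lit 19463692353), (nat_lit 16, nat_lit 20537430081)]⟩,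
   ⟨V6_14094725184, [(nat_lit 45, nat_lit 17332990017), (nat_lit 72, nat_lit 18406731840), (nat_lit 16, nat_lit 18406469697), (nat_lit 7, nat_lit 18389954625), (nat_lit 90, nat_lit 19480211520), (nat_lit 50, nat_lit 19463696448), (nat_lit 56, nat_lit 19463434305), (nat_lit 41, nat_lit 20537176128)]⟩,
   ⟨V6_10890539073, [(nat_lit 75, nat_lit 17332990017)]⟩],
  [W_17332965440, W_17316192320, W_17315934272, W_16242454592]⟩
theorem C_17332990017 : chkRec R_17332990017 = true := by decide +kernel

noncomputable def R_17332990080 : Rec := ⟨nat_lit 17332990080, nat_lit 57,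
  [⟨V6_17316192384, [(nat_lit 119, nat_lit 17332990080), (nat_lit 57, nat_lit 18406727808), (nat_lit 16, nat_lit 18389954688), (nat_lit 104, nat_lit 19480465536), (nat_lit 107, nat_lit 19463692416), (nat_lit 32, nat_lit 20554203264), (nat_lit 37, nat_lit 20537430144), (nat_lit 96, nat_lit 21627940992), (nat_lit 72, nat_lit 21611167872), (nat_lit 32, nat_lit 22701678720), (nat_lit 30, nat_lit 22684905600), (nat_lit 117, nat_lit 23758643328)]⟩,
   ⟨V6_16242462720, [(nat_lit 81, nat_lit 17332990080), (nat_lit 28, nat_lit 18406731840), (nat_lit 29, nat_lit 18406727808), (nat_lit 39, nat_lit 18389954688), (nat_lit 38, nat_lit 19480473600), (nat_lit 47, nat_lit 19480469568), (nat_lit 108, nat_lit 19480465536), (nat_lit 13, nat_lit 19463696448), (nat_lit 82, nat_lit 19463692416), (nat_lit 122, nat_lit 20554211328), (nat_lit 40, nat_lit 20554207296), (nat_lit 54, nat_lit 20537438208), (nat_lit 39, nat_lit 20537434176), (nat_lit 86, nat_lit 20537430144), (nat_lit 57, nat_lit 21627949056), (nat_lit 86, nat_lit 21611175936), (nat_lit 67, nat_lit 21611171904),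 (nat_lit 90, nat_lit 22684913664)]⟩,
   ⟨V6_15168724992, [(nat_lit 93, nat_lit 17332990080), (nat_lit 63, nat_lit 18406731840), (nat_lit 75, nat_lit 18406727808), (nat_lit 34, nat_lit 18389954688), (nat_lit 8, nat_lit 19480473600), (nat_lit 126, nat_lit 19480469568), (nat_lit 98, nat_lit 19463696448), (nat_lit 47, nat_lit 19463692416), (nat_lit 101, nat_lit 20554211328), (nat_lit 53, nat_lit 20537438208), (nat_lit 99, nat_lit 20537434176), (nat_lit 11, nat_lit 21611175936)]⟩],
  [W_17316196352, W_17316192320, W_17315938304, W_17315934272, W_15185494016, W_15185231936, W_13021245440]⟩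
theorem C_17332990080 : chkRec R_17332990080 = true := by decide +kernel

noncomputable def R_17332994112 : Rec := ⟨nat_lit 17332994112, nat_lit 26,
  [⟨V6_15168724992, [(nat_lit 42, nat_lit 17332994112), (nat_lit 94, nat_lit 18406735872), (nat_lit 48, nat_lit 18406731840), (nat_lit 53, nat_lit 18389958720), (nat_lit 74, nat_lit 19480473600), (nat_lit 40, nat_lit 19480469568), (nat_lit 125, nat_lit 19463700480), (nat_lit 50, nat_lit 19463696448), (nat_lit 85, nat_lit 20554211328), (nat_lit 57, nat_lit 20537438208), (nat_lit 115, nat_lit 20537434176), (nat_lit 87, nat_lit 21611175936)]⟩,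
   ⟨V6_14094987264, [(nat_lit 31, nat_lit 17332994112), (nat_lit 38, nat_lit 18406735872), (nat_lit 48, nat_lit 18406731840), (nat_lit 16, nat_lit 18389958720), (nat_lit 19, nat_lit 19480473600), (nat_lit 49, nat_lit 19463700480), (nat_lit 118, nat_lit 19463696448), (nat_lit 99, nat_lit 20537438208)]⟩],
  [W_17332965440, W_17316196352, W_17316192320, W_15185489984]⟩
theorem C_17332994112 : chkRec R_17332994112 = true := by decide +kernel

noncomputable def R_17333235906 : Rec := ⟨nat_lit 17333235906, nat_lit 7,
  [⟨V6_13038268608, [(nat_lit 69, nat_lit 17333235906), (nat_lit 87, nat_lit 18406977729), (nat_lit 112, nat_lit 19480719552)]⟩],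
  [W_17331925184, W_16258707584]⟩
theorem C_17333235906 : chkRec R_17333235906 = true := by decide +kernel

noncomputable def R_17333239938 : Rec := ⟨nat_lit 17333239938, nat_lit 7,
  [⟨V6_15185748096, [(nat_lit 18, nat_lit 17333239938), (nat_lit 99, nat_lit 18406981761), (nat_lit 99, nat_lit 18406977666), (nat_lit 58, nat_lit 19480723584), (nat_lit 22, nat_lit 19480719489), (nat_lit 74, nat_lit 19480715394), (nat_lit 44, nat_lit 20554461312), (nat_lit 82, nat_lit 20554457217), (nat_lit 31, nat_lit 21628199040)]⟩],
  [W_17332187264, W_17331929216, W_13038268544]⟩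
theorem C_17333239938 : chkRec R_17333239938 = true := by decide +kernel

noncomputable def R_17333240001 : Rec := ⟨nat_lit 17333240001, nat_lit 23,
  [⟨V6_16259231808, [(nat_lit 38, nat_lit 17333240001), (nat_lit 115, nat_lit 18406981824), (nat_lit 97, nat_lit 18406981761), (nat_lit 124, nat_lit 18406977729), (nat_lit 44, nat_lit 18406719681), (nat_lit 14, nat_lit 19480723584), (nat_lit 81, nat_lit 19480723521), (nat_lit 6, nat_lit 19480719552), (nat_lit 70, nat_lit 19480719489), (nat_lit 117, nat_lit 19480461504), (nat_lit 8, nat_lit 19480461441), (nat_lit 124, nat_lit 19480457409), (nat_lit 102, nat_lit 20554465344), (nat_lit 33, nat_lit 20554461312), (nat_lit 89, nat_lit 20554461249), (nat_lit 73, nat_lit 20554203264), (nat_lit 81, nat_lit 20554203201), (nat_lit 114, nat_lit 20554199232), (nat_lit 57, nat_lit 20554199169), (nat_lit 114, nat_lit 21628203072), (nat_lit 33, nat_lit 21627945024), (nat_lit 8, nat_lit 21627940992), (nat_lit 48, nat_lit 21627940929), (nat_lit 58, nat_lit 22701682752)]⟩],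
  [W_15185489984, W_15185231936, W_14111486144, W_13038268544, W_11964526784, W_11964268736]⟩
theorem C_17333240001 : chkRec R_17333240001 = true := by decide +kernel

noncomputable def R_17333240064 : Rec := ⟨nat_lit 17333240064, nat_lit 15,
  [⟨V6_15185756160, [(nat_lit 22, nat_lit 17333240064), (nat_lit 62, nat_lit 18406981824), (nat_lit 113, nat_lit 19480723584), (nat_lit 19, nat_lit 20554465344), (nat_lit 42, nat_lit 21628207104)]⟩],
  [W_17331929216, W_15184969856, W_15184445696, W_14111490176]⟩
theorem C_17333240064 : chkRec R_17333240064 = true := by decide +kernel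

noncomputable def R_17333244033 : Rec := ⟨nat_lit 17333244033, nat_lit 28,
  [⟨V6_16259231808, [(nat_lit 99, nat_lit 17333244033), (nat_lit 118, nat_lit 18406985856), (nat_lit 88, nat_lit 18406985793), (nat_lit 3, nat_lit 18406981761), (nat_lit 18, nat_lit 18406723713), (nat_lit 74, nat_lit 19480727616), (nat_lit 100, nat_lit 19480723584), (nat_lit 48, nat_lit 19480723521), (nat_lit 30, nat_lit 19480719489), (nat_lit 119, nat_lit 19480465536), (nat_lit 67, nat_lit 19480465473), (nat_lit 15, nat_lit 19480461441), (nat_lit 59, nat_lit 20554465344), (nat_lit 68, nat_lit 20554461312), (nat_lit 32, nat_lit 20554461249), (nat_lit 92, nat_lit 20554207296), (nat_lit 102, nat_lit 20554203264), (nat_lit 116, nat_lit 20554203201), (nat_lit 118, nat_lit 20554199169), (nat_lit 108, nat_lit 21628203072), (nat_lit 95, nat_lit 21627945024), (nat_lit 95, nat_lit 21627940992), (nat_lit 36, nat_lit 21627940929), (nat_lit 86, nat_lit 22701682752)]⟩],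
  [W_17332445312, W_16258453568, W_15185485952, W_15185231936, W_15184973888]⟩
theorem C_17333244033 : chkRec R_17333244033 = true := by decide +kernel

noncomputable def R_17333244096 : Rec := ⟨nat_lit 17333244096, nat_lit 47,
  [⟨V6_16259231808, [(nat_lit 114, nat_lit 17333244096), (nat_lit 82, nat_lit 18406985856), (nat_lit 126, nat_lit 18406981824), (nat_lit 69, nat_lit 18406723776), (nat_lit 29, nat_lit 19480727616), (nat_lit 117, nat_lit 19480723584), (nat_lit 51, nat_lit 19480719552), (nat_lit 64, nat_lit 19480465536), (nat_lit 102, nat_lit 19480461504), (nat_lit 116, nat_lit 20554465344), (nat_lit 45, nat_lit 20554461312), (nat_lit 70, nat_lit 20554207296), (nat_lit 123, nat_lit 20554203264), (nat_lit 114, nat_lit 20554199232), (nat_lit 16, nat_lit 21628203072), (nat_lit 80, nat_lit 21627945024), (nat_lit 4, nat_lit 21627940992), (nat_lit 37, nat_lit 22701682752)]⟩],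
  [W_17332195328, W_16258453568, W_15185752064, W_15185494016, W_15185231936, W_15184973888, W_14112014336, W_14112010304, W_14110970048, W_11964526784, W_11964010688]⟩
theorem C_17333244096 : chkRec R_17333244096 = true := by decide +kernel

noncomputable def R_17333248065 : Rec := ⟨nat_lit 17333248065, nat_lit 22,
  [⟨V6_16259231808, [(nat_lit 82, nat_lit 17333248065), (nat_lit 40, nat_lit 18406989888), (nat_lit 94, nat_lit 18406985793), (nat_lit 11, nat_lit 18406727745), (nat_lit 37, nat_lit 19480727616), (nat_lit 25, nat_lit 19480723521), (nat_lit 40, nat_lit 19480469568), (nat_lit 69, nat_lit 19480465473), (nat_lit 19, nat_lit 20554465344), (nat_lit 125, nat_lit 20554461249), (nat_lit 31, nat_lit 20554207296), (nat_lit 23, nat_lit 20554203201), (nat_lit 9, nat_lit 21628203072), (nat_lit 7, nat_lit 21627945024), (nat_lit 82, nat_lit 21627940929), (nat_lit 101, nat_lit 22701682752)]⟩],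
  [W_16259485760, W_15185231936, W_15184973888, W_14111236160]⟩
theorem C_17333248065 : chkRec R_17333248065 = true := by decide +kernel

noncomputable def R_17333248128 : Rec := ⟨nat_lit 17333248128, nat_lit 48,
  [⟨V6_16258719744, [(nat_lit 99, nat_lit 17333248128), (nat_lit 49, nat_lit 18406989888), (nat_lit 116, nat_lit 18406727808), (nat_lit 36, nat_lit 19480731648), (nat_lit 31, nat_lit 19480469568), (nat_lit 43, nat_lit 19480207488), (nat_lit 19, nat_lit 20554211328), (nat_lit 75, nat_lit 20553949248), (nat_lit 30, nat_lit 20553687168), (nat_lit 13, nat_lit 21627691008), (nat_lit 56, nat_lit 21627428928), (nat_lit 14, nat_lit 22701170688)]⟩,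
   ⟨V6_15185748096, [(nat_lit 8, nat_lit 17333248128), (nat_lit 120, nat_lit 18406985856), (nat_lit 110, nat_lit 19480723584), (nat_lit 78, nat_lit 20554461312), (nat_lit 96, nat_lit 21628199040)]⟩,
   ⟨V6_14112018432, [(nat_lit 20, nat_lit 17333248128), (nat_lit 75, nat_lit 18406989888), (nat_lit 107, nat_lit 18406985856), (nat_lit 102, nat_lit 19480731648), (nat_lit 33, nat_lit 19480727616), (nat_lit 54, nat_lit 20554469376)]⟩,
   ⟨V6_13038280704, [(nat_lit 27, nat_lit 17333248128), (nat_lit 7, nat_lit 18406989888), (nat_lit 45, nat_lit 19480731648)]⟩],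
  [W_17332445312, W_16259489792, W_15185494016, W_15185489984, W_15185485952, W_15185231936, W_15184973888]⟩
theorem C_17333248128 : chkRec R_17333248128 = true := by decide +kernel

noncomputable def R_17333252160 : Rec := ⟨nat_lit 17333252160, nat_lit 32,
  [⟨V6_15185756160, [(nat_lit 42, nat_lit 17333252160), (nat_lit 5, nat_lit 18406993920), (nat_lit 26, nat_lit 18406989888), (nat_lit 94, nat_lit 19480731648), (nat_lit 82, nat_lit 19480727616), (nat_lit 42, nat_lit 20554469376), (nat_lit 116, nat_lit 20554465344), (nat_lit 113, nat_lit 21628207104)]⟩,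
   ⟨V6_14112018432, [(nat_lit 28, nat_lit 17333252160), (nat_lit 111, nat_lit 18406993920), (nat_lit 112, nat_lit 18406989888), (nat_lit 104, nat_lit 19480731648), (nat_lit 38, nat_lit 19480727616), (nat_lit 28, nat_lit 20554469376)]⟩,
   ⟨V6_13038280704, [(nat_lit 77, nat_lit 17333252160), (nat_lit 14, nat_lit 18406993920), (nat_lit 24, nat_lit 18406989888), (nat_lit 16, nat_lit 19480731648)]⟩],
  [W_17333227520, W_17332965440, W_16259485760, W_15185748032, W_15185489984, W_15185231936]⟩
theorem C_17333252160 : chkRec R_17333252160 = true := by decide +kernel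

noncomputable def R_17333256192 : Rec := ⟨nat_lit 17333256192, nat_lit 9,
  [⟨V6_14112018432, [(nat_lit 48, nat_lit 17333256192), (nat_lit 31, nat_lit 18406993920), (nat_lit 86, nat_lit 19480731648), (nat_lit 40, nat_lit 20554469376)]⟩],
  [W_17333227520, W_16259489792]⟩
theorem C_17333256192 : chkRec R_17333256192 = true := by decide +kernel

noncomputable def R_17348706564 : Rec := ⟨nat_lit 17348706564, nat_lit 2,
  [⟨V6_17248043268, [(nat_lit 124, nat_lit 17348706564), (nat_lit 111, nat_lit 18405671172), (nat_lit 92, nat_lit 19462635780), (nat_lit 42, nat_lit 20519600388), (nat_lit 6, nat_lit 21576564996), (nat_lit 74, nat_lit 22633529604), (nat_lit 57, nat_lit 23690494212)]⟩,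
   ⟨V6_16207855875, [(nat_lit 95, nat_lit 17348706564), (nat_lit 34, nat_lit 18422448387), (nat_lit 4, nat_lit 18405671172), (nat_lit 56, nat_lit 19479412995), (nat_lit 103, nat_lit 19462635780), (nat_lit 117, nat_lit 20536377603), (nat_lit 116, nat_lit 20519600388), (nat_lit 121, nat_lit 21593342211), (nat_lit 57, nat_lit 21576564996), (nat_lit 114, nat_lit 22650306819)]⟩],
  [W_17298374912, W_14127481088]⟩
theorem C_17348706564 : chkRec R_17348706564 = true := by decide +kernel

noncomputable def R_17348968707 : Rec := ⟨nat_lit 17348968707, nat_lit 3,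
  [⟨V6_14127481089, [(nat_lit 69, nat_lit 17348968707), (nat_lit 100, nat_lit 18422710530), (nat_lit 58, nat_lit 18422448387), (nat_lit 9, nat_lit 19496452353), (nat_lit 44, nat_lit 19496190210), (nat_lit 72, nat_lit 20569932033)]⟩],
  [W_17315152064, W_17298636992]⟩
theorem C_17348968707 : chkRec R_17348968707 = true := by decide +kernel

noncomputable def R_17348972739 : Rec := ⟨nat_lit 17348972739, nat_lit 2,
  [⟨V6_16224899265, [(nat_lit 91, nat_lit 17348972739), (nat_lit 11, nat_lit 18422714562), (nat_lit 38, nat_lit 18405937347), (nat_lit 109, nat_lit 19496456385), (nat_lit 111, nat_lit 19479679170), (nat_lit 100, nat_lit 19462901955), (nat_lit 74, nat_lit 20553420993), (nat_lit 116, nat_lit 20536643778), (nat_lit 85, nat_lit 20519866563), (nat_lit 30, nat_lit 21610385601), (nat_lit 43, nat_lit 21593608386), (nat_lit 117, nat_lit 22667350209)]⟩,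
   ⟨V6_15151157442, [(nat_lit 105, nat_lit 17348972739), (nat_lit 87, nat_lit 18422714562), (nat_lit 45, nat_lit 18405937347), (nat_lit 19, nat_lit 19479679170), (nat_lit 94, nat_lit 19462901955), (nat_lit 80, nat_lit 20536643778), (nat_lit 65, nat_lit 20519866563), (nat_lit 106, nat_lit 21593608386)]⟩],
  [W_16258445504]⟩
theorem C_17348972739 : chkRec R_17348972739 = true := by decide +kernel

noncomputable def R_17348972802 : Rec := ⟨nat_lit 17348972802, nat_lit 3,
  [⟨V6_16224899265, [(nat_lit 118, nat_lit 17348972802), (nat_lit 112, nat_lit 18422714625), (nat_lit 22, nat_lit 18422714562), (nat_lit 72, nat_lit 18405937410), (nat_lit 73, nat_lit 19496456385), (nat_lit 64, nat_lit 19479679233), (nat_lit 25, nat_lit 19479679170), (nat_lit 116, nat_lit 19462902018), (nat_lit 25, nat_lit 20553420993), (nat_lit 40, nat_lit 20536643841), (nat_lit 122, nat_lit 20536643778), (nat_lit 84, nat_lit 20519866626), (nat_lit 32, nat_lit 21610385601), (nat_lit 98, nat_lit 21593608449), (nat_lit 13, nat_lit 21593608386), (nat_lit 25, nat_lit 22667350209)]⟩,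
   ⟨V6_15151157442, [(nat_lit 55, nat_lit 17348972802), (nat_lit 47, nat_lit 18422714562), (nat_lit 23, nat_lit 18405937410), (nat_lit 10, nat_lit 19479679170), (nat_lit 78, nat_lit 19462902018), (nat_lit 71, nat_lit 20536643778), (nat_lit 30, nat_lit 20519866626), (nat_lit 35, nat_lit 21593608386)]⟩],
  [W_15201484928]⟩
theorem C_17348972802 : chkRec R_17348972802 = true := by decide +kernel

noncomputable def R_17348972865 : Rec := ⟨nat_lit 17348972865, nat_lit 1,
  [⟨V6_13037228352, [(nat_lit 56, nat_lit 17348972865), (nat_lit 29, nat_lit 18422714688), (nat_lit 36, nat_lit 18405937473), (nat_lit 16, nat_lit 19479679296)]⟩],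
  [W_17315418176]⟩
theorem C_17348972865 : chkRec R_17348972865 = true := by decide +kernel

noncomputable def R_17349230787 : Rec := ⟨nat_lit 17349230787, nat_lit 5,
  [⟨V6_15201218754, [(nat_lit 126, nat_lit 17349230787), (nat_lit 13, nat_lit 18422972610), (nat_lit 18, nat_lit 18422968515), (nat_lit 99, nat_lit 18422710467), (nat_lit 86, nat_lit 19496710338), (nat_lit 95, nat_lit 19496452290), (nat_lit 59, nat_lit 19496448195), (nat_lit 96, nat_lit 19496190147), (nat_lit 94, nat_lit 20570190018), (nat_lit 78, nat_lit 20569931970), (nat_lit 75, nat_lit 20569927875), (nat_lit 12, nat_lit 21643669698)]⟩,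
   ⟨V6_14127481026, [(nat_lit 38, nat_lit 17349230787), (nat_lit 107, nat_lit 18422972610), (nat_lit 7, nat_lit 18422710467), (nat_lit 43, nat_lit 19496452290), (nat_lit 124, nat_lit 19496190147), (nat_lit 101, nat_lit 20569931970)]⟩,
   ⟨V6_13037482179, [(nat_lit 6, nat_lit 17349230787), (nat_lit 46, nat_lit 18422968515), (nat_lit 57, nat_lit 18406195395), (nat_lit 71, nat_lit 19479933123)]⟩],
  [W_17298895040, W_17282121920, W_16241930432, W_16225157312]⟩
theorem C_17349230787 : chkRec R_17349230787 = true := by decide +kernel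

noncomputable def R_17349230850 : Rec := ⟨nat_lit 17349230850, nat_lit 17,
  [⟨V6_16208380161, [(nat_lit 61, nat_lit 17349230850), (nat_lit 65, nat_lit 18422972673), (nat_lit 24, nat_lit 18406195458), (nat_lit 99, nat_lit 19479937281), (nat_lit 108, nat_lit 19463160066), (nat_lit 19, nat_lit 20536901889), (nat_lit 23, nat_lit 20520124674), (nat_lit 64, nat_lit 21593866497), (nat_lit 116, nat_lit 21577089282), (nat_lit 43, nat_lit 22650831105)]⟩,
   ⟨V6_15201222912, [(nat_lit 3, nat_lit 17349230850), (nat_lit 78, nat_lit 18422972673), (nat_lit 15, nat_lit 18422710530), (nat_lit 111, nat_lit 19496714496), (nat_lit 33, nat_lit 19496452353), (nat_lit 101, nat_lit 19496190210), (nat_lit 124, nat_lit 20570194176), (nat_lit 103, nat_lit 20569932033), (nat_lit 8, nat_lit 21643673856)]⟩,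
   ⟨V6_14127481089, [(nat_lit 124, nat_lit 17349230850), (nat_lit 38, nat_lit 18422972673), (nat_lit 115, nat_lit 18422710530), (nat_lit 7, nat_lit 19496452353), (nat_lit 5, nat_lit 19496190210), (nat_lit 124, nat_lit 20569932033)]⟩],
  [W_17331929216, W_17315414144, W_17315152064, W_17298899072, W_17282121920, W_16241934464]⟩
theorem C_17349230850 : chkRec R_17349230850 = true := by decide +kernel

noncomputable def R_17349234882 : Rec := ⟨nat_lit 17349234882, nat_lit 19,
  [⟨V6_16225161408, [(nat_lit 7, nat_lit 17349234882), (nat_lit 35, nat_lit 18422976705), (nat_lit 61, nat_lit 18406199490), (nat_lit 79, nat_lit 19496718528), (nat_lit 78, nat_lit 19479941313), (nat_lit 103, nat_lit 19463164098), (nat_lit 93, nat_lit 20553683136), (nat_lit 54, nat_lit 20536905921), (nat_lit 28, nat_lit 20520128706), (nat_lit 91, nat_lit 21610647744), (nat_lit 98, nat_lit 21593870529), (nat_lit 71, nat_lit 22667612352)]⟩,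
   ⟨V6_16208384193, [(nat_lit 54, nat_lit 17349234882), (nat_lit 120, nat_lit 18422976705), (nat_lit 15, nat_lit 18406199490), (nat_lit 46, nat_lit 19479941313), (nat_lit 4, nat_lit 19463164098), (nat_lit 123, nat_lit 20536905921), (nat_lit 62, nat_lit 20520128706), (nat_lit 40, nat_lit 21593870529), (nat_lit 9, nat_lit 21577093314), (nat_lit 11, nat_lit 22650835137)]⟩],
  [W_17332187264, W_15201484928, W_15184969856, W_14128001216]⟩
theorem C_17349234882 : chkRec R_17349234882 = true := by decide +kernel

noncomputable def R_17349234945 : Rec := ⟨nat_lit 17349234945, nat_lit 28,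
  [⟨V6_17282125953, [(nat_lit 98, nat_lit 17349234945), (nat_lit 71, nat_lit 18422976705), (nat_lit 117, nat_lit 18406199553), (nat_lit 109, nat_lit 19496718465), (nat_lit 33, nat_lit 19479941313), (nat_lit 59, nat_lit 19463164161), (nat_lit 47, nat_lit 20553683073), (nat_lit 55, nat_lit 20536905921), (nat_lit 96, nat_lit 20520128769), (nat_lit 119, nat_lit 21610647681), (nat_lit 44, nat_lit 21593870529), (nat_lit 121, nat_lit 21577093377), (nat_lit 108, nat_lit 22667612289), (nat_lit 77, nat_lit 22650835137), (nat_lit 58, nat_lit 23724576897)]⟩,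
   ⟨V6_16225161408, [(nat_lit 78, nat_lit 17349234945), (nat_lit 50, nat_lit 18422976768), (nat_lit 107, nat_lit 18422976705), (nat_lit 44, nat_lit 18406199553), (nat_lit 33, nat_lit 19496718528), (nat_lit 108, nat_lit 19479941376), (nat_lit 13, nat_lit 19479941313), (nat_lit 80, nat_lit 19463164161), (nat_lit 101, nat_lit 20553683136), (nat_lit 47, nat_lit 20536905984), (nat_lit 11, nat_lit 20536905921), (nat_lit 107, nat_lit 20520128769), (nat_lit 56, nat_lit 21610647744), (nat_lit 126, nat_lit 21593870592), (nat_lit 64, nat_lit 21593870529), (nat_lit 83, nat_lit 22667612352)]⟩,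
   ⟨V6_16208384256, [(nat_lit 62, nat_lit 17349234945), (nat_lit 77, nat_lit 18422976768), (nat_lit 83, nat_lit 18406199553), (nat_lit 99, nat_lit 19479941376), (nat_lit 105, nat_lit 19463164161), (nat_lit 1, nat_lit 20536905984), (nat_lit 89, nat_lit 20520128769), (nat_lit 79, nat_lit 21593870592), (nat_lit 53, nat_lit 21577093377), (nat_lit 34, nat_lit 22650835200)]⟩,
   ⟨V6_16208380161, [(nat_lit 56, nat_lit 17349234945), (nat_lit 30, nat_lit 18422972673), (nat_lit 62, nat_lit 18406199553), (nat_lit 22, nat_lit 19479937281), (nat_lit 92, nat_lit 19463164161), (nat_lit 20, nat_lit 20536901889), (nat_lit 124, nat_lit 20520128769), (nat_lit 29, nat_lit 21593866497), (nat_lit 52, nat_lit 21577093377), (nat_lit 96, nat_lit 22650831105)]⟩],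
  [W_16258453568, W_15201747008, W_15184973888, W_14127747200, W_13054267520, W_13054001408, W_11980521728]⟩
theorem C_17349234945 : chkRec R_17349234945 = true := by decide +kernel

noncomputable def R_17349235008 : Rec := ⟨nat_lit 17349235008, nat_lit 13,
  [⟨V6_17348972544, [(nat_lit 84, nat_lit 17349235008), (nat_lit 55, nat_lit 18422976768), (nat_lit 57, nat_lit 18422714688), (nat_lit 12, nat_lit 19496718528), (nat_lit 4, nat_lit 19496456448), (nat_lit 101, nat_lit 20570460288), (nat_lit 115, nat_lit 20570198208), (nat_lit 37, nat_lit 21644202048), (nat_lit 80, nat_lit 21643939968), (nat_lit 109, nat_lit 22717943808), (nat_lit 42, nat_lit 22717681728), (nat_lit 107, nat_lit 23791423488)]⟩],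
  [W_16258453568, W_15184973888, W_13020713216, W_11980525760, W_11963748608]⟩
theorem C_17349235008 : chkRec R_17349235008 = true := by decide +kernel

noncomputable def R_17349238914 : Rec := ⟨nat_lit 17349238914, nat_lit 18,
  [⟨V6_17282125953, [(nat_lit 59, nat_lit 17349238914), (nat_lit 50, nat_lit 18422980737), (nat_lit 81, nat_lit 18422976642), (nat_lit 8, nat_lit 18406203522), (nat_lit 54, nat_lit 19496718465), (nat_lit 89, nat_lit 19479945345), (nat_lit 95, nat_lit 19479941250), (nat_lit 53, nat_lit 19463168130), (nat_lit 62, nat_lit 20553683073), (nat_lit 11, nat_lit 20536909953), (nat_lit 12, nat_lit 20536905858), (nat_lit 42, nat_lit 20520132738), (nat_lit 98, nat_lit 21610647681), (nat_lit 12, nat_lit 21593874561), (nat_lit 25, nat_lit 21593870466), (nat_lit 50, nat_lit 21577097346), (nat_lit 54, nat_lit 22667612289), (nat_lit 19, nat_lit 22650839169), (nat_lit 4, nat_lit 22650835074), (nat_lit 120, nat_lit 23724576897)]⟩,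
   ⟨V6_16225165440, [(nat_lit 12, nat_lit 17349238914), (nat_lit 60, nat_lit 18422980737), (nat_lit 32, nat_lit 18406203522), (nat_lit 81, nat_lit 19496722560), (nat_lit 43, nat_lit 19479945345), (nat_lit 104, nat_lit 19463168130), (nat_lit 105, nat_lit 20553687168), (nat_lit 20, nat_lit 20536909953), (nat_lit 48, nat_lit 20520132738), (nat_lit 29, nat_lit 21610651776), (nat_lit 41, nat_lit 21593874561), (nat_lit 31, nat_lit 22667616384)]⟩],
  [W_17332445312, W_15184969856, W_13054267520, W_13037494400]⟩
theorem C_17349238914 : chkRec R_17349238914 = true := by decide +kernel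

noncomputable def R_17349238977 : Rec := ⟨nat_lit 17349238977, nat_lit 35,
  [⟨V6_16225165377, [(nat_lit 68, nat_lit 17349238977), (nat_lit 96, nat_lit 18422980737), (nat_lit 45, nat_lit 18406203585), (nat_lit 35, nat_lit 19496722497), (nat_lit 73, nat_lit 19479945345), (nat_lit 56, nat_lit 19463168193), (nat_lit 126, nat_lit 20553687105), (nat_lit 125, nat_lit 20536909953), (nat_lit 66, nat_lit 20520132801), (nat_lit 68, nat_lit 21610651713), (nat_lit 84, nat_lit 21593874561), (nat_lit 42, nat_lit 22667616321)]⟩,
   ⟨V6_14128013376, [(nat_lit 60, nat_lit 17349238977), (nat_lit 8, nat_lit 18422980800), (nat_lit 59, nat_lit 18422980737), (nat_lit 66, nat_lit 19496722560), (nat_lit 67, nat_lit 19496722497), (nat_lit 115, nat_lit 20570464320)]⟩],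
  [W_17298903104, W_17298895040, W_17282129984, W_17282121920, W_16241930432, W_16208388224, W_15201747008, W_15184973888, W_15151423616, W_14128001216, W_10906788032]⟩
theorem C_17349238977 : chkRec R_17349238977 = true := by decide +kernel

noncomputable def R_17349239040 : Rec := ⟨nat_lit 17349239040, nat_lit 50,
  [⟨V6_16258719744, [(nat_lit 11, nat_lit 17349239040), (nat_lit 90, nat_lit 18422980800), (nat_lit 41, nat_lit 18406203648), (nat_lit 19, nat_lit 19496722560), (nat_lit 64, nat_lit 19479945408), (nat_lit 109, nat_lit 20570464320), (nat_lit 111, nat_lit 20553687168), (nat_lit 18, nat_lit 21644206080), (nat_lit 34, nat_lit 21627428928), (nat_lit 75, nat_lit 22701170688)]⟩,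
   ⟨V6_15201755136, [(nat_lit 5, nat_lit 17349239040), (nat_lit 118, nat_lit 18422980800), (nat_lit 43, nat_lit 19496722560), (nat_lit 114, nat_lit 20570464320), (nat_lit 125, nat_lit 21644206080)]⟩],
  [W_17315680256, W_17298907136, W_17298899072, W_17282129984, W_17282121920, W_16208388224, W_16208380160, W_15201747008, W_15184969856, W_14094450944, W_13054263488, W_10906788032]⟩
theorem C_17349239040 : chkRec R_17349239040 = true := by decide +kernel

noncomputable def R_17349488835 : Rec := ⟨nat_lit 17349488835, nat_lit 3,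
  [⟨V6_15201218754, [(nat_lit 118, nat_lit 17349488835), (nat_lit 96, nat_lit 18423230658), (nat_lit 5, nat_lit 18422968515), (nat_lit 2, nat_lit 19496710338), (nat_lit 116, nat_lit 19496448195), (nat_lit 47, nat_lit 20570190018), (nat_lit 47, nat_lit 20569927875), (nat_lit 2, nat_lit 21643669698)]⟩,
   ⟨V6_13037482179, [(nat_lit 124, nat_lit 17349488835), (nat_lit 41, nat_lit 18422968515), (nat_lit 53, nat_lit 18406453443), (nat_lit 43, nat_lit 19479933123)]⟩,
   ⟨V6_10907037891, [(nat_lit 102, nat_lit 17349488835)]⟩],
  [W_17298895040, W_16258445504]⟩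
theorem C_17349488835 : chkRec R_17349488835 = true := by decide +kernel

noncomputable def R_17349492930 : Rec := ⟨nat_lit 17349492930, nat_lit 26,
  [⟨V6_16274964672, [(nat_lit 65, nat_lit 17349492930), (nat_lit 38, nat_lit 18423234753), (nat_lit 35, nat_lit 18422972610), (nat_lit 47, nat_lit 19496976576), (nat_lit 87, nat_lit 19496714433), (nat_lit 1, nat_lit 19496452290), (nat_lit 112, nat_lit 20570456256), (nat_lit 20, nat_lit 20570194113), (nat_lit 48, nat_lit 20569931970), (nat_lit 56, nat_lit 21643935936), (nat_lit 44, nat_lit 21643673793), (nat_lit 3, nat_lit 22717415616)]⟩,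
   ⟨V6_15151677633, [(nat_lit 18, nat_lit 17349492930), (nat_lit 106, nat_lit 18423234753), (nat_lit 19, nat_lit 18406457538), (nat_lit 118, nat_lit 19480199361), (nat_lit 67, nat_lit 19463422146), (nat_lit 32, nat_lit 20537163969), (nat_lit 117, nat_lit 20520386754), (nat_lit 114, nat_lit 21594128577)]⟩],
  [W_17332187264, W_17331925184, W_17298895040, W_16241930432, W_16225415360, W_14128263296, W_14128001216, W_14111486144, W_13054525568, W_11980783808]⟩
theorem C_17349492930 : chkRec R_17349492930 = true := by decide +kernel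

noncomputable def R_17349492993 : Rec := ⟨nat_lit 17349492993, nat_lit 35,
  [⟨V6_17348706369, [(nat_lit 122, nat_lit 17349492993), (nat_lit 43, nat_lit 18423234753), (nat_lit 22, nat_lit 18422972673), (nat_lit 82, nat_lit 19496976513), (nat_lit 4, nat_lit 19496714433), (nat_lit 111, nat_lit 19496452353), (nat_lit 53, nat_lit 20570718273), (nat_lit 67, nat_lit 20570456193), (nat_lit 40, nat_lit 20570194113), (nat_lit 22, nat_lit 20569932033), (nat_lit 118, nat_lit 21644197953), (nat_lit 10, nat_lit 21643935873), (nat_lit 81, nat_lit 21643673793), (nat_lit 85, nat_lit 22717677633), (nat_lit 47, nat_lit 22717415553), (nat_lit 96, nat_lit 23791157313)]⟩,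
   ⟨V6_17299161153, [(nat_lit 104, nat_lit 17349492993), (nat_lit 118, nat_lit 18423234753), (nat_lit 17, nat_lit 18406457601), (nat_lit 25, nat_lit 19496976513), (nat_lit 120, nat_lit 19480199361), (nat_lit 78, nat_lit 19463422209), (nat_lit 69, nat_lit 20570718273), (nat_lit 114, nat_lit 20553941121), (nat_lit 62, nat_lit 20537163969), (nat_lit 21, nat_lit 20520386817), (nat_lit 126, nat_lit 21627682881), (nat_lit 49, nat_lit 21610905729), (nat_lit 84, nat_lit 21594128577), (nat_lit 94, nat_lit 22684647489), (nat_lit 77, nat_lit 22667870337), (nat_lit 72, nat_lit 23741612097)]⟩,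
   ⟨V6_16258187520, [(nat_lit 89, nat_lit 17349492993), (nat_lit 50, nat_lit 18423234816), (nat_lit 58, nat_lit 18422972673), (nat_lit 105, nat_lit 18406457601), (nat_lit 89, nat_lit 19496714496), (nat_lit 118, nat_lit 19496452353), (nat_lit 44, nat_lit 19480199424), (nat_lit 63, nat_lit 19479937281), (nat_lit 16, nat_lit 20570194176), (nat_lit 18, nat_lit 20569932033), (nat_lit 28, nat_lit 20553679104), (nat_lit 41, nat_lit 20553416961), (nat_lit 52, nat_lit 21643673856), (nat_lit 10, nat_lit 21627158784), (nat_lit 10, nat_lit 21626896641), (nat_lit 106, nat_lit 22700638464)]⟩,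
   ⟨V6_15151677633, [(nat_lit 96, nat_lit 17349492993), (nat_lit 22, nat_lit 18423234753), (nat_lit 54, nat_lit 18406457601), (nat_lit 29, nat_lit 19480199361), (nat_lit 23, nat_lit 19463422209), (nat_lit 117, nat_lit 20537163969), (nat_lit 87, nat_lit 20520386817), (nat_lit 38, nat_lit 21594128577)]⟩],
  [W_16242196544, W_15201747008, W_15185231936, W_13054525568, W_13054001408]⟩
theorem C_17349492993 : chkRec R_17349492993 = true := by decide +kernel

noncomputable def R_17349496962 : Rec := ⟨nat_lit 17349496962, nat_lit 24,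
  [⟨V6_17315930241, [(nat_lit 110, nat_lit 17349496962), (nat_lit 71, nat_lit 18423238785), (nat_lit 117, nat_lit 18423234690), (nat_lit 9, nat_lit 18406461570), (nat_lit 13, nat_lit 19496976513), (nat_lit 109, nat_lit 19496972418), (nat_lit 95, nat_lit 19480203393), (nat_lit 124, nat_lit 19480199298), (nat_lit 5, nat_lit 19463426178), (nat_lit 91, nat_lit 20570714241), (nat_lit 54, nat_lit 20570710146), (nat_lit 124, nat_lit 20553941121), (nat_lit 107, nat_lit 20553937026), (nat_lit 15, nat_lit 20537168001), (nat_lit 89, nat_lit 20537163906), (nat_lit 58, nat_lit 21644451969), (nat_lit 21, nat_lit 21627678849), (nat_lit 29, nat_lit 21627674754), (nat_lit 40, nat_lit 21610905729), (nat_lit 73, nat_lit 21610901634), (nat_lit 111, nat_lit 22701416577), (nat_lit 74, nat_lit 22684643457), (nat_lit 36, nat_lit 22684639362), (nat_lit 8, nat_lit 23758381185)]⟩,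
   ⟨V6_16225423488, [(nat_lit 85, nat_lit 17349496962), (nat_lit 44, nat_lit 18423238785), (nat_lit 15, nat_lit 18406461570), (nat_lit 34, nat_lit 19496980608), (nat_lit 40, nat_lit 19480203393), (nat_lit 17, nat_lit 19463426178), (nat_lit 77, nat_lit 20553945216), (nat_lit 57, nat_lit 20537168001), (nat_lit 86, nat_lit 20520390786), (nat_lit 89, nat_lit 21610909824), (nat_lit 47, nat_lit 21594132609), (nat_lit 82, nat_lit 22667874432)]⟩],
  [W_17348960384, W_15201484928, W_14128263296, W_13054525568, W_13054267520, W_11980787840]⟩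
theorem C_17349496962 : chkRec R_17349496962 = true := by decide +kernel

noncomputable def R_17349497025 : Rec := ⟨nat_lit 17349497025, nat_lit 60,
  [⟨V6_17299165248, [(nat_lit 38, nat_lit 17349497025), (nat_lit 36, nat_lit 18423238848), (nat_lit 76, nat_lit 18423238785), (nat_lit 2, nat_lit 18406461633), (nat_lit 81, nat_lit 19496980608), (nat_lit 30, nat_lit 19496980545), (nat_lit 74, nat_lit 19480203456), (nat_lit 22, nat_lit 19480203393), (nat_lit 52, nat_lit 19463426241), (nat_lit 56, nat_lit 20570722368), (nat_lit 122, nat_lit 20553945216), (nat_lit 38, nat_lit 20553945153), (nat_lit 44, nat_lit 20537168064), (nat_lit 14, nat_lit 20537168001), (nat_lit 48, nat_lit 20520390849), (nat_lit 77, nat_lit 21627686976), (nat_lit 6, nat_lit 21610909824), (nat_lit 6, nat_lit 21610909761), (nat_lit 39, nat_lit 21594132672), (nat_lit 75, nat_lit 21594132609), (nat_lit 76, nat_lit 22684651584), (nat_lit 12, nat_lit 22667874432), (nat_lit 11, nat_lit 22667874369), (nat_lit 65, nat_lit 23741616192)]⟩,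
   ⟨V6_17299161153, [(nat_lit 21, nat_lit 17349497025), (nat_lit 21, nat_lit 18423238785), (nat_lit 66, nat_lit 18423234753), (nat_lit 26, nat_lit 18406461633), (nat_lit 76, nat_lit 19496980545), (nat_lit 106, nat_lit 19496976513), (nat_lit 16, nat_lit 19480203393), (nat_lit 94, nat_lit 19480199361), (nat_lit 93, nat_lit 19463426241), (nat_lit 29, nat_lit 20570718273), (nat_lit 60, nat_lit 20553945153), (nat_lit 26, nat_lit 20553941121), (nat_lit 98, nat_lit 20537168001), (nat_lit 91, nat_lit 20537163969), (nat_lit 28, nat_lit 20520390849), (nat_lit 104, nat_lit 21627682881), (nat_lit 21, nat_lit 21610909761), (nat_lit 113, nat_lit 21610905729), (nat_lit 6, nat_lit 21594132609), (nat_lit 1, nat_lit 21594128577), (nat_lit 73, nat_lit 22684647489), (nat_lit 36, nat_lit 22667874369), (nat_lit 49, nat_lit 22667870337), (nat_lit 85, nat_lit 23741612097)]⟩,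
   ⟨V6_16225423425, [(nat_lit 1, nat_lit 17349497025), (nat_lit 106, nat_lit 18423238785), (nat_lit 10, nat_lit 18406461633), (nat_lit 36, nat_lit 19496980545), (nat_lit 115, nat_lit 19480203393), (nat_lit 83, nat_lit 19463426241), (nat_lit 28, nat_lit 20553945153), (nat_lit 56, nat_lit 20537168001), (nat_lit 57, nat_lit 20520390849), (nat_lit 1, nat_lit 21610909761), (nat_lit 61, nat_lit 21594132609), (nat_lit 94, nat_lit 22667874369)]⟩,
   ⟨V6_16225419456, [(nat_lit 93, nat_lit 17349497025), (nat_lit 114, nat_lit 18423238848), (nat_lit 14, nat_lit 18423234753), (nat_lit 16, nat_lit 18406461633), (nat_lit 7, nat_lit 19496976576), (nat_lit 9, nat_lit 19480203456), (nat_lit 63, nat_lit 19480199361), (nat_lit 105, nat_lit 19463426241), (nat_lit 119, nat_lit 20553941184), (nat_lit 95, nat_lit 20537168064), (nat_lit 76, nat_lit 20537163969), (nat_lit 28, nat_lit 20520390849), (nat_lit 22, nat_lit 21610905792), (nat_lit 58, nat_lit 21594132672), (nat_lit 7, nat_lit 21594128577), (nat_lit 102, nat_lit 22667870400)]⟩,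
   ⟨V6_16225415361, [(nat_lit 39, nat_lit 17349497025), (nat_lit 92, nat_lit 18423234753), (nat_lit 55, nat_lit 18406461633), (nat_lit 82, nat_lit 19496972481), (nat_lit 22, nat_lit 19480199361), (nat_lit 117, nat_lit 19463426241), (nat_lit 8, nat_lit 20553937089), (nat_lit 112, nat_lit 20537163969), (nat_lit 63, nat_lit 20520390849), (nat_lit 107, nat_lit 21610901697), (nat_lit 27, nat_lit 21594128577), (nat_lit 8, nat_lit 22667866305)]⟩,
   ⟨V6_15151681728, [(nat_lit 53, nat_lit 17349497025), (nat_lit 46, nat_lit 18423238848), (nat_lit 125, nat_lit 18406461633), (nat_lit 105, nat_lit 19480203456), (nat_lit 72, nat_lit 19463426241), (nat_lit 16, nat_lit 20537168064), (nat_lit 14, nat_lit 20520390849), (nat_lit 45, nat_lit 21594132672)]⟩],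
  [W_17315934272, W_16258453568, W_16242196544, W_15201747008, W_15201488960, W_15185231936, W_13054529600, W_13054525568, W_13054267520, W_11980787840, W_11980783808, W_11980525760]⟩
theorem C_17349497025 : chkRec R_17349497025 = true := by decide +kernel

noncomputable def R_17349497088 : Rec := ⟨nat_lit 17349497088, nat_lit 68,
  [⟨V6_17299165248, [(nat_lit 14, nat_lit 17349497088), (nat_lit 11, nat_lit 18423238848), (nat_lit 78, nat_lit 18406461696), (nat_lit 40, nat_lit 19496980608), (nat_lit 65, nat_lit 19480203456), (nat_lit 74, nat_lit 19463426304), (nat_lit 85, nat_lit 20570722368), (nat_lit 30, nat_lit 20553945216), (nat_lit 23, nat_lit 20537168064), (nat_lit 59, nat_lit 20520390912), (nat_lit 100, nat_lit 21627686976), (nat_lit 53, nat_lit 21610909824), (nat_lit 109, nat_lit 21594132672), (nat_lit 125, nat_lit 22684651584), (nat_lit 47, nat_lit 22667874432), (nat_lit 39, nat_lit 23741616192)]⟩,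
   ⟨V6_16275492864, [(nat_lit 70, nat_lit 17349497088), (nat_lit 19, nat_lit 18423238848), (nat_lit 22, nat_lit 18422976768), (nat_lit 120, nat_lit 19496980608), (nat_lit 10, nat_lit 19496718528), (nat_lit 37, nat_lit 20570722368), (nat_lit 43, nat_lit 20570460288), (nat_lit 109, nat_lit 21644464128), (nat_lit 104, nat_lit 21644202048), (nat_lit 30, nat_lit 22717943808)]⟩],
  [W_17315938304, W_15202009088, W_15201747008, W_15185231936, W_15184969856, W_13054263488, W_13054001408, W_11980783808, W_11980525760, W_11947233536, W_10907042048]⟩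
theorem C_17349497088 : chkRec R_17349497088 = true := by decide +kernel

noncomputable def R_17349501057 : Rec := ⟨nat_lit 17349501057, nat_lit 60,
  [⟨V6_17315930241, [(nat_lit 95, nat_lit 17349501057), (nat_lit 49, nat_lit 18423238785), (nat_lit 51, nat_lit 18406465665), (nat_lit 78, nat_lit 19496976513), (nat_lit 107, nat_lit 19480203393), (nat_lit 10, nat_lit 19463430273), (nat_lit 19, nat_lit 20570714241), (nat_lit 31, nat_lit 20553941121), (nat_lit 59, nat_lit 20537168001), (nat_lit 87, nat_lit 21644451969), (nat_lit 82, nat_lit 21627678849), (nat_lit 46, nat_lit 21610905729), (nat_lit 126, nat_lit 22701416577), (nat_lit 87, nat_lit 22684643457), (nat_lit 15, nat_lit 23758381185)]⟩,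
   ⟨V6_17299161153, [(nat_lit 60, nat_lit 17349501057), (nat_lit 39, nat_lit 18423242817), (nat_lit 42, nat_lit 18423238785), (nat_lit 48, nat_lit 18406465665), (nat_lit 84, nat_lit 19496980545), (nat_lit 113, nat_lit 19496976513), (nat_lit 34, nat_lit 19480207425), (nat_lit 126, nat_lit 19480203393), (nat_lit 85, nat_lit 19463430273), (nat_lit 4, nat_lit 20570718273), (nat_lit 89, nat_lit 20553945153), (nat_lit 100, nat_lit 20553941121), (nat_lit 11, nat_lit 20537172033), (nat_lit 32, nat_lit 20537168001), (nat_lit 21, nat_lit 20520394881), (nat_lit 74, nat_lit 21627682881), (nat_lit 84, nat_lit 21610909761), (nat_lit 65, nat_lit 21610905729), (nat_lit 100, nat_lit 21594136641), (nat_lit 93, nat_lit 21594132609), (nat_lit 55, nat_lit 22684647489), (nat_lit 41, nat_lit 22667874369), (nat_lit 105, nat_lit 22667870337), (nat_lit 104, nat_lit 23741612097)]⟩,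
   ⟨V6_16225427520, [(nat_lit 44, nat_lit 17349501057), (nat_lit 34, nat_lit 18423242880), (nat_lit 64, nat_lit 18423242817), (nat_lit 40, nat_lit 18406465665), (nat_lit 39, nat_lit 19496984640), (nat_lit 77, nat_lit 19480207488), (nat_lit 101, nat_lit 19480207425), (nat_lit 57, nat_lit 19463430273), (nat_lit 1, nat_lit 20553949248), (nat_lit 89, nat_lit 20537172096), (nat_lit 28, nat_lit 20537172033), (nat_lit 47, nat_lit 20520394881), (nat_lit 88, nat_lit 21610913856), (nat_lit 82, nat_lit 21594136704), (nat_lit 7, nat_lit 21594136641), (nat_lit 37, nat_lit 22667878464)]⟩,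
   ⟨V6_16225165440, [(nat_lit 4, nat_lit 17349501057), (nat_lit 35, nat_lit 18423242880), (nat_lit 32, nat_lit 18422980737), (nat_lit 110, nat_lit 18406465665), (nat_lit 93, nat_lit 19496722560), (nat_lit 66, nat_lit 19480207488), (nat_lit 92, nat_lit 19479945345), (nat_lit 63, nat_lit 19463430273), (nat_lit 47, nat_lit 20553687168), (nat_lit 10, nat_lit 20537172096), (nat_lit 46, nat_lit 20536909953), (nat_lit 21, nat_lit 20520394881), (nat_lit 21, nat_lit 21610651776), (nat_lit 21, nat_lit 21594136704), (nat_lit 91, nat_lit 21593874561), (nat_lit 8, nat_lit 22667616384)]⟩,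
   ⟨V6_16225165377, [(nat_lit 19, nat_lit 17349501057), (nat_lit 123, nat_lit 18423242817), (nat_lit 62, nat_lit 18422980737), (nat_lit 112, nat_lit 18406465665), (nat_lit 68, nat_lit 19496722497), (nat_lit 60, nat_lit 19480207425), (nat_lit 28, nat_lit 19479945345), (nat_lit 3, nat_lit 19463430273), (nat_lit 55, nat_lit 20553687105), (nat_lit 61, nat_lit 20537172033), (nat_lit 108, nat_lit 20536909953), (nat_lit 41, nat_lit 20520394881), (nat_lit 51, nat_lit 21610651713), (nat_lit 17, nat_lit 21594136641), (nat_lit 63, nat_lit 21593874561), (nat_lit 71, nat_lit 22667616321)]⟩,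
   ⟨V6_15151685760, [(nat_lit 3, nat_lit 17349501057), (nat_lit 5, nat_lit 18423242880), (nat_lit 55, nat_lit 18406465665), (nat_lit 97, nat_lit 19480207488), (nat_lit 52, nat_lit 19463430273), (nat_lit 68, nat_lit 20537172096), (nat_lit 123, nat_lit 20520394881), (nat_lit 96, nat_lit 21594136704)]⟩],
  [W_17315934272, W_16242196544, W_15202001024, W_15201747008, W_15185231936, W_13054529600, W_13054525568, W_13054267520, W_11980791872, W_11980787840, W_10907050112]⟩
theorem C_17349501057 : chkRec R_17349501057 = true := by decide +kernel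

noncomputable def R_17349501120 : Rec := ⟨nat_lit 17349501120, nat_lit 100,
  [⟨V6_17315942400, [(nat_lit 71, nat_lit 17349501120), (nat_lit 19, nat_lit 18423242880), (nat_lit 103, nat_lit 18423238848), (nat_lit 119, nat_lit 18406465728), (nat_lit 9, nat_lit 19496984640), (nat_lit 74, nat_lit 19496980608), (nat_lit 24, nat_lit 19480207488), (nat_lit 96, nat_lit 19480203456), (nat_lit 96, nat_lit 19463430336), (nat_lit 43, nat_lit 20570726400), (nat_lit 95, nat_lit 20570722368), (nat_lit 89, nat_lit 20553949248), (nat_lit 23, nat_lit 20553945216), (nat_lit 64, nat_lit 20537172096), (nat_lit 70, nat_lit 20537168064), (nat_lit 104, nat_lit 21644464128), (nat_lit 17, nat_lit 21627691008), (nat_lit 41, nat_lit 21627686976), (nat_lit 120, nat_lit 21610913856), (nat_lit 78, nat_lit 21610909824), (nat_lit 39, nat_lit 22701428736), (nat_lit 123, nat_lit 22684655616), (nat_lit 69, nat_lit 22684651584), (nat_lit 39, nat_lit 23758393344)]⟩,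
   ⟨V6_17315684352, [(nat_lit 125, nat_lit 17349501120), (nat_lit 32, nat_lit 18423242880), (nat_lit 49, nat_lit 18422980800), (nat_lit 93, nat_lit 18406465728), (nat_lit 106, nat_lit 19496984640), (nat_lit 108, nat_lit 19496722560), (nat_lit 71, nat_lit 19480207488), (nat_lit 8, nat_lit 19479945408), (nat_lit 30, nat_lit 19463430336), (nat_lit 28, nat_lit 20570726400), (nat_lit 10, nat_lit 20570464320), (nat_lit 95, nat_lit 20553949248), (nat_lit 27, nat_lit 20553687168), (nat_lit 121, nat_lit 20537172096), (nat_lit 7, nat_lit 20536910016), (nat_lit 98, nat_lit 21644206080), (nat_lit 3, nat_lit 21627691008), (nat_lit 111, nat_lit 21627428928), (nat_lit 90, nat_lit 21610913856), (nat_lit 90, nat_lit 21610651776), (nat_lit 62, nat_lit 22701170688), (nat_lit 54, nat_lit 22684655616), (nat_lit 3, nat_lit 22684393536), (nat_lit 49, nat_lit 23758135296)]⟩,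
   ⟨V6_16258719744, [(nat_lit 105, nat_lit 17349501120), (nat_lit 44, nat_lit 18423242880), (nat_lit 100, nat_lit 18422980800), (nat_lit 3, nat_lit 18406465728), (nat_lit 82, nat_lit 19496984640), (nat_lit 12, nat_lit 19496722560), (nat_lit 94, nat_lit 19480207488), (nat_lit 124, nat_lit 19479945408), (nat_lit 116, nat_lit 20570726400), (nat_lit 82, nat_lit 20570464320), (nat_lit 38, nat_lit 20553949248), (nat_lit 92, nat_lit 20553687168), (nat_lit 11, nat_lit 21644206080), (nat_lit 109, nat_lit 21627691008), (nat_lit 49, nat_lit 21627428928), (nat_lit 70, nat_lit 22701170688)]⟩,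
   ⟨V6_16242204672, [(nat_lit 95, nat_lit 17349501120), (nat_lit 9, nat_lit 18423242880), (nat_lit 37, nat_lit 18406465728), (nat_lit 56, nat_lit 19496984640), (nat_lit 40, nat_lit 19480207488), (nat_lit 89, nat_lit 19463430336), (nat_lit 113, nat_lit 20570726400), (nat_lit 44, nat_lit 20553949248), (nat_lit 106, nat_lit 20537172096), (nat_lit 28, nat_lit 21627691008), (nat_lit 19, nat_lit 21610913856), (nat_lit 45, nat_lit 22684655616)]⟩],
  [W_17315938304, W_16242196544, W_15202009088, W_15201747008, W_15185231936, W_15184973888, W_15184969856, W_14128267328, W_14128013312, W_14128001216, W_13054521536, W_13054263488, W_11980783808, W_11980525760, W_10906788032]⟩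
theorem C_17349501120 : chkRec R_17349501120 = true := by decide +kernel

noncomputable def R_17349505089 : Rec := ⟨nat_lit 17349505089, nat_lit 21,
  [⟨V6_17299161153, [(nat_lit 13, nat_lit 17349505089), (nat_lit 11, nat_lit 18423242817), (nat_lit 47, nat_lit 18406469697), (nat_lit 72, nat_lit 19496980545), (nat_lit 63, nat_lit 19480207425), (nat_lit 68, nat_lit 19463434305), (nat_lit 38, nat_lit 20570718273), (nat_lit 57, nat_lit 20553945153), (nat_lit 14, nat_lit 20537172033), (nat_lit 10, nat_lit 20520398913), (nat_lit 8, nat_lit 21627682881), (nat_lit 52, nat_lit 21610909761), (nat_lit 35, nat_lit 21594136641), (nat_lit 14, nat_lit 22684647489), (nat_lit 54, nat_lit 22667874369), (nat_lit 53, nat_lit 23741612097)]⟩,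
   ⟨V6_15151685697, [(nat_lit 8, nat_lit 17349505089), (nat_lit 105, nat_lit 18423242817), (nat_lit 109, nat_lit 18406469697), (nat_lit 123, nat_lit 19480207425), (nat_lit 15, nat_lit 19463434305), (nat_lit 60, nat_lit 20537172033), (nat_lit 80, nat_lit 20520398913), (nat_lit 106, nat_lit 21594136641)]⟩,
   ⟨V6_14094725184, [(nat_lit 21, nat_lit 17349505089), (nat_lit 54, nat_lit 18423246912), (nat_lit 36, nat_lit 18406469697), (nat_lit 5, nat_lit 19480211520), (nat_lit 95, nat_lit 19463434305), (nat_lit 87, nat_lit 20537176128)]⟩],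
  [W_17349480512, W_15185231936, W_14094721088, W_11980791872]⟩
theorem C_17349505089 : chkRec R_17349505089 = true := by decide +kernel

noncomputable def R_17349505152 : Rec := ⟨nat_lit 17349505152, nat_lit 48,
  [⟨V6_16242204672, [(nat_lit 28, nat_lit 17349505152), (nat_lit 74, nat_lit 18423246912), (nat_lit 110, nat_lit 18423242880), (nat_lit 109, nat_lit 18406469760), (nat_lit 76, nat_lit 19496988672), (nat_lit 115, nat_lit 19496984640), (nat_lit 94, nat_lit 19480211520), (nat_lit 42, nat_lit 19480207488), (nat_lit 74, nat_lit 19463434368), (nat_lit 123, nat_lit 20570726400), (nat_lit 100, nat_lit 20553953280), (nat_lit 3, nat_lit 20553949248), (nat_lit 90, nat_lit 20537176128), (nat_lit 67, nat_lit 20537172096), (nat_lit 9, nat_lit 21627691008), (nat_lit 106, nat_lit 21610917888), (nat_lit 49, nat_lit 21610913856), (nat_lit 126, nat_lit 22684655616)]⟩,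
   ⟨V6_16225427520, [(nat_lit 97, nat_lit 17349505152), (nat_lit 122, nat_lit 18423246912), (nat_lit 90, nat_lit 18423242880), (nat_lit 123, nat_lit 18406469760), (nat_lit 88, nat_lit 19496984640), (nat_lit 72, nat_lit 19480211520), (nat_lit 76, nat_lit 19480207488), (nat_lit 96, nat_lit 19463434368), (nat_lit 77, nat_lit 20553949248), (nat_lit 21, nat_lit 20537176128), (nat_lit 61, nat_lit 20537172096), (nat_lit 122, nat_lit 20520398976), (nat_lit 55, nat_lit 21610913856), (nat_lit 17, nat_lit 21594140736), (nat_lit 114, nat_lit 21594136704), (nat_lit 7, nat_lit 22667878464)]⟩,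
   ⟨V6_16225423488, [(nat_lit 125, nat_lit 17349505152), (nat_lit 101, nat_lit 18423242880), (nat_lit 19, nat_lit 18406469760), (nat_lit 60, nat_lit 19496980608), (nat_lit 125, nat_lit 19480207488), (nat_lit 126, nat_lit 19463434368), (nat_lit 115, nat_lit 20553945216), (nat_lit 42, nat_lit 20537172096), (nat_lit 71, nat_lit 20520398976), (nat_lit 72, nat_lit 21610909824), (nat_lit 106, nat_lit 21594136704), (nat_lit 114, nat_lit 22667874432)]⟩,
   ⟨V6_15151685760, [(nat_lit 112, nat_lit 17349505152), (nat_lit 73, nat_lit 18423242880), (nat_lit 2, nat_lit 18406469760), (nat_lit 71, nat_lit 19480207488), (nat_lit 83, nat_lit 19463434368), (nat_lit 78, nat_lit 20537172096), (nat_lit 104, nat_lit 20520398976), (nat_lit 87, nat_lit 21594136704)]⟩],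
  [W_17315938304, W_17315934272, W_15202009088, W_15202001024, W_14094725120, W_11980795904, W_11980787840, W_10907050112]⟩
theorem C_17349505152 : chkRec R_17349505152 = true := by decide +kernel

noncomputable def R_17349750978 : Rec := ⟨nat_lit 17349750978, nat_lit 11,
  [⟨V6_16274960577, [(nat_lit 29, nat_lit 17349750978), (nat_lit 49, nat_lit 18423492801), (nat_lit 10, nat_lit 18423230658), (nat_lit 114, nat_lit 19496972481), (nat_lit 105, nat_lit 19496710338), (nat_lit 73, nat_lit 20570452161), (nat_lit 30, nat_lit 20570190018), (nat_lit 16, nat_lit 21643931841), (nat_lit 56, nat_lit 21643669698), (nat_lit 112, nat_lit 22717411521)]⟩,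
   ⟨V6_16241668290, [(nat_lit 6, nat_lit 17349750978), (nat_lit 99, nat_lit 18423230658), (nat_lit 109, nat_lit 18406715586), (nat_lit 54, nat_lit 19496710338), (nat_lit 31, nat_lit 19480195266), (nat_lit 81, nat_lit 19463680194), (nat_lit 112, nat_lit 20570190018), (nat_lit 85, nat_lit 20553674946), (nat_lit 68, nat_lit 20537159874), (nat_lit 88, nat_lit 21627154626), (nat_lit 93, nat_lit 21610639554), (nat_lit 103, nat_lit 22684119234)]⟩,
   ⟨V6_15168712896, [(nat_lit 99, nat_lit 17349750978), (nat_lit 82, nat_lit 18423492801), (nat_lit 62, nat_lit 18406715586), (nat_lit 54, nat_lit 19497234624), (nat_lit 35, nat_lit 19480457409), (nat_lit 41, nat_lit 19463680194), (nat_lit 53, nat_lit 20554199232), (nat_lit 69, nat_lit 20537422017), (nat_lit 55, nat_lit 21611163840)]⟩],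
  [W_15168712832, W_15168450752, W_14111748224, W_14111486144, W_11981041856]⟩
theorem C_17349750978 : chkRec R_17349750978 = true := by decide +kernel

noncomputable def R_17349755010 : Rec := ⟨nat_lit 17349755010, nat_lit 32,
  [⟨V6_15202263168, [(nat_lit 53, nat_lit 17349755010), (nat_lit 101, nat_lit 18423496833), (nat_lit 101, nat_lit 18423492738), (nat_lit 72, nat_lit 19497238656), (nat_lit 93, nat_lit 19497234561), (nat_lit 105, nat_lit 19497230466), (nat_lit 59, nat_lit 20570976384), (nat_lit 58, nat_lit 20570972289), (nat_lit 56, nat_lit 21644714112)]⟩],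
  [W_17348960384, W_17332445312, W_17331929216, W_17315414144, W_16242450560, W_15202001024, W_15185485952, W_15168712832]⟩
theorem C_17349755010 : chkRec R_17349755010 = true := by decide +kernel

noncomputable def R_17349755073 : Rec := ⟨nat_lit 17349755073, nat_lit 61,
  [⟨V6_17348706369, [(nat_lit 93, nat_lit 17349755073), (nat_lit 88, nat_lit 18423496833), (nat_lit 60, nat_lit 18423234753), (nat_lit 46, nat_lit 19497238593), (nat_lit 88, nat_lit 19496976513), (nat_lit 17, nat_lit 19496714433), (nat_lit 81, nat_lit 20570718273), (nat_lit 30, nat_lit 20570456193), (nat_lit 85, nat_lit 20570194113), (nat_lit 6, nat_lit 21644197953), (nat_lit 61, nat_lit 21643935873), (nat_lit 94, nat_lit 21643673793), (nat_lit 14, nat_lit 22717677633), (nat_lit 10, nat_lit 22717415553), (nat_lit 111, nat_lit 23791157313)]⟩,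
   ⟨V6_17348702400, [(nat_lit 35, nat_lit 17349755073), (nat_lit 111, nat_lit 18423496896), (nat_lit 8, nat_lit 18423492801), (nat_lit 86, nat_lit 18423234753), (nat_lit 99, nat_lit 19497234624), (nat_lit 16, nat_lit 19496976576), (nat_lit 87, nat_lit 19496972481), (nat_lit 88, nat_lit 19496714433), (nat_lit 8, nat_lit 20570714304), (nat_lit 104, nat_lit 20570456256), (nat_lit 105, nat_lit 20570452161), (nat_lit 36, nat_lit 20570194113), (nat_lit 47, nat_lit 21644193984), (nat_lit 96, nat_lit 21643935936), (nat_lit 101, nat_lit 21643931841), (nat_lit 9, nat_lit 21643673793), (nat_lit 83, nat_lit 22717673664), (nat_lit 88, nat_lit 22717415616), (nat_lit 76, nat_lit 22717411521), (nat_lit 45, nat_lit 23791153344)]⟩,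
   ⟨V6_17331929280, [(nat_lit 5, nat_lit 17349755073), (nat_lit 49, nat_lit 18423496896), (nat_lit 29, nat_lit 18423234753), (nat_lit 81, nat_lit 18406719681), (nat_lit 1, nat_lit 19496976576), (nat_lit 107, nat_lit 19496714433), (nat_lit 27, nat_lit 19480461504), (nat_lit 11, nat_lit 19480199361), (nat_lit 42, nat_lit 20570456256), (nat_lit 99, nat_lit 20570194113), (nat_lit 126, nat_lit 20553941184), (nat_lit 43, nat_lit 20553679041), (nat_lit 119, nat_lit 21643935936), (nat_lit 109, nat_lit 21643673793), (nat_lit 6, nat_lit 21627420864), (nat_lit 68, nat_lit 21627158721), (nat_lit 90, nat_lit 22717415616), (nat_lit 23, nat_lit 22700900544), (nat_lit 46, nat_lit 22700638401), (nat_lit 6, nat_lit 23774380224)]⟩,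
   ⟨V6_17315152065, [(nat_lit 81, nat_lit 17349755073), (nat_lit 75, nat_lit 18423234753), (nat_lit 82, nat_lit 18406719681), (nat_lit 4, nat_lit 19496714433), (nat_lit 96, nat_lit 19480199361), (nat_lit 60, nat_lit 19463684289), (nat_lit 63, nat_lit 20570194113), (nat_lit 82, nat_lit 20553679041), (nat_lit 41, nat_lit 20537163969), (nat_lit 22, nat_lit 21643673793), (nat_lit 115, nat_lit 21627158721), (nat_lit 90, nat_lit 21610643649), (nat_lit 75, nat_lit 22700638401), (nat_lit 51, nat_lit 22684123329), (nat_lit 45, nat_lit 23757603009)]⟩,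
   ⟨V6_16274964672, [(nat_lit 76, nat_lit 17349755073), (nat_lit 93, nat_lit 18423496896), (nat_lit 82, nat_lit 18423234753), (nat_lit 89, nat_lit 19496976576), (nat_lit 126, nat_lit 19496714433), (nat_lit 109, nat_lit 20570456256), (nat_lit 91, nat_lit 20570194113), (nat_lit 13, nat_lit 21643935936), (nat_lit 14, nat_lit 21643673793), (nat_lit 92, nat_lit 22717415616)]⟩],
  [W_16242454592, W_15168716864, W_15168712832, W_15168450752, W_14128525376, W_14128267328, W_14111752256, W_14094975104, W_13054787648, W_13054783616, W_13054525568, W_13038010496, W_13021233344, W_11981045888, W_11981041856, W_11964268736, W_10907304128]⟩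
theorem C_17349755073 : chkRec R_17349755073 = true := by decide +kernel

noncomputable def R_17349755136 : Rec := ⟨nat_lit 17349755136, nat_lit 66,
  [⟨V6_17331929280, [(nat_lit 121, nat_lit 17349755136), (nat_lit 88, nat_lit 18423496896), (nat_lit 67, nat_lit 18423234816), (nat_lit 63, nat_lit 18406719744), (nat_lit 125, nat_lit 19496976576), (nat_lit 106, nat_lit 19496714496), (nat_lit 36, nat_lit 19480461504), (nat_lit 42, nat_lit 19480199424), (nat_lit 76, nat_lit 20570456256), (nat_lit 52, nat_lit 20570194176), (nat_lit 90, nat_lit 20553941184), (nat_lit 36, nat_lit 20553679104), (nat_lit 96, nat_lit 21643935936), (nat_lit 39, nat_lit 21643673856), (nat_lit 35, nat_lit 21627420864), (nat_lit 16, nat_lit 21627158784), (nat_lit 81, nat_lit 22717415616), (nat_lit 26, nat_lit 22700900544), (nat_lit 45, nat_lit 22700638464), (nat_lit 116, nat_lit 23774380224)]⟩,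
   ⟨V6_17316200448, [(nat_lit 102, nat_lit 17349755136), (nat_lit 40, nat_lit 18423496896), (nat_lit 102, nat_lit 18406719744), (nat_lit 124, nat_lit 19497238656), (nat_lit 104, nat_lit 19480461504), (nat_lit 59, nat_lit 19463684352), (nat_lit 69, nat_lit 20570980416), (nat_lit 46, nat_lit 20554203264), (nat_lit 27, nat_lit 20537426112), (nat_lit 30, nat_lit 21644722176), (nat_lit 91, nat_lit 21627945024), (nat_lit 12, nat_lit 21611167872), (nat_lit 80, nat_lit 22701686784), (nat_lit 114, nat_lit 22684909632), (nat_lit 55, nat_lit 23758651392)]⟩,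
   ⟨V6_16274964672, [(nat_lit 7, nat_lit 17349755136), (nat_lit 110, nat_lit 18423496896), (nat_lit 31, nat_lit 18423234816), (nat_lit 76, nat_lit 19496976576), (nat_lit 17, nat_lit 19496714496), (nat_lit 40, nat_lit 20570456256), (nat_lit 45, nat_lit 20570194176), (nat_lit 98, nat_lit 21643935936), (nat_lit 96, nat_lit 21643673856), (nat_lit 32, nat_lit 22717415616)]⟩],
  [W_17315938304, W_15202009088, W_15201747008, W_15185494016, W_14128267328, W_10907042048]⟩
theorem C_17349755136 : chkRec R_17349755136 = true := by decide +kernel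

noncomputable def R_17349759105 : Rec := ⟨nat_lit 17349759105, nat_lit 82,
  [⟨V6_17315930241, [(nat_lit 31, nat_lit 17349759105), (nat_lit 17, nat_lit 18423496833), (nat_lit 74, nat_lit 18423238785), (nat_lit 66, nat_lit 18406723713), (nat_lit 46, nat_lit 19497234561), (nat_lit 34, nat_lit 19496976513), (nat_lit 18, nat_lit 19480461441), (nat_lit 40, nat_lit 19480203393), (nat_lit 61, nat_lit 19463688321), (nat_lit 9, nat_lit 20570972289), (nat_lit 117, nat_lit 20570714241), (nat_lit 26, nat_lit 20554199169), (nat_lit 104, nat_lit 20553941121), (nat_lit 123, nat_lit 20537426049), (nat_lit 116, nat_lit 20537168001), (nat_lit 110, nat_lit 21644451969), (nat_lit 32, nat_lit 21627936897), (nat_lit 53, nat_lit 21627678849), (nat_lit 87, nat_lit 21611163777), (nat_lit 115, nat_lit 21610905729), (nat_lit 59, nat_lit 22701416577), (nat_lit 59, nat_lit 22684901505), (nat_lit 2, nat_lit 22684643457), (nat_lit 108, nat_lit 23758381185)]⟩,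
   ⟨V6_16276004928, [(nat_lit 119, nat_lit 17349759105), (nat_lit 26, nat_lit 18423500928), (nat_lit 123, nat_lit 18423500865), (nat_lit 115, nat_lit 18423496833), (nat_lit 102, nat_lit 19497242688), (nat_lit 51, nat_lit 19497238656), (nat_lit 19, nat_lit 19497238593), (nat_lit 93, nat_lit 19497234561), (nat_lit 104, nat_lit 20570980416), (nat_lit 5, nat_lit 20570976384), (nat_lit 5, nat_lit 20570976321), (nat_lit 114, nat_lit 20570972289), (nat_lit 4, nat_lit 21644718144), (nat_lit 12, nat_lit 21644714112), (nat_lit 15, nat_lit 21644714049), (nat_lit 89, nat_lit 22718455872)]⟩,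
   ⟨V6_16242450561, [(nat_lit 86, nat_lit 17349759105), (nat_lit 58, nat_lit 18423496833), (nat_lit 106, nat_lit 18406723713), (nat_lit 81, nat_lit 19497234561), (nat_lit 16, nat_lit 19480461441), (nat_lit 44, nat_lit 19463688321), (nat_lit 101, nat_lit 20570972289), (nat_lit 74, nat_lit 20554199169), (nat_lit 92, nat_lit 20537426049), (nat_lit 122, nat_lit 21627936897), (nat_lit 15, nat_lit 21611163777), (nat_lit 116, nat_lit 22684901505)]⟩],
  [W_17316192320, W_17315934272, W_17315418176, W_16258453568, W_16242454592, W_16242450560, W_16242196544, W_15201747008, W_15201488960, W_15185489984, W_15185231936, W_15168716864, W_14127747200, W_13054267520, W_13021237376, W_10907308160]⟩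
theorem C_17349759105 : chkRec R_17349759105 = true := by decide +kernel

noncomputable def R_17349759168 : Rec := ⟨nat_lit 17349759168, nat_lit 125,
  [⟨V6_17316200448, [(nat_lit 40, nat_lit 17349759168), (nat_lit 123, nat_lit 18423500928), (nat_lit 116, nat_lit 18423496896), (nat_lit 23, nat_lit 18406723776), (nat_lit 40, nat_lit 19497242688), (nat_lit 6, nat_lit 19497238656), (nat_lit 108, nat_lit 19480465536), (nat_lit 71, nat_lit 19480461504), (nat_lit 28, nat_lit 19463688384), (nat_lit 48, nat_lit 20570984448), (nat_lit 63, nat_lit 20570980416), (nat_lit 54, nat_lit 20554207296), (nat_lit 41, nat_lit 20554203264), (nat_lit 26, nat_lit 20537430144), (nat_lit 37, nat_lit 20537426112), (nat_lit 47, nat_lit 21644722176), (nat_lit 126, nat_lit 21627949056), (nat_lit 115, nat_lit 21627945024), (nat_lit 8, nat_lit 21611171904), (nat_lit 67, nat_lit 21611167872), (nat_lit 119, nat_lit 22701686784), (nat_lit 16, nat_lit 22684913664), (nat_lit 78, nat_lit 22684909632), (nat_lit 99, nat_lit 23758651392)]⟩,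
   ⟨V6_16276008960, [(nat_lit 56, nat_lit 17349759168), (nat_lit 49, nat_lit 18423500928), (nat_lit 26, nat_lit 18423496896), (nat_lit 75, nat_lit 19497242688), (nat_lit 101, nat_lit 19497238656), (nat_lit 43, nat_lit 19497234624), (nat_lit 50, nat_lit 20570984448), (nat_lit 69, nat_lit 20570980416), (nat_lit 112, nat_lit 20570976384), (nat_lit 122, nat_lit 21644722176), (nat_lit 115, nat_lit 21644718144), (nat_lit 104, nat_lit 22718459904)]⟩,
   ⟨V6_16242462720, [(nat_lit 1, nat_lit 17349759168), (nat_lit 91, nat_lit 18423500928), (nat_lit 106, nat_lit 18406723776), (nat_lit 30, nat_lit 19497242688), (nat_lit 94, nat_lit 19480465536), (nat_lit 25, nat_lit 19463688384), (nat_lit 56, nat_lit 20570984448), (nat_lit 78, nat_lit 20554207296), (nat_lit 84, nat_lit 20537430144), (nat_lit 15, nat_lit 21627949056), (nat_lit 51, nat_lit 21611171904), (nat_lit 74, nat_lit 22684913664)]⟩],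
  [W_17332195328, W_17316196352, W_17315938304, W_16275230720, W_16258453568, W_16242458624, W_16242196544, W_15202009088, W_15201747008, W_15185494016, W_15185489984, W_15184973888, W_14127747200, W_14110970048, W_13054263488, W_11980787840, W_11980783808, W_11980525760, W_11964010688, W_10907308160, W_10907304128, W_10890531008]⟩
theorem C_17349759168 : chkRec R_17349759168 = true := by decide +kernel

noncomputable def R_17349763137 : Rec := ⟨nat_lit 17349763137, nat_lit 51,
  [⟨V6_16276004928, [(nat_lit 87, nat_lit 17349763137), (nat_lit 114, nat_lit 18423504960), (nat_lit 9, nat_lit 18423500865), (nat_lit 52, nat_lit 19497242688), (nat_lit 107, nat_lit 19497238593), (nat_lit 117, nat_lit 20570980416), (nat_lit 14, nat_lit 20570976321), (nat_lit 2, nat_lit 21644718144), (nat_lit 111, nat_lit 21644714049), (nat_lit 104, nat_lit 22718455872)]⟩],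
  [W_17315934272, W_16242196544, W_15184973888, W_15168716864, W_15168200768, W_14111236160, W_14094979136, W_14094721088, W_13054271552, W_13021241408, W_11980791872, W_10907312192]⟩
theorem C_17349763137 : chkRec R_17349763137 = true := by decide +kernel

noncomputable def R_17349763200 : Rec := ⟨nat_lit 17349763200, nat_lit 156,
  [⟨V6_17349746688, [(nat_lit 5, nat_lit 17349763200), (nat_lit 85, nat_lit 18423504960), (nat_lit 101, nat_lit 18423500928), (nat_lit 13, nat_lit 19497246720), (nat_lit 37, nat_lit 19497242688), (nat_lit 80, nat_lit 19497238656), (nat_lit 109, nat_lit 20570984448), (nat_lit 100, nat_lit 20570980416), (nat_lit 86, nat_lit 20570976384), (nat_lit 42, nat_lit 21644722176), (nat_lit 113, nat_lit 21644718144), (nat_lit 94, nat_lit 21644714112), (nat_lit 11, nat_lit 22718459904), (nat_lit 81, nat_lit 22718455872), (nat_lit 52, nat_lit 23792197632)]⟩,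
   ⟨V6_17316192384, [(nat_lit 74, nat_lit 17349763200), (nat_lit 101, nat_lit 18423500928), (nat_lit 17, nat_lit 18406727808), (nat_lit 26, nat_lit 19497238656), (nat_lit 78, nat_lit 19480465536), (nat_lit 88, nat_lit 19463692416), (nat_lit 91, nat_lit 20570976384), (nat_lit 95, nat_lit 20554203264), (nat_lit 62, nat_lit 20537430144), (nat_lit 29, nat_lit 21644714112), (nat_lit 112, nat_lit 21627940992), (nat_lit 100, nat_lit 21611167872), (nat_lit 42, nat_lit 22701678720), (nat_lit 29, nat_lit 22684905600), (nat_lit 5, nat_lit 23758643328)]⟩,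
   ⟨V6_17315684352, [(nat_lit 79, nat_lit 17349763200), (nat_lit 71, nat_lit 18423504960), (nat_lit 71, nat_lit 18423242880), (nat_lit 50, nat_lit 18406727808), (nat_lit 29, nat_lit 19497246720), (nat_lit 23, nat_lit 19496984640), (nat_lit 80, nat_lit 19496722560), (nat_lit 50, nat_lit 19480469568), (nat_lit 18, nat_lit 19480207488), (nat_lit 116, nat_lit 19463692416), (nat_lit 111, nat_lit 20570726400), (nat_lit 67, nat_lit 20570464320), (nat_lit 89, nat_lit 20554211328), (nat_lit 109, nat_lit 20553949248), (nat_lit 27, nat_lit 20553687168), (nat_lit 3, nat_lit 20537434176), (nat_lit 76, nat_lit 20537172096), (nat_lit 19, nat_lit 21644206080), (nat_lit 63, nat_lit 21627691008), (nat_lit 28, nat_lit 21627428928), (nat_lit 104, nat_lit 21611175936), (nat_lit 90, nat_lit 21610913856), (nat_lit 33, nat_lit 21610651776), (nat_lit 98, nat_lit 22701170688), (nat_lit 111, nat_lit 22684655616), (nat_lit 33, nat_lit 22684393536), (nat_lit 99, nat_lit 23758135296)]⟩,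
   ⟨V6_15168724992, [(nat_lit 117, nat_lit 17349763200), (nat_lit 63, nat_lit 18423504960), (nat_lit 9, nat_lit 18406727808), (nat_lit 65, nat_lit 19497246720), (nat_lit 53, nat_lit 19480469568), (nat_lit 98, nat_lit 19463692416), (nat_lit 93, nat_lit 20554211328), (nat_lit 112, nat_lit 20537434176), (nat_lit 75, nat_lit 21611175936)]⟩,
   ⟨V6_10907312256, [(nat_lit 101, nat_lit 17349763200)]⟩],
  [W_17316196352, W_17316192320, W_17315938304, W_17315934272, W_16242458624, W_16242454592, W_16242450560, W_16242196544, W_15202009088, W_15202001024, W_15201747008, W_15185494016, W_15185489984, W_15185231936, W_15168720896, W_15168716864, W_15168462848, W_14128013312, W_14094983168]⟩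
theorem C_17349763200 : chkRec R_17349763200 = true := by decide +kernel

noncomputable def R_17349767232 : Rec := ⟨nat_lit 17349767232, nat_lit 88,
  [⟨V6_17349746688, [(nat_lit 9, nat_lit 17349767232), (nat_lit 3, nat_lit 18423508992), (nat_lit 120, nat_lit 18423504960), (nat_lit 62, nat_lit 19497246720), (nat_lit 121, nat_lit 19497242688), (nat_lit 36, nat_lit 20570984448), (nat_lit 88, nat_lit 20570980416), (nat_lit 85, nat_lit 21644722176), (nat_lit 4, nat_lit 21644718144), (nat_lit 58, nat_lit 22718459904), (nat_lit 125, nat_lit 22718455872), (nat_lit 15, nat_lit 23792197632)]⟩,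
   ⟨V6_17349742656, [(nat_lit 98, nat_lit 17349767232), (nat_lit 102, nat_lit 18423504960), (nat_lit 117, nat_lit 19497242688), (nat_lit 83, nat_lit 20570980416), (nat_lit 23, nat_lit 21644718144), (nat_lit 78, nat_lit 22718455872), (nat_lit 23, nat_lit 23792193600)]⟩,
   ⟨V6_10907316288, [(nat_lit 50, nat_lit 17349767232)]⟩],
  [W_17315938304, W_17315934272, W_16242458624, W_16242196544, W_15168720896, W_15168716864, W_15168462848, W_15168458816, W_14111494208, W_14094983168, W_14094979136, W_14094725120, W_14094721088, W_13037756480, W_13021245440, W_11980795904, W_11980791872, W_11964280832, W_10907316224]⟩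
theorem C_17349767232 : chkRec R_17349767232 = true := by decide +kernel

noncomputable def R_17349771264 : Rec := ⟨nat_lit 17349771264, nat_lit 33,
  [⟨V6_17349746688, [(nat_lit 78, nat_lit 17349771264), (nat_lit 79, nat_lit 18423508992), (nat_lit 101, nat_lit 19497246720), (nat_lit 8, nat_lit 20570984448), (nat_lit 96, nat_lit 21644722176), (nat_lit 91, nat_lit 22718459904), (nat_lit 43, nat_lit 23792197632)]⟩,
   ⟨V6_11981058048, [(nat_lit 40, nat_lit 17349771264), (nat_lit 107, nat_lit 18423508992)]⟩],
  [W_17349742592, W_17316196352, W_16242458624]⟩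
theorem C_17349771264 : chkRec R_17349771264 = true := by decide +kernel

noncomputable def R_17350013058 : Rec := ⟨nat_lit 17350013058, nat_lit 13,
  [⟨V6_15202263168, [(nat_lit 57, nat_lit 17350013058), (nat_lit 46, nat_lit 18423754881), (nat_lit 45, nat_lit 18423750786), (nat_lit 118, nat_lit 18423492738), (nat_lit 8, nat_lit 19497496704), (nat_lit 96, nat_lit 19497492609), (nat_lit 67, nat_lit 19497234561), (nat_lit 121, nat_lit 19497230466), (nat_lit 41, nat_lit 20571234432), (nat_lit 122, nat_lit 20570976384), (nat_lit 82, nat_lit 20570972289), (nat_lit 123, nat_lit 21644714112)]⟩],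
  [W_17348960384, W_17348702336, W_17332187264, W_11981303936]⟩
theorem C_17350013058 : chkRec R_17350013058 = true := by decide +kernel

noncomputable def R_17350013121 : Rec := ⟨nat_lit 17350013121, nat_lit 24,
  [⟨V6_14128787520, [(nat_lit 30, nat_lit 17350013121), (nat_lit 4, nat_lit 18423754944), (nat_lit 93, nat_lit 18423754881), (nat_lit 33, nat_lit 19497496704), (nat_lit 97, nat_lit 19497496641), (nat_lit 121, nat_lit 20571238464)]⟩],
  [W_17348702336, W_17332187264, W_17331925184, W_16258445504, W_15185489984, W_14111486144, W_11964526784]⟩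
theorem C_17350013121 : chkRec R_17350013121 = true := by decide +kernel

noncomputable def R_17350017153 : Rec := ⟨nat_lit 17350017153, nat_lit 61,
  [⟨V6_17348706369, [(nat_lit 10, nat_lit 17350017153), (nat_lit 76, nat_lit 18423758913), (nat_lit 77, nat_lit 18423496833), (nat_lit 28, nat_lit 19497238593), (nat_lit 33, nat_lit 19496976513), (nat_lit 115, nat_lit 20570718273), (nat_lit 38, nat_lit 20570456193), (nat_lit 34, nat_lit 21644197953), (nat_lit 87, nat_lit 21643935873), (nat_lit 73, nat_lit 22717677633), (nat_lit 96, nat_lit 22717415553), (nat_lit 8, nat_lit 23791157313)]⟩,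
   ⟨V6_15202263168, [(nat_lit 62, nat_lit 17350017153), (nat_lit 4, nat_lit 18423758976), (nat_lit 58, nat_lit 18423754881), (nat_lit 20, nat_lit 18423496833), (nat_lit 107, nat_lit 19497496704), (nat_lit 79, nat_lit 19497492609), (nat_lit 45, nat_lit 19497238656), (nat_lit 21, nat_lit 19497234561), (nat_lit 114, nat_lit 20571234432), (nat_lit 77, nat_lit 20570976384), (nat_lit 37, nat_lit 20570972289), (nat_lit 29, nat_lit 21644714112)]⟩,
   ⟨V6_15185748096, [(nat_lit 111, nat_lit 17350017153), (nat_lit 57, nat_lit 18423758976), (nat_lit 40, nat_lit 18423754881), (nat_lit 33, nat_lit 18406981761), (nat_lit 50, nat_lit 19497496704), (nat_lit 117, nat_lit 19497492609), (nat_lit 48, nat_lit 19480723584), (nat_lit 19, nat_lit 19480719489), (nat_lit 29, nat_lit 20571234432), (nat_lit 125, nat_lit 20554461312), (nat_lit 121, nat_lit 20554457217), (nat_lit 125, nat_lit 21628199040)]⟩,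
   ⟨V6_15185748033, [(nat_lit 50, nat_lit 17350017153), (nat_lit 111, nat_lit 18423758913), (nat_lit 101, nat_lit 18423754881), (nat_lit 18, nat_lit 18406981761), (nat_lit 50, nat_lit 19497496641), (nat_lit 84, nat_lit 19497492609), (nat_lit 109, nat_lit 19480723521), (nat_lit 50, nat_lit 19480719489), (nat_lit 107, nat_lit 20571234369), (nat_lit 39, nat_lit 20554461249), (nat_lit 88, nat_lit 20554457217), (nat_lit 122, nat_lit 21628198977)]⟩],
  [W_17348960384, W_17348706368, W_15201747008, W_15185489984, W_15185231936, W_14128783424, W_14128525376, W_14112010304, W_13038272576, W_10907566208]⟩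
theorem C_17350017153 : chkRec R_17350017153 = true := by decide +kernel

noncomputable def R_17350017216 : Rec := ⟨nat_lit 17350017216, nat_lit 89,
  [⟨V6_16276008960, [(nat_lit 121, nat_lit 17350017216), (nat_lit 7, nat_lit 18423758976), (nat_lit 3, nat_lit 18423754944), (nat_lit 122, nat_lit 18423496896), (nat_lit 51, nat_lit 19497500736), (nat_lit 80, nat_lit 19497496704), (nat_lit 100, nat_lit 19497238656), (nat_lit 57, nat_lit 19497234624), (nat_lit 70, nat_lit 20571242496), (nat_lit 57, nat_lit 20571238464), (nat_lit 80, nat_lit 20570980416), (nat_lit 4, nat_lit 20570976384), (nat_lit 71, nat_lit 21644980224), (nat_lit 76, nat_lit 21644722176), (nat_lit 29, nat_lit 21644718144), (nat_lit 26, nat_lit 22718459904)]⟩,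
   ⟨V6_16274964672, [(nat_lit 19, nat_lit 17350017216), (nat_lit 51, nat_lit 18423496896), (nat_lit 32, nat_lit 19496976576), (nat_lit 58, nat_lit 20570456256), (nat_lit 122, nat_lit 21643935936), (nat_lit 19, nat_lit 22717415616)]⟩],
  [W_17348706368, W_15202009088, W_15201747008, W_15185752064, W_15185494016, W_15185489984, W_15185231936, W_14128787456, W_14112010304, W_13055045696, W_13038268544, W_11964526784, W_10907566208, W_10907304128]⟩
theorem C_17350017216 : chkRec R_17350017216 = true := by decide +kernel

noncomputable def R_17350021185 : Rec := ⟨nat_lit 17350021185, nat_lit 46,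
  [⟨V6_17349742656, [(nat_lit 60, nat_lit 17350021185), (nat_lit 69, nat_lit 18423763008), (nat_lit 28, nat_lit 18423758913), (nat_lit 81, nat_lit 18423500865), (nat_lit 89, nat_lit 19497500736), (nat_lit 40, nat_lit 19497496641), (nat_lit 49, nat_lit 19497242688), (nat_lit 87, nat_lit 19497238593), (nat_lit 13, nat_lit 20571238464), (nat_lit 19, nat_lit 20571234369), (nat_lit 88, nat_lit 20570980416), (nat_lit 76, nat_lit 20570976321), (nat_lit 54, nat_lit 21644976192), (nat_lit 125, nat_lit 21644972097), (nat_lit 101, nat_lit 21644718144), (nat_lit 35, nat_lit 21644714049), (nat_lit 17, nat_lit 22718713920), (nat_lit 112, nat_lit 22718455872), (nat_lit 124, nat_lit 22718451777), (nat_lit 40, nat_lit 23792193600)]⟩,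
   ⟨V6_16276262976, [(nat_lit 80, nat_lit 17350021185), (nat_lit 119, nat_lit 18423763008), (nat_lit 1, nat_lit 18423758913), (nat_lit 79, nat_lit 19497500736), (nat_lit 27, nat_lit 19497496641), (nat_lit 47, nat_lit 20571238464), (nat_lit 81, nat_lit 20571234369), (nat_lit 125, nat_lit 21644976192), (nat_lit 103, nat_lit 21644972097), (nat_lit 43, nat_lit 22718713920)]⟩],
  [W_16258453568, W_15201747008, W_15201488960, W_15185489984, W_15185231936, W_15184973888, W_11981049920, W_11964534848]⟩
theorem C_17350021185 : chkRec R_17350021185 = true := by decide +kernel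

noncomputable def R_17350021248 : Rec := ⟨nat_lit 17350021248, nat_lit 126,
  [⟨V6_17349746688, [(nat_lit 8, nat_lit 17350021248), (nat_lit 10, nat_lit 18423763008), (nat_lit 29, nat_lit 18423758976), (nat_lit 118, nat_lit 18423500928), (nat_lit 91, nat_lit 19497504768), (nat_lit 81, nat_lit 19497500736), (nat_lit 35, nat_lit 19497496704), (nat_lit 66, nat_lit 19497242688), (nat_lit 95, nat_lit 19497238656), (nat_lit 109, nat_lit 20571242496), (nat_lit 116, nat_lit 20571238464), (nat_lit 26, nat_lit 20571234432), (nat_lit 14, nat_lit 20570984448), (nat_lit 33, nat_lit 20570980416), (nat_lit 61, nat_lit 20570976384), (nat_lit 44, nat_lit 21644980224), (nat_lit 52, nat_lit 21644976192), (nat_lit 2, nat_lit 21644722176), (nat_lit 22, nat_lit 21644718144), (nat_lit 96, nat_lit 21644714112), (nat_lit 20, nat_lit 22718717952), (nat_lit 24, nat_lit 22718459904), (nat_lit 42, nat_lit 22718455872), (nat_lit 40, nat_lit 23792197632)]⟩,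
   ⟨V6_16276008960, [(nat_lit 108, nat_lit 17350021248), (nat_lit 1, nat_lit 18423763008), (nat_lit 70, nat_lit 18423758976), (nat_lit 96, nat_lit 18423500928), (nat_lit 39, nat_lit 19497504768), (nat_lit 54, nat_lit 19497500736), (nat_lit 73, nat_lit 19497496704), (nat_lit 39, nat_lit 19497242688), (nat_lit 46, nat_lit 19497238656), (nat_lit 3, nat_lit 20571242496), (nat_lit 101, nat_lit 20571238464), (nat_lit 47, nat_lit 20570984448), (nat_lit 3, nat_lit 20570980416), (nat_lit 3, nat_lit 20570976384), (nat_lit 101, nat_lit 21644980224), (nat_lit 75, nat_lit 21644722176), (nat_lit 111, nat_lit 21644718144), (nat_lit 39, nat_lit 22718459904)]⟩],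
  [W_17332195328, W_16275230720, W_16258453568, W_15202525184, W_15202009088, W_15202001024, W_15201747008, W_15185752064, W_15185494016, W_15185489984, W_15185485952, W_15185231936, W_15184973888, W_15184969856, W_14128787456, W_14127747200, W_14111232128, W_13038268544, W_11980787840, W_11964534848, W_10907566208, W_10907308160]⟩
theorem C_17350021248 : chkRec R_17350021248 = true := by decide +kernel

noncomputable def R_17350025280 : Rec := ⟨nat_lit 17350025280, nat_lit 114,
  [⟨V6_17349742656, [(nat_lit 7, nat_lit 17350025280), (nat_lit 55, nat_lit 18423763008), (nat_lit 116, nat_lit 18423504960), (nat_lit 11, nat_lit 19497500736), (nat_lit 59, nat_lit 19497242688), (nat_lit 43, nat_lit 20571238464), (nat_lit 7, nat_lit 20570980416), (nat_lit 4, nat_lit 21644976192), (nat_lit 42, nat_lit 21644718144), (nat_lit 96, nat_lit 22718713920), (nat_lit 35, nat_lit 22718455872), (nat_lit 49, nat_lit 23792193600)]⟩,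
   ⟨V6_16276267008, [(nat_lit 70, nat_lit 17350025280), (nat_lit 106, nat_lit 18423767040), (nat_lit 101, nat_lit 18423763008), (nat_lit 61, nat_lit 19497504768), (nat_lit 5, nat_lit 19497500736), (nat_lit 12, nat_lit 20571242496), (nat_lit 126, nat_lit 20571238464), (nat_lit 33, nat_lit 21644980224), (nat_lit 75, nat_lit 21644976192), (nat_lit 89, nat_lit 22718717952)]⟩,
   ⟨V6_16276262976, [(nat_lit 61, nat_lit 17350025280), (nat_lit 47, nat_lit 18423763008), (nat_lit 54, nat_lit 19497500736), (nat_lit 48, nat_lit 20571238464), (nat_lit 61, nat_lit 21644976192), (nat_lit 71, nat_lit 22718713920)]⟩,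
   ⟨V6_16258719744, [(nat_lit 126, nat_lit 17350025280), (nat_lit 79, nat_lit 18423767040), (nat_lit 108, nat_lit 18423504960), (nat_lit 6, nat_lit 18406989888), (nat_lit 64, nat_lit 19497246720), (nat_lit 50, nat_lit 19496984640), (nat_lit 52, nat_lit 19480731648), (nat_lit 25, nat_lit 19480469568), (nat_lit 30, nat_lit 20570726400), (nat_lit 24, nat_lit 20570464320), (nat_lit 91, nat_lit 20554211328), (nat_lit 58, nat_lit 20553949248), (nat_lit 11, nat_lit 21644206080), (nat_lit 110, nat_lit 21627691008), (nat_lit 49, nat_lit 21627428928), (nat_lit 91, nat_lit 22701170688)]⟩],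
  [W_17333227520, W_16276262912, W_16259489792, W_15202525184, W_15202009088, W_15201747008, W_15185752064, W_15185494016, W_15185489984, W_15185231936, W_14128787456, W_14128013312, W_14112014336, W_14112010304, W_10907574272, W_10907312192]⟩
theorem C_17350025280 : chkRec R_17350025280 = true := by decide +kernel

noncomputable def R_17350029312 : Rec := ⟨nat_lit 17350029312, nat_lit 52,
  [⟨V6_16276267008, [(nat_lit 95, nat_lit 17350029312), (nat_lit 67, nat_lit 18423767040), (nat_lit 121, nat_lit 19497504768), (nat_lit 56, nat_lit 20571242496), (nat_lit 39, nat_lit 21644980224), (nat_lit 23, nat_lit 22718717952)]⟩,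
   ⟨V6_13055053824, [(nat_lit 40, nat_lit 17350029312), (nat_lit 68, nat_lit 18423767040), (nat_lit 87, nat_lit 19497504768)]⟩],
  [W_17350000640, W_17333227520, W_16276262912, W_15202009088, W_15185494016]⟩
theorem C_17350029312 : chkRec R_17350029312 = true := by decide +kernel

noncomputable def R_17350271106 : Rec := ⟨nat_lit 17350271106, nat_lit 7,
  [⟨V6_13054779522, [(nat_lit 22, nat_lit 17350271106), (nat_lit 51, nat_lit 18423750786), (nat_lit 19, nat_lit 19497230466)]⟩,
   ⟨V6_11981561985, [(nat_lit 23, nat_lit 17350271106), (nat_lit 22, nat_lit 18424012929)]⟩,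
   ⟨V6_10907820162, [(nat_lit 63, nat_lit 17350271106)]⟩],
  [W_17348960384, W_13055041664, W_11981561984]⟩
theorem C_17350271106 : chkRec R_17350271106 = true := by decide +kernel

noncomputable def R_17350275201 : Rec := ⟨nat_lit 17350275201, nat_lit 23,
  [⟨V6_14128787520, [(nat_lit 69, nat_lit 17350275201), (nat_lit 19, nat_lit 18424017024), (nat_lit 5, nat_lit 18424016961), (nat_lit 9, nat_lit 18423754881), (nat_lit 100, nat_lit 19497758784), (nat_lit 72, nat_lit 19497496704), (nat_lit 45, nat_lit 19497496641), (nat_lit 99, nat_lit 20571238464)]⟩],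
  [W_17348960384, W_17348702336, W_15202001024, W_14128783424, W_13055303744, W_11981566016, W_11981561984]⟩
theorem C_17350275201 : chkRec R_17350275201 = true := by decide +kernel

noncomputable def R_17350275264 : Rec := ⟨nat_lit 17350275264, nat_lit 23,
  [⟨V6_15202529280, [(nat_lit 77, nat_lit 17350275264), (nat_lit 97, nat_lit 18424017024), (nat_lit 115, nat_lit 18423754944), (nat_lit 123, nat_lit 19497758784), (nat_lit 27, nat_lit 19497496704), (nat_lit 78, nat_lit 20571500544), (nat_lit 96, nat_lit 20571238464), (nat_lit 119, nat_lit 21644980224)]⟩],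
  [W_17348702336, W_16274960576, W_14128787456, W_14128001216, W_13055307776, W_13055045696, W_13054521536, W_11981566016, W_11981041856]⟩
theorem C_17350275264 : chkRec R_17350275264 = true := by decide +kernel

noncomputable def R_17350279233 : Rec := ⟨nat_lit 17350279233, nat_lit 25,
  [⟨V6_16276262976, [(nat_lit 114, nat_lit 17350279233), (nat_lit 117, nat_lit 18424021056), (nat_lit 124, nat_lit 18424016961), (nat_lit 18, nat_lit 18423758913), (nat_lit 44, nat_lit 19497758784), (nat_lit 12, nat_lit 19497754689), (nat_lit 66, nat_lit 19497500736), (nat_lit 25, nat_lit 19497496641), (nat_lit 7, nat_lit 20571496512), (nat_lit 70, nat_lit 20571492417), (nat_lit 2, nat_lit 20571238464), (nat_lit 100, nat_lit 20571234369), (nat_lit 38, nat_lit 21645234240), (nat_lit 17, nat_lit 21644976192), (nat_lit 35, nat_lit 21644972097), (nat_lit 44, nat_lit 22718713920)]⟩,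
   ⟨V6_15202783296, [(nat_lit 48, nat_lit 17350279233), (nat_lit 67, nat_lit 18424021056), (nat_lit 12, nat_lit 18424016961), (nat_lit 32, nat_lit 19497758784), (nat_lit 25, nat_lit 19497754689), (nat_lit 57, nat_lit 20571496512), (nat_lit 66, nat_lit 20571492417), (nat_lit 8, nat_lit 21645234240)]⟩],
  [W_15201747008, W_14128267328, W_13054787648, W_11981566016]⟩
theorem C_17350279233 : chkRec R_17350279233 = true := by decide +kernel

noncomputable def R_17350279296 : Rec := ⟨nat_lit 17350279296, nat_lit 80,
  [⟨V6_16276267008, [(nat_lit 100, nat_lit 17350279296), (nat_lit 80, nat_lit 18424021056), (nat_lit 4, nat_lit 18424017024), (nat_lit 7, nat_lit 18423758976), (nat_lit 76, nat_lit 19497762816), (nat_lit 29, nat_lit 19497758784), (nat_lit 38, nat_lit 19497754752), (nat_lit 107, nat_lit 19497500736), (nat_lit 84, nat_lit 19497496704), (nat_lit 26, nat_lit 20571500544), (nat_lit 71, nat_lit 20571496512), (nat_lit 20, nat_lit 20571242496), (nat_lit 111, nat_lit 20571238464), (nat_lit 91, nat_lit 20571234432), (nat_lit 53, nat_lit 21645238272),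 (nat_lit 34, nat_lit 21644980224), (nat_lit 118, nat_lit 21644976192), (nat_lit 87, nat_lit 22718717952)]⟩,
   ⟨V6_15202787328, [(nat_lit 34, nat_lit 17350279296), (nat_lit 99, nat_lit 18424021056), (nat_lit 109, nat_lit 18424017024), (nat_lit 25, nat_lit 19497762816), (nat_lit 125, nat_lit 19497758784), (nat_lit 97, nat_lit 19497754752), (nat_lit 14, nat_lit 20571500544), (nat_lit 52, nat_lit 20571496512), (nat_lit 35, nat_lit 21645238272)]⟩,
   ⟨V6_15202529280, [(nat_lit 94, nat_lit 17350279296), (nat_lit 28, nat_lit 18424021056), (nat_lit 95, nat_lit 18424017024), (nat_lit 110, nat_lit 18423758976), (nat_lit 116, nat_lit 19497762816), (nat_lit 19, nat_lit 19497758784), (nat_lit 37, nat_lit 19497500736), (nat_lit 123, nat_lit 19497496704), (nat_lit 38, nat_lit 20571500544), (nat_lit 64, nat_lit 20571242496), (nat_lit 21, nat_lit 20571238464), (nat_lit 36, nat_lit 21644980224)]⟩],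
  [W_17348706368, W_15202525184, W_15202009088, W_15202001024, W_15201747008, W_14129045504, W_14128787456, W_14128783424, W_13055307776, W_13055303744, W_11981570048, W_10907828288, W_10907566208]⟩
theorem C_17350279296 : chkRec R_17350279296 = true := by decide +kernel

noncomputable def R_17350283328 : Rec := ⟨nat_lit 17350283328, nat_lit 75,
  [⟨V6_17349742656, [(nat_lit 114, nat_lit 17350283328), (nat_lit 38, nat_lit 18424021056), (nat_lit 15, nat_lit 18423763008), (nat_lit 31, nat_lit 19497758784), (nat_lit 114, nat_lit 19497500736), (nat_lit 45, nat_lit 19497242688), (nat_lit 90, nat_lit 20571496512), (nat_lit 87, nat_lit 20571238464), (nat_lit 7, nat_lit 20570980416), (nat_lit 114, nat_lit 21645234240), (nat_lit 26, nat_lit 21644976192), (nat_lit 71, nat_lit 21644718144), (nat_lit 67, nat_lit 22718713920), (nat_lit 125, nat_lit 22718455872), (nat_lit 54, nat_lit 23792193600)]⟩,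
   ⟨V6_15202787328, [(nat_lit 71, nat_lit 17350283328), (nat_lit 80, nat_lit 18424025088), (nat_lit 80, nat_lit 18424021056), (nat_lit 14, nat_lit 19497762816), (nat_lit 14, nat_lit 19497758784), (nat_lit 6, nat_lit 20571500544), (nat_lit 48, nat_lit 20571496512), (nat_lit 5, nat_lit 21645238272)]⟩,
   ⟨V6_15202783296, [(nat_lit 12, nat_lit 17350283328), (nat_lit 114, nat_lit 18424021056), (nat_lit 123, nat_lit 19497758784), (nat_lit 52, nat_lit 20571496512), (nat_lit 95, nat_lit 21645234240)]⟩,
   ⟨V6_13055053824, [(nat_lit 123, nat_lit 17350283328), (nat_lit 72, nat_lit 18424025088), (nat_lit 102, nat_lit 18423763008), (nat_lit 41, nat_lit 19497504768)]⟩],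
  [W_17349742592, W_16276262912, W_16275230720, W_15202525184, W_15202009088, W_15201747008]⟩
theorem C_17350283328 : chkRec R_17350283328 = true := by decide +kernel

noncomputable def R_17350287360 : Rec := ⟨nat_lit 17350287360, nat_lit 56,
  [⟨V6_15202787328, [(nat_lit 15, nat_lit 17350287360), (nat_lit 98, nat_lit 18424025088), (nat_lit 111, nat_lit 19497762816), (nat_lit 51, nat_lit 20571500544), (nat_lit 53, nat_lit 21645238272)]⟩,
   ⟨V6_15201755136, [(nat_lit 62, nat_lit 17350287360), (nat_lit 4, nat_lit 18423767040), (nat_lit 72, nat_lit 19497246720), (nat_lit 69, nat_lit 20570726400), (nat_lit 122, nat_lit 21644206080)]⟩],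
  [W_17350000640, W_17349742592, W_16276262912, W_15202009088, W_10907832320, W_10907574272]⟩
theorem C_17350287360 : chkRec R_17350287360 = true := by decide +kernel

noncomputable def R_17365483779 : Rec := ⟨nat_lit 17365483779, nat_lit 2,
  [⟨V6_13070516418, [(nat_lit 120, nat_lit 17365483779), (nat_lit 36, nat_lit 18439225602), (nat_lit 112, nat_lit 18439225539), (nat_lit 121, nat_lit 19512967362)]⟩],
  [W_17315152064]⟩
theorem C_17365483779 : chkRec R_17365483779 = true := by decide +kernel

noncomputable def R_17365745859 : Rec := ⟨nat_lit 17365745859, nat_lit 4,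
  [⟨V6_14144254146, [(nat_lit 49, nat_lit 17365745859), (nat_lit 93, nat_lit 18439487682), (nat_lit 39, nat_lit 18439483587), (nat_lit 64, nat_lit 18439225539), (nat_lit 35, nat_lit 19513225410), (nat_lit 41, nat_lit 19512967362), (nat_lit 42, nat_lit 19512963267), (nat_lit 1, nat_lit 20586705090)]⟩,
   ⟨V6_13070774466, [(nat_lit 107, nat_lit 17365745859), (nat_lit 119, nat_lit 18439487682), (nat_lit 103, nat_lit 18439483587), (nat_lit 40, nat_lit 19513225410)]⟩,
   ⟨V6_13070516418, [(nat_lit 76, nat_lit 17365745859), (nat_lit 6, nat_lit 18439487682), (nat_lit 72, nat_lit 18439225539), (nat_lit 36, nat_lit 19512967362)]⟩],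
  [W_17331925184, W_17315152064, W_17298636992]⟩
theorem C_17365745859 : chkRec R_17365745859 = true := by decide +kernel

noncomputable def R_17365745922 : Rec := ⟨nat_lit 17365745922, nat_lit 8,
  [⟨V6_14144258304, [(nat_lit 117, nat_lit 17365745922), (nat_lit 98, nat_lit 18439487745), (nat_lit 70, nat_lit 18439225602), (nat_lit 93, nat_lit 19513229568), (nat_lit 31, nat_lit 19512967425), (nat_lit 34, nat_lit 20586709248)]⟩,
   ⟨V6_13070516418, [(nat_lit 68, nat_lit 17365745922), (nat_lit 95, nat_lit 18439487682), (nat_lit 105, nat_lit 18439225602), (nat_lit 49, nat_lit 19512967362)]⟩,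
   ⟨V6_11997036801, [(nat_lit 118, nat_lit 17365745922), (nat_lit 19, nat_lit 18439487745)]⟩],
  [W_17331929216, W_17315414144, W_17298636992, W_16241410304]⟩
theorem C_17365745922 : chkRec R_17365745922 = true := by decide +kernel

noncomputable def R_17365749954 : Rec := ⟨nat_lit 17365749954, nat_lit 7,
  [⟨V6_17298641088, [(nat_lit 86, nat_lit 17365749954), (nat_lit 51, nat_lit 18439491777), (nat_lit 98, nat_lit 18422714562), (nat_lit 63, nat_lit 19513233600), (nat_lit 64, nat_lit 19496456385), (nat_lit 96, nat_lit 19479679170), (nat_lit 2, nat_lit 20570198208), (nat_lit 7, nat_lit 20553420993), (nat_lit 20, nat_lit 20536643778), (nat_lit 7, nat_lit 21627162816), (nat_lit 33, nat_lit 21610385601), (nat_lit 20, nat_lit 21593608386), (nat_lit 43, nat_lit 22684127424), (nat_lit 118, nat_lit 22667350209), (nat_lit 112, nat_lit 23741092032)]⟩,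
   ⟨V6_11997040833, [(nat_lit 14, nat_lit 17365749954), (nat_lit 41, nat_lit 18439491777)]⟩],
  [W_15201484928, W_13070782592, W_11997040832]⟩
theorem C_17365749954 : chkRec R_17365749954 = true := by decide +kernel

noncomputable def R_17365750017 : Rec := ⟨nat_lit 17365750017, nat_lit 10,
  [⟨V6_15184707840, [(nat_lit 75, nat_lit 17365750017), (nat_lit 107, nat_lit 18439491840), (nat_lit 11, nat_lit 18439487745), (nat_lit 82, nat_lit 18422714625), (nat_lit 116, nat_lit 19513229568), (nat_lit 57, nat_lit 19496456448), (nat_lit 32, nat_lit 19496452353), (nat_lit 115, nat_lit 19479679233), (nat_lit 102, nat_lit 20570194176), (nat_lit 80, nat_lit 20553421056), (nat_lit 20, nat_lit 20553416961), (nat_lit 8, nat_lit 21627158784)]⟩],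
  [W_17315418176, W_15218262080, W_11997040832]⟩
theorem C_17365750017 : chkRec R_17365750017 = true := by decide +kernel

noncomputable def R_17365750080 : Rec := ⟨nat_lit 17365750080, nat_lit 4,
  [⟨V6_17298641088, [(nat_lit 90, nat_lit 17365750080), (nat_lit 65, nat_lit 18439491840), (nat_lit 22, nat_lit 18422714688), (nat_lit 19, nat_lit 19513233600), (nat_lit 78, nat_lit 19496456448), (nat_lit 79, nat_lit 19479679296), (nat_lit 100, nat_lit 20570198208), (nat_lit 124, nat_lit 20553421056), (nat_lit 91, nat_lit 20536643904), (nat_lit 117, nat_lit 21627162816), (nat_lit 87, nat_lit 21610385664), (nat_lit 87, nat_lit 21593608512), (nat_lit 91, nat_lit 22684127424), (nat_lit 45, nat_lit 22667350272), (nat_lit 85, nat_lit 23741092032)]⟩],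
  [W_15218266112, W_11997040832]⟩
theorem C_17365750080 : chkRec R_17365750080 = true := by decide +kernel

noncomputable def R_17366003907 : Rec := ⟨nat_lit 17366003907, nat_lit 2,
  [⟨V6_13070774466, [(nat_lit 1, nat_lit 17366003907), (nat_lit 64, nat_lit 18439745730), (nat_lit 110, nat_lit 18439483587), (nat_lit 111, nat_lit 19513225410)]⟩,
   ⟨V6_13037482179, [(nat_lit 90, nat_lit 17366003907), (nat_lit 3, nat_lit 18422968515), (nat_lit 55, nat_lit 19479933123)]⟩],
  [W_17331925184, W_17298895040]⟩
theorem C_17366003907 : chkRec R_17366003907 = true := by decide +kernel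

noncomputable def R_17366008002 : Rec := ⟨nat_lit 17366008002, nat_lit 25,
  [⟨V6_16274964672, [(nat_lit 126, nat_lit 17366008002), (nat_lit 124, nat_lit 18439749825), (nat_lit 6, nat_lit 18439487682), (nat_lit 96, nat_lit 18422972610), (nat_lit 51, nat_lit 19513491648), (nat_lit 66, nat_lit 19513229505), (nat_lit 80, nat_lit 19512967362), (nat_lit 72, nat_lit 19496714433), (nat_lit 126, nat_lit 19496452290), (nat_lit 106, nat_lit 20586971328), (nat_lit 125, nat_lit 20586709185), (nat_lit 28, nat_lit 20570456256), (nat_lit 29, nat_lit 20570194113), (nat_lit 64, nat_lit 20569931970), (nat_lit 87, nat_lit 21660451008), (nat_lit 24, nat_lit 21643935936), (nat_lit 25, nat_lit 21643673793), (nat_lit 89, nat_lit 22717415616)]⟩,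
   ⟨V6_15218000064, [(nat_lit 19, nat_lit 17366008002), (nat_lit 113, nat_lit 18439749825), (nat_lit 95, nat_lit 18439487682), (nat_lit 68, nat_lit 19513491648), (nat_lit 82, nat_lit 19513229505), (nat_lit 47, nat_lit 19512967362), (nat_lit 108, nat_lit 20586971328), (nat_lit 102, nat_lit 20586709185), (nat_lit 93, nat_lit 21660451008)]⟩],
  [W_17332187264, W_17315672192, W_17298899072, W_17298895040, W_17282121920, W_16241930432, W_14128001216, W_13071040640, W_13071036608]⟩
theorem C_17366008002 : chkRec R_17366008002 = true := by decide +kernel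

noncomputable def R_17366008065 : Rec := ⟨nat_lit 17366008065, nat_lit 32,
  [⟨V6_16291741761, [(nat_lit 121, nat_lit 17366008065), (nat_lit 120, nat_lit 18439749825), (nat_lit 8, nat_lit 18439487745), (nat_lit 63, nat_lit 19513491585), (nat_lit 41, nat_lit 19513229505), (nat_lit 102, nat_lit 19512967425), (nat_lit 61, nat_lit 20587233345), (nat_lit 76, nat_lit 20586971265), (nat_lit 92, nat_lit 20586709185), (nat_lit 28, nat_lit 21660713025), (nat_lit 96, nat_lit 21660450945), (nat_lit 97, nat_lit 22734192705)]⟩,
   ⟨V6_15218000064, [(nat_lit 84, nat_lit 17366008065), (nat_lit 23, nat_lit 18439749888), (nat_lit 24, nat_lit 18439749825), (nat_lit 126, nat_lit 18439487745), (nat_lit 82, nat_lit 19513491648), (nat_lit 29, nat_lit 19513229568), (nat_lit 13, nat_lit 19513229505), (nat_lit 106, nat_lit 19512967425), (nat_lit 72, nat_lit 20586971328), (nat_lit 74, nat_lit 20586709248), (nat_lit 69, nat_lit 20586709185), (nat_lit 14, nat_lit 21660451008)]⟩,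
   ⟨V6_14144258304, [(nat_lit 115, nat_lit 17366008065), (nat_lit 98, nat_lit 18439749888), (nat_lit 48, nat_lit 18439487745), (nat_lit 11, nat_lit 19513229568), (nat_lit 110, nat_lit 19512967425), (nat_lit 6, nat_lit 20586709248)]⟩],
  [W_17348706368, W_17298374912, W_17282121920, W_16208380160, W_15201747008, W_15151415552, W_14144782400, W_13054001408]⟩
theorem C_17366008065 : chkRec R_17366008065 = true := by decide +kernel

noncomputable def R_17366012034 : Rec := ⟨nat_lit 17366012034, nat_lit 22,
  [⟨V6_17298903168, [(nat_lit 113, nat_lit 17366012034), (nat_lit 36, nat_lit 18439753857), (nat_lit 114, nat_lit 18422976642), (nat_lit 37, nat_lit 19513495680), (nat_lit 90, nat_lit 19496718465), (nat_lit 8, nat_lit 19479941250), (nat_lit 106, nat_lit 20570460288), (nat_lit 117, nat_lit 20553683073), (nat_lit 44, nat_lit 20536905858), (nat_lit 117, nat_lit 21627424896), (nat_lit 98, nat_lit 21610647681), (nat_lit 44, nat_lit 21593870466), (nat_lit 120, nat_lit 22684389504), (nat_lit 31, nat_lit 22667612289), (nat_lit 94, nat_lit 23741354112)]⟩],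
  [W_17348960384, W_15218516096, W_14144778368, W_13071040640, W_13070782592, W_11997302912]⟩
theorem C_17366012034 : chkRec R_17366012034 = true := by decide +kernel

noncomputable def R_17366012097 : Rec := ⟨nat_lit 17366012097, nat_lit 51,
  [⟨V6_17298903168, [(nat_lit 24, nat_lit 17366012097), (nat_lit 47, nat_lit 18439753920), (nat_lit 68, nat_lit 18439753857), (nat_lit 32, nat_lit 18422976705), (nat_lit 126, nat_lit 19513495680), (nat_lit 86, nat_lit 19496718528), (nat_lit 114, nat_lit 19496718465), (nat_lit 3, nat_lit 19479941313), (nat_lit 49, nat_lit 20570460288), (nat_lit 4, nat_lit 20553683136), (nat_lit 31, nat_lit 20553683073), (nat_lit 105, nat_lit 20536905921), (nat_lit 110, nat_lit 21627424896), (nat_lit 117, nat_lit 21610647744), (nat_lit 27, nat_lit 21610647681), (nat_lit 41, nat_lit 21593870529), (nat_lit 47, nat_lit 22684389504), (nat_lit 77, nat_lit 22667612352), (nat_lit 33, nat_lit 22667612289), (nat_lit 19, nat_lit 23741354112)]⟩,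
   ⟨V6_17282126016, [(nat_lit 93, nat_lit 17366012097), (nat_lit 26, nat_lit 18439753920), (nat_lit 68, nat_lit 18422976705), (nat_lit 7, nat_lit 19496718528), (nat_lit 77, nat_lit 19479941313), (nat_lit 37, nat_lit 20553683136), (nat_lit 114, nat_lit 20536905921), (nat_lit 18, nat_lit 21610647744), (nat_lit 11, nat_lit 21593870529), (nat_lit 33, nat_lit 22667612352), (nat_lit 74, nat_lit 22650835137), (nat_lit 78, nat_lit 23724576960)]⟩,
   ⟨V6_17282125953, [(nat_lit 112, nat_lit 17366012097), (nat_lit 77, nat_lit 18439753857), (nat_lit 19, nat_lit 18422976705), (nat_lit 18, nat_lit 19496718465), (nat_lit 119, nat_lit 19479941313), (nat_lit 92, nat_lit 20553683073), (nat_lit 91, nat_lit 20536905921), (nat_lit 35, nat_lit 21610647681), (nat_lit 123, nat_lit 21593870529), (nat_lit 109, nat_lit 22667612289), (nat_lit 80, nat_lit 22650835137), (nat_lit 50, nat_lit 23724576897)]⟩,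
   ⟨V6_16225161408, [(nat_lit 38, nat_lit 17366012097), (nat_lit 10, nat_lit 18439753920), (nat_lit 34, nat_lit 18422976705), (nat_lit 106, nat_lit 19496718528), (nat_lit 120, nat_lit 19479941313), (nat_lit 101, nat_lit 20553683136), (nat_lit 69, nat_lit 20536905921), (nat_lit 75, nat_lit 21610647744), (nat_lit 75, nat_lit 21593870529), (nat_lit 47, nat_lit 22667612352)]⟩,
   ⟨V6_16224899265, [(nat_lit 11, nat_lit 17366012097), (nat_lit 49, nat_lit 18439491777), (nat_lit 48, nat_lit 18422976705), (nat_lit 86, nat_lit 19496456385), (nat_lit 113, nat_lit 19479941313), (nat_lit 14, nat_lit 20553420993), (nat_lit 42, nat_lit 20536905921), (nat_lit 6, nat_lit 21610385601), (nat_lit 65, nat_lit 21593870529), (nat_lit 49, nat_lit 22667350209)]⟩],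
  [W_15218262080, W_15201747008, W_14144782400, W_14144778368, W_14144524352, W_14144516288, W_13071044672, W_13071040640, W_13071036608, W_13070782592, W_13070778560, W_11997302912, W_11997298880, W_11997040832]⟩
theorem C_17366012097 : chkRec R_17366012097 = true := by decide +kernel

noncomputable def R_17366012160 : Rec := ⟨nat_lit 17366012160, nat_lit 58,
  [⟨V6_16292007936, [(nat_lit 57, nat_lit 17366012160), (nat_lit 6, nat_lit 18439753920), (nat_lit 11, nat_lit 18439491840), (nat_lit 19, nat_lit 19513495680), (nat_lit 81, nat_lit 19513233600), (nat_lit 47, nat_lit 20587237440), (nat_lit 37, nat_lit 20586975360), (nat_lit 88, nat_lit 21660979200), (nat_lit 4, nat_lit 21660717120), (nat_lit 77, nat_lit 22734458880)]⟩,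
   ⟨V6_15218528256, [(nat_lit 35, nat_lit 17366012160), (nat_lit 64, nat_lit 18439753920), (nat_lit 47, nat_lit 19513495680), (nat_lit 36, nat_lit 20587237440), (nat_lit 113, nat_lit 21660979200)]⟩],
  [W_17315680256, W_17282125952, W_17282121920, W_16208380160, W_15218524160, W_15201747008, W_15184969856, W_15167930624, W_13054263488, W_13054001408, W_11997298880, W_11997040832, W_11980525760]⟩
theorem C_17366012160 : chkRec R_17366012160 = true := by decide +kernel

noncomputable def R_17366016129 : Rec := ⟨nat_lit 17366016129, nat_lit 45,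
  [⟨V6_17298903168, [(nat_lit 30, nat_lit 17366016129), (nat_lit 71, nat_lit 18439757952), (nat_lit 63, nat_lit 18439753857), (nat_lit 54, nat_lit 18422980737), (nat_lit 26, nat_lit 19513495680), (nat_lit 80, nat_lit 19496722560), (nat_lit 111, nat_lit 19496718465), (nat_lit 110, nat_lit 19479945345), (nat_lit 15, nat_lit 20570460288), (nat_lit 116, nat_lit 20553687168), (nat_lit 33, nat_lit 20553683073), (nat_lit 94, nat_lit 20536909953), (nat_lit 26, nat_lit 21627424896), (nat_lit 17, nat_lit 21610651776), (nat_lit 77, nat_lit 21610647681), (nat_lit 26, nat_lit 21593874561), (nat_lit 38, nat_lit 22684389504), (nat_lit 38, nat_lit 22667616384), (nat_lit 51, nat_lit 22667612289), (nat_lit 117, nat_lit 23741354112)]⟩,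
   ⟨V6_16225165440, [(nat_lit 64, nat_lit 17366016129), (nat_lit 77, nat_lit 18439757952), (nat_lit 84, nat_lit 18422980737), (nat_lit 105, nat_lit 19496722560), (nat_lit 35, nat_lit 19479945345), (nat_lit 3, nat_lit 20553687168), (nat_lit 36, nat_lit 20536909953), (nat_lit 6, nat_lit 21610651776), (nat_lit 6, nat_lit 21593874561), (nat_lit 19, nat_lit 22667616384)]⟩,
   ⟨V6_16225165377, [(nat_lit 71, nat_lit 17366016129), (nat_lit 49, nat_lit 18439757889), (nat_lit 4, nat_lit 18422980737), (nat_lit 32, nat_lit 19496722497), (nat_lit 99, nat_lit 19479945345), (nat_lit 62, nat_lit 20553687105), (nat_lit 79, nat_lit 20536909953), (nat_lit 4, nat_lit 21610651713), (nat_lit 53, nat_lit 21593874561), (nat_lit 88, nat_lit 22667616321)]⟩],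
  [W_15218516096, W_15201747008, W_14144782400, W_14144778368, W_13071044672, W_13071040640, W_13054271552, W_13054267520]⟩
theorem C_17366016129 : chkRec R_17366016129 = true := by decide +kernel

noncomputable def R_17366016192 : Rec := ⟨nat_lit 17366016192, nat_lit 72,
  [⟨V6_17366003712, [(nat_lit 9, nat_lit 17366016192), (nat_lit 73, nat_lit 18439757952), (nat_lit 99, nat_lit 18439753920), (nat_lit 98, nat_lit 19513499712), (nat_lit 103, nat_lit 19513495680), (nat_lit 120, nat_lit 19513491648), (nat_lit 12, nat_lit 20587241472), (nat_lit 83, nat_lit 20587237440), (nat_lit 25, nat_lit 20587233408), (nat_lit 65, nat_lit 20587229376), (nat_lit 42, nat_lit 21660979200), (nat_lit 63, nat_lit 21660975168), (nat_lit 11, nat_lit 21660971136), (nat_lit 29, nat_lit 22734716928), (nat_lit 75, nat_lit 22734712896), (nat_lit 59, nat_lit 23808454656)]⟩,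
   ⟨V6_14144790528, [(nat_lit 40, nat_lit 17366016192), (nat_lit 76, nat_lit 18439757952), (nat_lit 67, nat_lit 19513499712), (nat_lit 16, nat_lit 20587241472)]⟩],
  [W_17298907136, W_17282129984, W_17282121920, W_16225165376, W_16208388224, W_15201747008, W_15184973888, W_15184969856, W_15151423616, W_15151419584, W_14128013312, W_14111236160, W_14111232128, W_13071048704, W_13071040640, W_13071036608, W_13054267520, W_13054263488, W_11997302912, W_11997298880, W_11980525760]⟩
theorem C_17366016192 : chkRec R_17366016192 = true := by decide +kernel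

noncomputable def R_17366266050 : Rec := ⟨nat_lit 17366266050, nat_lit 14,
  [⟨V6_17299157184, [(nat_lit 59, nat_lit 17366266050), (nat_lit 66, nat_lit 18440007873), (nat_lit 82, nat_lit 18423230658), (nat_lit 89, nat_lit 19513749696), (nat_lit 38, nat_lit 19496972481), (nat_lit 57, nat_lit 19480195266), (nat_lit 25, nat_lit 20570714304), (nat_lit 24, nat_lit 20553937089), (nat_lit 123, nat_lit 20537159874), (nat_lit 24, nat_lit 21627678912), (nat_lit 95, nat_lit 21610901697), (nat_lit 123, nat_lit 21594124482), (nat_lit 93, nat_lit 22684643520), (nat_lit 78, nat_lit 22667866305), (nat_lit 3, nat_lit 23741608128)]⟩,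
   ⟨V6_16225415361, [(nat_lit 16, nat_lit 17366266050), (nat_lit 76, nat_lit 18440007873), (nat_lit 68, nat_lit 18423230658), (nat_lit 49, nat_lit 19496972481), (nat_lit 60, nat_lit 19480195266), (nat_lit 38, nat_lit 20553937089), (nat_lit 120, nat_lit 20537159874), (nat_lit 47, nat_lit 21610901697), (nat_lit 126, nat_lit 21594124482), (nat_lit 46, nat_lit 22667866305)]⟩],
  [W_14144778368, W_14128263296, W_13071298688, W_11997556928]⟩
theorem C_17366266050 : chkRec R_17366266050 = true := by decide +kernel

noncomputable def R_17366270082 : Rec := ⟨nat_lit 17366270082, nat_lit 30,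
  [⟨V6_16291741824, [(nat_lit 107, nat_lit 17366270082), (nat_lit 86, nat_lit 18440011905), (nat_lit 126, nat_lit 18439749762), (nat_lit 93, nat_lit 19513753728), (nat_lit 110, nat_lit 19513491585), (nat_lit 29, nat_lit 19513229442), (nat_lit 73, nat_lit 20587233408), (nat_lit 72, nat_lit 20586971265), (nat_lit 122, nat_lit 20586709122), (nat_lit 100, nat_lit 21660713088), (nat_lit 6, nat_lit 21660450945), (nat_lit 87, nat_lit 22734192768)]⟩],
  [W_17348960384, W_17332445312, W_17299157120, W_15202001024, W_15168454784, W_13071298688, W_13054525568]⟩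
theorem C_17366270082 : chkRec R_17366270082 = true := by decide +kernel

noncomputable def R_17366270145 : Rec := ⟨nat_lit 17366270145, nat_lit 71,
  [⟨V6_17365483584, [(nat_lit 109, nat_lit 17366270145), (nat_lit 28, nat_lit 18440011968), (nat_lit 65, nat_lit 18440011905), (nat_lit 31, nat_lit 18439749825), (nat_lit 45, nat_lit 19513753728), (nat_lit 50, nat_lit 19513753665), (nat_lit 75, nat_lit 19513491648), (nat_lit 30, nat_lit 19513491585), (nat_lit 79, nat_lit 19513229505), (nat_lit 95, nat_lit 20587495488), (nat_lit 54, nat_lit 20587233408), (nat_lit 26, nat_lit 20587233345), (nat_lit 26, nat_lit 20586971328), (nat_lit 95, nat_lit 20586971265), (nat_lit 111, nat_lit 20586709185), (nat_lit 37, nat_lit 21660975168), (nat_lit 83, nat_lit 21660713088), (nat_lit 23, nat_lit 21660713025), (nat_lit 60, nat_lit 21660451008), (nat_lit 62, nat_lit 21660450945), (nat_lit 21, nat_lit 22734454848), (nat_lit 48, nat_lit 22734192768), (nat_lit 112, nat_lit 22734192705), (nat_lit 5, nat_lit 23807934528)]⟩,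
   ⟨V6_17348706369, [(nat_lit 87, nat_lit 17366270145), (nat_lit 60, nat_lit 18440011905), (nat_lit 75, nat_lit 18439749825), (nat_lit 17, nat_lit 18423234753), (nat_lit 51, nat_lit 19513753665), (nat_lit 102, nat_lit 19513491585), (nat_lit 56, nat_lit 19513229505), (nat_lit 87, nat_lit 19496976513), (nat_lit 68, nat_lit 19496714433), (nat_lit 102, nat_lit 20587233345), (nat_lit 37, nat_lit 20586971265), (nat_lit 14, nat_lit 20586709185), (nat_lit 75, nat_lit 20570718273), (nat_lit 35, nat_lit 20570456193), (nat_lit 38, nat_lit 20570194113), (nat_lit 107, nat_lit 21660713025), (nat_lit 103, nat_lit 21660450945), (nat_lit 61, nat_lit 21644197953), (nat_lit 28, nat_lit 21643935873), (nat_lit 56, nat_lit 21643673793), (nat_lit 65, nat_lit 22734192705), (nat_lit 56, nat_lit 22717677633), (nat_lit 81, nat_lit 22717415553), (nat_lit 10, nat_lit 23791157313)]⟩,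
   ⟨V6_17299161153, [(nat_lit 89, nat_lit 17366270145), (nat_lit 29, nat_lit 18440011905), (nat_lit 88, nat_lit 18423234753), (nat_lit 51, nat_lit 19513753665), (nat_lit 121, nat_lit 19496976513), (nat_lit 90, nat_lit 19480199361), (nat_lit 124, nat_lit 20570718273), (nat_lit 125, nat_lit 20553941121), (nat_lit 43, nat_lit 20537163969), (nat_lit 108, nat_lit 21627682881), (nat_lit 120, nat_lit 21610905729), (nat_lit 103, nat_lit 21594128577), (nat_lit 47, nat_lit 22684647489), (nat_lit 2, nat_lit 22667870337), (nat_lit 5, nat_lit 23741612097)]⟩,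
   ⟨V6_16291741761, [(nat_lit 102, nat_lit 17366270145), (nat_lit 121, nat_lit 18440011905), (nat_lit 41, nat_lit 18439749825), (nat_lit 34, nat_lit 19513753665), (nat_lit 75, nat_lit 19513491585), (nat_lit 12, nat_lit 19513229505), (nat_lit 8, nat_lit 20587233345), (nat_lit 43, nat_lit 20586971265), (nat_lit 13, nat_lit 20586709185), (nat_lit 68, nat_lit 21660713025), (nat_lit 13, nat_lit 21660450945), (nat_lit 16, nat_lit 22734192705)]⟩],
  [W_17315934272, W_16242196544, W_16225415360, W_15201747008, W_15185231936, W_14144782400, W_14111486144, W_13071302720, W_13071298688, W_13071040640, W_13054525568, W_11997560960, W_11997556928, W_11980783808]⟩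
theorem C_17366270145 : chkRec R_17366270145 = true := by decide +kernel

noncomputable def R_17366270208 : Rec := ⟨nat_lit 17366270208, nat_lit 65,
  [⟨V6_17365483584, [(nat_lit 92, nat_lit 17366270208), (nat_lit 47, nat_lit 18440011968), (nat_lit 27, nat_lit 18439749888), (nat_lit 66, nat_lit 19513753728), (nat_lit 28, nat_lit 19513491648), (nat_lit 15, nat_lit 19513229568), (nat_lit 117, nat_lit 20587495488), (nat_lit 88, nat_lit 20587233408), (nat_lit 26, nat_lit 20586971328), (nat_lit 27, nat_lit 20586709248), (nat_lit 64, nat_lit 21660975168), (nat_lit 70, nat_lit 21660713088), (nat_lit 59, nat_lit 21660451008), (nat_lit 87, nat_lit 22734454848), (nat_lit 75, nat_lit 22734192768), (nat_lit 37, nat_lit 23807934528)]⟩,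
   ⟨V6_16291741824, [(nat_lit 26, nat_lit 17366270208), (nat_lit 19, nat_lit 18440011968), (nat_lit 36, nat_lit 18439749888), (nat_lit 24, nat_lit 19513753728), (nat_lit 108, nat_lit 19513491648), (nat_lit 52, nat_lit 19513229568), (nat_lit 37, nat_lit 20587233408), (nat_lit 14, nat_lit 20586971328), (nat_lit 72, nat_lit 20586709248), (nat_lit 39, nat_lit 21660713088), (nat_lit 56, nat_lit 21660451008), (nat_lit 14, nat_lit 22734192768)]⟩],
  [W_17315938304, W_15218524160, W_15202009088, W_15168454784, W_14145044480, W_13054525568, W_13020971264, W_11997560960]⟩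
theorem C_17366270208 : chkRec R_17366270208 = true := by decide +kernel

noncomputable def R_17366274177 : Rec := ⟨nat_lit 17366274177, nat_lit 86,
  [⟨V6_17365737600, [(nat_lit 32, nat_lit 17366274177), (nat_lit 54, nat_lit 18440016000), (nat_lit 47, nat_lit 18440011905), (nat_lit 86, nat_lit 18439753857), (nat_lit 97, nat_lit 19513753728), (nat_lit 45, nat_lit 19513749633), (nat_lit 63, nat_lit 19513495680), (nat_lit 28, nat_lit 19513491585), (nat_lit 52, nat_lit 19513233537), (nat_lit 91, nat_lit 20587491456), (nat_lit 94, nat_lit 20587487361), (nat_lit 40, nat_lit 20587233408), (nat_lit 34, nat_lit 20587229313), (nat_lit 83, nat_lit 20586975360), (nat_lit 59, nat_lit 20586971265), (nat_lit 18, nat_lit 21661229184), (nat_lit 102, nat_lit 21660971136), (nat_lit 34, nat_lit 21660967041), (nat_lit 79, nat_lit 21660713088), (nat_lit 84, nat_lit 21660708993), (nat_lit 58, nat_lit 22734708864), (nat_lit 2, nat_lit 22734450816), (nat_lit 115, nat_lit 22734446721), (nat_lit 13, nat_lit 23808188544)]⟩,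
   ⟨V6_17315930241, [(nat_lit 46, nat_lit 17366274177), (nat_lit 110, nat_lit 18440011905), (nat_lit 46, nat_lit 18423238785), (nat_lit 90, nat_lit 19513749633), (nat_lit 17, nat_lit 19496976513), (nat_lit 6, nat_lit 19480203393), (nat_lit 40, nat_lit 20587487361), (nat_lit 20, nat_lit 20570714241), (nat_lit 102, nat_lit 20553941121), (nat_lit 82, nat_lit 20537168001), (nat_lit 63, nat_lit 21644451969), (nat_lit 7, nat_lit 21627678849), (nat_lit 84, nat_lit 21610905729), (nat_lit 84, nat_lit 22701416577), (nat_lit 56, nat_lit 22684643457), (nat_lit 90, nat_lit 23758381185)]⟩,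
   ⟨V6_17299165248, [(nat_lit 69, nat_lit 17366274177), (nat_lit 18, nat_lit 18440016000), (nat_lit 75, nat_lit 18440015937), (nat_lit 109, nat_lit 18423238785), (nat_lit 4, nat_lit 19513757760), (nat_lit 55, nat_lit 19496980608), (nat_lit 100, nat_lit 19496980545), (nat_lit 2, nat_lit 19480203393), (nat_lit 110, nat_lit 20570722368), (nat_lit 2, nat_lit 20553945216), (nat_lit 57, nat_lit 20553945153), (nat_lit 82, nat_lit 20537168001), (nat_lit 76, nat_lit 21627686976), (nat_lit 103, nat_lit 21610909824), (nat_lit 90, nat_lit 21610909761), (nat_lit 70, nat_lit 21594132609), (nat_lit 64, nat_lit 22684651584), (nat_lit 32, nat_lit 22667874432), (nat_lit 17, nat_lit 22667874369), (nat_lit 66, nat_lit 23741616192)]⟩,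
   ⟨V6_17299161153, [(nat_lit 85, nat_lit 17366274177), (nat_lit 60, nat_lit 18440015937), (nat_lit 88, nat_lit 18440011905), (nat_lit 112, nat_lit 18423238785), (nat_lit 5, nat_lit 19513753665), (nat_lit 84, nat_lit 19496980545), (nat_lit 23, nat_lit 19496976513), (nat_lit 13, nat_lit 19480203393), (nat_lit 120, nat_lit 20570718273), (nat_lit 90, nat_lit 20553945153), (nat_lit 116, nat_lit 20553941121), (nat_lit 66, nat_lit 20537168001), (nat_lit 36, nat_lit 21627682881), (nat_lit 61, nat_lit 21610909761), (nat_lit 69, nat_lit 21610905729), (nat_lit 31, nat_lit 21594132609), (nat_lit 28, nat_lit 22684647489), (nat_lit 21, nat_lit 22667874369), (nat_lit 34, nat_lit 22667870337), (nat_lit 9, nat_lit 23741612097)]⟩,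
   ⟨V6_16225423425, [(nat_lit 44, nat_lit 17366274177), (nat_lit 25, nat_lit 18440015937), (nat_lit 15, nat_lit 18423238785), (nat_lit 120, nat_lit 19496980545), (nat_lit 22, nat_lit 19480203393), (nat_lit 42, nat_lit 20553945153), (nat_lit 74, nat_lit 20537168001), (nat_lit 15, nat_lit 21610909761), (nat_lit 40, nat_lit 21594132609), (nat_lit 76, nat_lit 22667874369)]⟩],
  [W_16242196544, W_15218262080, W_15202001024, W_15201747008, W_15201488960, W_15185231936, W_14144782400, W_14144524352, W_13071302720, W_13071298688, W_13071044672, W_13071040640, W_13054529600, W_13054267520, W_11997564992, W_11997560960, W_11997302912, W_11980787840]⟩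
theorem C_17366274177 : chkRec R_17366274177 = true := by decide +kernel

noncomputable def R_17366274240 : Rec := ⟨nat_lit 17366274240, nat_lit 135,
  [⟨V6_17366003712, [(nat_lit 100, nat_lit 17366274240), (nat_lit 53, nat_lit 18440016000), (nat_lit 118, nat_lit 18440011968), (nat_lit 46, nat_lit 18439753920), (nat_lit 31, nat_lit 19513757760), (nat_lit 4, nat_lit 19513753728), (nat_lit 60, nat_lit 19513749696), (nat_lit 120, nat_lit 19513495680), (nat_lit 49, nat_lit 19513491648), (nat_lit 82, nat_lit 20587499520), (nat_lit 114, nat_lit 20587495488), (nat_lit 35, nat_lit 20587491456), (nat_lit 104, nat_lit 20587237440), (nat_lit 3, nat_lit 20587233408), (nat_lit 89, nat_lit 20587229376), (nat_lit 13, nat_lit 21661237248), (nat_lit 3, nat_lit 21661233216), (nat_lit 110, nat_lit 21660979200), (nat_lit 123, nat_lit 21660975168), (nat_lit 28, nat_lit 21660971136), (nat_lit 73, nat_lit 22734974976), (nat_lit 123, nat_lit 22734716928), (nat_lit 85, nat_lit 22734712896), (nat_lit 6, nat_lit 23808454656)]⟩,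
   ⟨V6_17315942400, [(nat_lit 33, nat_lit 17366274240), (nat_lit 59, nat_lit 18440016000), (nat_lit 19, nat_lit 18423238848), (nat_lit 55, nat_lit 19513757760), (nat_lit 72, nat_lit 19496980608), (nat_lit 53, nat_lit 19480203456), (nat_lit 125, nat_lit 20587499520), (nat_lit 81, nat_lit 20570722368), (nat_lit 102, nat_lit 20553945216), (nat_lit 70, nat_lit 20537168064), (nat_lit 72, nat_lit 21644464128), (nat_lit 53, nat_lit 21627686976), (nat_lit 10, nat_lit 21610909824), (nat_lit 43, nat_lit 22701428736), (nat_lit 112, nat_lit 22684651584), (nat_lit 6, nat_lit 23758393344)]⟩,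
   ⟨V6_17299165248, [(nat_lit 98, nat_lit 17366274240), (nat_lit 99, nat_lit 18440016000), (nat_lit 7, nat_lit 18423238848), (nat_lit 69, nat_lit 19513757760), (nat_lit 89, nat_lit 19496980608), (nat_lit 62, nat_lit 19480203456), (nat_lit 108, nat_lit 20570722368), (nat_lit 72, nat_lit 20553945216), (nat_lit 103, nat_lit 20537168064), (nat_lit 49, nat_lit 21627686976), (nat_lit 125, nat_lit 21610909824), (nat_lit 102, nat_lit 21594132672), (nat_lit 86, nat_lit 22684651584), (nat_lit 55, nat_lit 22667874432), (nat_lit 74, nat_lit 23741616192)]⟩],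
  [W_17332195328, W_17315938304, W_17299157120, W_16275230720, W_16242196544, W_15218524160, W_15218266112, W_15218262080, W_15202009088, W_15201747008, W_14145044480, W_14144516288, W_14127747200, W_14110970048, W_13071298688, W_13071040640, W_13071036608, W_13070782592, W_13070778560, W_13054521536, W_13054263488, W_11997564992, W_11997560960, W_11997556928, W_11997302912, W_11997298880, W_11997040832, W_11980787840, W_11980783808, W_11980525760, W_11964010688]⟩
theorem C_17366274240 : chkRec R_17366274240 = true := by decide +kernel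

noncomputable def R_17366278209 : Rec := ⟨nat_lit 17366278209, nat_lit 54,
  [⟨V6_17299165248, [(nat_lit 72, nat_lit 17366278209), (nat_lit 18, nat_lit 18440020032), (nat_lit 75, nat_lit 18440015937), (nat_lit 28, nat_lit 18423242817), (nat_lit 37, nat_lit 19513757760), (nat_lit 65, nat_lit 19496984640), (nat_lit 114, nat_lit 19496980545), (nat_lit 10, nat_lit 19480207425), (nat_lit 36, nat_lit 20570722368), (nat_lit 126, nat_lit 20553949248), (nat_lit 3, nat_lit 20553945153), (nat_lit 124, nat_lit 20537172033), (nat_lit 37, nat_lit 21627686976), (nat_lit 117, nat_lit 21610913856), (nat_lit 7, nat_lit 21610909761), (nat_lit 37, nat_lit 21594136641), (nat_lit 15, nat_lit 22684651584), (nat_lit 15, nat_lit 22667878464), (nat_lit 97, nat_lit 22667874369), (nat_lit 103, nat_lit 23741616192)]⟩,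
   ⟨V6_17299161153, [(nat_lit 120, nat_lit 17366278209), (nat_lit 60, nat_lit 18440015937), (nat_lit 49, nat_lit 18423242817), (nat_lit 113, nat_lit 19513753665), (nat_lit 111, nat_lit 19496980545), (nat_lit 73, nat_lit 19480207425), (nat_lit 64, nat_lit 20570718273), (nat_lit 105, nat_lit 20553945153), (nat_lit 121, nat_lit 20537172033), (nat_lit 111, nat_lit 21627682881), (nat_lit 88, nat_lit 21610909761), (nat_lit 56, nat_lit 21594136641), (nat_lit 113, nat_lit 22684647489), (nat_lit 75, nat_lit 22667874369), (nat_lit 37, nat_lit 23741612097)]⟩,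
   ⟨V6_16225427520, [(nat_lit 96, nat_lit 17366278209), (nat_lit 52, nat_lit 18440020032), (nat_lit 126, nat_lit 18423242817), (nat_lit 94, nat_lit 19496984640), (nat_lit 116, nat_lit 19480207425), (nat_lit 68, nat_lit 20553949248), (nat_lit 54, nat_lit 20537172033), (nat_lit 9, nat_lit 21610913856), (nat_lit 9, nat_lit 21594136641), (nat_lit 92, nat_lit 22667878464)]⟩,
   ⟨V6_16225423425, [(nat_lit 66, nat_lit 17366278209), (nat_lit 25, nat_lit 18440015937), (nat_lit 67, nat_lit 18423242817), (nat_lit 86, nat_lit 19496980545), (nat_lit 47, nat_lit 19480207425), (nat_lit 49, nat_lit 20553945153), (nat_lit 78, nat_lit 20537172033), (nat_lit 107, nat_lit 21610909761), (nat_lit 44, nat_lit 21594136641), (nat_lit 90, nat_lit 22667874369)]⟩,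
   ⟨V6_16225165377, [(nat_lit 40, nat_lit 17366278209), (nat_lit 78, nat_lit 18439757889), (nat_lit 8, nat_lit 18423242817), (nat_lit 48, nat_lit 19496722497), (nat_lit 84, nat_lit 19480207425), (nat_lit 55, nat_lit 20553687105), (nat_lit 36, nat_lit 20537172033), (nat_lit 56, nat_lit 21610651713), (nat_lit 40, nat_lit 21594136641), (nat_lit 3, nat_lit 22667616321)]⟩,
   ⟨V6_15151685697, [(nat_lit 27, nat_lit 17366278209), (nat_lit 29, nat_lit 18423242817), (nat_lit 76, nat_lit 19480207425), (nat_lit 65, nat_lit 20537172033), (nat_lit 68, nat_lit 21594136641)]⟩],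
  [W_17315934272, W_15201747008, W_15185231936, W_14144782400, W_13071302720, W_13071044672, W_13054529600, W_11997564992]⟩
theorem C_17366278209 : chkRec R_17366278209 = true := by decide +kernel

noncomputable def R_17366278272 : Rec := ⟨nat_lit 17366278272, nat_lit 143,
  [⟨V6_17366261760, [(nat_lit 83, nat_lit 17366278272), (nat_lit 14, nat_lit 18440020032), (nat_lit 51, nat_lit 18440016000), (nat_lit 38, nat_lit 19513761792), (nat_lit 30, nat_lit 19513757760), (nat_lit 58, nat_lit 19513753728), (nat_lit 6, nat_lit 20587499520), (nat_lit 9, nat_lit 20587495488), (nat_lit 56, nat_lit 20587491456), (nat_lit 113, nat_lit 21661237248), (nat_lit 47, nat_lit 21661233216), (nat_lit 11, nat_lit 21661229184), (nat_lit 81, nat_lit 22734974976), (nat_lit 100, nat_lit 22734970944), (nat_lit 25, nat_lit 23808712704)]⟩,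
   ⟨V6_17315684352, [(nat_lit 26, nat_lit 17366278272), (nat_lit 60, nat_lit 18440020032), (nat_lit 122, nat_lit 18439757952), (nat_lit 8, nat_lit 18423242880), (nat_lit 26, nat_lit 19513761792), (nat_lit 114, nat_lit 19513499712), (nat_lit 88, nat_lit 19496984640), (nat_lit 114, nat_lit 19496722560), (nat_lit 108, nat_lit 19480207488), (nat_lit 103, nat_lit 20587241472), (nat_lit 18, nat_lit 20570726400), (nat_lit 26, nat_lit 20570464320), (nat_lit 93, nat_lit 20553949248), (nat_lit 16, nat_lit 20553687168), (nat_lit 25, nat_lit 20537172096), (nat_lit 12, nat_lit 21644206080), (nat_lit 24, nat_lit 21627691008), (nat_lit 27, nat_lit 21627428928), (nat_lit 99, nat_lit 21610913856), (nat_lit 110, nat_lit 21610651776), (nat_lit 34, nat_lit 22701170688), (nat_lit 2, nat_lit 22684655616), (nat_lit 124, nat_lit 22684393536), (nat_lit 27, nat_lit 23758135296)]⟩,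
   ⟨V6_16258719744, [(nat_lit 58, nat_lit 17366278272), (nat_lit 50, nat_lit 18440020032), (nat_lit 126, nat_lit 18439757952), (nat_lit 11, nat_lit 18423242880), (nat_lit 56, nat_lit 19513761792), (nat_lit 118, nat_lit 19513499712), (nat_lit 116, nat_lit 19496984640), (nat_lit 55, nat_lit 19496722560), (nat_lit 109, nat_lit 19480207488), (nat_lit 5, nat_lit 20587241472), (nat_lit 2, nat_lit 20570726400), (nat_lit 10, nat_lit 20570464320), (nat_lit 88, nat_lit 20553949248), (nat_lit 31, nat_lit 20553687168), (nat_lit 48, nat_lit 21644206080), (nat_lit 110, nat_lit 21627691008), (nat_lit 84, nat_lit 21627428928), (nat_lit 22, nat_lit 22701170688)]⟩,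
   ⟨V6_16242204672, [(nat_lit 88, nat_lit 17366278272), (nat_lit 49, nat_lit 18440020032), (nat_lit 34, nat_lit 18423242880), (nat_lit 27, nat_lit 19513761792), (nat_lit 104, nat_lit 19496984640), (nat_lit 68, nat_lit 19480207488), (nat_lit 118, nat_lit 20570726400), (nat_lit 15, nat_lit 20553949248), (nat_lit 24, nat_lit 20537172096), (nat_lit 97, nat_lit 21627691008), (nat_lit 59, nat_lit 21610913856), (nat_lit 44, nat_lit 22684655616)]⟩],
  [W_17315938304, W_17315934272, W_17299157120, W_17298907136, W_17298899072, W_16242196544, W_16225423424, W_15218524160, W_15202009088, W_15202001024, W_15201747008, W_15185231936, W_15184969856, W_14145044480, W_14145036416, W_14128013312, W_13071298688, W_13071048704, W_13071040640, W_11997564992, W_11997560960, W_11997302912]⟩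
theorem C_17366278272 : chkRec R_17366278272 = true := by decide +kernel

noncomputable def R_17366282304 : Rec := ⟨nat_lit 17366282304, nat_lit 64,
  [⟨V6_17366261760, [(nat_lit 87, nat_lit 17366282304), (nat_lit 29, nat_lit 18440024064), (nat_lit 17, nat_lit 18440020032), (nat_lit 49, nat_lit 19513761792), (nat_lit 69, nat_lit 19513757760), (nat_lit 94, nat_lit 20587499520), (nat_lit 4, nat_lit 20587495488), (nat_lit 102, nat_lit 21661237248), (nat_lit 81, nat_lit 21661233216), (nat_lit 95, nat_lit 22734974976), (nat_lit 23, nat_lit 22734970944), (nat_lit 18, nat_lit 23808712704)]⟩,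
   ⟨V6_11997573120, [(nat_lit 7, nat_lit 17366282304), (nat_lit 84, nat_lit 18440024064)]⟩],
  [W_17315938304, W_16242196544, W_16225423424, W_15202009088, W_15185231936, W_15168462848, W_15168458816, W_15151685696, W_14094725120, W_14094721088]⟩
theorem C_17366282304 : chkRec R_17366282304 = true := by decide +kernel

noncomputable def R_17366528130 : Rec := ⟨nat_lit 17366528130, nat_lit 23,
  [⟨V6_14145298560, [(nat_lit 86, nat_lit 17366528130), (nat_lit 103, nat_lit 18440269953), (nat_lit 117, nat_lit 18440265858), (nat_lit 98, nat_lit 19514011776), (nat_lit 12, nat_lit 19514007681), (nat_lit 7, nat_lit 20587749504)]⟩],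
  [W_17348960384, W_17348702336, W_17332445312, W_16242192512, W_15168712832]⟩
theorem C_17366528130 : chkRec R_17366528130 = true := by decide +kernel

noncomputable def R_17366528193 : Rec := ⟨nat_lit 17366528193, nat_lit 38,
  [⟨V6_15202267200, [(nat_lit 84, nat_lit 17366528193), (nat_lit 14, nat_lit 18440270016), (nat_lit 92, nat_lit 18440269953), (nat_lit 119, nat_lit 18423492801), (nat_lit 49, nat_lit 19514011776), (nat_lit 47, nat_lit 19514011713), (nat_lit 36, nat_lit 19497234624), (nat_lit 21, nat_lit 19497234561), (nat_lit 107, nat_lit 20587753536), (nat_lit 108, nat_lit 20570976384), (nat_lit 51, nat_lit 20570976321), (nat_lit 5, nat_lit 21644718144)]⟩],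
  [W_17365479488, W_17365217408, W_17331925184, W_17315934272, W_16274960576, W_16242454592, W_16241930432, W_15185489984, W_15168450752, W_14111486144, W_11997556928]⟩
theorem C_17366528193 : chkRec R_17366528193 = true := by decide +kernel

noncomputable def R_17366532225 : Rec := ⟨nat_lit 17366532225, nat_lit 101,
  [⟨V6_17365483584, [(nat_lit 25, nat_lit 17366532225), (nat_lit 11, nat_lit 18440274048), (nat_lit 19, nat_lit 18440273985), (nat_lit 78, nat_lit 18440011905), (nat_lit 23, nat_lit 19514015808), (nat_lit 77, nat_lit 19513753728), (nat_lit 22, nat_lit 19513753665), (nat_lit 15, nat_lit 19513491585), (nat_lit 93, nat_lit 20587495488), (nat_lit 102, nat_lit 20587233408), (nat_lit 9, nat_lit 20587233345), (nat_lit 110, nat_lit 20586971265), (nat_lit 107, nat_lit 21660975168), (nat_lit 14, nat_lit 21660713088), (nat_lit 57, nat_lit 21660713025), (nat_lit 22, nat_lit 21660450945), (nat_lit 42, nat_lit 22734454848), (nat_lit 78, nat_lit 22734192768), (nat_lit 123, nat_lit 22734192705), (nat_lit 85, nat_lit 23807934528)]⟩,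
   ⟨V6_17316192384, [(nat_lit 58, nat_lit 17366532225), (nat_lit 88, nat_lit 18440274048), (nat_lit 40, nat_lit 18440269953), (nat_lit 25, nat_lit 18423496833), (nat_lit 53, nat_lit 19514011776), (nat_lit 118, nat_lit 19514007681), (nat_lit 5, nat_lit 19497238656), (nat_lit 93, nat_lit 19497234561), (nat_lit 31, nat_lit 19480461441), (nat_lit 33, nat_lit 20587749504), (nat_lit 67, nat_lit 20570976384), (nat_lit 77, nat_lit 20570972289), (nat_lit 46, nat_lit 20554203264), (nat_lit 32, nat_lit 20554199169), (nat_lit 88, nat_lit 20537426049), (nat_lit 3, nat_lit 21644714112), (nat_lit 44, nat_lit 21627940992), (nat_lit 85, nat_lit 21627936897), (nat_lit 65, nat_lit 21611167872), (nat_lit 90, nat_lit 21611163777), (nat_lit 40, nat_lit 22701678720), (nat_lit 66, nat_lit 22684905600), (nat_lit 7, nat_lit 22684901505), (nat_lit 67, nat_lit 23758643328)]⟩,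
   ⟨V6_16291741824, [(nat_lit 71, nat_lit 17366532225), (nat_lit 5, nat_lit 18440274048), (nat_lit 100, nat_lit 18440011905), (nat_lit 28, nat_lit 19513753728), (nat_lit 101, nat_lit 19513491585), (nat_lit 40, nat_lit 20587233408), (nat_lit 80, nat_lit 20586971265), (nat_lit 84, nat_lit 21660713088), (nat_lit 110, nat_lit 21660450945), (nat_lit 106, nat_lit 22734192768)]⟩,
   ⟨V6_16291741761, [(nat_lit 33, nat_lit 17366532225), (nat_lit 22, nat_lit 18440273985), (nat_lit 69, nat_lit 18440011905), (nat_lit 81, nat_lit 19513753665), (nat_lit 101, nat_lit 19513491585), (nat_lit 120, nat_lit 20587233345), (nat_lit 3, nat_lit 20586971265), (nat_lit 36, nat_lit 21660713025), (nat_lit 21, nat_lit 21660450945), (nat_lit 72, nat_lit 22734192705)]⟩],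
  [W_17316192320, W_16242454592, W_16242196544, W_15202001024, W_15201747008, W_15185231936, W_15168716864, W_14144782400, W_14128525376, W_14128267328, W_13071560768, W_13071302720, W_13054787648, W_11997823040, W_11997819008, W_11997560960, W_11981045888]⟩
theorem C_17366532225 : chkRec R_17366532225 = true := by decide +kernel

noncomputable def R_17366532288 : Rec := ⟨nat_lit 17366532288, nat_lit 144,
  [⟨V6_17365483584, [(nat_lit 87, nat_lit 17366532288), (nat_lit 111, nat_lit 18440274048), (nat_lit 93, nat_lit 18440011968), (nat_lit 84, nat_lit 19514015808), (nat_lit 111, nat_lit 19513753728), (nat_lit 20, nat_lit 19513491648), (nat_lit 43, nat_lit 20587495488), (nat_lit 110, nat_lit 20587233408), (nat_lit 100, nat_lit 20586971328), (nat_lit 22, nat_lit 21660975168), (nat_lit 12, nat_lit 21660713088), (nat_lit 6, nat_lit 21660451008), (nat_lit 9, nat_lit 22734454848), (nat_lit 79, nat_lit 22734192768), (nat_lit 26, nat_lit 23807934528)]⟩,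
   ⟨V6_17331929280, [(nat_lit 33, nat_lit 17366532288), (nat_lit 67, nat_lit 18440011968), (nat_lit 32, nat_lit 18423496896), (nat_lit 113, nat_lit 19513491648), (nat_lit 38, nat_lit 19496976576), (nat_lit 52, nat_lit 19480461504), (nat_lit 9, nat_lit 20586971328), (nat_lit 11, nat_lit 20570456256), (nat_lit 2, nat_lit 20553941184), (nat_lit 120, nat_lit 21660451008), (nat_lit 71, nat_lit 21643935936), (nat_lit 104, nat_lit 21627420864), (nat_lit 28, nat_lit 22717415616), (nat_lit 45, nat_lit 22700900544), (nat_lit 122, nat_lit 23774380224)]⟩,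
   ⟨V6_17316200448, [(nat_lit 52, nat_lit 17366532288), (nat_lit 16, nat_lit 18440274048), (nat_lit 3, nat_lit 18423496896), (nat_lit 2, nat_lit 19514015808), (nat_lit 125, nat_lit 19497238656), (nat_lit 122, nat_lit 19480461504), (nat_lit 120, nat_lit 20587757568), (nat_lit 93, nat_lit 20570980416), (nat_lit 103, nat_lit 20554203264), (nat_lit 118, nat_lit 20537426112), (nat_lit 125, nat_lit 21644722176), (nat_lit 122, nat_lit 21627945024), (nat_lit 35, nat_lit 21611167872), (nat_lit 87, nat_lit 22701686784), (nat_lit 11, nat_lit 22684909632), (nat_lit 21, nat_lit 23758651392)]⟩,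
   ⟨V6_16291741824, [(nat_lit 123, nat_lit 17366532288), (nat_lit 62, nat_lit 18440274048), (nat_lit 43, nat_lit 18440011968), (nat_lit 75, nat_lit 19513753728), (nat_lit 59, nat_lit 19513491648), (nat_lit 78, nat_lit 20587233408), (nat_lit 5, nat_lit 20586971328), (nat_lit 72, nat_lit 21660713088), (nat_lit 10, nat_lit 21660451008), (nat_lit 52, nat_lit 22734192768)]⟩,
   ⟨V6_16274964672, [(nat_lit 99, nat_lit 17366532288), (nat_lit 11, nat_lit 18440011968), (nat_lit 40, nat_lit 18423496896), (nat_lit 116, nat_lit 19513491648), (nat_lit 80, nat_lit 19496976576), (nat_lit 3, nat_lit 20586971328), (nat_lit 86, nat_lit 20570456256), (nat_lit 15, nat_lit 21660451008), (nat_lit 91, nat_lit 21643935936), (nat_lit 102, nat_lit 22717415616)]⟩],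
  [W_17365483520, W_17316196352, W_17315938304, W_16242458624, W_16242454592, W_15218524160, W_15202009088, W_15201747008, W_15185494016, W_14145302528, W_14145044480, W_13071564800, W_13071560768, W_11997823040, W_11997819008, W_11997556928]⟩
theorem C_17366532288 : chkRec R_17366532288 = true := by decide +kernel

noncomputable def R_17366536257 : Rec := ⟨nat_lit 17366536257, nat_lit 78,
  [⟨V6_17349742656, [(nat_lit 38, nat_lit 17366536257), (nat_lit 87, nat_lit 18440278080), (nat_lit 112, nat_lit 18440273985), (nat_lit 28, nat_lit 18423500865), (nat_lit 106, nat_lit 19514015808), (nat_lit 86, nat_lit 19514011713), (nat_lit 114, nat_lit 19497242688), (nat_lit 118, nat_lit 19497238593), (nat_lit 9, nat_lit 20587753536), (nat_lit 14, nat_lit 20587749441), (nat_lit 10, nat_lit 20570980416), (nat_lit 124, nat_lit 20570976321), (nat_lit 50, nat_lit 21661491264), (nat_lit 120, nat_lit 21661487169), (nat_lit 7, nat_lit 21644718144), (nat_lit 49, nat_lit 21644714049), (nat_lit 83, nat_lit 22735228992), (nat_lit 101, nat_lit 22718455872), (nat_lit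 106, nat_lit 22718451777), (nat_lit 8, nat_lit 23792193600)]⟩,
   ⟨V6_16276004928, [(nat_lit 105, nat_lit 17366536257), (nat_lit 33, nat_lit 18440278080), (nat_lit 15, nat_lit 18440273985), (nat_lit 63, nat_lit 18423500865), (nat_lit 122, nat_lit 19514015808), (nat_lit 113, nat_lit 19514011713), (nat_lit 75, nat_lit 19497242688), (nat_lit 118, nat_lit 19497238593), (nat_lit 86, nat_lit 20587753536), (nat_lit 70, nat_lit 20587749441), (nat_lit 46, nat_lit 20570980416), (nat_lit 32, nat_lit 20570976321), (nat_lit 7, nat_lit 21661491264), (nat_lit 46, nat_lit 21644718144), (nat_lit 9, nat_lit 21644714049), (nat_lit 90, nat_lit 22718455872)]⟩],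
  [W_17315934272, W_17315418176, W_16258453568, W_16242196544, W_15218262080, W_15201747008, W_15185231936, W_15168716864, W_14144782400, W_14144524352, W_14094979136, W_13071044672, W_11997564992]⟩
theorem C_17366536257 : chkRec R_17366536257 = true := by decide +kernel

noncomputable def R_17366536320 : Rec := ⟨nat_lit 17366536320, nat_lit 208,
  [⟨V6_17366261760, [(nat_lit 41, nat_lit 17366536320), (nat_lit 44, nat_lit 18440278080), (nat_lit 55, nat_lit 18440274048), (nat_lit 70, nat_lit 18440016000), (nat_lit 27, nat_lit 19514019840), (nat_lit 96, nat_lit 19514015808), (nat_lit 90, nat_lit 19514011776), (nat_lit 24, nat_lit 19513757760), (nat_lit 95, nat_lit 19513753728), (nat_lit 96, nat_lit 20587757568), (nat_lit 119, nat_lit 20587753536), (nat_lit 65, nat_lit 20587749504), (nat_lit 66, nat_lit 20587499520), (nat_lit 42, nat_lit 20587495488), (nat_lit 84, nat_lit 20587491456), (nat_lit 110, nat_lit 21661495296), (nat_lit 124, nat_lit 21661491264), (nat_lit 33, nat_lit 21661237248), (nat_lit 126, nat_lit 21661233216), (nat_lit 37, nat_lit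 21661229184), (nat_lit 98, nat_lit 22735233024), (nat_lit 4, nat_lit 22734974976), (nat_lit 74, nat_lit 22734970944), (nat_lit 48, nat_lit 23808712704)]⟩,
   ⟨V6_17349746688, [(nat_lit 84, nat_lit 17366536320), (nat_lit 17, nat_lit 18440278080), (nat_lit 85, nat_lit 18440274048), (nat_lit 75, nat_lit 18423500928), (nat_lit 74, nat_lit 19514019840), (nat_lit 101, nat_lit 19514015808), (nat_lit 16, nat_lit 19514011776), (nat_lit 123, nat_lit 19497242688), (nat_lit 101, nat_lit 19497238656), (nat_lit 100, nat_lit 20587757568), (nat_lit 120, nat_lit 20587753536), (nat_lit 109, nat_lit 20587749504), (nat_lit 33, nat_lit 20570984448), (nat_lit 91, nat_lit 20570980416), (nat_lit 108, nat_lit 20570976384), (nat_lit 45, nat_lit 21661495296), (nat_lit 74, nat_lit 21661491264), (nat_lit 103, nat_lit 21644722176), (nat_lit 51, nat_lit 21644718144), (nat_lit 62, nat_lit 21644714112), (nat_lit 59, nat_lit 22735233024), (nat_lit 104, nat_lit 22718459904), (nat_lit 119, nat_lit 22718455872), (nat_lit 19, nat_lit 23792197632)]⟩,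
   ⟨V6_16292782080, [(nat_lit 21, nat_lit 17366536320), (nat_lit 14, nat_lit 18440278080), (nat_lit 7, nat_lit 18440274048), (nat_lit 94, nat_lit 19514019840), (nat_lit 84, nat_lit 19514015808), (nat_lit 48, nat_lit 19514011776), (nat_lit 16, nat_lit 20587757568), (nat_lit 13, nat_lit 20587753536), (nat_lit 39, nat_lit 20587749504), (nat_lit 99, nat_lit 21661495296), (nat_lit 67, nat_lit 21661491264), (nat_lit 77, nat_lit 22735233024)]⟩],
  [W_17316196352, W_17316192320, W_17315938304, W_16242458624, W_16242454592, W_16242450560, W_16242196544, W_16242192512, W_16241676416, W_15218524160, W_15218262080, W_15202009088, W_15201747008, W_15201488960, W_15185494016, W_15185231936, W_15168720896, W_15168716864, W_15168712832, W_15168458816, W_15168454784, W_15168196736, W_14144782400, W_14144524352, W_14111232128, W_14094979136, W_14094717056, W_13071044672, W_13070782592, W_13054267520, W_13037752448, W_13021237376, W_11997560960, W_11997302912, W_11980787840, W_11964272768]⟩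
theorem C_17366536320 : chkRec R_17366536320 = true := by decide +kernel

noncomputable def R_17366540352 : Rec := ⟨nat_lit 17366540352, nat_lit 181,
  [⟨V6_17366519808, [(nat_lit 104, nat_lit 17366540352), (nat_lit 119, nat_lit 18440282112), (nat_lit 114, nat_lit 18440278080), (nat_lit 99, nat_lit 19514019840), (nat_lit 85, nat_lit 19514015808), (nat_lit 23, nat_lit 20587757568), (nat_lit 77, nat_lit 20587753536), (nat_lit 3, nat_lit 21661495296), (nat_lit 126, nat_lit 21661491264), (nat_lit 95, nat_lit 22735233024), (nat_lit 104, nat_lit 22735228992), (nat_lit 77, nat_lit 23808970752)]⟩,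
   ⟨V6_17349746688, [(nat_lit 110, nat_lit 17366540352), (nat_lit 46, nat_lit 18440282112), (nat_lit 45, nat_lit 18440278080), (nat_lit 107, nat_lit 18423504960), (nat_lit 85, nat_lit 19514019840), (nat_lit 118, nat_lit 19514015808), (nat_lit 21, nat_lit 19497246720), (nat_lit 97, nat_lit 19497242688), (nat_lit 104, nat_lit 20587757568), (nat_lit 38, nat_lit 20587753536), (nat_lit 7, nat_lit 20570984448), (nat_lit 121, nat_lit 20570980416), (nat_lit 97, nat_lit 21661495296), (nat_lit 58, nat_lit 21661491264), (nat_lit 102, nat_lit 21644722176), (nat_lit 32, nat_lit 21644718144), (nat_lit 17, nat_lit 22735233024), (nat_lit 114, nat_lit 22718459904), (nat_lit 28, nat_lit 22718455872), (nat_lit 13, nat_lit 23792197632)]⟩,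
   ⟨V6_16292782080, [(nat_lit 114, nat_lit 17366540352), (nat_lit 42, nat_lit 18440282112), (nat_lit 52, nat_lit 18440278080), (nat_lit 5, nat_lit 19514019840), (nat_lit 117, nat_lit 19514015808), (nat_lit 103, nat_lit 20587757568), (nat_lit 2, nat_lit 20587753536), (nat_lit 61, nat_lit 21661495296), (nat_lit 104, nat_lit 21661491264), (nat_lit 76, nat_lit 22735233024)]⟩],
  [W_17316196352, W_17315938304, W_16242458624, W_16242196544, W_15218524160, W_15202009088, W_15201747008, W_15185231936, W_15168720896, W_15168716864, W_15168458816, W_14145044480, W_14144782400, W_14128267328, W_14111494208, W_14111236160, W_14094979136, W_14094721088, W_13071306752, W_13071048704, W_13071044672, W_13021241408, W_11997827072, W_11997569024, W_11997564992, W_11964276800]⟩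
theorem C_17366540352 : chkRec R_17366540352 = true := by decide +kernel

noncomputable def R_17366544384 : Rec := ⟨nat_lit 17366544384, nat_lit 78,
  [⟨V6_17366519808, [(nat_lit 7, nat_lit 17366544384), (nat_lit 98, nat_lit 18440282112), (nat_lit 90, nat_lit 19514019840), (nat_lit 15, nat_lit 20587757568), (nat_lit 47, nat_lit 21661495296), (nat_lit 60, nat_lit 22735233024), (nat_lit 47, nat_lit 23808970752)]⟩,
   ⟨V6_13071568896, [(nat_lit 41, nat_lit 17366544384), (nat_lit 57, nat_lit 18440282112), (nat_lit 86, nat_lit 19514019840)]⟩,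
   ⟨V6_11981058048, [(nat_lit 109, nat_lit 17366544384), (nat_lit 57, nat_lit 18423508992)]⟩],
  [W_17316196352, W_17315938304, W_16242458624, W_15202009088, W_15185494016, W_15168720896, W_15168462848, W_14094983168, W_14094725120]⟩
theorem C_17366544384 : chkRec R_17366544384 = true := by decide +kernel

noncomputable def R_17366786178 : Rec := ⟨nat_lit 17366786178, nat_lit 8,
  [⟨V6_15185748096, [(nat_lit 42, nat_lit 17366786178), (nat_lit 49, nat_lit 18440528001), (nat_lit 13, nat_lit 18423750786), (nat_lit 109, nat_lit 19514269824), (nat_lit 62, nat_lit 19497492609), (nat_lit 113, nat_lit 19480715394), (nat_lit 24, nat_lit 20571234432), (nat_lit 122, nat_lit 20554457217), (nat_lit 20, nat_lit 21628199040)]⟩,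
   ⟨V6_11998077057, [(nat_lit 45, nat_lit 17366786178), (nat_lit 32, nat_lit 18440528001)]⟩],
  [W_17365475456, W_17348960384, W_13055041664]⟩
theorem C_17366786178 : chkRec R_17366786178 = true := by decide +kernel

noncomputable def R_17366790273 : Rec := ⟨nat_lit 17366790273, nat_lit 60,
  [⟨V6_16291995777, [(nat_lit 98, nat_lit 17366790273), (nat_lit 75, nat_lit 18440528001), (nat_lit 48, nat_lit 18440269953), (nat_lit 101, nat_lit 19514007681), (nat_lit 116, nat_lit 19513749633), (nat_lit 66, nat_lit 20587487361), (nat_lit 92, nat_lit 20587229313), (nat_lit 60, nat_lit 21660967041), (nat_lit 110, nat_lit 21660708993), (nat_lit 71, nat_lit 22734446721)]⟩,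
   ⟨V6_15185748096, [(nat_lit 41, nat_lit 17366790273), (nat_lit 107, nat_lit 18440532096), (nat_lit 26, nat_lit 18440528001), (nat_lit 64, nat_lit 18423754881), (nat_lit 35, nat_lit 19514269824), (nat_lit 115, nat_lit 19497496704), (nat_lit 121, nat_lit 19497492609), (nat_lit 26, nat_lit 19480719489), (nat_lit 52, nat_lit 20571234432), (nat_lit 98, nat_lit 20554461312), (nat_lit 27, nat_lit 20554457217), (nat_lit 5, nat_lit 21628199040)]⟩,
   ⟨V6_15185748033, [(nat_lit 19, nat_lit 17366790273), (nat_lit 78, nat_lit 18440532033), (nat_lit 38, nat_lit 18440528001), (nat_lit 60, nat_lit 18423754881), (nat_lit 81, nat_lit 19514269761), (nat_lit 118, nat_lit 19497496641), (nat_lit 25, nat_lit 19497492609), (nat_lit 35, nat_lit 19480719489), (nat_lit 122, nat_lit 20571234369), (nat_lit 59, nat_lit 20554461249), (nat_lit 112, nat_lit 20554457217), (nat_lit 57, nat_lit 21628198977)]⟩,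
   ⟨V6_14145298560, [(nat_lit 70, nat_lit 17366790273), (nat_lit 123, nat_lit 18440532096), (nat_lit 107, nat_lit 18440528001), (nat_lit 40, nat_lit 18440269953), (nat_lit 75, nat_lit 19514269824), (nat_lit 11, nat_lit 19514011776), (nat_lit 73, nat_lit 19514007681), (nat_lit 101, nat_lit 20587749504)]⟩,
   ⟨V6_14112006273, [(nat_lit 74, nat_lit 17366790273), (nat_lit 13, nat_lit 18440528001), (nat_lit 79, nat_lit 18423754881), (nat_lit 36, nat_lit 19497492609), (nat_lit 98, nat_lit 19480719489), (nat_lit 101, nat_lit 20554457217)]⟩,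
   ⟨V6_11998077057, [(nat_lit 105, nat_lit 17366790273), (nat_lit 74, nat_lit 18440528001)]⟩],
  [W_17365479488, W_17365475456, W_17365217408, W_17348960384, W_15202001024, W_15185489984, W_14128783424, W_14128525376, W_14112010304, W_13071818816, W_13071560768, W_11998081088, W_11997819008]⟩
theorem C_17366790273 : chkRec R_17366790273 = true := by decide +kernel

noncomputable def R_17366790336 : Rec := ⟨nat_lit 17366790336, nat_lit 69,
  [⟨V6_16276008960, [(nat_lit 122, nat_lit 17366790336), (nat_lit 26, nat_lit 18440532096), (nat_lit 46, nat_lit 18440270016), (nat_lit 33, nat_lit 18423754944), (nat_lit 11, nat_lit 19514273856), (nat_lit 36, nat_lit 19514011776), (nat_lit 67, nat_lit 19497496704), (nat_lit 122, nat_lit 19497234624), (nat_lit 59, nat_lit 20588015616), (nat_lit 65, nat_lit 20587753536), (nat_lit 6, nat_lit 20571238464), (nat_lit 14, nat_lit 20570976384), (nat_lit 76, nat_lit 21661495296), (nat_lit 60, nat_lit 21644980224), (nat_lit 37, nat_lit 21644718144), (nat_lit 3, nat_lit 22718459904)]⟩],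
  [W_17365217408, W_17332187264, W_17331925184, W_15185752064, W_15185489984, W_14145302528, W_14144516288, W_14128787456, W_14128001216, W_14112010304, W_13071822848, W_13071560768, W_13071298688, W_13071036608, W_13055045696, W_13054521536, W_13038268544, W_11998081088, W_11997819008, W_11997556928, W_11964526784]⟩
theorem C_17366790336 : chkRec R_17366790336 = true := by decide +kernel

noncomputable def R_17366794305 : Rec := ⟨nat_lit 17366794305, nat_lit 71,
  [⟨V6_17365483584, [(nat_lit 89, nat_lit 17366794305), (nat_lit 122, nat_lit 18440536128), (nat_lit 48, nat_lit 18440273985), (nat_lit 120, nat_lit 19514015808), (nat_lit 31, nat_lit 19513753665), (nat_lit 77, nat_lit 20587495488), (nat_lit 126, nat_lit 20587233345), (nat_lit 123, nat_lit 21660975168), (nat_lit 86, nat_lit 21660713025), (nat_lit 37, nat_lit 22734454848), (nat_lit 3, nat_lit 22734192705), (nat_lit 83, nat_lit 23807934528)]⟩,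
   ⟨V6_16291741761, [(nat_lit 73, nat_lit 17366794305), (nat_lit 89, nat_lit 18440273985), (nat_lit 16, nat_lit 19513753665), (nat_lit 29, nat_lit 20587233345), (nat_lit 61, nat_lit 21660713025), (nat_lit 73, nat_lit 22734192705)]⟩,
   ⟨V6_16276262976, [(nat_lit 112, nat_lit 17366794305), (nat_lit 18, nat_lit 18440536128), (nat_lit 42, nat_lit 18440532033), (nat_lit 49, nat_lit 18423758913), (nat_lit 11, nat_lit 19514273856), (nat_lit 5, nat_lit 19514269761), (nat_lit 89, nat_lit 19497500736), (nat_lit 70, nat_lit 19497496641), (nat_lit 78, nat_lit 20588011584), (nat_lit 89, nat_lit 20588007489), (nat_lit 13, nat_lit 20571238464), (nat_lit 67, nat_lit 20571234369), (nat_lit 57, nat_lit 21661749312), (nat_lit 126, nat_lit 21644976192), (nat_lit 28, nat_lit 21644972097), (nat_lit 118, nat_lit 22718713920)]⟩],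
  [W_15201747008, W_15185489984, W_14145556544, W_14128783424, W_14128525376, W_14128267328, W_14112010304, W_13071560768, W_13071302720, W_13054787648, W_11998081088, W_11997823040]⟩
theorem C_17366794305 : chkRec R_17366794305 = true := by decide +kernel

noncomputable def R_17366794368 : Rec := ⟨nat_lit 17366794368, nat_lit 172,
  [⟨V6_17366261760, [(nat_lit 106, nat_lit 17366794368), (nat_lit 17, nat_lit 18440536128), (nat_lit 12, nat_lit 18440532096), (nat_lit 87, nat_lit 18440274048), (nat_lit 59, nat_lit 19514277888), (nat_lit 107, nat_lit 19514273856), (nat_lit 120, nat_lit 19514269824), (nat_lit 60, nat_lit 19514015808), (nat_lit 122, nat_lit 19514011776), (nat_lit 78, nat_lit 19513753728), (nat_lit 43, nat_lit 20588015616), (nat_lit 72, nat_lit 20588011584), (nat_lit 77, nat_lit 20587757568), (nat_lit 64, nat_lit 20587753536), (nat_lit 113, nat_lit 20587749504), (nat_lit 117, nat_lit 20587495488), (nat_lit 30, nat_lit 20587491456), (nat_lit 10, nat_lit 21661753344), (nat_lit 56, nat_lit 21661495296), (nat_lit 95, nat_lit 21661491264),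 (nat_lit 64, nat_lit 21661237248), (nat_lit 3, nat_lit 21661233216), (nat_lit 61, nat_lit 21661229184), (nat_lit 32, nat_lit 22735233024), (nat_lit 10, nat_lit 22734974976), (nat_lit 42, nat_lit 22734970944), (nat_lit 94, nat_lit 23808712704)]⟩,
   ⟨V6_16292782080, [(nat_lit 80, nat_lit 17366794368), (nat_lit 93, nat_lit 18440536128), (nat_lit 116, nat_lit 18440532096), (nat_lit 18, nat_lit 18440274048), (nat_lit 38, nat_lit 19514277888), (nat_lit 89, nat_lit 19514273856), (nat_lit 35, nat_lit 19514269824), (nat_lit 116, nat_lit 19514015808), (nat_lit 82, nat_lit 19514011776), (nat_lit 122, nat_lit 20588015616), (nat_lit 65, nat_lit 20588011584), (nat_lit 34, nat_lit 20587757568), (nat_lit 23, nat_lit 20587753536), (nat_lit 17, nat_lit 20587749504), (nat_lit 122, nat_lit 21661753344), (nat_lit 25, nat_lit 21661495296), (nat_lit 122, nat_lit 21661491264), (nat_lit 7, nat_lit 22735233024)]⟩,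
   ⟨V6_16291741824, [(nat_lit 71, nat_lit 17366794368), (nat_lit 97, nat_lit 18440274048), (nat_lit 26, nat_lit 19513753728), (nat_lit 63, nat_lit 20587233408), (nat_lit 115, nat_lit 21660713088), (nat_lit 71, nat_lit 22734192768)]⟩],
  [W_17365483520, W_17348706368, W_16259489792, W_15218524160, W_15202525184, W_15202009088, W_15202001024, W_15201747008, W_15185752064, W_15185748032, W_15185494016, W_15185231936, W_14145302528, W_14145044480, W_14144782400, W_14128787456, W_14128783424, W_14128267328, W_14128263296, W_11998085120, W_11997560960, W_11981303936]⟩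
theorem C_17366794368 : chkRec R_17366794368 = true := by decide +kernel

noncomputable def R_17366798400 : Rec := ⟨nat_lit 17366798400, nat_lit 185,
  [⟨V6_17366519808, [(nat_lit 1, nat_lit 17366798400), (nat_lit 98, nat_lit 18440540160), (nat_lit 97, nat_lit 18440536128), (nat_lit 32, nat_lit 18440278080), (nat_lit 49, nat_lit 19514277888), (nat_lit 37, nat_lit 19514273856), (nat_lit 103, nat_lit 19514019840), (nat_lit 16, nat_lit 19514015808), (nat_lit 106, nat_lit 20588015616), (nat_lit 56, nat_lit 20588011584), (nat_lit 51, nat_lit 20587757568), (nat_lit 53, nat_lit 20587753536), (nat_lit 2, nat_lit 21661753344), (nat_lit 107, nat_lit 21661749312), (nat_lit 104, nat_lit 21661495296), (nat_lit 55, nat_lit 21661491264), (nat_lit 120, nat_lit 22735491072), (nat_lit 4, nat_lit 22735233024), (nat_lit 65, nat_lit 22735228992), (nat_lit 14, nat_lit 23808970752)]⟩,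
   ⟨V6_17366261760, [(nat_lit 2, nat_lit 17366798400), (nat_lit 38, nat_lit 18440540160), (nat_lit 125, nat_lit 18440536128), (nat_lit 15, nat_lit 18440278080), (nat_lit 98, nat_lit 19514277888), (nat_lit 73, nat_lit 19514273856), (nat_lit 107, nat_lit 19514019840), (nat_lit 32, nat_lit 19514015808), (nat_lit 31, nat_lit 19513757760), (nat_lit 3, nat_lit 20588015616), (nat_lit 14, nat_lit 20588011584), (nat_lit 12, nat_lit 20587757568), (nat_lit 65, nat_lit 20587753536), (nat_lit 28, nat_lit 20587499520), (nat_lit 22, nat_lit 20587495488), (nat_lit 15, nat_lit 21661753344), (nat_lit 26, nat_lit 21661495296), (nat_lit 95, nat_lit 21661491264), (nat_lit 104, nat_lit 21661237248), (nat_lit 74, nat_lit 21661233216), (nat_lit 11, nat_lit 22735233024), (nat_lit 16, nat_lit 22734974976), (nat_lit 49, nat_lit 22734970944), (nat_lit 84, nat_lit 23808712704)]⟩,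
   ⟨V6_16292782080, [(nat_lit 114, nat_lit 17366798400), (nat_lit 86, nat_lit 18440540160), (nat_lit 4, nat_lit 18440536128), (nat_lit 126, nat_lit 18440278080), (nat_lit 5, nat_lit 19514277888), (nat_lit 126, nat_lit 19514273856), (nat_lit 95, nat_lit 19514019840), (nat_lit 28, nat_lit 19514015808), (nat_lit 41, nat_lit 20588015616), (nat_lit 122, nat_lit 20588011584), (nat_lit 2, nat_lit 20587757568), (nat_lit 69, nat_lit 20587753536), (nat_lit 56, nat_lit 21661753344), (nat_lit 125, nat_lit 21661495296), (nat_lit 122, nat_lit 21661491264), (nat_lit 54, nat_lit 22735233024)]⟩],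
  [W_17333227520, W_16276262912, W_16259485760, W_16258453568, W_15218524160, W_15218266112, W_15218262080, W_15202009088, W_15201747008, W_15201488960, W_15185748032, W_15185494016, W_15185489984, W_15185231936, W_15184973888, W_14145302528, W_14145044480, W_14144782400, W_14144524352, W_14128267328, W_14111494208, W_13071306752, W_13071044672, W_11997827072, W_11997564992, W_11964534848]⟩
theorem C_17366798400 : chkRec R_17366798400 = true := by decide +kernel

noncomputable def R_17366802432 : Rec := ⟨nat_lit 17366802432, nat_lit 109,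
  [⟨V6_17366519808, [(nat_lit 8, nat_lit 17366802432), (nat_lit 81, nat_lit 18440540160), (nat_lit 60, nat_lit 18440282112), (nat_lit 67, nat_lit 19514277888), (nat_lit 13, nat_lit 19514019840), (nat_lit 31, nat_lit 20588015616), (nat_lit 8, nat_lit 20587757568), (nat_lit 59, nat_lit 21661753344), (nat_lit 48, nat_lit 21661495296), (nat_lit 19, nat_lit 22735491072), (nat_lit 40, nat_lit 22735233024), (nat_lit 56, nat_lit 23808970752)]⟩,
   ⟨V6_15219302400, [(nat_lit 15, nat_lit 17366802432), (nat_lit 98, nat_lit 18440540160), (nat_lit 111, nat_lit 19514277888), (nat_lit 51, nat_lit 20588015616), (nat_lit 53, nat_lit 21661753344)]⟩,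
   ⟨V6_13071568896, [(nat_lit 123, nat_lit 17366802432), (nat_lit 11, nat_lit 18440540160), (nat_lit 66, nat_lit 18440282112), (nat_lit 35, nat_lit 19514019840)]⟩],
  [W_17350000640, W_17333227520, W_16276262912, W_15218524160, W_15202525184, W_15202009088, W_15185494016, W_14145044480, W_14128787456, W_14128013312, W_14112014336, W_13071048704]⟩
theorem C_17366802432 : chkRec R_17366802432 = true := by decide +kernel

noncomputable def R_17367048321 : Rec := ⟨nat_lit 17367048321, nat_lit 23,
  [⟨V6_14145298560, [(nat_lit 122, nat_lit 17367048321), (nat_lit 83, nat_lit 18440790144), (nat_lit 46, nat_lit 18440528001), (nat_lit 11, nat_lit 19514269824), (nat_lit 75, nat_lit 19514007681), (nat_lit 84, nat_lit 20587749504)]⟩],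
  [W_17365475456, W_17348960384, W_15202001024, W_14128783424, W_13055303744, W_11981561984]⟩
theorem C_17367048321 : chkRec R_17367048321 = true := by decide +kernel

noncomputable def R_17367052353 : Rec := ⟨nat_lit 17367052353, nat_lit 40,
  [⟨V6_15202267200, [(nat_lit 62, nat_lit 17367052353), (nat_lit 47, nat_lit 18440794176), (nat_lit 54, nat_lit 18440532033), (nat_lit 77, nat_lit 18424016961), (nat_lit 12, nat_lit 19514273856), (nat_lit 74, nat_lit 19514011713), (nat_lit 118, nat_lit 19497758784), (nat_lit 114, nat_lit 19497496641), (nat_lit 2, nat_lit 20587753536), (nat_lit 78, nat_lit 20571238464), (nat_lit 17, nat_lit 20570976321), (nat_lit 94, nat_lit 21644718144)]⟩],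
  [W_17365479488, W_16292515904, W_16276000832, W_15202521152, W_14145556544, W_13072076864, W_13071818816, W_13055303744, W_11998081088]⟩
theorem C_17367052353 : chkRec R_17367052353 = true := by decide +kernel

noncomputable def R_17367052416 : Rec := ⟨nat_lit 17367052416, nat_lit 95,
  [⟨V6_17366003712, [(nat_lit 56, nat_lit 17367052416), (nat_lit 62, nat_lit 18440794176), (nat_lit 32, nat_lit 18440532096), (nat_lit 125, nat_lit 19514535936), (nat_lit 86, nat_lit 19514273856), (nat_lit 125, nat_lit 19514011776), (nat_lit 62, nat_lit 20588015616), (nat_lit 40, nat_lit 20587753536), (nat_lit 40, nat_lit 20587491456), (nat_lit 70, nat_lit 21661495296), (nat_lit 38, nat_lit 21661233216), (nat_lit 88, nat_lit 21660971136), (nat_lit 84, nat_lit 22734974976), (nat_lit 61, nat_lit 22734712896), (nat_lit 59, nat_lit 23808454656)]⟩,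
   ⟨V6_15202787328, [(nat_lit 50, nat_lit 17367052416), (nat_lit 104, nat_lit 18440794176), (nat_lit 23, nat_lit 18440790144), (nat_lit 48, nat_lit 18424017024), (nat_lit 49, nat_lit 19514535936), (nat_lit 35, nat_lit 19514531904), (nat_lit 101, nat_lit 19497758784), (nat_lit 30, nat_lit 19497754752), (nat_lit 30, nat_lit 20588273664), (nat_lit 116, nat_lit 20571500544), (nat_lit 63, nat_lit 20571496512), (nat_lit 77, nat_lit 21645238272)]⟩],
  [W_17365475456, W_17365217408, W_15202525184, W_15202001024, W_14145560576, W_14145302528, W_14145036416, W_14129045504, W_14128787456, W_14128783424, W_14128521344, W_13072080896, W_13071822848, W_13071818816, W_13071560768, W_13071556736, W_13071298688, W_13055307776, W_13055303744, W_13055045696, W_13055041664, W_11998081088, W_11997819008, W_11981566016, W_11981303936]⟩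
theorem C_17367052416 : chkRec R_17367052416 = true := by decide +kernel

noncomputable def R_17367056448 : Rec := ⟨nat_lit 17367056448, nat_lit 140,
  [⟨V6_17366261760, [(nat_lit 102, nat_lit 17367056448), (nat_lit 101, nat_lit 18440798208), (nat_lit 4, nat_lit 18440794176), (nat_lit 110, nat_lit 18440536128), (nat_lit 19, nat_lit 19514535936), (nat_lit 108, nat_lit 19514531904), (nat_lit 40, nat_lit 19514277888), (nat_lit 54, nat_lit 19514273856), (nat_lit 58, nat_lit 19514015808), (nat_lit 85, nat_lit 20588273664), (nat_lit 111, nat_lit 20588015616), (nat_lit 66, nat_lit 20588011584), (nat_lit 116, nat_lit 20587757568), (nat_lit 101, nat_lit 20587753536), (nat_lit 12, nat_lit 20587495488), (nat_lit 105, nat_lit 21661753344), (nat_lit 80, nat_lit 21661495296), (nat_lit 34, nat_lit 21661491264), (nat_lit 37, nat_lit 21661237248), (nat_lit 36, nat_lit 21661233216), (nat_lit 107, nat_lit 22735233024), (nat_lit 93, nat_lit 22734974976), (nat_lit 97, nat_lit 22734970944), (nat_lit 16, nat_lit 23808712704)]⟩,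
   ⟨V6_17365483584, [(nat_lit 15, nat_lit 17367056448), (nat_lit 47, nat_lit 18440536128), (nat_lit 53, nat_lit 19514015808), (nat_lit 82, nat_lit 20587495488), (nat_lit 23, nat_lit 21660975168), (nat_lit 13, nat_lit 22734454848), (nat_lit 63, nat_lit 23807934528)]⟩,
   ⟨V6_16276262976, [(nat_lit 15, nat_lit 17367056448), (nat_lit 97, nat_lit 18440794176), (nat_lit 34, nat_lit 18440536128), (nat_lit 33, nat_lit 18424021056), (nat_lit 61, nat_lit 19514531904), (nat_lit 47, nat_lit 19514273856), (nat_lit 57, nat_lit 19497758784), (nat_lit 32, nat_lit 19497500736), (nat_lit 55, nat_lit 20588269632), (nat_lit 49, nat_lit 20588011584), (nat_lit 42, nat_lit 20571496512), (nat_lit 118, nat_lit 20571238464), (nat_lit 42, nat_lit 21661749312), (nat_lit 97, nat_lit 21645234240), (nat_lit 20, nat_lit 21644976192), (nat_lit 108, nat_lit 22718713920)]⟩],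
  [W_17365483520, W_16276262912, W_15218524160, W_15202783232, W_15202009088, W_15201747008, W_14145302528, W_14145044480, W_14144782400, W_14128787456, W_14128525376, W_14128267328, W_13071560768, W_13055307776, W_11998343168, W_11998085120, W_11981570048]⟩
theorem C_17367056448 : chkRec R_17367056448 = true := by decide +kernel

noncomputable def R_17367060480 : Rec := ⟨nat_lit 17367060480, nat_lit 99,
  [⟨V6_17350262784, [(nat_lit 25, nat_lit 17367060480), (nat_lit 99, nat_lit 18440798208), (nat_lit 6, nat_lit 18424025088), (nat_lit 89, nat_lit 19514535936), (nat_lit 88, nat_lit 19497762816), (nat_lit 80, nat_lit 20588273664), (nat_lit 42, nat_lit 20571500544), (nat_lit 67, nat_lit 21662011392), (nat_lit 15, nat_lit 21645238272), (nat_lit 104, nat_lit 22735749120), (nat_lit 72, nat_lit 22718976000), (nat_lit 96, nat_lit 23792713728)]⟩,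
   ⟨V6_16292007936, [(nat_lit 31, nat_lit 17367060480), (nat_lit 77, nat_lit 18440540160), (nat_lit 80, nat_lit 19514019840), (nat_lit 50, nat_lit 20587499520), (nat_lit 85, nat_lit 21660979200), (nat_lit 54, nat_lit 22734458880)]⟩,
   ⟨V6_15219302400, [(nat_lit 67, nat_lit 17367060480), (nat_lit 120, nat_lit 18440798208), (nat_lit 60, nat_lit 18440540160), (nat_lit 116, nat_lit 19514535936), (nat_lit 58, nat_lit 19514277888), (nat_lit 7, nat_lit 20588273664), (nat_lit 56, nat_lit 20588015616), (nat_lit 1, nat_lit 21661753344)]⟩,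
   ⟨V6_13071568896, [(nat_lit 111, nat_lit 17367060480), (nat_lit 113, nat_lit 18440540160), (nat_lit 67, nat_lit 19514019840)]⟩],
  [W_17350000640, W_17349742592, W_16276520960, W_16276262912, W_15218524160, W_15202783232, W_15202009088, W_14145044480, W_14129045504, W_11998343168]⟩
theorem C_17367060480 : chkRec R_17367060480 = true := by decide +kernel

noncomputable def R_17367310401 : Rec := ⟨nat_lit 17367310401, nat_lit 15,
  [⟨V6_17365995585, [(nat_lit 48, nat_lit 17367310401), (nat_lit 62, nat_lit 18441048129), (nat_lit 23, nat_lit 18440790081), (nat_lit 2, nat_lit 19514527809), (nat_lit 80, nat_lit 19514269761), (nat_lit 123, nat_lit 20588007489), (nat_lit 46, nat_lit 20587749441), (nat_lit 15, nat_lit 21661487169), (nat_lit 113, nat_lit 21661229121), (nat_lit 44, nat_lit 22734966849), (nat_lit 118, nat_lit 22734708801), (nat_lit 97, nat_lit 23808446529)]⟩,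
   ⟨V6_13072076865, [(nat_lit 15, nat_lit 17367310401), (nat_lit 22, nat_lit 18441048129), (nat_lit 97, nat_lit 18440790081), (nat_lit 12, nat_lit 19514527809)]⟩,
   ⟨V6_11998597185, [(nat_lit 125, nat_lit 17367310401), (nat_lit 86, nat_lit 18441048129)]⟩,
   ⟨V6_11998339137, [(nat_lit 99, nat_lit 17367310401), (nat_lit 7, nat_lit 18440790081)]⟩],
  [W_16292515904, W_13072076864, W_13071818816, W_11998597184]⟩
theorem C_17367310401 : chkRec R_17367310401 = true := by decide +kernel

noncomputable def R_17367310464 : Rec := ⟨nat_lit 17367310464, nat_lit 20,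
  [⟨V6_14145298560, [(nat_lit 81, nat_lit 17367310464), (nat_lit 69, nat_lit 18440790144), (nat_lit 4, nat_lit 19514269824), (nat_lit 50, nat_lit 20587749504)]⟩,
   ⟨V6_13072343040, [(nat_lit 68, nat_lit 17367310464), (nat_lit 107, nat_lit 18441052224), (nat_lit 71, nat_lit 19514793984)]⟩],
  [W_17365999616, W_14145560576]⟩
theorem C_17367310464 : chkRec R_17367310464 = true := by decide +kernel

noncomputable def R_17367314496 : Rec := ⟨nat_lit 17367314496, nat_lit 58,
  [⟨V6_17366003712, [(nat_lit 100, nat_lit 17367314496), (nat_lit 61, nat_lit 18441056256), (nat_lit 124, nat_lit 18440794176), (nat_lit 61, nat_lit 19514535936), (nat_lit 52, nat_lit 19514273856), (nat_lit 19, nat_lit 20588015616), (nat_lit 106, nat_lit 20587753536), (nat_lit 108, nat_lit 21661495296), (nat_lit 26, nat_lit 21661233216), (nat_lit 66, nat_lit 22734974976), (nat_lit 101, nat_lit 22734712896), (nat_lit 66, nat_lit 23808454656)]⟩,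
   ⟨V6_13072343040, [(nat_lit 62, nat_lit 17367314496), (nat_lit 96, nat_lit 18441056256), (nat_lit 106, nat_lit 18441052224), (nat_lit 115, nat_lit 19514793984)]⟩],
  [W_16292515904, W_15219298304, W_14145818624, W_14145556544, W_14145302528, W_13072080896, W_13072076864, W_13071822848, W_13071818816, W_13071560768, W_11998343168, W_11998081088]⟩
theorem C_17367314496 : chkRec R_17367314496 = true := by decide +kernel

noncomputable def R_17367318528 : Rec := ⟨nat_lit 17367318528, nat_lit 42,
  [⟨V6_15219302400, [(nat_lit 33, nat_lit 17367318528), (nat_lit 59, nat_lit 18441056256), (nat_lit 4, nat_lit 18440798208), (nat_lit 50, nat_lit 19514793984), (nat_lit 116, nat_lit 19514535936), (nat_lit 89, nat_lit 19514277888), (nat_lit 92, nat_lit 20588273664), (nat_lit 108, nat_lit 20588015616), (nat_lit 72, nat_lit 21661753344)]⟩,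
   ⟨V6_11998605312, [(nat_lit 109, nat_lit 17367318528), (nat_lit 43, nat_lit 18441056256)]⟩,
   ⟨V6_11998347264, [(nat_lit 26, nat_lit 17367318528), (nat_lit 57, nat_lit 18440798208)]⟩],
  [W_17366515712, W_17365483520, W_15219556352, W_15218524160, W_13072080896]⟩
theorem C_17367318528 : chkRec R_17367318528 = true := by decide +kernel

noncomputable def R_17382260931 : Rec := ⟨nat_lit 17382260931, nat_lit 1,
  [⟨V6_13070516418, [(nat_lit 96, nat_lit 17382260931), (nat_lit 18, nat_lit 18456002754), (nat_lit 100, nat_lit 18439225539), (nat_lit 92, nat_lit 19512967362)]⟩],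
  [W_17331925184]⟩
theorem C_17382260931 : chkRec R_17382260931 = true := by decide +kernel

noncomputable def R_17382260994 : Rec := ⟨nat_lit 17382260994, nat_lit 6,
  [⟨V6_14127481089, [(nat_lit 4, nat_lit 17382260994), (nat_lit 117, nat_lit 18456002817), (nat_lit 106, nat_lit 18439225602), (nat_lit 43, nat_lit 19512967425), (nat_lit 83, nat_lit 19496190210), (nat_lit 83, nat_lit 20569932033)]⟩,
   ⟨V6_13070516418, [(nat_lit 19, nat_lit 17382260994), (nat_lit 89, nat_lit 18456002754), (nat_lit 112, nat_lit 18439225602), (nat_lit 62, nat_lit 19512967362)]⟩],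
  [W_17331929216, W_17315152064]⟩
theorem C_17382260994 : chkRec R_17382260994 = true := by decide +kernel

noncomputable def R_17382518979 : Rec := ⟨nat_lit 17382518979, nat_lit 1,
  [⟨V6_13070774466, [(nat_lit 38, nat_lit 17382518979), (nat_lit 23, nat_lit 18456260802), (nat_lit 29, nat_lit 18439483587), (nat_lit 47, nat_lit 19513225410)]⟩],
  [W_17331925184]⟩
theorem C_17382518979 : chkRec R_17382518979 = true := by decide +kernel

noncomputable def R_17382523074 : Rec := ⟨nat_lit 17382523074, nat_lit 14,
  [⟨V6_14161035456, [(nat_lit 14, nat_lit 17382523074), (nat_lit 66, nat_lit 18456264897), (nat_lit 29, nat_lit 18456002754), (nat_lit 73, nat_lit 19530006720), (nat_lit 109, nat_lit 19529744577), (nat_lit 54, nat_lit 20603486400)]⟩,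
   ⟨V6_13087555776, [(nat_lit 112, nat_lit 17382523074), (nat_lit 86, nat_lit 18456264897), (nat_lit 64, nat_lit 19530006720)]⟩],
  [W_17332187264, W_17331925184, W_17315414144, W_17315152064, W_16291737728]⟩
theorem C_17382523074 : chkRec R_17382523074 = true := by decide +kernel

noncomputable def R_17382523137 : Rec := ⟨nat_lit 17382523137, nat_lit 17,
  [⟨V6_14144258304, [(nat_lit 53, nat_lit 17382523137), (nat_lit 83, nat_lit 18456264960), (nat_lit 71, nat_lit 18456002817), (nat_lit 55, nat_lit 18439487745), (nat_lit 85, nat_lit 19529744640), (nat_lit 122, nat_lit 19513229568), (nat_lit 3, nat_lit 19512967425), (nat_lit 126, nat_lit 20586709248)]⟩,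
   ⟨V6_14127481089, [(nat_lit 42, nat_lit 17382523137), (nat_lit 41, nat_lit 18456002817), (nat_lit 32, nat_lit 18439487745), (nat_lit 126, nat_lit 19512967425), (nat_lit 44, nat_lit 19496452353), (nat_lit 32, nat_lit 20569932033)]⟩,
   ⟨V6_13087555776, [(nat_lit 78, nat_lit 17382523137), (nat_lit 28, nat_lit 18456264960), (nat_lit 103, nat_lit 18456264897), (nat_lit 11, nat_lit 19530006720)]⟩],
  [W_17348706368, W_17315414144, W_15218262080]⟩
theorem C_17382523137 : chkRec R_17382523137 = true := by decide +kernel

noncomputable def R_17382527106 : Rec := ⟨nat_lit 17382527106, nat_lit 6,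
  [⟨V6_14161289346, [(nat_lit 34, nat_lit 17382527106), (nat_lit 103, nat_lit 18456264834), (nat_lit 18, nat_lit 19530002562), (nat_lit 100, nat_lit 20603740290)]⟩,
   ⟨V6_13087559808, [(nat_lit 119, nat_lit 17382527106), (nat_lit 12, nat_lit 18456268929), (nat_lit 68, nat_lit 19530010752)]⟩],
  [W_17332187264, W_17315414144]⟩
theorem C_17382527106 : chkRec R_17382527106 = true := by decide +kernel

noncomputable def R_17382527169 : Rec := ⟨nat_lit 17382527169, nat_lit 19,
  [⟨V6_14161293504, [(nat_lit 77, nat_lit 17382527169), (nat_lit 29, nat_lit 18456268992), (nat_lit 15, nat_lit 18456264897), (nat_lit 15, nat_lit 19530006720), (nat_lit 25, nat_lit 19530002625), (nat_lit 116, nat_lit 20603744448)]⟩,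
   ⟨V6_13087559808, [(nat_lit 74, nat_lit 17382527169), (nat_lit 37, nat_lit 18456268992), (nat_lit 4, nat_lit 18456268929), (nat_lit 34, nat_lit 19530010752)]⟩,
   ⟨V6_13087555776, [(nat_lit 87, nat_lit 17382527169), (nat_lit 102, nat_lit 18456268992), (nat_lit 17, nat_lit 18456264897), (nat_lit 20, nat_lit 19530006720)]⟩],
  [W_17315418176, W_17315414144, W_17298636992, W_16258453568, W_16241676416, W_15218262080]⟩
theorem C_17382527169 : chkRec R_17382527169 = true := by decide +kernel

noncomputable def R_17382527232 : Rec := ⟨nat_lit 17382527232, nat_lit 17,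
  [⟨V6_15235043328, [(nat_lit 76, nat_lit 17382527232), (nat_lit 41, nat_lit 18456268992), (nat_lit 44, nat_lit 19530010752), (nat_lit 31, nat_lit 20603752512), (nat_lit 122, nat_lit 21677494272)]⟩,
   ⟨V6_13087555776, [(nat_lit 16, nat_lit 17382527232), (nat_lit 84, nat_lit 18456268992), (nat_lit 111, nat_lit 18456264960), (nat_lit 15, nat_lit 19530006720)]⟩],
  [W_17332195328, W_17315418176, W_17298636992, W_15235039232, W_15167930624, W_13054001408]⟩
theorem C_17382527232 : chkRec R_17382527232 = true := by decide +kernel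

noncomputable def R_17382781122 : Rec := ⟨nat_lit 17382781122, nat_lit 10,
  [⟨V6_14161293504, [(nat_lit 57, nat_lit 17382781122), (nat_lit 96, nat_lit 18456522945), (nat_lit 33, nat_lit 18456260802), (nat_lit 93, nat_lit 19530264768), (nat_lit 30, nat_lit 19530002625), (nat_lit 90, nat_lit 20603744448)]⟩,
   ⟨V6_13087813824, [(nat_lit 76, nat_lit 17382781122), (nat_lit 13, nat_lit 18456522945), (nat_lit 116, nat_lit 19530264768)]⟩],
  [W_17348702336, W_17315672192, W_17298895040, W_16308252800]⟩
theorem C_17382781122 : chkRec R_17382781122 = true := by decide +kernel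

noncomputable def R_17382785154 : Rec := ⟨nat_lit 17382785154, nat_lit 30,
  [⟨V6_15235031169, [(nat_lit 96, nat_lit 17382785154), (nat_lit 63, nat_lit 18456526977), (nat_lit 124, nat_lit 18456522882), (nat_lit 31, nat_lit 18456264834), (nat_lit 36, nat_lit 19530264705), (nat_lit 61, nat_lit 19530260610), (nat_lit 23, nat_lit 19530006657), (nat_lit 51, nat_lit 19530002562), (nat_lit 2, nat_lit 20604002433), (nat_lit 42, nat_lit 20603744385), (nat_lit 3, nat_lit 20603740290), (nat_lit 42, nat_lit 21677482113)]⟩,
   ⟨V6_15234777216, [(nat_lit 72, nat_lit 17382785154), (nat_lit 94, nat_lit 18456526977), (nat_lit 106, nat_lit 18456264834), (nat_lit 124, nat_lit 19530268800), (nat_lit 30, nat_lit 19530006657), (nat_lit 11, nat_lit 19529744514), (nat_lit 55, nat_lit 20603748480), (nat_lit 59, nat_lit 20603486337), (nat_lit 65, nat_lit 21677228160)]⟩],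
  [W_17348960384, W_17332445312, W_17331929216, W_17315414144, W_17298899072, W_13087813760, W_13071040640]⟩
theorem C_17382785154 : chkRec R_17382785154 = true := by decide +kernel

noncomputable def R_17382785217 : Rec := ⟨nat_lit 17382785217, nat_lit 57,
  [⟨V6_17315152065, [(nat_lit 108, nat_lit 17382785217), (nat_lit 89, nat_lit 18456264897), (nat_lit 27, nat_lit 18439749825), (nat_lit 95, nat_lit 19529744577), (nat_lit 71, nat_lit 19513229505), (nat_lit 117, nat_lit 19496714433), (nat_lit 114, nat_lit 20586709185), (nat_lit 106, nat_lit 20570194113), (nat_lit 114, nat_lit 20553679041), (nat_lit 125, nat_lit 21643673793), (nat_lit 43, nat_lit 21627158721), (nat_lit 89, nat_lit 21610643649), (nat_lit 97, nat_lit 22700638401), (nat_lit 123, nat_lit 22684123329), (nat_lit 124, nat_lit 23757603009)]⟩,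
   ⟨V6_16291741761, [(nat_lit 72, nat_lit 17382785217), (nat_lit 82, nat_lit 18456526977), (nat_lit 14, nat_lit 18456264897), (nat_lit 55, nat_lit 18439749825), (nat_lit 89, nat_lit 19530268737), (nat_lit 61, nat_lit 19530006657), (nat_lit 8, nat_lit 19529744577), (nat_lit 24, nat_lit 19513491585), (nat_lit 118, nat_lit 19513229505), (nat_lit 45, nat_lit 20603748417), (nat_lit 65, nat_lit 20603486337), (nat_lit 22, nat_lit 20587233345), (nat_lit 19, nat_lit 20586971265), (nat_lit 114, nat_lit 20586709185), (nat_lit 83, nat_lit 21677228097), (nat_lit 105, nat_lit 21660713025), (nat_lit 113, nat_lit 21660450945), (nat_lit 18, nat_lit 22734192705)]⟩,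
   ⟨V6_16274960577, [(nat_lit 62, nat_lit 17382785217), (nat_lit 121, nat_lit 18456522945), (nat_lit 8, nat_lit 18456264897), (nat_lit 50, nat_lit 18439749825), (nat_lit 36, nat_lit 19530002625), (nat_lit 105, nat_lit 19529744577), (nat_lit 84, nat_lit 19513487553), (nat_lit 10, nat_lit 19513229505), (nat_lit 116, nat_lit 19496714433), (nat_lit 122, nat_lit 20603482305), (nat_lit 57, nat_lit 20586967233), (nat_lit 91, nat_lit 20586709185), (nat_lit 82, nat_lit 20570452161), (nat_lit 87, nat_lit 20570194113), (nat_lit 82, nat_lit 21660446913), (nat_lit 93, nat_lit 21643931841), (nat_lit 20, nat_lit 21643673793), (nat_lit 65, nat_lit 22717411521)]⟩,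
   ⟨V6_15234777216, [(nat_lit 86, nat_lit 17382785217), (nat_lit 72, nat_lit 18456527040), (nat_lit 112, nat_lit 18456526977), (nat_lit 7, nat_lit 18456264897), (nat_lit 73, nat_lit 19530268800), (nat_lit 3, nat_lit 19530006720), (nat_lit 41, nat_lit 19530006657), (nat_lit 114, nat_lit 19529744577), (nat_lit 81, nat_lit 20603748480), (nat_lit 34, nat_lit 20603486400), (nat_lit 99, nat_lit 20603486337), (nat_lit 14, nat_lit 21677228160)]⟩,
   ⟨V6_14161035456, [(nat_lit 118, nat_lit 17382785217), (nat_lit 10, nat_lit 18456527040), (nat_lit 36, nat_lit 18456264897), (nat_lit 40, nat_lit 19530006720), (nat_lit 19, nat_lit 19529744577), (nat_lit 68, nat_lit 20603486400)]⟩],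
  [W_17348706368, W_16308514880, W_15234777152, W_15201747008, W_14161555520, W_14144782400, W_13087817792, W_13087813760, W_13071040640]⟩
theorem C_17382785217 : chkRec R_17382785217 = true := by decide +kernel

noncomputable def R_17382785280 : Rec := ⟨nat_lit 17382785280, nat_lit 60,
  [⟨V6_17382260736, [(nat_lit 18, nat_lit 17382785280), (nat_lit 123, nat_lit 18456527040), (nat_lit 41, nat_lit 18456264960), (nat_lit 105, nat_lit 19530268800), (nat_lit 90, nat_lit 19530006720), (nat_lit 72, nat_lit 19529744640), (nat_lit 36, nat_lit 20604010560), (nat_lit 87, nat_lit 20603748480), (nat_lit 57, nat_lit 20603486400), (nat_lit 71, nat_lit 21677752320), (nat_lit 3, nat_lit 21677490240), (nat_lit 52, nat_lit 21677228160), (nat_lit 124, nat_lit 22751232000), (nat_lit 115, nat_lit 22750969920), (nat_lit 45, nat_lit 23824711680)]⟩,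
   ⟨V6_15234777216, [(nat_lit 109, nat_lit 17382785280), (nat_lit 97, nat_lit 18456527040), (nat_lit 22, nat_lit 18456264960), (nat_lit 71, nat_lit 19530268800), (nat_lit 25, nat_lit 19530006720), (nat_lit 37, nat_lit 19529744640), (nat_lit 98, nat_lit 20603748480), (nat_lit 74, nat_lit 20603486400), (nat_lit 50, nat_lit 21677228160)]⟩],
  [W_17298374912, W_17282121920, W_16208380160, W_15235039232, W_15218524160, W_15201747008, W_15151415552, W_14161559552, W_13087817792, W_13071040640]⟩
theorem C_17382785280 : chkRec R_17382785280 = true := by decide +kernel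

noncomputable def R_17382789249 : Rec := ⟨nat_lit 17382789249, nat_lit 66,
  [⟨V6_16291995777, [(nat_lit 84, nat_lit 17382789249), (nat_lit 13, nat_lit 18456526977), (nat_lit 4, nat_lit 18456268929), (nat_lit 84, nat_lit 18439753857), (nat_lit 117, nat_lit 19530264705), (nat_lit 23, nat_lit 19530006657), (nat_lit 110, nat_lit 19513491585), (nat_lit 57, nat_lit 19513233537), (nat_lit 38, nat_lit 20604002433), (nat_lit 90, nat_lit 20603744385), (nat_lit 111, nat_lit 20587229313), (nat_lit 33, nat_lit 20586971265), (nat_lit 67, nat_lit 21677482113), (nat_lit 63, nat_lit 21660967041), (nat_lit 20, nat_lit 21660708993), (nat_lit 43, nat_lit 22734446721)]⟩,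
   ⟨V6_15235293312, [(nat_lit 79, nat_lit 17382789249), (nat_lit 75, nat_lit 18456531072), (nat_lit 109, nat_lit 18456526977), (nat_lit 38, nat_lit 19530268800), (nat_lit 62, nat_lit 19530264705), (nat_lit 13, nat_lit 20604006528), (nat_lit 36, nat_lit 20604002433), (nat_lit 99, nat_lit 21677744256)]⟩,
   ⟨V6_15235031169, [(nat_lit 112, nat_lit 17382789249), (nat_lit 18, nat_lit 18456526977), (nat_lit 107, nat_lit 18456268929), (nat_lit 22, nat_lit 19530264705), (nat_lit 32, nat_lit 19530006657), (nat_lit 115, nat_lit 20604002433), (nat_lit 44, nat_lit 20603744385), (nat_lit 76, nat_lit 21677482113)]⟩],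
  [W_17315418176, W_17298903104, W_17298899072, W_17282125952, W_16258453568, W_15218262080, W_15201747008, W_15201488960, W_14161555520, W_14144782400, W_14144524352, W_14127747200, W_13071044672, W_13071040640, W_13054267520]⟩
theorem C_17382789249 : chkRec R_17382789249 = true := by decide +kernel

noncomputable def R_17382789312 : Rec := ⟨nat_lit 17382789312, nat_lit 98,
  [⟨V6_16308781056, [(nat_lit 39, nat_lit 17382789312), (nat_lit 80, nat_lit 18456531072), (nat_lit 17, nat_lit 18456527040), (nat_lit 124, nat_lit 18456268992), (nat_lit 109, nat_lit 19530272832), (nat_lit 49, nat_lit 19530268800), (nat_lit 75, nat_lit 19530010752), (nat_lit 122, nat_lit 19530006720), (nat_lit 77, nat_lit 20604014592), (nat_lit 100, nat_lit 20604010560), (nat_lit 28, nat_lit 20603752512), (nat_lit 93, nat_lit 20603748480), (nat_lit 33, nat_lit 21677752320), (nat_lit 50, nat_lit 21677494272), (nat_lit 56, nat_lit 21677490240), (nat_lit 83, nat_lit 22751232000)]⟩,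
   ⟨V6_16292007936, [(nat_lit 123, nat_lit 17382789312), (nat_lit 5, nat_lit 18456531072), (nat_lit 56, nat_lit 18456268992), (nat_lit 28, nat_lit 18439753920), (nat_lit 67, nat_lit 19530272832), (nat_lit 107, nat_lit 19530010752), (nat_lit 66, nat_lit 19513495680), (nat_lit 2, nat_lit 19513233600), (nat_lit 118, nat_lit 20604014592), (nat_lit 11, nat_lit 20603752512), (nat_lit 56, nat_lit 20587237440), (nat_lit 48, nat_lit 20586975360), (nat_lit 114, nat_lit 21677494272), (nat_lit 78, nat_lit 21660979200), (nat_lit 95, nat_lit 21660717120), (nat_lit 18, nat_lit 22734458880)]⟩,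
   ⟨V6_14161563648, [(nat_lit 10, nat_lit 17382789312), (nat_lit 19, nat_lit 18456531072), (nat_lit 112, nat_lit 19530272832), (nat_lit 4, nat_lit 20604014592)]⟩],
  [W_17332195328, W_17298895040, W_17282125952, W_17282121920, W_16275230720, W_15235297280, W_15235039232, W_15218524160, W_15218262080, W_15201747008, W_15184973888, W_15184969856, W_14144516288, W_14110970048, W_13071036608, W_13054263488]⟩
theorem C_17382789312 : chkRec R_17382789312 = true := by decide +kernel

noncomputable def R_17382793281 : Rec := ⟨nat_lit 17382793281, nat_lit 31,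
  [⟨V6_17365995585, [(nat_lit 88, nat_lit 17382793281), (nat_lit 87, nat_lit 18456531009), (nat_lit 29, nat_lit 18439757889), (nat_lit 104, nat_lit 19530268737), (nat_lit 94, nat_lit 19513495617), (nat_lit 71, nat_lit 20604006465), (nat_lit 91, nat_lit 20587233345), (nat_lit 117, nat_lit 21677744193), (nat_lit 48, nat_lit 21660971073), (nat_lit 57, nat_lit 22751481921), (nat_lit 54, nat_lit 22734708801), (nat_lit 100, nat_lit 23808446529)]⟩,
   ⟨V6_16225165377, [(nat_lit 90, nat_lit 17382793281), (nat_lit 81, nat_lit 18439757889), (nat_lit 102, nat_lit 19496722497), (nat_lit 114, nat_lit 20553687105), (nat_lit 125, nat_lit 21610651713), (nat_lit 107, nat_lit 22667616321)]⟩,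
   ⟨V6_13087821888, [(nat_lit 66, nat_lit 17382793281), (nat_lit 115, nat_lit 18456535104), (nat_lit 50, nat_lit 18456531009), (nat_lit 9, nat_lit 19530272832)]⟩],
  [W_17282129984, W_15201747008, W_15184973888, W_14161555520, W_14111236160]⟩
theorem C_17382793281 : chkRec R_17382793281 = true := by decide +kernel

noncomputable def R_17382793344 : Rec := ⟨nat_lit 17382793344, nat_lit 99,
  [⟨V6_17382776832, [(nat_lit 87, nat_lit 17382793344), (nat_lit 82, nat_lit 18456535104), (nat_lit 81, nat_lit 18456531072), (nat_lit 23, nat_lit 19530276864), (nat_lit 85, nat_lit 19530272832), (nat_lit 122, nat_lit 19530268800), (nat_lit 17, nat_lit 20604014592), (nat_lit 89, nat_lit 20604010560), (nat_lit 74, nat_lit 20604006528), (nat_lit 45, nat_lit 21677752320), (nat_lit 112, nat_lit 21677748288), (nat_lit 10, nat_lit 21677744256), (nat_lit 39, nat_lit 22751490048), (nat_lit 114, nat_lit 22751486016), (nat_lit 92, nat_lit 23825227776)]⟩,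
   ⟨V6_13087825920, [(nat_lit 57, nat_lit 17382793344), (nat_lit 43, nat_lit 18456535104), (nat_lit 95, nat_lit 19530276864)]⟩],
  [W_17298907136, W_17298903104, W_17298899072, W_17282129984, W_16225165376, W_16208388224, W_15218524160, W_15201747008, W_15184973888, W_15184969856, W_15168196736, W_15151423616, W_14144782400, W_14128013312, W_14111236160, W_14111232128, W_13071048704, W_13071040640, W_13054267520]⟩
theorem C_17382793344 : chkRec R_17382793344 = true := by decide +kernel

noncomputable def R_17383043202 : Rec := ⟨nat_lit 17383043202, nat_lit 23,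
  [⟨V6_17315930241, [(nat_lit 84, nat_lit 17383043202), (nat_lit 89, nat_lit 18456785025), (nat_lit 28, nat_lit 18456780930), (nat_lit 123, nat_lit 18440007810), (nat_lit 81, nat_lit 19530522753), (nat_lit 60, nat_lit 19513749633), (nat_lit 17, nat_lit 19513745538), (nat_lit 10, nat_lit 19496972418), (nat_lit 110, nat_lit 20587487361), (nat_lit 26, nat_lit 20570714241), (nat_lit 52, nat_lit 20570710146), (nat_lit 31, nat_lit 20553937026), (nat_lit 114, nat_lit 21644451969), (nat_lit 65, nat_lit 21627678849), (nat_lit 94, nat_lit 21627674754), (nat_lit 107, nat_lit 21610901634), (nat_lit 106, nat_lit 22701416577), (nat_lit 125, nat_lit 22684643457), (nat_lit 118, nat_lit 22684639362), (nat_lit 99, nat_lit 23758381185)]⟩,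
   ⟨V6_15235031169, [(nat_lit 2, nat_lit 17383043202), (nat_lit 69, nat_lit 18456785025), (nat_lit 45, nat_lit 18456780930), (nat_lit 15, nat_lit 18456522882), (nat_lit 40, nat_lit 19530522753), (nat_lit 54, nat_lit 19530264705), (nat_lit 42, nat_lit 19530260610), (nat_lit 42, nat_lit 19530002562), (nat_lit 5, nat_lit 20604002433), (nat_lit 21, nat_lit 20603744385), (nat_lit 34, nat_lit 20603740290), (nat_lit 35, nat_lit 21677482113)]⟩,
   ⟨V6_13088071809, [(nat_lit 106, nat_lit 17383043202), (nat_lit 74, nat_lit 18456785025), (nat_lit 87, nat_lit 18456780930), (nat_lit 86, nat_lit 19530522753)]⟩],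
  [W_17381990528, W_17365475456, W_17365217408, W_17348960384, W_17299157120, W_16308252800, W_13088071808, W_13087813760, W_13071298688]⟩
theorem C_17383043202 : chkRec R_17383043202 = true := by decide +kernel

noncomputable def R_17383043265 : Rec := ⟨nat_lit 17383043265, nat_lit 37,
  [⟨V6_17348702400, [(nat_lit 7, nat_lit 17383043265), (nat_lit 62, nat_lit 18456785088), (nat_lit 61, nat_lit 18456522945), (nat_lit 66, nat_lit 18440007873), (nat_lit 15, nat_lit 19530264768), (nat_lit 35, nat_lit 19530002625), (nat_lit 97, nat_lit 19513749696), (nat_lit 25, nat_lit 19513487553), (nat_lit 50, nat_lit 19496972481), (nat_lit 83, nat_lit 20603744448), (nat_lit 27, nat_lit 20603482305), (nat_lit 109, nat_lit 20587229376), (nat_lit 29, nat_lit 20586967233), (nat_lit 71, nat_lit 20570714304), (nat_lit 34, nat_lit 20570452161), (nat_lit 86, nat_lit 21677224128), (nat_lit 92, nat_lit 21660709056), (nat_lit 101, nat_lit 21660446913), (nat_lit 92, nat_lit 21644193984), (nat_lit 59, nat_lit 21643931841), (nat_lit 99, nat_lit 22734188736), (nat_lit 57,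 nat_lit 22717673664), (nat_lit 98, nat_lit 22717411521), (nat_lit 91, nat_lit 23791153344)]⟩,
   ⟨V6_17299157184, [(nat_lit 83, nat_lit 17383043265), (nat_lit 36, nat_lit 18456785088), (nat_lit 125, nat_lit 18440007873), (nat_lit 57, nat_lit 19513749696), (nat_lit 27, nat_lit 19496972481), (nat_lit 12, nat_lit 20570714304), (nat_lit 104, nat_lit 20553937089), (nat_lit 68, nat_lit 21627678912), (nat_lit 44, nat_lit 21610901697), (nat_lit 44, nat_lit 22684643520), (nat_lit 32, nat_lit 22667866305), (nat_lit 100, nat_lit 23741608128)]⟩,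
   ⟨V6_16274960577, [(nat_lit 89, nat_lit 17383043265), (nat_lit 21, nat_lit 18456522945), (nat_lit 76, nat_lit 18440007873), (nat_lit 85, nat_lit 19530002625), (nat_lit 33, nat_lit 19513487553), (nat_lit 11, nat_lit 19496972481), (nat_lit 9, nat_lit 20603482305), (nat_lit 12, nat_lit 20586967233), (nat_lit 62, nat_lit 20570452161), (nat_lit 57, nat_lit 21660446913), (nat_lit 73, nat_lit 21643931841), (nat_lit 12, nat_lit 22717411521)]⟩,
   ⟨V6_16225415361, [(nat_lit 3, nat_lit 17383043265), (nat_lit 117, nat_lit 18440007873), (nat_lit 105, nat_lit 19496972481), (nat_lit 80, nat_lit 20553937089), (nat_lit 110, nat_lit 21610901697), (nat_lit 84, nat_lit 22667866305)]⟩,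
   ⟨V6_15234773184, [(nat_lit 37, nat_lit 17383043265), (nat_lit 124, nat_lit 18456785088), (nat_lit 98, nat_lit 18456522945), (nat_lit 83, nat_lit 19530264768), (nat_lit 8, nat_lit 19530002625), (nat_lit 1, nat_lit 20603744448), (nat_lit 84, nat_lit 20603482305), (nat_lit 102, nat_lit 21677224128)]⟩,
   ⟨V6_13087813824, [(nat_lit 98, nat_lit 17383043265), (nat_lit 23, nat_lit 18456785088), (nat_lit 87, nat_lit 18456522945), (nat_lit 100, nat_lit 19530264768)]⟩],
  [W_17315934272, W_16308514880, W_16308252800, W_14161555520, W_14145040448, W_14111486144, W_13088075840]⟩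
theorem C_17383043265 : chkRec R_17383043265 = true := by decide +kernel

noncomputable def R_17383047297 : Rec := ⟨nat_lit 17383047297, nat_lit 99,
  [⟨V6_17365483584, [(nat_lit 10, nat_lit 17383047297), (nat_lit 77, nat_lit 18456789120), (nat_lit 39, nat_lit 18456789057), (nat_lit 26, nat_lit 18456526977), (nat_lit 41, nat_lit 18440011905), (nat_lit 121, nat_lit 19530530880), (nat_lit 43, nat_lit 19530268800), (nat_lit 67, nat_lit 19530268737), (nat_lit 100, nat_lit 19530006657), (nat_lit 77, nat_lit 19513753728), (nat_lit 113, nat_lit 19513753665), (nat_lit 114, nat_lit 19513491585), (nat_lit 24, nat_lit 20604010560), (nat_lit 30, nat_lit 20603748480), (nat_lit 92, nat_lit 20603748417), (nat_lit 108, nat_lit 20603486337), (nat_lit 62, nat_lit 20587495488), (nat_lit 66, nat_lit 20587233408), (nat_lit 71, nat_lit 20587233345), (nat_lit 113, nat_lit 20586971265), (nat_lit 113, nat_lit 21677490240), (nat_lit 68, nat_lit 21677228160), (nat_lit 40, nat_lit 21677228097), (nat_lit 86, nat_lit 21660975168), (nat_lit 95, nat_lit 21660713088), (nat_lit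 106, nat_lit 21660713025), (nat_lit 71, nat_lit 21660450945), (nat_lit 101, nat_lit 22750969920), (nat_lit 63, nat_lit 22734454848), (nat_lit 81, nat_lit 22734192768), (nat_lit 103, nat_lit 22734192705), (nat_lit 10, nat_lit 23807934528)]⟩,
   ⟨V6_16308518976, [(nat_lit 114, nat_lit 17383047297), (nat_lit 14, nat_lit 18456789120), (nat_lit 94, nat_lit 18456789057), (nat_lit 7, nat_lit 18456526977), (nat_lit 106, nat_lit 19530530880), (nat_lit 82, nat_lit 19530268800), (nat_lit 114, nat_lit 19530268737), (nat_lit 60, nat_lit 19530006657), (nat_lit 57, nat_lit 20604010560), (nat_lit 41, nat_lit 20603748480), (nat_lit 72, nat_lit 20603748417), (nat_lit 5, nat_lit 20603486337), (nat_lit 91, nat_lit 21677490240), (nat_lit 9, nat_lit 21677228160), (nat_lit 38, nat_lit 21677228097), (nat_lit 15, nat_lit 22750969920)]⟩,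
   ⟨V6_16291741824, [(nat_lit 13, nat_lit 17383047297), (nat_lit 67, nat_lit 18456789120), (nat_lit 24, nat_lit 18456526977), (nat_lit 20, nat_lit 18440011905), (nat_lit 93, nat_lit 19530268800), (nat_lit 113, nat_lit 19530006657), (nat_lit 28, nat_lit 19513753728), (nat_lit 31, nat_lit 19513491585), (nat_lit 86, nat_lit 20603748480), (nat_lit 4, nat_lit 20603486337), (nat_lit 123, nat_lit 20587233408), (nat_lit 36, nat_lit 20586971265), (nat_lit 49, nat_lit 21677228160), (nat_lit 62, nat_lit 21660713088), (nat_lit 101, nat_lit 21660450945), (nat_lit 71, nat_lit 22734192768)]⟩],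
  [W_17299161152, W_17299157120, W_16242196544, W_15202001024, W_15201747008, W_15185231936, W_15168454784, W_14161813568, W_14145036416, W_14144782400, W_14128267328, W_14128263296, W_14111490176, W_13088071808, W_13087817792, W_13071302720, W_13071298688, W_13071040640, W_13054525568]⟩
theorem C_17383047297 : chkRec R_17383047297 = true := by decide +kernel

noncomputable def R_17383047360 : Rec := ⟨nat_lit 17383047360, nat_lit 140,
  [⟨V6_17382260736, [(nat_lit 123, nat_lit 17383047360), (nat_lit 48, nat_lit 18456789120), (nat_lit 80, nat_lit 18456527040), (nat_lit 59, nat_lit 19530530880), (nat_lit 83, nat_lit 19530268800), (nat_lit 87, nat_lit 19530006720), (nat_lit 114, nat_lit 20604272640), (nat_lit 31, nat_lit 20604010560), (nat_lit 97, nat_lit 20603748480), (nat_lit 64, nat_lit 20603486400), (nat_lit 108, nat_lit 21677752320), (nat_lit 124, nat_lit 21677490240), (nat_lit 102, nat_lit 21677228160), (nat_lit 60, nat_lit 22751232000), (nat_lit 90, nat_lit 22750969920), (nat_lit 108, nat_lit 23824711680)]⟩,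
   ⟨V6_17365483584, [(nat_lit 105, nat_lit 17383047360), (nat_lit 119, nat_lit 18456789120), (nat_lit 39, nat_lit 18456527040), (nat_lit 85, nat_lit 18440011968), (nat_lit 15, nat_lit 19530530880), (nat_lit 7, nat_lit 19530268800), (nat_lit 33, nat_lit 19530006720), (nat_lit 105, nat_lit 19513753728), (nat_lit 5, nat_lit 19513491648), (nat_lit 63, nat_lit 20604010560), (nat_lit 31, nat_lit 20603748480), (nat_lit 62, nat_lit 20603486400), (nat_lit 50, nat_lit 20587495488), (nat_lit 96, nat_lit 20587233408), (nat_lit 9, nat_lit 20586971328), (nat_lit 62, nat_lit 21677490240), (nat_lit 67, nat_lit 21677228160), (nat_lit 89, nat_lit 21660975168), (nat_lit 53, nat_lit 21660713088), (nat_lit 87, nat_lit 21660451008), (nat_lit 2, nat_lit 22750969920), (nat_lit 90, nat_lit 22734454848), (nat_lit 78, nat_lit 22734192768), (nat_lit 120, nat_lit 23807934528)]⟩,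
   ⟨V6_17331929280, [(nat_lit 87, nat_lit 17383047360), (nat_lit 55, nat_lit 18456527040), (nat_lit 23, nat_lit 18440011968), (nat_lit 31, nat_lit 19530006720), (nat_lit 60, nat_lit 19513491648), (nat_lit 12, nat_lit 19496976576), (nat_lit 73, nat_lit 20603486400), (nat_lit 124, nat_lit 20586971328), (nat_lit 5, nat_lit 20570456256), (nat_lit 105, nat_lit 20553941184), (nat_lit 89, nat_lit 21660451008), (nat_lit 7, nat_lit 21643935936), (nat_lit 89, nat_lit 21627420864), (nat_lit 57, nat_lit 22717415616), (nat_lit 61, nat_lit 22700900544), (nat_lit 62, nat_lit 23774380224)]⟩,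
   ⟨V6_16308518976, [(nat_lit 94, nat_lit 17383047360), (nat_lit 114, nat_lit 18456789120), (nat_lit 110, nat_lit 18456527040), (nat_lit 116, nat_lit 19530530880), (nat_lit 99, nat_lit 19530268800), (nat_lit 26, nat_lit 19530006720), (nat_lit 102, nat_lit 20604010560), (nat_lit 72, nat_lit 20603748480), (nat_lit 7, nat_lit 20603486400), (nat_lit 105, nat_lit 21677490240), (nat_lit 7, nat_lit 21677228160), (nat_lit 77, nat_lit 22750969920)]⟩,
   ⟨V6_16274964672, [(nat_lit 109, nat_lit 17383047360), (nat_lit 30, nat_lit 18456527040), (nat_lit 36, nat_lit 18440011968), (nat_lit 67, nat_lit 19530006720), (nat_lit 29, nat_lit 19513491648), (nat_lit 52, nat_lit 19496976576), (nat_lit 31, nat_lit 20603486400), (nat_lit 126, nat_lit 20586971328), (nat_lit 16, nat_lit 20570456256), (nat_lit 27, nat_lit 21660451008), (nat_lit 68, nat_lit 21643935936), (nat_lit 126, nat_lit 22717415616)]⟩],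
  [W_17382256640, W_17315938304, W_15235297280, W_15218524160, W_15202009088, W_14161817600, W_14161559552, W_14145044480, W_14128267328, W_14128263296, W_13087817792, W_13071302720, W_13071298688, W_13054525568]⟩
theorem C_17383047360 : chkRec R_17383047360 = true := by decide +kernel

noncomputable def R_17383051329 : Rec := ⟨nat_lit 17383051329, nat_lit 73,
  [⟨V6_17382510657, [(nat_lit 72, nat_lit 17383051329), (nat_lit 12, nat_lit 18456789057), (nat_lit 73, nat_lit 18456531009), (nat_lit 63, nat_lit 19530526785), (nat_lit 101, nat_lit 19530268737), (nat_lit 65, nat_lit 19530010689), (nat_lit 48, nat_lit 20604264513), (nat_lit 83, nat_lit 20604006465), (nat_lit 48, nat_lit 20603748417), (nat_lit 63, nat_lit 21678002241), (nat_lit 82, nat_lit 21677744193), (nat_lit 23, nat_lit 21677486145), (nat_lit 98, nat_lit 22751481921), (nat_lit 2, nat_lit 22751223873), (nat_lit 106, nat_lit 23824961601)]⟩,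
   ⟨V6_17299165248, [(nat_lit 45, nat_lit 17383051329), (nat_lit 44, nat_lit 18456793152), (nat_lit 54, nat_lit 18440015937), (nat_lit 112, nat_lit 19513757760), (nat_lit 33, nat_lit 19496980545), (nat_lit 57, nat_lit 20570722368), (nat_lit 113, nat_lit 20553945153), (nat_lit 69, nat_lit 21627686976), (nat_lit 82, nat_lit 21610909761), (nat_lit 82, nat_lit 22684651584), (nat_lit 25, nat_lit 22667874369), (nat_lit 94, nat_lit 23741616192)]⟩,
   ⟨V6_17299161153, [(nat_lit 126, nat_lit 17383051329), (nat_lit 7, nat_lit 18456789057), (nat_lit 94, nat_lit 18440015937), (nat_lit 118, nat_lit 19513753665), (nat_lit 109, nat_lit 19496980545), (nat_lit 28, nat_lit 20570718273), (nat_lit 18, nat_lit 20553945153), (nat_lit 109, nat_lit 21627682881), (nat_lit 33, nat_lit 21610909761), (nat_lit 35, nat_lit 22684647489), (nat_lit 1, nat_lit 22667874369), (nat_lit 8, nat_lit 23741612097)]⟩,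
   ⟨V6_16309293120, [(nat_lit 44, nat_lit 17383051329), (nat_lit 21, nat_lit 18456793152), (nat_lit 45, nat_lit 18456789057), (nat_lit 126, nat_lit 19530530880), (nat_lit 72, nat_lit 19530526785), (nat_lit 83, nat_lit 20604268608), (nat_lit 89, nat_lit 20604264513), (nat_lit 37, nat_lit 21678006336), (nat_lit 63, nat_lit 21678002241), (nat_lit 30, nat_lit 22751744064)]⟩,
   ⟨V6_16225423425, [(nat_lit 20, nat_lit 17383051329), (nat_lit 18, nat_lit 18440015937), (nat_lit 65, nat_lit 19496980545), (nat_lit 110, nat_lit 20553945153), (nat_lit 56, nat_lit 21610909761), (nat_lit 52, nat_lit 22667874369)]⟩],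
  [W_15235035200, W_15218262080, W_15201747008, W_14161813568, W_14161555520, W_14161297472, W_14144782400, W_14144524352, W_13088075840, W_13087817792, W_13071302720, W_13071044672, W_13054529600]⟩
theorem C_17383051329 : chkRec R_17383051329 = true := by decide +kernel

noncomputable def R_17383051392 : Rec := ⟨nat_lit 17383051392, nat_lit 189,
  [⟨V6_17382776832, [(nat_lit 91, nat_lit 17383051392), (nat_lit 70, nat_lit 18456793152), (nat_lit 50, nat_lit 18456789120), (nat_lit 103, nat_lit 18456531072), (nat_lit 9, nat_lit 19530534912), (nat_lit 28, nat_lit 19530530880), (nat_lit 120, nat_lit 19530526848), (nat_lit 30, nat_lit 19530272832), (nat_lit 101, nat_lit 19530268800), (nat_lit 99, nat_lit 20604272640), (nat_lit 101, nat_lit 20604268608), (nat_lit 7, nat_lit 20604264576), (nat_lit 105, nat_lit 20604014592), (nat_lit 77, nat_lit 20604010560), (nat_lit 96, nat_lit 20604006528), (nat_lit 87, nat_lit 21678010368), (nat_lit 77, nat_lit 21678006336), (nat_lit 77, nat_lit 21677752320), (nat_lit 110, nat_lit 21677748288), (nat_lit 27, nat_lit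 21677744256), (nat_lit 60, nat_lit 22751748096), (nat_lit 75, nat_lit 22751490048), (nat_lit 73, nat_lit 22751486016), (nat_lit 113, nat_lit 23825227776)]⟩,
   ⟨V6_17366261760, [(nat_lit 113, nat_lit 17383051392), (nat_lit 38, nat_lit 18456793152), (nat_lit 120, nat_lit 18456789120), (nat_lit 44, nat_lit 18440016000), (nat_lit 4, nat_lit 19530534912), (nat_lit 88, nat_lit 19530530880), (nat_lit 117, nat_lit 19530526848), (nat_lit 79, nat_lit 19513757760), (nat_lit 108, nat_lit 19513753728), (nat_lit 101, nat_lit 20604272640), (nat_lit 87, nat_lit 20604268608), (nat_lit 46, nat_lit 20604264576), (nat_lit 103, nat_lit 20587499520), (nat_lit 96, nat_lit 20587495488), (nat_lit 14, nat_lit 20587491456), (nat_lit 28, nat_lit 21678010368), (nat_lit 76, nat_lit 21678006336), (nat_lit 50, nat_lit 21661237248), (nat_lit 14, nat_lit 21661233216), (nat_lit 21, nat_lit 21661229184), (nat_lit 10, nat_lit 22751748096), (nat_lit 36, nat_lit 22734974976), (nat_lit 28, nat_lit 22734970944), (nat_lit 81, nat_lit 23808712704)]⟩,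
   ⟨V6_16309297152, [(nat_lit 77, nat_lit 17383051392), (nat_lit 9, nat_lit 18456793152), (nat_lit 68, nat_lit 18456789120), (nat_lit 6, nat_lit 19530534912), (nat_lit 54, nat_lit 19530530880), (nat_lit 49, nat_lit 19530526848), (nat_lit 101, nat_lit 20604272640), (nat_lit 90, nat_lit 20604268608), (nat_lit 16, nat_lit 20604264576), (nat_lit 109, nat_lit 21678010368), (nat_lit 34, nat_lit 21678006336), (nat_lit 113, nat_lit 22751748096)]⟩],
  [W_17315938304, W_17298903104, W_16242196544, W_16242192512, W_16241676416, W_16225423424, W_15235039232, W_15218524160, W_15218262080, W_15202009088, W_15201747008, W_15185231936, W_15168458816, W_15168454784, W_15168196736, W_14161559552, W_14144782400, W_14144524352, W_14128267328, W_14128263296, W_14111494208, W_14111232128, W_14094717056, W_13087817792, W_13071306752, W_13071044672, W_13070782592, W_13054267520, W_13037752448]⟩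
theorem C_17383051392 : chkRec R_17383051392 = true := by decide +kernel

noncomputable def R_17383055424 : Rec := ⟨nat_lit 17383055424, nat_lit 155,
  [⟨V6_17383034880, [(nat_lit 108, nat_lit 17383055424), (nat_lit 21, nat_lit 18456797184), (nat_lit 50, nat_lit 18456793152), (nat_lit 10, nat_lit 19530534912), (nat_lit 15, nat_lit 19530530880), (nat_lit 19, nat_lit 20604272640), (nat_lit 36, nat_lit 20604268608), (nat_lit 8, nat_lit 21678010368), (nat_lit 82, nat_lit 21678006336), (nat_lit 84, nat_lit 22751748096), (nat_lit 108, nat_lit 22751744064), (nat_lit 36, nat_lit 23825485824)]⟩,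
   ⟨V6_17315684352, [(nat_lit 79, nat_lit 17383055424), (nat_lit 92, nat_lit 18456797184), (nat_lit 80, nat_lit 18456535104), (nat_lit 73, nat_lit 18440020032), (nat_lit 111, nat_lit 19530276864), (nat_lit 63, nat_lit 19513761792), (nat_lit 20, nat_lit 19513499712), (nat_lit 78, nat_lit 19496984640), (nat_lit 108, nat_lit 20587241472), (nat_lit 9, nat_lit 20570726400), (nat_lit 24, nat_lit 20570464320), (nat_lit 72, nat_lit 20553949248), (nat_lit 7, nat_lit 21644206080), (nat_lit 65, nat_lit 21627691008), (nat_lit 8, nat_lit 21627428928), (nat_lit 46, nat_lit 21610913856), (nat_lit 21, nat_lit 22701170688), (nat_lit 87, nat_lit 22684655616), (nat_lit 101, nat_lit 22684393536), (nat_lit 5, nat_lit 23758135296)]⟩,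
   ⟨V6_16309297152, [(nat_lit 94, nat_lit 17383055424), (nat_lit 48, nat_lit 18456797184), (nat_lit 5, nat_lit 18456793152), (nat_lit 42, nat_lit 19530534912), (nat_lit 43, nat_lit 19530530880), (nat_lit 27, nat_lit 20604272640), (nat_lit 93, nat_lit 20604268608), (nat_lit 106, nat_lit 21678010368), (nat_lit 10, nat_lit 21678006336), (nat_lit 105, nat_lit 22751748096)]⟩],
  [W_17315938304, W_17315934272, W_16242196544, W_16225423424, W_15235297280, W_15218524160, W_15202009088, W_15201747008, W_15185231936, W_14161817600, W_14161813568, W_14161559552, W_14161555520, W_14128013312, W_13087821824, W_13087817792, W_13071048704]⟩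
theorem C_17383055424 : chkRec R_17383055424 = true := by decide +kernel

noncomputable def R_17383059456 : Rec := ⟨nat_lit 17383059456, nat_lit 45,
  [⟨V6_17383034880, [(nat_lit 103, nat_lit 17383059456), (nat_lit 45, nat_lit 18456797184), (nat_lit 18, nat_lit 19530534912), (nat_lit 3, nat_lit 20604272640), (nat_lit 111, nat_lit 21678010368), (nat_lit 12, nat_lit 22751748096), (nat_lit 111, nat_lit 23825485824)]⟩,
   ⟨V6_13088083968, [(nat_lit 22, nat_lit 17383059456), (nat_lit 12, nat_lit 18456797184), (nat_lit 105, nat_lit 19530534912)]⟩],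
  [W_17315938304, W_17299165184, W_15202009088, W_15168462848, W_14145044480]⟩
theorem C_17383059456 : chkRec R_17383059456 = true := by decide +kernel

noncomputable def R_17383301250 : Rec := ⟨nat_lit 17383301250, nat_lit 15,
  [⟨V6_13088333952, [(nat_lit 105, nat_lit 17383301250), (nat_lit 33, nat_lit 18457043073), (nat_lit 60, nat_lit 19530784896)]⟩],
  [W_17381990528, W_17365475456, W_17348960384, W_16308510848]⟩
theorem C_17383301250 : chkRec R_17383301250 = true := by decide +kernel

noncomputable def R_17383305345 : Rec := ⟨nat_lit 17383305345, nat_lit 80,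
  [⟨V6_17316192384, [(nat_lit 19, nat_lit 17383305345), (nat_lit 111, nat_lit 18457047168), (nat_lit 125, nat_lit 18457043073), (nat_lit 61, nat_lit 18440269953), (nat_lit 37, nat_lit 19530784896), (nat_lit 31, nat_lit 19514011776), (nat_lit 5, nat_lit 19514007681), (nat_lit 8, nat_lit 19497234561), (nat_lit 27, nat_lit 20587749504), (nat_lit 113, nat_lit 20570976384), (nat_lit 39, nat_lit 20570972289), (nat_lit 23, nat_lit 20554199169), (nat_lit 105, nat_lit 21644714112), (nat_lit 109, nat_lit 21627940992), (nat_lit 28, nat_lit 21627936897), (nat_lit 7, nat_lit 21611163777), (nat_lit 97, nat_lit 22701678720), (nat_lit 28, nat_lit 22684905600), (nat_lit 124, nat_lit 22684901505), (nat_lit 38, nat_lit 23758643328)]⟩,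
   ⟨V6_16276004928, [(nat_lit 115, nat_lit 17383305345), (nat_lit 38, nat_lit 18457047168), (nat_lit 68, nat_lit 18457047105), (nat_lit 3, nat_lit 18457043073), (nat_lit 103, nat_lit 18440269953), (nat_lit 108, nat_lit 19530788928), (nat_lit 83, nat_lit 19530784896), (nat_lit 62, nat_lit 19530784833), (nat_lit 65, nat_lit 19514011776), (nat_lit 34, nat_lit 19514011713), (nat_lit 114, nat_lit 19514007681), (nat_lit 9, nat_lit 19497234561), (nat_lit 114, nat_lit 20604526656), (nat_lit 103, nat_lit 20587753536), (nat_lit 94, nat_lit 20587749504), (nat_lit 81, nat_lit 20587749441), (nat_lit 39, nat_lit 20570976384), (nat_lit 44, nat_lit 20570976321), (nat_lit 3, nat_lit 20570972289), (nat_lit 69, nat_lit 21661491264), (nat_lit 99, nat_lit 21644718144), (nat_lit 107, nat_lit 21644714112), (nat_lit 76, nat_lit 21644714049), (nat_lit 30, nat_lit 22718455872)]⟩],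
  [W_17381994560, W_17381990528, W_17365475456, W_17365217408, W_17316192320, W_17315934272, W_16308514880, W_16308252800, W_16242454592, W_16242450560, W_15202001024, W_15185489984, W_14161813568, W_14161555520, W_13088075840, W_13088071808, W_13087813760, W_13071560768]⟩
theorem C_17383305345 : chkRec R_17383305345 = true := by decide +kernel

noncomputable def R_17383305408 : Rec := ⟨nat_lit 17383305408, nat_lit 79,
  [⟨V6_17366003712, [(nat_lit 22, nat_lit 17383305408), (nat_lit 126, nat_lit 18457047168), (nat_lit 45, nat_lit 18456785088), (nat_lit 42, nat_lit 18440270016), (nat_lit 122, nat_lit 19530788928), (nat_lit 56, nat_lit 19530526848), (nat_lit 2, nat_lit 19530264768), (nat_lit 29, nat_lit 19514011776), (nat_lit 13, nat_lit 19513749696), (nat_lit 57, nat_lit 20604530688), (nat_lit 101, nat_lit 20604268608), (nat_lit 94, nat_lit 20604006528), (nat_lit 68, nat_lit 20587753536), (nat_lit 44, nat_lit 20587491456), (nat_lit 108, nat_lit 20587229376), (nat_lit 95, nat_lit 21678010368), (nat_lit 97, nat_lit 21677748288), (nat_lit 77, nat_lit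 21661495296), (nat_lit 72, nat_lit 21661233216), (nat_lit 91, nat_lit 21660971136), (nat_lit 76, nat_lit 22751490048), (nat_lit 79, nat_lit 22734974976), (nat_lit 38, nat_lit 22734712896), (nat_lit 110, nat_lit 23808454656)]⟩],
  [W_17382256640, W_17316196352, W_16308514880, W_16242454592, W_15235297280, W_15185489984, W_15168712832, W_14161817600, W_14144516288, W_13088337920, W_13071298688]⟩
theorem C_17383305408 : chkRec R_17383305408 = true := by decide +kernel

noncomputable def R_17383309377 : Rec := ⟨nat_lit 17383309377, nat_lit 83,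
  [⟨V6_17348706369, [(nat_lit 86, nat_lit 17383309377), (nat_lit 101, nat_lit 18456789057), (nat_lit 123, nat_lit 18440273985), (nat_lit 45, nat_lit 19530268737), (nat_lit 113, nat_lit 19513753665), (nat_lit 76, nat_lit 19497238593), (nat_lit 50, nat_lit 20603748417), (nat_lit 64, nat_lit 20587233345), (nat_lit 89, nat_lit 20570718273), (nat_lit 65, nat_lit 21677228097), (nat_lit 82, nat_lit 21660713025), (nat_lit 60, nat_lit 21644197953), (nat_lit 122, nat_lit 22734192705), (nat_lit 70, nat_lit 22717677633), (nat_lit 5, nat_lit 23791157313)]⟩,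
   ⟨V6_17332965441, [(nat_lit 119, nat_lit 17383309377), (nat_lit 111, nat_lit 18457047105), (nat_lit 26, nat_lit 18440273985), (nat_lit 68, nat_lit 19530784833), (nat_lit 32, nat_lit 19514011713), (nat_lit 61, nat_lit 19497238593), (nat_lit 118, nat_lit 20604522561), (nat_lit 83, nat_lit 20587749441), (nat_lit 119, nat_lit 20570976321), (nat_lit 86, nat_lit 20554203201), (nat_lit 30, nat_lit 21661487169), (nat_lit 124, nat_lit 21644714049), (nat_lit 55, nat_lit 21627940929), (nat_lit 10, nat_lit 22718451777), (nat_lit 6, nat_lit 22701678657), (nat_lit 17, nat_lit 23775416385)]⟩,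
   ⟨V6_16308518976, [(nat_lit 67, nat_lit 17383309377), (nat_lit 87, nat_lit 18457051200), (nat_lit 89, nat_lit 18456789057), (nat_lit 30, nat_lit 19530530880), (nat_lit 81, nat_lit 19530268737), (nat_lit 61, nat_lit 20604010560), (nat_lit 122, nat_lit 20603748417), (nat_lit 90, nat_lit 21677490240), (nat_lit 9, nat_lit 21677228097), (nat_lit 41, nat_lit 22750969920)]⟩,
   ⟨V6_16291741761, [(nat_lit 63, nat_lit 17383309377), (nat_lit 126, nat_lit 18456789057), (nat_lit 26, nat_lit 18440273985), (nat_lit 91, nat_lit 19530268737), (nat_lit 33, nat_lit 19513753665), (nat_lit 83, nat_lit 20603748417), (nat_lit 10, nat_lit 20587233345), (nat_lit 40, nat_lit 21677228097), (nat_lit 26, nat_lit 21660713025), (nat_lit 116, nat_lit 22734192705)]⟩,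
   ⟨V6_15235813440, [(nat_lit 13, nat_lit 17383309377), (nat_lit 79, nat_lit 18457051200), (nat_lit 35, nat_lit 18457047105), (nat_lit 51, nat_lit 19530788928), (nat_lit 20, nat_lit 19530784833), (nat_lit 71, nat_lit 20604526656), (nat_lit 2, nat_lit 20604522561), (nat_lit 108, nat_lit 21678264384)]⟩],
  [W_17332965440, W_17316192320, W_17315934272, W_16242454592, W_16242196544, W_15201747008, W_15168716864, W_14128525376, W_14128267328, W_13088333888, W_13087817792, W_13071560768, W_13054787648]⟩
theorem C_17383309377 : chkRec R_17383309377 = true := by decide +kernel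

noncomputable def R_17383309440 : Rec := ⟨nat_lit 17383309440, nat_lit 239,
  [⟨V6_17382776832, [(nat_lit 21, nat_lit 17383309440), (nat_lit 97, nat_lit 18457051200), (nat_lit 40, nat_lit 18457047168), (nat_lit 14, nat_lit 18456789120), (nat_lit 32, nat_lit 19530792960), (nat_lit 99, nat_lit 19530788928), (nat_lit 77, nat_lit 19530784896), (nat_lit 20, nat_lit 19530530880), (nat_lit 56, nat_lit 19530526848), (nat_lit 67, nat_lit 19530268800), (nat_lit 55, nat_lit 20604530688), (nat_lit 89, nat_lit 20604526656), (nat_lit 80, nat_lit 20604272640), (nat_lit 90, nat_lit 20604268608), (nat_lit 55, nat_lit 20604264576), (nat_lit 103, nat_lit 20604010560), (nat_lit 125, nat_lit 20604006528), (nat_lit 8, nat_lit 21678268416), (nat_lit 3, nat_lit 21678010368), (nat_lit 9, nat_lit 21678006336), (nat_lit 96, nat_lit 21677752320), (nat_lit 88, nat_lit 21677748288), (nat_lit 107, nat_lit 21677744256), (nat_lit 94, nat_lit 22751748096), (nat_lit 14, nat_lit 22751490048), (nat_lit 115, nat_lit 22751486016), (nat_lit 83, nat_lit 23825227776)]⟩,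
   ⟨V6_17382260736, [(nat_lit 108, nat_lit 17383309440), (nat_lit 18, nat_lit 18457051200), (nat_lit 121, nat_lit 18456789120), (nat_lit 27, nat_lit 19530792960), (nat_lit 1, nat_lit 19530530880), (nat_lit 124, nat_lit 19530268800), (nat_lit 42, nat_lit 20604272640), (nat_lit 23, nat_lit 20604010560), (nat_lit 22, nat_lit 20603748480), (nat_lit 50, nat_lit 21677752320), (nat_lit 66, nat_lit 21677490240), (nat_lit 50, nat_lit 21677228160), (nat_lit 123, nat_lit 22751232000), (nat_lit 61, nat_lit 22750969920), (nat_lit 15, nat_lit 23824711680)]⟩,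
   ⟨V6_17365483584, [(nat_lit 102, nat_lit 17383309440), (nat_lit 86, nat_lit 18457051200), (nat_lit 1, nat_lit 18456789120), (nat_lit 99, nat_lit 18440274048), (nat_lit 39, nat_lit 19530530880), (nat_lit 38, nat_lit 19530268800), (nat_lit 19, nat_lit 19514015808), (nat_lit 107, nat_lit 19513753728), (nat_lit 100, nat_lit 20604010560), (nat_lit 45, nat_lit 20603748480), (nat_lit 59, nat_lit 20587495488), (nat_lit 71, nat_lit 20587233408), (nat_lit 33, nat_lit 21677490240), (nat_lit 120, nat_lit 21677228160), (nat_lit 30, nat_lit 21660975168), (nat_lit 71, nat_lit 21660713088), (nat_lit 7, nat_lit 22750969920), (nat_lit 49, nat_lit 22734454848), (nat_lit 107, nat_lit 22734192768), (nat_lit 5, nat_lit 23807934528)]⟩,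
   ⟨V6_16308518976, [(nat_lit 105, nat_lit 17383309440), (nat_lit 70, nat_lit 18457051200), (nat_lit 81, nat_lit 18456789120), (nat_lit 73, nat_lit 19530530880), (nat_lit 102, nat_lit 19530268800), (nat_lit 47, nat_lit 20604010560), (nat_lit 125, nat_lit 20603748480), (nat_lit 103, nat_lit 21677490240), (nat_lit 113, nat_lit 21677228160), (nat_lit 79, nat_lit 22750969920)]⟩,
   ⟨V6_16291741824, [(nat_lit 26, nat_lit 17383309440), (nat_lit 52, nat_lit 18456789120), (nat_lit 45, nat_lit 18440274048), (nat_lit 94, nat_lit 19530268800), (nat_lit 62, nat_lit 19513753728), (nat_lit 2, nat_lit 20603748480), (nat_lit 115, nat_lit 20587233408), (nat_lit 79, nat_lit 21677228160), (nat_lit 45, nat_lit 21660713088), (nat_lit 64, nat_lit 22734192768)]⟩],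
  [W_17316196352, W_17316192320, W_17315938304, W_16242458624, W_16242454592, W_16242450560, W_16242196544, W_15235297280, W_15235039232, W_15218524160, W_15202009088, W_15202001024, W_15185494016, W_15185231936, W_15168716864, W_15168712832, W_15168454784, W_14161817600, W_14145044480, W_14145036416, W_14128529408, W_14128267328, W_14094975104, W_13088079872, W_13088071808, W_13087817792, W_13071564800, W_13071556736, W_13071302720, W_13054783616, W_13038010496]⟩
theorem C_17383309440 : chkRec R_17383309440 = true := by decide +kernel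

noncomputable def R_17383313472 : Rec := ⟨nat_lit 17383313472, nat_lit 234,
  [⟨V6_17383034880, [(nat_lit 62, nat_lit 17383313472), (nat_lit 90, nat_lit 18457055232), (nat_lit 66, nat_lit 18457051200), (nat_lit 80, nat_lit 18456793152), (nat_lit 66, nat_lit 19530792960), (nat_lit 58, nat_lit 19530788928), (nat_lit 93, nat_lit 19530534912), (nat_lit 13, nat_lit 19530530880), (nat_lit 28, nat_lit 20604530688), (nat_lit 117, nat_lit 20604526656), (nat_lit 110, nat_lit 20604272640), (nat_lit 39, nat_lit 20604268608), (nat_lit 115, nat_lit 21678268416), (nat_lit 62, nat_lit 21678264384), (nat_lit 98, nat_lit 21678010368), (nat_lit 35, nat_lit 21678006336), (nat_lit 23, nat_lit 22752006144), (nat_lit 33, nat_lit 22751748096), (nat_lit 51, nat_lit 22751744064), (nat_lit 75, nat_lit 23825485824)]⟩,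
   ⟨V6_17382776832, [(nat_lit 84, nat_lit 17383313472), (nat_lit 70, nat_lit 18457055232), (nat_lit 57, nat_lit 18457051200), (nat_lit 34, nat_lit 18456793152), (nat_lit 68, nat_lit 19530792960), (nat_lit 77, nat_lit 19530788928), (nat_lit 116, nat_lit 19530534912), (nat_lit 125, nat_lit 19530530880), (nat_lit 84, nat_lit 19530272832), (nat_lit 76, nat_lit 20604530688), (nat_lit 56, nat_lit 20604526656), (nat_lit 29, nat_lit 20604272640), (nat_lit 124, nat_lit 20604268608), (nat_lit 72, nat_lit 20604014592), (nat_lit 43, nat_lit 20604010560), (nat_lit 16, nat_lit 21678268416), (nat_lit 21, nat_lit 21678010368), (nat_lit 38, nat_lit 21678006336), (nat_lit 52, nat_lit 21677752320), (nat_lit 18, nat_lit 21677748288), (nat_lit 50, nat_lit 22751748096), (nat_lit 126, nat_lit 22751490048), (nat_lit 80, nat_lit 22751486016), (nat_lit 122, nat_lit 23825227776)]⟩,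
   ⟨V6_17366519808, [(nat_lit 15, nat_lit 17383313472), (nat_lit 35, nat_lit 18457055232), (nat_lit 8, nat_lit 18457051200), (nat_lit 88, nat_lit 18440278080), (nat_lit 90, nat_lit 19530792960), (nat_lit 31, nat_lit 19530788928), (nat_lit 44, nat_lit 19514019840), (nat_lit 78, nat_lit 19514015808), (nat_lit 118, nat_lit 20604530688), (nat_lit 30, nat_lit 20604526656), (nat_lit 120, nat_lit 20587757568), (nat_lit 59, nat_lit 20587753536), (nat_lit 24, nat_lit 21678268416), (nat_lit 108, nat_lit 21678264384), (nat_lit 61, nat_lit 21661495296), (nat_lit 118, nat_lit 21661491264), (nat_lit 39, nat_lit 22752006144), (nat_lit 42, nat_lit 22735233024), (nat_lit 64, nat_lit 22735228992), (nat_lit 11, nat_lit 23808970752)]⟩,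
   ⟨V6_17349742656, [(nat_lit 105, nat_lit 17383313472), (nat_lit 62, nat_lit 18457051200), (nat_lit 100, nat_lit 18440278080), (nat_lit 89, nat_lit 19530788928), (nat_lit 87, nat_lit 19514015808), (nat_lit 99, nat_lit 19497242688), (nat_lit 10, nat_lit 20604526656), (nat_lit 57, nat_lit 20587753536), (nat_lit 65, nat_lit 20570980416), (nat_lit 68, nat_lit 21678264384), (nat_lit 96, nat_lit 21661491264), (nat_lit 10, nat_lit 21644718144), (nat_lit 84, nat_lit 22735228992), (nat_lit 106, nat_lit 22718455872), (nat_lit 16, nat_lit 23792193600)]⟩,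
   ⟨V6_15235813440, [(nat_lit 34, nat_lit 17383313472), (nat_lit 69, nat_lit 18457051200), (nat_lit 31, nat_lit 19530788928), (nat_lit 105, nat_lit 20604526656), (nat_lit 121, nat_lit 21678264384)]⟩],
  [W_17316196352, W_17316192320, W_17315938304, W_16242458624, W_16242454592, W_16242196544, W_15235039232, W_15218524160, W_15218262080, W_15202009088, W_15201747008, W_15201488960, W_15185494016, W_15185231936, W_15168716864, W_15168458816, W_14161297472, W_14145044480, W_14144782400, W_14144524352, W_14128529408, W_14128267328, W_14111494208, W_14094979136, W_13088079872, W_13087817792, W_13071564800, W_13071306752, W_13071044672, W_13054529600]⟩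
theorem C_17383313472 : chkRec R_17383313472 = true := by decide +kernel

noncomputable def R_17383317504 : Rec := ⟨nat_lit 17383317504, nat_lit 150,
  [⟨V6_17383034880, [(nat_lit 121, nat_lit 17383317504), (nat_lit 73, nat_lit 18457055232), (nat_lit 3, nat_lit 18456797184), (nat_lit 101, nat_lit 19530792960), (nat_lit 78, nat_lit 19530534912), (nat_lit 83, nat_lit 20604530688), (nat_lit 41, nat_lit 20604272640), (nat_lit 82, nat_lit 21678268416), (nat_lit 91, nat_lit 21678010368), (nat_lit 98, nat_lit 22752006144), (nat_lit 38, nat_lit 22751748096), (nat_lit 23, nat_lit 23825485824)]⟩,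
   ⟨V6_17315684352, [(nat_lit 109, nat_lit 17383317504), (nat_lit 122, nat_lit 18456797184), (nat_lit 84, nat_lit 18440282112), (nat_lit 126, nat_lit 19530276864), (nat_lit 49, nat_lit 19513761792), (nat_lit 92, nat_lit 19497246720), (nat_lit 5, nat_lit 20587241472), (nat_lit 77, nat_lit 20570726400), (nat_lit 94, nat_lit 20554211328), (nat_lit 80, nat_lit 21644206080), (nat_lit 15, nat_lit 21627691008), (nat_lit 57, nat_lit 21611175936), (nat_lit 76, nat_lit 22701170688), (nat_lit 104, nat_lit 22684655616), (nat_lit 34, nat_lit 23758135296)]⟩,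
   ⟨V6_15235817472, [(nat_lit 120, nat_lit 17383317504), (nat_lit 22, nat_lit 18457055232), (nat_lit 126, nat_lit 19530792960), (nat_lit 27, nat_lit 20604530688), (nat_lit 43, nat_lit 21678268416)]⟩,
   ⟨V6_15168724992, [(nat_lit 40, nat_lit 17383317504), (nat_lit 47, nat_lit 18440282112), (nat_lit 123, nat_lit 19497246720), (nat_lit 44, nat_lit 20554211328), (nat_lit 35, nat_lit 21611175936)]⟩],
  [W_17316196352, W_17315938304, W_16242458624, W_15235297280, W_15218524160, W_15202009088, W_15185494016, W_15168720896, W_14161817600, W_14161559552, W_14145302528, W_14128013312, W_14094983168, W_13087821824, W_13071048704]⟩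
theorem C_17383317504 : chkRec R_17383317504 = true := by decide +kernel

noncomputable def R_17383563393 : Rec := ⟨nat_lit 17383563393, nat_lit 38,
  [⟨V6_15235031169, [(nat_lit 12, nat_lit 17383563393), (nat_lit 68, nat_lit 18457043073), (nat_lit 99, nat_lit 19530522753), (nat_lit 14, nat_lit 20604002433), (nat_lit 95, nat_lit 21677482113)]⟩,
   ⟨V6_15185748033, [(nat_lit 97, nat_lit 17383563393), (nat_lit 40, nat_lit 18457305153), (nat_lit 68, nat_lit 18440528001), (nat_lit 62, nat_lit 19514269761), (nat_lit 97, nat_lit 19497492609), (nat_lit 90, nat_lit 20571234369), (nat_lit 53, nat_lit 20554457217), (nat_lit 27, nat_lit 21628198977)]⟩,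
   ⟨V6_13088333952, [(nat_lit 75, nat_lit 17383563393), (nat_lit 80, nat_lit 18457305216), (nat_lit 63, nat_lit 18457043073), (nat_lit 83, nat_lit 19530784896)]⟩,
   ⟨V6_13088071809, [(nat_lit 101, nat_lit 17383563393), (nat_lit 26, nat_lit 18457043073), (nat_lit 16, nat_lit 19530522753)]⟩],
  [W_17382252608, W_17381990528, W_17365475456, W_17348960384, W_14161813568, W_14128783424, W_13071818816]⟩
theorem C_17383563393 : chkRec R_17383563393 = true := by decide +kernel

noncomputable def R_17383567425 : Rec := ⟨nat_lit 17383567425, nat_lit 64,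
  [⟨V6_16309293120, [(nat_lit 27, nat_lit 17383567425), (nat_lit 70, nat_lit 18457309248), (nat_lit 101, nat_lit 18457305153), (nat_lit 10, nat_lit 18457047105), (nat_lit 99, nat_lit 19531046976), (nat_lit 68, nat_lit 19531042881), (nat_lit 121, nat_lit 19530788928), (nat_lit 18, nat_lit 19530784833), (nat_lit 121, nat_lit 19530526785), (nat_lit 14, nat_lit 20604784704), (nat_lit 85, nat_lit 20604526656), (nat_lit 8, nat_lit 20604522561), (nat_lit 96, nat_lit 20604268608), (nat_lit 23, nat_lit 20604264513), (nat_lit 106, nat_lit 21678264384), (nat_lit 107, nat_lit 21678006336), (nat_lit 61, nat_lit 21678002241), (nat_lit 48, nat_lit 22751744064)]⟩,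
   ⟨V6_15235813440, [(nat_lit 17, nat_lit 17383567425), (nat_lit 61, nat_lit 18457309248), (nat_lit 97, nat_lit 18457305153), (nat_lit 108, nat_lit 18457047105), (nat_lit 57, nat_lit 19531046976), (nat_lit 4, nat_lit 19531042881), (nat_lit 12, nat_lit 19530788928), (nat_lit 108, nat_lit 19530784833), (nat_lit 74, nat_lit 20604784704), (nat_lit 89, nat_lit 20604526656), (nat_lit 116, nat_lit 20604522561), (nat_lit 7, nat_lit 21678264384)]⟩,
   ⟨V6_15185748033, [(nat_lit 113, nat_lit 17383567425), (nat_lit 60, nat_lit 18457305153), (nat_lit 46, nat_lit 18440532033), (nat_lit 28, nat_lit 19514269761), (nat_lit 11, nat_lit 19497496641), (nat_lit 81, nat_lit 20571234369), (nat_lit 88, nat_lit 20554461249), (nat_lit 110, nat_lit 21628198977)]⟩],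
  [W_17381994560, W_17332965440, W_16308514880, W_16259485760, W_15185489984, W_14161813568, W_14161555520, W_14128783424, W_14128525376, W_14112010304, W_13088333888, W_13071560768, W_13055045696]⟩
theorem C_17383567425 : chkRec R_17383567425 = true := by decide +kernel

noncomputable def R_17383567488 : Rec := ⟨nat_lit 17383567488, nat_lit 155,
  [⟨V6_17382776832, [(nat_lit 118, nat_lit 17383567488), (nat_lit 126, nat_lit 18457309248), (nat_lit 110, nat_lit 18457305216), (nat_lit 92, nat_lit 18457047168), (nat_lit 47, nat_lit 19531051008), (nat_lit 21, nat_lit 19531046976), (nat_lit 4, nat_lit 19530788928), (nat_lit 21, nat_lit 19530784896), (nat_lit 82, nat_lit 19530526848), (nat_lit 112, nat_lit 20604788736), (nat_lit 109, nat_lit 20604530688), (nat_lit 73, nat_lit 20604526656), (nat_lit 13, nat_lit 20604268608), (nat_lit 6, nat_lit 20604264576), (nat_lit 121, nat_lit 20604006528), (nat_lit 67, nat_lit 21678268416), (nat_lit 13, nat_lit 21678010368), (nat_lit 88, nat_lit 21678006336), (nat_lit 12, nat_lit 21677748288), (nat_lit 22, nat_lit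 21677744256), (nat_lit 99, nat_lit 22751748096), (nat_lit 115, nat_lit 22751490048), (nat_lit 26, nat_lit 22751486016), (nat_lit 66, nat_lit 23825227776)]⟩,
   ⟨V6_16309297152, [(nat_lit 14, nat_lit 17383567488), (nat_lit 118, nat_lit 18457309248), (nat_lit 72, nat_lit 18457305216), (nat_lit 107, nat_lit 18457047168), (nat_lit 119, nat_lit 19531051008), (nat_lit 29, nat_lit 19531046976), (nat_lit 106, nat_lit 19530788928), (nat_lit 22, nat_lit 19530784896), (nat_lit 61, nat_lit 19530526848), (nat_lit 29, nat_lit 20604788736), (nat_lit 109, nat_lit 20604530688), (nat_lit 107, nat_lit 20604526656), (nat_lit 82, nat_lit 20604268608), (nat_lit 50, nat_lit 20604264576), (nat_lit 17, nat_lit 21678268416), (nat_lit 63, nat_lit 21678010368), (nat_lit 57, nat_lit 21678006336), (nat_lit 15, nat_lit 22751748096)]⟩],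
  [W_17382256640, W_17381990528, W_16308514880, W_16259489792, W_15235297280, W_15202525184, W_15202001024, W_15185752064, W_15185748032, W_15185489984, W_15185485952, W_14161817600, W_14161813568, W_14161555520, W_14145560576, W_14145302528, W_14128787456, W_14128783424, W_14128263296, W_14112010304, W_13088595968, W_13088337920, W_13088071808, W_13055045696]⟩
theorem C_17383567488 : chkRec R_17383567488 = true := by decide +kernel

noncomputable def R_17383571520 : Rec := ⟨nat_lit 17383571520, nat_lit 225,
  [⟨V6_17382776832, [(nat_lit 82, nat_lit 17383571520), (nat_lit 61, nat_lit 18457313280), (nat_lit 19, nat_lit 18457309248), (nat_lit 102, nat_lit 18457051200), (nat_lit 19, nat_lit 19531051008), (nat_lit 59, nat_lit 19531046976), (nat_lit 10, nat_lit 19530792960), (nat_lit 29, nat_lit 19530788928), (nat_lit 2, nat_lit 19530530880), (nat_lit 114, nat_lit 20604788736), (nat_lit 96, nat_lit 20604530688), (nat_lit 45, nat_lit 20604526656), (nat_lit 3, nat_lit 20604272640), (nat_lit 114, nat_lit 20604268608), (nat_lit 122, nat_lit 20604010560),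 (nat_lit 80, nat_lit 21678268416), (nat_lit 30, nat_lit 21678010368), (nat_lit 105, nat_lit 21678006336), (nat_lit 71, nat_lit 21677752320), (nat_lit 77, nat_lit 21677748288), (nat_lit 62, nat_lit 22751748096), (nat_lit 80, nat_lit 22751490048), (nat_lit 47, nat_lit 22751486016), (nat_lit 17, nat_lit 23825227776)]⟩,
   ⟨V6_17382260736, [(nat_lit 47, nat_lit 17383571520), (nat_lit 38, nat_lit 18457313280), (nat_lit 15, nat_lit 18457051200), (nat_lit 64, nat_lit 19530792960), (nat_lit 89, nat_lit 19530530880), (nat_lit 100, nat_lit 20604272640), (nat_lit 63, nat_lit 20604010560), (nat_lit 119, nat_lit 21677752320), (nat_lit 84, nat_lit 21677490240), (nat_lit 102, nat_lit 22751232000), (nat_lit 58, nat_lit 22750969920), (nat_lit 60, nat_lit 23824711680)]⟩,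
   ⟨V6_17365483584, [(nat_lit 65, nat_lit 17383571520), (nat_lit 114, nat_lit 18457051200), (nat_lit 21, nat_lit 18440536128), (nat_lit 42, nat_lit 19530530880), (nat_lit 26, nat_lit 19514015808), (nat_lit 42, nat_lit 20604010560), (nat_lit 103, nat_lit 20587495488), (nat_lit 42, nat_lit 21677490240), (nat_lit 37, nat_lit 21660975168), (nat_lit 117, nat_lit 22750969920), (nat_lit 51, nat_lit 22734454848), (nat_lit 121, nat_lit 23807934528)]⟩,
   ⟨V6_16308518976, [(nat_lit 123, nat_lit 17383571520), (nat_lit 16, nat_lit 18457051200), (nat_lit 20, nat_lit 19530530880), (nat_lit 68, nat_lit 20604010560), (nat_lit 108, nat_lit 21677490240), (nat_lit 123, nat_lit 22750969920)]⟩,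
   ⟨V6_15235813440, [(nat_lit 18, nat_lit 17383571520), (nat_lit 19, nat_lit 18457309248), (nat_lit 70, nat_lit 18457051200), (nat_lit 9, nat_lit 19531046976), (nat_lit 76, nat_lit 19530788928), (nat_lit 101, nat_lit 20604784704), (nat_lit 5, nat_lit 20604526656), (nat_lit 85, nat_lit 21678264384)]⟩],
  [W_17333227520, W_17332965440, W_16276262912, W_16259489792, W_16259485760, W_15235297280, W_15219298304, W_15218524160, W_15202525184, W_15202009088, W_15185752064, W_15185494016, W_15185231936, W_14162333696, W_14161817600, W_14161559552, W_14145044480, W_14128787456, W_14128529408, W_14128525376, W_14128267328, W_13088595968, W_13088337920, W_13088079872, W_13087817792, W_13071564800, W_13038272576]⟩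
theorem C_17383571520 : chkRec R_17383571520 = true := by decide +kernel

noncomputable def R_17383575552 : Rec := ⟨nat_lit 17383575552, nat_lit 157,
  [⟨V6_17383034880, [(nat_lit 50, nat_lit 17383575552), (nat_lit 15, nat_lit 18457313280), (nat_lit 92, nat_lit 18457055232), (nat_lit 105, nat_lit 19531051008), (nat_lit 124, nat_lit 19530792960), (nat_lit 78, nat_lit 19530534912), (nat_lit 65, nat_lit 20604788736), (nat_lit 80, nat_lit 20604530688), (nat_lit 26, nat_lit 20604272640), (nat_lit 93, nat_lit 21678526464), (nat_lit 107, nat_lit 21678268416), (nat_lit 68, nat_lit 21678010368), (nat_lit 97, nat_lit 22752006144), (nat_lit 95, nat_lit 22751748096), (nat_lit 78, nat_lit 23825485824)]⟩,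
   ⟨V6_17382776832, [(nat_lit 8, nat_lit 17383575552), (nat_lit 52, nat_lit 18457313280), (nat_lit 1, nat_lit 18457055232), (nat_lit 55, nat_lit 19531051008), (nat_lit 20, nat_lit 19530792960), (nat_lit 85, nat_lit 19530534912), (nat_lit 62, nat_lit 20604788736), (nat_lit 72, nat_lit 20604530688), (nat_lit 120, nat_lit 20604272640), (nat_lit 68, nat_lit 20604014592), (nat_lit 69, nat_lit 21678268416), (nat_lit 69, nat_lit 21678010368), (nat_lit 108, nat_lit 21677752320), (nat_lit 117, nat_lit 22751748096), (nat_lit 51, nat_lit 22751490048), (nat_lit 117, nat_lit 23825227776)]⟩,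
   ⟨V6_15235817472, [(nat_lit 59, nat_lit 17383575552), (nat_lit 95, nat_lit 18457313280), (nat_lit 66, nat_lit 18457055232), (nat_lit 64, nat_lit 19531051008), (nat_lit 122, nat_lit 19530792960), (nat_lit 97, nat_lit 20604788736), (nat_lit 101, nat_lit 20604530688), (nat_lit 5, nat_lit 21678268416)]⟩],
  [W_17333227520, W_17332195328, W_16276262912, W_15235039232, W_15218524160, W_15218266112, W_15202525184, W_15202009088, W_15185752064, W_15185494016, W_14161817600, W_14161559552, W_14161301504, W_14145302528, W_14145044480, W_14128787456, W_14112014336, W_13087821824, W_13071306752]⟩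
theorem C_17383575552 : chkRec R_17383575552 = true := by decide +kernel

noncomputable def R_17383825473 : Rec := ⟨nat_lit 17383825473, nat_lit 32,
  [⟨V6_17382510657, [(nat_lit 1, nat_lit 17383825473), (nat_lit 67, nat_lit 18457563201), (nat_lit 86, nat_lit 18457305153), (nat_lit 46, nat_lit 19531042881), (nat_lit 10, nat_lit 19530784833), (nat_lit 36, nat_lit 20604522561), (nat_lit 16, nat_lit 20604264513), (nat_lit 8, nat_lit 21678002241), (nat_lit 62, nat_lit 21677744193), (nat_lit 21, nat_lit 22751481921), (nat_lit 116, nat_lit 22751223873), (nat_lit 44, nat_lit 23824961601)]⟩,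
   ⟨V6_15235813440, [(nat_lit 48, nat_lit 17383825473), (nat_lit 86, nat_lit 18457567296), (nat_lit 62, nat_lit 18457563201), (nat_lit 97, nat_lit 18457305153), (nat_lit 121, nat_lit 19531305024), (nat_lit 56, nat_lit 19531046976), (nat_lit 58, nat_lit 19531042881), (nat_lit 10, nat_lit 19530784833), (nat_lit 56, nat_lit 20604784704), (nat_lit 111, nat_lit 20604526656), (nat_lit 104, nat_lit 20604522561), (nat_lit 16, nat_lit 21678264384)]⟩,
   ⟨V6_14129041473, [(nat_lit 114, nat_lit 17383825473), (nat_lit 39, nat_lit 18457563201), (nat_lit 87, nat_lit 18440790081), (nat_lit 64, nat_lit 19514527809), (nat_lit 11, nat_lit 19497754689), (nat_lit 72, nat_lit 20571492417)]⟩,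
   ⟨V6_13088854080, [(nat_lit 112, nat_lit 17383825473), (nat_lit 56, nat_lit 18457567296), (nat_lit 85, nat_lit 18457563201), (nat_lit 24, nat_lit 19531305024)]⟩],
  [W_16292515904, W_14161813568, W_14145556544, W_14128783424, W_13088333888, W_13071818816, W_13055303744]⟩
theorem C_17383825473 : chkRec R_17383825473 = true := by decide +kernel

noncomputable def R_17383825536 : Rec := ⟨nat_lit 17383825536, nat_lit 76,
  [⟨V6_15235817472, [(nat_lit 89, nat_lit 17383825536), (nat_lit 102, nat_lit 18457567296), (nat_lit 10, nat_lit 18457305216), (nat_lit 39, nat_lit 19531309056), (nat_lit 93, nat_lit 19531046976), (nat_lit 31, nat_lit 19530784896), (nat_lit 7, nat_lit 20604788736), (nat_lit 46, nat_lit 20604526656), (nat_lit 116, nat_lit 21678268416)]⟩,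
   ⟨V6_15202787328, [(nat_lit 93, nat_lit 17383825536), (nat_lit 32, nat_lit 18457567296), (nat_lit 49, nat_lit 18440790144), (nat_lit 21, nat_lit 19531309056), (nat_lit 108, nat_lit 19514531904), (nat_lit 26, nat_lit 19497754752), (nat_lit 39, nat_lit 20588273664), (nat_lit 57, nat_lit 20571496512), (nat_lit 66, nat_lit 21645238272)]⟩],
  [W_17381990528, W_17365475456, W_17348960384, W_16308510848, W_15202525184, W_15202001024, W_14161813568, W_14145560576, W_14145036416, W_14129045504, W_14128783424, W_13088595968, W_13088333888, W_13088071808, W_13072080896, W_13071818816, W_13071556736, W_13055303744]⟩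
theorem C_17383825536 : chkRec R_17383825536 = true := by decide +kernel

noncomputable def R_17383829568 : Rec := ⟨nat_lit 17383829568, nat_lit 150,
  [⟨V6_17382776832, [(nat_lit 102, nat_lit 17383829568), (nat_lit 12, nat_lit 18457571328), (nat_lit 63, nat_lit 18457567296), (nat_lit 86, nat_lit 18457309248), (nat_lit 126, nat_lit 19531309056), (nat_lit 125, nat_lit 19531051008), (nat_lit 44, nat_lit 19531046976), (nat_lit 87, nat_lit 19530788928), (nat_lit 21, nat_lit 20604788736), (nat_lit 76, nat_lit 20604530688), (nat_lit 113, nat_lit 20604526656), (nat_lit 30, nat_lit 20604268608), (nat_lit 122, nat_lit 21678268416), (nat_lit 55, nat_lit 21678010368), (nat_lit 87, nat_lit 21678006336), (nat_lit 82, nat_lit 21677748288), (nat_lit 108, nat_lit 22751748096), (nat_lit 19, nat_lit 22751490048), (nat_lit 126, nat_lit 22751486016), (nat_lit 10, nat_lit 23825227776)]⟩,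
   ⟨V6_15235817472, [(nat_lit 94, nat_lit 17383829568), (nat_lit 28, nat_lit 18457571328), (nat_lit 72, nat_lit 18457567296), (nat_lit 54, nat_lit 18457309248), (nat_lit 116, nat_lit 19531309056), (nat_lit 30, nat_lit 19531051008), (nat_lit 37, nat_lit 19531046976), (nat_lit 88, nat_lit 19530788928), (nat_lit 39, nat_lit 20604788736), (nat_lit 29, nat_lit 20604530688), (nat_lit 69, nat_lit 20604526656), (nat_lit 7, nat_lit 21678268416)]⟩],
  [W_17382256640, W_16308514880, W_16276262912, W_16276000832, W_15235297280, W_15219298304, W_15202783232, W_15202525184, W_15202521152, W_14161817600, W_14145556544, W_14145302528, W_14128787456, W_14128783424, W_14128525376, W_13088854016, W_13088337920, W_13071822848, W_13071560768, W_13055307776, W_13055045696]⟩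
theorem C_17383829568 : chkRec R_17383829568 = true := by decide +kernel

noncomputable def R_17383833600 : Rec := ⟨nat_lit 17383833600, nat_lit 147,
  [⟨V6_17382776832, [(nat_lit 99, nat_lit 17383833600), (nat_lit 86, nat_lit 18457571328), (nat_lit 1, nat_lit 18457313280), (nat_lit 47, nat_lit 19531309056), (nat_lit 22, nat_lit 19531051008), (nat_lit 49, nat_lit 19530792960), (nat_lit 50, nat_lit 20604788736), (nat_lit 42, nat_lit 20604530688), (nat_lit 20, nat_lit 20604272640), (nat_lit 96, nat_lit 21678268416), (nat_lit 36, nat_lit 21678010368), (nat_lit 9, nat_lit 21677752320), (nat_lit 109, nat_lit 22751748096), (nat_lit 63, nat_lit 22751490048), (nat_lit 118, nat_lit 23825227776)]⟩,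
   ⟨V6_17382260736, [(nat_lit 60, nat_lit 17383833600), (nat_lit 61, nat_lit 18457313280), (nat_lit 85, nat_lit 19530792960), (nat_lit 74, nat_lit 20604272640), (nat_lit 92, nat_lit 21677752320), (nat_lit 52, nat_lit 22751232000), (nat_lit 125, nat_lit 23824711680)]⟩,
   ⟨V6_15236333568, [(nat_lit 43, nat_lit 17383833600), (nat_lit 19, nat_lit 18457571328), (nat_lit 111, nat_lit 19531309056), (nat_lit 23, nat_lit 20605046784), (nat_lit 62, nat_lit 21678784512)]⟩],
  [W_17350000640, W_16276520960, W_16276262912, W_15219298304, W_15218524160, W_15202783232, W_15202525184, W_15202009088, W_14162591744, W_14145302528, W_14145044480, W_14128787456, W_14128529408, W_13088854016, W_13088337920, W_13071822848, W_13071564800, W_13055307776]⟩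
theorem C_17383833600 : chkRec R_17383833600 = true := by decide +kernel

noncomputable def R_17384083521 : Rec := ⟨nat_lit 17384083521, nat_lit 8,
  [⟨V6_14145556545, [(nat_lit 80, nat_lit 17384083521), (nat_lit 87, nat_lit 18457563201), (nat_lit 116, nat_lit 18441048129), (nat_lit 125, nat_lit 19531042881), (nat_lit 92, nat_lit 19514527809), (nat_lit 2, nat_lit 20588007489)]⟩,
   ⟨V6_13072339008, [(nat_lit 4, nat_lit 17384083521), (nat_lit 79, nat_lit 18457825344), (nat_lit 115, nat_lit 18441048129), (nat_lit 63, nat_lit 19514789952)]⟩],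
  [W_17382510656, W_15235551296]⟩
theorem C_17384083521 : chkRec R_17384083521 = true := by decide +kernel

noncomputable def R_17384087616 : Rec := ⟨nat_lit 17384087616, nat_lit 71,
  [⟨V6_15235817472, [(nat_lit 62, nat_lit 17384087616), (nat_lit 97, nat_lit 18457829376), (nat_lit 9, nat_lit 18457567296), (nat_lit 96, nat_lit 19531309056), (nat_lit 5, nat_lit 19531046976), (nat_lit 82, nat_lit 20604788736), (nat_lit 22, nat_lit 20604526656), (nat_lit 54, nat_lit 21678268416)]⟩,
   ⟨V6_13089116160, [(nat_lit 41, nat_lit 17384087616), (nat_lit 64, nat_lit 18457829376), (nat_lit 72, nat_lit 18457825344), (nat_lit 91, nat_lit 19531567104)]⟩,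
   ⟨V6_13088858112, [(nat_lit 66, nat_lit 17384087616), (nat_lit 34, nat_lit 18457829376), (nat_lit 124, nat_lit 18457567296), (nat_lit 90, nat_lit 19531309056)]⟩],
  [W_17382510656, W_16292515904, W_15235551296, W_15219298304, W_14162333696, W_14162071616, W_14161813568, W_14145818624, W_14145560576, W_14145556544, W_13088595968, W_13072080896, W_13072076864, W_13071818816]⟩
theorem C_17384087616 : chkRec R_17384087616 = true := by decide +kernel

end Crest.Agent.R187.SN.Top
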