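import Crest.Agent.R187.SN.Top
import Crest.Agent.R187.SN.TD.X6_0
import Crest.Agent.R187.SN.TD.X6_1
import Crest.Agent.R187.SN.TD.X6_2
import Crest.Agent.R187.SN.TD.X6_3
import Crest.Agent.R187.SN.TD.X6_4
import Crest.Agent.R187.SN.TD.X6_5
import Crest.Agent.R187.SN.TD.X6_6
import Crest.Agent.R187.SN.TD.X6_7
import Crest.Agent.R187.SN.TD.W7_0
import Crest.Agent.R187.SN.TD.W7_1
import Crest.Agent.R187.SN.TD.W7_2

/-!
# Row 187, PLAN S, generated certificate data (mod 127): rank records and checks, chunk 8

Written by a C++ program (helper824).  The tables are only data: every property is checked by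
the kernel.
-/

set_option autoImplicit false
set_option maxRecDepth 100000
set_option Elab.async false

namespace Crest.Agent.R187.SN.Top

noncomputable def R_17384091648 : Rec := ⟨nat_lit 17384091648, nat_lit 78,
  [⟨V6_15236333568, [(nat_lit 76, nat_lit 17384091648), (nat_lit 112, nat_lit 18457829376), (nat_lit 106, nat_lit 18457571328), (nat_lit 43, nat_lit 19531567104), (nat_lit 96, nat_lit 19531309056), (nat_lit 98, nat_lit 20605304832), (nat_lit 112, nat_lit 20605046784), (nat_lit 15, nat_lit 21678784512)]⟩,
   ⟨V6_15235817472, [(nat_lit 84, nat_lit 17384091648), (nat_lit 51, nat_lit 18457829376), (nat_lit 79, nat_lit 18457571328), (nat_lit 73, nat_lit 19531309056), (nat_lit 36, nat_lit 19531051008), (nat_lit 23, nat_lit 20604788736), (nat_lit 92, nat_lit 20604530688), (nat_lit 65, nat_lit 21678268416)]⟩,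
   ⟨V6_13088858112, [(nat_lit 31, nat_lit 17384091648), (nat_lit 120, nat_lit 18457829376), (nat_lit 40, nat_lit 18457571328), (nat_lit 124, nat_lit 19531309056)]⟩],
  [W_17382256640, W_17366515712, W_15235297280, W_15219298304, W_14161817600, W_14145302528, W_13089112064]⟩
theorem C_17384091648 : chkRec R_17384091648 = true := by decide +kernel

noncomputable def R_17384345664 : Rec := ⟨nat_lit 17384345664, nat_lit 11,
  [⟨V6_15235813440, [(nat_lit 113, nat_lit 17384345664), (nat_lit 32, nat_lit 18457825344), (nat_lit 97, nat_lit 19531305024), (nat_lit 98, nat_lit 20604784704), (nat_lit 40, nat_lit 21678264384)]⟩],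
  [W_14162333696, W_14162071616, W_13088854016]⟩
theorem C_17384345664 : chkRec R_17384345664 = true := by decide +kernel

noncomputable def R_17384349696 : Rec := ⟨nat_lit 17384349696, nat_lit 37,
  [⟨V6_15235817472, [(nat_lit 66, nat_lit 17384349696), (nat_lit 85, nat_lit 18457829376), (nat_lit 87, nat_lit 19531309056), (nat_lit 46, nat_lit 20604788736), (nat_lit 11, nat_lit 21678268416)]⟩],
  [W_17383030784, W_15236071424, W_14162591744, W_14162333696, W_13088595968]⟩
theorem C_17384349696 : chkRec R_17384349696 = true := by decide +kernel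

noncomputable def R_17399034051 : Rec := ⟨nat_lit 17399034051, nat_lit 1,
  [⟨V6_14144254146, [(nat_lit 123, nat_lit 17399034051), (nat_lit 60, nat_lit 18472775874), (nat_lit 38, nat_lit 18455998659), (nat_lit 23, nat_lit 19529740482), (nat_lit 29, nat_lit 19512963267), (nat_lit 47, nat_lit 20586705090)]⟩],
  [W_14177546432]⟩
theorem C_17399034051 : chkRec R_17399034051 = true := by decide +kernel

noncomputable def R_17399038146 : Rec := ⟨nat_lit 17399038146, nat_lit 6,
  [⟨V6_14177808576, [(nat_lit 36, nat_lit 17399038146), (nat_lit 33, nat_lit 18472779969), (nat_lit 23, nat_lit 18472775874), (nat_lit 51, nat_lit 19546521792), (nat_lit 62, nat_lit 19546517697), (nat_lit 95, nat_lit 20620259520)]⟩,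
   ⟨V6_14127481026, [(nat_lit 120, nat_lit 17399038146), (nat_lit 55, nat_lit 18456002754), (nat_lit 24, nat_lit 19512967362), (nat_lit 51, nat_lit 20569931970)]⟩],
  [W_17331929216, W_17331925184, W_17315152064]⟩
theorem C_17399038146 : chkRec R_17399038146 = true := by decide +kernel

noncomputable def R_17399038209 : Rec := ⟨nat_lit 17399038209, nat_lit 9,
  [⟨V6_14177812608, [(nat_lit 100, nat_lit 17399038209), (nat_lit 20, nat_lit 18472780032), (nat_lit 18, nat_lit 18472779969), (nat_lit 14, nat_lit 19546521792), (nat_lit 33, nat_lit 19546521729), (nat_lit 13, nat_lit 20620263552)]⟩,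
   ⟨V6_14127481089, [(nat_lit 36, nat_lit 17399038209), (nat_lit 80, nat_lit 18456002817), (nat_lit 58, nat_lit 19512967425), (nat_lit 28, nat_lit 20569932033)]⟩],
  [W_17348706368, W_17298374912]⟩
theorem C_17399038209 : chkRec R_17399038209 = true := by decide +kernel

noncomputable def R_17399296194 : Rec := ⟨nat_lit 17399296194, nat_lit 6,
  [⟨V6_14177808576, [(nat_lit 73, nat_lit 17399296194), (nat_lit 72, nat_lit 18473038017), (nat_lit 124, nat_lit 18472775874), (nat_lit 45, nat_lit 19546779840), (nat_lit 15, nat_lit 19546517697), (nat_lit 82, nat_lit 20620259520)]⟩,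
   ⟨V6_14177546370, [(nat_lit 48, nat_lit 17399296194), (nat_lit 66, nat_lit 18473037954), (nat_lit 5, nat_lit 18472775874), (nat_lit 92, nat_lit 19546517634), (nat_lit 54, nat_lit 19546255554), (nat_lit 51, nat_lit 20619997314)]⟩,
   ⟨V6_14144254146, [(nat_lit 59, nat_lit 17399296194), (nat_lit 66, nat_lit 18472775874), (nat_lit 2, nat_lit 18456260802), (nat_lit 110, nat_lit 19529740482), (nat_lit 79, nat_lit 19513225410), (nat_lit 100, nat_lit 20586705090)]⟩],
  [W_17332187264, W_14177546432]⟩
theorem C_17399296194 : chkRec R_17399296194 = true := by decide +kernel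

noncomputable def R_17399300226 : Rec := ⟨nat_lit 17399300226, nat_lit 14,
  [⟨V6_15235031169, [(nat_lit 109, nat_lit 17399300226), (nat_lit 30, nat_lit 18473042049), (nat_lit 52, nat_lit 18473037954), (nat_lit 10, nat_lit 18456264834), (nat_lit 91, nat_lit 19546779777), (nat_lit 100, nat_lit 19546775682), (nat_lit 125, nat_lit 19530006657), (nat_lit 72, nat_lit 19530002562), (nat_lit 54, nat_lit 20620517505), (nat_lit 71, nat_lit 20603744385), (nat_lit 25, nat_lit 20603740290), (nat_lit 121, nat_lit 21677482113)]⟩,
   ⟨V6_14177812608, [(nat_lit 98, nat_lit 17399300226), (nat_lit 81, nat_lit 18473042049), (nat_lit 76, nat_lit 18472779906), (nat_lit 3, nat_lit 19546783872), (nat_lit 1, nat_lit 19546521729), (nat_lit 124, nat_lit 20620263552)]⟩],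
  [W_17332187264, W_17331929216, W_17315414144, W_15251546240]⟩
theorem C_17399300226 : chkRec R_17399300226 = true := by decide +kernel

noncomputable def R_17399300289 : Rec := ⟨nat_lit 17399300289, nat_lit 30,
  [⟨V6_17315152065, [(nat_lit 7, nat_lit 17399300289), (nat_lit 110, nat_lit 18472779969), (nat_lit 110, nat_lit 18456264897), (nat_lit 13, nat_lit 19529744577), (nat_lit 16, nat_lit 19513229505), (nat_lit 72, nat_lit 20586709185), (nat_lit 88, nat_lit 20570194113), (nat_lit 55, nat_lit 21643673793), (nat_lit 8, nat_lit 21627158721), (nat_lit 114, nat_lit 22700638401), (nat_lit 22, nat_lit 22684123329), (nat_lit 17, nat_lit 23757603009)]⟩,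
   ⟨V6_14177812608, [(nat_lit 24, nat_lit 17399300289), (nat_lit 20, nat_lit 18473042112), (nat_lit 66, nat_lit 18473042049), (nat_lit 74, nat_lit 18472779969), (nat_lit 46, nat_lit 19546783872), (nat_lit 85, nat_lit 19546521792), (nat_lit 107, nat_lit 19546521729), (nat_lit 90, nat_lit 20620263552)]⟩,
   ⟨V6_14177808576, [(nat_lit 57, nat_lit 17399300289), (nat_lit 57, nat_lit 18473042112), (nat_lit 95, nat_lit 18473038017), (nat_lit 122, nat_lit 18472779969), (nat_lit 9, nat_lit 19546779840), (nat_lit 24, nat_lit 19546521792), (nat_lit 3, nat_lit 19546517697), (nat_lit 112, nat_lit 20620259520)]⟩,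
   ⟨V6_14161293504, [(nat_lit 112, nat_lit 17399300289), (nat_lit 59, nat_lit 18473042112), (nat_lit 70, nat_lit 18473038017), (nat_lit 41, nat_lit 18456264897), (nat_lit 6, nat_lit 19546779840), (nat_lit 50, nat_lit 19530006720), (nat_lit 90, nat_lit 19530002625), (nat_lit 88, nat_lit 20603744448)]⟩,
   ⟨V6_14161035456, [(nat_lit 12, nat_lit 17399300289), (nat_lit 22, nat_lit 18473042112), (nat_lit 63, nat_lit 18472779969), (nat_lit 103, nat_lit 18456264897), (nat_lit 106, nat_lit 19546521792), (nat_lit 39, nat_lit 19530006720), (nat_lit 28, nat_lit 19529744577), (nat_lit 66, nat_lit 20603486400)]⟩],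
  [W_17348706368, W_16308514880, W_15251550272, W_15218262080, W_14178070592]⟩
theorem C_17399300289 : chkRec R_17399300289 = true := by decide +kernel

noncomputable def R_17399300352 : Rec := ⟨nat_lit 17399300352, nat_lit 28,
  [⟨V6_15251816448, [(nat_lit 21, nat_lit 17399300352), (nat_lit 13, nat_lit 18473042112), (nat_lit 79, nat_lit 19546783872), (nat_lit 47, nat_lit 20620525632), (nat_lit 17, nat_lit 21694267392)]⟩,
   ⟨V6_14177812608, [(nat_lit 104, nat_lit 17399300352), (nat_lit 11, nat_lit 18473042112), (nat_lit 106, nat_lit 18472780032), (nat_lit 55, nat_lit 19546783872), (nat_lit 110, nat_lit 19546521792), (nat_lit 121, nat_lit 20620263552)]⟩],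
  [W_17365483520, W_17348706368, W_17331929216, W_17315152064, W_17298636992, W_16291741760, W_15167930624]⟩
theorem C_17399300352 : chkRec R_17399300352 = true := by decide +kernel

noncomputable def R_17399304321 : Rec := ⟨nat_lit 17399304321, nat_lit 24,
  [⟨V6_15235031169, [(nat_lit 36, nat_lit 17399304321), (nat_lit 34, nat_lit 18473042049), (nat_lit 27, nat_lit 18456268929), (nat_lit 99, nat_lit 19546779777), (nat_lit 45, nat_lit 19530006657), (nat_lit 61, nat_lit 20620517505), (nat_lit 28, nat_lit 20603744385), (nat_lit 86, nat_lit 21677482113)]⟩,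
   ⟨V6_14178074688, [(nat_lit 80, nat_lit 17399304321), (nat_lit 98, nat_lit 18473046144), (nat_lit 76, nat_lit 18473046081), (nat_lit 112, nat_lit 18473042049), (nat_lit 31, nat_lit 19546787904), (nat_lit 70, nat_lit 19546783872), (nat_lit 61, nat_lit 19546783809), (nat_lit 72, nat_lit 20620525632)]⟩],
  [W_17348960384, W_17315418176, W_17315414144, W_16258453568, W_16241676416, W_15218262080]⟩
theorem C_17399304321 : chkRec R_17399304321 = true := by decide +kernel

noncomputable def R_17399304384 : Rec := ⟨nat_lit 17399304384, nat_lit 35,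
  [⟨V6_15251816448, [(nat_lit 96, nat_lit 17399304384), (nat_lit 94, nat_lit 18473046144), (nat_lit 75, nat_lit 18473042112), (nat_lit 81, nat_lit 19546787904), (nat_lit 34, nat_lit 19546783872), (nat_lit 68, nat_lit 20620529664), (nat_lit 68, nat_lit 20620525632), (nat_lit 118, nat_lit 21694267392)]⟩,
   ⟨V6_14178078720, [(nat_lit 39, nat_lit 17399304384), (nat_lit 36, nat_lit 18473046144), (nat_lit 5, nat_lit 19546787904), (nat_lit 41, nat_lit 20620529664)]⟩],
  [W_17332195328, W_17332187264, W_17315418176, W_17298636992, W_16275230720, W_16258453568, W_15251812352, W_14178070592, W_14144516288]⟩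
theorem C_17399304384 : chkRec R_17399304384 = true := by decide +kernel

noncomputable def R_17399558274 : Rec := ⟨nat_lit 17399558274, nat_lit 18,
  [⟨V6_15235293312, [(nat_lit 58, nat_lit 17399558274), (nat_lit 95, nat_lit 18473300097), (nat_lit 103, nat_lit 18473296002), (nat_lit 94, nat_lit 18456522882), (nat_lit 55, nat_lit 19547041920), (nat_lit 120, nat_lit 19547037825), (nat_lit 43, nat_lit 19530264705), (nat_lit 101, nat_lit 19530260610), (nat_lit 34, nat_lit 20620779648), (nat_lit 3, nat_lit 20604006528), (nat_lit 41, nat_lit 20604002433), (nat_lit 19, nat_lit 21677744256)]⟩],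
  [W_17381990528, W_17365475456, W_17365217408, W_17332187264, W_16325025920, W_16308252800, W_15251546240]⟩
theorem C_17399558274 : chkRec R_17399558274 = true := by decide +kernel

noncomputable def R_17399558337 : Rec := ⟨nat_lit 17399558337, nat_lit 28,
  [⟨V6_17348702400, [(nat_lit 101, nat_lit 17399558337), (nat_lit 99, nat_lit 18473300160), (nat_lit 2, nat_lit 18473038017), (nat_lit 67, nat_lit 18456522945), (nat_lit 76, nat_lit 19546779840), (nat_lit 71, nat_lit 19546517697), (nat_lit 115, nat_lit 19530264768), (nat_lit 54, nat_lit 19530002625), (nat_lit 123, nat_lit 19513487553), (nat_lit 29, nat_lit 20620259520), (nat_lit 40, nat_lit 20603744448), (nat_lit 82, nat_lit 20603482305), (nat_lit 6, nat_lit 20587229376), (nat_lit 64, nat_lit 20586967233), (nat_lit 12, nat_lit 20570452161), (nat_lit 33, nat_lit 21677224128), (nat_lit 96, nat_lit 21660709056), (nat_lit 11, nat_lit 21660446913), (nat_lit 105, nat_lit 21644193984), (nat_lit 42, nat_lit 21643931841), (nat_lit 124, nat_lit 22734188736), (nat_lit 77, nat_lit 22717673664), (nat_lit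 86, nat_lit 22717411521), (nat_lit 56, nat_lit 23791153344)]⟩,
   ⟨V6_15234773184, [(nat_lit 70, nat_lit 17399558337), (nat_lit 61, nat_lit 18473300160), (nat_lit 10, nat_lit 18473038017), (nat_lit 66, nat_lit 18456522945), (nat_lit 82, nat_lit 19546779840), (nat_lit 13, nat_lit 19546517697), (nat_lit 86, nat_lit 19530264768), (nat_lit 45, nat_lit 19530002625), (nat_lit 103, nat_lit 20620259520), (nat_lit 103, nat_lit 20603744448), (nat_lit 114, nat_lit 20603482305), (nat_lit 48, nat_lit 21677224128)]⟩,
   ⟨V6_14177808576, [(nat_lit 64, nat_lit 17399558337), (nat_lit 70, nat_lit 18473300160), (nat_lit 125, nat_lit 18473038017), (nat_lit 26, nat_lit 19546779840), (nat_lit 6, nat_lit 19546517697), (nat_lit 95, nat_lit 20620259520)]⟩,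
   ⟨V6_14161293504, [(nat_lit 61, nat_lit 17399558337), (nat_lit 22, nat_lit 18473300160), (nat_lit 52, nat_lit 18473038017), (nat_lit 13, nat_lit 18456522945), (nat_lit 102, nat_lit 19546779840), (nat_lit 76, nat_lit 19530264768), (nat_lit 118, nat_lit 19530002625), (nat_lit 121, nat_lit 20603744448)]⟩],
  [W_16325029952, W_16308514880, W_15251550272, W_14178070592, W_14177546432, W_14161555520, W_14128001216]⟩
theorem C_17399558337 : chkRec R_17399558337 = true := by decide +kernel

noncomputable def R_17399562369 : Rec := ⟨nat_lit 17399562369, nat_lit 75,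
  [⟨V6_17348706369, [(nat_lit 25, nat_lit 17399562369), (nat_lit 106, nat_lit 18473304129), (nat_lit 108, nat_lit 18473042049), (nat_lit 92, nat_lit 18456526977), (nat_lit 117, nat_lit 19546783809), (nat_lit 76, nat_lit 19546521729), (nat_lit 19, nat_lit 19530268737), (nat_lit 75, nat_lit 19530006657), (nat_lit 99, nat_lit 19513491585), (nat_lit 84, nat_lit 20620263489), (nat_lit 124, nat_lit 20603748417), (nat_lit 109, nat_lit 20603486337), (nat_lit 80, nat_lit 20587233345), (nat_lit 93, nat_lit 20586971265), (nat_lit 68, nat_lit 20570456193), (nat_lit 96, nat_lit 21677228097), (nat_lit 74, nat_lit 21660713025), (nat_lit 2, nat_lit 21660450945), (nat_lit 102, nat_lit 21644197953), (nat_lit 101, nat_lit 21643935873), (nat_lit 82, nat_lit 22734192705), (nat_lit 76, nat_lit 22717677633), (nat_lit 33, nat_lit 22717415553), (nat_lit 112, nat_lit 23791157313)]⟩,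
   ⟨V6_16308518976, [(nat_lit 47, nat_lit 17399562369), (nat_lit 64, nat_lit 18473304192), (nat_lit 34, nat_lit 18473304129), (nat_lit 70, nat_lit 18473042049), (nat_lit 125, nat_lit 18456526977), (nat_lit 23, nat_lit 19547045952), (nat_lit 56, nat_lit 19546783872), (nat_lit 71, nat_lit 19546783809), (nat_lit 36, nat_lit 19546521729), (nat_lit 54, nat_lit 19530268800), (nat_lit 85, nat_lit 19530268737), (nat_lit 30, nat_lit 19530006657), (nat_lit 8, nat_lit 20620525632), (nat_lit 4, nat_lit 20620263552), (nat_lit 97, nat_lit 20620263489), (nat_lit 115, nat_lit 20604010560), (nat_lit 48, nat_lit 20603748480), (nat_lit 13, nat_lit 20603748417), (nat_lit 51, nat_lit 20603486337), (nat_lit 52, nat_lit 21694005312), (nat_lit 87, nat_lit 21677490240), (nat_lit 96, nat_lit 21677228160), (nat_lit 68, nat_lit 21677228097), (nat_lit 86, nat_lit 22750969920)]⟩,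
   ⟨V6_16291741761, [(nat_lit 6, nat_lit 17399562369), (nat_lit 59, nat_lit 18473304129), (nat_lit 123, nat_lit 18473042049), (nat_lit 72, nat_lit 18456526977), (nat_lit 43, nat_lit 19546783809), (nat_lit 27, nat_lit 19546521729), (nat_lit 61, nat_lit 19530268737), (nat_lit 48, nat_lit 19530006657), (nat_lit 84, nat_lit 19513491585), (nat_lit 35, nat_lit 20620263489), (nat_lit 89, nat_lit 20603748417), (nat_lit 72, nat_lit 20603486337), (nat_lit 76, nat_lit 20587233345), (nat_lit 36, nat_lit 20586971265), (nat_lit 20, nat_lit 21677228097), (nat_lit 104, nat_lit 21660713025), (nat_lit 73, nat_lit 21660450945), (nat_lit 28, nat_lit 22734192705)]⟩,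
   ⟨V6_15234777216, [(nat_lit 37, nat_lit 17399562369), (nat_lit 103, nat_lit 18473304192), (nat_lit 96, nat_lit 18473042049), (nat_lit 24, nat_lit 18456526977), (nat_lit 76, nat_lit 19546783872), (nat_lit 74, nat_lit 19546521729), (nat_lit 89, nat_lit 19530268800), (nat_lit 51, nat_lit 19530006657), (nat_lit 49, nat_lit 20620263552), (nat_lit 49, nat_lit 20603748480), (nat_lit 53, nat_lit 20603486337), (nat_lit 29, nat_lit 21677228160)]⟩],
  [W_17365475456, W_17348960384, W_17348706368, W_17332445312, W_16308514880, W_15251546240, W_15234777152, W_15201747008, W_14178328640, W_14178070592, W_14177808512, W_14161555520, W_14144782400]⟩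
theorem C_17399562369 : chkRec R_17399562369 = true := by decide +kernel

noncomputable def R_17399562432 : Rec := ⟨nat_lit 17399562432, nat_lit 104,
  [⟨V6_17366003712, [(nat_lit 78, nat_lit 17399562432), (nat_lit 97, nat_lit 18473304192), (nat_lit 20, nat_lit 18473300160), (nat_lit 1, nat_lit 18456527040), (nat_lit 106, nat_lit 19547045952), (nat_lit 120, nat_lit 19547041920), (nat_lit 17, nat_lit 19530268800), (nat_lit 70, nat_lit 19530264768), (nat_lit 96, nat_lit 19513491648), (nat_lit 91, nat_lit 20620787712), (nat_lit 31, nat_lit 20620783680), (nat_lit 47, nat_lit 20604010560), (nat_lit 105, nat_lit 20604006528), (nat_lit 83, nat_lit 20587233408), (nat_lit 3, nat_lit 20587229376), (nat_lit 122, nat_lit 21694525440), (nat_lit 67, nat_lit 21677752320), (nat_lit 109, nat_lit 21677748288), (nat_lit 119, nat_lit 21660975168), (nat_lit 104, nat_lit 21660971136), (nat_lit 11, nat_lit 22751490048), (nat_lit 35, nat_lit 22734716928), (nat_lit 79, nat_lit 22734712896), (nat_lit 97, nat_lit 23808454656)]⟩,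
   ⟨V6_16325296128, [(nat_lit 47, nat_lit 17399562432), (nat_lit 1, nat_lit 18473304192), (nat_lit 31, nat_lit 18473042112), (nat_lit 15, nat_lit 19547045952), (nat_lit 33, nat_lit 19546783872), (nat_lit 72, nat_lit 19546521792), (nat_lit 24, nat_lit 20620787712), (nat_lit 110, nat_lit 20620525632), (nat_lit 126, nat_lit 20620263552), (nat_lit 95, nat_lit 21694267392), (nat_lit 120, nat_lit 21694005312), (nat_lit 100, nat_lit 22767747072)]⟩],
  [W_17382256640, W_17365483520, W_17348706368, W_16308518912, W_15235297280, W_15235039232, W_15218524160, W_15201747008, W_14178070592, W_14144516288]⟩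
theorem C_17399562432 : chkRec R_17399562432 = true := by decide +kernel

noncomputable def R_17399566401 : Rec := ⟨nat_lit 17399566401, nat_lit 48,
  [⟨V6_17382510657, [(nat_lit 83, nat_lit 17399566401), (nat_lit 79, nat_lit 18473304129), (nat_lit 48, nat_lit 18473046081), (nat_lit 91, nat_lit 18456531009), (nat_lit 64, nat_lit 19547041857), (nat_lit 116, nat_lit 19546783809), (nat_lit 38, nat_lit 19530268737), (nat_lit 30, nat_lit 19530010689), (nat_lit 72, nat_lit 20620779585), (nat_lit 80, nat_lit 20620521537), (nat_lit 11, nat_lit 20604006465), (nat_lit 113, nat_lit 20603748417), (nat_lit 91, nat_lit 21694517313), (nat_lit 96, nat_lit 21694259265), (nat_lit 32, nat_lit 21677744193), (nat_lit 18, nat_lit 21677486145), (nat_lit 77, nat_lit 22767996993), (nat_lit 123, nat_lit 22751481921), (nat_lit 42, nat_lit 22751223873), (nat_lit 62, nat_lit 23824961601)]⟩,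
   ⟨V6_17365995585, [(nat_lit 73, nat_lit 17399566401), (nat_lit 80, nat_lit 18473304129), (nat_lit 60, nat_lit 18456531009), (nat_lit 110, nat_lit 19547041857), (nat_lit 5, nat_lit 19530268737), (nat_lit 105, nat_lit 19513495617), (nat_lit 23, nat_lit 20620779585), (nat_lit 83, nat_lit 20604006465), (nat_lit 118, nat_lit 20587233345), (nat_lit 49, nat_lit 21694517313), (nat_lit 95, nat_lit 21677744193), (nat_lit 80, nat_lit 21660971073), (nat_lit 121, nat_lit 22751481921), (nat_lit 101, nat_lit 22734708801), (nat_lit 99, nat_lit 23808446529)]⟩,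
   ⟨V6_16325808192, [(nat_lit 77, nat_lit 17399566401), (nat_lit 5, nat_lit 18473308224), (nat_lit 47, nat_lit 18473304129), (nat_lit 30, nat_lit 19547045952), (nat_lit 126, nat_lit 19547041857), (nat_lit 50, nat_lit 20620783680), (nat_lit 124, nat_lit 20620779585), (nat_lit 33, nat_lit 21694521408), (nat_lit 15, nat_lit 21694517313), (nat_lit 116, nat_lit 22768259136)]⟩],
  [W_17298903104, W_16258453568, W_15218262080, W_15201747008, W_15184973888, W_14161297472, W_14144782400, W_14144524352]⟩
theorem C_17399566401 : chkRec R_17399566401 = true := by decide +kernel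

noncomputable def R_17399566464 : Rec := ⟨nat_lit 17399566464, nat_lit 130,
  [⟨V6_17382776832, [(nat_lit 19, nat_lit 17399566464), (nat_lit 37, nat_lit 18473308224), (nat_lit 12, nat_lit 18473304192), (nat_lit 87, nat_lit 18456531072), (nat_lit 82, nat_lit 19547049984), (nat_lit 53, nat_lit 19547045952), (nat_lit 58, nat_lit 19547041920), (nat_lit 11, nat_lit 19530272832), (nat_lit 95, nat_lit 19530268800), (nat_lit 62, nat_lit 20620787712), (nat_lit 58, nat_lit 20620783680), (nat_lit 87, nat_lit 20620779648), (nat_lit 54, nat_lit 20604014592), (nat_lit 6, nat_lit 20604010560), (nat_lit 67, nat_lit 20604006528), (nat_lit 4, nat_lit 21694525440), (nat_lit 116, nat_lit 21694521408), (nat_lit 48, nat_lit 21677752320), (nat_lit 96, nat_lit 21677748288), (nat_lit 79, nat_lit 21677744256), (nat_lit 9, nat_lit 22768263168), (nat_lit 108, nat_lit 22751490048), (nat_lit 77, nat_lit 22751486016), (nat_lit 28, nat_lit 23825227776)]⟩,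
   ⟨V6_16325812224, [(nat_lit 15, nat_lit 17399566464), (nat_lit 10, nat_lit 18473308224), (nat_lit 5, nat_lit 18473304192), (nat_lit 49, nat_lit 19547049984), (nat_lit 60, nat_lit 19547045952), (nat_lit 125, nat_lit 19547041920), (nat_lit 84, nat_lit 20620787712), (nat_lit 100, nat_lit 20620783680), (nat_lit 46, nat_lit 20620779648), (nat_lit 107, nat_lit 21694525440), (nat_lit 66, nat_lit 21694521408), (nat_lit 55, nat_lit 22768263168)]⟩],
  [W_17332195328, W_17298903104, W_17298899072, W_17282125952, W_16275230720, W_16258453568, W_16241676416, W_15235039232, W_15218524160, W_15218266112, W_15218262080, W_15201747008, W_15201484928, W_15184973888, W_15184969856, W_15168196736, W_14178070592, W_14161559552, W_14161297472, W_14144782400, W_14144524352, W_14127747200, W_14111232128]⟩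
theorem C_17399566464 : chkRec R_17399566464 = true := by decide +kernel

noncomputable def R_17399570496 : Rec := ⟨nat_lit 17399570496, nat_lit 87,
  [⟨V6_17399549952, [(nat_lit 39, nat_lit 17399570496), (nat_lit 124, nat_lit 18473312256), (nat_lit 11, nat_lit 18473308224), (nat_lit 53, nat_lit 19547049984), (nat_lit 16, nat_lit 19547045952), (nat_lit 88, nat_lit 20620787712), (nat_lit 13, nat_lit 20620783680), (nat_lit 17, nat_lit 21694525440), (nat_lit 79, nat_lit 21694521408), (nat_lit 115, nat_lit 22768263168), (nat_lit 39, nat_lit 22768259136), (nat_lit 13, nat_lit 23842000896)]⟩,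
   ⟨V6_15201755136, [(nat_lit 76, nat_lit 17399570496), (nat_lit 55, nat_lit 18473312256), (nat_lit 111, nat_lit 18456535104), (nat_lit 20, nat_lit 19530276864), (nat_lit 63, nat_lit 19513499712), (nat_lit 126, nat_lit 20587241472), (nat_lit 75, nat_lit 20570464320), (nat_lit 101, nat_lit 21644206080)]⟩,
   ⟨V6_14144790528, [(nat_lit 125, nat_lit 17399570496), (nat_lit 125, nat_lit 18473312256), (nat_lit 116, nat_lit 18456535104), (nat_lit 19, nat_lit 19530276864), (nat_lit 70, nat_lit 19513499712), (nat_lit 78, nat_lit 20587241472)]⟩],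
  [W_17298907136, W_17298903104, W_17282129984, W_16225165376, W_15235297280, W_15218524160, W_15201747008, W_15184973888, W_14178332672, W_14161559552, W_14161555520]⟩
theorem C_17399570496 : chkRec R_17399570496 = true := by decide +kernel

noncomputable def R_17399816322 : Rec := ⟨nat_lit 17399816322, nat_lit 11,
  [⟨V6_17315930241, [(nat_lit 41, nat_lit 17399816322), (nat_lit 46, nat_lit 18473558145), (nat_lit 96, nat_lit 18456780930), (nat_lit 75, nat_lit 19530522753), (nat_lit 10, nat_lit 19513745538), (nat_lit 51, nat_lit 20587487361), (nat_lit 108, nat_lit 20570710146), (nat_lit 125, nat_lit 21644451969), (nat_lit 52, nat_lit 21627674754), (nat_lit 76, nat_lit 22701416577), (nat_lit 3, nat_lit 22684639362), (nat_lit 54, nat_lit 23758381185)]⟩],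
  [W_17398505600, W_17381990528, W_16325025920, W_16308510848, W_15251546240]⟩
theorem C_17399816322 : chkRec R_17399816322 = true := by decide +kernel

noncomputable def R_17399820417 : Rec := ⟨nat_lit 17399820417, nat_lit 68,
  [⟨V6_17315930241, [(nat_lit 113, nat_lit 17399820417), (nat_lit 55, nat_lit 18473558145), (nat_lit 103, nat_lit 18456785025), (nat_lit 14, nat_lit 19530522753), (nat_lit 9, nat_lit 19513749633), (nat_lit 59, nat_lit 20587487361), (nat_lit 104, nat_lit 20570714241), (nat_lit 95, nat_lit 21644451969), (nat_lit 20, nat_lit 21627678849), (nat_lit 111, nat_lit 22701416577), (nat_lit 123, nat_lit 22684643457), (nat_lit 73, nat_lit 23758381185)]⟩,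
   ⟨V6_16291995777, [(nat_lit 91, nat_lit 17399820417), (nat_lit 113, nat_lit 18473558145), (nat_lit 124, nat_lit 18473300097), (nat_lit 13, nat_lit 18456785025), (nat_lit 42, nat_lit 19547037825), (nat_lit 123, nat_lit 19546779777), (nat_lit 109, nat_lit 19530522753), (nat_lit 71, nat_lit 19530264705), (nat_lit 113, nat_lit 19513749633), (nat_lit 119, nat_lit 20620517505), (nat_lit 71, nat_lit 20604002433), (nat_lit 117, nat_lit 20603744385), (nat_lit 85, nat_lit 20587487361), (nat_lit 21, nat_lit 20587229313), (nat_lit 74, nat_lit 21677482113), (nat_lit 18, nat_lit 21660967041), (nat_lit 109, nat_lit 21660708993), (nat_lit 67, nat_lit 22734446721)]⟩,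
   ⟨V6_15235293312, [(nat_lit 76, nat_lit 17399820417), (nat_lit 50, nat_lit 18473562240), (nat_lit 102, nat_lit 18473558145), (nat_lit 80, nat_lit 18473300097), (nat_lit 35, nat_lit 18456785025), (nat_lit 105, nat_lit 19547299968), (nat_lit 70, nat_lit 19547041920), (nat_lit 45, nat_lit 19547037825), (nat_lit 26, nat_lit 19530526848), (nat_lit 5, nat_lit 19530522753), (nat_lit 17, nat_lit 19530264705), (nat_lit 42, nat_lit 20620779648), (nat_lit 85, nat_lit 20604264576), (nat_lit 125, nat_lit 20604006528), (nat_lit 94, nat_lit 20604002433), (nat_lit 40, nat_lit 21677744256)]⟩,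
   ⟨V6_15235031169, [(nat_lit 93, nat_lit 17399820417), (nat_lit 117, nat_lit 18473558145), (nat_lit 96, nat_lit 18473300097), (nat_lit 77, nat_lit 18456785025), (nat_lit 7, nat_lit 19547037825), (nat_lit 28, nat_lit 19546779777), (nat_lit 32, nat_lit 19530522753), (nat_lit 47, nat_lit 19530264705), (nat_lit 5, nat_lit 20620517505), (nat_lit 11, nat_lit 20604002433), (nat_lit 108, nat_lit 20603744385), (nat_lit 101, nat_lit 21677482113)]⟩],
  [W_17398767680, W_17382252608, W_17381994560, W_17381990528, W_17365475456, W_17315934272, W_17299157120, W_16325029952, W_16308514880, W_15251550272, W_14178328640, W_14178070592, W_14161813568, W_14161555520]⟩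
theorem C_17399820417 : chkRec R_17399820417 = true := by decide +kernel

noncomputable def R_17399820480 : Rec := ⟨nat_lit 17399820480, nat_lit 75,
  [⟨V6_17366003712, [(nat_lit 56, nat_lit 17399820480), (nat_lit 39, nat_lit 18473562240), (nat_lit 72, nat_lit 18473300160), (nat_lit 42, nat_lit 18456785088), (nat_lit 124, nat_lit 19547304000), (nat_lit 120, nat_lit 19547041920), (nat_lit 47, nat_lit 19530526848), (nat_lit 71, nat_lit 19530264768), (nat_lit 120, nat_lit 19513749696), (nat_lit 121, nat_lit 20621045760), (nat_lit 15, nat_lit 20620783680), (nat_lit 39, nat_lit 20604268608), (nat_lit 19, nat_lit 20604006528), (nat_lit 120, nat_lit 20587491456), (nat_lit 35, nat_lit 20587229376), (nat_lit 97, nat_lit 21694525440), (nat_lit 50, nat_lit 21678010368), (nat_lit 47, nat_lit 21677748288), (nat_lit 33, nat_lit 21661233216), (nat_lit 36, nat_lit 21660971136), (nat_lit 70, nat_lit 22751490048), (nat_lit 30, nat_lit 22734974976), (nat_lit 49, nat_lit 22734712896), (nat_lit 94, nat_lit 23808454656)]⟩],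
  [W_17382256640, W_16325292032, W_16325029952, W_16308514880, W_16225415360, W_15251812352, W_15235297280, W_14178332672, W_14178070592, W_14177546432, W_14161817600]⟩
theorem C_17399820480 : chkRec R_17399820480 = true := by decide +kernel

noncomputable def R_17399824449 : Rec := ⟨nat_lit 17399824449, nat_lit 79,
  [⟨V6_17299161153, [(nat_lit 10, nat_lit 17399824449), (nat_lit 79, nat_lit 18456789057), (nat_lit 100, nat_lit 19513753665), (nat_lit 49, nat_lit 20570718273), (nat_lit 75, nat_lit 21627682881), (nat_lit 58, nat_lit 22684647489), (nat_lit 4, nat_lit 23741612097)]⟩,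
   ⟨V6_16308518976, [(nat_lit 119, nat_lit 17399824449), (nat_lit 65, nat_lit 18473566272), (nat_lit 13, nat_lit 18473304129), (nat_lit 98, nat_lit 18456789057), (nat_lit 27, nat_lit 19547045952), (nat_lit 11, nat_lit 19546783809), (nat_lit 122, nat_lit 19530530880), (nat_lit 104, nat_lit 19530268737), (nat_lit 26, nat_lit 20620525632), (nat_lit 112, nat_lit 20620263489), (nat_lit 51, nat_lit 20604010560), (nat_lit 39, nat_lit 20603748417), (nat_lit 124, nat_lit 21694005312), (nat_lit 92, nat_lit 21677490240), (nat_lit 58, nat_lit 21677228097), (nat_lit 74, nat_lit 22750969920)]⟩,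
   ⟨V6_16291741761, [(nat_lit 106, nat_lit 17399824449), (nat_lit 101, nat_lit 18473304129), (nat_lit 36, nat_lit 18456789057), (nat_lit 80, nat_lit 19546783809), (nat_lit 109, nat_lit 19530268737), (nat_lit 109, nat_lit 19513753665), (nat_lit 81, nat_lit 20620263489), (nat_lit 13, nat_lit 20603748417), (nat_lit 2, nat_lit 20587233345), (nat_lit 32, nat_lit 21677228097), (nat_lit 117, nat_lit 21660713025), (nat_lit 93, nat_lit 22734192705)]⟩,
   ⟨V6_15252328512, [(nat_lit 22, nat_lit 17399824449), (nat_lit 36, nat_lit 18473566272), (nat_lit 69, nat_lit 18473562177), (nat_lit 57, nat_lit 19547304000), (nat_lit 112, nat_lit 19547299905), (nat_lit 42, nat_lit 20621041728), (nat_lit 62, nat_lit 20621037633), (nat_lit 46, nat_lit 21694779456)]⟩],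
  [W_17399025728, W_17315934272, W_16325546048, W_16242196544, W_15235551296, W_15201747008, W_15185231936, W_14178586688, W_14161813568, W_14161555520, W_14144782400]⟩
theorem C_17399824449 : chkRec R_17399824449 = true := by decide +kernel

noncomputable def R_17399824512 : Rec := ⟨nat_lit 17399824512, nat_lit 198,
  [⟨V6_17382260736, [(nat_lit 55, nat_lit 17399824512), (nat_lit 8, nat_lit 18473566272), (nat_lit 29, nat_lit 18473304192), (nat_lit 107, nat_lit 18456789120), (nat_lit 38, nat_lit 19547308032), (nat_lit 7, nat_lit 19547045952), (nat_lit 86, nat_lit 19546783872), (nat_lit 67, nat_lit 19530530880), (nat_lit 46, nat_lit 19530268800), (nat_lit 62, nat_lit 20620787712), (nat_lit 45, nat_lit 20620525632), (nat_lit 76, nat_lit 20620263552), (nat_lit 42, nat_lit 20604272640), (nat_lit 125, nat_lit 20604010560), (nat_lit 30, nat_lit 20603748480), (nat_lit 10, nat_lit 21694267392), (nat_lit 116, nat_lit 21694005312), (nat_lit 24, nat_lit 21677752320), (nat_lit 31, nat_lit 21677490240), (nat_lit 1, nat_lit 21677228160), (nat_lit 12, nat_lit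 22767747072), (nat_lit 33, nat_lit 22751232000), (nat_lit 39, nat_lit 22750969920), (nat_lit 42, nat_lit 23824711680)]⟩,
   ⟨V6_17366261760, [(nat_lit 19, nat_lit 17399824512), (nat_lit 26, nat_lit 18473566272), (nat_lit 51, nat_lit 18473562240), (nat_lit 112, nat_lit 18456789120), (nat_lit 99, nat_lit 19547308032), (nat_lit 10, nat_lit 19547304000), (nat_lit 87, nat_lit 19547299968), (nat_lit 93, nat_lit 19530530880), (nat_lit 124, nat_lit 19530526848), (nat_lit 121, nat_lit 19513753728), (nat_lit 109, nat_lit 20621045760), (nat_lit 85, nat_lit 20621041728), (nat_lit 38, nat_lit 20604272640), (nat_lit 113, nat_lit 20604268608), (nat_lit 66, nat_lit 20604264576), (nat_lit 22, nat_lit 20587495488), (nat_lit 95, nat_lit 20587491456), (nat_lit 66, nat_lit 21694783488), (nat_lit 65, nat_lit 21678010368), (nat_lit 72, nat_lit 21678006336), (nat_lit 126, nat_lit 21661237248), (nat_lit 5, nat_lit 21661233216), (nat_lit 41, nat_lit 21661229184), (nat_lit 14, nat_lit 22751748096), (nat_lit 19, nat_lit 22734974976), (nat_lit 92, nat_lit 22734970944), (nat_lit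 25, nat_lit 23808712704)]⟩,
   ⟨V6_16325296128, [(nat_lit 8, nat_lit 17399824512), (nat_lit 115, nat_lit 18473566272), (nat_lit 65, nat_lit 18473304192), (nat_lit 51, nat_lit 19547308032), (nat_lit 87, nat_lit 19547045952), (nat_lit 96, nat_lit 19546783872), (nat_lit 84, nat_lit 20620787712), (nat_lit 52, nat_lit 20620525632), (nat_lit 114, nat_lit 20620263552), (nat_lit 6, nat_lit 21694267392), (nat_lit 63, nat_lit 21694005312), (nat_lit 70, nat_lit 22767747072)]⟩,
   ⟨V6_16308518976, [(nat_lit 87, nat_lit 17399824512), (nat_lit 46, nat_lit 18473566272), (nat_lit 85, nat_lit 18473304192), (nat_lit 16, nat_lit 18456789120), (nat_lit 12, nat_lit 19547045952), (nat_lit 101, nat_lit 19546783872), (nat_lit 65, nat_lit 19530530880), (nat_lit 87, nat_lit 19530268800), (nat_lit 46, nat_lit 20620525632), (nat_lit 43, nat_lit 20620263552), (nat_lit 18, nat_lit 20604010560), (nat_lit 55, nat_lit 20603748480), (nat_lit 62, nat_lit 21694005312), (nat_lit 58, nat_lit 21677490240), (nat_lit 81, nat_lit 21677228160), (nat_lit 63, nat_lit 22750969920)]⟩,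
   ⟨V6_16291741824, [(nat_lit 40, nat_lit 17399824512), (nat_lit 110, nat_lit 18473304192), (nat_lit 4, nat_lit 18456789120), (nat_lit 23, nat_lit 19546783872), (nat_lit 125, nat_lit 19530268800), (nat_lit 125, nat_lit 19513753728), (nat_lit 9, nat_lit 20620263552), (nat_lit 72, nat_lit 20603748480), (nat_lit 99, nat_lit 20587233408), (nat_lit 60, nat_lit 21677228160), (nat_lit 13, nat_lit 21660713088), (nat_lit 95, nat_lit 22734192768)]⟩],
  [W_17382256640, W_17315938304, W_16242196544, W_15235297280, W_15235039232, W_15218524160, W_15202009088, W_15202001024, W_15201747008, W_15185231936, W_15168454784, W_14178590720, W_14178332672, W_14178328640, W_14161817600, W_14161813568, W_14161559552, W_14145044480, W_14144782400, W_14128267328]⟩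
theorem C_17399824512 : chkRec R_17399824512 = true := by decide +kernel

noncomputable def R_17399828544 : Rec := ⟨nat_lit 17399828544, nat_lit 194,
  [⟨V6_17399549952, [(nat_lit 48, nat_lit 17399828544), (nat_lit 86, nat_lit 18473570304), (nat_lit 70, nat_lit 18473566272), (nat_lit 75, nat_lit 18473308224), (nat_lit 57, nat_lit 19547308032), (nat_lit 62, nat_lit 19547304000), (nat_lit 72, nat_lit 19547049984), (nat_lit 2, nat_lit 19547045952), (nat_lit 27, nat_lit 20621045760), (nat_lit 2, nat_lit 20621041728), (nat_lit 2, nat_lit 20620787712), (nat_lit 21, nat_lit 20620783680), (nat_lit 23, nat_lit 21694783488), (nat_lit 122, nat_lit 21694779456), (nat_lit 124, nat_lit 21694525440), (nat_lit 119, nat_lit 21694521408), (nat_lit 8, nat_lit 22768521216), (nat_lit 92, nat_lit 22768263168), (nat_lit 75, nat_lit 22768259136), (nat_lit 120, nat_lit 23842000896)]⟩,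
   ⟨V6_17383034880, [(nat_lit 123, nat_lit 17399828544), (nat_lit 125, nat_lit 18473570304), (nat_lit 8, nat_lit 18473566272), (nat_lit 40, nat_lit 18456793152), (nat_lit 110, nat_lit 19547308032), (nat_lit 107, nat_lit 19547304000), (nat_lit 104, nat_lit 19530534912), (nat_lit 68, nat_lit 19530530880), (nat_lit 3, nat_lit 20621045760), (nat_lit 87, nat_lit 20621041728), (nat_lit 36, nat_lit 20604272640), (nat_lit 72, nat_lit 20604268608), (nat_lit 102, nat_lit 21694783488), (nat_lit 101, nat_lit 21694779456), (nat_lit 81, nat_lit 21678010368), (nat_lit 26, nat_lit 21678006336), (nat_lit 63, nat_lit 22768521216), (nat_lit 21, nat_lit 22751748096), (nat_lit 109, nat_lit 22751744064), (nat_lit 49, nat_lit 23825485824)]⟩,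
   ⟨V6_17366261760, [(nat_lit 97, nat_lit 17399828544), (nat_lit 81, nat_lit 18473570304), (nat_lit 40, nat_lit 18473566272), (nat_lit 31, nat_lit 18456793152), (nat_lit 78, nat_lit 19547308032), (nat_lit 67, nat_lit 19547304000), (nat_lit 88, nat_lit 19530534912), (nat_lit 69, nat_lit 19530530880), (nat_lit 39, nat_lit 19513757760), (nat_lit 53, nat_lit 20621045760), (nat_lit 84, nat_lit 20621041728), (nat_lit 118, nat_lit 20604272640), (nat_lit 2, nat_lit 20604268608), (nat_lit 108, nat_lit 20587499520), (nat_lit 120, nat_lit 20587495488), (nat_lit 34, nat_lit 21694783488), (nat_lit 45, nat_lit 21678010368), (nat_lit 51, nat_lit 21678006336), (nat_lit 14, nat_lit 21661237248), (nat_lit 113, nat_lit 21661233216), (nat_lit 13, nat_lit 22751748096), (nat_lit 123, nat_lit 22734974976), (nat_lit 75, nat_lit 22734970944), (nat_lit 74, nat_lit 23808712704)]⟩],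
  [W_17315938304, W_17299165184, W_16242196544, W_16225423424, W_15235297280, W_15235039232, W_15218524160, W_15218262080, W_15202009088, W_15201747008, W_15201488960, W_15185231936, W_15168458816, W_14178586688, W_14178332672, W_14178328640, W_14161817600, W_14161559552, W_14145044480, W_14144782400, W_14144524352, W_14128267328, W_14111494208]⟩
theorem C_17399828544 : chkRec R_17399828544 = true := by decide +kernel

noncomputable def R_17399832576 : Rec := ⟨nat_lit 17399832576, nat_lit 107,
  [⟨V6_17399549952, [(nat_lit 17, nat_lit 17399832576), (nat_lit 83, nat_lit 18473570304), (nat_lit 46, nat_lit 18473312256), (nat_lit 35, nat_lit 19547308032), (nat_lit 33, nat_lit 19547049984), (nat_lit 25, nat_lit 20621045760), (nat_lit 30, nat_lit 20620787712), (nat_lit 13, nat_lit 21694783488), (nat_lit 41, nat_lit 21694525440), (nat_lit 25, nat_lit 22768521216), (nat_lit 91, nat_lit 22768263168), (nat_lit 53, nat_lit 23842000896)]⟩,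
   ⟨V6_16242204672, [(nat_lit 115, nat_lit 17399832576), (nat_lit 36, nat_lit 18456797184), (nat_lit 79, nat_lit 19513761792), (nat_lit 125, nat_lit 20570726400), (nat_lit 96, nat_lit 21627691008), (nat_lit 2, nat_lit 22684655616)]⟩,
   ⟨V6_15252332544, [(nat_lit 105, nat_lit 17399832576), (nat_lit 51, nat_lit 18473570304), (nat_lit 15, nat_lit 19547308032), (nat_lit 103, nat_lit 20621045760), (nat_lit 117, nat_lit 21694783488)]⟩],
  [W_17315938304, W_17299165184, W_17298907136, W_15235297280, W_15218524160, W_15202009088, W_14161817600, W_14161559552, W_14145044480, W_14128013312]⟩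
theorem C_17399832576 : chkRec R_17399832576 = true := by decide +kernel

noncomputable def R_17400078465 : Rec := ⟨nat_lit 17400078465, nat_lit 42,
  [⟨V6_17316192384, [(nat_lit 19, nat_lit 17400078465), (nat_lit 107, nat_lit 18473820288), (nat_lit 78, nat_lit 18457043073), (nat_lit 43, nat_lit 19530784896), (nat_lit 73, nat_lit 19514007681), (nat_lit 23, nat_lit 20587749504), (nat_lit 47, nat_lit 20570972289), (nat_lit 96, nat_lit 21644714112), (nat_lit 67, nat_lit 21627936897), (nat_lit 18, nat_lit 22701678720), (nat_lit 68, nat_lit 22684901505), (nat_lit 45, nat_lit 23758643328)]⟩,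
   ⟨V6_16242450561, [(nat_lit 102, nat_lit 17400078465), (nat_lit 75, nat_lit 18457043073), (nat_lit 27, nat_lit 19514007681), (nat_lit 17, nat_lit 20570972289), (nat_lit 73, nat_lit 21627936897), (nat_lit 110, nat_lit 22684901505)]⟩,
   ⟨V6_15235031169, [(nat_lit 66, nat_lit 17400078465), (nat_lit 7, nat_lit 18473558145), (nat_lit 62, nat_lit 18457043073), (nat_lit 59, nat_lit 19547037825), (nat_lit 16, nat_lit 19530522753), (nat_lit 12, nat_lit 20620517505), (nat_lit 53, nat_lit 20604002433), (nat_lit 99, nat_lit 21677482113)]⟩],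
  [W_17398767680, W_17398505600, W_17382252608, W_17381990528, W_16325288000, W_15251808320, W_15251546240, W_14178328640, W_14161813568]⟩
theorem C_17400078465 : chkRec R_17400078465 = true := by decide +kernel

noncomputable def R_17400082497 : Rec := ⟨nat_lit 17400082497, nat_lit 70,
  [⟨V6_16276004928, [(nat_lit 86, nat_lit 17400082497), (nat_lit 45, nat_lit 18473824320), (nat_lit 68, nat_lit 18473820225), (nat_lit 2, nat_lit 18457047105), (nat_lit 35, nat_lit 19547562048), (nat_lit 8, nat_lit 19530788928), (nat_lit 29, nat_lit 19530784833), (nat_lit 20, nat_lit 19514011713), (nat_lit 56, nat_lit 20604526656), (nat_lit 35, nat_lit 20587753536), (nat_lit 49, nat_lit 20587749441), (nat_lit 54, nat_lit 20570976321), (nat_lit 83, nat_lit 21661491264), (nat_lit 52, nat_lit 21644718144), (nat_lit 99, nat_lit 21644714049), (nat_lit 65, nat_lit 22718455872)]⟩,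
   ⟨V6_14178848832, [(nat_lit 65, nat_lit 17400082497), (nat_lit 13, nat_lit 18473824320), (nat_lit 126, nat_lit 18473820225), (nat_lit 98, nat_lit 19547562048), (nat_lit 104, nat_lit 19547557953), (nat_lit 91, nat_lit 20621299776)]⟩],
  [W_17399025728, W_17398767680, W_17381994560, W_17332965440, W_17316192320, W_17315934272, W_16325546048, W_16325029952, W_16308514880, W_16242454592, W_14178586688, W_14178328640, W_14178070592, W_14161555520]⟩
theorem C_17400082497 : chkRec R_17400082497 = true := by decide +kernel

noncomputable def R_17400082560 : Rec := ⟨nat_lit 17400082560, nat_lit 170,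
  [⟨V6_17349746688, [(nat_lit 1, nat_lit 17400082560), (nat_lit 47, nat_lit 18473824320), (nat_lit 21, nat_lit 18473820288), (nat_lit 95, nat_lit 18457047168), (nat_lit 88, nat_lit 19547566080), (nat_lit 46, nat_lit 19547562048), (nat_lit 95, nat_lit 19530788928), (nat_lit 48, nat_lit 19530784896), (nat_lit 46, nat_lit 19514011776), (nat_lit 105, nat_lit 20621303808), (nat_lit 117, nat_lit 20604530688), (nat_lit 64, nat_lit 20604526656), (nat_lit 75, nat_lit 20587753536), (nat_lit 86, nat_lit 20587749504), (nat_lit 17, nat_lit 20570976384), (nat_lit 86, nat_lit 21678268416), (nat_lit 26, nat_lit 21661495296), (nat_lit 71, nat_lit 21661491264), (nat_lit 70, nat_lit 21644718144), (nat_lit 34, nat_lit 21644714112), (nat_lit 95, nat_lit 22735233024), (nat_lit 23, nat_lit 22718459904), (nat_lit 102, nat_lit 22718455872), (nat_lit 69, nat_lit 23792197632)]⟩,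
   ⟨V6_16292782080, [(nat_lit 15, nat_lit 17400082560), (nat_lit 126, nat_lit 18473824320), (nat_lit 90, nat_lit 18473820288), (nat_lit 14, nat_lit 18457047168), (nat_lit 79, nat_lit 19547566080), (nat_lit 119, nat_lit 19547562048), (nat_lit 76, nat_lit 19530788928), (nat_lit 121, nat_lit 19530784896), (nat_lit 11, nat_lit 19514011776), (nat_lit 76, nat_lit 20621303808), (nat_lit 72, nat_lit 20604530688), (nat_lit 11, nat_lit 20604526656), (nat_lit 24, nat_lit 20587753536), (nat_lit 110, nat_lit 20587749504), (nat_lit 117, nat_lit 21678268416), (nat_lit 108, nat_lit 21661495296), (nat_lit 66, nat_lit 21661491264), (nat_lit 96, nat_lit 22735233024)]⟩,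
   ⟨V6_15235817472, [(nat_lit 17, nat_lit 17400082560), (nat_lit 44, nat_lit 18473824320), (nat_lit 59, nat_lit 18473820288), (nat_lit 121, nat_lit 18457047168), (nat_lit 64, nat_lit 19547566080), (nat_lit 104, nat_lit 19547562048), (nat_lit 113, nat_lit 19530788928), (nat_lit 89, nat_lit 19530784896), (nat_lit 124, nat_lit 20621303808), (nat_lit 95, nat_lit 20604530688), (nat_lit 37, nat_lit 20604526656), (nat_lit 77, nat_lit 21678268416)]⟩],
  [W_17398771712, W_17398767680, W_17382256640, W_17381990528, W_17316196352, W_17316192320, W_17315934272, W_16325292032, W_16325029952, W_16308514880, W_16242454592, W_16242450560, W_16242192512, W_15251812352, W_15251546240, W_15235297280, W_15185489984, W_15168712832, W_14178332672, W_14178070592, W_14177808512, W_14161817600, W_14161555520, W_14145302528, W_14128263296]⟩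
theorem C_17400082560 : chkRec R_17400082560 = true := by decide +kernel

noncomputable def R_17400086592 : Rec := ⟨nat_lit 17400086592, nat_lit 246,
  [⟨V6_17399549952, [(nat_lit 21, nat_lit 17400086592), (nat_lit 3, nat_lit 18473828352), (nat_lit 45, nat_lit 18473824320), (nat_lit 113, nat_lit 18473566272), (nat_lit 25, nat_lit 19547566080), (nat_lit 52, nat_lit 19547562048), (nat_lit 71, nat_lit 19547308032), (nat_lit 64, nat_lit 19547304000), (nat_lit 93, nat_lit 19547045952), (nat_lit 96, nat_lit 20621303808), (nat_lit 51, nat_lit 20621299776), (nat_lit 36, nat_lit 20621045760), (nat_lit 108, nat_lit 20621041728), (nat_lit 9, nat_lit 20620787712), (nat_lit 40, nat_lit 20620783680), (nat_lit 106, nat_lit 21695041536), (nat_lit 112, nat_lit 21694783488), (nat_lit 66, nat_lit 21694779456), (nat_lit 41, nat_lit 21694525440), (nat_lit 110, nat_lit 21694521408), (nat_lit 16, nat_lit 22768521216), (nat_lit 107, nat_lit 22768263168), (nat_lit 51, nat_lit 22768259136), (nat_lit 80, nat_lit 23842000896)]⟩,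
   ⟨V6_17382260736, [(nat_lit 52, nat_lit 17400086592), (nat_lit 44, nat_lit 18473828352), (nat_lit 105, nat_lit 18473566272), (nat_lit 22, nat_lit 18457051200), (nat_lit 104, nat_lit 19547308032), (nat_lit 87, nat_lit 19547045952), (nat_lit 46, nat_lit 19530792960), (nat_lit 75, nat_lit 19530530880), (nat_lit 88, nat_lit 20620787712), (nat_lit 93, nat_lit 20620525632), (nat_lit 96, nat_lit 20604272640), (nat_lit 119, nat_lit 20604010560), (nat_lit 88, nat_lit 21694267392), (nat_lit 27, nat_lit 21694005312), (nat_lit 122, nat_lit 21677752320), (nat_lit 83, nat_lit 21677490240), (nat_lit 104, nat_lit 22767747072), (nat_lit 5, nat_lit 22751232000), (nat_lit 52, nat_lit 22750969920), (nat_lit 50, nat_lit 23824711680)]⟩,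
   ⟨V6_17366519808, [(nat_lit 90, nat_lit 17400086592), (nat_lit 118, nat_lit 18473828352), (nat_lit 103, nat_lit 18473824320), (nat_lit 107, nat_lit 18457051200), (nat_lit 94, nat_lit 19547566080), (nat_lit 50, nat_lit 19547562048), (nat_lit 112, nat_lit 19530792960), (nat_lit 59, nat_lit 19530788928), (nat_lit 125, nat_lit 19514015808), (nat_lit 121, nat_lit 20621303808), (nat_lit 75, nat_lit 20621299776), (nat_lit 98, nat_lit 20604530688), (nat_lit 5, nat_lit 20604526656), (nat_lit 104, nat_lit 20587757568), (nat_lit 115, nat_lit 20587753536), (nat_lit 115, nat_lit 21695041536), (nat_lit 68, nat_lit 21678268416), (nat_lit 113, nat_lit 21678264384), (nat_lit 56, nat_lit 21661495296), (nat_lit 84, nat_lit 21661491264), (nat_lit 34, nat_lit 22752006144), (nat_lit 67, nat_lit 22735233024), (nat_lit 93, nat_lit 22735228992), (nat_lit 111, nat_lit 23808970752)]⟩,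
   ⟨V6_17349742656, [(nat_lit 115, nat_lit 17400086592), (nat_lit 13, nat_lit 18473824320), (nat_lit 99, nat_lit 18457051200), (nat_lit 73, nat_lit 19547562048), (nat_lit 26, nat_lit 19530788928), (nat_lit 115, nat_lit 19514015808), (nat_lit 101, nat_lit 20621299776), (nat_lit 44, nat_lit 20604526656), (nat_lit 25, nat_lit 20587753536), (nat_lit 59, nat_lit 20570980416), (nat_lit 10, nat_lit 21678264384), (nat_lit 120, nat_lit 21661491264), (nat_lit 72, nat_lit 21644718144), (nat_lit 3, nat_lit 22735228992), (nat_lit 72, nat_lit 22718455872), (nat_lit 85, nat_lit 23792193600)]⟩,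
   ⟨V6_16325296128, [(nat_lit 83, nat_lit 17400086592), (nat_lit 22, nat_lit 18473828352), (nat_lit 33, nat_lit 18473566272), (nat_lit 46, nat_lit 19547308032), (nat_lit 29, nat_lit 19547045952), (nat_lit 25, nat_lit 20620787712), (nat_lit 99, nat_lit 20620525632), (nat_lit 2, nat_lit 21694267392), (nat_lit 7, nat_lit 21694005312), (nat_lit 14, nat_lit 22767747072)]⟩,
   ⟨V6_16308518976, [(nat_lit 112, nat_lit 17400086592), (nat_lit 64, nat_lit 18473566272), (nat_lit 15, nat_lit 18457051200), (nat_lit 4, nat_lit 19547045952), (nat_lit 14, nat_lit 19530530880), (nat_lit 112, nat_lit 20620525632), (nat_lit 72, nat_lit 20604010560), (nat_lit 21, nat_lit 21694005312), (nat_lit 16, nat_lit 21677490240), (nat_lit 84, nat_lit 22750969920)]⟩,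
   ⟨V6_15252328512, [(nat_lit 77, nat_lit 17400086592), (nat_lit 34, nat_lit 18473824320), (nat_lit 12, nat_lit 18473566272), (nat_lit 19, nat_lit 19547562048), (nat_lit 55, nat_lit 19547304000), (nat_lit 62, nat_lit 20621299776), (nat_lit 6, nat_lit 20621041728), (nat_lit 25, nat_lit 21694779456)]⟩],
  [W_17382256640, W_17316196352, W_17316192320, W_17315938304, W_16242458624, W_16242454592, W_16242196544, W_15235297280, W_15235039232, W_15218524160, W_15202009088, W_15185494016, W_15185231936, W_15168716864, W_14178590720, W_14178586688, W_14178332672, W_14178328640, W_14161817600, W_14161813568, W_14161559552, W_14145044480, W_14144782400, W_14128529408, W_14128525376, W_14128267328]⟩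
theorem C_17400086592 : chkRec R_17400086592 = true := by decide +kernel

noncomputable def R_17400090624 : Rec := ⟨nat_lit 17400090624, nat_lit 170,
  [⟨V6_17399549952, [(nat_lit 67, nat_lit 17400090624), (nat_lit 112, nat_lit 18473828352), (nat_lit 45, nat_lit 18473570304), (nat_lit 96, nat_lit 19547566080), (nat_lit 12, nat_lit 19547308032), (nat_lit 63, nat_lit 19547049984), (nat_lit 47, nat_lit 20621303808), (nat_lit 47, nat_lit 20621045760), (nat_lit 57, nat_lit 20620787712), (nat_lit 78, nat_lit 21695041536), (nat_lit 123, nat_lit 21694783488), (nat_lit 18, nat_lit 21694525440), (nat_lit 27, nat_lit 22768521216), (nat_lit 120, nat_lit 22768263168), (nat_lit 74, nat_lit 23842000896)]⟩,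
   ⟨V6_17349746688, [(nat_lit 18, nat_lit 17400090624), (nat_lit 46, nat_lit 18473828352), (nat_lit 81, nat_lit 18457055232), (nat_lit 61, nat_lit 19547566080), (nat_lit 59, nat_lit 19530792960), (nat_lit 37, nat_lit 19514019840), (nat_lit 23, nat_lit 20621303808), (nat_lit 15, nat_lit 20604530688), (nat_lit 13, nat_lit 20587757568), (nat_lit 117, nat_lit 20570984448), (nat_lit 28, nat_lit 21678268416), (nat_lit 58, nat_lit 21661495296), (nat_lit 55, nat_lit 21644722176), (nat_lit 42, nat_lit 22735233024), (nat_lit 3, nat_lit 22718459904), (nat_lit 1, nat_lit 23792197632)]⟩,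
   ⟨V6_15235817472, [(nat_lit 98, nat_lit 17400090624), (nat_lit 22, nat_lit 18473828352), (nat_lit 10, nat_lit 18457055232), (nat_lit 79, nat_lit 19547566080), (nat_lit 59, nat_lit 19530792960), (nat_lit 32, nat_lit 20621303808), (nat_lit 48, nat_lit 20604530688), (nat_lit 93, nat_lit 21678268416)]⟩],
  [W_17332195328, W_17316196352, W_17315938304, W_16242458624, W_15235297280, W_15235039232, W_15218524160, W_15218266112, W_15202009088, W_15185494016, W_15168720896, W_14178332672, W_14161817600, W_14161559552, W_14161301504, W_14145302528, W_14145044480]⟩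
theorem C_17400090624 : chkRec R_17400090624 = true := by decide +kernel

noncomputable def R_17400340545 : Rec := ⟨nat_lit 17400340545, nat_lit 45,
  [⟨V6_17332965441, [(nat_lit 13, nat_lit 17400340545), (nat_lit 64, nat_lit 18474078273), (nat_lit 105, nat_lit 18473820225), (nat_lit 58, nat_lit 18457305153), (nat_lit 79, nat_lit 19547557953), (nat_lit 3, nat_lit 19531042881), (nat_lit 85, nat_lit 19530784833), (nat_lit 91, nat_lit 19514269761), (nat_lit 81, nat_lit 20604522561), (nat_lit 119, nat_lit 20588007489), (nat_lit 97, nat_lit 20587749441), (nat_lit 86, nat_lit 20571234369), (nat_lit 49, nat_lit 21661487169), (nat_lit 95, nat_lit 21644972097), (nat_lit 33, nat_lit 21644714049), (nat_lit 40, nat_lit 21628198977), (nat_lit 30, nat_lit 22718451777), (nat_lit 54, nat_lit 22701936705), (nat_lit 50, nat_lit 22701678657), (nat_lit 123, nat_lit 23775416385)]⟩,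
   ⟨V6_15252328512, [(nat_lit 31, nat_lit 17400340545), (nat_lit 2, nat_lit 18474082368), (nat_lit 80, nat_lit 18474078273), (nat_lit 1, nat_lit 18473820225), (nat_lit 14, nat_lit 19547820096), (nat_lit 34, nat_lit 19547562048), (nat_lit 22, nat_lit 19547557953), (nat_lit 83, nat_lit 19547299905), (nat_lit 16, nat_lit 20621299776), (nat_lit 27, nat_lit 20621041728), (nat_lit 49, nat_lit 20621037633), (nat_lit 69, nat_lit 21694779456)]⟩,
   ⟨V6_15185748033, [(nat_lit 39, nat_lit 17400340545), (nat_lit 90, nat_lit 18457305153), (nat_lit 123, nat_lit 19514269761), (nat_lit 62, nat_lit 20571234369), (nat_lit 30, nat_lit 21628198977)]⟩,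
   ⟨V6_14178848832, [(nat_lit 124, nat_lit 17400340545), (nat_lit 57, nat_lit 18474082368), (nat_lit 38, nat_lit 18474078273), (nat_lit 38, nat_lit 18473820225), (nat_lit 45, nat_lit 19547820096), (nat_lit 125, nat_lit 19547562048), (nat_lit 58, nat_lit 19547557953), (nat_lit 35, nat_lit 20621299776)]⟩],
  [W_17399025728, W_17398767680, W_16325546048, W_16292515904, W_16259485760, W_14161813568, W_14145556544, W_14128783424]⟩
theorem C_17400340545 : chkRec R_17400340545 = true := by decide +kernel

noncomputable def R_17400340608 : Rec := ⟨nat_lit 17400340608, nat_lit 85,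
  [⟨V6_15252332544, [(nat_lit 72, nat_lit 17400340608), (nat_lit 26, nat_lit 18474082368), (nat_lit 80, nat_lit 18473820288), (nat_lit 108, nat_lit 19547824128), (nat_lit 61, nat_lit 19547562048), (nat_lit 56, nat_lit 19547299968), (nat_lit 65, nat_lit 20621303808), (nat_lit 97, nat_lit 20621041728), (nat_lit 123, nat_lit 21694783488)]⟩,
   ⟨V6_15235817472, [(nat_lit 4, nat_lit 17400340608), (nat_lit 79, nat_lit 18474082368), (nat_lit 30, nat_lit 18473820288), (nat_lit 119, nat_lit 18457305216), (nat_lit 72, nat_lit 19547824128), (nat_lit 80, nat_lit 19547562048), (nat_lit 75, nat_lit 19531046976), (nat_lit 1, nat_lit 19530784896), (nat_lit 102, nat_lit 20621303808), (nat_lit 50, nat_lit 20604788736), (nat_lit 55, nat_lit 20604526656), (nat_lit 117, nat_lit 21678268416)]⟩],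
  [W_17399029760, W_17398767680, W_17398505600, W_17381990528, W_17365475456, W_17332445312, W_16308510848, W_16259489792, W_15251546240, W_15202525184, W_15202001024, W_15185485952, W_14178328640, W_14161813568, W_14145560576, W_14128783424]⟩
theorem C_17400340608 : chkRec R_17400340608 = true := by decide +kernel

noncomputable def R_17400344640 : Rec := ⟨nat_lit 17400344640, nat_lit 196,
  [⟨V6_17399549952, [(nat_lit 61, nat_lit 17400344640), (nat_lit 54, nat_lit 18474086400), (nat_lit 116, nat_lit 18474082368), (nat_lit 10, nat_lit 18473824320), (nat_lit 26, nat_lit 19547824128), (nat_lit 73, nat_lit 19547820096), (nat_lit 82, nat_lit 19547566080), (nat_lit 119, nat_lit 19547562048), (nat_lit 96, nat_lit 19547304000), (nat_lit 124, nat_lit 20621561856), (nat_lit 104, nat_lit 20621303808), (nat_lit 97, nat_lit 20621299776), (nat_lit 96, nat_lit 20621045760), (nat_lit 93, nat_lit 20621041728), (nat_lit 30, nat_lit 20620783680), (nat_lit 12, nat_lit 21695041536), (nat_lit 57, nat_lit 21694783488), (nat_lit 104, nat_lit 21694779456), (nat_lit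 97, nat_lit 21694525440), (nat_lit 65, nat_lit 21694521408), (nat_lit 29, nat_lit 22768521216), (nat_lit 38, nat_lit 22768263168), (nat_lit 121, nat_lit 22768259136), (nat_lit 9, nat_lit 23842000896)]⟩,
   ⟨V6_17382776832, [(nat_lit 114, nat_lit 17400344640), (nat_lit 6, nat_lit 18474086400), (nat_lit 14, nat_lit 18474082368), (nat_lit 116, nat_lit 18473824320), (nat_lit 40, nat_lit 18457309248), (nat_lit 66, nat_lit 19547824128), (nat_lit 67, nat_lit 19547566080), (nat_lit 76, nat_lit 19547562048), (nat_lit 50, nat_lit 19547304000), (nat_lit 31, nat_lit 19531051008), (nat_lit 91, nat_lit 19531046976), (nat_lit 32, nat_lit 19530788928), (nat_lit 120, nat_lit 20621303808), (nat_lit 51, nat_lit 20621045760), (nat_lit 90, nat_lit 20621041728), (nat_lit 5, nat_lit 20620783680), (nat_lit 21, nat_lit 20604788736), (nat_lit 111, nat_lit 20604530688), (nat_lit 123, nat_lit 20604526656), (nat_lit 78, nat_lit 20604268608), (nat_lit 62, nat_lit 21694783488), (nat_lit 33, nat_lit 21694525440), (nat_lit 57, nat_lit 21694521408), (nat_lit 34, nat_lit 21678268416),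 (nat_lit 51, nat_lit 21678010368), (nat_lit 19, nat_lit 21678006336), (nat_lit 54, nat_lit 21677748288), (nat_lit 20, nat_lit 22768263168), (nat_lit 50, nat_lit 22751748096), (nat_lit 121, nat_lit 22751490048), (nat_lit 54, nat_lit 22751486016), (nat_lit 25, nat_lit 23825227776)]⟩,
   ⟨V6_15252328512, [(nat_lit 35, nat_lit 17400344640), (nat_lit 41, nat_lit 18474082368), (nat_lit 64, nat_lit 18473824320), (nat_lit 11, nat_lit 19547820096), (nat_lit 85, nat_lit 19547562048), (nat_lit 19, nat_lit 19547304000), (nat_lit 98, nat_lit 20621299776), (nat_lit 111, nat_lit 20621041728), (nat_lit 24, nat_lit 21694779456)]⟩,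
   ⟨V6_15235813440, [(nat_lit 110, nat_lit 17400344640), (nat_lit 22, nat_lit 18474082368), (nat_lit 124, nat_lit 18473824320), (nat_lit 40, nat_lit 18457309248), (nat_lit 39, nat_lit 19547820096), (nat_lit 74, nat_lit 19547562048), (nat_lit 72, nat_lit 19531046976), (nat_lit 97, nat_lit 19530788928), (nat_lit 42, nat_lit 20621299776), (nat_lit 55, nat_lit 20604784704), (nat_lit 56, nat_lit 20604526656), (nat_lit 56, nat_lit 21678264384)]⟩,
   ⟨V6_14179110912, [(nat_lit 17, nat_lit 17400344640), (nat_lit 114, nat_lit 18474086400), (nat_lit 50, nat_lit 18474082368), (nat_lit 112, nat_lit 19547824128), (nat_lit 119, nat_lit 19547820096), (nat_lit 54, nat_lit 20621561856)]⟩],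
  [W_17398771712, W_17398767680, W_17382256640, W_17333227520, W_17332965440, W_16325029952, W_16276262912, W_16276000832, W_16259489792, W_16259485760, W_15235297280, W_15219298304, W_15202525184, W_15185752064, W_15185489984, W_14178848768, W_14178590720, W_14178586688, W_14178332672, W_14178328640, W_14162333696, W_14161817600, W_14161813568, W_14145560576, W_14145302528, W_14128787456, W_14128783424, W_14128525376, W_14112010304]⟩
theorem C_17400344640 : chkRec R_17400344640 = true := by decide +kernel

noncomputable def R_17400348672 : Rec := ⟨nat_lit 17400348672, nat_lit 172,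
  [⟨V6_17399549952, [(nat_lit 98, nat_lit 17400348672), (nat_lit 13, nat_lit 18474086400), (nat_lit 73, nat_lit 18473828352), (nat_lit 104, nat_lit 19547824128), (nat_lit 1, nat_lit 19547566080), (nat_lit 67, nat_lit 19547308032), (nat_lit 123, nat_lit 20621561856), (nat_lit 114, nat_lit 20621303808), (nat_lit 87, nat_lit 20621045760), (nat_lit 85, nat_lit 20620787712), (nat_lit 63, nat_lit 21695041536), (nat_lit 45, nat_lit 21694783488), (nat_lit 4, nat_lit 21694525440), (nat_lit 21, nat_lit 22768521216), (nat_lit 35, nat_lit 22768263168), (nat_lit 93, nat_lit 23842000896)]⟩,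
   ⟨V6_17382260736, [(nat_lit 93, nat_lit 17400348672), (nat_lit 97, nat_lit 18473828352), (nat_lit 29, nat_lit 18457313280), (nat_lit 57, nat_lit 19547308032), (nat_lit 50, nat_lit 19530792960), (nat_lit 55, nat_lit 20620787712), (nat_lit 120, nat_lit 20604272640), (nat_lit 117, nat_lit 21694267392), (nat_lit 126, nat_lit 21677752320), (nat_lit 46, nat_lit 22767747072), (nat_lit 46, nat_lit 22751232000), (nat_lit 95, nat_lit 23824711680)]⟩,
   ⟨V6_16325296128, [(nat_lit 99, nat_lit 17400348672), (nat_lit 112, nat_lit 18473828352), (nat_lit 13, nat_lit 19547308032), (nat_lit 95, nat_lit 20620787712), (nat_lit 121, nat_lit 21694267392), (nat_lit 99, nat_lit 22767747072)]⟩,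
   ⟨V6_15235817472, [(nat_lit 30, nat_lit 17400348672), (nat_lit 41, nat_lit 18474086400), (nat_lit 3, nat_lit 18473828352), (nat_lit 13, nat_lit 18457313280), (nat_lit 110, nat_lit 19547824128), (nat_lit 63, nat_lit 19547566080), (nat_lit 37, nat_lit 19531051008), (nat_lit 4, nat_lit 19530792960), (nat_lit 56, nat_lit 20621303808), (nat_lit 23, nat_lit 20604788736), (nat_lit 72, nat_lit 20604530688), (nat_lit 68, nat_lit 21678268416)]⟩],
  [W_17382256640, W_17365483520, W_17333227520, W_16276262912, W_15235297280, W_15218524160, W_15202525184, W_15202009088, W_15185752064, W_15185494016, W_14179106816, W_14161817600, W_14161559552, W_14145302528, W_14145044480, W_14128787456, W_14112014336]⟩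
theorem C_17400348672 : chkRec R_17400348672 = true := by decide +kernel

noncomputable def R_17400598593 : Rec := ⟨nat_lit 17400598593, nat_lit 16,
  [⟨V6_14178848832, [(nat_lit 59, nat_lit 17400598593), (nat_lit 62, nat_lit 18474340416), (nat_lit 16, nat_lit 18474078273), (nat_lit 48, nat_lit 19547820096), (nat_lit 4, nat_lit 19547557953), (nat_lit 101, nat_lit 20621299776)]⟩,
   ⟨V6_14145556545, [(nat_lit 39, nat_lit 17400598593), (nat_lit 95, nat_lit 18474078273), (nat_lit 44, nat_lit 18457563201), (nat_lit 34, nat_lit 19531042881), (nat_lit 89, nat_lit 19514527809), (nat_lit 55, nat_lit 20588007489)]⟩],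
  [W_17399025728, W_16325546048, W_15202521152]⟩
theorem C_17400598593 : chkRec R_17400598593 = true := by decide +kernel

noncomputable def R_17400602688 : Rec := ⟨nat_lit 17400602688, nat_lit 118,
  [⟨V6_16325812224, [(nat_lit 116, nat_lit 17400602688), (nat_lit 19, nat_lit 18474344448), (nat_lit 122, nat_lit 18474082368), (nat_lit 14, nat_lit 19547824128), (nat_lit 32, nat_lit 19547562048), (nat_lit 66, nat_lit 20621303808), (nat_lit 123, nat_lit 20621041728), (nat_lit 23, nat_lit 21694783488), (nat_lit 120, nat_lit 21694521408), (nat_lit 55, nat_lit 22768263168)]⟩,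
   ⟨V6_15252332544, [(nat_lit 15, nat_lit 17400602688), (nat_lit 60, nat_lit 18474344448), (nat_lit 25, nat_lit 18474082368), (nat_lit 122, nat_lit 19547824128), (nat_lit 76, nat_lit 19547562048), (nat_lit 18, nat_lit 20621303808), (nat_lit 24, nat_lit 20621041728), (nat_lit 99, nat_lit 21694783488)]⟩,
   ⟨V6_15252328512, [(nat_lit 52, nat_lit 17400602688), (nat_lit 84, nat_lit 18474340416), (nat_lit 82, nat_lit 18474082368), (nat_lit 65, nat_lit 19547820096), (nat_lit 91, nat_lit 19547562048), (nat_lit 75, nat_lit 20621299776), (nat_lit 71, nat_lit 20621041728), (nat_lit 75, nat_lit 21694779456)]⟩,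
   ⟨V6_14178848832, [(nat_lit 26, nat_lit 17400602688), (nat_lit 105, nat_lit 18474340416), (nat_lit 51, nat_lit 18474082368), (nat_lit 91, nat_lit 19547820096), (nat_lit 32, nat_lit 19547562048), (nat_lit 45, nat_lit 20621299776)]⟩],
  [W_17399029760, W_17399025728, W_17398767680, W_16276262912, W_16276000832, W_15219298304, W_15202783232, W_15202525184, W_15202521152, W_14178848768, W_14178586688, W_14162333696, W_14162071616, W_14161813568, W_14145818624, W_14145560576, W_14145556544, W_14129045504, W_14128783424]⟩
theorem C_17400602688 : chkRec R_17400602688 = true := by decide +kernel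

noncomputable def R_17400606720 : Rec := ⟨nat_lit 17400606720, nat_lit 136,
  [⟨V6_17350262784, [(nat_lit 126, nat_lit 17400606720), (nat_lit 32, nat_lit 18474344448), (nat_lit 3, nat_lit 18457571328), (nat_lit 18, nat_lit 19548082176), (nat_lit 25, nat_lit 19531309056), (nat_lit 43, nat_lit 19514535936), (nat_lit 28, nat_lit 20621819904), (nat_lit 69, nat_lit 20605046784), (nat_lit 35, nat_lit 20588273664), (nat_lit 82, nat_lit 20571500544), (nat_lit 23, nat_lit 21678784512), (nat_lit 82, nat_lit 21662011392), (nat_lit 119, nat_lit 21645238272), (nat_lit 28, nat_lit 22735749120), (nat_lit 14, nat_lit 22718976000), (nat_lit 74, nat_lit 23792713728)]⟩,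
   ⟨V6_16326328320, [(nat_lit 64, nat_lit 17400606720), (nat_lit 112, nat_lit 18474344448), (nat_lit 103, nat_lit 18474086400), (nat_lit 48, nat_lit 19548082176), (nat_lit 42, nat_lit 19547824128), (nat_lit 50, nat_lit 19547566080), (nat_lit 34, nat_lit 20621819904), (nat_lit 123, nat_lit 20621561856), (nat_lit 39, nat_lit 20621303808), (nat_lit 122, nat_lit 21695299584), (nat_lit 40, nat_lit 21695041536), (nat_lit 3, nat_lit 22768779264)]⟩,
   ⟨V6_16325812224, [(nat_lit 100, nat_lit 17400606720), (nat_lit 53, nat_lit 18474344448), (nat_lit 31, nat_lit 18474086400), (nat_lit 122, nat_lit 19547824128), (nat_lit 99, nat_lit 19547566080), (nat_lit 7, nat_lit 20621303808), (nat_lit 64, nat_lit 20621045760), (nat_lit 67, nat_lit 21694783488), (nat_lit 111, nat_lit 21694525440), (nat_lit 95, nat_lit 22768263168)]⟩,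
   ⟨V6_15252332544, [(nat_lit 31, nat_lit 17400606720), (nat_lit 27, nat_lit 18474344448), (nat_lit 89, nat_lit 18474086400), (nat_lit 29, nat_lit 19547824128), (nat_lit 5, nat_lit 19547566080), (nat_lit 25, nat_lit 20621303808), (nat_lit 5, nat_lit 20621045760), (nat_lit 62, nat_lit 21694783488)]⟩,
   ⟨V6_15236333568, [(nat_lit 107, nat_lit 17400606720), (nat_lit 120, nat_lit 18474344448), (nat_lit 10, nat_lit 18457571328), (nat_lit 64, nat_lit 19548082176), (nat_lit 95, nat_lit 19531309056), (nat_lit 110, nat_lit 20621819904), (nat_lit 55, nat_lit 20605046784), (nat_lit 71, nat_lit 21678784512)]⟩,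
   ⟨V6_14179110912, [(nat_lit 84, nat_lit 17400606720), (nat_lit 37, nat_lit 18474344448), (nat_lit 111, nat_lit 18474086400), (nat_lit 17, nat_lit 19548082176), (nat_lit 1, nat_lit 19547824128), (nat_lit 6, nat_lit 20621561856)]⟩],
  [W_17398771712, W_17382256640, W_17350000640, W_16325292032, W_16276520960, W_16276262912, W_15235297280, W_15219298304, W_15202783232, W_15202525184, W_14179106816, W_14162591744, W_14161817600, W_14145818624, W_14145302528, W_14129045504, W_14128787456]⟩
theorem C_17400606720 : chkRec R_17400606720 = true := by decide +kernel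

noncomputable def R_17400860736 : Rec := ⟨nat_lit 17400860736, nat_lit 42,
  [⟨V6_16325808192, [(nat_lit 73, nat_lit 17400860736), (nat_lit 12, nat_lit 18474340416), (nat_lit 66, nat_lit 19547820096), (nat_lit 125, nat_lit 20621299776), (nat_lit 47, nat_lit 21694779456), (nat_lit 98, nat_lit 22768259136)]⟩,
   ⟨V6_14179110912, [(nat_lit 80, nat_lit 17400860736), (nat_lit 116, nat_lit 18474602496), (nat_lit 125, nat_lit 18474340416), (nat_lit 12, nat_lit 19548082176), (nat_lit 16, nat_lit 19547820096), (nat_lit 81, nat_lit 20621561856)]⟩,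
   ⟨V6_14146080768, [(nat_lit 92, nat_lit 17400860736), (nat_lit 92, nat_lit 18474602496), (nat_lit 125, nat_lit 18457825344), (nat_lit 15, nat_lit 19531567104), (nat_lit 82, nat_lit 19514789952), (nat_lit 95, nat_lit 20588531712)]⟩],
  [W_16292515904, W_15219298304, W_14178848768, W_14178586688, W_14162333696, W_14145818624, W_14145556544]⟩
theorem C_17400860736 : chkRec R_17400860736 = true := by decide +kernel

noncomputable def R_17400864768 : Rec := ⟨nat_lit 17400864768, nat_lit 74,
  [⟨V6_16325812224, [(nat_lit 31, nat_lit 17400864768), (nat_lit 106, nat_lit 18474344448), (nat_lit 75, nat_lit 19547824128), (nat_lit 67, nat_lit 20621303808), (nat_lit 13, nat_lit 21694783488), (nat_lit 19, nat_lit 22768263168)]⟩,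
   ⟨V6_15236333568, [(nat_lit 28, nat_lit 17400864768), (nat_lit 98, nat_lit 18474602496), (nat_lit 113, nat_lit 18474344448), (nat_lit 100, nat_lit 18457829376), (nat_lit 63, nat_lit 19548340224), (nat_lit 48, nat_lit 19548082176), (nat_lit 24, nat_lit 19531567104), (nat_lit 39, nat_lit 19531309056), (nat_lit 42, nat_lit 20621819904), (nat_lit 37, nat_lit 20605304832), (nat_lit 21, nat_lit 20605046784), (nat_lit 123, nat_lit 21678784512)]⟩,
   ⟨V6_14179110912, [(nat_lit 2, nat_lit 17400864768), (nat_lit 106, nat_lit 18474602496), (nat_lit 74, nat_lit 18474344448), (nat_lit 108, nat_lit 19548082176), (nat_lit 112, nat_lit 19547824128), (nat_lit 125, nat_lit 20621561856)]⟩],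
  [W_17399029760, W_17366515712, W_15252586496, W_15219298304, W_14178848768, W_14178590720, W_14162591744, W_14162333696, W_14145818624, W_14145560576]⟩
theorem C_17400864768 : chkRec R_17400864768 = true := by decide +kernel

noncomputable def R_17401122816 : Rec := ⟨nat_lit 17401122816, nat_lit 31,
  [⟨V6_16326328320, [(nat_lit 122, nat_lit 17401122816), (nat_lit 52, nat_lit 18474860544), (nat_lit 82, nat_lit 18474602496), (nat_lit 21, nat_lit 19548340224), (nat_lit 61, nat_lit 19548082176), (nat_lit 1, nat_lit 20621819904), (nat_lit 32, nat_lit 20621561856), (nat_lit 82, nat_lit 21695299584), (nat_lit 7, nat_lit 21695041536), (nat_lit 26, nat_lit 22768779264)]⟩,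
   ⟨V6_15236333568, [(nat_lit 74, nat_lit 17401122816), (nat_lit 60, nat_lit 18474860544), (nat_lit 57, nat_lit 18474602496), (nat_lit 118, nat_lit 18458087424), (nat_lit 83, nat_lit 19548340224), (nat_lit 39, nat_lit 19548082176), (nat_lit 46, nat_lit 19531825152), (nat_lit 80, nat_lit 19531567104), (nat_lit 63, nat_lit 20621819904), (nat_lit 3, nat_lit 20605304832), (nat_lit 95, nat_lit 20605046784), (nat_lit 28, nat_lit 21678784512)]⟩,
   ⟨V6_14179110912, [(nat_lit 73, nat_lit 17401122816), (nat_lit 15, nat_lit 18474602496), (nat_lit 56, nat_lit 19548082176), (nat_lit 79, nat_lit 20621561856)]⟩],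
  [W_17399545856, W_15252586496, W_14178848768, W_14162333696]⟩
theorem C_17401122816 : chkRec R_17401122816 = true := by decide +kernel

noncomputable def R_17401380864 : Rec := ⟨nat_lit 17401380864, nat_lit 4,
  [⟨V6_16326328320, [(nat_lit 67, nat_lit 17401380864), (nat_lit 73, nat_lit 18474860544), (nat_lit 59, nat_lit 19548340224), (nat_lit 51, nat_lit 20621819904), (nat_lit 86, nat_lit 21695299584), (nat_lit 98, nat_lit 22768779264)]⟩],
  [W_15252586496]⟩
theorem C_17401380864 : chkRec R_17401380864 = true := by decide +kernel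

noncomputable def R_17415811266 : Rec := ⟨nat_lit 17415811266, nat_lit 2,
  [⟨V6_15234511041, [(nat_lit 23, nat_lit 17415811266), (nat_lit 6, nat_lit 18489553089), (nat_lit 90, nat_lit 18489290946), (nat_lit 118, nat_lit 18472775874), (nat_lit 99, nat_lit 19563032769), (nat_lit 45, nat_lit 19546517697), (nat_lit 126, nat_lit 19546255554), (nat_lit 122, nat_lit 19529740482), (nat_lit 74, nat_lit 20619997377), (nat_lit 3, nat_lit 20603482305), (nat_lit 4, nat_lit 20603220162), (nat_lit 61, nat_lit 21676961985)]⟩,
   ⟨V6_15201218754, [(nat_lit 35, nat_lit 17415811266), (nat_lit 92, nat_lit 18472775874), (nat_lit 21, nat_lit 19529740482), (nat_lit 120, nat_lit 20586705090), (nat_lit 1, nat_lit 21643669698)]⟩],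
  [W_16291737728]⟩
theorem C_17415811266 : chkRec R_17415811266 = true := by decide +kernel

noncomputable def R_17415815298 : Rec := ⟨nat_lit 17415815298, nat_lit 8,
  [⟨V6_15234777216, [(nat_lit 104, nat_lit 17415815298), (nat_lit 112, nat_lit 18489557121), (nat_lit 5, nat_lit 18472779906), (nat_lit 122, nat_lit 19563298944), (nat_lit 1, nat_lit 19546521729), (nat_lit 92, nat_lit 19529744514), (nat_lit 24, nat_lit 20620263552), (nat_lit 116, nat_lit 20603486337), (nat_lit 107, nat_lit 21677228160)]⟩],
  [W_17365475456, W_16308510848]⟩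
theorem C_17415815298 : chkRec R_17415815298 = true := by decide +kernel

noncomputable def R_17415815361 : Rec := ⟨nat_lit 17415815361, nat_lit 11,
  [⟨V6_16291741761, [(nat_lit 60, nat_lit 17415815361), (nat_lit 19, nat_lit 18489557121), (nat_lit 6, nat_lit 18472779969), (nat_lit 44, nat_lit 19563298881), (nat_lit 63, nat_lit 19546521729), (nat_lit 74, nat_lit 19529744577), (nat_lit 2, nat_lit 20620263489), (nat_lit 99, nat_lit 20603486337), (nat_lit 89, nat_lit 20586709185), (nat_lit 24, nat_lit 21677228097), (nat_lit 23, nat_lit 21660450945), (nat_lit 113, nat_lit 22734192705)]⟩],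
  [W_16308514880, W_15234777152]⟩
theorem C_17415815361 : chkRec R_17415815361 = true := by decide +kernel

noncomputable def R_17415815424 : Rec := ⟨nat_lit 17415815424, nat_lit 14,
  [⟨V6_15268331520, [(nat_lit 125, nat_lit 17415815424), (nat_lit 29, nat_lit 18489557184), (nat_lit 59, nat_lit 19563298944), (nat_lit 56, nat_lit 20637040704), (nat_lit 77, nat_lit 21710782464)]⟩,
   ⟨V6_15201222912, [(nat_lit 103, nat_lit 17415815424), (nat_lit 24, nat_lit 18472780032), (nat_lit 11, nat_lit 19529744640), (nat_lit 81, nat_lit 20586709248), (nat_lit 61, nat_lit 21643673856)]⟩],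
  [W_17365483520, W_17331929216]⟩
theorem C_17415815424 : chkRec R_17415815424 = true := by decide +kernel

noncomputable def R_17416073346 : Rec := ⟨nat_lit 17416073346, nat_lit 8,
  [⟨V6_15235031169, [(nat_lit 94, nat_lit 17416073346), (nat_lit 37, nat_lit 18489815169), (nat_lit 91, nat_lit 18489811074), (nat_lit 72, nat_lit 18473037954), (nat_lit 5, nat_lit 19563552897), (nat_lit 81, nat_lit 19546779777), (nat_lit 112, nat_lit 19546775682), (nat_lit 24, nat_lit 19530002562), (nat_lit 110, nat_lit 20620517505), (nat_lit 115, nat_lit 20603744385), (nat_lit 82, nat_lit 20603740290), (nat_lit 65, nat_lit 21677482113)]⟩],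
  [W_17348702336, W_17332187264]⟩
theorem C_17416073346 : chkRec R_17416073346 = true := by decide +kernel

noncomputable def R_17416073409 : Rec := ⟨nat_lit 17416073409, nat_lit 14,
  [⟨V6_16274960577, [(nat_lit 35, nat_lit 17416073409), (nat_lit 109, nat_lit 18489553089), (nat_lit 50, nat_lit 18473038017), (nat_lit 40, nat_lit 19546517697), (nat_lit 77, nat_lit 19530002625), (nat_lit 23, nat_lit 20603482305), (nat_lit 25, nat_lit 20586967233), (nat_lit 75, nat_lit 21660446913), (nat_lit 26, nat_lit 21643931841), (nat_lit 32, nat_lit 22717411521)]⟩,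
   ⟨V6_15268065345, [(nat_lit 36, nat_lit 17416073409), (nat_lit 97, nat_lit 18489815169), (nat_lit 24, nat_lit 18489553089), (nat_lit 41, nat_lit 19563556929), (nat_lit 21, nat_lit 19563294849), (nat_lit 111, nat_lit 19563032769), (nat_lit 68, nat_lit 20637036609), (nat_lit 16, nat_lit 20636774529), (nat_lit 98, nat_lit 21710516289)]⟩,
   ⟨V6_15234773184, [(nat_lit 105, nat_lit 17416073409), (nat_lit 60, nat_lit 18489815232), (nat_lit 106, nat_lit 18489553089), (nat_lit 92, nat_lit 18473038017), (nat_lit 83, nat_lit 19563294912), (nat_lit 84, nat_lit 19546779840), (nat_lit 102, nat_lit 19546517697), (nat_lit 70, nat_lit 19530002625), (nat_lit 93, nat_lit 20620259520), (nat_lit 45, nat_lit 20603744448), (nat_lit 3, nat_lit 20603482305), (nat_lit 125, nat_lit 21677224128)]⟩,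
   ⟨V6_15234511041, [(nat_lit 10, nat_lit 17416073409), (nat_lit 60, nat_lit 18489553089), (nat_lit 121, nat_lit 18473038017), (nat_lit 15, nat_lit 19563032769), (nat_lit 56, nat_lit 19546517697), (nat_lit 120, nat_lit 19530002625), (nat_lit 12, nat_lit 20619997377), (nat_lit 9, nat_lit 20603482305), (nat_lit 124, nat_lit 21676961985)]⟩],
  [W_17381994560, W_16325029952, W_16308514880, W_15251550272]⟩
theorem C_17416073409 : chkRec R_17416073409 = true := by decide +kernel

noncomputable def R_17416077441 : Rec := ⟨nat_lit 17416077441, nat_lit 37,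
  [⟨V6_15235031169, [(nat_lit 70, nat_lit 17416077441), (nat_lit 101, nat_lit 18489815169), (nat_lit 65, nat_lit 18473042049), (nat_lit 24, nat_lit 19563552897), (nat_lit 73, nat_lit 19546779777), (nat_lit 77, nat_lit 19530006657), (nat_lit 32, nat_lit 20620517505), (nat_lit 37, nat_lit 20603744385), (nat_lit 99, nat_lit 21677482113)]⟩,
   ⟨V6_15234777216, [(nat_lit 112, nat_lit 17416077441), (nat_lit 64, nat_lit 18489819264), (nat_lit 3, nat_lit 18489557121), (nat_lit 5, nat_lit 18473042049), (nat_lit 97, nat_lit 19563298944), (nat_lit 115, nat_lit 19546783872), (nat_lit 58, nat_lit 19546521729), (nat_lit 117, nat_lit 19530006657), (nat_lit 23, nat_lit 20620263552), (nat_lit 48, nat_lit 20603748480), (nat_lit 54, nat_lit 20603486337), (nat_lit 91, nat_lit 21677228160)]⟩],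
  [W_17382252608, W_17365479488, W_17348960384, W_16325288000, W_15251808320]⟩
theorem C_17416077441 : chkRec R_17416077441 = true := by decide +kernel

noncomputable def R_17416077504 : Rec := ⟨nat_lit 17416077504, nat_lit 49,
  [⟨V6_16325296128, [(nat_lit 4, nat_lit 17416077504), (nat_lit 47, nat_lit 18489819264), (nat_lit 20, nat_lit 18489557184), (nat_lit 108, nat_lit 18473042112), (nat_lit 53, nat_lit 19563561024), (nat_lit 39, nat_lit 19563298944), (nat_lit 27, nat_lit 19546783872), (nat_lit 49, nat_lit 19546521792), (nat_lit 61, nat_lit 20637302784), (nat_lit 111, nat_lit 20637040704), (nat_lit 27, nat_lit 20620525632), (nat_lit 30, nat_lit 20620263552), (nat_lit 22, nat_lit 21710782464), (nat_lit 31, nat_lit 21694267392), (nat_lit 63, nat_lit 21694005312), (nat_lit 49, nat_lit 22767747072)]⟩,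
   ⟨V6_15268331520, [(nat_lit 54, nat_lit 17416077504), (nat_lit 121, nat_lit 18489819264), (nat_lit 21, nat_lit 18489557184), (nat_lit 115, nat_lit 19563561024), (nat_lit 85, nat_lit 19563298944), (nat_lit 24, nat_lit 20637302784), (nat_lit 103, nat_lit 20637040704), (nat_lit 53, nat_lit 21710782464)]⟩,
   ⟨V6_15251816448, [(nat_lit 50, nat_lit 17416077504), (nat_lit 20, nat_lit 18489819264), (nat_lit 71, nat_lit 18473042112), (nat_lit 89, nat_lit 19563561024), (nat_lit 46, nat_lit 19546783872), (nat_lit 22, nat_lit 20637302784), (nat_lit 84, nat_lit 20620525632), (nat_lit 3, nat_lit 21694267392)]⟩],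
  [W_17382256640, W_17365483520, W_17348706368, W_17332187264, W_17331925184, W_17315152064, W_17298636992, W_16325292032]⟩
theorem C_17416077504 : chkRec R_17416077504 = true := by decide +kernel

noncomputable def R_17416081473 : Rec := ⟨nat_lit 17416081473, nat_lit 19,
  [⟨V6_16342323264, [(nat_lit 4, nat_lit 17416081473), (nat_lit 25, nat_lit 18489823296), (nat_lit 108, nat_lit 18489819201), (nat_lit 23, nat_lit 19563561024), (nat_lit 122, nat_lit 19563556929), (nat_lit 123, nat_lit 20637298752), (nat_lit 112, nat_lit 20637294657), (nat_lit 38, nat_lit 21711036480), (nat_lit 75, nat_lit 21711032385), (nat_lit 72, nat_lit 22784774208)]⟩,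
   ⟨V6_15268581441, [(nat_lit 53, nat_lit 17416081473), (nat_lit 59, nat_lit 18489819201), (nat_lit 67, nat_lit 19563556929), (nat_lit 18, nat_lit 20637294657), (nat_lit 28, nat_lit 21711032385)]⟩],
  [W_16325546048, W_16258453568, W_15218262080, W_15201488960]⟩
theorem C_17416081473 : chkRec R_17416081473 = true := by decide +kernel

noncomputable def R_17416081536 : Rec := ⟨nat_lit 17416081536, nat_lit 41,
  [⟨V6_15251816448, [(nat_lit 75, nat_lit 17416081536), (nat_lit 72, nat_lit 18489823296), (nat_lit 126, nat_lit 18489819264), (nat_lit 23, nat_lit 18473046144), (nat_lit 85, nat_lit 19563565056), (nat_lit 64, nat_lit 19563561024), (nat_lit 63, nat_lit 19546787904), (nat_lit 89, nat_lit 19546783872), (nat_lit 74, nat_lit 20637302784), (nat_lit 117, nat_lit 20620529664), (nat_lit 48, nat_lit 20620525632), (nat_lit 111, nat_lit 21694267392)]⟩,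
   ⟨V6_15235043328, [(nat_lit 31, nat_lit 17416081536), (nat_lit 92, nat_lit 18489823296), (nat_lit 29, nat_lit 18473046144), (nat_lit 15, nat_lit 19563565056), (nat_lit 10, nat_lit 19546787904), (nat_lit 124, nat_lit 19530010752), (nat_lit 64, nat_lit 20620529664), (nat_lit 98, nat_lit 20603752512), (nat_lit 122, nat_lit 21677494272)]⟩],
  [W_17348960384, W_17332195328, W_17332187264, W_16325550080, W_16275230720, W_16258453568, W_15268585472]⟩
theorem C_17416081536 : chkRec R_17416081536 = true := by decide +kernel

noncomputable def R_17416331394 : Rec := ⟨nat_lit 17416331394, nat_lit 11,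
  [⟨V6_15235031169, [(nat_lit 75, nat_lit 17416331394), (nat_lit 103, nat_lit 18490073217), (nat_lit 92, nat_lit 18489811074), (nat_lit 6, nat_lit 18473296002), (nat_lit 58, nat_lit 19563552897), (nat_lit 113, nat_lit 19547037825), (nat_lit 74, nat_lit 19546775682), (nat_lit 90, nat_lit 19530260610), (nat_lit 16, nat_lit 20620517505), (nat_lit 51, nat_lit 20604002433), (nat_lit 33, nat_lit 20603740290), (nat_lit 22, nat_lit 21677482113)]⟩],
  [W_17398505600, W_17381990528, W_17332445312, W_16341540992]⟩
theorem C_17416331394 : chkRec R_17416331394 = true := by decide +kernel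

noncomputable def R_17416335489 : Rec := ⟨nat_lit 17416335489, nat_lit 48,
  [⟨V6_15235293312, [(nat_lit 118, nat_lit 17416335489), (nat_lit 59, nat_lit 18490077312), (nat_lit 11, nat_lit 18490073217), (nat_lit 58, nat_lit 18473300097), (nat_lit 99, nat_lit 19563815040), (nat_lit 56, nat_lit 19547041920), (nat_lit 74, nat_lit 19547037825), (nat_lit 52, nat_lit 19530264705), (nat_lit 73, nat_lit 20620779648), (nat_lit 61, nat_lit 20604006528), (nat_lit 111, nat_lit 20604002433), (nat_lit 92, nat_lit 21677744256)]⟩,
   ⟨V6_15235031169, [(nat_lit 68, nat_lit 17416335489), (nat_lit 111, nat_lit 18490073217), (nat_lit 87, nat_lit 18489815169), (nat_lit 95, nat_lit 18473300097), (nat_lit 20, nat_lit 19563552897), (nat_lit 99, nat_lit 19547037825), (nat_lit 34, nat_lit 19546779777), (nat_lit 84, nat_lit 19530264705), (nat_lit 91, nat_lit 20620517505), (nat_lit 90, nat_lit 20604002433), (nat_lit 121, nat_lit 20603744385), (nat_lit 102, nat_lit 21677482113)]⟩],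
  [W_17398767680, W_17382252608, W_17381994560, W_17381990528, W_17365479488, W_17365217408, W_16341803072, W_16325029952, W_16308514880, W_16308252800, W_15251550272]⟩
theorem C_17416335489 : chkRec R_17416335489 = true := by decide +kernel

noncomputable def R_17416335552 : Rec := ⟨nat_lit 17416335552, nat_lit 45,
  [⟨V6_17366003712, [(nat_lit 108, nat_lit 17416335552), (nat_lit 68, nat_lit 18490077312), (nat_lit 95, nat_lit 18473300160), (nat_lit 26, nat_lit 19563819072), (nat_lit 36, nat_lit 19547041920), (nat_lit 53, nat_lit 19530264768), (nat_lit 92, nat_lit 20637560832), (nat_lit 91, nat_lit 20620783680), (nat_lit 124, nat_lit 20604006528), (nat_lit 1, nat_lit 20587229376), (nat_lit 9, nat_lit 21694525440), (nat_lit 46, nat_lit 21677748288), (nat_lit 57, nat_lit 21660971136), (nat_lit 118, nat_lit 22751490048), (nat_lit 99, nat_lit 22734712896), (nat_lit 84, nat_lit 23808454656)]⟩],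
  [W_17398771712, W_17382256640, W_17381994560, W_16325292032, W_16325029952, W_16308252800, W_15268327424, W_15251812352]⟩
theorem C_17416335552 : chkRec R_17416335552 = true := by decide +kernel

noncomputable def R_17416339521 : Rec := ⟨nat_lit 17416339521, nat_lit 48,
  [⟨V6_16325808192, [(nat_lit 62, nat_lit 17416339521), (nat_lit 94, nat_lit 18490081344), (nat_lit 21, nat_lit 18490077249), (nat_lit 15, nat_lit 18473304129), (nat_lit 5, nat_lit 19563819072), (nat_lit 97, nat_lit 19563814977), (nat_lit 11, nat_lit 19547045952), (nat_lit 15, nat_lit 19547041857), (nat_lit 71, nat_lit 20637556800), (nat_lit 95, nat_lit 20637552705), (nat_lit 112, nat_lit 20620783680), (nat_lit 40, nat_lit 20620779585), (nat_lit 9, nat_lit 21711294528), (nat_lit 42, nat_lit 21694521408), (nat_lit 118, nat_lit 21694517313), (nat_lit 87, nat_lit 22768259136)]⟩,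
   ⟨V6_16291741761, [(nat_lit 68, nat_lit 17416339521), (nat_lit 34, nat_lit 18489819201), (nat_lit 87, nat_lit 18473304129), (nat_lit 66, nat_lit 19563298881), (nat_lit 75, nat_lit 19546783809), (nat_lit 30, nat_lit 19530268737), (nat_lit 35, nat_lit 20620263489), (nat_lit 88, nat_lit 20603748417), (nat_lit 64, nat_lit 20587233345), (nat_lit 100, nat_lit 21677228097), (nat_lit 59, nat_lit 21660713025), (nat_lit 8, nat_lit 22734192705)]⟩,
   ⟨V6_15268843584, [(nat_lit 37, nat_lit 17416339521), (nat_lit 49, nat_lit 18490081344), (nat_lit 41, nat_lit 18490077249), (nat_lit 67, nat_lit 19563819072), (nat_lit 96, nat_lit 19563814977), (nat_lit 36, nat_lit 20637556800), (nat_lit 35, nat_lit 20637552705), (nat_lit 112, nat_lit 21711294528)]⟩],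
  [W_17348706368, W_16342061120, W_16308514880, W_16291741760, W_15251550272, W_15234777152, W_15218262080, W_15201747008]⟩
theorem C_17416339521 : chkRec R_17416339521 = true := by decide +kernel

noncomputable def R_17416339584 : Rec := ⟨nat_lit 17416339584, nat_lit 140,
  [⟨V6_17382776832, [(nat_lit 77, nat_lit 17416339584), (nat_lit 14, nat_lit 18490081344), (nat_lit 72, nat_lit 18490077312), (nat_lit 78, nat_lit 18473304192), (nat_lit 34, nat_lit 19563823104), (nat_lit 84, nat_lit 19563819072), (nat_lit 3, nat_lit 19563815040), (nat_lit 113, nat_lit 19547045952), (nat_lit 61, nat_lit 19547041920), (nat_lit 8, nat_lit 19530268800), (nat_lit 116, nat_lit 20637560832), (nat_lit 47, nat_lit 20637556800), (nat_lit 59, nat_lit 20620787712), (nat_lit 6, nat_lit 20620783680), (nat_lit 39, nat_lit 20620779648), (nat_lit 29, nat_lit 20604010560), (nat_lit 57, nat_lit 20604006528), (nat_lit 39, nat_lit 21711298560), (nat_lit 71, nat_lit 21694525440), (nat_lit 53, nat_lit 21694521408), (nat_lit 14, nat_lit 21677752320), (nat_lit 36, nat_lit 21677748288),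 (nat_lit 49, nat_lit 21677744256), (nat_lit 15, nat_lit 22768263168), (nat_lit 107, nat_lit 22751490048), (nat_lit 68, nat_lit 22751486016), (nat_lit 21, nat_lit 23825227776)]⟩,
   ⟨V6_16291741824, [(nat_lit 54, nat_lit 17416339584), (nat_lit 27, nat_lit 18489819264), (nat_lit 28, nat_lit 18473304192), (nat_lit 30, nat_lit 19563298944), (nat_lit 11, nat_lit 19546783872), (nat_lit 106, nat_lit 19530268800), (nat_lit 39, nat_lit 20620263552), (nat_lit 40, nat_lit 20603748480), (nat_lit 6, nat_lit 20587233408), (nat_lit 57, nat_lit 21677228160), (nat_lit 73, nat_lit 21660713088), (nat_lit 96, nat_lit 22734192768)]⟩,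
   ⟨V6_15268331520, [(nat_lit 119, nat_lit 17416339584), (nat_lit 58, nat_lit 18490081344), (nat_lit 62, nat_lit 18489819264), (nat_lit 123, nat_lit 19563823104), (nat_lit 13, nat_lit 19563561024), (nat_lit 4, nat_lit 19563298944), (nat_lit 77, nat_lit 20637302784), (nat_lit 105, nat_lit 20637040704), (nat_lit 34, nat_lit 21710782464)]⟩],
  [W_17382256640, W_17365483520, W_17365475456, W_17348706368, W_16325292032, W_16308518912, W_15268585472, W_15268327424, W_15251812352, W_15251546240, W_15235297280, W_15235039232, W_15234777152, W_15218524160, W_15201747008]⟩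
theorem C_17416339584 : chkRec R_17416339584 = true := by decide +kernel

noncomputable def R_17416343616 : Rec := ⟨nat_lit 17416343616, nat_lit 117,
  [⟨V6_17399549952, [(nat_lit 84, nat_lit 17416343616), (nat_lit 66, nat_lit 18490085376), (nat_lit 92, nat_lit 18490081344), (nat_lit 35, nat_lit 18473308224), (nat_lit 101, nat_lit 19563823104), (nat_lit 75, nat_lit 19563819072), (nat_lit 55, nat_lit 19547049984), (nat_lit 51, nat_lit 19547045952), (nat_lit 5, nat_lit 20637560832), (nat_lit 80, nat_lit 20637556800), (nat_lit 54, nat_lit 20620787712), (nat_lit 105, nat_lit 20620783680), (nat_lit 6, nat_lit 21711298560), (nat_lit 13, nat_lit 21711294528), (nat_lit 14, nat_lit 21694525440), (nat_lit 28, nat_lit 21694521408), (nat_lit 14, nat_lit 22785036288), (nat_lit 55, nat_lit 22768263168), (nat_lit 74, nat_lit 22768259136), (nat_lit 91, nat_lit 23842000896)]⟩,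
   ⟨V6_16325812224, [(nat_lit 8, nat_lit 17416343616), (nat_lit 10, nat_lit 18490085376), (nat_lit 102, nat_lit 18490081344), (nat_lit 35, nat_lit 18473308224), (nat_lit 109, nat_lit 19563823104), (nat_lit 118, nat_lit 19563819072), (nat_lit 24, nat_lit 19547049984), (nat_lit 65, nat_lit 19547045952), (nat_lit 51, nat_lit 20637560832), (nat_lit 59, nat_lit 20637556800), (nat_lit 119, nat_lit 20620787712), (nat_lit 109, nat_lit 20620783680), (nat_lit 116, nat_lit 21711298560), (nat_lit 77, nat_lit 21694525440), (nat_lit 93, nat_lit 21694521408), (nat_lit 116, nat_lit 22768263168)]⟩,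
   ⟨V6_15268843584, [(nat_lit 47, nat_lit 17416343616), (nat_lit 2, nat_lit 18490081344), (nat_lit 69, nat_lit 19563819072), (nat_lit 119, nat_lit 20637556800), (nat_lit 44, nat_lit 21711294528)]⟩],
  [W_17332195328, W_17315418176, W_17298903104, W_16325546048, W_16275230720, W_16258453568, W_15268585472, W_15251812352, W_15235297280, W_15235039232, W_15218524160, W_15218266112, W_15218262080, W_15201747008, W_15201488960, W_15184973888]⟩
theorem C_17416343616 : chkRec R_17416343616 = true := by decide +kernel

noncomputable def R_17416347648 : Rec := ⟨nat_lit 17416347648, nat_lit 60,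
  [⟨V6_17315684352, [(nat_lit 20, nat_lit 17416347648), (nat_lit 37, nat_lit 18473312256), (nat_lit 53, nat_lit 19530276864), (nat_lit 54, nat_lit 20587241472), (nat_lit 56, nat_lit 21644206080), (nat_lit 82, nat_lit 22701170688), (nat_lit 49, nat_lit 23758135296)]⟩,
   ⟨V6_16258719744, [(nat_lit 85, nat_lit 17416347648), (nat_lit 105, nat_lit 18473312256), (nat_lit 1, nat_lit 19530276864), (nat_lit 84, nat_lit 20587241472), (nat_lit 97, nat_lit 21644206080), (nat_lit 68, nat_lit 22701170688)]⟩,
   ⟨V6_15201755136, [(nat_lit 32, nat_lit 17416347648), (nat_lit 95, nat_lit 18473312256), (nat_lit 70, nat_lit 19530276864), (nat_lit 19, nat_lit 20587241472), (nat_lit 88, nat_lit 21644206080)]⟩],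
  [W_17399545856, W_16342581248, W_15268843520, W_15235297280, W_15218524160]⟩
theorem C_17416347648 : chkRec R_17416347648 = true := by decide +kernel

noncomputable def R_17416593537 : Rec := ⟨nat_lit 17416593537, nat_lit 34,
  [⟨V6_17315930241, [(nat_lit 125, nat_lit 17416593537), (nat_lit 9, nat_lit 18473558145), (nat_lit 109, nat_lit 19530522753), (nat_lit 20, nat_lit 20587487361), (nat_lit 96, nat_lit 21644451969), (nat_lit 68, nat_lit 22701416577), (nat_lit 84, nat_lit 23758381185)]⟩,
   ⟨V6_16291995777, [(nat_lit 16, nat_lit 17416593537), (nat_lit 68, nat_lit 18490073217), (nat_lit 97, nat_lit 18473558145), (nat_lit 72, nat_lit 19563552897), (nat_lit 64, nat_lit 19547037825), (nat_lit 5, nat_lit 19530522753), (nat_lit 97, nat_lit 20620517505), (nat_lit 102, nat_lit 20604002433), (nat_lit 102, nat_lit 20587487361), (nat_lit 24, nat_lit 21677482113), (nat_lit 56, nat_lit 21660967041), (nat_lit 1, nat_lit 22734446721)]⟩,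
   ⟨V6_15235031169, [(nat_lit 125, nat_lit 17416593537), (nat_lit 34, nat_lit 18490073217), (nat_lit 33, nat_lit 18473558145), (nat_lit 119, nat_lit 19563552897), (nat_lit 53, nat_lit 19547037825), (nat_lit 104, nat_lit 19530522753), (nat_lit 114, nat_lit 20620517505), (nat_lit 48, nat_lit 20604002433), (nat_lit 122, nat_lit 21677482113)]⟩],
  [W_17415282752, W_17398767680, W_17398505600, W_17382252608, W_16341803072, W_16341540992, W_15268323392, W_15268061312, W_15251808320, W_15251546240]⟩
theorem C_17416593537 : chkRec R_17416593537 = true := by decide +kernel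

noncomputable def R_17416597569 : Rec := ⟨nat_lit 17416597569, nat_lit 55,
  [⟨V6_16309293120, [(nat_lit 111, nat_lit 17416597569), (nat_lit 32, nat_lit 18490339392), (nat_lit 54, nat_lit 18490335297), (nat_lit 100, nat_lit 18473562177), (nat_lit 88, nat_lit 19564077120), (nat_lit 27, nat_lit 19564073025), (nat_lit 78, nat_lit 19547304000), (nat_lit 122, nat_lit 19547299905), (nat_lit 66, nat_lit 19530526785), (nat_lit 113, nat_lit 20637814848), (nat_lit 6, nat_lit 20621041728), (nat_lit 4, nat_lit 20621037633), (nat_lit 42, nat_lit 20604268608), (nat_lit 110, nat_lit 20604264513), (nat_lit 20, nat_lit 21694779456), (nat_lit 117, nat_lit 21678006336), (nat_lit 105, nat_lit 21678002241), (nat_lit 34, nat_lit 22751744064)]⟩,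
   ⟨V6_15252328512, [(nat_lit 97, nat_lit 17416597569), (nat_lit 74, nat_lit 18490339392), (nat_lit 80, nat_lit 18490335297), (nat_lit 31, nat_lit 18473562177), (nat_lit 4, nat_lit 19564077120), (nat_lit 120, nat_lit 19564073025), (nat_lit 57, nat_lit 19547304000), (nat_lit 64, nat_lit 19547299905), (nat_lit 102, nat_lit 20637814848), (nat_lit 78, nat_lit 20621041728), (nat_lit 75, nat_lit 20621037633), (nat_lit 18, nat_lit 21694779456)]⟩],
  [W_17415540800, W_17399025728, W_17398767680, W_17381994560, W_17315934272, W_16342061120, W_16341803072, W_16325546048, W_16325029952, W_16308514880, W_15251550272, W_15235035200]⟩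
theorem C_17416597569 : chkRec R_17416597569 = true := by decide +kernel

noncomputable def R_17416597632 : Rec := ⟨nat_lit 17416597632, nat_lit 131,
  [⟨V6_16325812224, [(nat_lit 120, nat_lit 17416597632), (nat_lit 1, nat_lit 18490339392), (nat_lit 89, nat_lit 18490335360), (nat_lit 119, nat_lit 18490077312), (nat_lit 113, nat_lit 18473562240), (nat_lit 32, nat_lit 19564081152), (nat_lit 104, nat_lit 19564077120), (nat_lit 107, nat_lit 19563819072), (nat_lit 112, nat_lit 19563815040), (nat_lit 112, nat_lit 19547304000), (nat_lit 108, nat_lit 19547299968), (nat_lit 16, nat_lit 19547041920), (nat_lit 61, nat_lit 20637818880), (nat_lit 5, nat_lit 20637560832), (nat_lit 77, nat_lit 20637556800), (nat_lit 56, nat_lit 20621045760), (nat_lit 118, nat_lit 20621041728), (nat_lit 81, nat_lit 20620783680), (nat_lit 71, nat_lit 20620779648), (nat_lit 22, nat_lit 21711298560), (nat_lit 114, nat_lit 21694783488), (nat_lit 23, nat_lit 21694525440), (nat_lit 3, nat_lit 21694521408), (nat_lit 38, nat_lit 22768263168)]⟩,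
   ⟨V6_16309297152, [(nat_lit 59, nat_lit 17416597632), (nat_lit 71, nat_lit 18490339392), (nat_lit 82, nat_lit 18490335360), (nat_lit 111, nat_lit 18473562240), (nat_lit 2, nat_lit 19564081152), (nat_lit 100, nat_lit 19564077120), (nat_lit 54, nat_lit 19547304000), (nat_lit 87, nat_lit 19547299968), (nat_lit 64, nat_lit 19530526848), (nat_lit 30, nat_lit 20637818880), (nat_lit 105, nat_lit 20621045760), (nat_lit 53, nat_lit 20621041728), (nat_lit 117, nat_lit 20604268608), (nat_lit 43, nat_lit 20604264576), (nat_lit 108, nat_lit 21694783488), (nat_lit 40, nat_lit 21678010368), (nat_lit 81, nat_lit 21678006336), (nat_lit 80, nat_lit 22751748096)]⟩,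
   ⟨V6_15252332544, [(nat_lit 8, nat_lit 17416597632), (nat_lit 61, nat_lit 18490339392), (nat_lit 93, nat_lit 18490335360), (nat_lit 120, nat_lit 18473562240), (nat_lit 85, nat_lit 19564081152), (nat_lit 120, nat_lit 19564077120), (nat_lit 59, nat_lit 19547304000), (nat_lit 63, nat_lit 19547299968), (nat_lit 109, nat_lit 20637818880), (nat_lit 52, nat_lit 20621045760), (nat_lit 54, nat_lit 20621041728), (nat_lit 60, nat_lit 21694783488)]⟩],
  [W_17415544832, W_17398771712, W_17398767680, W_17382256640, W_17381990528, W_17365475456, W_17365217408, W_17315934272, W_17299157120, W_16342065152, W_16341803072, W_16325292032, W_16325029952, W_16308514880, W_16242192512, W_15268585472, W_15268327424, W_15268061312, W_15251812352, W_15235297280, W_15202001024]⟩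
theorem C_17416597632 : chkRec R_17416597632 = true := by decide +kernel

noncomputable def R_17416601664 : Rec := ⟨nat_lit 17416601664, nat_lit 189,
  [⟨V6_17365483584, [(nat_lit 40, nat_lit 17416601664), (nat_lit 90, nat_lit 18490081344), (nat_lit 35, nat_lit 18473566272), (nat_lit 13, nat_lit 19563561024), (nat_lit 80, nat_lit 19547045952), (nat_lit 87, nat_lit 19530530880), (nat_lit 12, nat_lit 20637040704), (nat_lit 126, nat_lit 20620525632), (nat_lit 76, nat_lit 20604010560), (nat_lit 59, nat_lit 20587495488), (nat_lit 34, nat_lit 21694005312), (nat_lit 20, nat_lit 21677490240), (nat_lit 40, nat_lit 21660975168), (nat_lit 10, nat_lit 22750969920), (nat_lit 23, nat_lit 22734454848), (nat_lit 52, nat_lit 23807934528)]⟩,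
   ⟨V6_16309297152, [(nat_lit 41, nat_lit 17416601664), (nat_lit 118, nat_lit 18490343424), (nat_lit 43, nat_lit 18490339392), (nat_lit 14, nat_lit 18473566272), (nat_lit 81, nat_lit 19564081152), (nat_lit 101, nat_lit 19564077120), (nat_lit 62, nat_lit 19547308032), (nat_lit 64, nat_lit 19547304000), (nat_lit 100, nat_lit 19530530880), (nat_lit 18, nat_lit 20637818880), (nat_lit 58, nat_lit 20621045760), (nat_lit 11, nat_lit 20621041728), (nat_lit 35, nat_lit 20604272640), (nat_lit 86, nat_lit 20604268608), (nat_lit 102, nat_lit 21694783488), (nat_lit 110, nat_lit 21678010368), (nat_lit 10, nat_lit 21678006336), (nat_lit 55, nat_lit 22751748096)]⟩,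
   ⟨V6_16308518976, [(nat_lit 78, nat_lit 17416601664), (nat_lit 76, nat_lit 18490081344), (nat_lit 115, nat_lit 18473566272), (nat_lit 1, nat_lit 19563561024), (nat_lit 41, nat_lit 19547045952), (nat_lit 114, nat_lit 19530530880), (nat_lit 105, nat_lit 20637040704), (nat_lit 102, nat_lit 20620525632), (nat_lit 117, nat_lit 20604010560), (nat_lit 104, nat_lit 21694005312), (nat_lit 124, nat_lit 21677490240), (nat_lit 4, nat_lit 22750969920)]⟩,
   ⟨V6_15268843584, [(nat_lit 58, nat_lit 17416601664), (nat_lit 17, nat_lit 18490339392), (nat_lit 35, nat_lit 18490081344), (nat_lit 65, nat_lit 19564077120), (nat_lit 27, nat_lit 19563819072), (nat_lit 12, nat_lit 20637814848), (nat_lit 101, nat_lit 20637556800), (nat_lit 109, nat_lit 21711294528)]⟩,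
   ⟨V6_15268331520, [(nat_lit 103, nat_lit 17416601664), (nat_lit 108, nat_lit 18490343424), (nat_lit 29, nat_lit 18490081344), (nat_lit 67, nat_lit 19563823104), (nat_lit 8, nat_lit 19563561024), (nat_lit 5, nat_lit 20637302784), (nat_lit 54, nat_lit 20637040704), (nat_lit 71, nat_lit 21710782464)]⟩,
   ⟨V6_15252328512, [(nat_lit 58, nat_lit 17416601664), (nat_lit 49, nat_lit 18490339392), (nat_lit 93, nat_lit 18473566272), (nat_lit 7, nat_lit 19564077120), (nat_lit 13, nat_lit 19547304000), (nat_lit 37, nat_lit 20637814848), (nat_lit 5, nat_lit 20621041728), (nat_lit 121, nat_lit 21694779456)]⟩],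
  [W_17382256640, W_17365483520, W_17348706368, W_17315938304, W_16325292032, W_16308518912, W_16242196544, W_15268843520, W_15268585472, W_15251812352, W_15251554304, W_15235551296, W_15235297280, W_15235039232, W_15218524160, W_15202009088, W_15201747008, W_15185231936]⟩
theorem C_17416601664 : chkRec R_17416601664 = true := by decide +kernel

noncomputable def R_17416605696 : Rec := ⟨nat_lit 17416605696, nat_lit 121,
  [⟨V6_17383034880, [(nat_lit 56, nat_lit 17416605696), (nat_lit 46, nat_lit 18490343424), (nat_lit 24, nat_lit 18473570304), (nat_lit 85, nat_lit 19564081152), (nat_lit 48, nat_lit 19547308032), (nat_lit 78, nat_lit 19530534912), (nat_lit 20, nat_lit 20637818880), (nat_lit 97, nat_lit 20621045760), (nat_lit 96, nat_lit 20604272640), (nat_lit 2, nat_lit 21711556608), (nat_lit 58, nat_lit 21694783488), (nat_lit 3, nat_lit 21678010368), (nat_lit 72, nat_lit 22768521216), (nat_lit 24, nat_lit 22751748096), (nat_lit 60, nat_lit 23825485824)]⟩,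
   ⟨V6_16292007936, [(nat_lit 41, nat_lit 17416605696), (nat_lit 79, nat_lit 18490085376), (nat_lit 66, nat_lit 18473570304), (nat_lit 121, nat_lit 19563565056), (nat_lit 37, nat_lit 19547049984), (nat_lit 116, nat_lit 19530534912), (nat_lit 66, nat_lit 20620529664), (nat_lit 55, nat_lit 20604014592), (nat_lit 55, nat_lit 20587499520), (nat_lit 125, nat_lit 21677494272), (nat_lit 80, nat_lit 21660979200), (nat_lit 74, nat_lit 22734458880)]⟩,
   ⟨V6_15252332544, [(nat_lit 105, nat_lit 17416605696), (nat_lit 48, nat_lit 18490343424), (nat_lit 7, nat_lit 18473570304), (nat_lit 123, nat_lit 19564081152), (nat_lit 10, nat_lit 19547308032), (nat_lit 24, nat_lit 20637818880), (nat_lit 56, nat_lit 20621045760), (nat_lit 43, nat_lit 21694783488)]⟩],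
  [W_17416060928, W_17332195328, W_17315938304, W_16275230720, W_15269101568, W_15268843520, W_15268585472, W_15251812352, W_15235297280, W_15235039232, W_15218524160, W_15202009088]⟩
theorem C_17416605696 : chkRec R_17416605696 = true := by decide +kernel

noncomputable def R_17416855617 : Rec := ⟨nat_lit 17416855617, nat_lit 40,
  [⟨V6_16276004928, [(nat_lit 29, nat_lit 17416855617), (nat_lit 18, nat_lit 18490597440), (nat_lit 88, nat_lit 18473820225), (nat_lit 57, nat_lit 19547562048), (nat_lit 100, nat_lit 19530784833), (nat_lit 118, nat_lit 20604526656), (nat_lit 89, nat_lit 20587749441), (nat_lit 95, nat_lit 21661491264), (nat_lit 109, nat_lit 21644714049), (nat_lit 55, nat_lit 22718455872)]⟩],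
  [W_17415540800, W_17415282752, W_17399025728, W_17398767680, W_16342061120, W_16341803072, W_16325546048, W_16292515904, W_15268323392]⟩
theorem C_17416855617 : chkRec R_17416855617 = true := by decide +kernel

noncomputable def R_17416855680 : Rec := ⟨nat_lit 17416855680, nat_lit 91,
  [⟨V6_15252332544, [(nat_lit 104, nat_lit 17416855680), (nat_lit 86, nat_lit 18490597440), (nat_lit 74, nat_lit 18490335360), (nat_lit 103, nat_lit 18473820288), (nat_lit 123, nat_lit 19564339200), (nat_lit 100, nat_lit 19564077120), (nat_lit 100, nat_lit 19547562048), (nat_lit 123, nat_lit 19547299968), (nat_lit 109, nat_lit 20637818880), (nat_lit 35, nat_lit 20621303808), (nat_lit 68, nat_lit 20621041728), (nat_lit 6, nat_lit 21694783488)]⟩,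
   ⟨V6_15235817472, [(nat_lit 113, nat_lit 17416855680), (nat_lit 24, nat_lit 18490597440), (nat_lit 118, nat_lit 18473820288), (nat_lit 26, nat_lit 19564339200), (nat_lit 102, nat_lit 19547562048), (nat_lit 71, nat_lit 19530784896), (nat_lit 94, nat_lit 20621303808), (nat_lit 9, nat_lit 20604526656), (nat_lit 76, nat_lit 21678268416)]⟩],
  [W_17415544832, W_17415282752, W_17399029760, W_17398767680, W_17398505600, W_17381990528, W_17365475456, W_17316192320, W_16342065152, W_16341803072, W_16341540992, W_16325025920, W_16308510848, W_16242450560, W_15268585472, W_15268061312, W_15251546240, W_15202001024, W_15185485952]⟩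
theorem C_17416855680 : chkRec R_17416855680 = true := by decide +kernel

noncomputable def R_17416859712 : Rec := ⟨nat_lit 17416859712, nat_lit 179,
  [⟨V6_17349746688, [(nat_lit 103, nat_lit 17416859712), (nat_lit 113, nat_lit 18490601472), (nat_lit 22, nat_lit 18490597440), (nat_lit 14, nat_lit 18473824320), (nat_lit 70, nat_lit 19564339200), (nat_lit 101, nat_lit 19547566080), (nat_lit 55, nat_lit 19547562048), (nat_lit 28, nat_lit 19530788928), (nat_lit 96, nat_lit 20621303808), (nat_lit 9, nat_lit 20604530688), (nat_lit 101, nat_lit 20604526656), (nat_lit 28, nat_lit 20587753536), (nat_lit 121, nat_lit 21678268416), (nat_lit 11, nat_lit 21661495296), (nat_lit 14, nat_lit 21661491264), (nat_lit 73, nat_lit 21644718144), (nat_lit 30, nat_lit 22735233024), (nat_lit 65, nat_lit 22718459904), (nat_lit 42, nat_lit 22718455872), (nat_lit 86, nat_lit 23792197632)]⟩,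
   ⟨V6_15268843584, [(nat_lit 14, nat_lit 17416859712), (nat_lit 17, nat_lit 18490597440), (nat_lit 96, nat_lit 18490339392), (nat_lit 66, nat_lit 19564335168), (nat_lit 38, nat_lit 19564077120), (nat_lit 102, nat_lit 19563819072), (nat_lit 18, nat_lit 20637814848), (nat_lit 7, nat_lit 20637556800), (nat_lit 101, nat_lit 21711294528)]⟩,
   ⟨V6_15252328512, [(nat_lit 7, nat_lit 17416859712), (nat_lit 44, nat_lit 18490597440), (nat_lit 75, nat_lit 18490339392), (nat_lit 27, nat_lit 18473824320), (nat_lit 115, nat_lit 19564335168), (nat_lit 8, nat_lit 19564077120), (nat_lit 115, nat_lit 19547562048), (nat_lit 81, nat_lit 19547304000), (nat_lit 119, nat_lit 20637814848), (nat_lit 4, nat_lit 20621299776), (nat_lit 119, nat_lit 20621041728), (nat_lit 38, nat_lit 21694779456)]⟩,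
   ⟨V6_15235817472, [(nat_lit 3, nat_lit 17416859712), (nat_lit 89, nat_lit 18490601472), (nat_lit 61, nat_lit 18490597440), (nat_lit 5, nat_lit 18473824320), (nat_lit 115, nat_lit 19564339200), (nat_lit 85, nat_lit 19547566080), (nat_lit 36, nat_lit 19547562048), (nat_lit 44, nat_lit 19530788928), (nat_lit 117, nat_lit 20621303808), (nat_lit 105, nat_lit 20604530688), (nat_lit 108, nat_lit 20604526656), (nat_lit 98, nat_lit 21678268416)]⟩,
   ⟨V6_15235813440, [(nat_lit 103, nat_lit 17416859712), (nat_lit 30, nat_lit 18490597440), (nat_lit 92, nat_lit 18473824320), (nat_lit 80, nat_lit 19564335168), (nat_lit 3, nat_lit 19547562048), (nat_lit 114, nat_lit 19530788928), (nat_lit 38, nat_lit 20621299776), (nat_lit 108, nat_lit 20604526656), (nat_lit 88, nat_lit 21678264384)]⟩],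
  [W_17415802880, W_17415544832, W_17415540800, W_17399025728, W_17398771712, W_17398767680, W_17382256640, W_17332965440, W_17316196352, W_17316192320, W_17315934272, W_16342065152, W_16341807104, W_16341803072, W_16325292032, W_16325029952, W_16308514880, W_16276000832, W_16242454592, W_15268843520, W_15268585472, W_15268327424, W_15251812352, W_15235297280, W_15185489984]⟩
theorem C_17416859712 : chkRec R_17416859712 = true := by decide +kernel

noncomputable def R_17416863744 : Rec := ⟨nat_lit 17416863744, nat_lit 172,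
  [⟨V6_17382260736, [(nat_lit 83, nat_lit 17416863744), (nat_lit 78, nat_lit 18490343424), (nat_lit 13, nat_lit 18473828352), (nat_lit 118, nat_lit 19563823104), (nat_lit 106, nat_lit 19547308032), (nat_lit 76, nat_lit 19530792960), (nat_lit 102, nat_lit 20637302784), (nat_lit 22, nat_lit 20620787712), (nat_lit 116, nat_lit 20604272640), (nat_lit 50, nat_lit 21710782464), (nat_lit 46, nat_lit 21694267392), (nat_lit 10, nat_lit 21677752320), (nat_lit 2, nat_lit 22767747072), (nat_lit 83, nat_lit 22751232000), (nat_lit 90, nat_lit 23824711680)]⟩,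
   ⟨V6_17366519808, [(nat_lit 91, nat_lit 17416863744), (nat_lit 68, nat_lit 18490601472), (nat_lit 6, nat_lit 18473828352), (nat_lit 68, nat_lit 19564339200), (nat_lit 25, nat_lit 19547566080), (nat_lit 47, nat_lit 19530792960), (nat_lit 45, nat_lit 20638076928), (nat_lit 38, nat_lit 20621303808), (nat_lit 59, nat_lit 20604530688), (nat_lit 43, nat_lit 20587757568), (nat_lit 27, nat_lit 21695041536), (nat_lit 101, nat_lit 21678268416), (nat_lit 1, nat_lit 21661495296), (nat_lit 104, nat_lit 22752006144), (nat_lit 11, nat_lit 22735233024), (nat_lit 112, nat_lit 23808970752)]⟩,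
   ⟨V6_16325296128, [(nat_lit 61, nat_lit 17416863744), (nat_lit 40, nat_lit 18490343424), (nat_lit 70, nat_lit 18473828352), (nat_lit 115, nat_lit 19563823104), (nat_lit 42, nat_lit 19547308032), (nat_lit 82, nat_lit 20637302784), (nat_lit 38, nat_lit 20620787712), (nat_lit 113, nat_lit 21710782464), (nat_lit 53, nat_lit 21694267392), (nat_lit 54, nat_lit 22767747072)]⟩,
   ⟨V6_15268331520, [(nat_lit 22, nat_lit 17416863744), (nat_lit 63, nat_lit 18490343424), (nat_lit 72, nat_lit 19563823104), (nat_lit 51, nat_lit 20637302784), (nat_lit 24, nat_lit 21710782464)]⟩,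
   ⟨V6_15235817472, [(nat_lit 24, nat_lit 17416863744), (nat_lit 31, nat_lit 18490601472), (nat_lit 113, nat_lit 18473828352), (nat_lit 30, nat_lit 19564339200), (nat_lit 123, nat_lit 19547566080), (nat_lit 1, nat_lit 19530792960), (nat_lit 40, nat_lit 20621303808), (nat_lit 78, nat_lit 20604530688), (nat_lit 92, nat_lit 21678268416)]⟩],
  [W_17416060928, W_17382256640, W_17365483520, W_17316196352, W_17315938304, W_16325292032, W_16242458624, W_15269101568, W_15268843520, W_15268585472, W_15268327424, W_15251812352, W_15235297280, W_15218524160, W_15202009088, W_15185494016]⟩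
theorem C_17416863744 : chkRec R_17416863744 = true := by decide +kernel

noncomputable def R_17417113665 : Rec := ⟨nat_lit 17417113665, nat_lit 15,
  [⟨V6_17332965441, [(nat_lit 92, nat_lit 17417113665), (nat_lit 37, nat_lit 18490593345), (nat_lit 42, nat_lit 18474078273), (nat_lit 24, nat_lit 19547557953), (nat_lit 87, nat_lit 19531042881), (nat_lit 79, nat_lit 20604522561), (nat_lit 84, nat_lit 20588007489), (nat_lit 11, nat_lit 21661487169), (nat_lit 79, nat_lit 21644972097), (nat_lit 2, nat_lit 22718451777), (nat_lit 38, nat_lit 22701936705), (nat_lit 12, nat_lit 23775416385)]⟩,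
   ⟨V6_15268843584, [(nat_lit 5, nat_lit 17417113665), (nat_lit 81, nat_lit 18490855488), (nat_lit 104, nat_lit 18490593345), (nat_lit 58, nat_lit 19564335168), (nat_lit 120, nat_lit 19564073025), (nat_lit 75, nat_lit 20637814848), (nat_lit 9, nat_lit 20637552705), (nat_lit 94, nat_lit 21711294528)]⟩,
   ⟨V6_15268581441, [(nat_lit 21, nat_lit 17417113665), (nat_lit 119, nat_lit 18490593345), (nat_lit 78, nat_lit 19564073025), (nat_lit 88, nat_lit 20637552705), (nat_lit 71, nat_lit 21711032385)]⟩],
  [W_17399025728, W_16292515904]⟩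
theorem C_17417113665 : chkRec R_17417113665 = true := by decide +kernel

noncomputable def R_17417117760 : Rec := ⟨nat_lit 17417117760, nat_lit 126,
  [⟨V6_16276267008, [(nat_lit 80, nat_lit 17417117760), (nat_lit 73, nat_lit 18490859520), (nat_lit 84, nat_lit 18474082368), (nat_lit 39, nat_lit 19547824128), (nat_lit 87, nat_lit 19531046976), (nat_lit 103, nat_lit 20604788736), (nat_lit 13, nat_lit 20588011584), (nat_lit 18, nat_lit 21661753344), (nat_lit 61, nat_lit 21644976192), (nat_lit 26, nat_lit 22718717952)]⟩,
   ⟨V6_15235817472, [(nat_lit 56, nat_lit 17417117760), (nat_lit 33, nat_lit 18490859520), (nat_lit 61, nat_lit 18490597440), (nat_lit 87, nat_lit 18474082368), (nat_lit 124, nat_lit 19564339200), (nat_lit 98, nat_lit 19547824128), (nat_lit 77, nat_lit 19547562048), (nat_lit 122, nat_lit 19531046976), (nat_lit 7, nat_lit 20621303808), (nat_lit 51, nat_lit 20604788736), (nat_lit 98, nat_lit 20604526656), (nat_lit 14, nat_lit 21678268416)]⟩,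
   ⟨V6_15219302400, [(nat_lit 124, nat_lit 17417117760), (nat_lit 62, nat_lit 18490859520), (nat_lit 52, nat_lit 18474082368), (nat_lit 52, nat_lit 19547824128), (nat_lit 32, nat_lit 19531046976), (nat_lit 14, nat_lit 20604788736), (nat_lit 85, nat_lit 20588011584), (nat_lit 4, nat_lit 21661753344)]⟩],
  [W_17415802880, W_17415544832, W_17415540800, W_17415282752, W_17399029760, W_17399025728, W_17398767680, W_17333227520, W_17332965440, W_16342065152, W_16341803072, W_16276262912, W_16276000832, W_16259485760, W_15268843520, W_15268585472, W_15268581440, W_15235551296, W_15219298304]⟩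
theorem C_17417117760 : chkRec R_17417117760 = true := by decide +kernel

noncomputable def R_17417121792 : Rec := ⟨nat_lit 17417121792, nat_lit 141,
  [⟨V6_16326328320, [(nat_lit 50, nat_lit 17417121792), (nat_lit 63, nat_lit 18490859520), (nat_lit 31, nat_lit 18490601472), (nat_lit 39, nat_lit 18474086400), (nat_lit 18, nat_lit 19564597248), (nat_lit 34, nat_lit 19564339200), (nat_lit 18, nat_lit 19547824128), (nat_lit 24, nat_lit 19547566080), (nat_lit 112, nat_lit 20638334976), (nat_lit 81, nat_lit 20638076928), (nat_lit 97, nat_lit 20621561856), (nat_lit 109, nat_lit 20621303808), (nat_lit 15, nat_lit 21711814656), (nat_lit 3, nat_lit 21695299584), (nat_lit 97, nat_lit 21695041536), (nat_lit 84, nat_lit 22768779264)]⟩,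
   ⟨V6_16276267008, [(nat_lit 121, nat_lit 17417121792), (nat_lit 114, nat_lit 18490859520), (nat_lit 52, nat_lit 18474086400), (nat_lit 7, nat_lit 19547824128), (nat_lit 89, nat_lit 19531051008), (nat_lit 37, nat_lit 20604788736), (nat_lit 80, nat_lit 20588015616), (nat_lit 44, nat_lit 21661753344), (nat_lit 75, nat_lit 21644980224), (nat_lit 84, nat_lit 22718717952)]⟩,
   ⟨V6_15235817472, [(nat_lit 99, nat_lit 17417121792), (nat_lit 15, nat_lit 18490859520), (nat_lit 125, nat_lit 18490601472), (nat_lit 99, nat_lit 18474086400), (nat_lit 13, nat_lit 19564339200), (nat_lit 99, nat_lit 19547824128), (nat_lit 56, nat_lit 19547566080), (nat_lit 53, nat_lit 19531051008), (nat_lit 36, nat_lit 20621303808), (nat_lit 96, nat_lit 20604788736), (nat_lit 6, nat_lit 20604530688), (nat_lit 71, nat_lit 21678268416)]⟩,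
   ⟨V6_15219302400, [(nat_lit 52, nat_lit 17417121792), (nat_lit 109, nat_lit 18490859520), (nat_lit 85, nat_lit 18474086400), (nat_lit 94, nat_lit 19547824128), (nat_lit 69, nat_lit 19531051008), (nat_lit 116, nat_lit 20604788736), (nat_lit 126, nat_lit 20588015616), (nat_lit 38, nat_lit 21661753344)]⟩],
  [W_17416060928, W_17415802880, W_17415544832, W_17398771712, W_17382256640, W_17350000640, W_17333227520, W_16325292032, W_16276262912, W_16259489792, W_15269101568, W_15268843520, W_15268585472, W_15268327424, W_15251812352, W_15235297280, W_15185752064]⟩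
theorem C_17417121792 : chkRec R_17417121792 = true := by decide +kernel

noncomputable def R_17417375808 : Rec := ⟨nat_lit 17417375808, nat_lit 47,
  [⟨V6_15269105664, [(nat_lit 84, nat_lit 17417375808), (nat_lit 82, nat_lit 18491117568), (nat_lit 13, nat_lit 18490855488), (nat_lit 99, nat_lit 19564597248), (nat_lit 70, nat_lit 19564335168), (nat_lit 50, nat_lit 20638076928), (nat_lit 109, nat_lit 20637814848), (nat_lit 21, nat_lit 21711556608)]⟩,
   ⟨V6_15268843584, [(nat_lit 106, nat_lit 17417375808), (nat_lit 56, nat_lit 18490855488), (nat_lit 119, nat_lit 19564335168), (nat_lit 77, nat_lit 20637814848), (nat_lit 57, nat_lit 21711294528)]⟩,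
   ⟨V6_15252328512, [(nat_lit 23, nat_lit 17417375808), (nat_lit 14, nat_lit 18490855488), (nat_lit 67, nat_lit 18474340416), (nat_lit 13, nat_lit 19564335168), (nat_lit 100, nat_lit 19547820096), (nat_lit 121, nat_lit 20637814848), (nat_lit 67, nat_lit 20621299776), (nat_lit 82, nat_lit 21694779456)]⟩,
   ⟨V6_15202783296, [(nat_lit 114, nat_lit 17417375808), (nat_lit 13, nat_lit 18474340416), (nat_lit 43, nat_lit 19531305024), (nat_lit 28, nat_lit 20588269632), (nat_lit 123, nat_lit 21645234240)]⟩],
  [W_17415802880, W_17415540800, W_17349742592, W_16342061120, W_16276262912, W_15202783232]⟩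
theorem C_17417375808 : chkRec R_17417375808 = true := by decide +kernel

noncomputable def R_17417379840 : Rec := ⟨nat_lit 17417379840, nat_lit 108,
  [⟨V6_17350262784, [(nat_lit 96, nat_lit 17417379840), (nat_lit 64, nat_lit 18491117568), (nat_lit 70, nat_lit 18474344448), (nat_lit 66, nat_lit 19564855296), (nat_lit 10, nat_lit 19548082176), (nat_lit 118, nat_lit 19531309056), (nat_lit 6, nat_lit 20621819904), (nat_lit 104, nat_lit 20605046784), (nat_lit 27, nat_lit 20588273664), (nat_lit 17, nat_lit 21678784512), (nat_lit 113, nat_lit 21662011392), (nat_lit 88, nat_lit 21645238272), (nat_lit 44, nat_lit 22735749120), (nat_lit 102, nat_lit 22718976000), (nat_lit 54, nat_lit 23792713728)]⟩,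
   ⟨V6_16276267008, [(nat_lit 66, nat_lit 17417379840), (nat_lit 49, nat_lit 18490859520), (nat_lit 121, nat_lit 18474344448), (nat_lit 68, nat_lit 19547824128), (nat_lit 102, nat_lit 19531309056), (nat_lit 20, nat_lit 20604788736), (nat_lit 123, nat_lit 20588273664), (nat_lit 29, nat_lit 21661753344), (nat_lit 119, nat_lit 21645238272), (nat_lit 35, nat_lit 22718717952)]⟩,
   ⟨V6_15235817472, [(nat_lit 78, nat_lit 17417379840), (nat_lit 90, nat_lit 18490859520), (nat_lit 47, nat_lit 18474344448), (nat_lit 106, nat_lit 19564339200), (nat_lit 109, nat_lit 19547824128), (nat_lit 24, nat_lit 19531309056), (nat_lit 111, nat_lit 20621303808), (nat_lit 21, nat_lit 20604788736), (nat_lit 90, nat_lit 21678268416)]⟩],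
  [W_17416060928, W_17415802880, W_17415544832, W_17399029760, W_17350000640, W_16342065152, W_16276520960, W_16276262912, W_15269101568, W_15268843520, W_15268585472, W_15202783232]⟩
theorem C_17417379840 : chkRec R_17417379840 = true := by decide +kernel

noncomputable def R_17417637888 : Rec := ⟨nat_lit 17417637888, nat_lit 48,
  [⟨V6_17399549952, [(nat_lit 8, nat_lit 17417637888), (nat_lit 69, nat_lit 18491117568), (nat_lit 50, nat_lit 18474602496), (nat_lit 122, nat_lit 19564597248), (nat_lit 79, nat_lit 19548082176), (nat_lit 99, nat_lit 20638076928), (nat_lit 57, nat_lit 20621561856), (nat_lit 34, nat_lit 21711556608), (nat_lit 54, nat_lit 21695041536), (nat_lit 30, nat_lit 22785036288), (nat_lit 68, nat_lit 22768521216), (nat_lit 67, nat_lit 23842000896)]⟩,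
   ⟨V6_15269105664, [(nat_lit 71, nat_lit 17417637888), (nat_lit 13, nat_lit 18491117568), (nat_lit 114, nat_lit 19564597248), (nat_lit 23, nat_lit 20638076928), (nat_lit 42, nat_lit 21711556608)]⟩],
  [W_17416060928, W_17415802880, W_15268843520, W_15252586496, W_15219556352, W_15219298304]⟩
theorem C_17417637888 : chkRec R_17417637888 = true := by decide +kernel

noncomputable def R_17417895936 : Rec := ⟨nat_lit 17417895936, nat_lit 19,
  [⟨V6_16326328320, [(nat_lit 36, nat_lit 17417895936), (nat_lit 4, nat_lit 18491375616), (nat_lit 85, nat_lit 18474860544), (nat_lit 76, nat_lit 19564855296), (nat_lit 90, nat_lit 19548340224), (nat_lit 103, nat_lit 20638334976), (nat_lit 46, nat_lit 20621819904), (nat_lit 4, nat_lit 21711814656), (nat_lit 35, nat_lit 21695299584), (nat_lit 121, nat_lit 22768779264)]⟩,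
   ⟨V6_15236333568, [(nat_lit 107, nat_lit 17417895936), (nat_lit 56, nat_lit 18491375616), (nat_lit 59, nat_lit 18474860544), (nat_lit 23, nat_lit 19564855296), (nat_lit 11, nat_lit 19548340224), (nat_lit 78, nat_lit 19531825152), (nat_lit 104, nat_lit 20621819904), (nat_lit 28, nat_lit 20605304832), (nat_lit 90, nat_lit 21678784512)]⟩],
  [W_17416060928, W_16342581248]⟩
theorem C_17417895936 : chkRec R_17417895936 = true := by decide +kernel

noncomputable def R_17432588418 : Rec := ⟨nat_lit 17432588418, nat_lit 4,
  [⟨V6_16291733634, [(nat_lit 4, nat_lit 17432588418), (nat_lit 101, nat_lit 18506326146), (nat_lit 85, nat_lit 18489553026), (nat_lit 122, nat_lit 19563290754), (nat_lit 73, nat_lit 19546517634), (nat_lit 12, nat_lit 20620255362), (nat_lit 125, nat_lit 20603482242), (nat_lit 4, nat_lit 21677219970), (nat_lit 35, nat_lit 21660446850), (nat_lit 67, nat_lit 22734184578)]⟩,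
   ⟨V6_16291475586, [(nat_lit 27, nat_lit 17432588418), (nat_lit 86, nat_lit 18506068098), (nat_lit 88, nat_lit 18489553026), (nat_lit 25, nat_lit 19563032706), (nat_lit 55, nat_lit 19546517634), (nat_lit 27, nat_lit 20619997314), (nat_lit 52, nat_lit 20603482242), (nat_lit 115, nat_lit 21676961922), (nat_lit 28, nat_lit 21660446850), (nat_lit 34, nat_lit 22733926530)]⟩],
  [W_17381990528, W_16325025920]⟩
theorem C_17432588418 : chkRec R_17432588418 = true := by decide +kernel

noncomputable def R_17432588481 : Rec := ⟨nat_lit 17432588481, nat_lit 5,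
  [⟨V6_17365217472, [(nat_lit 62, nat_lit 17432588481), (nat_lit 95, nat_lit 18506330304), (nat_lit 66, nat_lit 18506068161), (nat_lit 101, nat_lit 18489553089), (nat_lit 73, nat_lit 19579809984), (nat_lit 68, nat_lit 19563294912), (nat_lit 9, nat_lit 19563032769), (nat_lit 118, nat_lit 19546517697), (nat_lit 112, nat_lit 20636774592), (nat_lit 34, nat_lit 20620259520), (nat_lit 25, nat_lit 20619997377), (nat_lit 78, nat_lit 20603482305), (nat_lit 48, nat_lit 21693739200), (nat_lit 88, nat_lit 21677224128), (nat_lit 36, nat_lit 21676961985), (nat_lit 56, nat_lit 21660446913), (nat_lit 123, nat_lit 22750703808), (nat_lit 83, nat_lit 22734188736), (nat_lit 118, nat_lit 22733926593), (nat_lit 56, nat_lit 23807668416)]⟩,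
   ⟨V6_16274960577, [(nat_lit 107, nat_lit 17432588481), (nat_lit 118, nat_lit 18489553089), (nat_lit 9, nat_lit 19546517697), (nat_lit 20, nat_lit 20603482305), (nat_lit 78, nat_lit 21660446913), (nat_lit 7, nat_lit 22717411521)]⟩],
  [W_16308514880]⟩
theorem C_17432588481 : chkRec R_17432588481 = true := by decide +kernel

noncomputable def R_17432592513 : Rec := ⟨nat_lit 17432592513, nat_lit 13,
  [⟨V6_16291741761, [(nat_lit 73, nat_lit 17432592513), (nat_lit 73, nat_lit 18506334273), (nat_lit 13, nat_lit 18489557121), (nat_lit 26, nat_lit 19563298881), (nat_lit 15, nat_lit 19546521729), (nat_lit 29, nat_lit 20620263489), (nat_lit 48, nat_lit 20603486337), (nat_lit 9, nat_lit 21677228097), (nat_lit 50, nat_lit 21660450945), (nat_lit 46, nat_lit 22734192705)]⟩],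
  [W_17382252608, W_17365475456]⟩
theorem C_17432592513 : chkRec R_17432592513 = true := by decide +kernel

noncomputable def R_17432592576 : Rec := ⟨nat_lit 17432592576, nat_lit 17,
  [⟨V6_16274964672, [(nat_lit 2, nat_lit 17432592576), (nat_lit 39, nat_lit 18489557184), (nat_lit 88, nat_lit 19546521792), (nat_lit 125, nat_lit 20603486400), (nat_lit 43, nat_lit 21660451008), (nat_lit 12, nat_lit 22717415616)]⟩],
  [W_17382256640, W_16325292032]⟩
theorem C_17432592576 : chkRec R_17432592576 = true := by decide +kernel

noncomputable def R_17432846466 : Rec := ⟨nat_lit 17432846466, nat_lit 4,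
  [⟨V6_16358318208, [(nat_lit 52, nat_lit 17432846466), (nat_lit 4, nat_lit 18506588289), (nat_lit 112, nat_lit 18506326146), (nat_lit 94, nat_lit 19580330112), (nat_lit 3, nat_lit 19580067969), (nat_lit 69, nat_lit 19579805826), (nat_lit 68, nat_lit 20653809792), (nat_lit 65, nat_lit 20653547649), (nat_lit 73, nat_lit 20653285506), (nat_lit 64, nat_lit 21727289472), (nat_lit 12, nat_lit 21727027329), (nat_lit 110, nat_lit 22800769152)]⟩,
   ⟨V6_16291733634, [(nat_lit 67, nat_lit 17432846466), (nat_lit 102, nat_lit 18506326146), (nat_lit 18, nat_lit 18489811074), (nat_lit 79, nat_lit 19563290754), (nat_lit 55, nat_lit 19546775682), (nat_lit 40, nat_lit 20620255362), (nat_lit 32, nat_lit 20603740290), (nat_lit 109, nat_lit 21677219970), (nat_lit 121, nat_lit 21660704898), (nat_lit 76, nat_lit 22734184578)]⟩],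
  [W_17348960384]⟩
theorem C_17432846466 : chkRec R_17432846466 = true := by decide +kernel

noncomputable def R_17432850561 : Rec := ⟨nat_lit 17432850561, nat_lit 23,
  [⟨V6_17365737600, [(nat_lit 98, nat_lit 17432850561), (nat_lit 2, nat_lit 18506592384), (nat_lit 82, nat_lit 18506588289), (nat_lit 29, nat_lit 18489815169), (nat_lit 69, nat_lit 19580330112), (nat_lit 90, nat_lit 19563556992), (nat_lit 55, nat_lit 19563552897), (nat_lit 24, nat_lit 19546779777), (nat_lit 112, nat_lit 20637294720), (nat_lit 20, nat_lit 20620521600), (nat_lit 7, nat_lit 20620517505), (nat_lit 53, nat_lit 20603744385), (nat_lit 105, nat_lit 21694259328), (nat_lit 46, nat_lit 21677486208), (nat_lit 28, nat_lit 21677482113), (nat_lit 118, nat_lit 21660708993), (nat_lit 78, nat_lit 22751223936), (nat_lit 49, nat_lit 22734450816), (nat_lit 75, nat_lit 22734446721), (nat_lit 16, nat_lit 23808188544)]⟩],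
  [W_17398767680, W_17381994560, W_17381990528, W_16341803072, W_16325029952, W_16308514880]⟩
theorem C_17432850561 : chkRec R_17432850561 = true := by decide +kernel

noncomputable def R_17432850624 : Rec := ⟨nat_lit 17432850624, nat_lit 21,
  [⟨V6_16342069248, [(nat_lit 125, nat_lit 17432850624), (nat_lit 63, nat_lit 18506592384), (nat_lit 72, nat_lit 18506330304), (nat_lit 84, nat_lit 18489815232), (nat_lit 63, nat_lit 19580334144), (nat_lit 70, nat_lit 19580072064), (nat_lit 33, nat_lit 19563556992), (nat_lit 75, nat_lit 19563294912), (nat_lit 30, nat_lit 20654075904), (nat_lit 20, nat_lit 20653813824), (nat_lit 66, nat_lit 20637298752), (nat_lit 104, nat_lit 20637036672), (nat_lit 72, nat_lit 21727555584), (nat_lit 122, nat_lit 21711040512), (nat_lit 5, nat_lit 21710778432), (nat_lit 26, nat_lit 22784520192)]⟩],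
  [W_17382256640, W_17365217408, W_17332187264, W_17331925184]⟩
theorem C_17432850624 : chkRec R_17432850624 = true := by decide +kernel

noncomputable def R_17432854593 : Rec := ⟨nat_lit 17432854593, nat_lit 22,
  [⟨V6_17348706369, [(nat_lit 66, nat_lit 17432854593), (nat_lit 21, nat_lit 18506334273), (nat_lit 14, nat_lit 18489819201), (nat_lit 50, nat_lit 19563298881), (nat_lit 15, nat_lit 19546783809), (nat_lit 86, nat_lit 20620263489), (nat_lit 29, nat_lit 20603748417), (nat_lit 75, nat_lit 21677228097), (nat_lit 38, nat_lit 21660713025), (nat_lit 55, nat_lit 22734192705), (nat_lit 118, nat_lit 22717677633), (nat_lit 116, nat_lit 23791157313)]⟩,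
   ⟨V6_16291741761, [(nat_lit 105, nat_lit 17432854593), (nat_lit 12, nat_lit 18506334273), (nat_lit 32, nat_lit 18489819201), (nat_lit 84, nat_lit 19563298881), (nat_lit 126, nat_lit 19546783809), (nat_lit 57, nat_lit 20620263489), (nat_lit 71, nat_lit 20603748417), (nat_lit 95, nat_lit 21677228097), (nat_lit 74, nat_lit 21660713025), (nat_lit 121, nat_lit 22734192705)]⟩],
  [W_17399025728, W_17382252608, W_16342061120, W_16325546048]⟩
theorem C_17432854593 : chkRec R_17432854593 = true := by decide +kernel

noncomputable def R_17432854656 : Rec := ⟨nat_lit 17432854656, nat_lit 57,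
  [⟨V6_16358842368, [(nat_lit 32, nat_lit 17432854656), (nat_lit 3, nat_lit 18506596416), (nat_lit 38, nat_lit 18506592384), (nat_lit 101, nat_lit 18506334336), (nat_lit 55, nat_lit 19580338176), (nat_lit 5, nat_lit 19580334144), (nat_lit 15, nat_lit 19580330112), (nat_lit 56, nat_lit 19580076096), (nat_lit 107, nat_lit 19580072064), (nat_lit 126, nat_lit 20654075904), (nat_lit 16, nat_lit 20654071872), (nat_lit 40, nat_lit 20653817856), (nat_lit 68, nat_lit 20653813824), (nat_lit 73, nat_lit 20653809792), (nat_lit 98, nat_lit 21727813632), (nat_lit 76, nat_lit 21727555584), (nat_lit 67, nat_lit 21727551552), (nat_lit 3, nat_lit 22801293312)]⟩,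
   ⟨V6_16308781056, [(nat_lit 114, nat_lit 17432854656), (nat_lit 120, nat_lit 18506596416), (nat_lit 94, nat_lit 18489819264), (nat_lit 90, nat_lit 19580338176), (nat_lit 111, nat_lit 19563561024), (nat_lit 6, nat_lit 19546783872), (nat_lit 25, nat_lit 20637302784), (nat_lit 59, nat_lit 20620525632), (nat_lit 122, nat_lit 20603748480), (nat_lit 22, nat_lit 21694267392), (nat_lit 121, nat_lit 21677490240), (nat_lit 34, nat_lit 22751232000)]⟩],
  [W_17399029760, W_17382256640, W_17365475456, W_17348960384, W_17348706368, W_17332187264]⟩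
theorem C_17432854656 : chkRec R_17432854656 = true := by decide +kernel

noncomputable def R_17432858688 : Rec := ⟨nat_lit 17432858688, nat_lit 37,
  [⟨V6_17348972544, [(nat_lit 32, nat_lit 17432858688), (nat_lit 116, nat_lit 18506600448), (nat_lit 29, nat_lit 18489823296), (nat_lit 76, nat_lit 19563565056), (nat_lit 53, nat_lit 19546787904), (nat_lit 107, nat_lit 20620529664), (nat_lit 75, nat_lit 20603752512), (nat_lit 126, nat_lit 21677494272), (nat_lit 123, nat_lit 21660717120), (nat_lit 90, nat_lit 22734458880), (nat_lit 32, nat_lit 22717681728), (nat_lit 74, nat_lit 23791423488)]⟩,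
   ⟨V6_16292007936, [(nat_lit 32, nat_lit 17432858688), (nat_lit 99, nat_lit 18506600448), (nat_lit 37, nat_lit 18489823296), (nat_lit 82, nat_lit 19563565056), (nat_lit 36, nat_lit 19546787904), (nat_lit 36, nat_lit 20620529664), (nat_lit 71, nat_lit 20603752512), (nat_lit 39, nat_lit 21677494272), (nat_lit 10, nat_lit 21660717120), (nat_lit 120, nat_lit 22734458880)]⟩],
  [W_17382510656, W_16342323200, W_16325550080, W_16325546048]⟩
theorem C_17432858688 : chkRec R_17432858688 = true := by decide +kernel

noncomputable def R_17433108609 : Rec := ⟨nat_lit 17433108609, nat_lit 21,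
  [⟨V6_17415282753, [(nat_lit 105, nat_lit 17433108609), (nat_lit 65, nat_lit 18506850369), (nat_lit 13, nat_lit 18506588289), (nat_lit 7, nat_lit 18490073217), (nat_lit 71, nat_lit 19580330049), (nat_lit 99, nat_lit 19580067969), (nat_lit 51, nat_lit 19563814977), (nat_lit 9, nat_lit 19563552897), (nat_lit 54, nat_lit 20653809729), (nat_lit 67, nat_lit 20653547649), (nat_lit 69, nat_lit 20637294657), (nat_lit 42, nat_lit 20637032577), (nat_lit 69, nat_lit 21727289409), (nat_lit 115, nat_lit 21727027329), (nat_lit 92, nat_lit 21710774337), (nat_lit 48, nat_lit 21710512257), (nat_lit 6, nat_lit 22800769089), (nat_lit 42, nat_lit 22784254017), (nat_lit 104, nat_lit 22783991937), (nat_lit 23, nat_lit 23857733697)]⟩,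
   ⟨V6_16358318208, [(nat_lit 30, nat_lit 17433108609), (nat_lit 59, nat_lit 18506850432), (nat_lit 3, nat_lit 18506588289), (nat_lit 83, nat_lit 19580330112), (nat_lit 120, nat_lit 19580067969), (nat_lit 66, nat_lit 20653809792), (nat_lit 32, nat_lit 20653547649), (nat_lit 66, nat_lit 21727289472), (nat_lit 17, nat_lit 21727027329), (nat_lit 103, nat_lit 22800769152)]⟩,
   ⟨V6_16358318145, [(nat_lit 101, nat_lit 17433108609), (nat_lit 59, nat_lit 18506850369), (nat_lit 18, nat_lit 18506588289), (nat_lit 30, nat_lit 19580330049), (nat_lit 121, nat_lit 19580067969), (nat_lit 106, nat_lit 20653809729), (nat_lit 89, nat_lit 20653547649), (nat_lit 19, nat_lit 21727289409), (nat_lit 64, nat_lit 21727027329), (nat_lit 91, nat_lit 22800769089)]⟩,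
   ⟨V6_16341540993, [(nat_lit 35, nat_lit 17433108609), (nat_lit 79, nat_lit 18506588289), (nat_lit 26, nat_lit 18490073217), (nat_lit 66, nat_lit 19580067969), (nat_lit 47, nat_lit 19563552897), (nat_lit 61, nat_lit 20653547649), (nat_lit 58, nat_lit 20637032577), (nat_lit 6, nat_lit 21727027329), (nat_lit 113, nat_lit 21710512257), (nat_lit 110, nat_lit 22783991937)]⟩,
   ⟨V6_16291995777, [(nat_lit 45, nat_lit 17433108609), (nat_lit 26, nat_lit 18506588289), (nat_lit 61, nat_lit 18490073217), (nat_lit 112, nat_lit 19563552897), (nat_lit 55, nat_lit 19547037825), (nat_lit 96, nat_lit 20620517505), (nat_lit 7, nat_lit 20604002433), (nat_lit 94, nat_lit 21677482113), (nat_lit 41, nat_lit 21660967041), (nat_lit 17, nat_lit 22734446721)]⟩],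
  [W_17415282752, W_17398767680, W_17398505600, W_17381990528, W_17365475456, W_16341803072, W_16341540992]⟩
theorem C_17433108609 : chkRec R_17433108609 = true := by decide +kernel

noncomputable def R_17433112641 : Rec := ⟨nat_lit 17433112641, nat_lit 32,
  [⟨V6_17365995585, [(nat_lit 29, nat_lit 17433112641), (nat_lit 72, nat_lit 18506850369), (nat_lit 87, nat_lit 18490077249), (nat_lit 119, nat_lit 19580588097), (nat_lit 10, nat_lit 19563814977), (nat_lit 91, nat_lit 19547041857), (nat_lit 93, nat_lit 20637552705), (nat_lit 34, nat_lit 20620779585), (nat_lit 124, nat_lit 20604006465), (nat_lit 124, nat_lit 21694517313), (nat_lit 89, nat_lit 21677744193), (nat_lit 83, nat_lit 21660971073), (nat_lit 55, nat_lit 22751481921), (nat_lit 121, nat_lit 22734708801), (nat_lit 18, nat_lit 23808446529)]⟩,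
   ⟨V6_16325808192, [(nat_lit 101, nat_lit 17433112641), (nat_lit 122, nat_lit 18506854464), (nat_lit 126, nat_lit 18506850369), (nat_lit 117, nat_lit 18490077249), (nat_lit 104, nat_lit 19580592192), (nat_lit 51, nat_lit 19580588097), (nat_lit 67, nat_lit 19563819072), (nat_lit 69, nat_lit 19563814977), (nat_lit 95, nat_lit 19547041857), (nat_lit 2, nat_lit 20654329920), (nat_lit 86, nat_lit 20637556800), (nat_lit 40, nat_lit 20637552705), (nat_lit 19, nat_lit 20620783680), (nat_lit 106, nat_lit 20620779585), (nat_lit 34, nat_lit 21711294528), (nat_lit 26, nat_lit 21694521408), (nat_lit 25, nat_lit 21694517313), (nat_lit 6, nat_lit 22768259136)]⟩],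
  [W_17398767680, W_17381994560, W_16358576192, W_16342061120, W_16341803072, W_16325546048, W_16325029952, W_16308514880]⟩
theorem C_17433112641 : chkRec R_17433112641 = true := by decide +kernel

noncomputable def R_17433112704 : Rec := ⟨nat_lit 17433112704, nat_lit 79,
  [⟨V6_17366003712, [(nat_lit 73, nat_lit 17433112704), (nat_lit 50, nat_lit 18506854464), (nat_lit 35, nat_lit 18490077312), (nat_lit 36, nat_lit 19580596224), (nat_lit 81, nat_lit 19563819072), (nat_lit 3, nat_lit 19547041920), (nat_lit 69, nat_lit 20637560832), (nat_lit 84, nat_lit 20620783680), (nat_lit 78, nat_lit 20604006528), (nat_lit 2, nat_lit 21694525440), (nat_lit 87, nat_lit 21677748288), (nat_lit 13, nat_lit 21660971136), (nat_lit 116, nat_lit 22751490048), (nat_lit 83, nat_lit 22734712896), (nat_lit 60, nat_lit 23808454656)]⟩],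
  [W_17415544832, W_17399029760, W_17398771712, W_17398767680, W_17381994560, W_17381990528, W_17365475456, W_16358580224, W_16342065152, W_16341807104, W_16341803072, W_16325292032, W_16325029952, W_16325025920, W_16308252800]⟩
theorem C_17433112704 : chkRec R_17433112704 = true := by decide +kernel

noncomputable def R_17433116736 : Rec := ⟨nat_lit 17433116736, nat_lit 108,
  [⟨V6_17382260736, [(nat_lit 104, nat_lit 17433116736), (nat_lit 39, nat_lit 18506858496), (nat_lit 75, nat_lit 18506596416), (nat_lit 45, nat_lit 18490081344), (nat_lit 119, nat_lit 19580338176), (nat_lit 109, nat_lit 19580076096), (nat_lit 72, nat_lit 19563823104), (nat_lit 35, nat_lit 19563561024), (nat_lit 105, nat_lit 19547045952), (nat_lit 58, nat_lit 20653817856), (nat_lit 36, nat_lit 20637302784), (nat_lit 69, nat_lit 20637040704), (nat_lit 82, nat_lit 20620787712), (nat_lit 43, nat_lit 20620525632), (nat_lit 5, nat_lit 20604010560), (nat_lit 121, nat_lit 21710782464), (nat_lit 5, nat_lit 21694267392), (nat_lit 29, nat_lit 21694005312), (nat_lit 7, nat_lit 21677752320),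 (nat_lit 4, nat_lit 21677490240), (nat_lit 6, nat_lit 22767747072), (nat_lit 29, nat_lit 22751232000), (nat_lit 46, nat_lit 22750969920), (nat_lit 60, nat_lit 23824711680)]⟩,
   ⟨V6_17365483584, [(nat_lit 97, nat_lit 17433116736), (nat_lit 43, nat_lit 18506596416), (nat_lit 96, nat_lit 18490081344), (nat_lit 71, nat_lit 19580076096), (nat_lit 56, nat_lit 19563561024), (nat_lit 122, nat_lit 19547045952), (nat_lit 32, nat_lit 20637040704), (nat_lit 3, nat_lit 20620525632), (nat_lit 88, nat_lit 20604010560), (nat_lit 82, nat_lit 21694005312), (nat_lit 2, nat_lit 21677490240), (nat_lit 49, nat_lit 21660975168), (nat_lit 49, nat_lit 22750969920), (nat_lit 57, nat_lit 22734454848), (nat_lit 64, nat_lit 23807934528)]⟩,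
   ⟨V6_16308518976, [(nat_lit 3, nat_lit 17433116736), (nat_lit 100, nat_lit 18506596416), (nat_lit 98, nat_lit 18490081344), (nat_lit 48, nat_lit 19580076096), (nat_lit 102, nat_lit 19563561024), (nat_lit 53, nat_lit 19547045952), (nat_lit 26, nat_lit 20637040704), (nat_lit 75, nat_lit 20620525632), (nat_lit 82, nat_lit 20604010560), (nat_lit 79, nat_lit 21694005312), (nat_lit 114, nat_lit 21677490240), (nat_lit 45, nat_lit 22750969920)]⟩],
  [W_17415802880, W_17399029760, W_17399025728, W_17382256640, W_17365483520, W_17348706368, W_16358838272, W_16342065152, W_16325546048, W_16325292032, W_16308518912]⟩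
theorem C_17433116736 : chkRec R_17433116736 = true := by decide +kernel

noncomputable def R_17433120768 : Rec := ⟨nat_lit 17433120768, nat_lit 65,
  [⟨V6_16292007936, [(nat_lit 64, nat_lit 17433120768), (nat_lit 116, nat_lit 18506600448), (nat_lit 67, nat_lit 18490085376), (nat_lit 21, nat_lit 19563565056), (nat_lit 50, nat_lit 19547049984), (nat_lit 18, nat_lit 20620529664), (nat_lit 41, nat_lit 20604014592), (nat_lit 97, nat_lit 21677494272), (nat_lit 95, nat_lit 21660979200), (nat_lit 27, nat_lit 22734458880)]⟩,
   ⟨V6_16275492864, [(nat_lit 2, nat_lit 17433120768), (nat_lit 39, nat_lit 18490085376), (nat_lit 88, nat_lit 19547049984), (nat_lit 125, nat_lit 20604014592), (nat_lit 43, nat_lit 21660979200), (nat_lit 12, nat_lit 22717943808)]⟩],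
  [W_17416060928, W_17399545856, W_17399287808, W_17332195328, W_17315680256, W_16342581248, W_16275230720]⟩
theorem C_17433120768 : chkRec R_17433120768 = true := by decide +kernel

noncomputable def R_17433370689 : Rec := ⟨nat_lit 17433370689, nat_lit 28,
  [⟨V6_16309293120, [(nat_lit 96, nat_lit 17433370689), (nat_lit 111, nat_lit 18507112512), (nat_lit 115, nat_lit 18507108417), (nat_lit 81, nat_lit 18490335297), (nat_lit 34, nat_lit 19580850240), (nat_lit 36, nat_lit 19564077120), (nat_lit 68, nat_lit 19564073025), (nat_lit 104, nat_lit 19547299905), (nat_lit 34, nat_lit 20637814848), (nat_lit 26, nat_lit 20621041728), (nat_lit 98, nat_lit 20621037633), (nat_lit 27, nat_lit 20604264513), (nat_lit 99, nat_lit 21694779456), (nat_lit 77, nat_lit 21678006336), (nat_lit 101, nat_lit 21678002241), (nat_lit 33, nat_lit 22751744064)]⟩],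
  [W_17432055872, W_17415540800, W_17415282752, W_17399025728, W_17398767680, W_16358576192, W_16341803072, W_16325546048]⟩
theorem C_17433370689 : chkRec R_17433370689 = true := by decide +kernel

noncomputable def R_17433370752 : Rec := ⟨nat_lit 17433370752, nat_lit 57,
  [⟨V6_16309297152, [(nat_lit 45, nat_lit 17433370752), (nat_lit 34, nat_lit 18507112512), (nat_lit 124, nat_lit 18490335360), (nat_lit 89, nat_lit 19580854272), (nat_lit 114, nat_lit 19564077120), (nat_lit 116, nat_lit 19547299968), (nat_lit 60, nat_lit 20637818880), (nat_lit 40, nat_lit 20621041728), (nat_lit 115, nat_lit 20604264576), (nat_lit 2, nat_lit 21694783488), (nat_lit 11, nat_lit 21678006336), (nat_lit 107, nat_lit 22751748096)]⟩],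
  [W_17432059904, W_17415544832, W_17415282752, W_17399029760, W_17381990528, W_17365475456, W_17348960384, W_16342065152, W_16341540992]⟩
theorem C_17433370752 : chkRec R_17433370752 = true := by decide +kernel

noncomputable def R_17433374784 : Rec := ⟨nat_lit 17433374784, nat_lit 122,
  [⟨V6_17383034880, [(nat_lit 61, nat_lit 17433374784), (nat_lit 71, nat_lit 18507116544), (nat_lit 96, nat_lit 18507112512), (nat_lit 37, nat_lit 18490339392), (nat_lit 57, nat_lit 19580854272), (nat_lit 98, nat_lit 19580850240), (nat_lit 9, nat_lit 19564081152), (nat_lit 33, nat_lit 19564077120), (nat_lit 22, nat_lit 19547304000), (nat_lit 67, nat_lit 20654592000), (nat_lit 109, nat_lit 20637818880), (nat_lit 45, nat_lit 20637814848), (nat_lit 21, nat_lit 20621045760), (nat_lit 89, nat_lit 20621041728), (nat_lit 80, nat_lit 20604268608), (nat_lit 25, nat_lit 21711556608), (nat_lit 53, nat_lit 21694783488), (nat_lit 106, nat_lit 21694779456), (nat_lit 120, nat_lit 21678010368), (nat_lit 61, nat_lit 21678006336), (nat_lit 19, nat_lit 22768521216), (nat_lit 95,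 nat_lit 22751748096), (nat_lit 36, nat_lit 22751744064), (nat_lit 81, nat_lit 23825485824)]⟩,
   ⟨V6_16309297152, [(nat_lit 118, nat_lit 17433374784), (nat_lit 118, nat_lit 18507116544), (nat_lit 35, nat_lit 18507112512), (nat_lit 118, nat_lit 18490339392), (nat_lit 87, nat_lit 19580854272), (nat_lit 114, nat_lit 19564081152), (nat_lit 71, nat_lit 19564077120), (nat_lit 112, nat_lit 19547304000), (nat_lit 36, nat_lit 20637818880), (nat_lit 126, nat_lit 20621045760), (nat_lit 19, nat_lit 20621041728), (nat_lit 122, nat_lit 20604268608), (nat_lit 30, nat_lit 21694783488), (nat_lit 66, nat_lit 21678010368), (nat_lit 57, nat_lit 21678006336), (nat_lit 87, nat_lit 22751748096)]⟩],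
  [W_17432317952, W_17415802880, W_17415544832, W_17415540800, W_17399025728, W_17398771712, W_17398767680, W_17382256640, W_17381994560, W_17315934272, W_16358838272, W_16358580224, W_16358576192, W_16342065152, W_16341807104, W_16341803072, W_16325546048, W_16325292032, W_16325029952, W_16308514880]⟩
theorem C_17433374784 : chkRec R_17433374784 = true := by decide +kernel

noncomputable def R_17433378816 : Rec := ⟨nat_lit 17433378816, nat_lit 106,
  [⟨V6_17382260736, [(nat_lit 60, nat_lit 17433378816), (nat_lit 17, nat_lit 18506858496), (nat_lit 94, nat_lit 18490343424), (nat_lit 32, nat_lit 19580338176), (nat_lit 43, nat_lit 19563823104), (nat_lit 38, nat_lit 19547308032), (nat_lit 111, nat_lit 20653817856), (nat_lit 109, nat_lit 20637302784), (nat_lit 88, nat_lit 20620787712), (nat_lit 46, nat_lit 20604272640), (nat_lit 44, nat_lit 21710782464), (nat_lit 20, nat_lit 21694267392), (nat_lit 121, nat_lit 21677752320), (nat_lit 98, nat_lit 22767747072), (nat_lit 36, nat_lit 22751232000), (nat_lit 37, nat_lit 23824711680)]⟩,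
   ⟨V6_16325296128, [(nat_lit 63, nat_lit 17433378816), (nat_lit 68, nat_lit 18506858496), (nat_lit 71, nat_lit 18490343424), (nat_lit 122, nat_lit 19580338176), (nat_lit 15, nat_lit 19563823104), (nat_lit 51, nat_lit 19547308032), (nat_lit 49, nat_lit 20653817856), (nat_lit 120, nat_lit 20637302784), (nat_lit 25, nat_lit 20620787712), (nat_lit 8, nat_lit 21710782464), (nat_lit 12, nat_lit 21694267392), (nat_lit 106, nat_lit 22767747072)]⟩,
   ⟨V6_16308781056, [(nat_lit 114, nat_lit 17433378816), (nat_lit 85, nat_lit 18506858496), (nat_lit 30, nat_lit 18490343424), (nat_lit 31, nat_lit 19580338176), (nat_lit 125, nat_lit 19563823104), (nat_lit 13, nat_lit 19547308032), (nat_lit 120, nat_lit 20637302784), (nat_lit 94, nat_lit 20620787712), (nat_lit 91, nat_lit 20604272640), (nat_lit 68, nat_lit 21694267392), (nat_lit 42, nat_lit 21677752320), (nat_lit 75, nat_lit 22751232000)]⟩],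
  [W_17432576000, W_17416060928, W_17415802880, W_17399029760, W_17382256640, W_17365483520, W_17315938304, W_16342065152, W_16325292032]⟩
theorem C_17433378816 : chkRec R_17433378816 = true := by decide +kernel

noncomputable def R_17433628737 : Rec := ⟨nat_lit 17433628737, nat_lit 11,
  [⟨V6_17382510657, [(nat_lit 71, nat_lit 17433628737), (nat_lit 107, nat_lit 18507108417), (nat_lit 27, nat_lit 18490593345), (nat_lit 111, nat_lit 19580588097), (nat_lit 72, nat_lit 19564073025), (nat_lit 89, nat_lit 19547557953), (nat_lit 107, nat_lit 20654067777), (nat_lit 38, nat_lit 20637552705), (nat_lit 80, nat_lit 20621037633), (nat_lit 66, nat_lit 20604522561), (nat_lit 39, nat_lit 21711032385), (nat_lit 113, nat_lit 21694517313), (nat_lit 7, nat_lit 21678002241), (nat_lit 99, nat_lit 22767996993), (nat_lit 77, nat_lit 22751481921), (nat_lit 100, nat_lit 23824961601)]⟩,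
   ⟨V6_17332965441, [(nat_lit 12, nat_lit 17433628737), (nat_lit 79, nat_lit 18490593345), (nat_lit 90, nat_lit 19547557953), (nat_lit 31, nat_lit 20604522561), (nat_lit 60, nat_lit 21661487169), (nat_lit 52, nat_lit 22718451777), (nat_lit 3, nat_lit 23775416385)]⟩],
  [W_16358576192, W_16292515904]⟩
theorem C_17433628737 : chkRec R_17433628737 = true := by decide +kernel

noncomputable def R_17433632832 : Rec := ⟨nat_lit 17433632832, nat_lit 99,
  [⟨V6_17349746688, [(nat_lit 42, nat_lit 17433632832), (nat_lit 57, nat_lit 18507374592), (nat_lit 46, nat_lit 18490597440), (nat_lit 68, nat_lit 19564339200), (nat_lit 14, nat_lit 19547562048), (nat_lit 69, nat_lit 20621303808), (nat_lit 27, nat_lit 20604526656), (nat_lit 86, nat_lit 21678268416), (nat_lit 90, nat_lit 21661491264), (nat_lit 7, nat_lit 22735233024), (nat_lit 42, nat_lit 22718455872), (nat_lit 113, nat_lit 23792197632)]⟩,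
   ⟨V6_17349742656, [(nat_lit 60, nat_lit 17433632832), (nat_lit 61, nat_lit 18507370560), (nat_lit 83, nat_lit 18490597440), (nat_lit 18, nat_lit 19564335168), (nat_lit 107, nat_lit 19547562048), (nat_lit 10, nat_lit 20621299776), (nat_lit 27, nat_lit 20604526656), (nat_lit 76, nat_lit 21678264384), (nat_lit 91, nat_lit 21661491264), (nat_lit 104, nat_lit 22735228992), (nat_lit 13, nat_lit 22718455872), (nat_lit 119, nat_lit 23792193600)]⟩],
  [W_17432317952, W_17432059904, W_17432055872, W_17415802880, W_17415544832, W_17415282752, W_17399029760, W_17399025728, W_17398767680, W_17316192320, W_16358838272, W_16358580224, W_16358576192, W_16342065152, W_16341803072, W_16325546048]⟩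
theorem C_17433632832 : chkRec R_17433632832 = true := by decide +kernel

noncomputable def R_17433636864 : Rec := ⟨nat_lit 17433636864, nat_lit 111,
  [⟨V6_16292782080, [(nat_lit 41, nat_lit 17433636864), (nat_lit 51, nat_lit 18507374592), (nat_lit 14, nat_lit 18490601472), (nat_lit 44, nat_lit 19564339200), (nat_lit 18, nat_lit 19547566080), (nat_lit 123, nat_lit 20621303808), (nat_lit 43, nat_lit 20604530688), (nat_lit 41, nat_lit 21678268416), (nat_lit 73, nat_lit 21661495296), (nat_lit 20, nat_lit 22735233024)]⟩,
   ⟨V6_16276008960, [(nat_lit 77, nat_lit 17433636864), (nat_lit 41, nat_lit 18490601472), (nat_lit 86, nat_lit 19547566080), (nat_lit 50, nat_lit 20604530688), (nat_lit 68, nat_lit 21661495296), (nat_lit 81, nat_lit 22718459904)]⟩],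
  [W_17432576000, W_17432317952, W_17416060928, W_17415802880, W_17415544832, W_17399029760, W_17398771712, W_17382256640, W_17316196352, W_16358838272, W_16358580224, W_16342065152, W_16341807104]⟩
theorem C_17433636864 : chkRec R_17433636864 = true := by decide +kernel

noncomputable def R_17433890880 : Rec := ⟨nat_lit 17433890880, nat_lit 44,
  [⟨V6_17349742656, [(nat_lit 30, nat_lit 17433890880), (nat_lit 83, nat_lit 18507370560), (nat_lit 49, nat_lit 18490855488), (nat_lit 30, nat_lit 19564335168), (nat_lit 73, nat_lit 19547820096), (nat_lit 73, nat_lit 20621299776), (nat_lit 62, nat_lit 20604784704), (nat_lit 54, nat_lit 21678264384), (nat_lit 100, nat_lit 21661749312), (nat_lit 97, nat_lit 22735228992), (nat_lit 86, nat_lit 22718713920), (nat_lit 44, nat_lit 23792193600)]⟩,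
   ⟨V6_16276262976, [(nat_lit 101, nat_lit 17433890880), (nat_lit 1, nat_lit 18490855488), (nat_lit 126, nat_lit 19547820096), (nat_lit 26, nat_lit 20604784704), (nat_lit 76, nat_lit 21661749312), (nat_lit 98, nat_lit 22718713920)]⟩],
  [W_17432317952, W_17432055872, W_17415802880, W_17333227520, W_16358838272, W_16358576192, W_16342323200, W_16342061120]⟩
theorem C_17433890880 : chkRec R_17433890880 = true := by decide +kernel

noncomputable def R_17433894912 : Rec := ⟨nat_lit 17433894912, nat_lit 86,
  [⟨V6_16292782080, [(nat_lit 96, nat_lit 17433894912), (nat_lit 7, nat_lit 18507374592), (nat_lit 17, nat_lit 18490859520), (nat_lit 102, nat_lit 19564339200), (nat_lit 1, nat_lit 19547824128), (nat_lit 86, nat_lit 20621303808), (nat_lit 30, nat_lit 20604788736), (nat_lit 84, nat_lit 21678268416), (nat_lit 89, nat_lit 21661753344), (nat_lit 66, nat_lit 22735233024)]⟩,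
   ⟨V6_16276267008, [(nat_lit 116, nat_lit 17433894912), (nat_lit 103, nat_lit 18490859520), (nat_lit 24, nat_lit 19547824128), (nat_lit 11, nat_lit 20604788736), (nat_lit 81, nat_lit 21661753344), (nat_lit 61, nat_lit 22718717952)]⟩],
  [W_17432576000, W_17432317952, W_17432059904, W_17416060928, W_17415802880, W_17415544832, W_17399029760, W_17350000640, W_16358580224, W_16342065152]⟩
theorem C_17433894912 : chkRec R_17433894912 = true := by decide +kernel

noncomputable def R_17434152960 : Rec := ⟨nat_lit 17434152960, nat_lit 49,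
  [⟨V6_17366519808, [(nat_lit 103, nat_lit 17434152960), (nat_lit 113, nat_lit 18507632640), (nat_lit 43, nat_lit 18491117568), (nat_lit 117, nat_lit 19581112320), (nat_lit 102, nat_lit 19564597248), (nat_lit 18, nat_lit 19548082176), (nat_lit 122, nat_lit 20638076928), (nat_lit 43, nat_lit 20621561856), (nat_lit 11, nat_lit 20605046784), (nat_lit 64, nat_lit 21695041536), (nat_lit 92, nat_lit 21678526464), (nat_lit 5, nat_lit 21662011392), (nat_lit 56, nat_lit 22752006144), (nat_lit 99, nat_lit 22735491072), (nat_lit 19, nat_lit 23808970752)]⟩],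
  [W_17432317952, W_17416060928, W_17415802880, W_16359096320, W_16358838272, W_16342581248, W_16276520960]⟩
theorem C_17434152960 : chkRec R_17434152960 = true := by decide +kernel

noncomputable def R_17434411008 : Rec := ⟨nat_lit 17434411008, nat_lit 14,
  [⟨V6_16326328320, [(nat_lit 91, nat_lit 17434411008), (nat_lit 74, nat_lit 18507890688), (nat_lit 13, nat_lit 18491375616), (nat_lit 51, nat_lit 19581370368), (nat_lit 73, nat_lit 19564855296), (nat_lit 34, nat_lit 19548340224), (nat_lit 81, nat_lit 20654850048), (nat_lit 105, nat_lit 20638334976), (nat_lit 76, nat_lit 20621819904), (nat_lit 96, nat_lit 21711814656), (nat_lit 113, nat_lit 21695299584), (nat_lit 79, nat_lit 22768779264)]⟩],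
  [W_17432576000, W_17416060928, W_16359096320]⟩
theorem C_17434411008 : chkRec R_17434411008 = true := by decide +kernel

noncomputable def R_17449103553 : Rec := ⟨nat_lit 17449103553, nat_lit 1,
  [⟨V6_17365217472, [(nat_lit 69, nat_lit 17449103553), (nat_lit 112, nat_lit 18522845376), (nat_lit 39, nat_lit 18506068161), (nat_lit 29, nat_lit 19579809984), (nat_lit 58, nat_lit 19563032769), (nat_lit 101, nat_lit 20636774592), (nat_lit 66, nat_lit 20619997377), (nat_lit 112, nat_lit 21693739200), (nat_lit 118, nat_lit 21676961985), (nat_lit 108, nat_lit 22750703808), (nat_lit 27, nat_lit 22733926593), (nat_lit 17, nat_lit 23807668416)]⟩],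
  [W_17381994560]⟩
theorem C_17449103553 : chkRec R_17449103553 = true := by decide +kernel

noncomputable def R_17449361538 : Rec := ⟨nat_lit 17449361538, nat_lit 3,
  [⟨V6_17381990529, [(nat_lit 119, nat_lit 17449361538), (nat_lit 29, nat_lit 18523103361), (nat_lit 91, nat_lit 18522841218), (nat_lit 92, nat_lit 18506326146), (nat_lit 1, nat_lit 19596583041), (nat_lit 85, nat_lit 19580067969), (nat_lit 40, nat_lit 19579805826), (nat_lit 14, nat_lit 19563290754), (nat_lit 50, nat_lit 20653547649), (nat_lit 92, nat_lit 20637032577), (nat_lit 110, nat_lit 20636770434), (nat_lit 116, nat_lit 20620255362), (nat_lit 121, nat_lit 21710512257), (nat_lit 55, nat_lit 21693997185), (nat_lit 27, nat_lit 21693735042), (nat_lit 8, nat_lit 21677219970), (nat_lit 34, nat_lit 22767476865), (nat_lit 46, nat_lit 22750961793), (nat_lit 19, nat_lit 22750699650), (nat_lit 4, nat_lit 23824441473)]⟩],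
  [W_17365475456]⟩
theorem C_17449361538 : chkRec R_17449361538 = true := by decide +kernel

noncomputable def R_17449365633 : Rec := ⟨nat_lit 17449365633, nat_lit 6,
  [⟨V6_17381990529, [(nat_lit 101, nat_lit 17449365633), (nat_lit 2, nat_lit 18523103361), (nat_lit 76, nat_lit 18522845313), (nat_lit 119, nat_lit 18506330241), (nat_lit 15, nat_lit 19596583041), (nat_lit 54, nat_lit 19580067969), (nat_lit 84, nat_lit 19579809921), (nat_lit 100, nat_lit 19563294849), (nat_lit 6, nat_lit 20653547649), (nat_lit 64, nat_lit 20637032577), (nat_lit 75, nat_lit 20636774529), (nat_lit 110, nat_lit 20620259457), (nat_lit 64, nat_lit 21710512257), (nat_lit 43, nat_lit 21693997185), (nat_lit 107, nat_lit 21693739137), (nat_lit 14, nat_lit 21677224065), (nat_lit 55, nat_lit 22767476865), (nat_lit 10, nat_lit 22750961793), (nat_lit 113, nat_lit 22750703745), (nat_lit 29, nat_lit 23824441473)]⟩],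
  [W_17398767680, W_17381994560]⟩
theorem C_17449365633 : chkRec R_17449365633 = true := by decide +kernel

noncomputable def R_17449365696 : Rec := ⟨nat_lit 17449365696, nat_lit 5,
  [⟨V6_17348702400, [(nat_lit 76, nat_lit 17449365696), (nat_lit 26, nat_lit 18506330304), (nat_lit 126, nat_lit 19563294912), (nat_lit 1, nat_lit 20620259520), (nat_lit 101, nat_lit 21677224128), (nat_lit 51, nat_lit 22734188736), (nat_lit 29, nat_lit 23791153344)]⟩],
  [W_17398771712]⟩
theorem C_17449365696 : chkRec R_17449365696 = true := by decide +kernel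

noncomputable def R_17449369665 : Rec := ⟨nat_lit 17449369665, nat_lit 4,
  [⟨V6_17348706369, [(nat_lit 8, nat_lit 17449369665), (nat_lit 103, nat_lit 18506334273), (nat_lit 40, nat_lit 19563298881), (nat_lit 87, nat_lit 20620263489), (nat_lit 24, nat_lit 21677228097), (nat_lit 119, nat_lit 22734192705), (nat_lit 110, nat_lit 23791157313)]⟩],
  [W_17399025728]⟩
theorem C_17449369665 : chkRec R_17449369665 = true := by decide +kernel

noncomputable def R_17449369728 : Rec := ⟨nat_lit 17449369728, nat_lit 18,
  [⟨V6_17382260736, [(nat_lit 99, nat_lit 17449369728), (nat_lit 85, nat_lit 18523111488), (nat_lit 85, nat_lit 18506334336), (nat_lit 115, nat_lit 19596853248), (nat_lit 36, nat_lit 19580076096), (nat_lit 79, nat_lit 19563298944), (nat_lit 27, nat_lit 20653817856), (nat_lit 46, nat_lit 20637040704), (nat_lit 78, nat_lit 20620263552), (nat_lit 71, nat_lit 21710782464), (nat_lit 5, nat_lit 21694005312), (nat_lit 62, nat_lit 21677228160), (nat_lit 32, nat_lit 22767747072), (nat_lit 49, nat_lit 22750969920), (nat_lit 61, nat_lit 23824711680)]⟩],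
  [W_17399029760, W_17365475456]⟩
theorem C_17449369728 : chkRec R_17449369728 = true := by decide +kernel

noncomputable def R_17449623681 : Rec := ⟨nat_lit 17449623681, nat_lit 8,
  [⟨V6_17365737600, [(nat_lit 35, nat_lit 17449623681), (nat_lit 20, nat_lit 18523365504), (nat_lit 75, nat_lit 18506588289), (nat_lit 46, nat_lit 19580330112), (nat_lit 92, nat_lit 19563552897), (nat_lit 77, nat_lit 20637294720), (nat_lit 39, nat_lit 20620517505), (nat_lit 20, nat_lit 21694259328), (nat_lit 12, nat_lit 21677482113), (nat_lit 110, nat_lit 22751223936), (nat_lit 91, nat_lit 22734446721), (nat_lit 62, nat_lit 23808188544)]⟩],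
  [W_17415282752, W_17398767680]⟩
theorem C_17449623681 : chkRec R_17449623681 = true := by decide +kernel

noncomputable def R_17449627713 : Rec := ⟨nat_lit 17449627713, nat_lit 12,
  [⟨V6_17399025729, [(nat_lit 81, nat_lit 17449627713), (nat_lit 92, nat_lit 18523365441), (nat_lit 67, nat_lit 18523107393), (nat_lit 108, nat_lit 18506592321), (nat_lit 125, nat_lit 19597103169), (nat_lit 8, nat_lit 19596845121), (nat_lit 96, nat_lit 19580330049), (nat_lit 42, nat_lit 19580072001), (nat_lit 123, nat_lit 19563556929), (nat_lit 30, nat_lit 20670582849), (nat_lit 40, nat_lit 20654067777), (nat_lit 42, nat_lit 20653809729), (nat_lit 96, nat_lit 20637294657), (nat_lit 41, nat_lit 20637036609), (nat_lit 55, nat_lit 20620521537), (nat_lit 61, nat_lit 21727547457), (nat_lit 81, nat_lit 21711032385), (nat_lit 36, nat_lit 21710774337), (nat_lit 51, nat_lit 21694259265), (nat_lit 122, nat_lit 21694001217), (nat_lit 7, nat_lit 22784512065), (nat_lit 1, nat_lit 22767996993), (nat_lit 2, nat_lit 22767738945), (nat_lit 53, nat_lit 23841476673)]⟩,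
   ⟨V6_17382510657, [(nat_lit 11, nat_lit 17449627713), (nat_lit 65, nat_lit 18523365441), (nat_lit 119, nat_lit 18506592321), (nat_lit 59, nat_lit 19597103169), (nat_lit 89, nat_lit 19580330049), (nat_lit 118, nat_lit 19563556929), (nat_lit 101, nat_lit 20654067777), (nat_lit 43, nat_lit 20637294657), (nat_lit 98, nat_lit 20620521537), (nat_lit 30, nat_lit 21711032385), (nat_lit 17, nat_lit 21694259265), (nat_lit 11, nat_lit 21677486145), (nat_lit 46, nat_lit 22767996993), (nat_lit 104, nat_lit 22751223873), (nat_lit 33, nat_lit 23824961601)]⟩],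
  [W_17399025728, W_17398767680, W_17381994560]⟩
theorem C_17449627713 : chkRec R_17449627713 = true := by decide +kernel

noncomputable def R_17449627776 : Rec := ⟨nat_lit 17449627776, nat_lit 26,
  [⟨V6_17365737600, [(nat_lit 113, nat_lit 17449627776), (nat_lit 81, nat_lit 18523365504), (nat_lit 122, nat_lit 18506592384), (nat_lit 96, nat_lit 19580330112), (nat_lit 116, nat_lit 19563556992), (nat_lit 38, nat_lit 20637294720), (nat_lit 4, nat_lit 20620521600), (nat_lit 112, nat_lit 21694259328), (nat_lit 66, nat_lit 21677486208), (nat_lit 122, nat_lit 22751223936), (nat_lit 115, nat_lit 22734450816), (nat_lit 75, nat_lit 23808188544)]⟩],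
  [W_17415544832, W_17398771712, W_17382256640, W_17381994560]⟩
theorem C_17449627776 : chkRec R_17449627776 = true := by decide +kernel

noncomputable def R_17449631808 : Rec := ⟨nat_lit 17449631808, nat_lit 35,
  [⟨V6_17365483584, [(nat_lit 27, nat_lit 17449631808), (nat_lit 33, nat_lit 18523111488), (nat_lit 38, nat_lit 18506596416), (nat_lit 37, nat_lit 19580076096), (nat_lit 14, nat_lit 19563561024), (nat_lit 5, nat_lit 20637040704), (nat_lit 71, nat_lit 20620525632), (nat_lit 17, nat_lit 21694005312), (nat_lit 39, nat_lit 21677490240), (nat_lit 113, nat_lit 22750969920), (nat_lit 80, nat_lit 22734454848), (nat_lit 45, nat_lit 23807934528)]⟩],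
  [W_17415802880, W_17399029760, W_17399025728]⟩
theorem C_17449631808 : chkRec R_17449631808 = true := by decide +kernel

noncomputable def R_17449635840 : Rec := ⟨nat_lit 17449635840, nat_lit 11,
  [⟨V6_17348972544, [(nat_lit 117, nat_lit 17449635840), (nat_lit 30, nat_lit 18506600448), (nat_lit 77, nat_lit 19563565056), (nat_lit 50, nat_lit 20620529664), (nat_lit 97, nat_lit 21677494272), (nat_lit 10, nat_lit 22734458880), (nat_lit 53, nat_lit 23791423488)]⟩],
  [W_17416060928, W_17332195328]⟩
theorem C_17449635840 : chkRec R_17449635840 = true := by decide +kernel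

noncomputable def R_17449885761 : Rec := ⟨nat_lit 17449885761, nat_lit 10,
  [⟨V6_17415282753, [(nat_lit 24, nat_lit 17449885761), (nat_lit 114, nat_lit 18523365441), (nat_lit 25, nat_lit 18506850369), (nat_lit 99, nat_lit 19596845121), (nat_lit 2, nat_lit 19580330049), (nat_lit 73, nat_lit 19563814977), (nat_lit 112, nat_lit 20670324801), (nat_lit 29, nat_lit 20653809729), (nat_lit 88, nat_lit 20637294657), (nat_lit 41, nat_lit 21743804481), (nat_lit 98, nat_lit 21727289409), (nat_lit 114, nat_lit 21710774337), (nat_lit 95, nat_lit 22800769089), (nat_lit 117, nat_lit 22784254017), (nat_lit 6, nat_lit 23857733697)]⟩,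
   ⟨V6_17365995585, [(nat_lit 91, nat_lit 17449885761), (nat_lit 71, nat_lit 18523623489), (nat_lit 48, nat_lit 18506850369), (nat_lit 107, nat_lit 19580588097), (nat_lit 118, nat_lit 19563814977), (nat_lit 83, nat_lit 20637552705), (nat_lit 73, nat_lit 20620779585), (nat_lit 16, nat_lit 21694517313), (nat_lit 119, nat_lit 21677744193), (nat_lit 10, nat_lit 22751481921), (nat_lit 72, nat_lit 22734708801), (nat_lit 79, nat_lit 23808446529)]⟩],
  [W_17415540800, W_17415282752, W_17398767680]⟩
theorem C_17449885761 : chkRec R_17449885761 = true := by decide +kernel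

noncomputable def R_17449885824 : Rec := ⟨nat_lit 17449885824, nat_lit 30,
  [⟨V6_17365737600, [(nat_lit 102, nat_lit 17449885824), (nat_lit 49, nat_lit 18523365504), (nat_lit 22, nat_lit 18506850432), (nat_lit 24, nat_lit 19580330112), (nat_lit 27, nat_lit 19563815040), (nat_lit 35, nat_lit 20637294720), (nat_lit 41, nat_lit 20620779648), (nat_lit 30, nat_lit 21694259328), (nat_lit 26, nat_lit 21677744256), (nat_lit 77, nat_lit 22751223936), (nat_lit 116, nat_lit 22734708864), (nat_lit 45, nat_lit 23808188544)]⟩],
  [W_17415544832, W_17399029760, W_17398767680]⟩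
theorem C_17449885824 : chkRec R_17449885824 = true := by decide +kernel

noncomputable def R_17449889856 : Rec := ⟨nat_lit 17449889856, nat_lit 51,
  [⟨V6_17366003712, [(nat_lit 67, nat_lit 17449889856), (nat_lit 20, nat_lit 18523631616), (nat_lit 116, nat_lit 18506854464), (nat_lit 89, nat_lit 19580596224), (nat_lit 23, nat_lit 19563819072), (nat_lit 75, nat_lit 20637560832), (nat_lit 67, nat_lit 20620783680), (nat_lit 67, nat_lit 21694525440), (nat_lit 51, nat_lit 21677748288), (nat_lit 62, nat_lit 22751490048), (nat_lit 68, nat_lit 22734712896), (nat_lit 54, nat_lit 23808454656)]⟩],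
  [W_17432317952, W_17415802880, W_17415544832, W_17415540800, W_17399029760, W_17399025728]⟩
theorem C_17449889856 : chkRec R_17449889856 = true := by decide +kernel

noncomputable def R_17449893888 : Rec := ⟨nat_lit 17449893888, nat_lit 52,
  [⟨V6_17399549952, [(nat_lit 21, nat_lit 17449893888), (nat_lit 29, nat_lit 18523631616), (nat_lit 57, nat_lit 18506858496), (nat_lit 20, nat_lit 19597369344), (nat_lit 70, nat_lit 19580596224), (nat_lit 90, nat_lit 19563823104), (nat_lit 126, nat_lit 20671107072), (nat_lit 89, nat_lit 20654333952), (nat_lit 41, nat_lit 20637560832), (nat_lit 83, nat_lit 20620787712), (nat_lit 80, nat_lit 21728071680), (nat_lit 24, nat_lit 21711298560), (nat_lit 99, nat_lit 21694525440), (nat_lit 18, nat_lit 22785036288), (nat_lit 126, nat_lit 22768263168), (nat_lit 52, nat_lit 23842000896)]⟩],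
  [W_17432576000, W_17416060928, W_17415802880, W_17382256640, W_17365483520]⟩
theorem C_17449893888 : chkRec R_17449893888 = true := by decide +kernel

noncomputable def R_17450143809 : Rec := ⟨nat_lit 17450143809, nat_lit 7,
  [⟨V6_17365995585, [(nat_lit 5, nat_lit 17450143809), (nat_lit 3, nat_lit 18523623489), (nat_lit 18, nat_lit 18507108417), (nat_lit 34, nat_lit 19580588097), (nat_lit 58, nat_lit 19564073025), (nat_lit 76, nat_lit 20637552705), (nat_lit 86, nat_lit 20621037633), (nat_lit 80, nat_lit 21694517313), (nat_lit 26, nat_lit 21678002241), (nat_lit 5, nat_lit 22751481921), (nat_lit 2, nat_lit 22734966849), (nat_lit 126, nat_lit 23808446529)]⟩],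
  [W_17432055872, W_17399025728]⟩
theorem C_17450143809 : chkRec R_17450143809 = true := by decide +kernel

noncomputable def R_17450147904 : Rec := ⟨nat_lit 17450147904, nat_lit 48,
  [⟨V6_17366261760, [(nat_lit 51, nat_lit 17450147904), (nat_lit 110, nat_lit 18523889664), (nat_lit 3, nat_lit 18507112512), (nat_lit 45, nat_lit 19580854272), (nat_lit 63, nat_lit 19564077120), (nat_lit 95, nat_lit 20637818880), (nat_lit 51, nat_lit 20621041728), (nat_lit 51, nat_lit 21694783488), (nat_lit 90, nat_lit 21678006336), (nat_lit 87, nat_lit 22751748096), (nat_lit 120, nat_lit 22734970944), (nat_lit 43, nat_lit 23808712704)]⟩],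
  [W_17448833024, W_17432317952, W_17432059904, W_17432055872, W_17415802880, W_17415544832, W_17415282752, W_17399025728, W_17398767680]⟩
theorem C_17450147904 : chkRec R_17450147904 = true := by decide +kernel

noncomputable def R_17450151936 : Rec := ⟨nat_lit 17450151936, nat_lit 55,
  [⟨V6_17383034880, [(nat_lit 11, nat_lit 17450151936), (nat_lit 65, nat_lit 18523889664), (nat_lit 119, nat_lit 18507116544), (nat_lit 59, nat_lit 19597627392), (nat_lit 89, nat_lit 19580854272), (nat_lit 118, nat_lit 19564081152), (nat_lit 101, nat_lit 20654592000), (nat_lit 43, nat_lit 20637818880), (nat_lit 98, nat_lit 20621045760), (nat_lit 30, nat_lit 21711556608), (nat_lit 17, nat_lit 21694783488), (nat_lit 11, nat_lit 21678010368), (nat_lit 46, nat_lit 22768521216), (nat_lit 104, nat_lit 22751748096), (nat_lit 33, nat_lit 23825485824)]⟩],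
  [W_17432576000, W_17432317952, W_17415802880, W_17415544832, W_17398771712, W_17382256640]⟩
theorem C_17450151936 : chkRec R_17450151936 = true := by decide +kernel

noncomputable def R_17450405952 : Rec := ⟨nat_lit 17450405952, nat_lit 21,
  [⟨V6_17366519808, [(nat_lit 56, nat_lit 17450405952), (nat_lit 66, nat_lit 18524147712), (nat_lit 78, nat_lit 18507370560), (nat_lit 27, nat_lit 19581112320), (nat_lit 114, nat_lit 19564335168), (nat_lit 57, nat_lit 20638076928), (nat_lit 56, nat_lit 20621299776), (nat_lit 56, nat_lit 21695041536), (nat_lit 54, nat_lit 21678264384), (nat_lit 103, nat_lit 22752006144), (nat_lit 72, nat_lit 22735228992), (nat_lit 102, nat_lit 23808970752)]⟩],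
  [W_17432317952, W_17432055872, W_17415802880, W_17415540800]⟩
theorem C_17450405952 : chkRec R_17450405952 = true := by decide +kernel

noncomputable def R_17450409984 : Rec := ⟨nat_lit 17450409984, nat_lit 57,
  [⟨V6_17448837120, [(nat_lit 40, nat_lit 17450409984), (nat_lit 82, nat_lit 18523889664), (nat_lit 119, nat_lit 19597369344), (nat_lit 88, nat_lit 20670849024), (nat_lit 102, nat_lit 21744328704), (nat_lit 94, nat_lit 22817808384), (nat_lit 25, nat_lit 23891288064)]⟩,
   ⟨V6_17349746688, [(nat_lit 77, nat_lit 17450409984), (nat_lit 23, nat_lit 18507374592), (nat_lit 4, nat_lit 19564339200), (nat_lit 123, nat_lit 20621303808), (nat_lit 104, nat_lit 21678268416), (nat_lit 50, nat_lit 22735233024), (nat_lit 11, nat_lit 23792197632)]⟩],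
  [W_17432576000, W_17432317952, W_17416060928, W_17415802880, W_17415544832, W_17399545856]⟩
theorem C_17450409984 : chkRec R_17450409984 = true := by decide +kernel

noncomputable def R_17450668032 : Rec := ⟨nat_lit 17450668032, nat_lit 31,
  [⟨V6_17366519808, [(nat_lit 104, nat_lit 17450668032), (nat_lit 3, nat_lit 18524147712), (nat_lit 25, nat_lit 18507632640), (nat_lit 64, nat_lit 19581112320), (nat_lit 101, nat_lit 19564597248), (nat_lit 98, nat_lit 20638076928), (nat_lit 118, nat_lit 20621561856), (nat_lit 115, nat_lit 21695041536), (nat_lit 111, nat_lit 21678526464), (nat_lit 6, nat_lit 22752006144), (nat_lit 88, nat_lit 22735491072), (nat_lit 41, nat_lit 23808970752)]⟩],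
  [W_17448833024, W_17432317952, W_17416060928, W_17415802880]⟩
theorem C_17450668032 : chkRec R_17450668032 = true := by decide +kernel

noncomputable def R_17450926080 : Rec := ⟨nat_lit 17450926080, nat_lit 18,
  [⟨V6_17449353216, [(nat_lit 16, nat_lit 17450926080), (nat_lit 84, nat_lit 18524405760), (nat_lit 65, nat_lit 19597885440), (nat_lit 79, nat_lit 20671365120), (nat_lit 33, nat_lit 21744844800), (nat_lit 107, nat_lit 22818324480), (nat_lit 118, nat_lit 23891804160)]⟩,
   ⟨V6_17350262784, [(nat_lit 24, nat_lit 17450926080), (nat_lit 55, nat_lit 18507890688), (nat_lit 120, nat_lit 19564855296), (nat_lit 7, nat_lit 20621819904), (nat_lit 72, nat_lit 21678784512), (nat_lit 103, nat_lit 22735749120), (nat_lit 76, nat_lit 23792713728)]⟩],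
  [W_17432576000, W_17416060928]⟩
theorem C_17450926080 : chkRec R_17450926080 = true := by decide +kernel

noncomputable def R_18355872003 : Rec := ⟨nat_lit 18355872003, nat_lit 1,
  [⟨V6_14060896515, [(nat_lit 122, nat_lit 18355872003), (nat_lit 49, nat_lit 19429609731), (nat_lit 3, nat_lit 20503347459)]⟩],
  [W_15134646464]⟩
theorem C_18355872003 : chkRec R_18355872003 = true := by decide +kernel

noncomputable def R_18355872066 : Rec := ⟨nat_lit 18355872066, nat_lit 1,
  [⟨V6_11913421122, [(nat_lit 33, nat_lit 18355872066)]⟩],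
  [W_17282125952]⟩
theorem C_18355872066 : chkRec R_18355872066 = true := by decide +kernel

noncomputable def R_18355872129 : Rec := ⟨nat_lit 18355872129, nat_lit 2,
  [⟨V6_14060904768, [(nat_lit 70, nat_lit 18355872129), (nat_lit 80, nat_lit 19429613952), (nat_lit 10, nat_lit 19429613889), (nat_lit 61, nat_lit 20503355712)]⟩],
  [W_17282129984]⟩
theorem C_18355872129 : chkRec R_18355872129 = true := by decide +kernel

noncomputable def R_18372641028 : Rec := ⟨nat_lit 18372641028, nat_lit 1,
  [⟨V6_12987154692, [(nat_lit 21, nat_lit 18372641028), (nat_lit 53, nat_lit 19429605636)]⟩],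
  [W_18355339520]⟩
theorem C_18372641028 : chkRec R_18372641028 = true := by decide +kernel

noncomputable def R_18372645123 : Rec := ⟨nat_lit 18372645123, nat_lit 1,
  [⟨V6_11930194179, [(nat_lit 100, nat_lit 18372645123)]⟩],
  [W_17298636992]⟩
theorem C_18372645123 : chkRec R_18372645123 = true := by decide +kernel

noncomputable def R_18372649155 : Rec := ⟨nat_lit 18372649155, nat_lit 1,
  [⟨V6_14060904642, [(nat_lit 4, nat_lit 18372649155), (nat_lit 45, nat_lit 19446390978), (nat_lit 45, nat_lit 19429613763), (nat_lit 97, nat_lit 20503355586)]⟩],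
  [W_17298895040]⟩
theorem C_18372649155 : chkRec R_18372649155 = true := by decide +kernel

noncomputable def R_18372649218 : Rec := ⟨nat_lit 18372649218, nat_lit 5,
  [⟨V6_12987162882, [(nat_lit 38, nat_lit 18372649218), (nat_lit 108, nat_lit 19429613826)]⟩,
   ⟨V6_11930198274, [(nat_lit 93, nat_lit 18372649218)]⟩],
  [W_18355863680, W_17298899072]⟩
theorem C_18372649218 : chkRec R_18372649218 = true := by decide +kernel

noncomputable def R_18372649281 : Rec := ⟨nat_lit 18372649281, nat_lit 4,
  [⟨V6_14077677888, [(nat_lit 26, nat_lit 18372649281), (nat_lit 57, nat_lit 19446391104), (nat_lit 83, nat_lit 19446387009), (nat_lit 125, nat_lit 20520128832)]⟩,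
   ⟨V6_14060904768, [(nat_lit 102, nat_lit 18372649281), (nat_lit 78, nat_lit 19446391104), (nat_lit 106, nat_lit 19429613889), (nat_lit 20, nat_lit 20503355712)]⟩],
  [W_17298903104, W_17282129984]⟩
theorem C_18372649281 : chkRec R_18372649281 = true := by decide +kernel

noncomputable def R_18372649344 : Rec := ⟨nat_lit 18372649344, nat_lit 4,
  [⟨V6_14060904768, [(nat_lit 76, nat_lit 18372649344), (nat_lit 64, nat_lit 19446391104), (nat_lit 61, nat_lit 19429613952), (nat_lit 49, nat_lit 20503355712)]⟩,
   ⟨V6_11930198400, [(nat_lit 124, nat_lit 18372649344)]⟩],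
  [W_17298907136]⟩
theorem C_18372649344 : chkRec R_18372649344 = true := by decide +kernel

noncomputable def R_18372903171 : Rec := ⟨nat_lit 18372903171, nat_lit 1,
  [⟨V6_15151677633, [(nat_lit 42, nat_lit 18372903171), (nat_lit 68, nat_lit 19446644994), (nat_lit 104, nat_lit 19446644931), (nat_lit 26, nat_lit 20520386817), (nat_lit 33, nat_lit 20520386754), (nat_lit 24, nat_lit 21594128577)]⟩],
  [W_17298374912]⟩
theorem C_18372903171 : chkRec R_18372903171 = true := by decide +kernel

noncomputable def R_18372907203 : Rec := ⟨nat_lit 18372907203, nat_lit 2,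
  [⟨V6_13004198082, [(nat_lit 27, nat_lit 18372907203), (nat_lit 70, nat_lit 19446649026)]⟩],
  [W_18372374720, W_17298636992]⟩
theorem C_18372907203 : chkRec R_18372907203 = true := by decide +kernel

noncomputable def R_18372907266 : Rec := ⟨nat_lit 18372907266, nat_lit 2,
  [⟨V6_13004198082, [(nat_lit 120, nat_lit 18372907266), (nat_lit 47, nat_lit 19446649026)]⟩],
  [W_18372378752, W_17298636992]⟩
theorem C_18372907266 : chkRec R_18372907266 = true := by decide +kernel

noncomputable def R_18372907329 : Rec := ⟨nat_lit 18372907329, nat_lit 1,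
  [⟨V6_15151157505, [(nat_lit 25, nat_lit 18372907329), (nat_lit 39, nat_lit 19446649089), (nat_lit 30, nat_lit 19446387009), (nat_lit 55, nat_lit 20520128769), (nat_lit 22, nat_lit 20519866689), (nat_lit 93, nat_lit 21593608449)]⟩],
  [W_18372382784]⟩
theorem C_18372907329 : chkRec R_18372907329 = true := by decide +kernel

noncomputable def R_18372911298 : Rec := ⟨nat_lit 18372911298, nat_lit 3,
  [⟨V6_13003940034, [(nat_lit 56, nat_lit 18372911298), (nat_lit 48, nat_lit 19446390978)]⟩],
  [W_18372636800, W_17298895040]⟩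
theorem C_18372911298 : chkRec R_18372911298 = true := by decide +kernel

noncomputable def R_18372911361 : Rec := ⟨nat_lit 18372911361, nat_lit 5,
  [⟨V6_15151685697, [(nat_lit 90, nat_lit 18372911361), (nat_lit 44, nat_lit 19446653121), (nat_lit 119, nat_lit 20520394881), (nat_lit 36, nat_lit 21594136641)]⟩],
  [W_18372640832, W_15151415552]⟩
theorem C_18372911361 : chkRec R_18372911361 = true := by decide +kernel

noncomputable def R_18372911424 : Rec := ⟨nat_lit 18372911424, nat_lit 4,
  [⟨V6_14077939968, [(nat_lit 13, nat_lit 18372911424), (nat_lit 100, nat_lit 19446653184), (nat_lit 114, nat_lit 19446649152), (nat_lit 36, nat_lit 20520390912)]⟩],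
  [W_17298907136, W_16225427456]⟩
theorem C_18372911424 : chkRec R_18372911424 = true := by decide +kernel

noncomputable def R_18372915393 : Rec := ⟨nat_lit 18372915393, nat_lit 2,
  [⟨V6_14077939905, [(nat_lit 85, nat_lit 18372915393), (nat_lit 54, nat_lit 19446653121), (nat_lit 109, nat_lit 20520390849)]⟩],
  [W_18372898880]⟩
theorem C_18372915393 : chkRec R_18372915393 = true := by decide +kernel

noncomputable def R_18372915456 : Rec := ⟨nat_lit 18372915456, nat_lit 1,
  [⟨V6_14077948032, [(nat_lit 117, nat_lit 18372915456), (nat_lit 85, nat_lit 19446657216), (nat_lit 89, nat_lit 20520398976)]⟩],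
  [W_18372902912]⟩
theorem C_18372915456 : chkRec R_18372915456 = true := by decide +kernel

noncomputable def R_18389156100 : Rec := ⟨nat_lit 18389156100, nat_lit 1,
  [⟨V6_15134114052, [(nat_lit 24, nat_lit 18389156100), (nat_lit 42, nat_lit 19462635780), (nat_lit 8, nat_lit 19446120708), (nat_lit 125, nat_lit 20519600388), (nat_lit 67, nat_lit 20503085316), (nat_lit 1, nat_lit 21576564996)]⟩],
  [W_15167930624]⟩
theorem C_18389156100 : chkRec R_18389156100 = true := by decide +kernel

noncomputable def R_18389418243 : Rec := ⟨nat_lit 18389418243, nat_lit 4,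
  [⟨V6_16207855875, [(nat_lit 117, nat_lit 18389418243), (nat_lit 102, nat_lit 19462897923), (nat_lit 5, nat_lit 19446382851), (nat_lit 5, nat_lit 20536377603), (nat_lit 22, nat_lit 20519862531), (nat_lit 28, nat_lit 20503347459), (nat_lit 124, nat_lit 21593342211), (nat_lit 105, nat_lit 21576827139), (nat_lit 51, nat_lit 22650306819)]⟩,
   ⟨V6_15134638338, [(nat_lit 41, nat_lit 18389418243), (nat_lit 14, nat_lit 19463160066), (nat_lit 78, nat_lit 19446382851), (nat_lit 55, nat_lit 20520124674), (nat_lit 66, nat_lit 20503347459), (nat_lit 100, nat_lit 21577089282)]⟩],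
  [W_18372116672, W_17315152064, W_17298636992]⟩
theorem C_18389418243 : chkRec R_18389418243 = true := by decide +kernel

noncomputable def R_18389422275 : Rec := ⟨nat_lit 18389422275, nat_lit 2,
  [⟨V6_15151157442, [(nat_lit 51, nat_lit 18389422275), (nat_lit 125, nat_lit 19463164098), (nat_lit 14, nat_lit 19462901955), (nat_lit 43, nat_lit 19446386883), (nat_lit 110, nat_lit 20536643778), (nat_lit 25, nat_lit 20520128706), (nat_lit 116, nat_lit 20519866563), (nat_lit 120, nat_lit 21593608386)]⟩,
   ⟨V6_15134642370, [(nat_lit 8, nat_lit 18389422275), (nat_lit 43, nat_lit 19463164098), (nat_lit 40, nat_lit 19446386883), (nat_lit 51, nat_lit 20520128706), (nat_lit 112, nat_lit 20503351491), (nat_lit 35, nat_lit 21577093314)]⟩],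
  [W_18372374720, W_16241930432]⟩
theorem C_18389422275 : chkRec R_18389422275 = true := by decide +kernel

noncomputable def R_18389422338 : Rec := ⟨nat_lit 18389422338, nat_lit 8,
  [⟨V6_16208384256, [(nat_lit 1, nat_lit 18389422338), (nat_lit 122, nat_lit 19463164161), (nat_lit 86, nat_lit 19446386946), (nat_lit 12, nat_lit 20536905984), (nat_lit 48, nat_lit 20520128769), (nat_lit 77, nat_lit 20503351554), (nat_lit 21, nat_lit 21593870592), (nat_lit 19, nat_lit 21577093377), (nat_lit 10, nat_lit 22650835200)]⟩,
   ⟨V6_15134638338, [(nat_lit 80, nat_lit 18389422338), (nat_lit 91, nat_lit 19463160066), (nat_lit 51, nat_lit 19446386946), (nat_lit 115, nat_lit 20520124674), (nat_lit 74, nat_lit 20503351554), (nat_lit 90, nat_lit 21577089282)]⟩,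
   ⟨V6_14060900610, [(nat_lit 116, nat_lit 18389422338), (nat_lit 12, nat_lit 19446386946), (nat_lit 60, nat_lit 20503351554)]⟩],
  [W_18355863680, W_17315414144, W_15167930624]⟩
theorem C_18389422338 : chkRec R_18389422338 = true := by decide +kernel

noncomputable def R_18389422401 : Rec := ⟨nat_lit 18389422401, nat_lit 3,
  [⟨V6_15134642433, [(nat_lit 107, nat_lit 18389422401), (nat_lit 60, nat_lit 19463164161), (nat_lit 22, nat_lit 19446387009), (nat_lit 70, nat_lit 20520128769), (nat_lit 42, nat_lit 20503351617), (nat_lit 119, nat_lit 21577093377)]⟩,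
   ⟨V6_14077677888, [(nat_lit 54, nat_lit 18389422401), (nat_lit 3, nat_lit 19463164224), (nat_lit 13, nat_lit 19446387009), (nat_lit 49, nat_lit 20520128832)]⟩],
  [W_18372382784, W_17315418176]⟩
theorem C_18389422401 : chkRec R_18389422401 = true := by decide +kernel

noncomputable def R_18389426370 : Rec := ⟨nat_lit 18389426370, nat_lit 10,
  [⟨V6_15134646465, [(nat_lit 3, nat_lit 18389426370), (nat_lit 67, nat_lit 19463168193), (nat_lit 72, nat_lit 19446390978), (nat_lit 81, nat_lit 20520132801), (nat_lit 58, nat_lit 20503355586), (nat_lit 49, nat_lit 21577097409)]⟩,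
   ⟨V6_15134646402, [(nat_lit 98, nat_lit 18389426370), (nat_lit 79, nat_lit 19463168130), (nat_lit 4, nat_lit 19446390978), (nat_lit 116, nat_lit 20520132738), (nat_lit 65, nat_lit 20503355586), (nat_lit 96, nat_lit 21577097346)]⟩,
   ⟨V6_14077681794, [(nat_lit 45, nat_lit 18389426370), (nat_lit 103, nat_lit 19463168130), (nat_lit 33, nat_lit 19446390978), (nat_lit 43, nat_lit 20520132738)]⟩,
   ⟨V6_14060904642, [(nat_lit 28, nat_lit 18389426370), (nat_lit 108, nat_lit 19446390978), (nat_lit 32, nat_lit 20503355586)]⟩],
  [W_18372636800, W_17315672192, W_17298895040, W_16241930432]⟩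
theorem C_18389426370 : chkRec R_18389426370 = true := by decide +kernel

noncomputable def R_18389426433 : Rec := ⟨nat_lit 18389426433, nat_lit 16,
  [⟨V6_16225165377, [(nat_lit 81, nat_lit 18389426433), (nat_lit 26, nat_lit 19463168193), (nat_lit 28, nat_lit 19446391041), (nat_lit 41, nat_lit 20536909953), (nat_lit 34, nat_lit 20520132801), (nat_lit 48, nat_lit 21610651713), (nat_lit 5, nat_lit 21593874561), (nat_lit 40, nat_lit 22667616321)]⟩,
   ⟨V6_16208384256, [(nat_lit 68, nat_lit 18389426433), (nat_lit 123, nat_lit 19463168256), (nat_lit 56, nat_lit 19463164161), (nat_lit 53, nat_lit 19446391041), (nat_lit 95, nat_lit 20536905984), (nat_lit 8, nat_lit 20520132864), (nat_lit 61, nat_lit 20520128769), (nat_lit 28, nat_lit 20503355649), (nat_lit 9, nat_lit 21593870592), (nat_lit 52, nat_lit 21577097472), (nat_lit 71, nat_lit 21577093377), (nat_lit 42, nat_lit 22650835200)]⟩,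
   ⟨V6_16208384193, [(nat_lit 23, nat_lit 18389426433), (nat_lit 7, nat_lit 19463168193), (nat_lit 47, nat_lit 19463164161), (nat_lit 99, nat_lit 19446391041), (nat_lit 72, nat_lit 20536905921), (nat_lit 116, nat_lit 20520132801), (nat_lit 91, nat_lit 20520128769), (nat_lit 101, nat_lit 20503355649), (nat_lit 68, nat_lit 21593870529), (nat_lit 32, nat_lit 21577097409), (nat_lit 103, nat_lit 21577093377), (nat_lit 43, nat_lit 22650835137)]⟩,
   ⟨V6_16208380161, [(nat_lit 108, nat_lit 18389426433), (nat_lit 66, nat_lit 19463164161), (nat_lit 53, nat_lit 19446391041), (nat_lit 49, nat_lit 20536901889), (nat_lit 75, nat_lit 20520128769), (nat_lit 78, nat_lit 20503355649), (nat_lit 39, nat_lit 21593866497), (nat_lit 108, nat_lit 21577093377), (nat_lit 66, nat_lit 22650831105)]⟩],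
  [W_18372640832, W_18355867712, W_17282129984, W_16208388224, W_15168200768]⟩
theorem C_18389426433 : chkRec R_18389426433 = true := by decide +kernel

noncomputable def R_18389426496 : Rec := ⟨nat_lit 18389426496, nat_lit 14,
  [⟨V6_17315684352, [(nat_lit 78, nat_lit 18389426496), (nat_lit 7, nat_lit 19463168256), (nat_lit 44, nat_lit 20536910016), (nat_lit 101, nat_lit 21610651776), (nat_lit 126, nat_lit 22684393536), (nat_lit 28, nat_lit 23758135296)]⟩],
  [W_18372644864, W_18355871744, W_17282129984, W_16208388224, W_13003940096, W_10873233728]⟩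
theorem C_18389426496 : chkRec R_18389426496 = true := by decide +kernel

noncomputable def R_18389680323 : Rec := ⟨nat_lit 18389680323, nat_lit 3,
  [⟨V6_15151677633, [(nat_lit 26, nat_lit 18389680323), (nat_lit 11, nat_lit 19463422146), (nat_lit 8, nat_lit 19446644931), (nat_lit 35, nat_lit 20537163969), (nat_lit 85, nat_lit 20520386754), (nat_lit 27, nat_lit 21594128577)]⟩],
  [W_18372374720, W_17315152064]⟩
theorem C_18389680323 : chkRec R_18389680323 = true := by decide +kernel

noncomputable def R_18389680386 : Rec := ⟨nat_lit 18389680386, nat_lit 9,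
  [⟨V6_17315152065, [(nat_lit 84, nat_lit 18389680386), (nat_lit 53, nat_lit 19463422209), (nat_lit 90, nat_lit 19463422146), (nat_lit 99, nat_lit 19463160066), (nat_lit 31, nat_lit 20537163969), (nat_lit 60, nat_lit 20536901889), (nat_lit 64, nat_lit 20536901826), (nat_lit 125, nat_lit 20536639746), (nat_lit 9, nat_lit 21610643649), (nat_lit 52, nat_lit 21610381569), (nat_lit 46, nat_lit 21610381506), (nat_lit 121, nat_lit 21610119426), (nat_lit 115, nat_lit 22684123329), (nat_lit 77, nat_lit 22683861249), (nat_lit 60, nat_lit 22683861186), (nat_lit 118, nat_lit 23757603009)]⟩,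
   ⟨V6_15151677633, [(nat_lit 80, nat_lit 18389680386), (nat_lit 70, nat_lit 19463422209), (nat_lit 70, nat_lit 19463422146), (nat_lit 63, nat_lit 19446644994), (nat_lit 57, nat_lit 20537163969), (nat_lit 73, nat_lit 20520386817), (nat_lit 91, nat_lit 20520386754), (nat_lit 71, nat_lit 21594128577)]⟩],
  [W_18388893824, W_17298899072, W_15151415552, W_13020971264]⟩
theorem C_18389680386 : chkRec R_18389680386 = true := by decide +kernel

noncomputable def R_18389684418 : Rec := ⟨nat_lit 18389684418, nat_lit 11,
  [⟨V6_15151419522, [(nat_lit 85, nat_lit 18389684418), (nat_lit 20, nat_lit 19463426178), (nat_lit 100, nat_lit 19463164098), (nat_lit 35, nat_lit 19446649026), (nat_lit 21, nat_lit 20536905858), (nat_lit 59, nat_lit 20520390786), (nat_lit 30, nat_lit 20520128706), (nat_lit 108, nat_lit 21593870466)]⟩,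
   ⟨V6_14077939905, [(nat_lit 1, nat_lit 18389684418), (nat_lit 61, nat_lit 19463426241), (nat_lit 101, nat_lit 19446649026), (nat_lit 40, nat_lit 20520390849)]⟩,
   ⟨V6_14077939842, [(nat_lit 2, nat_lit 18389684418), (nat_lit 109, nat_lit 19463426178), (nat_lit 120, nat_lit 19446649026), (nat_lit 64, nat_lit 20520390786)]⟩,
   ⟨V6_13004198082, [(nat_lit 107, nat_lit 18389684418), (nat_lit 113, nat_lit 19446649026)]⟩],
  [W_18389151872, W_18372378752, W_18372374720, W_17315414144, W_16225415360]⟩
theorem C_18389684418 : chkRec R_18389684418 = true := by decide +kernel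

noncomputable def R_18389684481 : Rec := ⟨nat_lit 18389684481, nat_lit 18,
  [⟨V6_16225423425, [(nat_lit 2, nat_lit 18389684481), (nat_lit 32, nat_lit 19463426241), (nat_lit 54, nat_lit 19446649089), (nat_lit 70, nat_lit 20537168001), (nat_lit 120, nat_lit 20520390849), (nat_lit 20, nat_lit 21610909761), (nat_lit 55, nat_lit 21594132609), (nat_lit 59, nat_lit 22667874369)]⟩,
   ⟨V6_15151681665, [(nat_lit 73, nat_lit 18389684481), (nat_lit 72, nat_lit 19463426241), (nat_lit 125, nat_lit 19446649089), (nat_lit 52, nat_lit 20537168001), (nat_lit 38, nat_lit 20520390849), (nat_lit 29, nat_lit 21594132609)]⟩,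
   ⟨V6_14077939968, [(nat_lit 103, nat_lit 18389684481), (nat_lit 41, nat_lit 19463426304), (nat_lit 93, nat_lit 19446649089), (nat_lit 77, nat_lit 20520390912)]⟩,
   ⟨V6_14077939905, [(nat_lit 64, nat_lit 18389684481), (nat_lit 39, nat_lit 19463426241), (nat_lit 97, nat_lit 19446649089), (nat_lit 56, nat_lit 20520390849)]⟩],
  [W_18389155904, W_18372640832, W_17315418176, W_16242196544, W_11947233536]⟩
theorem C_18389684481 : chkRec R_18389684481 = true := by decide +kernel

noncomputable def R_18389684544 : Rec := ⟨nat_lit 18389684544, nat_lit 9,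
  [⟨V6_15151681728, [(nat_lit 99, nat_lit 18389684544), (nat_lit 83, nat_lit 19463426304), (nat_lit 43, nat_lit 19446649152), (nat_lit 57, nat_lit 20537168064), (nat_lit 13, nat_lit 20520390912), (nat_lit 97, nat_lit 21594132672)]⟩],
  [W_18372382784, W_17315680256]⟩
theorem C_18389684544 : chkRec R_18389684544 = true := by decide +kernel

noncomputable def R_18389688450 : Rec := ⟨nat_lit 18389688450, nat_lit 9,
  [⟨V6_15151685760, [(nat_lit 52, nat_lit 18389688450), (nat_lit 73, nat_lit 19463430273), (nat_lit 115, nat_lit 19446653058), (nat_lit 103, nat_lit 20537172096), (nat_lit 49, nat_lit 20520394881), (nat_lit 61, nat_lit 21594136704)]⟩,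
   ⟨V6_15151419522, [(nat_lit 92, nat_lit 18389688450), (nat_lit 89, nat_lit 19463426178), (nat_lit 89, nat_lit 19463168130), (nat_lit 23, nat_lit 19446653058), (nat_lit 124, nat_lit 20536905858), (nat_lit 83, nat_lit 20520390786), (nat_lit 72, nat_lit 20520132738), (nat_lit 109, nat_lit 21593870466)]⟩],
  [W_18389409920, W_17298899072]⟩
theorem C_18389688450 : chkRec R_18389688450 = true := by decide +kernel

noncomputable def R_18389688513 : Rec := ⟨nat_lit 18389688513, nat_lit 24,
  [⟨V6_16225415361, [(nat_lit 82, nat_lit 18389688513), (nat_lit 81, nat_lit 19463426241), (nat_lit 115, nat_lit 19446653121), (nat_lit 68, nat_lit 20537163969), (nat_lit 84, nat_lit 20520390849), (nat_lit 55, nat_lit 21610901697), (nat_lit 86, nat_lit 21594128577), (nat_lit 47, nat_lit 22667866305)]⟩,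
   ⟨V6_15151685697, [(nat_lit 55, nat_lit 18389688513), (nat_lit 46, nat_lit 19463430273), (nat_lit 115, nat_lit 19446653121), (nat_lit 105, nat_lit 20537172033), (nat_lit 77, nat_lit 20520394881), (nat_lit 18, nat_lit 21594136641)]⟩,
   ⟨V6_15151677633, [(nat_lit 45, nat_lit 18389688513), (nat_lit 14, nat_lit 19463426241), (nat_lit 9, nat_lit 19446653121), (nat_lit 72, nat_lit 20537163969), (nat_lit 25, nat_lit 20520390849), (nat_lit 16, nat_lit 21594128577)]⟩,
   ⟨V6_14077944000, [(nat_lit 65, nat_lit 18389688513), (nat_lit 53, nat_lit 19463430336), (nat_lit 18, nat_lit 19446653121), (nat_lit 19, nat_lit 20520394944)]⟩,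
   ⟨V6_14077939905, [(nat_lit 106, nat_lit 18389688513), (nat_lit 74, nat_lit 19463426241), (nat_lit 124, nat_lit 19446653121), (nat_lit 27, nat_lit 20520390849)]⟩],
  [W_18389413952, W_18372640832, W_17315934272, W_15168200768]⟩
theorem C_18389688513 : chkRec R_18389688513 = true := by decide +kernel

noncomputable def R_18389688576 : Rec := ⟨nat_lit 18389688576, nat_lit 32,
  [⟨V6_17315684352, [(nat_lit 17, nat_lit 18389688576), (nat_lit 73, nat_lit 19463430336), (nat_lit 21, nat_lit 19463168256), (nat_lit 37, nat_lit 20537172096), (nat_lit 93, nat_lit 20536910016), (nat_lit 10, nat_lit 21610913856), (nat_lit 105, nat_lit 21610651776), (nat_lit 43, nat_lit 22684655616), (nat_lit 56, nat_lit 22684393536), (nat_lit 64, nat_lit 23758135296)]⟩,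
   ⟨V6_14077939968, [(nat_lit 118, nat_lit 18389688576), (nat_lit 68, nat_lit 19463426304), (nat_lit 35, nat_lit 19446653184), (nat_lit 66, nat_lit 20520390912)]⟩],
  [W_18389417984, W_18372644864, W_18372640832, W_17315938304, W_14094450944, W_13020971264]⟩
theorem C_18389688576 : chkRec R_18389688576 = true := by decide +kernel

noncomputable def R_18389692545 : Rec := ⟨nat_lit 18389692545, nat_lit 9,
  [⟨V6_14094725184, [(nat_lit 5, nat_lit 18389692545), (nat_lit 76, nat_lit 19463434368), (nat_lit 42, nat_lit 19463434305), (nat_lit 13, nat_lit 20537176128)]⟩,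
   ⟨V6_13020983361, [(nat_lit 11, nat_lit 18389692545), (nat_lit 5, nat_lit 19463434305)]⟩],
  [W_18372898880, W_17315934272]⟩
theorem C_18389692545 : chkRec R_18389692545 = true := by decide +kernel

noncomputable def R_18389692608 : Rec := ⟨nat_lit 18389692608, nat_lit 15,
  [⟨V6_17299157184, [(nat_lit 69, nat_lit 18389692608), (nat_lit 60, nat_lit 19463430336), (nat_lit 53, nat_lit 19446657216), (nat_lit 5, nat_lit 20537168064), (nat_lit 27, nat_lit 20520394944), (nat_lit 40, nat_lit 21610905792), (nat_lit 104, nat_lit 21594132672), (nat_lit 30, nat_lit 22684643520), (nat_lit 20, nat_lit 22667870400), (nat_lit 88, nat_lit 23741608128)]⟩,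
   ⟨V6_14077944000, [(nat_lit 40, nat_lit 18389692608), (nat_lit 1, nat_lit 19463430336), (nat_lit 121, nat_lit 19446657216), (nat_lit 80, nat_lit 20520394944)]⟩],
  [W_18389676032, W_18372902912, W_17315938304]⟩
theorem C_18389692608 : chkRec R_18389692608 = true := by decide +kernel

noncomputable def R_18389942466 : Rec := ⟨nat_lit 18389942466, nat_lit 9,
  [⟨V6_14094975168, [(nat_lit 112, nat_lit 18389942466), (nat_lit 41, nat_lit 19463684289), (nat_lit 39, nat_lit 20537426112)]⟩],
  [W_18389151872, W_18388893824, W_17315414144]⟩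
theorem C_18389942466 : chkRec R_18389942466 = true := by decide +kernel

noncomputable def R_18389942529 : Rec := ⟨nat_lit 18389942529, nat_lit 14,
  [⟨V6_14094975168, [(nat_lit 27, nat_lit 18389942529), (nat_lit 6, nat_lit 19463684352), (nat_lit 55, nat_lit 19463684289), (nat_lit 93, nat_lit 20537426112)]⟩],
  [W_18389155904, W_17315414144, W_17315152064, W_16241410304]⟩
theorem C_18389942529 : chkRec R_18389942529 = true := by decide +kernel

noncomputable def R_18389946498 : Rec := ⟨nat_lit 18389946498, nat_lit 12,
  [⟨V6_16242450561, [(nat_lit 29, nat_lit 18389946498), (nat_lit 59, nat_lit 19463688321), (nat_lit 39, nat_lit 19463684226), (nat_lit 104, nat_lit 20537426049), (nat_lit 113, nat_lit 20537421954), (nat_lit 90, nat_lit 21611163777), (nat_lit 24, nat_lit 21611159682), (nat_lit 26, nat_lit 22684901505)]⟩,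
   ⟨V6_15168708738, [(nat_lit 113, nat_lit 18389946498), (nat_lit 95, nat_lit 19463684226), (nat_lit 17, nat_lit 20537421954), (nat_lit 5, nat_lit 21611159682)]⟩],
  [W_18389409920, W_15168196736, W_13021237376]⟩
theorem C_18389946498 : chkRec R_18389946498 = true := by decide +kernel

noncomputable def R_18389946561 : Rec := ⟨nat_lit 18389946561, nat_lit 22,
  [⟨V6_15168720960, [(nat_lit 102, nat_lit 18389946561), (nat_lit 53, nat_lit 19463688384), (nat_lit 66, nat_lit 19463688321), (nat_lit 75, nat_lit 20537430144), (nat_lit 62, nat_lit 20537430081), (nat_lit 67, nat_lit 21611171904)]⟩],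
  [W_18389413952, W_18389151872, W_17315934272, W_17315414144, W_16241930432]⟩
theorem C_18389946561 : chkRec R_18389946561 = true := by decide +kernel

noncomputable def R_18389946624 : Rec := ⟨nat_lit 18389946624, nat_lit 30,
  [⟨V6_16242462720, [(nat_lit 103, nat_lit 18389946624), (nat_lit 80, nat_lit 19463688384), (nat_lit 46, nat_lit 20537430144), (nat_lit 84, nat_lit 21611171904), (nat_lit 109, nat_lit 22684913664)]⟩,
   ⟨V6_15168720960, [(nat_lit 101, nat_lit 18389946624), (nat_lit 103, nat_lit 19463688384), (nat_lit 39, nat_lit 20537430144), (nat_lit 15, nat_lit 21611171904)]⟩],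
  [W_18389417984, W_17315680256, W_17315418176, W_15167930624, W_14094450944, W_13020971264, W_11947491584]⟩
theorem C_18389946624 : chkRec R_18389946624 = true := by decide +kernel

noncomputable def R_18389950593 : Rec := ⟨nat_lit 18389950593, nat_lit 27,
  [⟨V6_17316192384, [(nat_lit 28, nat_lit 18389950593), (nat_lit 93, nat_lit 19463692416), (nat_lit 33, nat_lit 19463688321), (nat_lit 98, nat_lit 20537430144), (nat_lit 9, nat_lit 20537426049), (nat_lit 106, nat_lit 21611167872), (nat_lit 31, nat_lit 21611163777), (nat_lit 64, nat_lit 22684905600), (nat_lit 69, nat_lit 22684901505), (nat_lit 61, nat_lit 23758643328)]⟩,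
   ⟨V6_13021241409, [(nat_lit 126, nat_lit 18389950593), (nat_lit 115, nat_lit 19463692353)]⟩],
  [W_18389413952, W_16242196544, W_15168200768, W_14094979136]⟩
theorem C_18389950593 : chkRec R_18389950593 = true := by decide +kernel

noncomputable def R_18389950656 : Rec := ⟨nat_lit 18389950656, nat_lit 43,
  [⟨V6_17315684352, [(nat_lit 20, nat_lit 18389950656), (nat_lit 39, nat_lit 19463692416), (nat_lit 31, nat_lit 19463430336), (nat_lit 34, nat_lit 20537434176), (nat_lit 101, nat_lit 20537172096), (nat_lit 100, nat_lit 20536910016), (nat_lit 3, nat_lit 21611175936), (nat_lit 65, nat_lit 21610913856), (nat_lit 46, nat_lit 21610651776), (nat_lit 56, nat_lit 22684655616), (nat_lit 44, nat_lit 22684393536), (nat_lit 93, nat_lit 23758135296)]⟩,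
   ⟨V6_15168724992, [(nat_lit 2, nat_lit 18389950656), (nat_lit 22, nat_lit 19463692416), (nat_lit 84, nat_lit 20537434176), (nat_lit 62, nat_lit 21611175936)]⟩],
  [W_18389676032, W_18389417984, W_17316196352, W_16242458624, W_15168712832, W_13021233344]⟩
theorem C_18389950656 : chkRec R_18389950656 = true := by decide +kernel

noncomputable def R_18389954625 : Rec := ⟨nat_lit 18389954625, nat_lit 10,
  [⟨V6_18389930049, [(nat_lit 124, nat_lit 18389954625), (nat_lit 53, nat_lit 19463692353), (nat_lit 88, nat_lit 20537430081), (nat_lit 17, nat_lit 21611167809), (nat_lit 115, nat_lit 22684905537), (nat_lit 13, nat_lit 23758643265), (nat_lit 18, nat_lit 24832380993)]⟩,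
   ⟨V6_14094979137, [(nat_lit 32, nat_lit 18389954625), (nat_lit 104, nat_lit 19463692353), (nat_lit 50, nat_lit 20537430081)]⟩],
  [W_18389672000, W_17316192320]⟩
theorem C_18389954625 : chkRec R_18389954625 = true := by decide +kernel

noncomputable def R_18389954688 : Rec := ⟨nat_lit 18389954688, nat_lit 32,
  [⟨V6_17316192384, [(nat_lit 49, nat_lit 18389954688), (nat_lit 44, nat_lit 19463692416), (nat_lit 110, nat_lit 20537430144), (nat_lit 126, nat_lit 21611167872), (nat_lit 49, nat_lit 22684905600), (nat_lit 107, nat_lit 23758643328)]⟩,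
   ⟨V6_15168724992, [(nat_lit 120, nat_lit 18389954688), (nat_lit 94, nat_lit 19463696448), (nat_lit 49, nat_lit 19463692416), (nat_lit 27, nat_lit 20537438208), (nat_lit 9, nat_lit 20537434176), (nat_lit 100, nat_lit 21611175936)]⟩],
  [W_18389934080, W_18389676032, W_17315938304, W_14094721088]⟩
theorem C_18389954688 : chkRec R_18389954688 = true := by decide +kernel

noncomputable def R_18389958720 : Rec := ⟨nat_lit 18389958720, nat_lit 14,
  [⟨V6_15168724992, [(nat_lit 72, nat_lit 18389958720), (nat_lit 47, nat_lit 19463700480), (nat_lit 93, nat_lit 19463696448), (nat_lit 61, nat_lit 20537438208), (nat_lit 102, nat_lit 20537434176), (nat_lit 91, nat_lit 21611175936)]⟩],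
  [W_18389934080, W_17316192320]⟩
theorem C_18389958720 : chkRec R_18389958720 = true := by decide +kernel

noncomputable def R_18405671172 : Rec := ⟨nat_lit 18405671172, nat_lit 1,
  [⟨V6_17248043268, [(nat_lit 78, nat_lit 18405671172), (nat_lit 69, nat_lit 19462635780), (nat_lit 118, nat_lit 20519600388), (nat_lit 71, nat_lit 21576564996), (nat_lit 53, nat_lit 22633529604), (nat_lit 78, nat_lit 23690494212)]⟩],
  [W_18355339520]⟩
theorem C_18405671172 : chkRec R_18405671172 = true := by decide +kernel

noncomputable def R_18405933315 : Rec := ⟨nat_lit 18405933315, nat_lit 3,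
  [⟨V6_15184707840, [(nat_lit 51, nat_lit 18405933315), (nat_lit 30, nat_lit 19479675138), (nat_lit 12, nat_lit 20553416961), (nat_lit 66, nat_lit 21627158784)]⟩],
  [W_18372116672, W_17315152064]⟩
theorem C_18405933315 : chkRec R_18405933315 = true := by decide +kernel

noncomputable def R_18405937347 : Rec := ⟨nat_lit 18405937347, nat_lit 1,
  [⟨V6_15151157442, [(nat_lit 103, nat_lit 18405937347), (nat_lit 56, nat_lit 19479679170), (nat_lit 52, nat_lit 19462901955), (nat_lit 10, nat_lit 20536643778), (nat_lit 65, nat_lit 20519866563), (nat_lit 96, nat_lit 21593608386)]⟩],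
  [W_18372374720]⟩
theorem C_18405937347 : chkRec R_18405937347 = true := by decide +kernel

noncomputable def R_18405937410 : Rec := ⟨nat_lit 18405937410, nat_lit 2,
  [⟨V6_15151157442, [(nat_lit 75, nat_lit 18405937410), (nat_lit 115, nat_lit 19479679170), (nat_lit 121, nat_lit 19462902018), (nat_lit 60, nat_lit 20536643778), (nat_lit 83, nat_lit 20519866626), (nat_lit 47, nat_lit 21593608386)]⟩,
   ⟨V6_11963486466, [(nat_lit 29, nat_lit 18405937410)]⟩],
  [W_18372378752, W_15167930624]⟩
theorem C_18405937410 : chkRec R_18405937410 = true := by decide +kernel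

noncomputable def R_18405937473 : Rec := ⟨nat_lit 18405937473, nat_lit 1,
  [⟨V6_13037228352, [(nat_lit 101, nat_lit 18405937473), (nat_lit 42, nat_lit 19479679296)]⟩],
  [W_18372382784]⟩
theorem C_18405937473 : chkRec R_18405937473 = true := by decide +kernel

noncomputable def R_18406195395 : Rec := ⟨nat_lit 18406195395, nat_lit 4,
  [⟨V6_17315152065, [(nat_lit 46, nat_lit 18406195395), (nat_lit 57, nat_lit 19479937218), (nat_lit 30, nat_lit 19479675075), (nat_lit 76, nat_lit 19463160003), (nat_lit 53, nat_lit 20553679041), (nat_lit 69, nat_lit 20553416898), (nat_lit 21, nat_lit 20553154755), (nat_lit 21, nat_lit 20536901826), (nat_lit 86, nat_lit 20536639683), (nat_lit 57, nat_lit 21627158721), (nat_lit 90, nat_lit 21626896578), (nat_lit 117, nat_lit 21610643649), (nat_lit 110, nat_lit 21610381506), (nat_lit 68, nat_lit 21610119363), (nat_lit 11, nat_lit 22700638401), (nat_lit 70, nat_lit 22684123329), (nat_lit 97, nat_lit 22683861186), (nat_lit 15, nat_lit 23757603009)]⟩],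
  [W_18372374720, W_17331925184, W_17282121920, W_16241930432]⟩
theorem C_18406195395 : chkRec R_18406195395 = true := by decide +kernel

noncomputable def R_18406195458 : Rec := ⟨nat_lit 18406195458, nat_lit 12,
  [⟨V6_16258187520, [(nat_lit 112, nat_lit 18406195458), (nat_lit 8, nat_lit 19479937281), (nat_lit 64, nat_lit 19479675138), (nat_lit 84, nat_lit 20553679104), (nat_lit 47, nat_lit 20553416961), (nat_lit 59, nat_lit 20553154818), (nat_lit 78, nat_lit 21627158784), (nat_lit 33, nat_lit 21626896641), (nat_lit 63, nat_lit 22700638464)]⟩,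
   ⟨V6_16208380161, [(nat_lit 26, nat_lit 18406195458), (nat_lit 91, nat_lit 19479937281), (nat_lit 109, nat_lit 19463160066), (nat_lit 73, nat_lit 20536901889), (nat_lit 116, nat_lit 20520124674), (nat_lit 9, nat_lit 21593866497), (nat_lit 123, nat_lit 21577089282), (nat_lit 57, nat_lit 22650831105)]⟩],
  [W_18355339520, W_17298899072, W_15184969856]⟩
theorem C_18406195458 : chkRec R_18406195458 = true := by decide +kernel

noncomputable def R_18406199490 : Rec := ⟨nat_lit 18406199490, nat_lit 16,
  [⟨V6_16225161408, [(nat_lit 25, nat_lit 18406199490), (nat_lit 54, nat_lit 19479941313), (nat_lit 51, nat_lit 19463164098), (nat_lit 122, nat_lit 20553683136), (nat_lit 122, nat_lit 20536905921), (nat_lit 17, nat_lit 20520128706), (nat_lit 110, nat_lit 21610647744), (nat_lit 12, nat_lit 21593870529), (nat_lit 64, nat_lit 22667612352)]⟩],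
  [W_18389151872, W_17332187264, W_15184969856]⟩
theorem C_18406199490 : chkRec R_18406199490 = true := by decide +kernel

noncomputable def R_18406199553 : Rec := ⟨nat_lit 18406199553, nat_lit 23,
  [⟨V6_16225161408, [(nat_lit 35, nat_lit 18406199553), (nat_lit 41, nat_lit 19479941376), (nat_lit 56, nat_lit 19479941313), (nat_lit 103, nat_lit 19463164161), (nat_lit 114, nat_lit 20553683136), (nat_lit 30, nat_lit 20536905984), (nat_lit 13, nat_lit 20536905921), (nat_lit 89, nat_lit 20520128769), (nat_lit 25, nat_lit 21610647744), (nat_lit 77, nat_lit 21593870592), (nat_lit 79, nat_lit 21593870529), (nat_lit 73, nat_lit 22667612352)]⟩,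
   ⟨V6_16208384256, [(nat_lit 92, nat_lit 18406199553), (nat_lit 27, nat_lit 19479941376), (nat_lit 32, nat_lit 19463164161), (nat_lit 79, nat_lit 20536905984), (nat_lit 4, nat_lit 20520128769), (nat_lit 13, nat_lit 21593870592), (nat_lit 37, nat_lit 21577093377), (nat_lit 74, nat_lit 22650835200)]⟩,
   ⟨V6_16208380161, [(nat_lit 32, nat_lit 18406199553), (nat_lit 114, nat_lit 19479937281), (nat_lit 74, nat_lit 19463164161), (nat_lit 48, nat_lit 20536901889), (nat_lit 7, nat_lit 20520128769), (nat_lit 118, nat_lit 21593866497), (nat_lit 101, nat_lit 21577093377), (nat_lit 3, nat_lit 22650831105)]⟩],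
  [W_18372640832, W_16258453568, W_15184973888, W_15184969856]⟩
theorem C_18406199553 : chkRec R_18406199553 = true := by decide +kernel

noncomputable def R_18406199616 : Rec := ⟨nat_lit 18406199616, nat_lit 11,
  [⟨V6_18405937152, [(nat_lit 113, nat_lit 18406199616), (nat_lit 24, nat_lit 19479941376), (nat_lit 77, nat_lit 19479679296), (nat_lit 93, nat_lit 20553683136), (nat_lit 42, nat_lit 20553421056), (nat_lit 114, nat_lit 21627424896), (nat_lit 72, nat_lit 21627162816), (nat_lit 66, nat_lit 22701166656), (nat_lit 10, nat_lit 22700904576), (nat_lit 124, nat_lit 23774908416), (nat_lit 5, nat_lit 23774646336), (nat_lit 105, nat_lit 24848388096)]⟩],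
  [W_18372644864, W_15184973888]⟩
theorem C_18406199616 : chkRec R_18406199616 = true := by decide +kernel

noncomputable def R_18406203522 : Rec := ⟨nat_lit 18406203522, nat_lit 13,
  [⟨V6_17282125953, [(nat_lit 16, nat_lit 18406203522), (nat_lit 101, nat_lit 19479945345), (nat_lit 94, nat_lit 19479941250), (nat_lit 13, nat_lit 19463168130), (nat_lit 86, nat_lit 20553683073), (nat_lit 59, nat_lit 20536909953), (nat_lit 108, nat_lit 20536905858), (nat_lit 33, nat_lit 20520132738), (nat_lit 21, nat_lit 21610647681), (nat_lit 8, nat_lit 21593874561), (nat_lit 99, nat_lit 21593870466), (nat_lit 46, nat_lit 21577097346), (nat_lit 90, nat_lit 22667612289), (nat_lit 39, nat_lit 22650839169), (nat_lit 60, nat_lit 22650835074), (nat_lit 61, nat_lit 23724576897)]⟩,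
   ⟨V6_15151419522, [(nat_lit 25, nat_lit 18406203522), (nat_lit 116, nat_lit 19479941250), (nat_lit 91, nat_lit 19463168130), (nat_lit 80, nat_lit 20536905858), (nat_lit 124, nat_lit 20520132738), (nat_lit 120, nat_lit 21593870466)]⟩,
   ⟨V6_15134646402, [(nat_lit 36, nat_lit 18406203522), (nat_lit 113, nat_lit 19463168130), (nat_lit 32, nat_lit 20520132738), (nat_lit 7, nat_lit 21577097346)]⟩,
   ⟨V6_14077681794, [(nat_lit 7, nat_lit 18406203522), (nat_lit 120, nat_lit 19463168130), (nat_lit 25, nat_lit 20520132738)]⟩],
  [W_17332445312, W_15184969856, W_13037494400]⟩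
theorem C_18406203522 : chkRec R_18406203522 = true := by decide +kernel

noncomputable def R_18406203585 : Rec := ⟨nat_lit 18406203585, nat_lit 29,
  [⟨V6_17282125953, [(nat_lit 3, nat_lit 18406203585), (nat_lit 2, nat_lit 19479945345), (nat_lit 113, nat_lit 19479941313), (nat_lit 92, nat_lit 19463168193), (nat_lit 86, nat_lit 20553683073), (nat_lit 24, nat_lit 20536909953), (nat_lit 89, nat_lit 20536905921), (nat_lit 63, nat_lit 20520132801), (nat_lit 59, nat_lit 21610647681), (nat_lit 94, nat_lit 21593874561), (nat_lit 12, nat_lit 21593870529), (nat_lit 58, nat_lit 21577097409), (nat_lit 32, nat_lit 22667612289), (nat_lit 66, nat_lit 22650839169), (nat_lit 85, nat_lit 22650835137), (nat_lit 55, nat_lit 23724576897)]⟩,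
   ⟨V6_16225165440, [(nat_lit 114, nat_lit 18406203585), (nat_lit 80, nat_lit 19479945408), (nat_lit 98, nat_lit 19479945345), (nat_lit 76, nat_lit 19463168193), (nat_lit 64, nat_lit 20553687168), (nat_lit 99, nat_lit 20536910016), (nat_lit 9, nat_lit 20536909953), (nat_lit 49, nat_lit 20520132801), (nat_lit 84, nat_lit 21610651776), (nat_lit 38, nat_lit 21593874624), (nat_lit 46, nat_lit 21593874561), (nat_lit 114, nat_lit 22667616384)]⟩,
   ⟨V6_16225165377, [(nat_lit 117, nat_lit 18406203585), (nat_lit 74, nat_lit 19479945345), (nat_lit 3, nat_lit 19463168193), (nat_lit 112, nat_lit 20553687105), (nat_lit 115, nat_lit 20536909953), (nat_lit 91, nat_lit 20520132801), (nat_lit 58, nat_lit 21610651713), (nat_lit 110, nat_lit 21593874561), (nat_lit 57, nat_lit 22667616321)]⟩,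
   ⟨V6_16208384193, [(nat_lit 99, nat_lit 18406203585), (nat_lit 75, nat_lit 19479941313), (nat_lit 35, nat_lit 19463168193), (nat_lit 73, nat_lit 20536905921), (nat_lit 49, nat_lit 20520132801), (nat_lit 87, nat_lit 21593870529), (nat_lit 26, nat_lit 21577097409), (nat_lit 15, nat_lit 22650835137)]⟩],
  [W_18389413952, W_18372640832, W_17282129984, W_15184973888, W_14111236160, W_13037494400]⟩
theorem C_18406203585 : chkRec R_18406203585 = true := by decide +kernel

noncomputable def R_18406203648 : Rec := ⟨nat_lit 18406203648, nat_lit 40,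
  [⟨V6_17315684352, [(nat_lit 107, nat_lit 18406203648), (nat_lit 34, nat_lit 19479945408), (nat_lit 24, nat_lit 19463168256), (nat_lit 4, nat_lit 20553687168), (nat_lit 117, nat_lit 20536910016), (nat_lit 8, nat_lit 21627428928), (nat_lit 109, nat_lit 21610651776), (nat_lit 11, nat_lit 22701170688), (nat_lit 56, nat_lit 22684393536), (nat_lit 66, nat_lit 23758135296)]⟩,
   ⟨V6_16258719744, [(nat_lit 7, nat_lit 18406203648), (nat_lit 19, nat_lit 19479945408), (nat_lit 103, nat_lit 20553687168), (nat_lit 39, nat_lit 21627428928), (nat_lit 37, nat_lit 22701170688)]⟩],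
  [W_18389417984, W_18372640832, W_18355871744, W_18355863680, W_16208388224, W_16208380160, W_15184969856, W_14094450944]⟩
theorem C_18406203648 : chkRec R_18406203648 = true := by decide +kernel

noncomputable def R_18406453443 : Rec := ⟨nat_lit 18406453443, nat_lit 2,
  [⟨V6_14077931715, [(nat_lit 103, nat_lit 18406453443), (nat_lit 24, nat_lit 19463418051), (nat_lit 5, nat_lit 20520382659)]⟩,
   ⟨V6_13037482179, [(nat_lit 103, nat_lit 18406453443), (nat_lit 52, nat_lit 19479933123)]⟩],
  [W_18372374720, W_17331925184]⟩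
theorem C_18406453443 : chkRec R_18406453443 = true := by decide +kernel

noncomputable def R_18406457538 : Rec := ⟨nat_lit 18406457538, nat_lit 20,
  [⟨V6_16225419456, [(nat_lit 43, nat_lit 18406457538), (nat_lit 37, nat_lit 19480199361), (nat_lit 42, nat_lit 19463422146), (nat_lit 93, nat_lit 20553941184), (nat_lit 93, nat_lit 20537163969), (nat_lit 14, nat_lit 20520386754), (nat_lit 113, nat_lit 21610905792), (nat_lit 107, nat_lit 21594128577), (nat_lit 105, nat_lit 22667870400)]⟩,
   ⟨V6_15151677633, [(nat_lit 27, nat_lit 18406457538), (nat_lit 25, nat_lit 19480199361), (nat_lit 27, nat_lit 19463422146), (nat_lit 94, nat_lit 20537163969), (nat_lit 35, nat_lit 20520386754), (nat_lit 54, nat_lit 21594128577)]⟩],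
  [W_18405666944, W_18389151872, W_18388893824, W_18372374720, W_18372116672, W_17332187264, W_17331925184, W_14111486144]⟩
theorem C_18406457538 : chkRec R_18406457538 = true := by decide +kernel

noncomputable def R_18406457601 : Rec := ⟨nat_lit 18406457601, nat_lit 25,
  [⟨V6_18405670977, [(nat_lit 73, nat_lit 18406457601), (nat_lit 112, nat_lit 19480199361), (nat_lit 81, nat_lit 19479937281), (nat_lit 94, nat_lit 20553941121), (nat_lit 79, nat_lit 20553679041), (nat_lit 43, nat_lit 20553416961), (nat_lit 35, nat_lit 21627682881), (nat_lit 112, nat_lit 21627420801), (nat_lit 7, nat_lit 21627158721), (nat_lit 120, nat_lit 21626896641), (nat_lit 16, nat_lit 22701162561), (nat_lit 80, nat_lit 22700900481), (nat_lit 84, nat_lit 22700638401), (nat_lit 61, nat_lit 23774642241), (nat_lit 8, nat_lit 23774380161), (nat_lit 9, nat_lit 24848121921)]⟩,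
   ⟨V6_17299161153, [(nat_lit 101, nat_lit 18406457601), (nat_lit 52, nat_lit 19480199361), (nat_lit 108, nat_lit 19463422209), (nat_lit 21, nat_lit 20553941121), (nat_lit 89, nat_lit 20537163969), (nat_lit 21, nat_lit 20520386817), (nat_lit 61, nat_lit 21627682881), (nat_lit 49, nat_lit 21610905729), (nat_lit 27, nat_lit 21594128577), (nat_lit 42, nat_lit 22684647489), (nat_lit 105, nat_lit 22667870337), (nat_lit 107, nat_lit 23741612097)]⟩,
   ⟨V6_15151677633, [(nat_lit 22, nat_lit 18406457601), (nat_lit 93, nat_lit 19480199361), (nat_lit 110, nat_lit 19463422209), (nat_lit 43, nat_lit 20537163969), (nat_lit 87, nat_lit 20520386817), (nat_lit 112, nat_lit 21594128577)]⟩],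
  [W_18372640832, W_17298374912, W_16242196544, W_15185231936, W_15151415552, W_13020971264]⟩
theorem C_18406457601 : chkRec R_18406457601 = true := by decide +kernel

noncomputable def R_18406461570 : Rec := ⟨nat_lit 18406461570, nat_lit 18,
  [⟨V6_16225423488, [(nat_lit 29, nat_lit 18406461570), (nat_lit 22, nat_lit 19480203393), (nat_lit 49, nat_lit 19463426178), (nat_lit 45, nat_lit 20553945216), (nat_lit 45, nat_lit 20537168001), (nat_lit 101, nat_lit 20520390786), (nat_lit 26, nat_lit 21610909824), (nat_lit 19, nat_lit 21594132609), (nat_lit 59, nat_lit 22667874432)]⟩,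
   ⟨V6_15151681665, [(nat_lit 43, nat_lit 18406461570), (nat_lit 21, nat_lit 19480203393), (nat_lit 43, nat_lit 19463426178), (nat_lit 18, nat_lit 20537168001), (nat_lit 4, nat_lit 20520390786), (nat_lit 86, nat_lit 21594132609)]⟩],
  [W_18405924992, W_18389409920, W_18389151872, W_15184969856]⟩
theorem C_18406461570 : chkRec R_18406461570 = true := by decide +kernel

noncomputable def R_18406461633 : Rec := ⟨nat_lit 18406461633, nat_lit 46,
  [⟨V6_17299161153, [(nat_lit 1, nat_lit 18406461633), (nat_lit 108, nat_lit 19480203393), (nat_lit 59, nat_lit 19480199361), (nat_lit 25, nat_lit 19463426241), (nat_lit 108, nat_lit 20553945153), (nat_lit 120, nat_lit 20553941121), (nat_lit 35, nat_lit 20537168001), (nat_lit 102, nat_lit 20537163969), (nat_lit 103, nat_lit 20520390849), (nat_lit 1, nat_lit 21627682881), (nat_lit 2, nat_lit 21610909761), (nat_lit 40, nat_lit 21610905729), (nat_lit 59, nat_lit 21594132609), (nat_lit 25, nat_lit 21594128577), (nat_lit 23, nat_lit 22684647489), (nat_lit 69, nat_lit 22667874369), (nat_lit 40, nat_lit 22667870337),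 (nat_lit 9, nat_lit 23741612097)]⟩,
   ⟨V6_16225423425, [(nat_lit 59, nat_lit 18406461633), (nat_lit 46, nat_lit 19480203393), (nat_lit 122, nat_lit 19463426241), (nat_lit 25, nat_lit 20553945153), (nat_lit 20, nat_lit 20537168001), (nat_lit 60, nat_lit 20520390849), (nat_lit 115, nat_lit 21610909761), (nat_lit 113, nat_lit 21594132609), (nat_lit 32, nat_lit 22667874369)]⟩,
   ⟨V6_16225415361, [(nat_lit 7, nat_lit 18406461633), (nat_lit 3, nat_lit 19480199361), (nat_lit 97, nat_lit 19463426241), (nat_lit 29, nat_lit 20553937089), (nat_lit 106, nat_lit 20537163969), (nat_lit 73, nat_lit 20520390849), (nat_lit 60, nat_lit 21610901697), (nat_lit 40, nat_lit 21594128577), (nat_lit 25, nat_lit 22667866305)]⟩,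
   ⟨V6_15151681728, [(nat_lit 39, nat_lit 18406461633), (nat_lit 60, nat_lit 19480203456), (nat_lit 89, nat_lit 19463426241), (nat_lit 60, nat_lit 20537168064), (nat_lit 115, nat_lit 20520390849), (nat_lit 106, nat_lit 21594132672)]⟩,
   ⟨V6_15151681665, [(nat_lit 64, nat_lit 18406461633), (nat_lit 32, nat_lit 19480203393), (nat_lit 84, nat_lit 19463426241), (nat_lit 33, nat_lit 20537168001), (nat_lit 19, nat_lit 20520390849), (nat_lit 115, nat_lit 21594132609)]⟩,
   ⟨V6_15151677633, [(nat_lit 126, nat_lit 18406461633), (nat_lit 64, nat_lit 19480199361), (nat_lit 103, nat_lit 19463426241), (nat_lit 45, nat_lit 20537163969), (nat_lit 120, nat_lit 20520390849), (nat_lit 99, nat_lit 21594128577)]⟩,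
   ⟨V6_14077939905, [(nat_lit 18, nat_lit 18406461633), (nat_lit 109, nat_lit 19463426241), (nat_lit 28, nat_lit 20520390849)]⟩],
  [W_18405929024, W_18372640832, W_18372382784, W_18372374720, W_17315934272, W_16258453568, W_16242196544, W_15185231936]⟩
theorem C_18406461633 : chkRec R_18406461633 = true := by decide +kernel

noncomputable def R_18406461696 : Rec := ⟨nat_lit 18406461696, nat_lit 52,
  [⟨V6_18405937152, [(nat_lit 18, nat_lit 18406461696), (nat_lit 10, nat_lit 19480203456), (nat_lit 75, nat_lit 19479941376), (nat_lit 44, nat_lit 20553945216), (nat_lit 24, nat_lit 20553683136), (nat_lit 12, nat_lit 20553421056), (nat_lit 95, nat_lit 21627686976), (nat_lit 15, nat_lit 21627424896), (nat_lit 125, nat_lit 21627162816), (nat_lit 42, nat_lit 22701428736), (nat_lit 87, nat_lit 22701166656), (nat_lit 45, nat_lit 22700904576), (nat_lit 11, nat_lit 23774908416), (nat_lit 58, nat_lit 23774646336), (nat_lit 41, nat_lit 24848388096)]⟩,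
   ⟨V6_17315942400, [(nat_lit 57, nat_lit 18406461696), (nat_lit 119, nat_lit 19480203456), (nat_lit 84, nat_lit 19463426304), (nat_lit 14, nat_lit 20553945216), (nat_lit 92, nat_lit 20537168064), (nat_lit 28, nat_lit 21627686976), (nat_lit 64, nat_lit 21610909824), (nat_lit 102, nat_lit 22701428736), (nat_lit 69, nat_lit 22684651584), (nat_lit 104, nat_lit 23758393344)]⟩],
  [W_18389417984, W_18372640832, W_15185231936, W_15184973888, W_15184969856, W_15167930624, W_13020971264, W_11964010688, W_11963748608, W_11947233536]⟩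
theorem C_18406461696 : chkRec R_18406461696 = true := by decide +kernel

noncomputable def R_18406465665 : Rec := ⟨nat_lit 18406465665, nat_lit 46,
  [⟨V6_18406187136, [(nat_lit 78, nat_lit 18406465665), (nat_lit 64, nat_lit 19480207488), (nat_lit 113, nat_lit 19480203393), (nat_lit 14, nat_lit 19479945345), (nat_lit 61, nat_lit 20553945216), (nat_lit 55, nat_lit 20553941121), (nat_lit 123, nat_lit 20553687168), (nat_lit 90, nat_lit 20553683073), (nat_lit 106, nat_lit 21627682944), (nat_lit 81, nat_lit 21627678849), (nat_lit 69, nat_lit 21627424896), (nat_lit 49, nat_lit 21627420801), (nat_lit 102, nat_lit 22701420672), (nat_lit 92, nat_lit 22701416577), (nat_lit 125, nat_lit 22701162624), (nat_lit 119, nat_lit 22701158529), (nat_lit 11, nat_lit 23775158400), (nat_lit 66, nat_lit 23774900352), (nat_lit 59, nat_lit 23774896257), (nat_lit 65, nat_lit 24848638080)]⟩,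
   ⟨V6_15151685697, [(nat_lit 66, nat_lit 18406465665), (nat_lit 100, nat_lit 19480207425), (nat_lit 111, nat_lit 19463430273), (nat_lit 36, nat_lit 20537172033), (nat_lit 107, nat_lit 20520394881), (nat_lit 117, nat_lit 21594136641)]⟩],
  [W_16242196544, W_15185231936, W_15184973888, W_15168200768, W_15151685696, W_15151423616, W_14111236160, W_14094721088, W_14094459008, W_13037494400, W_13020979328, W_11964014720]⟩
theorem C_18406465665 : chkRec R_18406465665 = true := by decide +kernel

noncomputable def R_18406465728 : Rec := ⟨nat_lit 18406465728, nat_lit 76,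
  [⟨V6_17315684352, [(nat_lit 120, nat_lit 18406465728), (nat_lit 31, nat_lit 19480207488), (nat_lit 45, nat_lit 19479945408), (nat_lit 41, nat_lit 19463430336), (nat_lit 116, nat_lit 20553949248), (nat_lit 119, nat_lit 20553687168), (nat_lit 123, nat_lit 20537172096), (nat_lit 55, nat_lit 20536910016), (nat_lit 112, nat_lit 21627691008), (nat_lit 106, nat_lit 21627428928), (nat_lit 16, nat_lit 21610913856), (nat_lit 79, nat_lit 21610651776), (nat_lit 121, nat_lit 22701170688), (nat_lit 22, nat_lit 22684655616), (nat_lit 69, nat_lit 22684393536), (nat_lit 48, nat_lit 23758135296)]⟩,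
   ⟨V6_17299169280, [(nat_lit 72, nat_lit 18406465728), (nat_lit 97, nat_lit 19480207488), (nat_lit 75, nat_lit 19463430336), (nat_lit 47, nat_lit 20553949248), (nat_lit 14, nat_lit 20537172096), (nat_lit 61, nat_lit 20520394944), (nat_lit 122, nat_lit 21627691008), (nat_lit 36, nat_lit 21610913856), (nat_lit 119, nat_lit 21594136704), (nat_lit 11, nat_lit 22684655616), (nat_lit 59, nat_lit 22667878464), (nat_lit 48, nat_lit 23741620224)]⟩,
   ⟨V6_16258719744, [(nat_lit 94, nat_lit 18406465728), (nat_lit 16, nat_lit 19480207488), (nat_lit 126, nat_lit 19479945408), (nat_lit 21, nat_lit 20553949248), (nat_lit 48, nat_lit 20553687168), (nat_lit 90, nat_lit 21627691008), (nat_lit 104, nat_lit 21627428928), (nat_lit 26, nat_lit 22701170688)]⟩,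
   ⟨V6_16242204672, [(nat_lit 101, nat_lit 18406465728), (nat_lit 123, nat_lit 19480207488), (nat_lit 92, nat_lit 19463430336), (nat_lit 31, nat_lit 20553949248), (nat_lit 113, nat_lit 20537172096), (nat_lit 114, nat_lit 21627691008), (nat_lit 57, nat_lit 21610913856), (nat_lit 103, nat_lit 22684655616)]⟩],
  [W_18389676032, W_18389417984, W_18372898880, W_18372640832, W_17315938304, W_17315934272, W_16225415360, W_15185231936, W_15184969856]⟩
theorem C_18406465728 : chkRec R_18406465728 = true := by decide +kernel

noncomputable def R_18406469697 : Rec := ⟨nat_lit 18406469697, nat_lit 15,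
  [⟨V6_16225423425, [(nat_lit 123, nat_lit 18406469697), (nat_lit 112, nat_lit 19480207425), (nat_lit 110, nat_lit 19463434305), (nat_lit 29, nat_lit 20553945153), (nat_lit 59, nat_lit 20537172033), (nat_lit 18, nat_lit 20520398913), (nat_lit 17, nat_lit 21610909761), (nat_lit 81, nat_lit 21594136641), (nat_lit 80, nat_lit 22667874369)]⟩,
   ⟨V6_14094725184, [(nat_lit 29, nat_lit 18406469697), (nat_lit 80, nat_lit 19480211520), (nat_lit 106, nat_lit 19463434305), (nat_lit 118, nat_lit 20537176128)]⟩,
   ⟨V6_13020983361, [(nat_lit 38, nat_lit 18406469697), (nat_lit 61, nat_lit 19463434305)]⟩],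
  [W_18406445120, W_18389672000, W_18372898880, W_11964018752]⟩
theorem C_18406469697 : chkRec R_18406469697 = true := by decide +kernel

noncomputable def R_18406469760 : Rec := ⟨nat_lit 18406469760, nat_lit 35,
  [⟨V6_18389672064, [(nat_lit 113, nat_lit 18406469760), (nat_lit 17, nat_lit 19480207488), (nat_lit 22, nat_lit 19463434368), (nat_lit 105, nat_lit 20553945216), (nat_lit 9, nat_lit 20537172096), (nat_lit 41, nat_lit 21627682944), (nat_lit 113, nat_lit 21610909824), (nat_lit 119, nat_lit 22701420672), (nat_lit 43, nat_lit 22684647552), (nat_lit 62, nat_lit 23775158400), (nat_lit 57, nat_lit 23758385280), (nat_lit 29, nat_lit 24832123008)]⟩,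
   ⟨V6_16225431552, [(nat_lit 40, nat_lit 18406469760), (nat_lit 98, nat_lit 19480211520), (nat_lit 9, nat_lit 19463434368), (nat_lit 58, nat_lit 20553953280), (nat_lit 80, nat_lit 20537176128), (nat_lit 123, nat_lit 20520398976), (nat_lit 8, nat_lit 21610917888), (nat_lit 91, nat_lit 21594140736), (nat_lit 31, nat_lit 22667882496)]⟩,
   ⟨V6_15151689792, [(nat_lit 94, nat_lit 18406469760), (nat_lit 77, nat_lit 19480211520), (nat_lit 8, nat_lit 19463434368), (nat_lit 109, nat_lit 20537176128), (nat_lit 10, nat_lit 20520398976), (nat_lit 5, nat_lit 21594140736)]⟩,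
   ⟨V6_15151685760, [(nat_lit 61, nat_lit 18406469760), (nat_lit 78, nat_lit 19480207488), (nat_lit 99, nat_lit 19463434368), (nat_lit 53, nat_lit 20537172096), (nat_lit 85, nat_lit 20520398976), (nat_lit 18, nat_lit 21594136704)]⟩,
   ⟨V6_14077948032, [(nat_lit 121, nat_lit 18406469760), (nat_lit 6, nat_lit 19463434368), (nat_lit 33, nat_lit 20520398976)]⟩],
  [W_18389676032, W_18372902912, W_17315938304, W_15185231936, W_14094725120, W_11964018752]⟩
theorem C_18406469760 : chkRec R_18406469760 = true := by decide +kernel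

noncomputable def R_18406715586 : Rec := ⟨nat_lit 18406715586, nat_lit 8,
  [⟨V6_18405404802, [(nat_lit 117, nat_lit 18406715586), (nat_lit 60, nat_lit 19480457346), (nat_lit 4, nat_lit 19480195266), (nat_lit 39, nat_lit 20553937026), (nat_lit 50, nat_lit 20553674946), (nat_lit 66, nat_lit 21627416706), (nat_lit 35, nat_lit 21627154626), (nat_lit 64, nat_lit 22700896386), (nat_lit 96, nat_lit 22700634306), (nat_lit 90, nat_lit 23774376066), (nat_lit 103, nat_lit 23774113986), (nat_lit 62, nat_lit 24847855746)]⟩,
   ⟨V6_16241668290, [(nat_lit 126, nat_lit 18406715586), (nat_lit 17, nat_lit 19480195266), (nat_lit 97, nat_lit 19463680194), (nat_lit 102, nat_lit 20553674946), (nat_lit 45, nat_lit 20537159874), (nat_lit 48, nat_lit 21627154626), (nat_lit 18, nat_lit 21610639554), (nat_lit 18, nat_lit 22684119234)]⟩,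
   ⟨V6_15168712896, [(nat_lit 74, nat_lit 18406715586), (nat_lit 100, nat_lit 19480457409), (nat_lit 93, nat_lit 19463680194), (nat_lit 26, nat_lit 20554199232), (nat_lit 119, nat_lit 20537422017), (nat_lit 27, nat_lit 21611163840)]⟩],
  [W_17331925184, W_14111748224, W_14111486144]⟩
theorem C_18406715586 : chkRec R_18406715586 = true := by decide +kernel

noncomputable def R_18406719618 : Rec := ⟨nat_lit 18406719618, nat_lit 20,
  [⟨V6_17316192384, [(nat_lit 12, nat_lit 18406719618), (nat_lit 66, nat_lit 19480461441), (nat_lit 24, nat_lit 19480457346), (nat_lit 120, nat_lit 19463684226), (nat_lit 47, nat_lit 20554203264), (nat_lit 90, nat_lit 20554199169), (nat_lit 55, nat_lit 20554195074), (nat_lit 94, nat_lit 20537426049), (nat_lit 118, nat_lit 20537421954), (nat_lit 48, nat_lit 21627940992), (nat_lit 109, nat_lit 21627936897), (nat_lit 106, nat_lit 21611167872), (nat_lit 89, nat_lit 21611163777), (nat_lit 100, nat_lit 21611159682), (nat_lit 5, nat_lit 22701678720), (nat_lit 97, nat_lit 22684905600), (nat_lit 94, nat_lit 22684901505), (nat_lit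 19, nat_lit 23758643328)]⟩],
  [W_18405924992, W_18389409920, W_18388893824, W_15185485952, W_15168454784]⟩
theorem C_18406719618 : chkRec R_18406719618 = true := by decide +kernel

noncomputable def R_18406719681 : Rec := ⟨nat_lit 18406719681, nat_lit 44,
  [⟨V6_16259231808, [(nat_lit 28, nat_lit 18406719681), (nat_lit 99, nat_lit 19480461504), (nat_lit 51, nat_lit 19480461441), (nat_lit 112, nat_lit 19480457409), (nat_lit 22, nat_lit 20554203264), (nat_lit 45, nat_lit 20554203201), (nat_lit 95, nat_lit 20554199232), (nat_lit 18, nat_lit 20554199169), (nat_lit 123, nat_lit 21627945024), (nat_lit 94, nat_lit 21627940992), (nat_lit 16, nat_lit 21627940929), (nat_lit 102, nat_lit 22701682752)]⟩],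
  [W_18389413952, W_18388893824, W_17315934272, W_17315152064, W_16242196544, W_15168716864, W_14111486144, W_13021233344, W_11964268736]⟩
theorem C_18406719681 : chkRec R_18406719681 = true := by decide +kernel

noncomputable def R_18406719744 : Rec := ⟨nat_lit 18406719744, nat_lit 42,
  [⟨V6_17316200448, [(nat_lit 13, nat_lit 18406719744), (nat_lit 16, nat_lit 19480461504), (nat_lit 86, nat_lit 19463684352), (nat_lit 99, nat_lit 20554203264), (nat_lit 70, nat_lit 20537426112), (nat_lit 71, nat_lit 21627945024), (nat_lit 126, nat_lit 21611167872), (nat_lit 50, nat_lit 22701686784), (nat_lit 116, nat_lit 22684909632), (nat_lit 46, nat_lit 23758651392)]⟩,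
   ⟨V6_16258187520, [(nat_lit 42, nat_lit 18406719744), (nat_lit 1, nat_lit 19480199424), (nat_lit 77, nat_lit 20553679104), (nat_lit 2, nat_lit 21627158784), (nat_lit 25, nat_lit 22700638464)]⟩],
  [W_18389417984, W_15185494016, W_15185231936, W_13021233344, W_13020971264, W_11964268736, W_11947491584]⟩
theorem C_18406719744 : chkRec R_18406719744 = true := by decide +kernel

noncomputable def R_18406723713 : Rec := ⟨nat_lit 18406723713, nat_lit 58,
  [⟨V6_16259231808, [(nat_lit 4, nat_lit 18406723713), (nat_lit 122, nat_lit 19480465536), (nat_lit 80, nat_lit 19480465473), (nat_lit 99, nat_lit 19480461441), (nat_lit 36, nat_lit 20554207296), (nat_lit 36, nat_lit 20554203264), (nat_lit 80, nat_lit 20554203201), (nat_lit 5, nat_lit 20554199169), (nat_lit 8, nat_lit 21627945024), (nat_lit 50, nat_lit 21627940992), (nat_lit 120, nat_lit 21627940929), (nat_lit 76, nat_lit 22701682752)]⟩],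
  [W_18406187072, W_18405924992, W_18389413952, W_18389409920, W_17316192320, W_17315418176, W_16258453568, W_16242450560, W_16242196544, W_16241676416, W_13021237376]⟩
theorem C_18406723713 : chkRec R_18406723713 = true := by decide +kernel

noncomputable def R_18406723776 : Rec := ⟨nat_lit 18406723776, nat_lit 90,
  [⟨V6_17316200448, [(nat_lit 85, nat_lit 18406723776), (nat_lit 98, nat_lit 19480465536), (nat_lit 93, nat_lit 19480461504), (nat_lit 120, nat_lit 19463688384), (nat_lit 30, nat_lit 20554207296), (nat_lit 121, nat_lit 20554203264), (nat_lit 34, nat_lit 20537430144), (nat_lit 74, nat_lit 20537426112), (nat_lit 44, nat_lit 21627949056), (nat_lit 11, nat_lit 21627945024), (nat_lit 8, nat_lit 21611171904), (nat_lit 22, nat_lit 21611167872), (nat_lit 105, nat_lit 22701686784), (nat_lit 79, nat_lit 22684913664), (nat_lit 11, nat_lit 22684909632), (nat_lit 90, nat_lit 23758651392)]⟩,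
   ⟨V6_17315942400, [(nat_lit 75, nat_lit 18406723776), (nat_lit 29, nat_lit 19480465536), (nat_lit 37, nat_lit 19480203456), (nat_lit 7, nat_lit 19463688384), (nat_lit 92, nat_lit 20554207296), (nat_lit 101, nat_lit 20553945216), (nat_lit 47, nat_lit 20537430144), (nat_lit 65, nat_lit 20537168064), (nat_lit 117, nat_lit 21627949056), (nat_lit 100, nat_lit 21627686976), (nat_lit 115, nat_lit 21611171904), (nat_lit 46, nat_lit 21610909824), (nat_lit 38, nat_lit 22701428736), (nat_lit 80, nat_lit 22684913664), (nat_lit 82, nat_lit 22684651584), (nat_lit 18, nat_lit 23758393344)]⟩,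
   ⟨V6_16242462720, [(nat_lit 77, nat_lit 18406723776), (nat_lit 90, nat_lit 19480465536), (nat_lit 89, nat_lit 19463688384), (nat_lit 1, nat_lit 20554207296), (nat_lit 61, nat_lit 20537430144), (nat_lit 102, nat_lit 21627949056), (nat_lit 51, nat_lit 21611171904), (nat_lit 32, nat_lit 22684913664)]⟩],
  [W_18389676032, W_18389417984, W_17316196352, W_15185494016, W_15185489984, W_15185231936, W_15184973888, W_15184969856, W_15168712832, W_14110970048, W_11964010688, W_10890531008]⟩
theorem C_18406723776 : chkRec R_18406723776 = true := by decide +kernel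

noncomputable def R_18406727745 : Rec := ⟨nat_lit 18406727745, nat_lit 38,
  [⟨V6_16259231808, [(nat_lit 21, nat_lit 18406727745), (nat_lit 82, nat_lit 19480469568), (nat_lit 44, nat_lit 19480465473), (nat_lit 126, nat_lit 20554207296), (nat_lit 80, nat_lit 20554203201), (nat_lit 74, nat_lit 21627945024), (nat_lit 11, nat_lit 21627940929), (nat_lit 2, nat_lit 22701682752)]⟩],
  [W_17315934272, W_16242196544, W_15184973888, W_15168716864, W_15168200768, W_14111236160, W_14094721088]⟩
theorem C_18406727745 : chkRec R_18406727745 = true := by decide +kernel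

noncomputable def R_18406727808 : Rec := ⟨nat_lit 18406727808, nat_lit 106,
  [⟨V6_18406711296, [(nat_lit 6, nat_lit 18406727808), (nat_lit 79, nat_lit 19480469568), (nat_lit 55, nat_lit 19480465536), (nat_lit 56, nat_lit 20554211328), (nat_lit 92, nat_lit 20554207296), (nat_lit 9, nat_lit 20554203264), (nat_lit 42, nat_lit 21627949056), (nat_lit 47, nat_lit 21627945024), (nat_lit 13, nat_lit 21627940992), (nat_lit 100, nat_lit 22701686784), (nat_lit 124, nat_lit 22701682752), (nat_lit 75, nat_lit 22701678720), (nat_lit 4, nat_lit 23775424512), (nat_lit 16, nat_lit 23775420480), (nat_lit 103, nat_lit 24849162240)]⟩,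
   ⟨V6_17316192384, [(nat_lit 4, nat_lit 18406727808), (nat_lit 16, nat_lit 19480465536), (nat_lit 106, nat_lit 19463692416), (nat_lit 46, nat_lit 20554203264), (nat_lit 103, nat_lit 20537430144), (nat_lit 91, nat_lit 21627940992), (nat_lit 27, nat_lit 21611167872), (nat_lit 7, nat_lit 22701678720), (nat_lit 44, nat_lit 22684905600), (nat_lit 65, nat_lit 23758643328)]⟩,
   ⟨V6_16258719744, [(nat_lit 75, nat_lit 18406727808), (nat_lit 79, nat_lit 19480469568), (nat_lit 34, nat_lit 19480207488), (nat_lit 16, nat_lit 20554211328), (nat_lit 37, nat_lit 20553949248), (nat_lit 106, nat_lit 20553687168), (nat_lit 78, nat_lit 21627691008), (nat_lit 32, nat_lit 21627428928), (nat_lit 87, nat_lit 22701170688)]⟩,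
   ⟨V6_15168724992, [(nat_lit 32, nat_lit 18406727808), (nat_lit 86, nat_lit 19480469568), (nat_lit 43, nat_lit 19463692416), (nat_lit 108, nat_lit 20554211328), (nat_lit 76, nat_lit 20537434176), (nat_lit 124, nat_lit 21611175936)]⟩],
  [W_18389934080, W_18389676032, W_18389417984, W_17316196352, W_17315938304, W_16242458624, W_16242196544, W_15185494016, W_15185231936, W_14094983168]⟩
theorem C_18406727808 : chkRec R_18406727808 = true := by decide +kernel

end Crest.Agent.R187.SN.Top
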