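import Crest.Agent.R187.SN.Top
import Crest.Agent.R187.SN.TD.X6_0
import Crest.Agent.R187.SN.TD.X6_1
import Crest.Agent.R187.SN.TD.X6_2
import Crest.Agent.R187.SN.TD.X6_3
import Crest.Agent.R187.SN.TD.X6_4
import Crest.Agent.R187.SN.TD.X6_5
import Crest.Agent.R187.SN.TD.X6_6
import Crest.Agent.R187.SN.TD.X6_7
import Crest.Agent.R187.SN.TD.X6_8
import Crest.Agent.R187.SN.TD.X6_9
import Crest.Agent.R187.SN.TD.W7_0
import Crest.Agent.R187.SN.TD.W7_1
import Crest.Agent.R187.SN.TD.W7_2

/-!
# Row 187, PLAN S, generated certificate data (mod 127): rank records and checks, chunk 9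

Written by a C++ program (helper824).  The tables are only data: every property is checked by
the kernel.
-/

set_option autoImplicit false
set_option maxRecDepth 100000
set_option Elab.async false

namespace Crest.Agent.R187.SN.Top

noncomputable def R_18406731840 : Rec := ⟨nat_lit 18406731840, nat_lit 61,
  [⟨V6_18406711296, [(nat_lit 83, nat_lit 18406731840), (nat_lit 88, nat_lit 19480473600), (nat_lit 65, nat_lit 19480469568), (nat_lit 116, nat_lit 20554211328), (nat_lit 56, nat_lit 20554207296), (nat_lit 111, nat_lit 21627949056), (nat_lit 64, nat_lit 21627945024), (nat_lit 114, nat_lit 22701686784), (nat_lit 52, nat_lit 22701682752), (nat_lit 48, nat_lit 23775424512), (nat_lit 33, nat_lit 23775420480), (nat_lit 88, nat_lit 24849162240)]⟩,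
   ⟨V6_18406707264, [(nat_lit 114, nat_lit 18406731840), (nat_lit 18, nat_lit 19480469568), (nat_lit 85, nat_lit 20554207296), (nat_lit 116, nat_lit 21627945024), (nat_lit 75, nat_lit 22701682752), (nat_lit 14, nat_lit 23775420480), (nat_lit 78, nat_lit 24849158208)]⟩,
   ⟨V6_14094987264, [(nat_lit 20, nat_lit 18406731840), (nat_lit 106, nat_lit 19480473600), (nat_lit 93, nat_lit 19463696448), (nat_lit 56, nat_lit 20537438208)]⟩],
  [W_17315938304, W_16242196544, W_15168720896, W_15168716864, W_15168462848, W_15168458816, W_14111494208, W_14094983168, W_14094725120, W_14094721088, W_13021245440, W_11964280832]⟩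
theorem C_18406731840 : chkRec R_18406731840 = true := by decide +kernel

noncomputable def R_18406735872 : Rec := ⟨nat_lit 18406735872, nat_lit 20,
  [⟨V6_15168724992, [(nat_lit 34, nat_lit 18406735872), (nat_lit 37, nat_lit 19480473600), (nat_lit 93, nat_lit 19463700480), (nat_lit 74, nat_lit 20554211328), (nat_lit 6, nat_lit 20537438208), (nat_lit 89, nat_lit 21611175936)]⟩],
  [W_18406707200, W_18389934080, W_11964280832]⟩
theorem C_18406735872 : chkRec R_18406735872 = true := by decide +kernel

noncomputable def R_18406977666 : Rec := ⟨nat_lit 18406977666, nat_lit 7,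
  [⟨V6_15185748096, [(nat_lit 121, nat_lit 18406977666), (nat_lit 73, nat_lit 19480719489), (nat_lit 36, nat_lit 19480715394), (nat_lit 31, nat_lit 20554461312), (nat_lit 47, nat_lit 20554457217), (nat_lit 107, nat_lit 21628199040)]⟩],
  [W_17332445312, W_13038268544]⟩
theorem C_18406977666 : chkRec R_18406977666 = true := by decide +kernel

noncomputable def R_18406977729 : Rec := ⟨nat_lit 18406977729, nat_lit 14,
  [⟨V6_15185752128, [(nat_lit 37, nat_lit 18406977729), (nat_lit 13, nat_lit 19480719552), (nat_lit 9, nat_lit 19480719489), (nat_lit 16, nat_lit 20554461312), (nat_lit 20, nat_lit 20554461249), (nat_lit 38, nat_lit 21628203072)]⟩],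
  [W_18405929024, W_18405666944, W_14111486144]⟩
theorem C_18406977729 : chkRec R_18406977729 = true := by decide +kernel

noncomputable def R_18406981761 : Rec := ⟨nat_lit 18406981761, nat_lit 30,
  [⟨V6_18405670977, [(nat_lit 119, nat_lit 18406981761), (nat_lit 57, nat_lit 19480723521), (nat_lit 93, nat_lit 19480461441), (nat_lit 52, nat_lit 20554203201), (nat_lit 86, nat_lit 20553941121), (nat_lit 12, nat_lit 21627682881), (nat_lit 60, nat_lit 21627420801), (nat_lit 75, nat_lit 22701162561), (nat_lit 31, nat_lit 22700900481), (nat_lit 58, nat_lit 23774642241), (nat_lit 53, nat_lit 23774380161), (nat_lit 105, nat_lit 24848121921)]⟩,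
   ⟨V6_15185748096, [(nat_lit 49, nat_lit 18406981761), (nat_lit 66, nat_lit 19480723584), (nat_lit 55, nat_lit 19480719489), (nat_lit 83, nat_lit 20554461312), (nat_lit 35, nat_lit 20554457217), (nat_lit 4, nat_lit 21628199040)]⟩,
   ⟨V6_15185748033, [(nat_lit 96, nat_lit 18406981761), (nat_lit 76, nat_lit 19480723521), (nat_lit 118, nat_lit 19480719489), (nat_lit 117, nat_lit 20554461249), (nat_lit 37, nat_lit 20554457217), (nat_lit 36, nat_lit 21628198977)]⟩,
   ⟨V6_14112006273, [(nat_lit 75, nat_lit 18406981761), (nat_lit 51, nat_lit 19480719489), (nat_lit 98, nat_lit 20554457217)]⟩],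
  [W_18406187072, W_18405924992, W_17332445312, W_15185231936, W_13038272576, W_13038268544]⟩
theorem C_18406981761 : chkRec R_18406981761 = true := by decide +kernel

noncomputable def R_18406981824 : Rec := ⟨nat_lit 18406981824, nat_lit 45,
  [⟨V6_16259231808, [(nat_lit 45, nat_lit 18406981824), (nat_lit 27, nat_lit 19480723584), (nat_lit 125, nat_lit 19480719552), (nat_lit 10, nat_lit 19480461504), (nat_lit 44, nat_lit 20554465344), (nat_lit 100, nat_lit 20554461312), (nat_lit 121, nat_lit 20554203264), (nat_lit 83, nat_lit 20554199232), (nat_lit 14, nat_lit 21628203072), (nat_lit 79, nat_lit 21627945024), (nat_lit 86, nat_lit 21627940992), (nat_lit 12, nat_lit 22701682752)]⟩],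
  [W_15185752064, W_15185494016, W_15185489984, W_14112014336, W_14112010304, W_14111748224, W_14111490176, W_14111486144, W_13038272576, W_13038268544, W_13038010496, W_11964526784, W_11964268736]⟩
theorem C_18406981824 : chkRec R_18406981824 = true := by decide +kernel

noncomputable def R_18406985793 : Rec := ⟨nat_lit 18406985793, nat_lit 26,
  [⟨V6_18406707264, [(nat_lit 123, nat_lit 18406985793), (nat_lit 19, nat_lit 19480727616), (nat_lit 14, nat_lit 19480723521), (nat_lit 110, nat_lit 19480465473), (nat_lit 84, nat_lit 20554465344), (nat_lit 40, nat_lit 20554461249), (nat_lit 42, nat_lit 20554207296), (nat_lit 17, nat_lit 20554203201), (nat_lit 123, nat_lit 21628203072), (nat_lit 98, nat_lit 21628198977), (nat_lit 33, nat_lit 21627945024), (nat_lit 37, nat_lit 21627940929), (nat_lit 103, nat_lit 22701940800), (nat_lit 3, nat_lit 22701936705), (nat_lit 44, nat_lit 22701682752), (nat_lit 17, nat_lit 22701678657), (nat_lit 86, nat_lit 23775678528), (nat_lit 79, nat_lit 23775420480), (nat_lit 120, nat_lit 23775416385), (nat_lit 82, nat_lit 24849158208)]⟩,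
   ⟨V6_15185748033, [(nat_lit 86, nat_lit 18406985793), (nat_lit 124, nat_lit 19480723521), (nat_lit 77, nat_lit 20554461249), (nat_lit 60, nat_lit 21628198977)]⟩],
  [W_16258453568, W_15185489984, W_15185231936, W_15184973888]⟩
theorem C_18406985793 : chkRec R_18406985793 = true := by decide +kernel

noncomputable def R_18406985856 : Rec := ⟨nat_lit 18406985856, nat_lit 63,
  [⟨V6_18406187136, [(nat_lit 46, nat_lit 18406985856), (nat_lit 107, nat_lit 19480723584), (nat_lit 111, nat_lit 19480465536), (nat_lit 114, nat_lit 20554461312), (nat_lit 114, nat_lit 20554203264), (nat_lit 68, nat_lit 20553945216), (nat_lit 44, nat_lit 21628199040), (nat_lit 8, nat_lit 21627940992), (nat_lit 42, nat_lit 21627682944), (nat_lit 7, nat_lit 21627424896), (nat_lit 44, nat_lit 22701678720), (nat_lit 61, nat_lit 22701420672), (nat_lit 10, nat_lit 22701162624), (nat_lit 4, nat_lit 23775158400), (nat_lit 80, nat_lit 23774900352), (nat_lit 36, nat_lit 24848638080)]⟩,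
   ⟨V6_18405937152, [(nat_lit 51, nat_lit 18406985856), (nat_lit 52, nat_lit 19480727616), (nat_lit 112, nat_lit 19480465536), (nat_lit 94, nat_lit 20554469376), (nat_lit 20, nat_lit 20554207296), (nat_lit 125, nat_lit 20553945216), (nat_lit 23, nat_lit 21627949056), (nat_lit 82, nat_lit 21627686976), (nat_lit 123, nat_lit 21627424896), (nat_lit 75, nat_lit 22701428736), (nat_lit 51, nat_lit 22701166656), (nat_lit 98, nat_lit 22700904576), (nat_lit 85, nat_lit 23774908416), (nat_lit 61, nat_lit 23774646336), (nat_lit 20, nat_lit 24848388096)]⟩],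
  [W_17332195328, W_16259489792, W_16258453568, W_15185752064, W_15185748032, W_15185494016, W_15185489984, W_15185485952, W_15185231936, W_15184973888, W_14112014336, W_14112010304, W_13038272576, W_13038268544, W_11964534848]⟩
theorem C_18406985856 : chkRec R_18406985856 = true := by decide +kernel

noncomputable def R_18406989888 : Rec := ⟨nat_lit 18406989888, nat_lit 57,
  [⟨V6_18406707264, [(nat_lit 51, nat_lit 18406989888), (nat_lit 12, nat_lit 19480727616), (nat_lit 40, nat_lit 19480469568), (nat_lit 109, nat_lit 20554465344), (nat_lit 20, nat_lit 20554207296), (nat_lit 44, nat_lit 21628203072), (nat_lit 64, nat_lit 21627945024), (nat_lit 85, nat_lit 22701940800), (nat_lit 6, nat_lit 22701682752), (nat_lit 21, nat_lit 23775678528), (nat_lit 106, nat_lit 23775420480), (nat_lit 53, nat_lit 24849158208)]⟩,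
   ⟨V6_16258719744, [(nat_lit 48, nat_lit 18406989888), (nat_lit 22, nat_lit 19480731648), (nat_lit 88, nat_lit 19480469568), (nat_lit 116, nat_lit 20554211328), (nat_lit 96, nat_lit 20553949248), (nat_lit 45, nat_lit 21627691008), (nat_lit 70, nat_lit 21627428928), (nat_lit 118, nat_lit 22701170688)]⟩,
   ⟨V6_14112018432, [(nat_lit 32, nat_lit 18406989888), (nat_lit 20, nat_lit 19480731648), (nat_lit 88, nat_lit 19480727616), (nat_lit 111, nat_lit 20554469376)]⟩],
  [W_18406707200, W_17333227520, W_16259489792, W_16259485760, W_15185752064, W_15185494016, W_15185489984, W_15185231936]⟩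
theorem C_18406989888 : chkRec R_18406989888 = true := by decide +kernel

noncomputable def R_18406993920 : Rec := ⟨nat_lit 18406993920, nat_lit 23,
  [⟨V6_15185756160, [(nat_lit 71, nat_lit 18406993920), (nat_lit 120, nat_lit 19480731648), (nat_lit 39, nat_lit 20554469376), (nat_lit 22, nat_lit 21628207104)]⟩,
   ⟨V6_14112018432, [(nat_lit 103, nat_lit 18406993920), (nat_lit 49, nat_lit 19480731648), (nat_lit 26, nat_lit 20554469376)]⟩],
  [W_18406707200, W_18406449152, W_16259489792]⟩
theorem C_18406993920 : chkRec R_18406993920 = true := by decide +kernel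

noncomputable def R_18422448387 : Rec := ⟨nat_lit 18422448387, nat_lit 2,
  [⟨V6_14127481026, [(nat_lit 39, nat_lit 18422448387), (nat_lit 33, nat_lit 19496190210), (nat_lit 53, nat_lit 19496190147), (nat_lit 37, nat_lit 20569931970)]⟩],
  [W_17315152064]⟩
theorem C_18422448387 : chkRec R_18422448387 = true := by decide +kernel

noncomputable def R_18422710467 : Rec := ⟨nat_lit 18422710467, nat_lit 3,
  [⟨V6_15201218754, [(nat_lit 75, nat_lit 18422710467), (nat_lit 95, nat_lit 19496452290), (nat_lit 29, nat_lit 19496448195), (nat_lit 28, nat_lit 19496190147), (nat_lit 108, nat_lit 20570190018), (nat_lit 44, nat_lit 20569931970), (nat_lit 15, nat_lit 20569927875), (nat_lit 56, nat_lit 21643669698)]⟩,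
   ⟨V6_14127481026, [(nat_lit 13, nat_lit 18422710467), (nat_lit 43, nat_lit 19496452290), (nat_lit 15, nat_lit 19496190147), (nat_lit 70, nat_lit 20569931970)]⟩],
  [W_18372116672, W_16258445504]⟩
theorem C_18422710467 : chkRec R_18422710467 = true := by decide +kernel

noncomputable def R_18422710530 : Rec := ⟨nat_lit 18422710530, nat_lit 9,
  [⟨V6_15201222912, [(nat_lit 103, nat_lit 18422710530), (nat_lit 111, nat_lit 19496452353), (nat_lit 15, nat_lit 19496190210), (nat_lit 32, nat_lit 20570194176), (nat_lit 101, nat_lit 20569932033), (nat_lit 106, nat_lit 21643673856)]⟩],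
  [W_18388893824, W_18372116672, W_18355339520, W_17315414144]⟩
theorem C_18422710530 : chkRec R_18422710530 = true := by decide +kernel

noncomputable def R_18422714562 : Rec := ⟨nat_lit 18422714562, nat_lit 6,
  [⟨V6_17298641088, [(nat_lit 100, nat_lit 18422714562), (nat_lit 82, nat_lit 19496456385), (nat_lit 10, nat_lit 19479679170), (nat_lit 93, nat_lit 20570198208), (nat_lit 23, nat_lit 20553420993), (nat_lit 106, nat_lit 20536643778), (nat_lit 113, nat_lit 21627162816), (nat_lit 111, nat_lit 21610385601), (nat_lit 90, nat_lit 21593608386), (nat_lit 49, nat_lit 22684127424), (nat_lit 105, nat_lit 22667350209), (nat_lit 26, nat_lit 23741092032)]⟩],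
  [W_15201484928, W_15201480896]⟩
theorem C_18422714562 : chkRec R_18422714562 = true := by decide +kernel

noncomputable def R_18422714625 : Rec := ⟨nat_lit 18422714625, nat_lit 8,
  [⟨V6_15184707840, [(nat_lit 46, nat_lit 18422714625), (nat_lit 27, nat_lit 19496456448), (nat_lit 29, nat_lit 19496452353), (nat_lit 114, nat_lit 19479679233), (nat_lit 59, nat_lit 20570194176), (nat_lit 54, nat_lit 20553421056), (nat_lit 4, nat_lit 20553416961), (nat_lit 94, nat_lit 21627158784)]⟩],
  [W_18389155904, W_16258453568]⟩
theorem C_18422714625 : chkRec R_18422714625 = true := by decide +kernel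

noncomputable def R_18422714688 : Rec := ⟨nat_lit 18422714688, nat_lit 2,
  [⟨V6_17298641088, [(nat_lit 93, nat_lit 18422714688), (nat_lit 101, nat_lit 19496456448), (nat_lit 78, nat_lit 19479679296), (nat_lit 3, nat_lit 20570198208), (nat_lit 30, nat_lit 20553421056), (nat_lit 25, nat_lit 20536643904), (nat_lit 118, nat_lit 21627162816), (nat_lit 32, nat_lit 21610385664), (nat_lit 14, nat_lit 21593608512), (nat_lit 35, nat_lit 22684127424), (nat_lit 118, nat_lit 22667350272), (nat_lit 79, nat_lit 23741092032)]⟩],
  [W_16275230720]⟩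
theorem C_18422714688 : chkRec R_18422714688 = true := by decide +kernel

noncomputable def R_18422968515 : Rec := ⟨nat_lit 18422968515, nat_lit 1,
  [⟨V6_13037482179, [(nat_lit 105, nat_lit 18422968515), (nat_lit 92, nat_lit 19479933123)]⟩],
  [W_18372374720]⟩
theorem C_18422968515 : chkRec R_18422968515 = true := by decide +kernel

noncomputable def R_18422972610 : Rec := ⟨nat_lit 18422972610, nat_lit 24,
  [⟨V6_16274964672, [(nat_lit 16, nat_lit 18422972610), (nat_lit 110, nat_lit 19496714433), (nat_lit 118, nat_lit 19496452290), (nat_lit 12, nat_lit 20570456256), (nat_lit 43, nat_lit 20570194113), (nat_lit 81, nat_lit 20569931970), (nat_lit 120, nat_lit 21643935936), (nat_lit 41, nat_lit 21643673793), (nat_lit 9, nat_lit 22717415616)]⟩,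
   ⟨V6_16274960577, [(nat_lit 7, nat_lit 18422972610), (nat_lit 24, nat_lit 19496714433), (nat_lit 86, nat_lit 19496710338), (nat_lit 80, nat_lit 19496452290), (nat_lit 46, nat_lit 20570452161), (nat_lit 26, nat_lit 20570194113), (nat_lit 126, nat_lit 20570190018), (nat_lit 71, nat_lit 20569931970), (nat_lit 64, nat_lit 21643931841), (nat_lit 27, nat_lit 21643673793), (nat_lit 111, nat_lit 21643669698), (nat_lit 30, nat_lit 22717411521)]⟩,
   ⟨V6_15201218754, [(nat_lit 34, nat_lit 18422972610), (nat_lit 76, nat_lit 19496710338), (nat_lit 32, nat_lit 19496452290), (nat_lit 73, nat_lit 20570190018), (nat_lit 84, nat_lit 20569931970), (nat_lit 65, nat_lit 21643669698)]⟩],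
  [W_18405666944, W_18372636800, W_18372374720, W_18372116672, W_18355863680, W_17315672192, W_17298899072, W_17298895040, W_17282121920]⟩
theorem C_18422972610 : chkRec R_18422972610 = true := by decide +kernel

noncomputable def R_18422972673 : Rec := ⟨nat_lit 18422972673, nat_lit 32,
  [⟨V6_17348706369, [(nat_lit 29, nat_lit 18422972673), (nat_lit 46, nat_lit 19496714433), (nat_lit 40, nat_lit 19496452353), (nat_lit 113, nat_lit 20570456193), (nat_lit 56, nat_lit 20570194113), (nat_lit 50, nat_lit 20569932033), (nat_lit 79, nat_lit 21644197953), (nat_lit 89, nat_lit 21643935873), (nat_lit 47, nat_lit 21643673793), (nat_lit 92, nat_lit 22717677633), (nat_lit 70, nat_lit 22717415553), (nat_lit 112, nat_lit 23791157313)]⟩,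
   ⟨V6_16274964672, [(nat_lit 4, nat_lit 18422972673), (nat_lit 63, nat_lit 19496714496), (nat_lit 72, nat_lit 19496714433), (nat_lit 66, nat_lit 19496452353), (nat_lit 92, nat_lit 20570456256), (nat_lit 40, nat_lit 20570194176), (nat_lit 48, nat_lit 20570194113), (nat_lit 65, nat_lit 20569932033), (nat_lit 108, nat_lit 21643935936), (nat_lit 88, nat_lit 21643673856), (nat_lit 7, nat_lit 21643673793), (nat_lit 26, nat_lit 22717415616)]⟩,
   ⟨V6_16258187520, [(nat_lit 88, nat_lit 18422972673), (nat_lit 6, nat_lit 19496714496), (nat_lit 86, nat_lit 19496452353), (nat_lit 90, nat_lit 19479937281), (nat_lit 23, nat_lit 20570194176), (nat_lit 64, nat_lit 20569932033), (nat_lit 104, nat_lit 20553679104), (nat_lit 101, nat_lit 20553416961), (nat_lit 111, nat_lit 21643673856), (nat_lit 126, nat_lit 21627158784), (nat_lit 19, nat_lit 21626896641), (nat_lit 102, nat_lit 22700638464)]⟩],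
  [W_18372640832, W_18355863680, W_18355339520, W_17348706368, W_17282121920, W_16208380160, W_15201747008, W_15151415552]⟩
theorem C_18422972673 : chkRec R_18422972673 = true := by decide +kernel

noncomputable def R_18422976642 : Rec := ⟨nat_lit 18422976642, nat_lit 21,
  [⟨V6_17298903168, [(nat_lit 125, nat_lit 18422976642), (nat_lit 39, nat_lit 19496718465), (nat_lit 76, nat_lit 19479941250), (nat_lit 21, nat_lit 20570460288), (nat_lit 124, nat_lit 20553683073), (nat_lit 69, nat_lit 20536905858), (nat_lit 46, nat_lit 21627424896), (nat_lit 107, nat_lit 21610647681), (nat_lit 49, nat_lit 21593870466), (nat_lit 93, nat_lit 22684389504), (nat_lit 36, nat_lit 22667612289), (nat_lit 96, nat_lit 23741354112)]⟩],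
  [W_18405924992, W_18389151872, W_17348960384, W_15201484928, W_13054267520]⟩
theorem C_18422976642 : chkRec R_18422976642 = true := by decide +kernel

noncomputable def R_18422976705 : Rec := ⟨nat_lit 18422976705, nat_lit 47,
  [⟨V6_17298903168, [(nat_lit 66, nat_lit 18422976705), (nat_lit 106, nat_lit 19496718528), (nat_lit 116, nat_lit 19496718465), (nat_lit 11, nat_lit 19479941313), (nat_lit 123, nat_lit 20570460288), (nat_lit 15, nat_lit 20553683136), (nat_lit 64, nat_lit 20553683073), (nat_lit 107, nat_lit 20536905921), (nat_lit 52, nat_lit 21627424896), (nat_lit 124, nat_lit 21610647744), (nat_lit 90, nat_lit 21610647681), (nat_lit 119, nat_lit 21593870529), (nat_lit 39, nat_lit 22684389504), (nat_lit 28, nat_lit 22667612352), (nat_lit 91, nat_lit 22667612289), (nat_lit 110, nat_lit 23741354112)]⟩,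
   ⟨V6_17282126016, [(nat_lit 45, nat_lit 18422976705), (nat_lit 112, nat_lit 19496718528), (nat_lit 113, nat_lit 19479941313), (nat_lit 107, nat_lit 20553683136), (nat_lit 69, nat_lit 20536905921), (nat_lit 107, nat_lit 21610647744), (nat_lit 66, nat_lit 21593870529), (nat_lit 12, nat_lit 22667612352), (nat_lit 96, nat_lit 22650835137), (nat_lit 96, nat_lit 23724576960)]⟩,
   ⟨V6_16225161408, [(nat_lit 86, nat_lit 18422976705), (nat_lit 45, nat_lit 19496718528), (nat_lit 59, nat_lit 19479941313), (nat_lit 93, nat_lit 20553683136), (nat_lit 5, nat_lit 20536905921), (nat_lit 86, nat_lit 21610647744), (nat_lit 69, nat_lit 21593870529), (nat_lit 121, nat_lit 22667612352)]⟩,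
   ⟨V6_16224899265, [(nat_lit 99, nat_lit 18422976705), (nat_lit 85, nat_lit 19496456385), (nat_lit 118, nat_lit 19479941313), (nat_lit 105, nat_lit 20553420993), (nat_lit 119, nat_lit 20536905921), (nat_lit 29, nat_lit 21610385601), (nat_lit 9, nat_lit 21593870529), (nat_lit 1, nat_lit 22667350209)]⟩],
  [W_18405929024, W_18389151872, W_18372640832, W_18372374720, W_16258453568, W_15201747008, W_15201488960, W_14128001216, W_14127747200, W_13054267520, W_11980525760]⟩
theorem C_18422976705 : chkRec R_18422976705 = true := by decide +kernel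

noncomputable def R_18422976768 : Rec := ⟨nat_lit 18422976768, nat_lit 55,
  [⟨V6_16275492864, [(nat_lit 52, nat_lit 18422976768), (nat_lit 123, nat_lit 19496718528), (nat_lit 112, nat_lit 20570460288), (nat_lit 72, nat_lit 21644202048), (nat_lit 39, nat_lit 22717943808)]⟩],
  [W_18389417984, W_18389159936, W_18372644864, W_18372640832, W_18372378752, W_18355867712, W_18355863680, W_17315680256, W_17282121920, W_16208380160, W_15184969856, W_15167930624, W_13054263488, W_13054001408]⟩
theorem C_18422976768 : chkRec R_18422976768 = true := by decide +kernel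

noncomputable def R_18422980737 : Rec := ⟨nat_lit 18422980737, nat_lit 44,
  [⟨V6_18406187136, [(nat_lit 53, nat_lit 18422980737), (nat_lit 91, nat_lit 19496722560), (nat_lit 122, nat_lit 19496718465), (nat_lit 58, nat_lit 19479945345), (nat_lit 46, nat_lit 20570460288), (nat_lit 11, nat_lit 20570456193), (nat_lit 86, nat_lit 20553687168), (nat_lit 31, nat_lit 20553683073), (nat_lit 65, nat_lit 21644198016), (nat_lit 57, nat_lit 21644193921), (nat_lit 43, nat_lit 21627424896), (nat_lit 114, nat_lit 21627420801), (nat_lit 55, nat_lit 22717935744), (nat_lit 85, nat_lit 22717931649), (nat_lit 1, nat_lit 22701162624), (nat_lit 102, nat_lit 22701158529), (nat_lit 86, nat_lit 23791673472), (nat_lit 48, nat_lit 23774900352), (nat_lit 88, nat_lit 23774896257), (nat_lit 88, nat_lit 24848638080)]⟩,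
   ⟨V6_17282129985, [(nat_lit 29, nat_lit 18422980737), (nat_lit 100, nat_lit 19496722497), (nat_lit 94, nat_lit 19479945345), (nat_lit 67, nat_lit 20553687105), (nat_lit 8, nat_lit 20536909953), (nat_lit 80, nat_lit 21610651713), (nat_lit 126, nat_lit 21593874561), (nat_lit 101, nat_lit 22667616321), (nat_lit 30, nat_lit 22650839169), (nat_lit 109, nat_lit 23724580929)]⟩],
  [W_17282129984, W_15201747008, W_15184973888, W_15168200768, W_15151423616, W_14111236160, W_14094459008, W_13054271552, W_13054267520, W_13037494400, W_11980529792]⟩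
theorem C_18422980737 : chkRec R_18422980737 = true := by decide +kernel

noncomputable def R_18422980800 : Rec := ⟨nat_lit 18422980800, nat_lit 71,
  [⟨V6_17315684352, [(nat_lit 17, nat_lit 18422980800), (nat_lit 29, nat_lit 19496722560), (nat_lit 39, nat_lit 19479945408), (nat_lit 56, nat_lit 20570464320), (nat_lit 26, nat_lit 20553687168), (nat_lit 30, nat_lit 20536910016), (nat_lit 80, nat_lit 21644206080), (nat_lit 8, nat_lit 21627428928), (nat_lit 52, nat_lit 21610651776), (nat_lit 121, nat_lit 22701170688), (nat_lit 88, nat_lit 22684393536), (nat_lit 16, nat_lit 23758135296)]⟩,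
   ⟨V6_16258719744, [(nat_lit 1, nat_lit 18422980800), (nat_lit 102, nat_lit 19496722560), (nat_lit 33, nat_lit 19479945408), (nat_lit 2, nat_lit 20570464320), (nat_lit 98, nat_lit 20553687168), (nat_lit 66, nat_lit 21644206080), (nat_lit 39, nat_lit 21627428928), (nat_lit 26, nat_lit 22701170688)]⟩,
   ⟨V6_15201755136, [(nat_lit 38, nat_lit 18422980800), (nat_lit 37, nat_lit 19496722560), (nat_lit 72, nat_lit 20570464320), (nat_lit 35, nat_lit 21644206080)]⟩],
  [W_18389417984, W_18372644864, W_18372640832, W_18355871744, W_18355863680, W_17298899072, W_17282129984, W_16208388224, W_15201747008, W_15184969856, W_14128001216, W_13054267520, W_13054263488]⟩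
theorem C_18422980800 : chkRec R_18422980800 = true := by decide +kernel

noncomputable def R_18423230658 : Rec := ⟨nat_lit 18423230658, nat_lit 12,
  [⟨V6_17299157184, [(nat_lit 40, nat_lit 18423230658), (nat_lit 109, nat_lit 19496972481), (nat_lit 4, nat_lit 19480195266), (nat_lit 88, nat_lit 20570714304), (nat_lit 60, nat_lit 20553937089), (nat_lit 17, nat_lit 20537159874), (nat_lit 96, nat_lit 21627678912), (nat_lit 19, nat_lit 21610901697), (nat_lit 36, nat_lit 21594124482), (nat_lit 45, nat_lit 22684643520), (nat_lit 42, nat_lit 22667866305), (nat_lit 112, nat_lit 23741608128)]⟩,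
   ⟨V6_16241668290, [(nat_lit 39, nat_lit 18423230658), (nat_lit 97, nat_lit 19496710338), (nat_lit 49, nat_lit 19480195266), (nat_lit 125, nat_lit 20570190018), (nat_lit 64, nat_lit 20553674946), (nat_lit 109, nat_lit 20537159874), (nat_lit 75, nat_lit 21627154626), (nat_lit 85, nat_lit 21610639554), (nat_lit 11, nat_lit 22684119234)]⟩,
   ⟨V6_15201218754, [(nat_lit 44, nat_lit 18423230658), (nat_lit 104, nat_lit 19496710338), (nat_lit 89, nat_lit 20570190018), (nat_lit 125, nat_lit 21643669698)]⟩],
  [W_18422182016, W_18405666944, W_14128263296, W_14128001216]⟩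
theorem C_18423230658 : chkRec R_18423230658 = true := by decide +kernel

noncomputable def R_18423234690 : Rec := ⟨nat_lit 18423234690, nat_lit 30,
  [⟨V6_18405671040, [(nat_lit 120, nat_lit 18423234690), (nat_lit 117, nat_lit 19496976513), (nat_lit 89, nat_lit 19496714370), (nat_lit 8, nat_lit 19480199298), (nat_lit 58, nat_lit 20570718336), (nat_lit 18, nat_lit 20570456193), (nat_lit 28, nat_lit 20570194050), (nat_lit 121, nat_lit 20553941121), (nat_lit 56, nat_lit 20553678978), (nat_lit 74, nat_lit 21644198016), (nat_lit 65, nat_lit 21643935873), (nat_lit 6, nat_lit 21643673730), (nat_lit 123, nat_lit 21627682944), (nat_lit 42, nat_lit 21627420801), (nat_lit 35, nat_lit 21627158658), (nat_lit 15, nat_lit 22717677696), (nat_lit 118, nat_lit 22717415553), (nat_lit 22, nat_lit 22701162624), (nat_lit 1, nat_lit 22700900481), (nat_lit 44, nat_lit 22700638338), (nat_lit 51, nat_lit 23791157376), (nat_lit 66, nat_lit 23774642304), (nat_lit 41, nat_lit 23774380161), (nat_lit 16, nat_lit 24848121984)]⟩],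
  [W_18389409920, W_17348960384, W_15202001024, W_15168454784, W_14128263296, W_13054525568]⟩
theorem C_18423234690 : chkRec R_18423234690 = true := by decide +kernel

noncomputable def R_18423234753 : Rec := ⟨nat_lit 18423234753, nat_lit 65,
  [⟨V6_18422448192, [(nat_lit 46, nat_lit 18423234753), (nat_lit 98, nat_lit 19496976576), (nat_lit 109, nat_lit 19496976513), (nat_lit 49, nat_lit 19496714433), (nat_lit 88, nat_lit 20570718336), (nat_lit 118, nat_lit 20570718273), (nat_lit 13, nat_lit 20570456256), (nat_lit 62, nat_lit 20570456193), (nat_lit 22, nat_lit 20570194113), (nat_lit 101, nat_lit 21644460096), (nat_lit 36, nat_lit 21644198016), (nat_lit 29, nat_lit 21644197953), (nat_lit 46, nat_lit 21643935936), (nat_lit 102, nat_lit 21643935873), (nat_lit 56, nat_lit 21643673793), (nat_lit 88, nat_lit 22717939776), (nat_lit 35, nat_lit 22717677696), (nat_lit 98, nat_lit 22717677633), (nat_lit 6, nat_lit 22717415616), (nat_lit 113, nat_lit 22717415553), (nat_lit 88, nat_lit 23791419456), (nat_lit 38, nat_lit 23791157376), (nat_lit 36, nat_lit 23791157313),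 (nat_lit 33, nat_lit 24864899136)]⟩,
   ⟨V6_16274964672, [(nat_lit 6, nat_lit 18423234753), (nat_lit 112, nat_lit 19496976576), (nat_lit 53, nat_lit 19496714433), (nat_lit 100, nat_lit 20570456256), (nat_lit 45, nat_lit 20570194113), (nat_lit 102, nat_lit 21643935936), (nat_lit 77, nat_lit 21643673793), (nat_lit 36, nat_lit 22717415616)]⟩,
   ⟨V6_16274960577, [(nat_lit 112, nat_lit 18423234753), (nat_lit 89, nat_lit 19496972481), (nat_lit 97, nat_lit 19496714433), (nat_lit 29, nat_lit 20570452161), (nat_lit 104, nat_lit 20570194113), (nat_lit 52, nat_lit 21643931841), (nat_lit 60, nat_lit 21643673793), (nat_lit 40, nat_lit 22717411521)]⟩],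
  [W_18372898880, W_17315934272, W_16242196544, W_16225415360, W_15201747008, W_15185231936, W_15168454784, W_15168450752, W_14128267328, W_14111486144, W_13054525568]⟩
theorem C_18423234753 : chkRec R_18423234753 = true := by decide +kernel

noncomputable def R_18423234816 : Rec := ⟨nat_lit 18423234816, nat_lit 65,
  [⟨V6_18422448192, [(nat_lit 105, nat_lit 18423234816), (nat_lit 8, nat_lit 19496976576), (nat_lit 33, nat_lit 19496714496), (nat_lit 43, nat_lit 20570718336), (nat_lit 51, nat_lit 20570456256), (nat_lit 121, nat_lit 20570194176), (nat_lit 66, nat_lit 21644460096), (nat_lit 8, nat_lit 21644198016), (nat_lit 64, nat_lit 21643935936), (nat_lit 63, nat_lit 21643673856), (nat_lit 110, nat_lit 22717939776), (nat_lit 42, nat_lit 22717677696), (nat_lit 6, nat_lit 22717415616), (nat_lit 86, nat_lit 23791419456), (nat_lit 55, nat_lit 23791157376), (nat_lit 46, nat_lit 24864899136)]⟩,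
   ⟨V6_17331929280, [(nat_lit 1, nat_lit 18423234816), (nat_lit 37, nat_lit 19496976576), (nat_lit 28, nat_lit 19496714496), (nat_lit 120, nat_lit 19480199424), (nat_lit 42, nat_lit 20570456256), (nat_lit 103, nat_lit 20570194176), (nat_lit 114, nat_lit 20553941184), (nat_lit 28, nat_lit 20553679104), (nat_lit 114, nat_lit 21643935936), (nat_lit 3, nat_lit 21643673856), (nat_lit 33, nat_lit 21627420864), (nat_lit 102, nat_lit 21627158784), (nat_lit 107, nat_lit 22717415616), (nat_lit 23, nat_lit 22700900544), (nat_lit 103, nat_lit 22700638464), (nat_lit 35, nat_lit 23774380224)]⟩,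
   ⟨V6_16274964672, [(nat_lit 27, nat_lit 18423234816), (nat_lit 118, nat_lit 19496976576), (nat_lit 62, nat_lit 19496714496), (nat_lit 109, nat_lit 20570456256), (nat_lit 116, nat_lit 20570194176), (nat_lit 37, nat_lit 21643935936), (nat_lit 66, nat_lit 21643673856), (nat_lit 36, nat_lit 22717415616)]⟩],
  [W_18372902912, W_17315938304, W_17299161152, W_15202009088, W_15185231936, W_15168454784, W_14128267328, W_14111490176, W_13054525568, W_13020971264, W_10907042048]⟩
theorem C_18423234816 : chkRec R_18423234816 = true := by decide +kernel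

noncomputable def R_18423238785 : Rec := ⟨nat_lit 18423238785, nat_lit 79,
  [⟨V6_18389672064, [(nat_lit 116, nat_lit 18423238785), (nat_lit 2, nat_lit 19496980608), (nat_lit 125, nat_lit 19496976513), (nat_lit 29, nat_lit 19480203393), (nat_lit 36, nat_lit 20570718336), (nat_lit 51, nat_lit 20570714241), (nat_lit 16, nat_lit 20553945216), (nat_lit 104, nat_lit 20553941121), (nat_lit 105, nat_lit 20537168001), (nat_lit 28, nat_lit 21644456064), (nat_lit 23, nat_lit 21644451969), (nat_lit 40, nat_lit 21627682944), (nat_lit 112, nat_lit 21627678849), (nat_lit 9, nat_lit 21610909824), (nat_lit 72, nat_lit 21610905729), (nat_lit 48, nat_lit 22718193792), (nat_lit 110, nat_lit 22701420672), (nat_lit 87, nat_lit 22701416577), (nat_lit 5, nat_lit 22684647552), (nat_lit 1, nat_lit 22684643457), (nat_lit 73, nat_lit 23775158400), (nat_lit 61, nat_lit 23758385280), (nat_lit 82, nat_lit 23758381185), (nat_lit 120, nat_lit 24832123008)]⟩,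
   ⟨V6_18372898881, [(nat_lit 25, nat_lit 18423238785), (nat_lit 26, nat_lit 19496980545), (nat_lit 123, nat_lit 19496976513), (nat_lit 17, nat_lit 19480203393), (nat_lit 108, nat_lit 20570718273), (nat_lit 19, nat_lit 20570714241), (nat_lit 87, nat_lit 20553945153), (nat_lit 73, nat_lit 20553941121), (nat_lit 69, nat_lit 20537168001), (nat_lit 42, nat_lit 21644456001), (nat_lit 16, nat_lit 21627682881), (nat_lit 61, nat_lit 21627678849), (nat_lit 11, nat_lit 21610909761), (nat_lit 26, nat_lit 21610905729), (nat_lit 115, nat_lit 21594132609), (nat_lit 22, nat_lit 22701420609), (nat_lit 47, nat_lit 22684647489), (nat_lit 93, nat_lit 22684643457), (nat_lit 90, nat_lit 22667874369), (nat_lit 91, nat_lit 22667870337), (nat_lit 20, nat_lit 23758385217), (nat_lit 34, nat_lit 23741612097), (nat_lit 30, nat_lit 23741608065), (nat_lit 111, nat_lit 24815349825)]⟩,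
   ⟨V6_17315930241, [(nat_lit 53, nat_lit 18423238785), (nat_lit 107, nat_lit 19496976513), (nat_lit 108, nat_lit 19480203393), (nat_lit 73, nat_lit 20570714241), (nat_lit 83, nat_lit 20553941121), (nat_lit 113, nat_lit 20537168001), (nat_lit 83, nat_lit 21644451969), (nat_lit 68, nat_lit 21627678849), (nat_lit 99, nat_lit 21610905729), (nat_lit 18, nat_lit 22701416577), (nat_lit 74, nat_lit 22684643457), (nat_lit 85, nat_lit 23758381185)]⟩,
   ⟨V6_17299165248, [(nat_lit 40, nat_lit 18423238785), (nat_lit 2, nat_lit 19496980608), (nat_lit 30, nat_lit 19496980545), (nat_lit 36, nat_lit 19480203393), (nat_lit 2, nat_lit 20570722368), (nat_lit 83, nat_lit 20553945216), (nat_lit 5, nat_lit 20553945153), (nat_lit 113, nat_lit 20537168001), (nat_lit 53, nat_lit 21627686976), (nat_lit 27, nat_lit 21610909824), (nat_lit 14, nat_lit 21610909761), (nat_lit 76, nat_lit 21594132609), (nat_lit 91, nat_lit 22684651584), (nat_lit 118, nat_lit 22667874432), (nat_lit 31, nat_lit 22667874369), (nat_lit 82, nat_lit 23741616192)]⟩,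
   ⟨V6_17299161153, [(nat_lit 118, nat_lit 18423238785), (nat_lit 76, nat_lit 19496980545), (nat_lit 85, nat_lit 19496976513), (nat_lit 107, nat_lit 19480203393), (nat_lit 34, nat_lit 20570718273), (nat_lit 48, nat_lit 20553945153), (nat_lit 67, nat_lit 20553941121), (nat_lit 29, nat_lit 20537168001), (nat_lit 52, nat_lit 21627682881), (nat_lit 49, nat_lit 21610909761), (nat_lit 104, nat_lit 21610905729), (nat_lit 1, nat_lit 21594132609), (nat_lit 80, nat_lit 22684647489), (nat_lit 113, nat_lit 22667874369), (nat_lit 103, nat_lit 22667870337), (nat_lit 79, nat_lit 23741612097)]⟩,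
   ⟨V6_16225423425, [(nat_lit 9, nat_lit 18423238785), (nat_lit 36, nat_lit 19496980545), (nat_lit 15, nat_lit 19480203393), (nat_lit 124, nat_lit 20553945153), (nat_lit 71, nat_lit 20537168001), (nat_lit 87, nat_lit 21610909761), (nat_lit 116, nat_lit 21594132609), (nat_lit 34, nat_lit 22667874369)]⟩],
  [W_18406187072, W_18372898880, W_18372640832, W_17315934272, W_16242196544, W_15202001024, W_15201747008, W_15201488960, W_15185231936, W_14127747200, W_13054529600, W_13054267520, W_11980787840]⟩
theorem C_18423238785 : chkRec R_18423238785 = true := by decide +kernel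

noncomputable def R_18423238848 : Rec := ⟨nat_lit 18423238848, nat_lit 123,
  [⟨V6_18405937152, [(nat_lit 27, nat_lit 18423238848), (nat_lit 97, nat_lit 19496980608), (nat_lit 110, nat_lit 19496718528), (nat_lit 4, nat_lit 19480203456), (nat_lit 35, nat_lit 20570722368), (nat_lit 92, nat_lit 20570460288), (nat_lit 58, nat_lit 20570198208), (nat_lit 32, nat_lit 20553945216), (nat_lit 124, nat_lit 20553683136), (nat_lit 10, nat_lit 21644464128), (nat_lit 58, nat_lit 21644202048), (nat_lit 64, nat_lit 21643939968), (nat_lit 95, nat_lit 21627686976), (nat_lit 37, nat_lit 21627424896), (nat_lit 20, nat_lit 21627162816), (nat_lit 56, nat_lit 22717943808), (nat_lit 74, nat_lit 22717681728), (nat_lit 81, nat_lit 22701428736), (nat_lit 76, nat_lit 22701166656), (nat_lit 117, nat_lit 22700904576), (nat_lit 116, nat_lit 23791423488), (nat_lit 113, nat_lit 23774908416), (nat_lit 74, nat_lit 23774646336), (nat_lit 28, nat_lit 24848388096)]⟩,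
   ⟨V6_18389422080, [(nat_lit 20, nat_lit 18423238848), (nat_lit 49, nat_lit 19496980608), (nat_lit 35, nat_lit 19496718528), (nat_lit 41, nat_lit 19480203456), (nat_lit 17, nat_lit 20570722368), (nat_lit 12, nat_lit 20570460288), (nat_lit 54, nat_lit 20553945216), (nat_lit 85, nat_lit 20553683136), (nat_lit 18, nat_lit 20537168064), (nat_lit 9, nat_lit 21644464128), (nat_lit 36, nat_lit 21644202048), (nat_lit 89, nat_lit 21627686976), (nat_lit 124, nat_lit 21627424896), (nat_lit 35, nat_lit 21610909824), (nat_lit 114, nat_lit 21610647744), (nat_lit 93, nat_lit 22717943808), (nat_lit 58, nat_lit 22701428736), (nat_lit 83, nat_lit 22701166656), (nat_lit 8, nat_lit 22684651584), (nat_lit 101, nat_lit 22684389504), (nat_lit 120, nat_lit 23774908416), (nat_lit 22, nat_lit 23758393344), (nat_lit 104, nat_lit 23758131264), (nat_lit 95, nat_lit 24831873024)]⟩,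
   ⟨V6_18372907008, [(nat_lit 15, nat_lit 18423238848), (nat_lit 37, nat_lit 19496980608), (nat_lit 75, nat_lit 19480203456), (nat_lit 16, nat_lit 20570722368), (nat_lit 65, nat_lit 20553945216), (nat_lit 37, nat_lit 20537168064), (nat_lit 99, nat_lit 21644464128), (nat_lit 105, nat_lit 21627686976), (nat_lit 102, nat_lit 21610909824), (nat_lit 101, nat_lit 21594132672), (nat_lit 29, nat_lit 22701428736), (nat_lit 27, nat_lit 22684651584), (nat_lit 106, nat_lit 22667874432), (nat_lit 80, nat_lit 23758393344), (nat_lit 61, nat_lit 23741616192), (nat_lit 11, nat_lit 24815357952)]⟩,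
   ⟨V6_17315942400, [(nat_lit 123, nat_lit 18423238848), (nat_lit 38, nat_lit 19496980608), (nat_lit 73, nat_lit 19480203456), (nat_lit 69, nat_lit 20570722368), (nat_lit 91, nat_lit 20553945216), (nat_lit 105, nat_lit 20537168064), (nat_lit 26, nat_lit 21644464128), (nat_lit 28, nat_lit 21627686976), (nat_lit 55, nat_lit 21610909824), (nat_lit 106, nat_lit 22701428736), (nat_lit 54, nat_lit 22684651584), (nat_lit 56, nat_lit 23758393344)]⟩,
   ⟨V6_17299165248, [(nat_lit 52, nat_lit 18423238848), (nat_lit 114, nat_lit 19496980608), (nat_lit 83, nat_lit 19480203456), (nat_lit 92, nat_lit 20570722368), (nat_lit 124, nat_lit 20553945216), (nat_lit 91, nat_lit 20537168064), (nat_lit 81, nat_lit 21627686976), (nat_lit 116, nat_lit 21610909824), (nat_lit 70, nat_lit 21594132672), (nat_lit 46, nat_lit 22684651584), (nat_lit 28, nat_lit 22667874432), (nat_lit 35, nat_lit 23741616192)]⟩],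
  [W_18389676032, W_18389417984, W_18372898880, W_18372374720, W_17315938304, W_16275230720, W_16242196544, W_15202009088, W_15201747008, W_15185231936, W_15184969856, W_14128001216, W_14110970048, W_13054521536, W_13054263488, W_11980787840, W_11980783808, W_11980525760, W_11964010688]⟩
theorem C_18423238848 : chkRec R_18423238848 = true := by decide +kernel

noncomputable def R_18423242817 : Rec := ⟨nat_lit 18423242817, nat_lit 49,
  [⟨V6_18423222336, [(nat_lit 34, nat_lit 18423242817), (nat_lit 60, nat_lit 19496984640), (nat_lit 115, nat_lit 19496980545), (nat_lit 12, nat_lit 20570722368), (nat_lit 58, nat_lit 20570718273), (nat_lit 100, nat_lit 21644460096), (nat_lit 60, nat_lit 21644456001), (nat_lit 99, nat_lit 22718197824), (nat_lit 81, nat_lit 22718193729), (nat_lit 107, nat_lit 23791935552), (nat_lit 29, nat_lit 23791931457), (nat_lit 126, nat_lit 24865673280)]⟩,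
   ⟨V6_16225165377, [(nat_lit 69, nat_lit 18423242817), (nat_lit 60, nat_lit 19496722497), (nat_lit 18, nat_lit 19480207425), (nat_lit 94, nat_lit 20553687105), (nat_lit 34, nat_lit 20537172033), (nat_lit 41, nat_lit 21610651713), (nat_lit 80, nat_lit 21594136641), (nat_lit 34, nat_lit 22667616321)]⟩,
   ⟨V6_15151685697, [(nat_lit 12, nat_lit 18423242817), (nat_lit 107, nat_lit 19480207425), (nat_lit 12, nat_lit 20537172033), (nat_lit 9, nat_lit 21594136641)]⟩],
  [W_18372640832, W_17315934272, W_16242196544, W_15201747008, W_15185231936, W_13054529600, W_11980791872]⟩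
theorem C_18423242817 : chkRec R_18423242817 = true := by decide +kernel

noncomputable def R_18423242880 : Rec := ⟨nat_lit 18423242880, nat_lit 136,
  [⟨V6_18423226368, [(nat_lit 4, nat_lit 18423242880), (nat_lit 95, nat_lit 19496984640), (nat_lit 79, nat_lit 19496980608), (nat_lit 122, nat_lit 20570726400), (nat_lit 19, nat_lit 20570722368), (nat_lit 6, nat_lit 20570718336), (nat_lit 28, nat_lit 21644464128), (nat_lit 116, nat_lit 21644460096), (nat_lit 51, nat_lit 21644456064), (nat_lit 109, nat_lit 22718201856), (nat_lit 125, nat_lit 22718197824), (nat_lit 50, nat_lit 22718193792), (nat_lit 45, nat_lit 23791939584), (nat_lit 53, nat_lit 23791935552), (nat_lit 111, nat_lit 24865677312)]⟩,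
   ⟨V6_17299169280, [(nat_lit 35, nat_lit 18423242880), (nat_lit 35, nat_lit 19496984640), (nat_lit 119, nat_lit 19480207488), (nat_lit 4, nat_lit 20570726400), (nat_lit 102, nat_lit 20553949248), (nat_lit 28, nat_lit 20537172096), (nat_lit 65, nat_lit 21627691008), (nat_lit 5, nat_lit 21610913856), (nat_lit 33, nat_lit 21594136704), (nat_lit 7, nat_lit 22684655616), (nat_lit 38, nat_lit 22667878464), (nat_lit 64, nat_lit 23741620224)]⟩,
   ⟨V6_16258719744, [(nat_lit 7, nat_lit 18423242880), (nat_lit 60, nat_lit 19496984640), (nat_lit 29, nat_lit 19496722560), (nat_lit 72, nat_lit 19480207488), (nat_lit 27, nat_lit 20570726400), (nat_lit 95, nat_lit 20570464320), (nat_lit 78, nat_lit 20553949248), (nat_lit 17, nat_lit 20553687168), (nat_lit 116, nat_lit 21644206080), (nat_lit 100, nat_lit 21627691008), (nat_lit 64, nat_lit 21627428928), (nat_lit 71, nat_lit 22701170688)]⟩,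
   ⟨V6_16242204672, [(nat_lit 114, nat_lit 18423242880), (nat_lit 10, nat_lit 19496984640), (nat_lit 109, nat_lit 19480207488), (nat_lit 69, nat_lit 20570726400), (nat_lit 97, nat_lit 20553949248), (nat_lit 99, nat_lit 20537172096), (nat_lit 42, nat_lit 21627691008), (nat_lit 82, nat_lit 21610913856), (nat_lit 54, nat_lit 22684655616)]⟩],
  [W_18389676032, W_18389417984, W_18372898880, W_18372640832, W_17315938304, W_17315934272, W_17298907136, W_17298899072, W_16242196544, W_15202009088, W_15202001024, W_15201747008, W_15185231936, W_15184969856, W_14128013312]⟩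
theorem C_18423242880 : chkRec R_18423242880 = true := by decide +kernel

noncomputable def R_18423246912 : Rec := ⟨nat_lit 18423246912, nat_lit 57,
  [⟨V6_18423222336, [(nat_lit 11, nat_lit 18423246912), (nat_lit 102, nat_lit 19496984640), (nat_lit 16, nat_lit 20570722368), (nat_lit 107, nat_lit 21644460096), (nat_lit 44, nat_lit 22718197824), (nat_lit 37, nat_lit 23791935552), (nat_lit 61, nat_lit 24865673280)]⟩,
   ⟨V6_17299169280, [(nat_lit 88, nat_lit 18423246912), (nat_lit 81, nat_lit 19496988672), (nat_lit 92, nat_lit 19496984640), (nat_lit 4, nat_lit 19480211520), (nat_lit 120, nat_lit 20570726400), (nat_lit 62, nat_lit 20553953280), (nat_lit 115, nat_lit 20553949248), (nat_lit 88, nat_lit 20537176128), (nat_lit 80, nat_lit 21627691008), (nat_lit 8, nat_lit 21610917888), (nat_lit 74, nat_lit 21610913856), (nat_lit 41, nat_lit 21594140736), (nat_lit 67, nat_lit 22684655616), (nat_lit 84, nat_lit 22667882496), (nat_lit 81, nat_lit 22667878464), (nat_lit 85, nat_lit 23741620224)]⟩,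
   ⟨V6_16225427520, [(nat_lit 63, nat_lit 18423246912), (nat_lit 31, nat_lit 19496984640), (nat_lit 52, nat_lit 19480211520), (nat_lit 113, nat_lit 20553949248), (nat_lit 18, nat_lit 20537176128), (nat_lit 30, nat_lit 21610913856), (nat_lit 75, nat_lit 21594140736), (nat_lit 93, nat_lit 22667878464)]⟩],
  [W_18389676032, W_17315938304, W_15202009088, W_15185231936, W_11980795904, W_11980791872]⟩
theorem C_18423246912 : chkRec R_18423246912 = true := by decide +kernel

noncomputable def R_18423492738 : Rec := ⟨nat_lit 18423492738, nat_lit 22,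
  [⟨V6_15202263168, [(nat_lit 96, nat_lit 18423492738), (nat_lit 102, nat_lit 19497234561), (nat_lit 59, nat_lit 19497230466), (nat_lit 12, nat_lit 20570976384), (nat_lit 10, nat_lit 20570972289), (nat_lit 66, nat_lit 21644714112)]⟩],
  [W_18422440064, W_18405924992, W_18405666944, W_18389409920, W_18389151872, W_16242192512]⟩
theorem C_18423492738 : chkRec R_18423492738 = true := by decide +kernel

noncomputable def R_18423492801 : Rec := ⟨nat_lit 18423492801, nat_lit 32,
  [⟨V6_15202267200, [(nat_lit 113, nat_lit 18423492801), (nat_lit 50, nat_lit 19497234624), (nat_lit 103, nat_lit 19497234561), (nat_lit 42, nat_lit 20570976384), (nat_lit 116, nat_lit 20570976321), (nat_lit 68, nat_lit 21644718144)]⟩],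
  [W_18405666944, W_18389413952, W_18389151872, W_17331925184, W_17315934272, W_16241930432, W_15168450752, W_14111486144]⟩
theorem C_18423492801 : chkRec R_18423492801 = true := by decide +kernel

noncomputable def R_18423496833 : Rec := ⟨nat_lit 18423496833, nat_lit 92,
  [⟨V6_18422448192, [(nat_lit 117, nat_lit 18423496833), (nat_lit 101, nat_lit 19497238656), (nat_lit 23, nat_lit 19497238593), (nat_lit 93, nat_lit 19496976513), (nat_lit 12, nat_lit 20570980416), (nat_lit 98, nat_lit 20570718336), (nat_lit 125, nat_lit 20570718273), (nat_lit 117, nat_lit 20570456193), (nat_lit 55, nat_lit 21644460096), (nat_lit 60, nat_lit 21644198016), (nat_lit 85, nat_lit 21644197953), (nat_lit 24, nat_lit 21643935873), (nat_lit 82, nat_lit 22717939776), (nat_lit 17, nat_lit 22717677696), (nat_lit 124, nat_lit 22717677633), (nat_lit 99, nat_lit 22717415553), (nat_lit 103, nat_lit 23791419456), (nat_lit 19, nat_lit 23791157376), (nat_lit 1, nat_lit 23791157313), (nat_lit 114, nat_lit 24864899136)]⟩,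
   ⟨V6_18405671040, [(nat_lit 57, nat_lit 18423496833), (nat_lit 45, nat_lit 19497238656), (nat_lit 33, nat_lit 19496976513), (nat_lit 118, nat_lit 19480461441), (nat_lit 33, nat_lit 20570718336), (nat_lit 1, nat_lit 20570456193), (nat_lit 40, nat_lit 20554203264), (nat_lit 5, nat_lit 20553941121), (nat_lit 28, nat_lit 21644198016), (nat_lit 121, nat_lit 21643935873), (nat_lit 33, nat_lit 21627682944), (nat_lit 72, nat_lit 21627420801), (nat_lit 41, nat_lit 22717677696), (nat_lit 86, nat_lit 22717415553), (nat_lit 123, nat_lit 22701162624), (nat_lit 58, nat_lit 22700900481), (nat_lit 103, nat_lit 23791157376), (nat_lit 102, nat_lit 23774642304), (nat_lit 121, nat_lit 23774380161), (nat_lit 27, nat_lit 24848121984)]⟩,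
   ⟨V6_17316192384, [(nat_lit 64, nat_lit 18423496833), (nat_lit 117, nat_lit 19497238656), (nat_lit 115, nat_lit 19497234561), (nat_lit 44, nat_lit 19480461441), (nat_lit 123, nat_lit 20570976384), (nat_lit 24, nat_lit 20570972289), (nat_lit 34, nat_lit 20554203264), (nat_lit 40, nat_lit 20554199169), (nat_lit 117, nat_lit 20537426049), (nat_lit 17, nat_lit 21644714112), (nat_lit 88, nat_lit 21627940992), (nat_lit 46, nat_lit 21627936897), (nat_lit 69, nat_lit 21611167872), (nat_lit 9, nat_lit 21611163777), (nat_lit 69, nat_lit 22701678720), (nat_lit 102, nat_lit 22684905600), (nat_lit 123, nat_lit 22684901505), (nat_lit 73, nat_lit 23758643328)]⟩],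
  [W_17316192320, W_17315934272, W_16242454592, W_16242450560, W_16242196544, W_15202001024, W_15201747008, W_15185231936, W_15168716864, W_14128525376, W_14128267328, W_13054787648, W_11981045888]⟩
theorem C_18423496833 : chkRec R_18423496833 = true := by decide +kernel

noncomputable def R_18423496896 : Rec := ⟨nat_lit 18423496896, nat_lit 131,
  [⟨V6_17331929280, [(nat_lit 43, nat_lit 18423496896), (nat_lit 102, nat_lit 19496976576), (nat_lit 96, nat_lit 19480461504), (nat_lit 47, nat_lit 20570456256), (nat_lit 14, nat_lit 20553941184), (nat_lit 91, nat_lit 21643935936), (nat_lit 19, nat_lit 21627420864), (nat_lit 70, nat_lit 22717415616), (nat_lit 124, nat_lit 22700900544), (nat_lit 6, nat_lit 23774380224)]⟩,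
   ⟨V6_17316200448, [(nat_lit 8, nat_lit 18423496896), (nat_lit 51, nat_lit 19497238656), (nat_lit 108, nat_lit 19480461504), (nat_lit 116, nat_lit 20570980416), (nat_lit 72, nat_lit 20554203264), (nat_lit 44, nat_lit 20537426112), (nat_lit 75, nat_lit 21644722176), (nat_lit 71, nat_lit 21627945024), (nat_lit 17, nat_lit 21611167872), (nat_lit 42, nat_lit 22701686784), (nat_lit 19, nat_lit 22684909632), (nat_lit 15, nat_lit 23758651392)]⟩,
   ⟨V6_16276008960, [(nat_lit 85, nat_lit 18423496896), (nat_lit 33, nat_lit 19497238656), (nat_lit 79, nat_lit 19497234624), (nat_lit 121, nat_lit 20570980416), (nat_lit 14, nat_lit 20570976384), (nat_lit 92, nat_lit 21644722176), (nat_lit 26, nat_lit 21644718144), (nat_lit 63, nat_lit 22718459904)]⟩,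
   ⟨V6_16274964672, [(nat_lit 22, nat_lit 18423496896), (nat_lit 61, nat_lit 19496976576), (nat_lit 125, nat_lit 20570456256), (nat_lit 122, nat_lit 21643935936), (nat_lit 1, nat_lit 22717415616)]⟩],
  [W_18422448128, W_18389676032, W_18389417984, W_17348706368, W_17316196352, W_17315938304, W_16242458624, W_15202009088, W_15201747008, W_15185494016, W_15168716864, W_10907304128]⟩
theorem C_18423496896 : chkRec R_18423496896 = true := by decide +kernel

noncomputable def R_18423500865 : Rec := ⟨nat_lit 18423500865, nat_lit 67,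
  [⟨V6_17332965441, [(nat_lit 8, nat_lit 18423500865), (nat_lit 103, nat_lit 19497238593), (nat_lit 89, nat_lit 19480465473), (nat_lit 39, nat_lit 20570976321), (nat_lit 37, nat_lit 20554203201), (nat_lit 119, nat_lit 21644714049), (nat_lit 76, nat_lit 21627940929), (nat_lit 23, nat_lit 22718451777), (nat_lit 78, nat_lit 22701678657), (nat_lit 116, nat_lit 23775416385)]⟩,
   ⟨V6_16276004928, [(nat_lit 21, nat_lit 18423500865), (nat_lit 40, nat_lit 19497242688), (nat_lit 103, nat_lit 19497238593), (nat_lit 10, nat_lit 20570980416), (nat_lit 79, nat_lit 20570976321), (nat_lit 42, nat_lit 21644718144), (nat_lit 59, nat_lit 21644714049), (nat_lit 55, nat_lit 22718455872)]⟩],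
  [W_18406187072, W_18389930048, W_18389413952, W_17315934272, W_17315418176, W_16242196544, W_15201747008, W_15201488960, W_15168716864, W_14094979136]⟩
theorem C_18423500865 : chkRec R_18423500865 = true := by decide +kernel

noncomputable def R_18423500928 : Rec := ⟨nat_lit 18423500928, nat_lit 189,
  [⟨V6_18423226368, [(nat_lit 67, nat_lit 18423500928), (nat_lit 17, nat_lit 19497242688), (nat_lit 43, nat_lit 19497238656), (nat_lit 33, nat_lit 19496980608), (nat_lit 24, nat_lit 20570984448), (nat_lit 22, nat_lit 20570980416), (nat_lit 83, nat_lit 20570976384), (nat_lit 3, nat_lit 20570722368), (nat_lit 95, nat_lit 20570718336), (nat_lit 122, nat_lit 21644722176), (nat_lit 81, nat_lit 21644718144), (nat_lit 125, nat_lit 21644714112), (nat_lit 14, nat_lit 21644464128), (nat_lit 40, nat_lit 21644460096), (nat_lit 41, nat_lit 21644456064), (nat_lit 15, nat_lit 22718459904), (nat_lit 28, nat_lit 22718455872), (nat_lit 11, nat_lit 22718201856), (nat_lit 113, nat_lit 22718197824), (nat_lit 121, nat_lit 22718193792), (nat_lit 27, nat_lit 23792197632), (nat_lit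 45, nat_lit 23791939584), (nat_lit 43, nat_lit 23791935552), (nat_lit 18, nat_lit 24865677312)]⟩,
   ⟨V6_18406711296, [(nat_lit 3, nat_lit 18423500928), (nat_lit 42, nat_lit 19497242688), (nat_lit 81, nat_lit 19497238656), (nat_lit 117, nat_lit 19480465536), (nat_lit 35, nat_lit 20570984448), (nat_lit 92, nat_lit 20570980416), (nat_lit 98, nat_lit 20570976384), (nat_lit 7, nat_lit 20554207296), (nat_lit 26, nat_lit 20554203264), (nat_lit 34, nat_lit 21644722176), (nat_lit 97, nat_lit 21644718144), (nat_lit 34, nat_lit 21644714112), (nat_lit 116, nat_lit 21627949056), (nat_lit 28, nat_lit 21627945024), (nat_lit 83, nat_lit 21627940992), (nat_lit 71, nat_lit 22718459904), (nat_lit 25, nat_lit 22718455872), (nat_lit 60, nat_lit 22701686784), (nat_lit 103, nat_lit 22701682752), (nat_lit 8, nat_lit 22701678720), (nat_lit 116, nat_lit 23792197632), (nat_lit 54, nat_lit 23775424512), (nat_lit 52, nat_lit 23775420480), (nat_lit 43, nat_lit 24849162240)]⟩,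
   ⟨V6_17349746688, [(nat_lit 126, nat_lit 18423500928), (nat_lit 83, nat_lit 19497242688), (nat_lit 123, nat_lit 19497238656), (nat_lit 89, nat_lit 20570984448), (nat_lit 7, nat_lit 20570980416), (nat_lit 103, nat_lit 20570976384), (nat_lit 71, nat_lit 21644722176), (nat_lit 79, nat_lit 21644718144), (nat_lit 113, nat_lit 21644714112), (nat_lit 54, nat_lit 22718459904), (nat_lit 5, nat_lit 22718455872), (nat_lit 79, nat_lit 23792197632)]⟩],
  [W_18389934080, W_18389676032, W_18389159936, W_17315938304, W_16242458624, W_16242450560, W_16242196544, W_16242192512, W_16241676416, W_15202009088, W_15201747008, W_15201488960, W_15185485952, W_15185231936, W_15168720896, W_15168716864, W_15168712832, W_15168458816, W_15168454784, W_15168196736, W_14128267328, W_14128263296, W_14127747200, W_14111494208, W_14111232128, W_14094979136, W_14094717056, W_13054267520, W_13037752448, W_13021237376, W_11980787840, W_11964272768, W_10907308160]⟩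
theorem C_18423500928 : chkRec R_18423500928 = true := by decide +kernel

noncomputable def R_18423504960 : Rec := ⟨nat_lit 18423504960, nat_lit 165,
  [⟨V6_18406711296, [(nat_lit 60, nat_lit 18423504960), (nat_lit 41, nat_lit 19497246720), (nat_lit 8, nat_lit 19497242688), (nat_lit 26, nat_lit 19480469568), (nat_lit 84, nat_lit 20570984448), (nat_lit 61, nat_lit 20570980416), (nat_lit 71, nat_lit 20554211328), (nat_lit 13, nat_lit 20554207296), (nat_lit 56, nat_lit 21644722176), (nat_lit 120, nat_lit 21644718144), (nat_lit 22, nat_lit 21627949056), (nat_lit 83, nat_lit 21627945024), (nat_lit 3, nat_lit 22718459904), (nat_lit 26, nat_lit 22718455872), (nat_lit 82, nat_lit 22701686784), (nat_lit 47, nat_lit 22701682752), (nat_lit 119, nat_lit 23792197632), (nat_lit 109, nat_lit 23775424512), (nat_lit 65, nat_lit 23775420480), (nat_lit 74, nat_lit 24849162240)]⟩,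
   ⟨V6_18406707264, [(nat_lit 51, nat_lit 18423504960), (nat_lit 98, nat_lit 19497242688), (nat_lit 58, nat_lit 19480469568), (nat_lit 33, nat_lit 20570980416), (nat_lit 22, nat_lit 20554207296), (nat_lit 55, nat_lit 21644718144), (nat_lit 79, nat_lit 21627945024), (nat_lit 2, nat_lit 22718455872), (nat_lit 80, nat_lit 22701682752), (nat_lit 28, nat_lit 23792193600), (nat_lit 93, nat_lit 23775420480), (nat_lit 49, nat_lit 24849158208)]⟩,
   ⟨V6_17349746688, [(nat_lit 25, nat_lit 18423504960), (nat_lit 61, nat_lit 19497246720), (nat_lit 40, nat_lit 19497242688), (nat_lit 112, nat_lit 20570984448), (nat_lit 64, nat_lit 20570980416), (nat_lit 102, nat_lit 21644722176), (nat_lit 65, nat_lit 21644718144), (nat_lit 47, nat_lit 22718459904), (nat_lit 56, nat_lit 22718455872), (nat_lit 69, nat_lit 23792197632)]⟩,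
   ⟨V6_17349742656, [(nat_lit 53, nat_lit 18423504960), (nat_lit 109, nat_lit 19497242688), (nat_lit 95, nat_lit 20570980416), (nat_lit 88, nat_lit 21644718144), (nat_lit 102, nat_lit 22718455872), (nat_lit 78, nat_lit 23792193600)]⟩],
  [W_18389676032, W_17316196352, W_17315938304, W_17315934272, W_16242458624, W_16242454592, W_16242196544, W_15201747008, W_15185231936, W_15168720896, W_15168716864, W_15168462848, W_15168458816, W_15168200768, W_14128267328, W_14111494208, W_14111236160, W_14094983168, W_14094979136, W_14094721088, W_13054271552, W_13021241408, W_11981053952, W_11981049920, W_11980791872, W_11964276800, W_10907312192]⟩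
theorem C_18423504960 : chkRec R_18423504960 = true := by decide +kernel

noncomputable def R_18423508992 : Rec := ⟨nat_lit 18423508992, nat_lit 72,
  [⟨V6_18423484416, [(nat_lit 14, nat_lit 18423508992), (nat_lit 49, nat_lit 19497246720), (nat_lit 55, nat_lit 20570984448), (nat_lit 90, nat_lit 21644722176), (nat_lit 56, nat_lit 22718459904), (nat_lit 24, nat_lit 23792197632), (nat_lit 43, nat_lit 24865935360)]⟩,
   ⟨V6_15168724992, [(nat_lit 30, nat_lit 18423508992), (nat_lit 96, nat_lit 19497246720), (nat_lit 87, nat_lit 19480473600), (nat_lit 36, nat_lit 20554211328), (nat_lit 15, nat_lit 20537438208), (nat_lit 11, nat_lit 21611175936)]⟩],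
  [W_18406707200, W_18389934080, W_18389676032, W_17315938304, W_15202009088]⟩
theorem C_18423508992 : chkRec R_18423508992 = true := by decide +kernel

noncomputable def R_18423750786 : Rec := ⟨nat_lit 18423750786, nat_lit 7,
  [⟨V6_14112006273, [(nat_lit 111, nat_lit 18423750786), (nat_lit 116, nat_lit 19497492609), (nat_lit 3, nat_lit 19480715394), (nat_lit 90, nat_lit 20554457217)]⟩,
   ⟨V6_13054779522, [(nat_lit 122, nat_lit 18423750786), (nat_lit 60, nat_lit 19497230466)]⟩],
  [W_18422440064, W_18405924992]⟩
theorem C_18423750786 : chkRec R_18423750786 = true := by decide +kernel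

noncomputable def R_18423754881 : Rec := ⟨nat_lit 18423754881, nat_lit 49,
  [⟨V6_15202263168, [(nat_lit 84, nat_lit 18423754881), (nat_lit 56, nat_lit 19497496704), (nat_lit 57, nat_lit 19497492609), (nat_lit 74, nat_lit 19497234561), (nat_lit 49, nat_lit 20571234432), (nat_lit 6, nat_lit 20570976384), (nat_lit 42, nat_lit 20570972289), (nat_lit 51, nat_lit 21644714112)]⟩,
   ⟨V6_15185748033, [(nat_lit 120, nat_lit 18423754881), (nat_lit 118, nat_lit 19497496641), (nat_lit 59, nat_lit 19497492609), (nat_lit 68, nat_lit 19480719489), (nat_lit 83, nat_lit 20571234369), (nat_lit 119, nat_lit 20554461249), (nat_lit 81, nat_lit 20554457217), (nat_lit 62, nat_lit 21628198977)]⟩,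
   ⟨V6_14112006273, [(nat_lit 31, nat_lit 18423754881), (nat_lit 24, nat_lit 19497492609), (nat_lit 38, nat_lit 19480719489), (nat_lit 115, nat_lit 20554457217)]⟩],
  [W_18422444096, W_18422440064, W_18406187072, W_18405929024, W_18405924992, W_18405666944, W_15185489984, W_14112010304]⟩
theorem C_18423754881 : chkRec R_18423754881 = true := by decide +kernel

noncomputable def R_18423754944 : Rec := ⟨nat_lit 18423754944, nat_lit 53,
  [⟨V6_16276008960, [(nat_lit 37, nat_lit 18423754944), (nat_lit 92, nat_lit 19497496704), (nat_lit 90, nat_lit 19497234624), (nat_lit 97, nat_lit 20571238464), (nat_lit 92, nat_lit 20570976384), (nat_lit 44, nat_lit 21644980224), (nat_lit 49, nat_lit 21644718144), (nat_lit 45, nat_lit 22718459904)]⟩],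
  [W_18422444096, W_18422182016, W_18405666944, W_17332187264, W_15185752064, W_15185489984, W_14128787456, W_14128001216, W_14112010304, W_14111486144, W_13055045696, W_13054521536, W_13038268544, W_11964526784]⟩
theorem C_18423754944 : chkRec R_18423754944 = true := by decide +kernel

noncomputable def R_18423758913 : Rec := ⟨nat_lit 18423758913, nat_lit 54,
  [⟨V6_18422448192, [(nat_lit 91, nat_lit 18423758913), (nat_lit 3, nat_lit 19497500736), (nat_lit 83, nat_lit 19497238593), (nat_lit 112, nat_lit 20570980416), (nat_lit 21, nat_lit 20570718273), (nat_lit 87, nat_lit 21644460096), (nat_lit 125, nat_lit 21644197953), (nat_lit 22, nat_lit 22717939776), (nat_lit 43, nat_lit 22717677633), (nat_lit 92, nat_lit 23791419456), (nat_lit 23, nat_lit 23791157313), (nat_lit 81, nat_lit 24864899136)]⟩,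
   ⟨V6_17348706369, [(nat_lit 101, nat_lit 18423758913), (nat_lit 14, nat_lit 19497238593), (nat_lit 19, nat_lit 20570718273), (nat_lit 23, nat_lit 21644197953), (nat_lit 99, nat_lit 22717677633), (nat_lit 120, nat_lit 23791157313)]⟩,
   ⟨V6_15185748033, [(nat_lit 79, nat_lit 18423758913), (nat_lit 124, nat_lit 19497496641), (nat_lit 118, nat_lit 19480723521), (nat_lit 81, nat_lit 20571234369), (nat_lit 72, nat_lit 20554461249), (nat_lit 51, nat_lit 21628198977)]⟩],
  [W_17332965440, W_16276000832, W_16259485760, W_15202521152, W_15185748032, W_15185489984, W_15185231936, W_14128783424, W_14128525376, W_14112010304, W_13055045696]⟩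
theorem C_18423758913 : chkRec R_18423758913 = true := by decide +kernel

noncomputable def R_18423758976 : Rec := ⟨nat_lit 18423758976, nat_lit 145,
  [⟨V6_18422448192, [(nat_lit 72, nat_lit 18423758976), (nat_lit 122, nat_lit 19497500736), (nat_lit 52, nat_lit 19497238656), (nat_lit 40, nat_lit 20570980416), (nat_lit 115, nat_lit 20570718336), (nat_lit 19, nat_lit 21644460096), (nat_lit 95, nat_lit 21644198016), (nat_lit 87, nat_lit 22717939776), (nat_lit 102, nat_lit 22717677696), (nat_lit 113, nat_lit 23791419456), (nat_lit 31, nat_lit 23791157376), (nat_lit 71, nat_lit 24864899136)]⟩,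
   ⟨V6_18405671040, [(nat_lit 65, nat_lit 18423758976), (nat_lit 37, nat_lit 19497238656), (nat_lit 80, nat_lit 19480723584), (nat_lit 110, nat_lit 20570718336), (nat_lit 77, nat_lit 20554203264), (nat_lit 2, nat_lit 21644198016), (nat_lit 37, nat_lit 21627682944), (nat_lit 119, nat_lit 22717677696), (nat_lit 86, nat_lit 22701162624), (nat_lit 21, nat_lit 23791157376), (nat_lit 65, nat_lit 23774642304), (nat_lit 15, nat_lit 24848121984)]⟩,
   ⟨V6_17349746688, [(nat_lit 32, nat_lit 18423758976), (nat_lit 93, nat_lit 19497500736), (nat_lit 66, nat_lit 19497496704), (nat_lit 42, nat_lit 19497238656), (nat_lit 55, nat_lit 20571242496), (nat_lit 62, nat_lit 20571238464), (nat_lit 113, nat_lit 20571234432), (nat_lit 84, nat_lit 20570980416), (nat_lit 51, nat_lit 20570976384), (nat_lit 25, nat_lit 21644980224), (nat_lit 62, nat_lit 21644976192), (nat_lit 52, nat_lit 21644722176), (nat_lit 83, nat_lit 21644718144), (nat_lit 45, nat_lit 21644714112), (nat_lit 44, nat_lit 22718717952), (nat_lit 54, nat_lit 22718459904), (nat_lit 8, nat_lit 22718455872), (nat_lit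 64, nat_lit 23792197632)]⟩],
  [W_18422448128, W_16259489792, W_15202525184, W_15202009088, W_15202001024, W_15201747008, W_15185752064, W_15185748032, W_15185494016, W_15185231936, W_14128787456, W_14128783424, W_14128525376, W_14128267328, W_14128263296, W_14112014336, W_14112010304, W_14111748224, W_13055045696, W_13054525568, W_13038272576, W_13038268544, W_11981303936, W_10907566208]⟩
theorem C_18423758976 : chkRec R_18423758976 = true := by decide +kernel

noncomputable def R_18423763008 : Rec := ⟨nat_lit 18423763008, nat_lit 149,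
  [⟨V6_18423484416, [(nat_lit 51, nat_lit 18423763008), (nat_lit 111, nat_lit 19497504768), (nat_lit 45, nat_lit 19497500736), (nat_lit 86, nat_lit 19497242688), (nat_lit 60, nat_lit 20571242496), (nat_lit 16, nat_lit 20571238464), (nat_lit 6, nat_lit 20570984448), (nat_lit 122, nat_lit 20570980416), (nat_lit 3, nat_lit 21644980224), (nat_lit 96, nat_lit 21644976192), (nat_lit 48, nat_lit 21644722176), (nat_lit 78, nat_lit 21644718144), (nat_lit 52, nat_lit 22718717952), (nat_lit 37, nat_lit 22718713920), (nat_lit 9, nat_lit 22718459904), (nat_lit 65, nat_lit 22718455872), (nat_lit 62, nat_lit 23792455680), (nat_lit 64, nat_lit 23792197632), (nat_lit 53, nat_lit 23792193600), (nat_lit 80, nat_lit 24865935360)]⟩,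
   ⟨V6_17349746688, [(nat_lit 118, nat_lit 18423763008), (nat_lit 98, nat_lit 19497504768), (nat_lit 43, nat_lit 19497500736), (nat_lit 79, nat_lit 19497242688), (nat_lit 92, nat_lit 20571242496), (nat_lit 66, nat_lit 20571238464), (nat_lit 123, nat_lit 20570984448), (nat_lit 126, nat_lit 20570980416), (nat_lit 114, nat_lit 21644980224), (nat_lit 22, nat_lit 21644976192), (nat_lit 3, nat_lit 21644722176), (nat_lit 105, nat_lit 21644718144), (nat_lit 11, nat_lit 22718717952), (nat_lit 45, nat_lit 22718459904), (nat_lit 86, nat_lit 22718455872), (nat_lit 46, nat_lit 23792197632)]⟩,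
   ⟨V6_16276262976, [(nat_lit 106, nat_lit 18423763008), (nat_lit 100, nat_lit 19497500736), (nat_lit 123, nat_lit 20571238464), (nat_lit 101, nat_lit 21644976192), (nat_lit 79, nat_lit 22718713920)]⟩],
  [W_18406707200, W_17332195328, W_16275230720, W_16258453568, W_15202525184, W_15202009088, W_15201747008, W_15201488960, W_15185752064, W_15185494016, W_15185489984, W_15185231936, W_15184973888, W_14128787456, W_14128525376, W_14128267328, W_14112014336, W_14112010304, W_14111494208, W_11981049920, W_11964534848]⟩
theorem C_18423763008 : chkRec R_18423763008 = true := by decide +kernel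

noncomputable def R_18423767040 : Rec := ⟨nat_lit 18423767040, nat_lit 93,
  [⟨V6_16276267008, [(nat_lit 32, nat_lit 18423767040), (nat_lit 50, nat_lit 19497504768), (nat_lit 74, nat_lit 20571242496), (nat_lit 54, nat_lit 21644980224), (nat_lit 84, nat_lit 22718717952)]⟩,
   ⟨V6_16258719744, [(nat_lit 55, nat_lit 18423767040), (nat_lit 67, nat_lit 19497246720), (nat_lit 120, nat_lit 19480731648), (nat_lit 30, nat_lit 20570726400), (nat_lit 91, nat_lit 20554211328), (nat_lit 4, nat_lit 21644206080), (nat_lit 52, nat_lit 21627691008), (nat_lit 74, nat_lit 22701170688)]⟩,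
   ⟨V6_15201755136, [(nat_lit 21, nat_lit 18423767040), (nat_lit 110, nat_lit 19497246720), (nat_lit 96, nat_lit 20570726400), (nat_lit 56, nat_lit 21644206080)]⟩],
  [W_18406965248, W_18406707200, W_17350000640, W_17333227520, W_16276262912, W_15202525184, W_15202009088, W_15185752064, W_15185494016, W_14128787456, W_14112014336, W_10907574272]⟩
theorem C_18423767040 : chkRec R_18423767040 = true := by decide +kernel

noncomputable def R_18424012929 : Rec := ⟨nat_lit 18424012929, nat_lit 16,
  [⟨V6_15202263168, [(nat_lit 93, nat_lit 18424012929), (nat_lit 104, nat_lit 19497754752), (nat_lit 95, nat_lit 19497492609), (nat_lit 104, nat_lit 20571234432), (nat_lit 30, nat_lit 20570972289), (nat_lit 116, nat_lit 21644714112)]⟩],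
  [W_18422440064, W_17348960384, W_13055303744, W_13055041664, W_11981561984]⟩
theorem C_18424012929 : chkRec R_18424012929 = true := by decide +kernel

noncomputable def R_18424016961 : Rec := ⟨nat_lit 18424016961, nat_lit 23,
  [⟨V6_14128787520, [(nat_lit 99, nat_lit 18424016961), (nat_lit 41, nat_lit 19497758784), (nat_lit 121, nat_lit 19497496641), (nat_lit 70, nat_lit 20571238464)]⟩],
  [W_18422960192, W_18422444096, W_16276000832, W_13055303744]⟩
theorem C_18424016961 : chkRec R_18424016961 = true := by decide +kernel

noncomputable def R_18424017024 : Rec := ⟨nat_lit 18424017024, nat_lit 62,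
  [⟨V6_16276267008, [(nat_lit 17, nat_lit 18424017024), (nat_lit 27, nat_lit 19497758784), (nat_lit 44, nat_lit 19497754752), (nat_lit 123, nat_lit 19497496704), (nat_lit 87, nat_lit 20571500544), (nat_lit 11, nat_lit 20571496512), (nat_lit 107, nat_lit 20571238464), (nat_lit 100, nat_lit 20571234432), (nat_lit 24, nat_lit 21645238272), (nat_lit 102, nat_lit 21644980224), (nat_lit 74, nat_lit 21644976192), (nat_lit 112, nat_lit 22718717952)]⟩,
   ⟨V6_15202529280, [(nat_lit 118, nat_lit 18424017024), (nat_lit 79, nat_lit 19497758784), (nat_lit 103, nat_lit 19497496704), (nat_lit 49, nat_lit 20571500544), (nat_lit 58, nat_lit 20571238464), (nat_lit 108, nat_lit 21644980224)]⟩],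
  [W_18422444096, W_18422440064, W_18422182016, W_17348960384, W_15202525184, W_15202001024, W_14129045504, W_14128787456, W_14128783424, W_13055307776, W_13055303744, W_13055045696, W_11981566016]⟩
theorem C_18424017024 : chkRec R_18424017024 = true := by decide +kernel

noncomputable def R_18424021056 : Rec := ⟨nat_lit 18424021056, nat_lit 91,
  [⟨V6_18422448192, [(nat_lit 60, nat_lit 18424021056), (nat_lit 57, nat_lit 19497500736), (nat_lit 9, nat_lit 20570980416), (nat_lit 116, nat_lit 21644460096), (nat_lit 76, nat_lit 22717939776), (nat_lit 77, nat_lit 23791419456), (nat_lit 36, nat_lit 24864899136)]⟩,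
   ⟨V6_17349742656, [(nat_lit 52, nat_lit 18424021056), (nat_lit 2, nat_lit 19497758784), (nat_lit 117, nat_lit 19497500736), (nat_lit 41, nat_lit 20571496512), (nat_lit 80, nat_lit 20571238464), (nat_lit 35, nat_lit 20570980416), (nat_lit 91, nat_lit 21645234240), (nat_lit 11, nat_lit 21644976192), (nat_lit 93, nat_lit 21644718144), (nat_lit 61, nat_lit 22718713920), (nat_lit 58, nat_lit 22718455872), (nat_lit 94, nat_lit 23792193600)]⟩,
   ⟨V6_15202787328, [(nat_lit 56, nat_lit 18424021056), (nat_lit 62, nat_lit 19497762816), (nat_lit 5, nat_lit 19497758784), (nat_lit 18, nat_lit 20571500544), (nat_lit 115, nat_lit 20571496512), (nat_lit 53, nat_lit 21645238272)]⟩],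
  [W_18422448128, W_15202525184, W_15202009088, W_15201747008, W_14129045504, W_14128787456, W_14128529408, W_14128267328, W_11981570048, W_10907828288]⟩
theorem C_18424021056 : chkRec R_18424021056 = true := by decide +kernel

noncomputable def R_18424025088 : Rec := ⟨nat_lit 18424025088, nat_lit 68,
  [⟨V6_16275492864, [(nat_lit 53, nat_lit 18424025088), (nat_lit 4, nat_lit 19497504768), (nat_lit 88, nat_lit 20570984448), (nat_lit 83, nat_lit 21644464128), (nat_lit 28, nat_lit 22717943808)]⟩,
   ⟨V6_13055053824, [(nat_lit 3, nat_lit 18424025088), (nat_lit 75, nat_lit 19497504768)]⟩],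
  [W_17350000640, W_16276520960, W_16276262912, W_15202525184, W_15202009088, W_14129045504, W_14128787456, W_13055307776, W_10907832320]⟩
theorem C_18424025088 : chkRec R_18424025088 = true := by decide +kernel

noncomputable def R_18439225539 : Rec := ⟨nat_lit 18439225539, nat_lit 2,
  [⟨V6_13070516418, [(nat_lit 83, nat_lit 18439225539), (nat_lit 107, nat_lit 19512967362)]⟩],
  [W_18372116672, W_17331925184]⟩
theorem C_18439225539 : chkRec R_18439225539 = true := by decide +kernel

noncomputable def R_18439225602 : Rec := ⟨nat_lit 18439225602, nat_lit 6,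
  [⟨V6_14144258304, [(nat_lit 57, nat_lit 18439225602), (nat_lit 22, nat_lit 19512967425), (nat_lit 55, nat_lit 20586709248)]⟩,
   ⟨V6_13070516418, [(nat_lit 22, nat_lit 18439225602), (nat_lit 70, nat_lit 19512967362)]⟩],
  [W_18388893824, W_18372116672, W_18355339520]⟩
theorem C_18439225602 : chkRec R_18439225602 = true := by decide +kernel

noncomputable def R_18439483587 : Rec := ⟨nat_lit 18439483587, nat_lit 1,
  [⟨V6_13070774466, [(nat_lit 12, nat_lit 18439483587), (nat_lit 17, nat_lit 19513225410)]⟩],
  [W_18372374720]⟩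
theorem C_18439483587 : chkRec R_18439483587 = true := by decide +kernel

noncomputable def R_18439487682 : Rec := ⟨nat_lit 18439487682, nat_lit 14,
  [⟨V6_15218000064, [(nat_lit 19, nat_lit 18439487682), (nat_lit 55, nat_lit 19513229505), (nat_lit 4, nat_lit 19512967362), (nat_lit 17, nat_lit 20586971328), (nat_lit 10, nat_lit 20586709185), (nat_lit 96, nat_lit 21660451008)]⟩],
  [W_18405666944, W_18389151872, W_18372378752, W_18372374720, W_18372116672, W_17332187264]⟩
theorem C_18439487682 : chkRec R_18439487682 = true := by decide +kernel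

noncomputable def R_18439487745 : Rec := ⟨nat_lit 18439487745, nat_lit 19,
  [⟨V6_16291741761, [(nat_lit 125, nat_lit 18439487745), (nat_lit 88, nat_lit 19513229505), (nat_lit 54, nat_lit 19512967425), (nat_lit 38, nat_lit 20586971265), (nat_lit 121, nat_lit 20586709185), (nat_lit 115, nat_lit 21660713025), (nat_lit 115, nat_lit 21660450945), (nat_lit 24, nat_lit 22734192705)]⟩,
   ⟨V6_14144258304, [(nat_lit 115, nat_lit 18439487745), (nat_lit 3, nat_lit 19513229568), (nat_lit 118, nat_lit 19512967425), (nat_lit 40, nat_lit 20586709248)]⟩,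
   ⟨V6_14127481089, [(nat_lit 90, nat_lit 18439487745), (nat_lit 3, nat_lit 19512967425), (nat_lit 34, nat_lit 19496452353), (nat_lit 86, nat_lit 20569932033)]⟩],
  [W_18372378752, W_18355339520, W_17348706368, W_17298374912, W_15218262080]⟩
theorem C_18439487745 : chkRec R_18439487745 = true := by decide +kernel

noncomputable def R_18439491714 : Rec := ⟨nat_lit 18439491714, nat_lit 9,
  [⟨V6_16291995777, [(nat_lit 85, nat_lit 18439491714), (nat_lit 116, nat_lit 19513233537), (nat_lit 53, nat_lit 19513229442), (nat_lit 99, nat_lit 20586971265), (nat_lit 121, nat_lit 20586967170), (nat_lit 93, nat_lit 21660708993), (nat_lit 101, nat_lit 21660704898), (nat_lit 120, nat_lit 22734446721)]⟩],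
  [W_18372378752, W_15201484928, W_14127747200, W_13070782592]⟩
theorem C_18439491714 : chkRec R_18439491714 = true := by decide +kernel

noncomputable def R_18439491777 : Rec := ⟨nat_lit 18439491777, nat_lit 20,
  [⟨V6_18372382848, [(nat_lit 87, nat_lit 18439491777), (nat_lit 99, nat_lit 19513233600), (nat_lit 20, nat_lit 19513233537), (nat_lit 2, nat_lit 19496456385), (nat_lit 111, nat_lit 20586975360), (nat_lit 13, nat_lit 20570198208), (nat_lit 108, nat_lit 20570198145), (nat_lit 103, nat_lit 20553420993), (nat_lit 123, nat_lit 21643939968), (nat_lit 88, nat_lit 21627162816), (nat_lit 111, nat_lit 21627162753), (nat_lit 102, nat_lit 21610385601), (nat_lit 66, nat_lit 22700904576), (nat_lit 63, nat_lit 22684127424), (nat_lit 126, nat_lit 22684127361), (nat_lit 34, nat_lit 22667350209), (nat_lit 53, nat_lit 23757869184), (nat_lit 18, nat_lit 23741092032), (nat_lit 85, nat_lit 23741091969), (nat_lit 3, nat_lit 24814833792)]⟩,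
   ⟨V6_18372382785, [(nat_lit 16, nat_lit 18439491777), (nat_lit 115, nat_lit 19513233537), (nat_lit 107, nat_lit 19496456385), (nat_lit 80, nat_lit 20586975297), (nat_lit 31, nat_lit 20570198145), (nat_lit 32, nat_lit 20553420993), (nat_lit 45, nat_lit 21643939905), (nat_lit 32, nat_lit 21627162753), (nat_lit 112, nat_lit 21610385601), (nat_lit 96, nat_lit 22700904513), (nat_lit 88, nat_lit 22684127361), (nat_lit 49, nat_lit 22667350209), (nat_lit 55, nat_lit 23757869121), (nat_lit 25, nat_lit 23741091969), (nat_lit 120, nat_lit 24814833729)]⟩,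
   ⟨V6_17298641088, [(nat_lit 118, nat_lit 18439491777), (nat_lit 118, nat_lit 19513233600), (nat_lit 38, nat_lit 19496456385), (nat_lit 117, nat_lit 20570198208), (nat_lit 76, nat_lit 20553420993), (nat_lit 122, nat_lit 21627162816), (nat_lit 21, nat_lit 21610385601), (nat_lit 26, nat_lit 22684127424), (nat_lit 31, nat_lit 22667350209), (nat_lit 64, nat_lit 23741092032)]⟩,
   ⟨V6_16224899265, [(nat_lit 59, nat_lit 18439491777), (nat_lit 43, nat_lit 19496456385), (nat_lit 84, nat_lit 20553420993), (nat_lit 37, nat_lit 21610385601), (nat_lit 51, nat_lit 22667350209)]⟩],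
  [W_15218262080, W_15201484928, W_15201480896, W_14144524352, W_14144516288, W_13070778560, W_11997040832]⟩
theorem C_18439491777 : chkRec R_18439491777 = true := by decide +kernel

noncomputable def R_18439491840 : Rec := ⟨nat_lit 18439491840, nat_lit 20,
  [⟨V6_16292007936, [(nat_lit 88, nat_lit 18439491840), (nat_lit 3, nat_lit 19513233600), (nat_lit 43, nat_lit 20586975360), (nat_lit 73, nat_lit 21660717120), (nat_lit 66, nat_lit 22734458880)]⟩],
  [W_18389159936, W_18372382784, W_18372378752, W_17298636992, W_15218262080, W_15167930624, W_14110970048, W_13070778560, W_13054001408, W_11997040832]⟩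
theorem C_18439491840 : chkRec R_18439491840 = true := by decide +kernel

noncomputable def R_18439745730 : Rec := ⟨nat_lit 18439745730, nat_lit 12,
  [⟨V6_17348702400, [(nat_lit 55, nat_lit 18439745730), (nat_lit 55, nat_lit 19513487553), (nat_lit 83, nat_lit 19513225410), (nat_lit 44, nat_lit 19496710338), (nat_lit 3, nat_lit 20587229376), (nat_lit 8, nat_lit 20586967233), (nat_lit 23, nat_lit 20586705090), (nat_lit 11, nat_lit 20570452161), (nat_lit 122, nat_lit 20570190018), (nat_lit 85, nat_lit 21660709056), (nat_lit 94, nat_lit 21660446913), (nat_lit 60, nat_lit 21644193984), (nat_lit 6, nat_lit 21643931841), (nat_lit 126, nat_lit 21643669698), (nat_lit 32, nat_lit 22734188736), (nat_lit 25, nat_lit 22717673664), (nat_lit 68, nat_lit 22717411521), (nat_lit 37, nat_lit 23791153344)]⟩,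
   ⟨V6_14144254146, [(nat_lit 109, nat_lit 18439745730), (nat_lit 5, nat_lit 19513225410), (nat_lit 83, nat_lit 20586705090)]⟩,
   ⟨V6_13070774466, [(nat_lit 117, nat_lit 18439745730), (nat_lit 42, nat_lit 19513225410)]⟩],
  [W_18405666944, W_18372636800, W_18372374720, W_16241930432, W_14128001216, W_13071036608]⟩
theorem C_18439745730 : chkRec R_18439745730 = true := by decide +kernel

noncomputable def R_18439749762 : Rec := ⟨nat_lit 18439749762, nat_lit 30,
  [⟨V6_16291741824, [(nat_lit 3, nat_lit 18439749762), (nat_lit 100, nat_lit 19513491585), (nat_lit 38, nat_lit 19513229442), (nat_lit 34, nat_lit 20587233408), (nat_lit 16, nat_lit 20586971265), (nat_lit 39, nat_lit 20586709122), (nat_lit 86, nat_lit 21660713088), (nat_lit 95, nat_lit 21660450945), (nat_lit 89, nat_lit 22734192768)]⟩],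
  [W_18422440064, W_18405924992, W_18389409920, W_18355863680, W_17348960384, W_17332445312, W_13071040640]⟩
theorem C_18439749762 : chkRec R_18439749762 = true := by decide +kernel

noncomputable def R_18439749825 : Rec := ⟨nat_lit 18439749825, nat_lit 63,
  [⟨V6_17365483584, [(nat_lit 87, nat_lit 18439749825), (nat_lit 113, nat_lit 19513491648), (nat_lit 84, nat_lit 19513491585), (nat_lit 108, nat_lit 19513229505), (nat_lit 68, nat_lit 20587233408), (nat_lit 13, nat_lit 20587233345), (nat_lit 13, nat_lit 20586971328), (nat_lit 113, nat_lit 20586971265), (nat_lit 25, nat_lit 20586709185), (nat_lit 10, nat_lit 21660975168), (nat_lit 96, nat_lit 21660713088), (nat_lit 103, nat_lit 21660713025), (nat_lit 42, nat_lit 21660451008), (nat_lit 111, nat_lit 21660450945), (nat_lit 38, nat_lit 22734454848), (nat_lit 112, nat_lit 22734192768), (nat_lit 44, nat_lit 22734192705), (nat_lit 55, nat_lit 23807934528)]⟩,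
   ⟨V6_17348706369, [(nat_lit 63, nat_lit 18439749825), (nat_lit 57, nat_lit 19513491585), (nat_lit 1, nat_lit 19513229505), (nat_lit 41, nat_lit 19496714433), (nat_lit 51, nat_lit 20587233345), (nat_lit 40, nat_lit 20586971265), (nat_lit 121, nat_lit 20586709185), (nat_lit 94, nat_lit 20570456193), (nat_lit 10, nat_lit 20570194113), (nat_lit 54, nat_lit 21660713025), (nat_lit 125, nat_lit 21660450945), (nat_lit 15, nat_lit 21644197953), (nat_lit 107, nat_lit 21643935873), (nat_lit 34, nat_lit 21643673793), (nat_lit 21, nat_lit 22734192705), (nat_lit 11, nat_lit 22717677633), (nat_lit 46, nat_lit 22717415553), (nat_lit 98, nat_lit 23791157313)]⟩,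
   ⟨V6_16291741761, [(nat_lit 70, nat_lit 18439749825), (nat_lit 83, nat_lit 19513491585), (nat_lit 100, nat_lit 19513229505), (nat_lit 4, nat_lit 20587233345), (nat_lit 122, nat_lit 20586971265), (nat_lit 67, nat_lit 20586709185), (nat_lit 45, nat_lit 21660713025), (nat_lit 54, nat_lit 21660450945), (nat_lit 97, nat_lit 22734192705)]⟩],
  [W_18389413952, W_18372640832, W_18372636800, W_18372374720, W_18355863680, W_17348706368, W_17282121920, W_16291741760, W_15201747008, W_14144782400, W_13071040640, W_11997298880]⟩
theorem C_18439749825 : chkRec R_18439749825 = true := by decide +kernel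

noncomputable def R_18439749888 : Rec := ⟨nat_lit 18439749888, nat_lit 62,
  [⟨V6_18439225344, [(nat_lit 53, nat_lit 18439749888), (nat_lit 41, nat_lit 19513491648), (nat_lit 39, nat_lit 19513229568), (nat_lit 76, nat_lit 20587233408), (nat_lit 71, nat_lit 20586971328), (nat_lit 93, nat_lit 20586709248), (nat_lit 30, nat_lit 21660975168), (nat_lit 23, nat_lit 21660713088), (nat_lit 94, nat_lit 21660451008), (nat_lit 26, nat_lit 22734716928), (nat_lit 80, nat_lit 22734454848), (nat_lit 58, nat_lit 22734192768), (nat_lit 99, nat_lit 23808196608), (nat_lit 4, nat_lit 23807934528), (nat_lit 90, nat_lit 24881676288)]⟩,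
   ⟨V6_16291741824, [(nat_lit 25, nat_lit 18439749888), (nat_lit 85, nat_lit 19513491648), (nat_lit 59, nat_lit 19513229568), (nat_lit 32, nat_lit 20587233408), (nat_lit 4, nat_lit 20586971328), (nat_lit 3, nat_lit 20586709248), (nat_lit 19, nat_lit 21660713088), (nat_lit 124, nat_lit 21660451008), (nat_lit 61, nat_lit 22734192768)]⟩],
  [W_18389417984, W_18372640832, W_18355863680, W_16208380160, W_15218524160, W_15201747008, W_13071040640]⟩
theorem C_18439749888 : chkRec R_18439749888 = true := by decide +kernel

noncomputable def R_18439753857 : Rec := ⟨nat_lit 18439753857, nat_lit 71,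
  [⟨V6_18389409921, [(nat_lit 113, nat_lit 18439753857), (nat_lit 102, nat_lit 19513491585), (nat_lit 118, nat_lit 19496718465), (nat_lit 63, nat_lit 20587229313), (nat_lit 7, nat_lit 20570456193), (nat_lit 84, nat_lit 20553683073), (nat_lit 111, nat_lit 21660967041), (nat_lit 9, nat_lit 21644193921), (nat_lit 85, nat_lit 21627420801), (nat_lit 13, nat_lit 21610647681), (nat_lit 60, nat_lit 22717931649), (nat_lit 54, nat_lit 22701158529), (nat_lit 55, nat_lit 22684385409), (nat_lit 47, nat_lit 23774896257), (nat_lit 31, nat_lit 23758123137), (nat_lit 13, nat_lit 24831860865)]⟩,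
   ⟨V6_17365737600, [(nat_lit 28, nat_lit 18439753857), (nat_lit 87, nat_lit 19513495680), (nat_lit 100, nat_lit 19513491585), (nat_lit 123, nat_lit 19513233537), (nat_lit 63, nat_lit 20587233408), (nat_lit 34, nat_lit 20587229313), (nat_lit 85, nat_lit 20586975360), (nat_lit 114, nat_lit 20586971265), (nat_lit 62, nat_lit 21660971136), (nat_lit 47, nat_lit 21660967041), (nat_lit 12, nat_lit 21660713088), (nat_lit 29, nat_lit 21660708993), (nat_lit 71, nat_lit 22734708864), (nat_lit 104, nat_lit 22734450816), (nat_lit 109, nat_lit 22734446721), (nat_lit 38, nat_lit 23808188544)]⟩,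
   ⟨V6_16291995777, [(nat_lit 114, nat_lit 18439753857), (nat_lit 123, nat_lit 19513491585), (nat_lit 21, nat_lit 19513233537), (nat_lit 52, nat_lit 20587229313), (nat_lit 77, nat_lit 20586971265), (nat_lit 95, nat_lit 21660967041), (nat_lit 1, nat_lit 21660708993), (nat_lit 28, nat_lit 22734446721)]⟩],
  [W_18406187072, W_18372640832, W_18372382784, W_18355867712, W_16258453568, W_15218262080, W_15201747008, W_15201488960, W_14144782400, W_14144524352, W_13071044672, W_13071040640, W_13054267520, W_11997302912]⟩
theorem C_18439753857 : chkRec R_18439753857 = true := by decide +kernel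

noncomputable def R_18439753920 : Rec := ⟨nat_lit 18439753920, nat_lit 108,
  [⟨V6_17366003712, [(nat_lit 84, nat_lit 18439753920), (nat_lit 112, nat_lit 19513495680), (nat_lit 87, nat_lit 19513491648), (nat_lit 102, nat_lit 20587237440), (nat_lit 67, nat_lit 20587233408), (nat_lit 74, nat_lit 20587229376), (nat_lit 65, nat_lit 21660979200), (nat_lit 105, nat_lit 21660975168), (nat_lit 21, nat_lit 21660971136), (nat_lit 49, nat_lit 22734716928), (nat_lit 42, nat_lit 22734712896), (nat_lit 48, nat_lit 23808454656)]⟩,
   ⟨V6_16292007936, [(nat_lit 116, nat_lit 18439753920), (nat_lit 61, nat_lit 19513495680), (nat_lit 61, nat_lit 19513233600), (nat_lit 15, nat_lit 20587237440), (nat_lit 32, nat_lit 20586975360), (nat_lit 100, nat_lit 21660979200), (nat_lit 42, nat_lit 21660717120), (nat_lit 53, nat_lit 22734458880)]⟩],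
  [W_18389417984, W_18389159936, W_18372644864, W_18372640832, W_18372374720, W_18355867712, W_18355863680, W_17332195328, W_16275230720, W_15218524160, W_15218262080, W_15201747008, W_15184973888, W_15184969856, W_14144516288, W_14110970048, W_13071036608, W_13054263488, W_11997298880, W_11997040832, W_11980525760]⟩
theorem C_18439753920 : chkRec R_18439753920 = true := by decide +kernel

noncomputable def R_18439757889 : Rec := ⟨nat_lit 18439757889, nat_lit 36,
  [⟨V6_16225165377, [(nat_lit 19, nat_lit 18439757889), (nat_lit 16, nat_lit 19496722497), (nat_lit 111, nat_lit 20553687105), (nat_lit 126, nat_lit 21610651713), (nat_lit 81, nat_lit 22667616321)]⟩,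
   ⟨V6_14128013376, [(nat_lit 9, nat_lit 18439757889), (nat_lit 69, nat_lit 19513499712), (nat_lit 27, nat_lit 19496722497), (nat_lit 126, nat_lit 20570464320)]⟩],
  [W_18422960192, W_18406187072, W_18372640832, W_17365995584, W_17298903104, W_17282129984]⟩
theorem C_18439757889 : chkRec R_18439757889 = true := by decide +kernel

noncomputable def R_18439757952 : Rec := ⟨nat_lit 18439757952, nat_lit 102,
  [⟨V6_18439741440, [(nat_lit 48, nat_lit 18439757952), (nat_lit 124, nat_lit 19513499712), (nat_lit 59, nat_lit 19513495680), (nat_lit 67, nat_lit 20587241472), (nat_lit 101, nat_lit 20587237440), (nat_lit 72, nat_lit 20587233408), (nat_lit 82, nat_lit 21660979200), (nat_lit 122, nat_lit 21660975168), (nat_lit 104, nat_lit 21660971136), (nat_lit 38, nat_lit 22734716928), (nat_lit 103, nat_lit 22734712896), (nat_lit 92, nat_lit 22734708864), (nat_lit 32, nat_lit 23808454656), (nat_lit 1, nat_lit 23808450624), (nat_lit 62, nat_lit 24882192384)]⟩,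
   ⟨V6_17315684352, [(nat_lit 42, nat_lit 18439757952), (nat_lit 83, nat_lit 19513499712), (nat_lit 112, nat_lit 19496722560), (nat_lit 93, nat_lit 20587241472), (nat_lit 87, nat_lit 20570464320), (nat_lit 110, nat_lit 20553687168), (nat_lit 50, nat_lit 21644206080), (nat_lit 70, nat_lit 21627428928), (nat_lit 41, nat_lit 21610651776), (nat_lit 38, nat_lit 22701170688), (nat_lit 80, nat_lit 22684393536), (nat_lit 45, nat_lit 23758135296)]⟩],
  [W_18389417984, W_18355871744, W_18355863680, W_17298899072, W_17282129984, W_16208388224, W_15218524160, W_15201747008, W_15184973888, W_15184969856, W_14144782400, W_14128013312, W_14111236160, W_13071048704, W_13071040640, W_11997302912]⟩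
theorem C_18439757952 : chkRec R_18439757952 = true := by decide +kernel

noncomputable def R_18440007810 : Rec := ⟨nat_lit 18440007810, nat_lit 23,
  [⟨V6_17315930241, [(nat_lit 24, nat_lit 18440007810), (nat_lit 94, nat_lit 19513749633), (nat_lit 45, nat_lit 19513745538), (nat_lit 22, nat_lit 19496972418), (nat_lit 107, nat_lit 20587487361), (nat_lit 48, nat_lit 20570714241), (nat_lit 84, nat_lit 20570710146), (nat_lit 74, nat_lit 20553937026), (nat_lit 33, nat_lit 21644451969), (nat_lit 33, nat_lit 21627678849), (nat_lit 95, nat_lit 21627674754), (nat_lit 82, nat_lit 21610901634), (nat_lit 32, nat_lit 22701416577), (nat_lit 125, nat_lit 22684643457), (nat_lit 8, nat_lit 22684639362), (nat_lit 102, nat_lit 23758381185)]⟩,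
   ⟨V6_16291995777, [(nat_lit 106, nat_lit 18440007810), (nat_lit 9, nat_lit 19513749633), (nat_lit 14, nat_lit 19513745538), (nat_lit 112, nat_lit 19513487490), (nat_lit 25, nat_lit 20587487361), (nat_lit 48, nat_lit 20587229313), (nat_lit 21, nat_lit 20587225218), (nat_lit 46, nat_lit 20586967170), (nat_lit 26, nat_lit 21660967041), (nat_lit 36, nat_lit 21660708993), (nat_lit 60, nat_lit 21660704898), (nat_lit 97, nat_lit 22734446721)]⟩],
  [W_18438955136, W_18422440064, W_18422182016, W_17365475456, W_17365217408, W_17299157120, W_15202001024, W_13071298688]⟩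
theorem C_18440007810 : chkRec R_18440007810 = true := by decide +kernel

noncomputable def R_18440007873 : Rec := ⟨nat_lit 18440007873, nat_lit 40,
  [⟨V6_18388889793, [(nat_lit 125, nat_lit 18440007873), (nat_lit 96, nat_lit 19513487553), (nat_lit 110, nat_lit 19496972481), (nat_lit 28, nat_lit 20586967233), (nat_lit 88, nat_lit 20570452161), (nat_lit 97, nat_lit 20553937089), (nat_lit 43, nat_lit 21660446913), (nat_lit 1, nat_lit 21643931841), (nat_lit 76, nat_lit 21627416769), (nat_lit 18, nat_lit 21610901697), (nat_lit 116, nat_lit 22717411521), (nat_lit 119, nat_lit 22700896449), (nat_lit 63, nat_lit 22684381377), (nat_lit 76, nat_lit 23774376129), (nat_lit 21, nat_lit 23757861057), (nat_lit 70, nat_lit 24831340737)]⟩,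
   ⟨V6_18372898881, [(nat_lit 113, nat_lit 18440007873), (nat_lit 74, nat_lit 19513749633), (nat_lit 81, nat_lit 19496972481), (nat_lit 57, nat_lit 20587491393), (nat_lit 84, nat_lit 20570714241), (nat_lit 99, nat_lit 20553937089), (nat_lit 40, nat_lit 21644456001), (nat_lit 99, nat_lit 21627678849), (nat_lit 29, nat_lit 21610901697), (nat_lit 43, nat_lit 22701420609), (nat_lit 50, nat_lit 22684643457), (nat_lit 100, nat_lit 22667866305), (nat_lit 63, nat_lit 23758385217), (nat_lit 121, nat_lit 23741608065), (nat_lit 22, nat_lit 24815349825)]⟩,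
   ⟨V6_17365217472, [(nat_lit 5, nat_lit 18440007873), (nat_lit 18, nat_lit 19513749696), (nat_lit 93, nat_lit 19513487553), (nat_lit 78, nat_lit 20587229376), (nat_lit 90, nat_lit 20586967233), (nat_lit 72, nat_lit 21660709056), (nat_lit 122, nat_lit 21660446913), (nat_lit 70, nat_lit 22734188736), (nat_lit 121, nat_lit 22733926593), (nat_lit 61, nat_lit 23807668416)]⟩,
   ⟨V6_17348702400, [(nat_lit 68, nat_lit 18440007873), (nat_lit 42, nat_lit 19513749696), (nat_lit 68, nat_lit 19513487553), (nat_lit 94, nat_lit 19496972481), (nat_lit 33, nat_lit 20587229376), (nat_lit 27, nat_lit 20586967233), (nat_lit 61, nat_lit 20570714304), (nat_lit 45, nat_lit 20570452161), (nat_lit 56, nat_lit 21660709056), (nat_lit 81, nat_lit 21660446913), (nat_lit 107, nat_lit 21644193984), (nat_lit 60, nat_lit 21643931841), (nat_lit 108, nat_lit 22734188736), (nat_lit 69, nat_lit 22717673664), (nat_lit 25, nat_lit 22717411521), (nat_lit 116, nat_lit 23791153344)]⟩,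
   ⟨V6_17299157184, [(nat_lit 98, nat_lit 18440007873), (nat_lit 98, nat_lit 19513749696), (nat_lit 66, nat_lit 19496972481), (nat_lit 123, nat_lit 20570714304), (nat_lit 5, nat_lit 20553937089), (nat_lit 125, nat_lit 21627678912), (nat_lit 110, nat_lit 21610901697), (nat_lit 112, nat_lit 22684643520), (nat_lit 114, nat_lit 22667866305), (nat_lit 51, nat_lit 23741608128)]⟩,
   ⟨V6_16274960577, [(nat_lit 86, nat_lit 18440007873), (nat_lit 105, nat_lit 19513487553), (nat_lit 41, nat_lit 19496972481), (nat_lit 90, nat_lit 20586967233), (nat_lit 97, nat_lit 20570452161), (nat_lit 52, nat_lit 21660446913), (nat_lit 85, nat_lit 21643931841), (nat_lit 86, nat_lit 22717411521)]⟩,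
   ⟨V6_16225415361, [(nat_lit 109, nat_lit 18440007873), (nat_lit 45, nat_lit 19496972481), (nat_lit 82, nat_lit 20553937089), (nat_lit 21, nat_lit 21610901697), (nat_lit 77, nat_lit 22667866305)]⟩],
  [W_18438959168, W_18422182016, W_18372898880, W_17315934272, W_14145040448, W_14128263296, W_14128001216, W_14111486144, W_13071298688, W_11997556928]⟩
theorem C_18440007873 : chkRec R_18440007873 = true := by decide +kernel

noncomputable def R_18440011905 : Rec := ⟨nat_lit 18440011905, nat_lit 105,
  [⟨V6_18422448192, [(nat_lit 103, nat_lit 18440011905), (nat_lit 111, nat_lit 19513753728), (nat_lit 105, nat_lit 19513753665), (nat_lit 41, nat_lit 19513491585), (nat_lit 39, nat_lit 19496976513), (nat_lit 51, nat_lit 20587495488), (nat_lit 88, nat_lit 20587233408), (nat_lit 99, nat_lit 20587233345), (nat_lit 4, nat_lit 20586971265), (nat_lit 60, nat_lit 20570718336), (nat_lit 36, nat_lit 20570718273), (nat_lit 49, nat_lit 20570456193), (nat_lit 51, nat_lit 21660975168), (nat_lit 10, nat_lit 21660713088), (nat_lit 61, nat_lit 21660713025), (nat_lit 37,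 nat_lit 21660450945), (nat_lit 25, nat_lit 21644460096), (nat_lit 69, nat_lit 21644198016), (nat_lit 117, nat_lit 21644197953), (nat_lit 52, nat_lit 21643935873), (nat_lit 34, nat_lit 22734454848), (nat_lit 64, nat_lit 22734192768), (nat_lit 7, nat_lit 22734192705), (nat_lit 116, nat_lit 22717939776), (nat_lit 46, nat_lit 22717677696), (nat_lit 25, nat_lit 22717677633), (nat_lit 28, nat_lit 22717415553), (nat_lit 15, nat_lit 23807934528), (nat_lit 36, nat_lit 23791419456), (nat_lit 55, nat_lit 23791157376), (nat_lit 82, nat_lit 23791157313), (nat_lit 118, nat_lit 24864899136)]⟩,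
   ⟨V6_17365483584, [(nat_lit 56, nat_lit 18440011905), (nat_lit 60, nat_lit 19513753728), (nat_lit 33, nat_lit 19513753665), (nat_lit 80, nat_lit 19513491585), (nat_lit 29, nat_lit 20587495488), (nat_lit 114, nat_lit 20587233408), (nat_lit 64, nat_lit 20587233345), (nat_lit 37, nat_lit 20586971265), (nat_lit 20, nat_lit 21660975168), (nat_lit 33, nat_lit 21660713088), (nat_lit 111, nat_lit 21660713025), (nat_lit 3, nat_lit 21660450945), (nat_lit 5, nat_lit 22734454848), (nat_lit 51, nat_lit 22734192768), (nat_lit 57, nat_lit 22734192705), (nat_lit 22, nat_lit 23807934528)]⟩,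
   ⟨V6_16291741824, [(nat_lit 49, nat_lit 18440011905), (nat_lit 68, nat_lit 19513753728), (nat_lit 73, nat_lit 19513491585), (nat_lit 97, nat_lit 20587233408), (nat_lit 50, nat_lit 20586971265), (nat_lit 71, nat_lit 21660713088), (nat_lit 15, nat_lit 21660450945), (nat_lit 40, nat_lit 22734192768)]⟩],
  [W_18405924992, W_18372898880, W_18372640832, W_17365475456, W_17299161152, W_17299157120, W_16242196544, W_15202001024, W_15201747008, W_15185231936, W_15168454784, W_14145036416, W_14144782400, W_14128267328, W_14128263296, W_14111490176, W_13071302720, W_13071298688, W_13071040640, W_13054525568]⟩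
theorem C_18440011905 : chkRec R_18440011905 = true := by decide +kernel

noncomputable def R_18440011968 : Rec := ⟨nat_lit 18440011968, nat_lit 150,
  [⟨V6_18439225344, [(nat_lit 56, nat_lit 18440011968), (nat_lit 14, nat_lit 19513753728), (nat_lit 80, nat_lit 19513491648), (nat_lit 94, nat_lit 20587495488), (nat_lit 75, nat_lit 20587233408), (nat_lit 117, nat_lit 20586971328), (nat_lit 64, nat_lit 21661237248), (nat_lit 14, nat_lit 21660975168), (nat_lit 20, nat_lit 21660713088), (nat_lit 76, nat_lit 21660451008), (nat_lit 31, nat_lit 22734716928), (nat_lit 14, nat_lit 22734454848), (nat_lit 58, nat_lit 22734192768), (nat_lit 29, nat_lit 23808196608), (nat_lit 37, nat_lit 23807934528), (nat_lit 13, nat_lit 24881676288)]⟩,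
   ⟨V6_18422448192, [(nat_lit 24, nat_lit 18440011968), (nat_lit 96, nat_lit 19513753728), (nat_lit 103, nat_lit 19513491648), (nat_lit 115, nat_lit 19496976576), (nat_lit 114, nat_lit 20587495488), (nat_lit 21, nat_lit 20587233408), (nat_lit 26, nat_lit 20586971328), (nat_lit 104, nat_lit 20570718336), (nat_lit 76, nat_lit 20570456256), (nat_lit 20, nat_lit 21660975168), (nat_lit 57, nat_lit 21660713088), (nat_lit 15, nat_lit 21660451008), (nat_lit 32, nat_lit 21644460096), (nat_lit 70, nat_lit 21644198016), (nat_lit 104, nat_lit 21643935936), (nat_lit 4, nat_lit 22734454848), (nat_lit 123, nat_lit 22734192768), (nat_lit 92, nat_lit 22717939776), (nat_lit 14, nat_lit 22717677696), (nat_lit 93, nat_lit 22717415616), (nat_lit 97, nat_lit 23807934528), (nat_lit 69, nat_lit 23791419456), (nat_lit 113, nat_lit 23791157376), (nat_lit 71, nat_lit 24864899136)]⟩,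
   ⟨V6_17365483584, [(nat_lit 111, nat_lit 18440011968), (nat_lit 21, nat_lit 19513753728), (nat_lit 103, nat_lit 19513491648), (nat_lit 20, nat_lit 20587495488), (nat_lit 7, nat_lit 20587233408), (nat_lit 105, nat_lit 20586971328), (nat_lit 95, nat_lit 21660975168), (nat_lit 23, nat_lit 21660713088), (nat_lit 18, nat_lit 21660451008), (nat_lit 23, nat_lit 22734454848), (nat_lit 100, nat_lit 22734192768), (nat_lit 83, nat_lit 23807934528)]⟩,
   ⟨V6_16291741824, [(nat_lit 80, nat_lit 18440011968), (nat_lit 100, nat_lit 19513753728), (nat_lit 107, nat_lit 19513491648), (nat_lit 65, nat_lit 20587233408), (nat_lit 37, nat_lit 20586971328), (nat_lit 11, nat_lit 21660713088), (nat_lit 30, nat_lit 21660451008), (nat_lit 61, nat_lit 22734192768)]⟩],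
  [W_18439221248, W_18389676032, W_18372902912, W_18372898880, W_17315938304, W_17299157120, W_16242196544, W_15218524160, W_15202009088, W_15185231936, W_15168454784, W_14145044480, W_14128267328, W_14128263296, W_13071302720, W_13071298688, W_13054525568, W_11997556928]⟩
theorem C_18440011968 : chkRec R_18440011968 = true := by decide +kernel

noncomputable def R_18440015937 : Rec := ⟨nat_lit 18440015937, nat_lit 78,
  [⟨V6_18423222336, [(nat_lit 50, nat_lit 18440015937), (nat_lit 118, nat_lit 19513757760), (nat_lit 11, nat_lit 19513753665), (nat_lit 17, nat_lit 19496980545), (nat_lit 91, nat_lit 20587495488), (nat_lit 94, nat_lit 20587491393), (nat_lit 75, nat_lit 20570722368), (nat_lit 75, nat_lit 20570718273), (nat_lit 49, nat_lit 21661233216), (nat_lit 71, nat_lit 21661229121), (nat_lit 81, nat_lit 21644460096), (nat_lit 50, nat_lit 21644456001), (nat_lit 42, nat_lit 22734970944), (nat_lit 10, nat_lit 22734966849), (nat_lit 88, nat_lit 22718197824), (nat_lit 1, nat_lit 22718193729), (nat_lit 63, nat_lit 23808708672), (nat_lit 52, nat_lit 23791935552),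 (nat_lit 110, nat_lit 23791931457), (nat_lit 85, nat_lit 24865673280)]⟩,
   ⟨V6_18372898881, [(nat_lit 98, nat_lit 18440015937), (nat_lit 51, nat_lit 19513753665), (nat_lit 111, nat_lit 19496980545), (nat_lit 29, nat_lit 20587491393), (nat_lit 112, nat_lit 20570718273), (nat_lit 100, nat_lit 20553945153), (nat_lit 60, nat_lit 21644456001), (nat_lit 58, nat_lit 21627682881), (nat_lit 47, nat_lit 21610909761), (nat_lit 105, nat_lit 22701420609), (nat_lit 80, nat_lit 22684647489), (nat_lit 37, nat_lit 22667874369), (nat_lit 115, nat_lit 23758385217), (nat_lit 62, nat_lit 23741612097), (nat_lit 108, nat_lit 24815349825)]⟩,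
   ⟨V6_17299165248, [(nat_lit 9, nat_lit 18440015937), (nat_lit 9, nat_lit 19513757760), (nat_lit 89, nat_lit 19496980545), (nat_lit 10, nat_lit 20570722368), (nat_lit 51, nat_lit 20553945153), (nat_lit 5, nat_lit 21627686976), (nat_lit 106, nat_lit 21610909761), (nat_lit 101, nat_lit 22684651584), (nat_lit 96, nat_lit 22667874369), (nat_lit 63, nat_lit 23741616192)]⟩,
   ⟨V6_17299161153, [(nat_lit 58, nat_lit 18440015937), (nat_lit 54, nat_lit 19513753665), (nat_lit 90, nat_lit 19496980545), (nat_lit 87, nat_lit 20570718273), (nat_lit 7, nat_lit 20553945153), (nat_lit 125, nat_lit 21627682881), (nat_lit 117, nat_lit 21610909761), (nat_lit 47, nat_lit 22684647489), (nat_lit 14, nat_lit 22667874369), (nat_lit 32, nat_lit 23741612097)]⟩],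
  [W_18372640832, W_17315934272, W_16242196544, W_15218262080, W_15201747008, W_15185231936, W_14144782400, W_14144524352, W_13071302720, W_13071044672, W_13054529600, W_11997564992]⟩
theorem C_18440015937 : chkRec R_18440015937 = true := by decide +kernel

noncomputable def R_18440016000 : Rec := ⟨nat_lit 18440016000, nat_lit 203,
  [⟨V6_18439741440, [(nat_lit 121, nat_lit 18440016000), (nat_lit 124, nat_lit 19513757760), (nat_lit 1, nat_lit 19513753728), (nat_lit 91, nat_lit 19513495680), (nat_lit 64, nat_lit 20587499520), (nat_lit 9, nat_lit 20587495488), (nat_lit 81, nat_lit 20587491456), (nat_lit 61, nat_lit 20587237440), (nat_lit 102, nat_lit 20587233408), (nat_lit 54, nat_lit 21661237248), (nat_lit 74, nat_lit 21661233216), (nat_lit 10, nat_lit 21661229184), (nat_lit 116, nat_lit 21660979200), (nat_lit 64, nat_lit 21660975168), (nat_lit 126, nat_lit 21660971136), (nat_lit 118, nat_lit 22734974976), (nat_lit 8, nat_lit 22734970944), (nat_lit 124, nat_lit 22734716928), (nat_lit 74, nat_lit 22734712896), (nat_lit 75, nat_lit 22734708864), (nat_lit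 83, nat_lit 23808712704), (nat_lit 9, nat_lit 23808454656), (nat_lit 93, nat_lit 23808450624), (nat_lit 67, nat_lit 24882192384)]⟩,
   ⟨V6_18423226368, [(nat_lit 114, nat_lit 18440016000), (nat_lit 98, nat_lit 19513757760), (nat_lit 110, nat_lit 19513753728), (nat_lit 92, nat_lit 19496980608), (nat_lit 100, nat_lit 20587499520), (nat_lit 11, nat_lit 20587495488), (nat_lit 19, nat_lit 20587491456), (nat_lit 30, nat_lit 20570722368), (nat_lit 36, nat_lit 20570718336), (nat_lit 78, nat_lit 21661237248), (nat_lit 45, nat_lit 21661233216), (nat_lit 112, nat_lit 21661229184), (nat_lit 88, nat_lit 21644464128), (nat_lit 7, nat_lit 21644460096), (nat_lit 121, nat_lit 21644456064), (nat_lit 121, nat_lit 22734974976), (nat_lit 93, nat_lit 22734970944), (nat_lit 99, nat_lit 22718201856), (nat_lit 86, nat_lit 22718197824), (nat_lit 6, nat_lit 22718193792), (nat_lit 94, nat_lit 23808712704), (nat_lit 31, nat_lit 23791939584), (nat_lit 97, nat_lit 23791935552), (nat_lit 17, nat_lit 24865677312)]⟩,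
   ⟨V6_17366261760, [(nat_lit 8, nat_lit 18440016000), (nat_lit 98, nat_lit 19513757760), (nat_lit 32, nat_lit 19513753728), (nat_lit 50, nat_lit 20587499520), (nat_lit 71, nat_lit 20587495488), (nat_lit 65, nat_lit 20587491456), (nat_lit 67, nat_lit 21661237248), (nat_lit 3, nat_lit 21661233216), (nat_lit 112, nat_lit 21661229184), (nat_lit 76, nat_lit 22734974976), (nat_lit 87, nat_lit 22734970944), (nat_lit 3, nat_lit 23808712704)]⟩],
  [W_18389676032, W_18372902912, W_18372898880, W_18372640832, W_17315938304, W_17299157120, W_16242196544, W_16242192512, W_16241676416, W_15218524160, W_15218262080, W_15202009088, W_15202001024, W_15201747008, W_15201488960, W_15185231936, W_15168458816, W_15168454784, W_15168196736, W_14145044480, W_14144782400, W_14144524352, W_14128267328, W_14111232128, W_14094717056, W_13071306752, W_13071044672, W_13070782592, W_13054267520, W_13037752448, W_11997564992, W_11997560960, W_11997302912, W_11980787840]⟩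
theorem C_18440016000 : chkRec R_18440016000 = true := by decide +kernel

noncomputable def R_18440020032 : Rec := ⟨nat_lit 18440020032, nat_lit 166,
  [⟨V6_18439741440, [(nat_lit 108, nat_lit 18440020032), (nat_lit 97, nat_lit 19513761792), (nat_lit 95, nat_lit 19513757760), (nat_lit 25, nat_lit 19513499712), (nat_lit 118, nat_lit 20587499520), (nat_lit 36, nat_lit 20587495488), (nat_lit 14, nat_lit 20587241472), (nat_lit 45, nat_lit 20587237440), (nat_lit 80, nat_lit 21661237248), (nat_lit 61, nat_lit 21661233216), (nat_lit 31, nat_lit 21660979200), (nat_lit 76, nat_lit 21660975168), (nat_lit 27, nat_lit 22734974976), (nat_lit 90, nat_lit 22734970944), (nat_lit 71, nat_lit 22734716928), (nat_lit 32, nat_lit 22734712896), (nat_lit 113, nat_lit 23808712704), (nat_lit 117, nat_lit 23808454656), (nat_lit 70, nat_lit 23808450624), (nat_lit 25, nat_lit 24882192384)]⟩,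
   ⟨V6_17366261760, [(nat_lit 103, nat_lit 18440020032), (nat_lit 104, nat_lit 19513761792), (nat_lit 114, nat_lit 19513757760), (nat_lit 116, nat_lit 20587499520), (nat_lit 30, nat_lit 20587495488), (nat_lit 24, nat_lit 21661237248), (nat_lit 90, nat_lit 21661233216), (nat_lit 26, nat_lit 22734974976), (nat_lit 58, nat_lit 22734970944), (nat_lit 76, nat_lit 23808712704)]⟩],
  [W_18389676032, W_18372902912, W_18372898880, W_18372644864, W_18372640832, W_17315938304, W_17299165184, W_17298907136, W_17298903104, W_16242196544, W_16225423424, W_15202009088, W_15201747008, W_15185231936, W_15168458816, W_15151685696, W_14144782400, W_14128267328, W_14111494208, W_14111236160, W_14094721088, W_13071306752, W_13071048704, W_13071044672, W_13054271552, W_13037756480, W_11997569024, W_11997564992, W_11980791872]⟩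
theorem C_18440020032 : chkRec R_18440020032 = true := by decide +kernel

noncomputable def R_18440024064 : Rec := ⟨nat_lit 18440024064, nat_lit 50,
  [⟨V6_18439999488, [(nat_lit 28, nat_lit 18440024064), (nat_lit 98, nat_lit 19513761792), (nat_lit 110, nat_lit 20587499520), (nat_lit 53, nat_lit 21661237248), (nat_lit 112, nat_lit 22734974976), (nat_lit 48, nat_lit 23808712704), (nat_lit 86, nat_lit 24882450432)]⟩,
   ⟨V6_11997573120, [(nat_lit 21, nat_lit 18440024064)]⟩],
  [W_18389676032, W_18372902912, W_17315938304, W_17299165184, W_15202009088, W_14094725120]⟩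
theorem C_18440024064 : chkRec R_18440024064 = true := by decide +kernel

noncomputable def R_18440265858 : Rec := ⟨nat_lit 18440265858, nat_lit 14,
  [⟨V6_15168708738, [(nat_lit 91, nat_lit 18440265858), (nat_lit 54, nat_lit 19497230466), (nat_lit 97, nat_lit 20554195074), (nat_lit 6, nat_lit 21611159682)]⟩,
   ⟨V6_14145298560, [(nat_lit 40, nat_lit 18440265858), (nat_lit 60, nat_lit 19514007681), (nat_lit 23, nat_lit 20587749504)]⟩],
  [W_18422440064, W_18405924992, W_17365475456]⟩
theorem C_18440265858 : chkRec R_18440265858 = true := by decide +kernel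

noncomputable def R_18440269953 : Rec := ⟨nat_lit 18440269953, nat_lit 82,
  [⟨V6_16291995777, [(nat_lit 122, nat_lit 18440269953), (nat_lit 55, nat_lit 19514007681), (nat_lit 29, nat_lit 19513749633), (nat_lit 42, nat_lit 20587487361), (nat_lit 110, nat_lit 20587229313), (nat_lit 28, nat_lit 21660967041), (nat_lit 29, nat_lit 21660708993), (nat_lit 89, nat_lit 22734446721)]⟩,
   ⟨V6_16276004928, [(nat_lit 35, nat_lit 18440269953), (nat_lit 119, nat_lit 19514011776), (nat_lit 49, nat_lit 19514011713), (nat_lit 50, nat_lit 19514007681), (nat_lit 108, nat_lit 19497234561), (nat_lit 2, nat_lit 20587753536), (nat_lit 12, nat_lit 20587749504), (nat_lit 51, nat_lit 20587749441), (nat_lit 17, nat_lit 20570976384), (nat_lit 40, nat_lit 20570976321), (nat_lit 14, nat_lit 20570972289), (nat_lit 123, nat_lit 21661491264), (nat_lit 57, nat_lit 21644718144), (nat_lit 82, nat_lit 21644714112), (nat_lit 32, nat_lit 21644714049), (nat_lit 8, nat_lit 22718455872)]⟩,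
   ⟨V6_16242450561, [(nat_lit 84, nat_lit 18440269953), (nat_lit 78, nat_lit 19514007681), (nat_lit 49, nat_lit 19497234561), (nat_lit 28, nat_lit 20570972289), (nat_lit 86, nat_lit 20554199169), (nat_lit 106, nat_lit 21627936897), (nat_lit 6, nat_lit 21611163777), (nat_lit 31, nat_lit 22684901505)]⟩],
  [W_18438959168, W_18438955136, W_18422440064, W_18406187072, W_18405924992, W_18389672000, W_18389413952, W_18389409920, W_17365475456, W_17365217408, W_17316192320, W_17315934272, W_16242454592, W_16242450560, W_11997819008]⟩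
theorem C_18440269953 : chkRec R_18440269953 = true := by decide +kernel

noncomputable def R_18440270016 : Rec := ⟨nat_lit 18440270016, nat_lit 88,
  [⟨V6_17366003712, [(nat_lit 57, nat_lit 18440270016), (nat_lit 54, nat_lit 19514011776), (nat_lit 82, nat_lit 19513749696), (nat_lit 8, nat_lit 20587753536), (nat_lit 91, nat_lit 20587491456), (nat_lit 31, nat_lit 20587229376), (nat_lit 53, nat_lit 21661495296), (nat_lit 90, nat_lit 21661233216), (nat_lit 93, nat_lit 21660971136), (nat_lit 58, nat_lit 22734974976), (nat_lit 100, nat_lit 22734712896), (nat_lit 119, nat_lit 23808454656)]⟩],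
  [W_18439221248, W_18438959168, W_18422182016, W_18405666944, W_18389676032, W_17316196352, W_16242454592, W_15185489984, W_15168712832, W_14145302528, W_14144516288, W_13071560768, W_13071298688, W_13071036608, W_11997556928]⟩
theorem C_18440270016 : chkRec R_18440270016 = true := by decide +kernel

noncomputable def R_18440273985 : Rec := ⟨nat_lit 18440273985, nat_lit 94,
  [⟨V6_18422448192, [(nat_lit 81, nat_lit 18440273985), (nat_lit 21, nat_lit 19514015808), (nat_lit 82, nat_lit 19513753665), (nat_lit 118, nat_lit 19497238593), (nat_lit 84, nat_lit 20587495488), (nat_lit 114, nat_lit 20587233345), (nat_lit 63, nat_lit 20570980416), (nat_lit 90, nat_lit 20570718273), (nat_lit 36, nat_lit 21660975168), (nat_lit 113, nat_lit 21660713025), (nat_lit 91, nat_lit 21644460096), (nat_lit 80, nat_lit 21644197953), (nat_lit 98, nat_lit 22734454848), (nat_lit 54, nat_lit 22734192705), (nat_lit 120, nat_lit 22717939776), (nat_lit 30, nat_lit 22717677633), (nat_lit 11, nat_lit 23807934528), (nat_lit 82, nat_lit 23791419456), (nat_lit 120, nat_lit 23791157313),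 (nat_lit 102, nat_lit 24864899136)]⟩,
   ⟨V6_17365483584, [(nat_lit 22, nat_lit 18440273985), (nat_lit 115, nat_lit 19514015808), (nat_lit 4, nat_lit 19513753665), (nat_lit 115, nat_lit 20587495488), (nat_lit 66, nat_lit 20587233345), (nat_lit 44, nat_lit 21660975168), (nat_lit 12, nat_lit 21660713025), (nat_lit 119, nat_lit 22734454848), (nat_lit 95, nat_lit 22734192705), (nat_lit 50, nat_lit 23807934528)]⟩,
   ⟨V6_16291741761, [(nat_lit 99, nat_lit 18440273985), (nat_lit 84, nat_lit 19513753665), (nat_lit 118, nat_lit 20587233345), (nat_lit 41, nat_lit 21660713025), (nat_lit 68, nat_lit 22734192705)]⟩],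
  [W_17332965440, W_17316192320, W_17315934272, W_16242454592, W_15201747008, W_15185231936, W_15168716864, W_14144782400, W_14128525376, W_14128267328, W_13071560768, W_13071302720, W_13054787648, W_11997823040]⟩
theorem C_18440273985 : chkRec R_18440273985 = true := by decide +kernel

noncomputable def R_18440274048 : Rec := ⟨nat_lit 18440274048, nat_lit 242,
  [⟨V6_18439741440, [(nat_lit 113, nat_lit 18440274048), (nat_lit 13, nat_lit 19514015808), (nat_lit 116, nat_lit 19514011776), (nat_lit 119, nat_lit 19513753728), (nat_lit 7, nat_lit 20587757568), (nat_lit 92, nat_lit 20587753536), (nat_lit 101, nat_lit 20587749504), (nat_lit 47, nat_lit 20587495488), (nat_lit 63, nat_lit 20587491456), (nat_lit 109, nat_lit 20587233408), (nat_lit 32, nat_lit 21661495296), (nat_lit 9, nat_lit 21661491264), (nat_lit 15, nat_lit 21661237248), (nat_lit 42, nat_lit 21661233216), (nat_lit 10, nat_lit 21661229184), (nat_lit 102, nat_lit 21660975168), (nat_lit 75, nat_lit 21660971136), (nat_lit 125, nat_lit 22735233024), (nat_lit 17, nat_lit 22734974976), (nat_lit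 23, nat_lit 22734970944), (nat_lit 35, nat_lit 22734716928), (nat_lit 14, nat_lit 22734712896), (nat_lit 25, nat_lit 22734708864), (nat_lit 125, nat_lit 23808712704), (nat_lit 79, nat_lit 23808454656), (nat_lit 105, nat_lit 23808450624), (nat_lit 103, nat_lit 24882192384)]⟩,
   ⟨V6_18439225344, [(nat_lit 68, nat_lit 18440274048), (nat_lit 37, nat_lit 19514015808), (nat_lit 27, nat_lit 19513753728), (nat_lit 48, nat_lit 20587757568), (nat_lit 32, nat_lit 20587495488), (nat_lit 58, nat_lit 20587233408), (nat_lit 64, nat_lit 21661237248), (nat_lit 20, nat_lit 21660975168), (nat_lit 63, nat_lit 21660713088), (nat_lit 87, nat_lit 22734716928), (nat_lit 53, nat_lit 22734454848), (nat_lit 48, nat_lit 22734192768), (nat_lit 77, nat_lit 23808196608), (nat_lit 34, nat_lit 23807934528), (nat_lit 81, nat_lit 24881676288)]⟩,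
   ⟨V6_18422448192, [(nat_lit 82, nat_lit 18440274048), (nat_lit 95, nat_lit 19514015808), (nat_lit 40, nat_lit 19513753728), (nat_lit 125, nat_lit 19497238656), (nat_lit 28, nat_lit 20587495488), (nat_lit 1, nat_lit 20587233408), (nat_lit 38, nat_lit 20570980416), (nat_lit 32, nat_lit 20570718336), (nat_lit 83, nat_lit 21660975168), (nat_lit 97, nat_lit 21660713088), (nat_lit 100, nat_lit 21644460096), (nat_lit 22, nat_lit 21644198016), (nat_lit 124, nat_lit 22734454848), (nat_lit 58, nat_lit 22734192768), (nat_lit 51, nat_lit 22717939776), (nat_lit 65, nat_lit 22717677696), (nat_lit 96, nat_lit 23807934528), (nat_lit 122, nat_lit 23791419456), (nat_lit 19, nat_lit 23791157376), (nat_lit 121, nat_lit 24864899136)]⟩,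
   ⟨V6_17365483584, [(nat_lit 40, nat_lit 18440274048), (nat_lit 109, nat_lit 19514015808), (nat_lit 104, nat_lit 19513753728), (nat_lit 123, nat_lit 20587495488), (nat_lit 85, nat_lit 20587233408), (nat_lit 45, nat_lit 21660975168), (nat_lit 28, nat_lit 21660713088), (nat_lit 78, nat_lit 22734454848), (nat_lit 74, nat_lit 22734192768), (nat_lit 90, nat_lit 23807934528)]⟩,
   ⟨V6_16291741824, [(nat_lit 99, nat_lit 18440274048), (nat_lit 84, nat_lit 19513753728), (nat_lit 118, nat_lit 20587233408), (nat_lit 41, nat_lit 21660713088), (nat_lit 68, nat_lit 22734192768)]⟩],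
  [W_18422448128, W_18389934080, W_18389676032, W_17365483520, W_17316196352, W_17316192320, W_17315938304, W_16242458624, W_16242454592, W_16242450560, W_16242196544, W_15218524160, W_15202009088, W_15202001024, W_15185494016, W_15185231936, W_15168716864, W_15168712832, W_15168454784, W_14145044480, W_14128529408, W_14128267328, W_14094975104, W_13071564800, W_13071556736, W_13071302720, W_13054783616, W_13038010496, W_11997823040, W_11997819008, W_11997560960, W_11981045888]⟩
theorem C_18440274048 : chkRec R_18440274048 = true := by decide +kernel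

noncomputable def R_18440278080 : Rec := ⟨nat_lit 18440278080, nat_lit 246,
  [⟨V6_18439999488, [(nat_lit 97, nat_lit 18440278080), (nat_lit 122, nat_lit 19514019840), (nat_lit 6, nat_lit 19514015808), (nat_lit 47, nat_lit 19513757760), (nat_lit 91, nat_lit 20587757568), (nat_lit 126, nat_lit 20587753536), (nat_lit 50, nat_lit 20587499520), (nat_lit 34, nat_lit 20587495488), (nat_lit 108, nat_lit 21661495296), (nat_lit 100, nat_lit 21661491264), (nat_lit 3, nat_lit 21661237248), (nat_lit 77, nat_lit 21661233216), (nat_lit 42, nat_lit 22735233024), (nat_lit 87, nat_lit 22735228992), (nat_lit 70, nat_lit 22734974976), (nat_lit 81, nat_lit 22734970944), (nat_lit 3, nat_lit 23808970752), (nat_lit 28, nat_lit 23808712704), (nat_lit 59, nat_lit 23808708672), (nat_lit 92, nat_lit 24882450432)]⟩,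
   ⟨V6_18423484416, [(nat_lit 75, nat_lit 18440278080), (nat_lit 118, nat_lit 19514019840), (nat_lit 46, nat_lit 19514015808), (nat_lit 10, nat_lit 19497242688), (nat_lit 26, nat_lit 20587757568), (nat_lit 15, nat_lit 20587753536), (nat_lit 114, nat_lit 20570984448), (nat_lit 87, nat_lit 20570980416), (nat_lit 125, nat_lit 21661495296), (nat_lit 31, nat_lit 21661491264), (nat_lit 33, nat_lit 21644722176), (nat_lit 71, nat_lit 21644718144), (nat_lit 116, nat_lit 22735233024), (nat_lit 110, nat_lit 22735228992), (nat_lit 95, nat_lit 22718459904), (nat_lit 117, nat_lit 22718455872), (nat_lit 105, nat_lit 23808970752), (nat_lit 48, nat_lit 23792197632), (nat_lit 96, nat_lit 23792193600), (nat_lit 46, nat_lit 24865935360)]⟩,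
   ⟨V6_18423222336, [(nat_lit 116, nat_lit 18440278080), (nat_lit 36, nat_lit 19514015808), (nat_lit 31, nat_lit 19513757760), (nat_lit 24, nat_lit 19497242688), (nat_lit 55, nat_lit 20587753536), (nat_lit 125, nat_lit 20587495488), (nat_lit 67, nat_lit 20570980416), (nat_lit 41, nat_lit 20570722368), (nat_lit 34, nat_lit 21661491264), (nat_lit 110, nat_lit 21661233216), (nat_lit 58, nat_lit 21644718144), (nat_lit 60, nat_lit 21644460096), (nat_lit 11, nat_lit 22735228992), (nat_lit 1, nat_lit 22734970944), (nat_lit 121, nat_lit 22718455872), (nat_lit 56, nat_lit 22718197824), (nat_lit 112, nat_lit 23808708672), (nat_lit 120, nat_lit 23792193600), (nat_lit 79, nat_lit 23791935552), (nat_lit 91, nat_lit 24865673280)]⟩,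
   ⟨V6_18406707264, [(nat_lit 82, nat_lit 18440278080), (nat_lit 71, nat_lit 19514015808), (nat_lit 7, nat_lit 19497242688), (nat_lit 59, nat_lit 20587753536), (nat_lit 107, nat_lit 20570980416), (nat_lit 108, nat_lit 20554207296), (nat_lit 70, nat_lit 21661491264), (nat_lit 82, nat_lit 21644718144), (nat_lit 66, nat_lit 21627945024), (nat_lit 63, nat_lit 22735228992), (nat_lit 40, nat_lit 22718455872), (nat_lit 42, nat_lit 22701682752), (nat_lit 49, nat_lit 23792193600), (nat_lit 13, nat_lit 23775420480), (nat_lit 86, nat_lit 24849158208)]⟩,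
   ⟨V6_17366519808, [(nat_lit 46, nat_lit 18440278080), (nat_lit 109, nat_lit 19514019840), (nat_lit 10, nat_lit 19514015808), (nat_lit 47, nat_lit 20587757568), (nat_lit 4, nat_lit 20587753536), (nat_lit 59, nat_lit 21661495296), (nat_lit 116, nat_lit 21661491264), (nat_lit 4, nat_lit 22735233024), (nat_lit 58, nat_lit 22735228992), (nat_lit 45, nat_lit 23808970752)]⟩,
   ⟨V6_17349742656, [(nat_lit 110, nat_lit 18440278080), (nat_lit 60, nat_lit 19514015808), (nat_lit 35, nat_lit 19497242688), (nat_lit 34, nat_lit 20587753536), (nat_lit 4, nat_lit 20570980416), (nat_lit 75, nat_lit 21661491264), (nat_lit 55, nat_lit 21644718144), (nat_lit 92, nat_lit 22735228992), (nat_lit 8, nat_lit 22718455872), (nat_lit 73, nat_lit 23792193600)]⟩],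
  [W_18389934080, W_18389676032, W_17316196352, W_17316192320, W_17315938304, W_16242458624, W_16242454592, W_16242196544, W_15218524160, W_15218262080, W_15202009088, W_15201747008, W_15185494016, W_15185231936, W_15168716864, W_14145044480, W_14144782400, W_14144524352, W_14128529408, W_14128525376, W_14128267328, W_14094979136, W_13071564800, W_13071560768, W_13071044672, W_13054787648, W_11997827072, W_11997564992, W_11981049920]⟩
theorem C_18440278080 : chkRec R_18440278080 = true := by decide +kernel

noncomputable def R_18440282112 : Rec := ⟨nat_lit 18440282112, nat_lit 148,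
  [⟨V6_17366519808, [(nat_lit 112, nat_lit 18440282112), (nat_lit 65, nat_lit 19514019840), (nat_lit 45, nat_lit 20587757568), (nat_lit 35, nat_lit 21661495296), (nat_lit 55, nat_lit 22735233024), (nat_lit 57, nat_lit 23808970752)]⟩,
   ⟨V6_17315684352, [(nat_lit 53, nat_lit 18440282112), (nat_lit 52, nat_lit 19513761792), (nat_lit 91, nat_lit 19497246720), (nat_lit 42, nat_lit 20587241472), (nat_lit 16, nat_lit 20570726400), (nat_lit 89, nat_lit 20554211328), (nat_lit 33, nat_lit 21644206080), (nat_lit 19, nat_lit 21627691008), (nat_lit 88, nat_lit 21611175936), (nat_lit 118, nat_lit 22701170688), (nat_lit 26, nat_lit 22684655616), (nat_lit 58, nat_lit 23758135296)]⟩,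
   ⟨V6_16292782080, [(nat_lit 47, nat_lit 18440282112), (nat_lit 2, nat_lit 19514019840), (nat_lit 69, nat_lit 20587757568), (nat_lit 119, nat_lit 21661495296), (nat_lit 44, nat_lit 22735233024)]⟩,
   ⟨V6_15168724992, [(nat_lit 10, nat_lit 18440282112), (nat_lit 112, nat_lit 19497246720), (nat_lit 93, nat_lit 20554211328), (nat_lit 83, nat_lit 21611175936)]⟩],
  [W_18406707200, W_18389934080, W_18389676032, W_18389417984, W_17316196352, W_17315938304, W_16242458624, W_15218524160, W_15202009088, W_15185494016, W_14128013312, W_13071048704, W_11997569024]⟩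
theorem C_18440282112 : chkRec R_18440282112 = true := by decide +kernel

noncomputable def R_18440528001 : Rec := ⟨nat_lit 18440528001, nat_lit 36,
  [⟨V6_15185748033, [(nat_lit 112, nat_lit 18440528001), (nat_lit 10, nat_lit 19514269761), (nat_lit 48, nat_lit 19497492609), (nat_lit 93, nat_lit 20571234369), (nat_lit 124, nat_lit 20554457217), (nat_lit 88, nat_lit 21628198977)]⟩,
   ⟨V6_14145298560, [(nat_lit 48, nat_lit 18440528001), (nat_lit 45, nat_lit 19514269824), (nat_lit 68, nat_lit 19514007681), (nat_lit 100, nat_lit 20587749504)]⟩,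
   ⟨V6_14112006273, [(nat_lit 45, nat_lit 18440528001), (nat_lit 125, nat_lit 19497492609), (nat_lit 71, nat_lit 20554457217)]⟩,
   ⟨V6_11998077057, [(nat_lit 51, nat_lit 18440528001)]⟩],
  [W_18439217216, W_18422440064, W_18406187072, W_18405924992, W_17365475456, W_13071818816]⟩
theorem C_18440528001 : chkRec R_18440528001 = true := by decide +kernel

noncomputable def R_18440532033 : Rec := ⟨nat_lit 18440532033, nat_lit 65,
  [⟨V6_18439217217, [(nat_lit 78, nat_lit 18440532033), (nat_lit 112, nat_lit 19514269761), (nat_lit 116, nat_lit 19514011713), (nat_lit 68, nat_lit 20587749441), (nat_lit 20, nat_lit 20587491393), (nat_lit 79, nat_lit 21661229121), (nat_lit 56, nat_lit 21660971073), (nat_lit 114, nat_lit 22734708801), (nat_lit 31, nat_lit 22734450753), (nat_lit 2, nat_lit 23808188481), (nat_lit 73, nat_lit 23807930433), (nat_lit 35, nat_lit 24881668161)]⟩,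
   ⟨V6_18406707264, [(nat_lit 16, nat_lit 18440532033), (nat_lit 120, nat_lit 19514273856), (nat_lit 89, nat_lit 19514269761), (nat_lit 119, nat_lit 19514011713), (nat_lit 79, nat_lit 19497496641), (nat_lit 77, nat_lit 20588011584), (nat_lit 98, nat_lit 20588007489), (nat_lit 3, nat_lit 20587753536), (nat_lit 112, nat_lit 20587749441), (nat_lit 68, nat_lit 20571238464), (nat_lit 119, nat_lit 20571234369), (nat_lit 27, nat_lit 20570976321), (nat_lit 66, nat_lit 20554461249), (nat_lit 120, nat_lit 21661749312), (nat_lit 6, nat_lit 21661491264), (nat_lit 95, nat_lit 21661487169), (nat_lit 77, nat_lit 21644976192), (nat_lit 11, nat_lit 21644972097), (nat_lit 67, nat_lit 21644718144), (nat_lit 80, nat_lit 21644714049), (nat_lit 56, nat_lit 21628203072), (nat_lit 54, nat_lit 21628198977), (nat_lit 14, nat_lit 21627940929), (nat_lit 116, nat_lit 22735228992), (nat_lit 121, nat_lit 22718713920), (nat_lit 102, nat_lit 22718455872), (nat_lit 110, nat_lit 22718451777), (nat_lit 5, nat_lit 22701940800), (nat_lit 52, nat_lit 22701936705), (nat_lit 91, nat_lit 22701682752),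 (nat_lit 42, nat_lit 22701678657), (nat_lit 3, nat_lit 23792193600), (nat_lit 16, nat_lit 23775678528), (nat_lit 88, nat_lit 23775420480), (nat_lit 16, nat_lit 23775416385), (nat_lit 74, nat_lit 24849158208)]⟩,
   ⟨V6_16276262976, [(nat_lit 27, nat_lit 18440532033), (nat_lit 97, nat_lit 19514273856), (nat_lit 124, nat_lit 19514269761), (nat_lit 35, nat_lit 19497496641), (nat_lit 60, nat_lit 20588011584), (nat_lit 7, nat_lit 20588007489), (nat_lit 34, nat_lit 20571238464), (nat_lit 28, nat_lit 20571234369), (nat_lit 33, nat_lit 21661749312), (nat_lit 7, nat_lit 21644976192), (nat_lit 71, nat_lit 21644972097), (nat_lit 16, nat_lit 22718713920)]⟩,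
   ⟨V6_15185748033, [(nat_lit 11, nat_lit 18440532033), (nat_lit 75, nat_lit 19514269761), (nat_lit 26, nat_lit 19497496641), (nat_lit 86, nat_lit 20571234369), (nat_lit 108, nat_lit 20554461249), (nat_lit 116, nat_lit 21628198977)]⟩],
  [W_18438959168, W_17332965440, W_16292515904, W_16259485760, W_15202521152, W_15185489984, W_14145556544, W_14128783424, W_14128525376, W_14112010304, W_13071818816, W_13071560768, W_13055045696, W_11998081088]⟩
theorem C_18440532033 : chkRec R_18440532033 = true := by decide +kernel

noncomputable def R_18440532096 : Rec := ⟨nat_lit 18440532096, nat_lit 153,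
  [⟨V6_18406711296, [(nat_lit 98, nat_lit 18440532096), (nat_lit 11, nat_lit 19514273856), (nat_lit 17, nat_lit 19514269824), (nat_lit 62, nat_lit 19514011776), (nat_lit 120, nat_lit 19497496704), (nat_lit 42, nat_lit 20588015616), (nat_lit 6, nat_lit 20588011584), (nat_lit 86, nat_lit 20587753536), (nat_lit 93, nat_lit 20587749504), (nat_lit 2, nat_lit 20571238464), (nat_lit 16, nat_lit 20571234432), (nat_lit 88, nat_lit 20570976384), (nat_lit 63, nat_lit 20554461312), (nat_lit 20, nat_lit 21661753344), (nat_lit 28, nat_lit 21661495296), (nat_lit 45, nat_lit 21661491264), (nat_lit 25, nat_lit 21644980224), (nat_lit 6, nat_lit 21644976192), (nat_lit 58, nat_lit 21644718144), (nat_lit 91, nat_lit 21644714112), (nat_lit 39, nat_lit 21628203072), (nat_lit 32, nat_lit 21628199040), (nat_lit 87, nat_lit 21627940992), (nat_lit 63, nat_lit 22735233024), (nat_lit 5, nat_lit 22718717952), (nat_lit 114, nat_lit 22718459904), (nat_lit 3, nat_lit 22718455872), (nat_lit 6, nat_lit 22701944832), (nat_lit 101, nat_lit 22701940800), (nat_lit 111, nat_lit 22701682752),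 (nat_lit 31, nat_lit 22701678720), (nat_lit 109, nat_lit 23792197632), (nat_lit 59, nat_lit 23775682560), (nat_lit 6, nat_lit 23775424512), (nat_lit 25, nat_lit 23775420480), (nat_lit 47, nat_lit 24849162240)]⟩,
   ⟨V6_17366261760, [(nat_lit 111, nat_lit 18440532096), (nat_lit 62, nat_lit 19514273856), (nat_lit 107, nat_lit 19514269824), (nat_lit 91, nat_lit 19514011776), (nat_lit 56, nat_lit 20588015616), (nat_lit 61, nat_lit 20588011584), (nat_lit 96, nat_lit 20587753536), (nat_lit 89, nat_lit 20587749504), (nat_lit 6, nat_lit 20587491456), (nat_lit 105, nat_lit 21661753344), (nat_lit 100, nat_lit 21661495296), (nat_lit 121, nat_lit 21661491264), (nat_lit 16, nat_lit 21661233216), (nat_lit 119, nat_lit 21661229184), (nat_lit 116, nat_lit 22735233024), (nat_lit 1, nat_lit 22734974976), (nat_lit 28, nat_lit 22734970944), (nat_lit 125, nat_lit 23808712704)]⟩,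
   ⟨V6_16292782080, [(nat_lit 57, nat_lit 18440532096), (nat_lit 67, nat_lit 19514273856), (nat_lit 100, nat_lit 19514269824), (nat_lit 57, nat_lit 19514011776), (nat_lit 88, nat_lit 20588015616), (nat_lit 78, nat_lit 20588011584), (nat_lit 98, nat_lit 20587753536), (nat_lit 28, nat_lit 20587749504), (nat_lit 11, nat_lit 21661753344), (nat_lit 90, nat_lit 21661495296), (nat_lit 7, nat_lit 21661491264), (nat_lit 73, nat_lit 22735233024)]⟩],
  [W_18439221248, W_18438959168, W_18438955136, W_18422440064, W_18422182016, W_18405924992, W_18405666944, W_17365475456, W_17365217408, W_16259489792, W_15202525184, W_15202001024, W_15185752064, W_15185748032, W_15185489984, W_15185485952, W_14145560576, W_14145302528, W_14145036416, W_14128787456, W_14128783424, W_14128525376, W_14128263296, W_14112010304, W_14111748224, W_13071822848, W_13071560768, W_13071556736, W_13071298688, W_13055045696, W_11998081088, W_11997819008, W_11981303936]⟩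
theorem C_18440532096 : chkRec R_18440532096 = true := by decide +kernel

noncomputable def R_18440536128 : Rec := ⟨nat_lit 18440536128, nat_lit 224,
  [⟨V6_18439999488, [(nat_lit 21, nat_lit 18440536128), (nat_lit 123, nat_lit 19514277888), (nat_lit 100, nat_lit 19514273856), (nat_lit 64, nat_lit 19514015808), (nat_lit 20, nat_lit 20588015616), (nat_lit 115, nat_lit 20588011584), (nat_lit 66, nat_lit 20587757568), (nat_lit 18, nat_lit 20587753536), (nat_lit 9, nat_lit 20587495488), (nat_lit 10, nat_lit 21661753344), (nat_lit 31, nat_lit 21661749312), (nat_lit 96, nat_lit 21661495296), (nat_lit 114, nat_lit 21661491264), (nat_lit 117, nat_lit 21661237248), (nat_lit 20, nat_lit 21661233216), (nat_lit 22, nat_lit 22735491072), (nat_lit 49, nat_lit 22735233024), (nat_lit 104, nat_lit 22735228992), (nat_lit 108, nat_lit 22734974976), (nat_lit 94, nat_lit 22734970944), (nat_lit 70, nat_lit 23808970752), (nat_lit 44, nat_lit 23808712704), (nat_lit 79, nat_lit 23808708672), (nat_lit 43, nat_lit 24882450432)]⟩,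
   ⟨V6_18439225344, [(nat_lit 43, nat_lit 18440536128), (nat_lit 40, nat_lit 19514277888), (nat_lit 39, nat_lit 19514015808), (nat_lit 43, nat_lit 20587757568), (nat_lit 104, nat_lit 20587495488), (nat_lit 78, nat_lit 21661237248), (nat_lit 19, nat_lit 21660975168), (nat_lit 81, nat_lit 22734716928), (nat_lit 91, nat_lit 22734454848), (nat_lit 99, nat_lit 23808196608), (nat_lit 18, nat_lit 23807934528), (nat_lit 116, nat_lit 24881676288)]⟩,
   ⟨V6_18422448192, [(nat_lit 32, nat_lit 18440536128), (nat_lit 107, nat_lit 19514015808), (nat_lit 10, nat_lit 19497500736), (nat_lit 91, nat_lit 20587495488), (nat_lit 116, nat_lit 20570980416), (nat_lit 9, nat_lit 21660975168), (nat_lit 50, nat_lit 21644460096), (nat_lit 26, nat_lit 22734454848), (nat_lit 69, nat_lit 22717939776), (nat_lit 6, nat_lit 23807934528), (nat_lit 49, nat_lit 23791419456), (nat_lit 61, nat_lit 24864899136)]⟩,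
   ⟨V6_17366519808, [(nat_lit 106, nat_lit 18440536128), (nat_lit 90, nat_lit 19514277888), (nat_lit 113, nat_lit 19514273856), (nat_lit 22, nat_lit 19514015808), (nat_lit 64, nat_lit 20588015616), (nat_lit 113, nat_lit 20588011584), (nat_lit 62, nat_lit 20587757568), (nat_lit 55, nat_lit 20587753536), (nat_lit 72, nat_lit 21661753344), (nat_lit 13, nat_lit 21661749312), (nat_lit 123, nat_lit 21661495296), (nat_lit 117, nat_lit 21661491264), (nat_lit 56, nat_lit 22735491072), (nat_lit 47, nat_lit 22735233024), (nat_lit 27, nat_lit 22735228992), (nat_lit 34, nat_lit 23808970752)]⟩,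
   ⟨V6_17365483584, [(nat_lit 98, nat_lit 18440536128), (nat_lit 84, nat_lit 19514015808), (nat_lit 114, nat_lit 20587495488), (nat_lit 11, nat_lit 21660975168), (nat_lit 86, nat_lit 22734454848), (nat_lit 85, nat_lit 23807934528)]⟩],
  [W_18422448128, W_18406707200, W_17365483520, W_17333227520, W_17332965440, W_16276262912, W_16259489792, W_16259485760, W_15218524160, W_15202009088, W_15185752064, W_15185748032, W_15185494016, W_15185231936, W_14145044480, W_14144782400, W_14128787456, W_14128529408, W_14128525376, W_14128267328, W_14112014336, W_14111752256, W_13071564800, W_13071560768, W_13071302720, W_13055049728, W_13054787648, W_13038272576, W_11998085120, W_11998081088, W_11997823040]⟩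
theorem C_18440536128 : chkRec R_18440536128 = true := by decide +kernel

noncomputable def R_18440540160 : Rec := ⟨nat_lit 18440540160, nat_lit 154,
  [⟨V6_18439741440, [(nat_lit 61, nat_lit 18440540160), (nat_lit 106, nat_lit 19514277888), (nat_lit 34, nat_lit 19514019840), (nat_lit 107, nat_lit 20588015616), (nat_lit 107, nat_lit 20587757568), (nat_lit 46, nat_lit 20587499520), (nat_lit 97, nat_lit 21661753344), (nat_lit 110, nat_lit 21661495296), (nat_lit 6, nat_lit 21661237248), (nat_lit 1, nat_lit 21660979200), (nat_lit 97, nat_lit 22735233024), (nat_lit 45, nat_lit 22734974976), (nat_lit 74, nat_lit 22734716928), (nat_lit 55, nat_lit 23808712704), (nat_lit 84, nat_lit 23808454656), (nat_lit 114, nat_lit 24882192384)]⟩,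
   ⟨V6_18423742464, [(nat_lit 97, nat_lit 18440540160), (nat_lit 2, nat_lit 19514277888), (nat_lit 126, nat_lit 19497504768), (nat_lit 78, nat_lit 20588015616), (nat_lit 110, nat_lit 20571242496), (nat_lit 48, nat_lit 21661753344), (nat_lit 105, nat_lit 21644980224), (nat_lit 96, nat_lit 22735491072), (nat_lit 33, nat_lit 22718717952), (nat_lit 29, nat_lit 23809228800), (nat_lit 111, nat_lit 23792455680), (nat_lit 20, nat_lit 24866193408)]⟩,
   ⟨V6_17366519808, [(nat_lit 20, nat_lit 18440540160), (nat_lit 71, nat_lit 19514277888), (nat_lit 86, nat_lit 19514019840), (nat_lit 2, nat_lit 20588015616), (nat_lit 109, nat_lit 20587757568), (nat_lit 1, nat_lit 21661753344), (nat_lit 109, nat_lit 21661495296), (nat_lit 122, nat_lit 22735491072), (nat_lit 94, nat_lit 22735233024), (nat_lit 89, nat_lit 23808970752)]⟩],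
  [W_18406707200, W_17350000640, W_17332195328, W_15218524160, W_15218266112, W_15202525184, W_15202009088, W_15185752064, W_15185494016, W_14145302528, W_14145044480, W_14128787456, W_14128529408, W_14112014336, W_13071564800, W_13071306752, W_13038276608, W_11998085120, W_11997827072, W_11981312000]⟩
theorem C_18440540160 : chkRec R_18440540160 = true := by decide +kernel

noncomputable def R_18440790081 : Rec := ⟨nat_lit 18440790081, nat_lit 32,
  [⟨V6_18439217217, [(nat_lit 119, nat_lit 18440790081), (nat_lit 94, nat_lit 19514269761), (nat_lit 75, nat_lit 20587749441), (nat_lit 120, nat_lit 21661229121), (nat_lit 83, nat_lit 22734708801), (nat_lit 49, nat_lit 23808188481), (nat_lit 46, nat_lit 24881668161)]⟩,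
   ⟨V6_17365995585, [(nat_lit 68, nat_lit 18440790081), (nat_lit 88, nat_lit 19514527809), (nat_lit 111, nat_lit 19514269761), (nat_lit 115, nat_lit 20588007489), (nat_lit 126, nat_lit 20587749441), (nat_lit 96, nat_lit 21661487169), (nat_lit 47, nat_lit 21661229121), (nat_lit 93, nat_lit 22734966849), (nat_lit 23, nat_lit 22734708801), (nat_lit 120, nat_lit 23808446529)]⟩,
   ⟨V6_15202783296, [(nat_lit 12, nat_lit 18440790081), (nat_lit 50, nat_lit 19514531904), (nat_lit 11, nat_lit 19514527809), (nat_lit 87, nat_lit 19497754689), (nat_lit 123, nat_lit 20588269632), (nat_lit 55, nat_lit 20571496512), (nat_lit 23, nat_lit 20571492417), (nat_lit 18, nat_lit 21645234240)]⟩],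
  [W_16292515904, W_16276000832, W_15202521152, W_14145556544, W_14128783424, W_13071818816, W_13055303744]⟩
theorem C_18440790081 : chkRec R_18440790081 = true := by decide +kernel

noncomputable def R_18440790144 : Rec := ⟨nat_lit 18440790144, nat_lit 62,
  [⟨V6_17365737600, [(nat_lit 9, nat_lit 18440790144), (nat_lit 91, nat_lit 19514269824), (nat_lit 82, nat_lit 20587749504), (nat_lit 101, nat_lit 21661229184), (nat_lit 11, nat_lit 22734708864), (nat_lit 9, nat_lit 23808188544)]⟩,
   ⟨V6_15202787328, [(nat_lit 2, nat_lit 18440790144), (nat_lit 14, nat_lit 19514531904), (nat_lit 20, nat_lit 19497754752), (nat_lit 112, nat_lit 20588273664), (nat_lit 117, nat_lit 20571496512), (nat_lit 107, nat_lit 21645238272)]⟩],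
  [W_18439217216, W_18438955136, W_18422440064, W_17365475456, W_15202525184, W_15202001024, W_14145560576, W_14129045504, W_14128783424, W_13072080896, W_13071818816, W_13055303744]⟩
theorem C_18440790144 : chkRec R_18440790144 = true := by decide +kernel

noncomputable def R_18440794176 : Rec := ⟨nat_lit 18440794176, nat_lit 139,
  [⟨V6_18439741440, [(nat_lit 105, nat_lit 18440794176), (nat_lit 23, nat_lit 19514535936), (nat_lit 75, nat_lit 19514531904), (nat_lit 21, nat_lit 19514273856), (nat_lit 116, nat_lit 20588273664), (nat_lit 62, nat_lit 20588015616), (nat_lit 112, nat_lit 20588011584), (nat_lit 91, nat_lit 20587753536), (nat_lit 118, nat_lit 21661753344), (nat_lit 123, nat_lit 21661495296), (nat_lit 58, nat_lit 21661491264), (nat_lit 5, nat_lit 21661233216), (nat_lit 39, nat_lit 22735233024), (nat_lit 72, nat_lit 22734974976), (nat_lit 28, nat_lit 22734970944), (nat_lit 123, nat_lit 22734712896), (nat_lit 98, nat_lit 23808712704), (nat_lit 83, nat_lit 23808454656), (nat_lit 19, nat_lit 23808450624), (nat_lit 124, nat_lit 24882192384)]⟩,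
   ⟨V6_16276262976, [(nat_lit 96, nat_lit 18440794176), (nat_lit 1, nat_lit 19514531904), (nat_lit 85, nat_lit 19514273856), (nat_lit 19, nat_lit 19497758784), (nat_lit 69, nat_lit 20588269632), (nat_lit 56, nat_lit 20588011584), (nat_lit 97, nat_lit 20571496512), (nat_lit 63, nat_lit 20571238464), (nat_lit 115, nat_lit 21661749312), (nat_lit 40, nat_lit 21645234240), (nat_lit 46, nat_lit 21644976192), (nat_lit 103, nat_lit 22718713920)]⟩,
   ⟨V6_15219302400, [(nat_lit 99, nat_lit 18440794176), (nat_lit 24, nat_lit 19514535936), (nat_lit 16, nat_lit 19514531904), (nat_lit 16, nat_lit 19514273856), (nat_lit 39, nat_lit 20588273664), (nat_lit 66, nat_lit 20588015616), (nat_lit 118, nat_lit 20588011584), (nat_lit 115, nat_lit 21661753344)]⟩],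
  [W_18439221248, W_18438959168, W_16276262912, W_16276000832, W_15219298304, W_15202783232, W_15202525184, W_15202521152, W_14145818624, W_14145560576, W_14145556544, W_14145302528, W_14129045504, W_14128787456, W_14128783424, W_14128525376, W_13072080896, W_13072076864, W_13071822848, W_13071818816, W_13071560768, W_13055307776, W_13055045696, W_11998081088, W_11981566016]⟩
theorem C_18440794176 : chkRec R_18440794176 = true := by decide +kernel

noncomputable def R_18440798208 : Rec := ⟨nat_lit 18440798208, nat_lit 124,
  [⟨V6_18439225344, [(nat_lit 53, nat_lit 18440798208), (nat_lit 44, nat_lit 19514277888), (nat_lit 27, nat_lit 20587757568), (nat_lit 94, nat_lit 21661237248), (nat_lit 101, nat_lit 22734716928), (nat_lit 104, nat_lit 23808196608), (nat_lit 108, nat_lit 24881676288)]⟩,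
   ⟨V6_17366003712, [(nat_lit 25, nat_lit 18440798208), (nat_lit 93, nat_lit 19514535936), (nat_lit 90, nat_lit 19514277888), (nat_lit 110, nat_lit 20588015616), (nat_lit 27, nat_lit 20587757568), (nat_lit 92, nat_lit 21661495296), (nat_lit 109, nat_lit 21661237248), (nat_lit 49, nat_lit 22734974976), (nat_lit 111, nat_lit 22734716928), (nat_lit 22, nat_lit 23808454656)]⟩],
  [W_17350000640, W_16276520960, W_16276262912, W_15219556352, W_15219298304, W_15218524160, W_15202783232, W_15202525184, W_15202009088, W_14145818624, W_14145560576, W_14145044480, W_14129045504, W_14128787456, W_13072080896, W_13055307776, W_11981570048]⟩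
theorem C_18440798208 : chkRec R_18440798208 = true := by decide +kernel

noncomputable def R_18441048129 : Rec := ⟨nat_lit 18441048129, nat_lit 9,
  [⟨V6_18439475265, [(nat_lit 76, nat_lit 18441048129), (nat_lit 18, nat_lit 19514527809), (nat_lit 23, nat_lit 20588007489), (nat_lit 26, nat_lit 21661487169), (nat_lit 125, nat_lit 22734966849), (nat_lit 32, nat_lit 23808446529), (nat_lit 116, nat_lit 24881926209)]⟩,
   ⟨V6_11998597185, [(nat_lit 92, nat_lit 18441048129)]⟩],
  [W_18439475264, W_11998597184]⟩
theorem C_18441048129 : chkRec R_18441048129 = true := by decide +kernel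

noncomputable def R_18441052224 : Rec := ⟨nat_lit 18441052224, nat_lit 47,
  [⟨V6_15219302400, [(nat_lit 49, nat_lit 18441052224), (nat_lit 101, nat_lit 19514793984), (nat_lit 108, nat_lit 19514531904), (nat_lit 70, nat_lit 20588273664), (nat_lit 27, nat_lit 20588011584), (nat_lit 15, nat_lit 21661753344)]⟩,
   ⟨V6_14146080768, [(nat_lit 15, nat_lit 18441052224), (nat_lit 85, nat_lit 19514793984), (nat_lit 77, nat_lit 19514789952), (nat_lit 102, nat_lit 20588531712)]⟩,
   ⟨V6_13072343040, [(nat_lit 2, nat_lit 18441052224), (nat_lit 53, nat_lit 19514793984)]⟩,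
   ⟨V6_13072339008, [(nat_lit 105, nat_lit 18441052224), (nat_lit 122, nat_lit 19514789952)]⟩],
  [W_18439475264, W_18439217216, W_16292515904, W_15219298304, W_14145556544, W_13072076864, W_11998597184]⟩
theorem C_18441052224 : chkRec R_18441052224 = true := by decide +kernel

noncomputable def R_18441056256 : Rec := ⟨nat_lit 18441056256, nat_lit 51,
  [⟨V6_17366003712, [(nat_lit 71, nat_lit 18441056256), (nat_lit 119, nat_lit 19514535936), (nat_lit 89, nat_lit 20588015616), (nat_lit 8, nat_lit 21661495296), (nat_lit 39, nat_lit 22734974976), (nat_lit 95, nat_lit 23808454656)]⟩],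
  [W_18439221248, W_15219556352, W_15219298304, W_14145818624, W_14145302528, W_13072080896, W_13071822848]⟩
theorem C_18441056256 : chkRec R_18441056256 = true := by decide +kernel

noncomputable def R_18456002754 : Rec := ⟨nat_lit 18456002754, nat_lit 8,
  [⟨V6_14161035456, [(nat_lit 3, nat_lit 18456002754), (nat_lit 68, nat_lit 19529744577), (nat_lit 43, nat_lit 20603486400)]⟩],
  [W_18405666944, W_18388893824, W_18372116672]⟩
theorem C_18456002754 : chkRec R_18456002754 = true := by decide +kernel

noncomputable def R_18456002817 : Rec := ⟨nat_lit 18456002817, nat_lit 11,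
  [⟨V6_14144258241, [(nat_lit 97, nat_lit 18456002817), (nat_lit 12, nat_lit 19529744577), (nat_lit 11, nat_lit 19512967425), (nat_lit 18, nat_lit 20586709185)]⟩,
   ⟨V6_14127481089, [(nat_lit 94, nat_lit 18456002817), (nat_lit 37, nat_lit 19512967425), (nat_lit 1, nat_lit 20569932033)]⟩],
  [W_17348706368, W_15234777152]⟩
theorem C_18456002817 : chkRec R_18456002817 = true := by decide +kernel

noncomputable def R_18456260802 : Rec := ⟨nat_lit 18456260802, nat_lit 7,
  [⟨V6_14161293504, [(nat_lit 98, nat_lit 18456260802), (nat_lit 20, nat_lit 19530002625), (nat_lit 50, nat_lit 20603744448)]⟩],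
  [W_18405666944, W_18389151872, W_18372374720]⟩
theorem C_18456260802 : chkRec R_18456260802 = true := by decide +kernel

noncomputable def R_18456264834 : Rec := ⟨nat_lit 18456264834, nat_lit 18,
  [⟨V6_15234777216, [(nat_lit 44, nat_lit 18456264834), (nat_lit 114, nat_lit 19530006657), (nat_lit 36, nat_lit 19529744514), (nat_lit 26, nat_lit 20603748480), (nat_lit 90, nat_lit 20603486337), (nat_lit 102, nat_lit 21677228160)]⟩],
  [W_18405924992, W_18389151872, W_17348960384, W_17332187264]⟩
theorem C_18456264834 : chkRec R_18456264834 = true := by decide +kernel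

noncomputable def R_18456264897 : Rec := ⟨nat_lit 18456264897, nat_lit 37,
  [⟨V6_15234777216, [(nat_lit 121, nat_lit 18456264897), (nat_lit 16, nat_lit 19530006720), (nat_lit 105, nat_lit 19530006657), (nat_lit 97, nat_lit 19529744577), (nat_lit 66, nat_lit 20603748480), (nat_lit 124, nat_lit 20603486400), (nat_lit 52, nat_lit 20603486337), (nat_lit 63, nat_lit 21677228160)]⟩,
   ⟨V6_15234773184, [(nat_lit 87, nat_lit 18456264897), (nat_lit 1, nat_lit 19530006720), (nat_lit 108, nat_lit 19530002625), (nat_lit 14, nat_lit 19529744577), (nat_lit 21, nat_lit 20603744448), (nat_lit 22, nat_lit 20603486400), (nat_lit 102, nat_lit 20603482305), (nat_lit 108, nat_lit 21677224128)]⟩,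
   ⟨V6_14161035456, [(nat_lit 78, nat_lit 18456264897), (nat_lit 44, nat_lit 19530006720), (nat_lit 122, nat_lit 19529744577), (nat_lit 121, nat_lit 20603486400)]⟩],
  [W_18405929024, W_18405666944, W_18389155904, W_18389151872, W_18388893824, W_18372378752, W_18372374720, W_17348706368]⟩
theorem C_18456264897 : chkRec R_18456264897 = true := by decide +kernel

noncomputable def R_18456264960 : Rec := ⟨nat_lit 18456264960, nat_lit 36,
  [⟨V6_16308781056, [(nat_lit 18, nat_lit 18456264960), (nat_lit 67, nat_lit 19530006720), (nat_lit 29, nat_lit 20603748480), (nat_lit 64, nat_lit 21677490240), (nat_lit 77, nat_lit 22751232000)]⟩,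
   ⟨V6_14144258304, [(nat_lit 112, nat_lit 18456264960), (nat_lit 104, nat_lit 19529744640), (nat_lit 91, nat_lit 19513229568), (nat_lit 106, nat_lit 20586709248)]⟩],
  [W_18422448128, W_18388893824, W_18372378752, W_18372116672, W_17348706368, W_17315152064, W_17298636992, W_15234777152, W_15167930624]⟩
theorem C_18456264960 : chkRec R_18456264960 = true := by decide +kernel

noncomputable def R_18456268929 : Rec := ⟨nat_lit 18456268929, nat_lit 29,
  [⟨V6_17365737600, [(nat_lit 110, nat_lit 18456268929), (nat_lit 38, nat_lit 19530010752), (nat_lit 11, nat_lit 19530006657), (nat_lit 110, nat_lit 19513233537), (nat_lit 46, nat_lit 20603748480), (nat_lit 121, nat_lit 20603744385), (nat_lit 96, nat_lit 20586975360), (nat_lit 54, nat_lit 20586971265), (nat_lit 72, nat_lit 21677486208), (nat_lit 11, nat_lit 21677482113), (nat_lit 119, nat_lit 21660713088), (nat_lit 92, nat_lit 21660708993), (nat_lit 37, nat_lit 22751223936), (nat_lit 25, nat_lit 22734450816), (nat_lit 55, nat_lit 22734446721), (nat_lit 73, nat_lit 23808188544)]⟩],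
  [W_18405929024, W_18372382784, W_18372378752, W_17315418176, W_16258453568, W_15218262080, W_15201488960]⟩
theorem C_18456268929 : chkRec R_18456268929 = true := by decide +kernel

noncomputable def R_18456268992 : Rec := ⟨nat_lit 18456268992, nat_lit 41,
  [⟨V6_16308781056, [(nat_lit 81, nat_lit 18456268992), (nat_lit 24, nat_lit 19530010752), (nat_lit 43, nat_lit 19530006720), (nat_lit 99, nat_lit 20603752512), (nat_lit 99, nat_lit 20603748480), (nat_lit 108, nat_lit 21677494272), (nat_lit 80, nat_lit 21677490240), (nat_lit 114, nat_lit 22751232000)]⟩],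
  [W_18389159936, W_18389151872, W_18372382784, W_18372378752, W_18372374720, W_17332195328, W_17332187264, W_15235039232, W_15218262080, W_14144516288, W_14110970048]⟩
theorem C_18456268992 : chkRec R_18456268992 = true := by decide +kernel

noncomputable def R_18456522882 : Rec := ⟨nat_lit 18456522882, nat_lit 23,
  [⟨V6_15235293312, [(nat_lit 29, nat_lit 18456522882), (nat_lit 7, nat_lit 19530264705), (nat_lit 80, nat_lit 19530260610), (nat_lit 83, nat_lit 20604006528), (nat_lit 48, nat_lit 20604002433), (nat_lit 12, nat_lit 21677744256)]⟩],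
  [W_18422440064, W_18405924992, W_18405666944, W_18389151872, W_18372636800, W_17381990528, W_17365217408, W_16308252800]⟩
theorem C_18456522882 : chkRec R_18456522882 = true := by decide +kernel

noncomputable def R_18456522945 : Rec := ⟨nat_lit 18456522945, nat_lit 33,
  [⟨V6_17348702400, [(nat_lit 63, nat_lit 18456522945), (nat_lit 84, nat_lit 19530264768), (nat_lit 13, nat_lit 19530002625), (nat_lit 58, nat_lit 19513487553), (nat_lit 25, nat_lit 20603744448), (nat_lit 75, nat_lit 20603482305), (nat_lit 55, nat_lit 20587229376), (nat_lit 101, nat_lit 20586967233), (nat_lit 105, nat_lit 20570452161), (nat_lit 99, nat_lit 21677224128), (nat_lit 121, nat_lit 21660709056), (nat_lit 23, nat_lit 21660446913), (nat_lit 29, nat_lit 21644193984), (nat_lit 118, nat_lit 21643931841), (nat_lit 39, nat_lit 22734188736), (nat_lit 17, nat_lit 22717673664), (nat_lit 122, nat_lit 22717411521), (nat_lit 124, nat_lit 23791153344)]⟩,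
   ⟨V6_16274960577, [(nat_lit 55, nat_lit 18456522945), (nat_lit 86, nat_lit 19530002625), (nat_lit 41, nat_lit 19513487553), (nat_lit 25, nat_lit 20603482305), (nat_lit 125, nat_lit 20586967233), (nat_lit 57, nat_lit 20570452161), (nat_lit 101, nat_lit 21660446913), (nat_lit 19, nat_lit 21643931841), (nat_lit 59, nat_lit 22717411521)]⟩,
   ⟨V6_15234773184, [(nat_lit 45, nat_lit 18456522945), (nat_lit 33, nat_lit 19530264768), (nat_lit 32, nat_lit 19530002625), (nat_lit 112, nat_lit 20603744448), (nat_lit 64, nat_lit 20603482305), (nat_lit 17, nat_lit 21677224128)]⟩,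
   ⟨V6_14161293504, [(nat_lit 107, nat_lit 18456522945), (nat_lit 103, nat_lit 19530264768), (nat_lit 19, nat_lit 19530002625), (nat_lit 28, nat_lit 20603744448)]⟩,
   ⟨V6_13087813824, [(nat_lit 119, nat_lit 18456522945), (nat_lit 52, nat_lit 19530264768)]⟩],
  [W_18438959168, W_18389413952, W_18372636800, W_17381994560, W_16308514880, W_14161555520]⟩
theorem C_18456522945 : chkRec R_18456522945 = true := by decide +kernel

noncomputable def R_18456526977 : Rec := ⟨nat_lit 18456526977, nat_lit 94,
  [⟨V6_18405671040, [(nat_lit 68, nat_lit 18456526977), (nat_lit 125, nat_lit 19530268800), (nat_lit 51, nat_lit 19530006657), (nat_lit 51, nat_lit 19513491585), (nat_lit 65, nat_lit 20603748480), (nat_lit 110, nat_lit 20603486337), (nat_lit 43, nat_lit 20587233408), (nat_lit 45, nat_lit 20586971265), (nat_lit 95, nat_lit 20570456193), (nat_lit 104, nat_lit 21677228160), (nat_lit 104, nat_lit 21660713088), (nat_lit 15, nat_lit 21660450945), (nat_lit 86, nat_lit 21644198016), (nat_lit 51, nat_lit 21643935873), (nat_lit 124, nat_lit 21627420801), (nat_lit 113,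 nat_lit 22734192768), (nat_lit 18, nat_lit 22717677696), (nat_lit 20, nat_lit 22717415553), (nat_lit 4, nat_lit 22701162624), (nat_lit 66, nat_lit 22700900481), (nat_lit 123, nat_lit 23791157376), (nat_lit 88, nat_lit 23774642304), (nat_lit 112, nat_lit 23774380161), (nat_lit 96, nat_lit 24848121984)]⟩,
   ⟨V6_16308518976, [(nat_lit 90, nat_lit 18456526977), (nat_lit 56, nat_lit 19530268800), (nat_lit 114, nat_lit 19530268737), (nat_lit 116, nat_lit 19530006657), (nat_lit 72, nat_lit 20604010560), (nat_lit 52, nat_lit 20603748480), (nat_lit 43, nat_lit 20603748417), (nat_lit 22, nat_lit 20603486337), (nat_lit 33, nat_lit 21677490240), (nat_lit 42, nat_lit 21677228160), (nat_lit 48, nat_lit 21677228097), (nat_lit 76, nat_lit 22750969920)]⟩,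
   ⟨V6_16291741824, [(nat_lit 109, nat_lit 18456526977), (nat_lit 79, nat_lit 19530268800), (nat_lit 83, nat_lit 19530006657), (nat_lit 124, nat_lit 19513491585), (nat_lit 75, nat_lit 20603748480), (nat_lit 43, nat_lit 20603486337), (nat_lit 60, nat_lit 20587233408), (nat_lit 86, nat_lit 20586971265), (nat_lit 17, nat_lit 21677228160), (nat_lit 69, nat_lit 21660713088), (nat_lit 9, nat_lit 21660450945), (nat_lit 25, nat_lit 22734192768)]⟩],
  [W_18422440064, W_18406187072, W_18405924992, W_18389409920, W_18372640832, W_18355863680, W_17365475456, W_17348706368, W_15234777152, W_15201747008, W_14161555520, W_14144782400, W_13087817792, W_13087813760, W_13071040640]⟩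
theorem C_18456526977 : chkRec R_18456526977 = true := by decide +kernel

noncomputable def R_18456527040 : Rec := ⟨nat_lit 18456527040, nat_lit 130,
  [⟨V6_17382260736, [(nat_lit 50, nat_lit 18456527040), (nat_lit 120, nat_lit 19530268800), (nat_lit 8, nat_lit 19530006720), (nat_lit 55, nat_lit 20604010560), (nat_lit 20, nat_lit 20603748480), (nat_lit 104, nat_lit 20603486400), (nat_lit 114, nat_lit 21677752320), (nat_lit 82, nat_lit 21677490240), (nat_lit 108, nat_lit 21677228160), (nat_lit 39, nat_lit 22751232000), (nat_lit 112, nat_lit 22750969920), (nat_lit 17, nat_lit 23824711680)]⟩,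
   ⟨V6_17366003712, [(nat_lit 98, nat_lit 18456527040), (nat_lit 95, nat_lit 19530268800), (nat_lit 108, nat_lit 19530264768), (nat_lit 126, nat_lit 19513491648), (nat_lit 6, nat_lit 20604010560), (nat_lit 10, nat_lit 20604006528), (nat_lit 47, nat_lit 20587233408), (nat_lit 38, nat_lit 20587229376), (nat_lit 59, nat_lit 21677752320), (nat_lit 111, nat_lit 21677748288), (nat_lit 99, nat_lit 21660975168), (nat_lit 74, nat_lit 21660971136), (nat_lit 89, nat_lit 22751490048), (nat_lit 68, nat_lit 22734716928), (nat_lit 72, nat_lit 22734712896), (nat_lit 82, nat_lit 23808454656)]⟩],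
  [W_18439221248, W_18422448128, W_18389417984, W_17382256640, W_17348706368, W_16308518912, W_15234777152, W_15218524160, W_15218262080, W_15201747008, W_14144516288, W_13071040640, W_13054263488]⟩
theorem C_18456527040 : chkRec R_18456527040 = true := by decide +kernel

noncomputable def R_18456531009 : Rec := ⟨nat_lit 18456531009, nat_lit 59,
  [⟨V6_18439737408, [(nat_lit 119, nat_lit 18456531009), (nat_lit 17, nat_lit 19530272832), (nat_lit 17, nat_lit 19530268737), (nat_lit 15, nat_lit 19513495617), (nat_lit 59, nat_lit 20604010560), (nat_lit 96, nat_lit 20604006465), (nat_lit 120, nat_lit 20587237440), (nat_lit 60, nat_lit 20587233345), (nat_lit 108, nat_lit 21677748288), (nat_lit 7, nat_lit 21677744193), (nat_lit 22, nat_lit 21660975168), (nat_lit 93, nat_lit 21660971073), (nat_lit 110, nat_lit 22751486016), (nat_lit 8, nat_lit 22751481921), (nat_lit 17, nat_lit 22734712896), (nat_lit 109, nat_lit 22734708801), (nat_lit 87, nat_lit 23825223744), (nat_lit 35, nat_lit 23808450624), (nat_lit 87, nat_lit 23808446529), (nat_lit 24, nat_lit 24882188352)]⟩,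
   ⟨V6_17382510657, [(nat_lit 42, nat_lit 18456531009), (nat_lit 117, nat_lit 19530268737), (nat_lit 19, nat_lit 19530010689), (nat_lit 91, nat_lit 20604006465), (nat_lit 125, nat_lit 20603748417), (nat_lit 16, nat_lit 21677744193), (nat_lit 30, nat_lit 21677486145), (nat_lit 72, nat_lit 22751481921), (nat_lit 14, nat_lit 22751223873), (nat_lit 18, nat_lit 23824961601)]⟩,
   ⟨V6_17365995585, [(nat_lit 57, nat_lit 18456531009), (nat_lit 119, nat_lit 19530268737), (nat_lit 44, nat_lit 19513495617), (nat_lit 17, nat_lit 20604006465), (nat_lit 90, nat_lit 20587233345), (nat_lit 111, nat_lit 21677744193), (nat_lit 107, nat_lit 21660971073), (nat_lit 108, nat_lit 22751481921), (nat_lit 14, nat_lit 22734708801), (nat_lit 102, nat_lit 23808446529)]⟩],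
  [W_18372640832, W_16258453568, W_15218262080, W_15201747008, W_15184973888, W_14161297472, W_14144782400, W_14144524352, W_13087817792, W_13071044672]⟩
theorem C_18456531009 : chkRec R_18456531009 = true := by decide +kernel

noncomputable def R_18456531072 : Rec := ⟨nat_lit 18456531072, nat_lit 163,
  [⟨V6_18456256512, [(nat_lit 48, nat_lit 18456531072), (nat_lit 108, nat_lit 19530272832), (nat_lit 121, nat_lit 19530268800), (nat_lit 51, nat_lit 19530010752), (nat_lit 99, nat_lit 20604014592), (nat_lit 11, nat_lit 20604010560), (nat_lit 76, nat_lit 20604006528), (nat_lit 89, nat_lit 20603752512), (nat_lit 55, nat_lit 20603748480), (nat_lit 18, nat_lit 21677752320), (nat_lit 2, nat_lit 21677748288), (nat_lit 77, nat_lit 21677744256), (nat_lit 91, nat_lit 21677494272), (nat_lit 114, nat_lit 21677490240), (nat_lit 10, nat_lit 21677486208), (nat_lit 82, nat_lit 22751490048), (nat_lit 74, nat_lit 22751486016), (nat_lit 49, nat_lit 22751232000), (nat_lit 6, nat_lit 22751227968), (nat_lit 42, nat_lit 22751223936), (nat_lit 16, nat_lit 23825227776), (nat_lit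 13, nat_lit 23824969728), (nat_lit 59, nat_lit 23824965696), (nat_lit 120, nat_lit 24898707456)]⟩,
   ⟨V6_17382776832, [(nat_lit 6, nat_lit 18456531072), (nat_lit 10, nat_lit 19530272832), (nat_lit 24, nat_lit 19530268800), (nat_lit 101, nat_lit 20604014592), (nat_lit 85, nat_lit 20604010560), (nat_lit 17, nat_lit 20604006528), (nat_lit 82, nat_lit 21677752320), (nat_lit 34, nat_lit 21677748288), (nat_lit 84, nat_lit 21677744256), (nat_lit 57, nat_lit 22751490048), (nat_lit 97, nat_lit 22751486016), (nat_lit 34, nat_lit 23825227776)]⟩],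
  [W_18372644864, W_18372640832, W_18355863680, W_17298903104, W_17298899072, W_16258453568, W_16241676416, W_15235297280, W_15235039232, W_15218524160, W_15218266112, W_15218262080, W_15201747008, W_15184973888, W_15184969856, W_15168196736, W_14161559552, W_14161555520, W_14144782400, W_14144524352, W_14127747200, W_14111232128, W_13087821824, W_13087817792, W_13071044672, W_13071040640, W_13070782592, W_13054267520]⟩
theorem C_18456531072 : chkRec R_18456531072 = true := by decide +kernel

noncomputable def R_18456535104 : Rec := ⟨nat_lit 18456535104, nat_lit 109,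
  [⟨V6_18456514560, [(nat_lit 76, nat_lit 18456535104), (nat_lit 123, nat_lit 19530276864), (nat_lit 66, nat_lit 19530272832), (nat_lit 124, nat_lit 20604014592), (nat_lit 42, nat_lit 20604010560), (nat_lit 11, nat_lit 21677752320), (nat_lit 100, nat_lit 21677748288), (nat_lit 36, nat_lit 22751490048), (nat_lit 17, nat_lit 22751486016), (nat_lit 38, nat_lit 23825227776), (nat_lit 58, nat_lit 23825223744), (nat_lit 11, nat_lit 24898965504)]⟩,
   ⟨V6_17315684352, [(nat_lit 39, nat_lit 18456535104), (nat_lit 37, nat_lit 19530276864), (nat_lit 75, nat_lit 19513499712), (nat_lit 62, nat_lit 20587241472), (nat_lit 63, nat_lit 20570464320), (nat_lit 107, nat_lit 21644206080), (nat_lit 14, nat_lit 21627428928), (nat_lit 87, nat_lit 22701170688), (nat_lit 87, nat_lit 22684393536), (nat_lit 85, nat_lit 23758135296)]⟩,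
   ⟨V6_14161563648, [(nat_lit 99, nat_lit 18456535104), (nat_lit 46, nat_lit 19530276864), (nat_lit 50, nat_lit 19530272832), (nat_lit 14, nat_lit 20604014592)]⟩],
  [W_18389417984, W_18372644864, W_18372640832, W_18355871744, W_18355867712, W_17298907136, W_17298903104, W_17282129984, W_15235297280, W_15218524160, W_15201747008, W_15184973888, W_14128013312, W_14111236160, W_13071048704]⟩
theorem C_18456535104 : chkRec R_18456535104 = true := by decide +kernel

noncomputable def R_18456780930 : Rec := ⟨nat_lit 18456780930, nat_lit 15,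
  [⟨V6_15235031169, [(nat_lit 38, nat_lit 18456780930), (nat_lit 113, nat_lit 19530522753), (nat_lit 102, nat_lit 19530260610), (nat_lit 71, nat_lit 20604002433), (nat_lit 75, nat_lit 20603740290), (nat_lit 108, nat_lit 21677482113)]⟩,
   ⟨V6_13088071809, [(nat_lit 65, nat_lit 18456780930), (nat_lit 8, nat_lit 19530522753)]⟩],
  [W_18455470208, W_18438955136, W_18422440064, W_18405924992, W_18389409920]⟩
theorem C_18456780930 : chkRec R_18456780930 = true := by decide +kernel

noncomputable def R_18456785025 : Rec := ⟨nat_lit 18456785025, nat_lit 85,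
  [⟨V6_18389672064, [(nat_lit 18, nat_lit 18456785025), (nat_lit 35, nat_lit 19530526848), (nat_lit 24, nat_lit 19530522753), (nat_lit 73, nat_lit 19513749633), (nat_lit 78, nat_lit 20604264576), (nat_lit 89, nat_lit 20587491456), (nat_lit 29, nat_lit 20587487361), (nat_lit 24, nat_lit 20570714241), (nat_lit 71, nat_lit 21661229184), (nat_lit 52, nat_lit 21644456064), (nat_lit 42, nat_lit 21644451969), (nat_lit 58, nat_lit 21627678849), (nat_lit 114, nat_lit 22718193792), (nat_lit 42, nat_lit 22701420672), (nat_lit 48, nat_lit 22701416577), (nat_lit 47, nat_lit 22684643457), (nat_lit 87, nat_lit 23775158400), (nat_lit 118, nat_lit 23758385280), (nat_lit 110, nat_lit 23758381185), (nat_lit 64, nat_lit 24832123008)]⟩,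
   ⟨V6_18372894849, [(nat_lit 18, nat_lit 18456785025), (nat_lit 60, nat_lit 19530522753), (nat_lit 28, nat_lit 19513749633), (nat_lit 80, nat_lit 20587487361), (nat_lit 35, nat_lit 20570714241), (nat_lit 42, nat_lit 21644451969), (nat_lit 94, nat_lit 21627678849), (nat_lit 85, nat_lit 22701416577), (nat_lit 81, nat_lit 22684643457), (nat_lit 47, nat_lit 23758381185), (nat_lit 31, nat_lit 23741608065), (nat_lit 67, nat_lit 24815345793)]⟩,
   ⟨V6_17365737600, [(nat_lit 114, nat_lit 18456785025), (nat_lit 9, nat_lit 19530526848), (nat_lit 81, nat_lit 19530522753), (nat_lit 95, nat_lit 19530264705), (nat_lit 32, nat_lit 19513749633), (nat_lit 75, nat_lit 20604264576), (nat_lit 83, nat_lit 20604006528), (nat_lit 110, nat_lit 20604002433), (nat_lit 58, nat_lit 20603744385), (nat_lit 88, nat_lit 20587491456), (nat_lit 51, nat_lit 20587487361), (nat_lit 100, nat_lit 20587229313), (nat_lit 119, nat_lit 21677744256), (nat_lit 79, nat_lit 21677486208), (nat_lit 126, nat_lit 21677482113), (nat_lit 48, nat_lit 21661229184), (nat_lit 80, nat_lit 21660971136), (nat_lit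 41, nat_lit 21660967041), (nat_lit 108, nat_lit 21660708993), (nat_lit 120, nat_lit 22751223936), (nat_lit 57, nat_lit 22734708864), (nat_lit 66, nat_lit 22734450816), (nat_lit 96, nat_lit 22734446721), (nat_lit 40, nat_lit 23808188544)]⟩,
   ⟨V6_17315930241, [(nat_lit 98, nat_lit 18456785025), (nat_lit 69, nat_lit 19530522753), (nat_lit 64, nat_lit 19513749633), (nat_lit 19, nat_lit 20587487361), (nat_lit 124, nat_lit 20570714241), (nat_lit 8, nat_lit 21644451969), (nat_lit 8, nat_lit 21627678849), (nat_lit 80, nat_lit 22701416577), (nat_lit 49, nat_lit 22684643457), (nat_lit 18, nat_lit 23758381185)]⟩],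
  [W_18455732288, W_18438959168, W_18422182016, W_18406187072, W_18372898880, W_17381994560, W_17381990528, W_17365475456, W_17365217408, W_17315934272, W_16308514880, W_16308252800, W_15202001024, W_14161813568, W_14161555520, W_13088075840, W_13088071808, W_13087813760, W_13071298688]⟩
theorem C_18456785025 : chkRec R_18456785025 = true := by decide +kernel

noncomputable def R_18456785088 : Rec := ⟨nat_lit 18456785088, nat_lit 88,
  [⟨V6_17366003712, [(nat_lit 32, nat_lit 18456785088), (nat_lit 126, nat_lit 19530526848), (nat_lit 15, nat_lit 19530264768), (nat_lit 9, nat_lit 19513749696), (nat_lit 49, nat_lit 20604268608), (nat_lit 29, nat_lit 20604006528), (nat_lit 57, nat_lit 20587491456), (nat_lit 120, nat_lit 20587229376), (nat_lit 100, nat_lit 21678010368), (nat_lit 39, nat_lit 21677748288), (nat_lit 32, nat_lit 21661233216), (nat_lit 56, nat_lit 21660971136), (nat_lit 50, nat_lit 22751490048), (nat_lit 121, nat_lit 22734974976), (nat_lit 67, nat_lit 22734712896), (nat_lit 84, nat_lit 23808454656)]⟩],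
  [W_18439221248, W_18438959168, W_18389676032, W_18372898880, W_18372374720, W_17382256640, W_17299157120, W_16225415360, W_15235297280, W_14161817600, W_14144516288, W_13088075840, W_13071298688, W_13071036608, W_13054521536]⟩
theorem C_18456785088 : chkRec R_18456785088 = true := by decide +kernel

noncomputable def R_18456789057 : Rec := ⟨nat_lit 18456789057, nat_lit 94,
  [⟨V6_18456252480, [(nat_lit 40, nat_lit 18456789057), (nat_lit 42, nat_lit 19530530880), (nat_lit 119, nat_lit 19530526785), (nat_lit 29, nat_lit 19530268737), (nat_lit 23, nat_lit 20604268608), (nat_lit 48, nat_lit 20604264513), (nat_lit 116, nat_lit 20604010560), (nat_lit 48, nat_lit 20604006465), (nat_lit 23, nat_lit 20603748417), (nat_lit 56, nat_lit 21678006336), (nat_lit 40, nat_lit 21678002241), (nat_lit 73, nat_lit 21677748288), (nat_lit 81, nat_lit 21677744193), (nat_lit 35, nat_lit 21677490240), (nat_lit 91, nat_lit 21677486145), (nat_lit 116, nat_lit 22751744064), (nat_lit 106, nat_lit 22751486016), (nat_lit 15, nat_lit 22751481921), (nat_lit 23, nat_lit 22751227968),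 (nat_lit 113, nat_lit 22751223873), (nat_lit 75, nat_lit 23825223744), (nat_lit 34, nat_lit 23824965696), (nat_lit 51, nat_lit 23824961601), (nat_lit 126, nat_lit 24898703424)]⟩,
   ⟨V6_17365483584, [(nat_lit 114, nat_lit 18456789057), (nat_lit 101, nat_lit 19530530880), (nat_lit 87, nat_lit 19530268737), (nat_lit 33, nat_lit 19513753665), (nat_lit 46, nat_lit 20604010560), (nat_lit 116, nat_lit 20603748417), (nat_lit 13, nat_lit 20587495488), (nat_lit 117, nat_lit 20587233345), (nat_lit 108, nat_lit 21677490240), (nat_lit 6, nat_lit 21677228097), (nat_lit 9, nat_lit 21660975168), (nat_lit 64, nat_lit 21660713025), (nat_lit 38, nat_lit 22750969920), (nat_lit 83, nat_lit 22734454848), (nat_lit 58, nat_lit 22734192705), (nat_lit 39, nat_lit 23807934528)]⟩,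
   ⟨V6_16308518976, [(nat_lit 11, nat_lit 18456789057), (nat_lit 36, nat_lit 19530530880), (nat_lit 76, nat_lit 19530268737), (nat_lit 14, nat_lit 20604010560), (nat_lit 19, nat_lit 20603748417), (nat_lit 60, nat_lit 21677490240), (nat_lit 120, nat_lit 21677228097), (nat_lit 66, nat_lit 22750969920)]⟩],
  [W_18372898880, W_18372640832, W_17348706368, W_17315934272, W_17299161152, W_16242196544, W_15235551296, W_15234777152, W_15201747008, W_15185231936, W_14161813568, W_14144782400, W_14128267328, W_13087817792, W_13071302720]⟩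
theorem C_18456789057 : chkRec R_18456789057 = true := by decide +kernel

noncomputable def R_18456789120 : Rec := ⟨nat_lit 18456789120, nat_lit 248,
  [⟨V6_18456256512, [(nat_lit 29, nat_lit 18456789120), (nat_lit 2, nat_lit 19530530880), (nat_lit 84, nat_lit 19530526848), (nat_lit 7, nat_lit 19530268800), (nat_lit 45, nat_lit 20604272640), (nat_lit 116, nat_lit 20604268608), (nat_lit 54, nat_lit 20604264576), (nat_lit 66, nat_lit 20604010560), (nat_lit 19, nat_lit 20604006528), (nat_lit 21, nat_lit 20603748480), (nat_lit 117, nat_lit 21678010368), (nat_lit 45, nat_lit 21678006336), (nat_lit 39, nat_lit 21677752320), (nat_lit 70, nat_lit 21677748288), (nat_lit 32, nat_lit 21677744256), (nat_lit 44, nat_lit 21677490240), (nat_lit 80, nat_lit 21677486208), (nat_lit 72, nat_lit 22751748096), (nat_lit 98, nat_lit 22751490048), (nat_lit 126, nat_lit 22751486016), (nat_lit 53, nat_lit 22751232000), (nat_lit 116, nat_lit 22751227968), (nat_lit 39, nat_lit 22751223936), (nat_lit 27, nat_lit 23825227776), (nat_lit 79, nat_lit 23824969728), (nat_lit 50, nat_lit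 23824965696), (nat_lit 3, nat_lit 24898707456)]⟩,
   ⟨V6_18455998464, [(nat_lit 117, nat_lit 18456789120), (nat_lit 104, nat_lit 19530530880), (nat_lit 111, nat_lit 19530526848), (nat_lit 78, nat_lit 19530268800), (nat_lit 4, nat_lit 20604272640), (nat_lit 111, nat_lit 20604268608), (nat_lit 99, nat_lit 20604010560), (nat_lit 62, nat_lit 20604006528), (nat_lit 95, nat_lit 20603748480), (nat_lit 28, nat_lit 21678010368), (nat_lit 89, nat_lit 21677752320), (nat_lit 58, nat_lit 21677748288), (nat_lit 4, nat_lit 21677490240), (nat_lit 30, nat_lit 21677486208), (nat_lit 48, nat_lit 21677228160), (nat_lit 38, nat_lit 22751490048), (nat_lit 32, nat_lit 22751232000), (nat_lit 95, nat_lit 22751227968), (nat_lit 89, nat_lit 22750969920), (nat_lit 67, nat_lit 22750965888), (nat_lit 91, nat_lit 23824969728), (nat_lit 3, nat_lit 23824711680), (nat_lit 109, nat_lit 23824707648), (nat_lit 59, nat_lit 24898449408)]⟩,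
   ⟨V6_18439225344, [(nat_lit 15, nat_lit 18456789120), (nat_lit 38, nat_lit 19530530880), (nat_lit 49, nat_lit 19530268800), (nat_lit 88, nat_lit 19513753728), (nat_lit 26, nat_lit 20604272640), (nat_lit 29, nat_lit 20604010560), (nat_lit 75, nat_lit 20603748480), (nat_lit 115, nat_lit 20587495488), (nat_lit 62, nat_lit 20587233408), (nat_lit 47, nat_lit 21677752320), (nat_lit 9, nat_lit 21677490240), (nat_lit 109, nat_lit 21677228160), (nat_lit 88, nat_lit 21661237248), (nat_lit 96, nat_lit 21660975168), (nat_lit 81, nat_lit 21660713088), (nat_lit 71, nat_lit 22751232000), (nat_lit 93, nat_lit 22750969920), (nat_lit 69, nat_lit 22734716928), (nat_lit 118, nat_lit 22734454848), (nat_lit 55, nat_lit 22734192768), (nat_lit 116, nat_lit 23824711680), (nat_lit 12, nat_lit 23808196608), (nat_lit 93, nat_lit 23807934528), (nat_lit 43, nat_lit 24881676288)]⟩,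
   ⟨V6_17382260736, [(nat_lit 26, nat_lit 18456789120), (nat_lit 93, nat_lit 19530530880), (nat_lit 24, nat_lit 19530268800), (nat_lit 27, nat_lit 20604272640), (nat_lit 51, nat_lit 20604010560), (nat_lit 27, nat_lit 20603748480), (nat_lit 104, nat_lit 21677752320), (nat_lit 108, nat_lit 21677490240), (nat_lit 111, nat_lit 21677228160), (nat_lit 53, nat_lit 22751232000), (nat_lit 18, nat_lit 22750969920), (nat_lit 49, nat_lit 23824711680)]⟩,
   ⟨V6_16308518976, [(nat_lit 30, nat_lit 18456789120), (nat_lit 58, nat_lit 19530530880), (nat_lit 73, nat_lit 19530268800), (nat_lit 49, nat_lit 20604010560), (nat_lit 113, nat_lit 20603748480), (nat_lit 30, nat_lit 21677490240), (nat_lit 101, nat_lit 21677228160), (nat_lit 117, nat_lit 22750969920)]⟩],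
  [W_18422448128, W_18389676032, W_18372902912, W_18372898880, W_18372640832, W_17365483520, W_17348706368, W_17315938304, W_16308518912, W_16242196544, W_15235297280, W_15235039232, W_15218524160, W_15202009088, W_15185231936, W_15168454784, W_14161817600, W_14161813568, W_14161559552, W_14145044480, W_14144782400, W_14128267328, W_14111490176, W_13088079872, W_13088071808, W_13087817792, W_13071302720, W_13054525568]⟩
theorem C_18456789120 : chkRec R_18456789120 = true := by decide +kernel

noncomputable def R_18456793152 : Rec := ⟨nat_lit 18456793152, nat_lit 237,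
  [⟨V6_18456514560, [(nat_lit 87, nat_lit 18456793152), (nat_lit 49, nat_lit 19530534912), (nat_lit 120, nat_lit 19530530880), (nat_lit 9, nat_lit 19530272832), (nat_lit 85, nat_lit 20604272640), (nat_lit 13, nat_lit 20604268608), (nat_lit 65, nat_lit 20604014592), (nat_lit 49, nat_lit 20604010560), (nat_lit 7, nat_lit 21678010368), (nat_lit 22, nat_lit 21678006336), (nat_lit 87, nat_lit 21677752320), (nat_lit 13, nat_lit 21677748288), (nat_lit 6, nat_lit 22751748096), (nat_lit 62, nat_lit 22751744064), (nat_lit 120, nat_lit 22751490048), (nat_lit 97, nat_lit 22751486016), (nat_lit 11, nat_lit 23825485824), (nat_lit 89, nat_lit 23825227776), (nat_lit 12, nat_lit 23825223744), (nat_lit 88, nat_lit 24898965504)]⟩,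
   ⟨V6_18456252480, [(nat_lit 61, nat_lit 18456793152), (nat_lit 19, nat_lit 19530530880), (nat_lit 1, nat_lit 19530272832), (nat_lit 9, nat_lit 20604268608), (nat_lit 74, nat_lit 20604010560), (nat_lit 112, nat_lit 20603752512), (nat_lit 22, nat_lit 21678006336), (nat_lit 16, nat_lit 21677748288), (nat_lit 44, nat_lit 21677490240), (nat_lit 50, nat_lit 22751744064), (nat_lit 116, nat_lit 22751486016), (nat_lit 21, nat_lit 22751227968), (nat_lit 65, nat_lit 23825223744), (nat_lit 10, nat_lit 23824965696), (nat_lit 26, nat_lit 24898703424)]⟩,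
   ⟨V6_17383034880, [(nat_lit 9, nat_lit 18456793152), (nat_lit 2, nat_lit 19530534912), (nat_lit 13, nat_lit 19530530880), (nat_lit 23, nat_lit 20604272640), (nat_lit 56, nat_lit 20604268608), (nat_lit 64, nat_lit 21678010368), (nat_lit 100, nat_lit 21678006336), (nat_lit 56, nat_lit 22751748096), (nat_lit 50, nat_lit 22751744064), (nat_lit 122, nat_lit 23825485824)]⟩,
   ⟨V6_17382776832, [(nat_lit 7, nat_lit 18456793152), (nat_lit 38, nat_lit 19530534912), (nat_lit 125, nat_lit 19530530880), (nat_lit 121, nat_lit 19530272832), (nat_lit 28, nat_lit 20604272640), (nat_lit 25, nat_lit 20604268608), (nat_lit 87, nat_lit 20604014592), (nat_lit 11, nat_lit 20604010560), (nat_lit 50, nat_lit 21678010368), (nat_lit 36, nat_lit 21678006336), (nat_lit 27, nat_lit 21677752320), (nat_lit 65, nat_lit 21677748288), (nat_lit 81, nat_lit 22751748096), (nat_lit 124, nat_lit 22751490048), (nat_lit 34, nat_lit 22751486016), (nat_lit 114, nat_lit 23825227776)]⟩],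
  [W_18389676032, W_18372902912, W_18372898880, W_18372640832, W_17315938304, W_17299165184, W_16242196544, W_16225423424, W_15235297280, W_15235039232, W_15218524160, W_15218262080, W_15202009088, W_15201747008, W_15201488960, W_15185231936, W_15168458816, W_14161817600, W_14161813568, W_14161297472, W_14145044480, W_14144782400, W_14144524352, W_14128267328, W_14111494208, W_13088079872, W_13087817792, W_13071306752, W_13071302720, W_13071044672, W_13054529600]⟩
theorem C_18456793152 : chkRec R_18456793152 = true := by decide +kernel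

noncomputable def R_18456797184 : Rec := ⟨nat_lit 18456797184, nat_lit 133,
  [⟨V6_18456772608, [(nat_lit 31, nat_lit 18456797184), (nat_lit 55, nat_lit 19530534912), (nat_lit 10, nat_lit 20604272640), (nat_lit 102, nat_lit 21678010368), (nat_lit 23, nat_lit 22751748096), (nat_lit 10, nat_lit 23825485824), (nat_lit 9, nat_lit 24899223552)]⟩,
   ⟨V6_17315684352, [(nat_lit 19, nat_lit 18456797184), (nat_lit 50, nat_lit 19530276864), (nat_lit 106, nat_lit 19513761792), (nat_lit 10, nat_lit 20587241472), (nat_lit 22, nat_lit 20570726400), (nat_lit 105, nat_lit 21644206080), (nat_lit 61, nat_lit 21627691008), (nat_lit 45, nat_lit 22701170688), (nat_lit 43, nat_lit 22684655616), (nat_lit 50, nat_lit 23758135296)]⟩,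
   ⟨V6_16309297152, [(nat_lit 32, nat_lit 18456797184), (nat_lit 50, nat_lit 19530534912), (nat_lit 74, nat_lit 20604272640), (nat_lit 54, nat_lit 21678010368), (nat_lit 84, nat_lit 22751748096)]⟩],
  [W_18389676032, W_18389417984, W_18372902912, W_17315938304, W_15235297280, W_15218524160, W_15202009088, W_14161817600, W_14161559552, W_14145044480, W_13071048704]⟩
theorem C_18456797184 : chkRec R_18456797184 = true := by decide +kernel

noncomputable def R_18457043073 : Rec := ⟨nat_lit 18457043073, nat_lit 53,
  [⟨V6_17315930241, [(nat_lit 34, nat_lit 18457043073), (nat_lit 79, nat_lit 19530522753), (nat_lit 83, nat_lit 19514007681), (nat_lit 117, nat_lit 20587487361), (nat_lit 46, nat_lit 20570972289), (nat_lit 15, nat_lit 21644451969), (nat_lit 56, nat_lit 21627936897), (nat_lit 73, nat_lit 22701416577), (nat_lit 34, nat_lit 22684901505), (nat_lit 47, nat_lit 23758381185)]⟩,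
   ⟨V6_14145298560, [(nat_lit 32, nat_lit 18457043073), (nat_lit 107, nat_lit 19530784896), (nat_lit 35, nat_lit 19514007681), (nat_lit 45, nat_lit 20587749504)]⟩,
   ⟨V6_13088333952, [(nat_lit 6, nat_lit 18457043073), (nat_lit 88, nat_lit 19530784896)]⟩,
   ⟨V6_13088071809, [(nat_lit 69, nat_lit 18457043073), (nat_lit 29, nat_lit 19530522753)]⟩],
  [W_18455470208, W_18439217216, W_18422440064, W_18406187072, W_18389672000, W_17382252608, W_17316192320]⟩
theorem C_18457043073 : chkRec R_18457043073 = true := by decide +kernel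

noncomputable def R_18457047105 : Rec := ⟨nat_lit 18457047105, nat_lit 83,
  [⟨V6_16276004928, [(nat_lit 79, nat_lit 18457047105), (nat_lit 117, nat_lit 19530788928), (nat_lit 64, nat_lit 19530784833), (nat_lit 48, nat_lit 19514011713), (nat_lit 113, nat_lit 20604526656), (nat_lit 52, nat_lit 20587753536), (nat_lit 54, nat_lit 20587749441), (nat_lit 5, nat_lit 20570976321), (nat_lit 37, nat_lit 21661491264), (nat_lit 76, nat_lit 21644718144), (nat_lit 23, nat_lit 21644714049), (nat_lit 19, nat_lit 22718455872)]⟩,
   ⟨V6_15235813440, [(nat_lit 24, nat_lit 18457047105), (nat_lit 71, nat_lit 19530788928), (nat_lit 38, nat_lit 19530784833), (nat_lit 55, nat_lit 20604526656), (nat_lit 107, nat_lit 20604522561), (nat_lit 56, nat_lit 21678264384)]⟩],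
  [W_18455990336, W_18455732288, W_18438959168, W_18389930048, W_18389413952, W_17381994560, W_17332965440, W_17316192320, W_17315934272, W_16308514880, W_16276000832, W_16242454592, W_14161813568, W_14161555520, W_13088075840]⟩
theorem C_18457047105 : chkRec R_18457047105 = true := by decide +kernel

noncomputable def R_18457047168 : Rec := ⟨nat_lit 18457047168, nat_lit 209,
  [⟨V6_18456256512, [(nat_lit 38, nat_lit 18457047168), (nat_lit 33, nat_lit 19530788928), (nat_lit 77, nat_lit 19530784896), (nat_lit 9, nat_lit 19530526848), (nat_lit 118, nat_lit 20604530688), (nat_lit 29, nat_lit 20604526656), (nat_lit 49, nat_lit 20604268608), (nat_lit 111, nat_lit 20604264576), (nat_lit 7, nat_lit 20604006528), (nat_lit 108, nat_lit 21678268416), (nat_lit 53, nat_lit 21678010368), (nat_lit 72, nat_lit 21678006336), (nat_lit 88, nat_lit 21677748288), (nat_lit 67, nat_lit 21677744256), (nat_lit 74, nat_lit 21677486208), (nat_lit 28, nat_lit 22751748096), (nat_lit 37, nat_lit 22751490048), (nat_lit 101, nat_lit 22751486016), (nat_lit 114, nat_lit 22751227968),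 (nat_lit 31, nat_lit 22751223936), (nat_lit 123, nat_lit 23825227776), (nat_lit 17, nat_lit 23824969728), (nat_lit 98, nat_lit 23824965696), (nat_lit 39, nat_lit 24898707456)]⟩,
   ⟨V6_18455998464, [(nat_lit 36, nat_lit 18457047168), (nat_lit 42, nat_lit 19530788928), (nat_lit 89, nat_lit 19530526848), (nat_lit 3, nat_lit 20604530688), (nat_lit 2, nat_lit 20604268608), (nat_lit 83, nat_lit 20604006528), (nat_lit 4, nat_lit 21678010368), (nat_lit 33, nat_lit 21677748288), (nat_lit 123, nat_lit 21677486208), (nat_lit 61, nat_lit 22751490048), (nat_lit 43, nat_lit 22751227968), (nat_lit 3, nat_lit 22750965888), (nat_lit 108, nat_lit 23824969728), (nat_lit 18, nat_lit 23824707648), (nat_lit 13, nat_lit 24898449408)]⟩,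
   ⟨V6_17382776832, [(nat_lit 56, nat_lit 18457047168), (nat_lit 13, nat_lit 19530788928), (nat_lit 23, nat_lit 19530784896), (nat_lit 5, nat_lit 19530526848), (nat_lit 102, nat_lit 20604530688), (nat_lit 119, nat_lit 20604526656), (nat_lit 51, nat_lit 20604268608), (nat_lit 6, nat_lit 20604264576), (nat_lit 40, nat_lit 20604006528), (nat_lit 115, nat_lit 21678268416), (nat_lit 126, nat_lit 21678010368), (nat_lit 107, nat_lit 21678006336), (nat_lit 99, nat_lit 21677748288), (nat_lit 50, nat_lit 21677744256), (nat_lit 49, nat_lit 22751748096), (nat_lit 114, nat_lit 22751490048), (nat_lit 38, nat_lit 22751486016), (nat_lit 55, nat_lit 23825227776)]⟩],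
  [W_18455736320, W_18439221248, W_18438959168, W_18422182016, W_18389934080, W_18389676032, W_17382256640, W_17316196352, W_17316192320, W_16242454592, W_16242450560, W_16242192512, W_15235297280, W_15202001024, W_15185489984, W_15185485952, W_15168712832, W_14161817600, W_14161813568, W_14145302528, W_14145036416, W_14128525376, W_14128521344, W_14128263296, W_14111748224, W_13088337920, W_13088333888, W_13088075840, W_13088071808, W_13071560768, W_13071556736, W_13071298688, W_13054783616]⟩
theorem C_18457047168 : chkRec R_18457047168 = true := by decide +kernel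

noncomputable def R_18457051200 : Rec := ⟨nat_lit 18457051200, nat_lit 300,
  [⟨V6_18456252480, [(nat_lit 115, nat_lit 18457051200), (nat_lit 27, nat_lit 19530788928), (nat_lit 2, nat_lit 19530530880), (nat_lit 19, nat_lit 20604526656), (nat_lit 35, nat_lit 20604268608), (nat_lit 114, nat_lit 20604010560), (nat_lit 51, nat_lit 21678264384), (nat_lit 110, nat_lit 21678006336), (nat_lit 96, nat_lit 21677748288), (nat_lit 2, nat_lit 21677490240), (nat_lit 80, nat_lit 22751744064), (nat_lit 24, nat_lit 22751486016), (nat_lit 42, nat_lit 22751227968), (nat_lit 77, nat_lit 23825223744), (nat_lit 62, nat_lit 23824965696), (nat_lit 78, nat_lit 24898703424)]⟩,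
   ⟨V6_18439999488, [(nat_lit 87, nat_lit 18457051200), (nat_lit 86, nat_lit 19530792960), (nat_lit 12, nat_lit 19530788928), (nat_lit 118, nat_lit 19530530880), (nat_lit 91, nat_lit 19514015808), (nat_lit 69, nat_lit 20604530688), (nat_lit 107, nat_lit 20604526656), (nat_lit 110, nat_lit 20604272640), (nat_lit 106, nat_lit 20604268608), (nat_lit 120, nat_lit 20587757568), (nat_lit 34, nat_lit 20587753536), (nat_lit 63, nat_lit 20587495488), (nat_lit 77, nat_lit 21678268416), (nat_lit 38, nat_lit 21678264384), (nat_lit 48, nat_lit 21678010368), (nat_lit 36, nat_lit 21678006336), (nat_lit 119, nat_lit 21661495296), (nat_lit 24, nat_lit 21661491264), (nat_lit 89, nat_lit 21661237248), (nat_lit 110, nat_lit 21661233216), (nat_lit 42, nat_lit 22752006144), (nat_lit 107, nat_lit 22751748096), (nat_lit 54, nat_lit 22751744064), (nat_lit 31, nat_lit 22735233024), (nat_lit 123, nat_lit 22735228992), (nat_lit 112, nat_lit 22734974976), (nat_lit 82, nat_lit 22734970944), (nat_lit 87, nat_lit 23825485824), (nat_lit 106, nat_lit 23808970752), (nat_lit 87, nat_lit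 23808712704), (nat_lit 91, nat_lit 23808708672), (nat_lit 42, nat_lit 24882450432)]⟩,
   ⟨V6_18439225344, [(nat_lit 90, nat_lit 18457051200), (nat_lit 56, nat_lit 19530792960), (nat_lit 3, nat_lit 19530530880), (nat_lit 113, nat_lit 19514015808), (nat_lit 120, nat_lit 20604272640), (nat_lit 117, nat_lit 20604010560), (nat_lit 32, nat_lit 20587757568), (nat_lit 93, nat_lit 20587495488), (nat_lit 19, nat_lit 21677752320), (nat_lit 99, nat_lit 21677490240), (nat_lit 17, nat_lit 21661237248), (nat_lit 44, nat_lit 21660975168), (nat_lit 85, nat_lit 22751232000), (nat_lit 55, nat_lit 22750969920), (nat_lit 22, nat_lit 22734716928), (nat_lit 3, nat_lit 22734454848), (nat_lit 103, nat_lit 23824711680), (nat_lit 69, nat_lit 23808196608), (nat_lit 83, nat_lit 23807934528), (nat_lit 15, nat_lit 24881676288)]⟩,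
   ⟨V6_18423484416, [(nat_lit 70, nat_lit 18457051200), (nat_lit 22, nat_lit 19530792960), (nat_lit 19, nat_lit 19530788928), (nat_lit 105, nat_lit 19514015808), (nat_lit 122, nat_lit 20604530688), (nat_lit 42, nat_lit 20604526656), (nat_lit 125, nat_lit 20587757568), (nat_lit 125, nat_lit 20587753536), (nat_lit 105, nat_lit 20570980416), (nat_lit 26, nat_lit 21678268416), (nat_lit 77, nat_lit 21678264384), (nat_lit 66, nat_lit 21661495296), (nat_lit 43, nat_lit 21661491264), (nat_lit 63, nat_lit 21644722176), (nat_lit 71, nat_lit 21644718144), (nat_lit 120, nat_lit 22752006144), (nat_lit 7, nat_lit 22735233024), (nat_lit 11, nat_lit 22735228992), (nat_lit 81, nat_lit 22718459904), (nat_lit 18, nat_lit 22718455872), (nat_lit 27, nat_lit 23808970752), (nat_lit 79, nat_lit 23792197632), (nat_lit 55, nat_lit 23792193600), (nat_lit 2, nat_lit 24865935360)]⟩,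
   ⟨V6_17383034880, [(nat_lit 97, nat_lit 18457051200), (nat_lit 2, nat_lit 19530792960), (nat_lit 57, nat_lit 19530788928), (nat_lit 115, nat_lit 19530530880), (nat_lit 84, nat_lit 20604530688), (nat_lit 66, nat_lit 20604526656), (nat_lit 124, nat_lit 20604272640), (nat_lit 119, nat_lit 20604268608), (nat_lit 76, nat_lit 21678268416), (nat_lit 74, nat_lit 21678264384), (nat_lit 91, nat_lit 21678010368), (nat_lit 119, nat_lit 21678006336), (nat_lit 70, nat_lit 22752006144), (nat_lit 23, nat_lit 22751748096), (nat_lit 80, nat_lit 22751744064), (nat_lit 32, nat_lit 23825485824)]⟩,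
   ⟨V6_17366519808, [(nat_lit 31, nat_lit 18457051200), (nat_lit 72, nat_lit 19530792960), (nat_lit 2, nat_lit 19530788928), (nat_lit 67, nat_lit 19514015808), (nat_lit 100, nat_lit 20604530688), (nat_lit 56, nat_lit 20604526656), (nat_lit 55, nat_lit 20587757568), (nat_lit 118, nat_lit 20587753536), (nat_lit 102, nat_lit 21678268416), (nat_lit 6, nat_lit 21678264384), (nat_lit 85, nat_lit 21661495296), (nat_lit 38, nat_lit 21661491264), (nat_lit 69, nat_lit 22752006144), (nat_lit 9, nat_lit 22735233024), (nat_lit 82, nat_lit 22735228992), (nat_lit 66, nat_lit 23808970752)]⟩],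
  [W_18422448128, W_17382256640, W_17365483520, W_17348706368, W_17315938304, W_16308518912, W_16308514880, W_16291741760, W_16242458624, W_16242196544, W_15235551296, W_15235297280, W_15235039232, W_15235035200, W_15234777152, W_15218524160, W_15218262080, W_15202009088, W_15201747008, W_15185231936, W_15168716864, W_14161817600, W_14161813568, W_14161559552, W_14161555520, W_14161297472, W_14145044480, W_14144782400, W_14128267328, W_14111752256, W_13088337920, W_13088079872, W_13088075840, W_13087817792, W_13071302720, W_13054787648]⟩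
theorem C_18457051200 : chkRec R_18457051200 = true := by decide +kernel

noncomputable def R_18457055232 : Rec := ⟨nat_lit 18457055232, nat_lit 209,
  [⟨V6_18456772608, [(nat_lit 103, nat_lit 18457055232), (nat_lit 5, nat_lit 19530792960), (nat_lit 113, nat_lit 19530534912), (nat_lit 112, nat_lit 20604530688), (nat_lit 116, nat_lit 20604272640), (nat_lit 100, nat_lit 21678268416), (nat_lit 82, nat_lit 21678010368), (nat_lit 116, nat_lit 22752006144), (nat_lit 109, nat_lit 22751748096), (nat_lit 102, nat_lit 23825743872), (nat_lit 86, nat_lit 23825485824), (nat_lit 47, nat_lit 24899223552)]⟩,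
   ⟨V6_18456256512, [(nat_lit 81, nat_lit 18457055232), (nat_lit 76, nat_lit 19530792960), (nat_lit 15, nat_lit 19530534912), (nat_lit 70, nat_lit 20604530688), (nat_lit 84, nat_lit 20604272640), (nat_lit 70, nat_lit 20604014592), (nat_lit 76, nat_lit 21678268416), (nat_lit 109, nat_lit 21678010368), (nat_lit 60, nat_lit 21677752320), (nat_lit 94, nat_lit 21677494272), (nat_lit 90, nat_lit 22751748096), (nat_lit 77, nat_lit 22751490048), (nat_lit 53, nat_lit 22751232000), (nat_lit 17, nat_lit 23825227776), (nat_lit 117, nat_lit 23824969728), (nat_lit 112, nat_lit 24898707456)]⟩,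
   ⟨V6_17382776832, [(nat_lit 122, nat_lit 18457055232), (nat_lit 78, nat_lit 19530792960), (nat_lit 4, nat_lit 19530534912), (nat_lit 11, nat_lit 20604530688), (nat_lit 96, nat_lit 20604272640), (nat_lit 65, nat_lit 20604014592), (nat_lit 48, nat_lit 21678268416), (nat_lit 89, nat_lit 21678010368), (nat_lit 104, nat_lit 21677752320), (nat_lit 94, nat_lit 22751748096), (nat_lit 21, nat_lit 22751490048), (nat_lit 52, nat_lit 23825227776)]⟩],
  [W_18406707200, W_18389934080, W_18389676032, W_17316196352, W_17315938304, W_16242458624, W_15218524160, W_15202009088, W_15185494016, W_15168720896, W_14161817600, W_14161559552, W_14145302528, W_14145044480, W_14128529408, W_13088337920, W_13088079872, W_13071564800, W_13071306752, W_13054791680]⟩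
theorem C_18457055232 : chkRec R_18457055232 = true := by decide +kernel

noncomputable def R_18457305153 : Rec := ⟨nat_lit 18457305153, nat_lit 52,
  [⟨V6_18439217217, [(nat_lit 108, nat_lit 18457305153), (nat_lit 59, nat_lit 19530784833), (nat_lit 82, nat_lit 19514269761), (nat_lit 32, nat_lit 20604264513), (nat_lit 2, nat_lit 20587749441), (nat_lit 34, nat_lit 21677744193), (nat_lit 4, nat_lit 21661229121), (nat_lit 72, nat_lit 22751223873), (nat_lit 8, nat_lit 22734708801), (nat_lit 100, nat_lit 23824703553), (nat_lit 92, nat_lit 23808188481), (nat_lit 98, nat_lit 24881668161)]⟩,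
   ⟨V6_17382510657, [(nat_lit 109, nat_lit 18457305153), (nat_lit 115, nat_lit 19531042881), (nat_lit 124, nat_lit 19530784833), (nat_lit 2, nat_lit 20604522561), (nat_lit 95, nat_lit 20604264513), (nat_lit 50, nat_lit 21678002241), (nat_lit 33, nat_lit 21677744193), (nat_lit 15, nat_lit 22751481921), (nat_lit 104, nat_lit 22751223873), (nat_lit 30, nat_lit 23824961601)]⟩,
   ⟨V6_15235813440, [(nat_lit 24, nat_lit 18457305153), (nat_lit 113, nat_lit 19531046976), (nat_lit 18, nat_lit 19531042881), (nat_lit 124, nat_lit 19530784833), (nat_lit 12, nat_lit 20604784704), (nat_lit 65, nat_lit 20604526656), (nat_lit 34, nat_lit 20604522561), (nat_lit 92, nat_lit 21678264384)]⟩,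
   ⟨V6_15185748033, [(nat_lit 79, nat_lit 18457305153), (nat_lit 98, nat_lit 19514269761), (nat_lit 78, nat_lit 20571234369), (nat_lit 42, nat_lit 21628198977)]⟩],
  [W_18406187072, W_17332965440, W_16292515904, W_16259485760, W_15202521152, W_14161813568, W_14145556544, W_14128783424, W_13088333888]⟩
theorem C_18457305153 : chkRec R_18457305153 = true := by decide +kernel

noncomputable def R_18457305216 : Rec := ⟨nat_lit 18457305216, nat_lit 106,
  [⟨V6_16276267008, [(nat_lit 70, nat_lit 18457305216), (nat_lit 124, nat_lit 19531046976), (nat_lit 64, nat_lit 19514269824), (nat_lit 97, nat_lit 20604788736), (nat_lit 61, nat_lit 20588011584), (nat_lit 19, nat_lit 20571234432), (nat_lit 40, nat_lit 21661753344), (nat_lit 34, nat_lit 21644976192), (nat_lit 118, nat_lit 22718717952)]⟩,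
   ⟨V6_15235817472, [(nat_lit 2, nat_lit 18457305216), (nat_lit 79, nat_lit 19531046976), (nat_lit 69, nat_lit 19530784896), (nat_lit 32, nat_lit 20604788736), (nat_lit 114, nat_lit 20604526656), (nat_lit 90, nat_lit 21678268416)]⟩,
   ⟨V6_15219302400, [(nat_lit 46, nat_lit 18457305216), (nat_lit 104, nat_lit 19531046976), (nat_lit 121, nat_lit 19514269824), (nat_lit 81, nat_lit 20604788736), (nat_lit 96, nat_lit 20588011584), (nat_lit 23, nat_lit 21661753344)]⟩],
  [W_18455994368, W_18455732288, W_18455470208, W_18438955136, W_18422440064, W_18406449152, W_18405924992, W_17381990528, W_17365475456, W_15202525184, W_15202001024, W_15185485952, W_14161813568, W_14145036416, W_13088595968, W_13088071808, W_13071556736]⟩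
theorem C_18457305216 : chkRec R_18457305216 = true := by decide +kernel

noncomputable def R_18457309248 : Rec := ⟨nat_lit 18457309248, nat_lit 229,
  [⟨V6_18456256512, [(nat_lit 114, nat_lit 18457309248), (nat_lit 11, nat_lit 19531051008), (nat_lit 5, nat_lit 19531046976), (nat_lit 5, nat_lit 19530788928), (nat_lit 16, nat_lit 20604788736), (nat_lit 50, nat_lit 20604530688), (nat_lit 19, nat_lit 20604526656), (nat_lit 54, nat_lit 20604268608), (nat_lit 55, nat_lit 21678268416), (nat_lit 7, nat_lit 21678010368), (nat_lit 71, nat_lit 21678006336), (nat_lit 88, nat_lit 21677748288), (nat_lit 13, nat_lit 22751748096), (nat_lit 125, nat_lit 22751490048), (nat_lit 68, nat_lit 22751486016), (nat_lit 103, nat_lit 22751227968), (nat_lit 43, nat_lit 23825227776), (nat_lit 2, nat_lit 23824969728), (nat_lit 1, nat_lit 23824965696), (nat_lit 115, nat_lit 24898707456)]⟩,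
   ⟨V6_18455998464, [(nat_lit 68, nat_lit 18457309248), (nat_lit 16, nat_lit 19531051008), (nat_lit 41, nat_lit 19530788928), (nat_lit 68, nat_lit 20604530688), (nat_lit 67, nat_lit 20604268608), (nat_lit 82, nat_lit 21678010368), (nat_lit 33, nat_lit 21677748288), (nat_lit 7, nat_lit 22751490048), (nat_lit 11, nat_lit 22751227968), (nat_lit 65, nat_lit 23824969728), (nat_lit 58, nat_lit 23824707648), (nat_lit 21, nat_lit 24898449408)]⟩,
   ⟨V6_17382776832, [(nat_lit 49, nat_lit 18457309248), (nat_lit 16, nat_lit 19531051008), (nat_lit 75, nat_lit 19531046976), (nat_lit 52, nat_lit 19530788928), (nat_lit 12, nat_lit 20604788736), (nat_lit 26, nat_lit 20604530688), (nat_lit 113, nat_lit 20604526656), (nat_lit 121, nat_lit 20604268608), (nat_lit 8, nat_lit 21678268416), (nat_lit 43, nat_lit 21678010368), (nat_lit 72, nat_lit 21678006336), (nat_lit 99, nat_lit 21677748288), (nat_lit 118, nat_lit 22751748096), (nat_lit 11, nat_lit 22751490048), (nat_lit 96, nat_lit 22751486016), (nat_lit 12, nat_lit 23825227776)]⟩],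
  [W_18455736320, W_18438959168, W_18406707200, W_17382256640, W_17333227520, W_17332965440, W_16276262912, W_16276000832, W_16259489792, W_16259485760, W_15235551296, W_15235297280, W_15219298304, W_15202525184, W_15202521152, W_15185752064, W_15185748032, W_15185489984, W_14162333696, W_14162071616, W_14161817600, W_14161813568, W_14145560576, W_14145556544, W_14145302528, W_14128787456, W_14128783424, W_14128525376, W_14112010304, W_13088595968, W_13088337920, W_13088333888, W_13088075840, W_13071822848, W_13071818816, W_13071560768, W_13055045696]⟩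
theorem C_18457309248 : chkRec R_18457309248 = true := by decide +kernel

noncomputable def R_18457313280 : Rec := ⟨nat_lit 18457313280, nat_lit 208,
  [⟨V6_18456256512, [(nat_lit 36, nat_lit 18457313280), (nat_lit 82, nat_lit 19531051008), (nat_lit 91, nat_lit 19530792960), (nat_lit 59, nat_lit 20604788736), (nat_lit 10, nat_lit 20604530688), (nat_lit 82, nat_lit 20604272640), (nat_lit 46, nat_lit 21678268416), (nat_lit 58, nat_lit 21678010368), (nat_lit 22, nat_lit 21677752320), (nat_lit 48, nat_lit 22751748096), (nat_lit 23, nat_lit 22751490048), (nat_lit 120, nat_lit 22751232000), (nat_lit 68, nat_lit 23825227776), (nat_lit 43, nat_lit 23824969728), (nat_lit 41, nat_lit 24898707456)]⟩,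
   ⟨V6_18455998464, [(nat_lit 94, nat_lit 18457313280), (nat_lit 50, nat_lit 19531051008), (nat_lit 48, nat_lit 19530792960), (nat_lit 39, nat_lit 20604530688), (nat_lit 123, nat_lit 20604272640), (nat_lit 117, nat_lit 21678010368), (nat_lit 73, nat_lit 21677752320), (nat_lit 110, nat_lit 22751490048), (nat_lit 106, nat_lit 22751232000), (nat_lit 64, nat_lit 23824969728), (nat_lit 77, nat_lit 23824711680), (nat_lit 54, nat_lit 24898449408)]⟩,
   ⟨V6_18439225344, [(nat_lit 71, nat_lit 18457313280), (nat_lit 87, nat_lit 19530792960), (nat_lit 108, nat_lit 19514277888), (nat_lit 101, nat_lit 20604272640), (nat_lit 46, nat_lit 20587757568), (nat_lit 20, nat_lit 21677752320), (nat_lit 92, nat_lit 21661237248), (nat_lit 5, nat_lit 22751232000), (nat_lit 57, nat_lit 22734716928), (nat_lit 14, nat_lit 23824711680), (nat_lit 84, nat_lit 23808196608), (nat_lit 95, nat_lit 24881676288)]⟩,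
   ⟨V6_17382260736, [(nat_lit 57, nat_lit 18457313280), (nat_lit 67, nat_lit 19530792960), (nat_lit 100, nat_lit 20604272640), (nat_lit 101, nat_lit 21677752320), (nat_lit 120, nat_lit 22751232000), (nat_lit 30, nat_lit 23824711680)]⟩],
  [W_18406965248, W_18406707200, W_17333227520, W_16276262912, W_15219298304, W_15218524160, W_15202525184, W_15202009088, W_15185752064, W_15185494016, W_14162333696, W_14161817600, W_14161559552, W_14145560576, W_14145302528, W_14145044480, W_14128787456, W_14128529408, W_14112014336, W_13088595968, W_13088337920, W_13088079872, W_13071822848, W_13071564800, W_13055049728]⟩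
theorem C_18457313280 : chkRec R_18457313280 = true := by decide +kernel

noncomputable def R_18457563201 : Rec := ⟨nat_lit 18457563201, nat_lit 15,
  [⟨V6_15202783296, [(nat_lit 43, nat_lit 18457563201), (nat_lit 18, nat_lit 19531305024), (nat_lit 26, nat_lit 19514527809), (nat_lit 69, nat_lit 20588269632), (nat_lit 52, nat_lit 20571492417), (nat_lit 84, nat_lit 21645234240)]⟩,
   ⟨V6_14145556545, [(nat_lit 57, nat_lit 18457563201), (nat_lit 108, nat_lit 19531042881), (nat_lit 69, nat_lit 19514527809), (nat_lit 117, nat_lit 20588007489)]⟩,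
   ⟨V6_14129041473, [(nat_lit 71, nat_lit 18457563201), (nat_lit 32, nat_lit 19514527809), (nat_lit 121, nat_lit 20571492417)]⟩,
   ⟨V6_13088854080, [(nat_lit 31, nat_lit 18457563201), (nat_lit 116, nat_lit 19531305024)]⟩],
  [W_18455990336, W_16292515904]⟩
theorem C_18457563201 : chkRec R_18457563201 = true := by decide +kernel

noncomputable def R_18457567296 : Rec := ⟨nat_lit 18457567296, nat_lit 135,
  [⟨V6_16309297152, [(nat_lit 68, nat_lit 18457567296), (nat_lit 111, nat_lit 19531309056), (nat_lit 119, nat_lit 19531046976), (nat_lit 103, nat_lit 20604788736), (nat_lit 108, nat_lit 20604526656), (nat_lit 4, nat_lit 21678268416), (nat_lit 97, nat_lit 21678006336), (nat_lit 110, nat_lit 22751748096)]⟩,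
   ⟨V6_15235817472, [(nat_lit 107, nat_lit 18457567296), (nat_lit 5, nat_lit 19531309056), (nat_lit 107, nat_lit 19531046976), (nat_lit 95, nat_lit 20604788736), (nat_lit 7, nat_lit 20604526656), (nat_lit 87, nat_lit 21678268416)]⟩,
   ⟨V6_13088858112, [(nat_lit 49, nat_lit 18457567296), (nat_lit 92, nat_lit 19531309056)]⟩],
  [W_18456252416, W_18455990336, W_18455732288, W_16276262912, W_16276000832, W_15235551296, W_15219298304, W_15202783232, W_15202525184, W_15202521152, W_14162333696, W_14162071616, W_14161813568, W_14145818624, W_14145560576, W_14145556544, W_14129045504, W_14128783424, W_13088854016, W_13088595968, W_13072080896, W_13071818816]⟩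
theorem C_18457567296 : chkRec R_18457567296 = true := by decide +kernel

noncomputable def R_18457571328 : Rec := ⟨nat_lit 18457571328, nat_lit 155,
  [⟨V6_18456772608, [(nat_lit 80, nat_lit 18457571328), (nat_lit 70, nat_lit 19531309056), (nat_lit 84, nat_lit 19531051008), (nat_lit 36, nat_lit 20605046784), (nat_lit 117, nat_lit 20604788736), (nat_lit 41, nat_lit 20604530688), (nat_lit 86, nat_lit 21678784512), (nat_lit 110, nat_lit 21678526464), (nat_lit 96, nat_lit 21678268416), (nat_lit 50, nat_lit 21678010368), (nat_lit 13, nat_lit 22752264192), (nat_lit 40, nat_lit 22752006144), (nat_lit 89, nat_lit 22751748096), (nat_lit 40, nat_lit 23825743872), (nat_lit 76, nat_lit 23825485824), (nat_lit 51, nat_lit 24899223552)]⟩,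
   ⟨V6_18455998464, [(nat_lit 63, nat_lit 18457571328), (nat_lit 117, nat_lit 19531051008), (nat_lit 92, nat_lit 20604530688), (nat_lit 71, nat_lit 21678010368), (nat_lit 29, nat_lit 22751490048), (nat_lit 11, nat_lit 23824969728), (nat_lit 114, nat_lit 24898449408)]⟩,
   ⟨V6_15236333568, [(nat_lit 29, nat_lit 18457571328), (nat_lit 17, nat_lit 19531309056), (nat_lit 20, nat_lit 20605046784), (nat_lit 37, nat_lit 21678784512)]⟩,
   ⟨V6_15235817472, [(nat_lit 30, nat_lit 18457571328), (nat_lit 46, nat_lit 19531309056), (nat_lit 23, nat_lit 19531051008), (nat_lit 24, nat_lit 20604788736), (nat_lit 84, nat_lit 20604530688), (nat_lit 95, nat_lit 21678268416)]⟩],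
  [W_18455736320, W_18439221248, W_17382256640, W_16276520960, W_16276262912, W_15235297280, W_15219298304, W_15202783232, W_15202525184, W_14162591744, W_14162333696, W_14161817600, W_14145560576, W_14145302528, W_14128787456, W_13088595968, W_13088337920, W_13071822848, W_13055307776]⟩
theorem C_18457571328 : chkRec R_18457571328 = true := by decide +kernel

noncomputable def R_18457825344 : Rec := ⟨nat_lit 18457825344, nat_lit 39,
  [⟨V6_16309293120, [(nat_lit 1, nat_lit 18457825344), (nat_lit 82, nat_lit 19531305024), (nat_lit 79, nat_lit 20604784704), (nat_lit 81, nat_lit 21678264384), (nat_lit 88, nat_lit 22751744064)]⟩,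
   ⟨V6_13072339008, [(nat_lit 77, nat_lit 18457825344), (nat_lit 116, nat_lit 19514789952)]⟩],
  [W_18456252416, W_15219298304, W_14162333696, W_13088854016]⟩
theorem C_18457825344 : chkRec R_18457825344 = true := by decide +kernel

noncomputable def R_18457829376 : Rec := ⟨nat_lit 18457829376, nat_lit 80,
  [⟨V6_15236333568, [(nat_lit 66, nat_lit 18457829376), (nat_lit 80, nat_lit 19531567104), (nat_lit 83, nat_lit 19531309056), (nat_lit 121, nat_lit 20605304832), (nat_lit 3, nat_lit 20605046784), (nat_lit 37, nat_lit 21678784512)]⟩,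
   ⟨V6_15235817472, [(nat_lit 55, nat_lit 18457829376), (nat_lit 120, nat_lit 19531309056), (nat_lit 55, nat_lit 20604788736), (nat_lit 73, nat_lit 21678268416)]⟩,
   ⟨V6_13088858112, [(nat_lit 107, nat_lit 18457829376), (nat_lit 49, nat_lit 19531309056)]⟩],
  [W_18456510464, W_18456252416, W_18455994368, W_15219298304, W_14145818624, W_13072080896]⟩
theorem C_18457829376 : chkRec R_18457829376 = true := by decide +kernel

noncomputable def R_18458087424 : Rec := ⟨nat_lit 18458087424, nat_lit 26,
  [⟨V6_18456772608, [(nat_lit 77, nat_lit 18458087424), (nat_lit 33, nat_lit 19531825152), (nat_lit 65, nat_lit 19531567104), (nat_lit 33, nat_lit 20605304832), (nat_lit 101, nat_lit 20605046784), (nat_lit 54, nat_lit 21678784512), (nat_lit 74, nat_lit 21678526464), (nat_lit 73, nat_lit 22752264192), (nat_lit 114, nat_lit 22752006144), (nat_lit 94, nat_lit 23825743872), (nat_lit 13, nat_lit 23825485824), (nat_lit 94, nat_lit 24899223552)]⟩],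
  [W_18456510464, W_14162333696]⟩
theorem C_18458087424 : chkRec R_18458087424 = true := by decide +kernel

noncomputable def R_18472775874 : Rec := ⟨nat_lit 18472775874, nat_lit 3,
  [⟨V6_14177808576, [(nat_lit 98, nat_lit 18472775874), (nat_lit 20, nat_lit 19546517697), (nat_lit 50, nat_lit 20620259520)]⟩],
  [W_18405666944]⟩
theorem C_18472775874 : chkRec R_18472775874 = true := by decide +kernel

noncomputable def R_18472779906 : Rec := ⟨nat_lit 18472779906, nat_lit 9,
  [⟨V6_15234777216, [(nat_lit 55, nat_lit 18472779906), (nat_lit 58, nat_lit 19546521729), (nat_lit 78, nat_lit 19529744514), (nat_lit 16, nat_lit 20620263552), (nat_lit 122, nat_lit 20603486337), (nat_lit 6, nat_lit 21677228160)]⟩],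
  [W_18422440064, W_18405666944]⟩
theorem C_18472779906 : chkRec R_18472779906 = true := by decide +kernel

noncomputable def R_18472779969 : Rec := ⟨nat_lit 18472779969, nat_lit 18,
  [⟨V6_14177812608, [(nat_lit 80, nat_lit 18472779969), (nat_lit 55, nat_lit 19546521792), (nat_lit 64, nat_lit 19546521729), (nat_lit 113, nat_lit 20620263552)]⟩,
   ⟨V6_14177808576, [(nat_lit 101, nat_lit 18472779969), (nat_lit 23, nat_lit 19546521792), (nat_lit 28, nat_lit 19546517697), (nat_lit 32, nat_lit 20620259520)]⟩,
   ⟨V6_14161035456, [(nat_lit 99, nat_lit 18472779969), (nat_lit 91, nat_lit 19546521792), (nat_lit 42, nat_lit 19529744577), (nat_lit 108, nat_lit 20603486400)]⟩],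
  [W_18422444096, W_18405666944, W_18388893824, W_18372116672, W_17315152064]⟩
theorem C_18472779969 : chkRec R_18472779969 = true := by decide +kernel

noncomputable def R_18472780032 : Rec := ⟨nat_lit 18472780032, nat_lit 17,
  [⟨V6_16325296128, [(nat_lit 45, nat_lit 18472780032), (nat_lit 104, nat_lit 19546521792), (nat_lit 9, nat_lit 20620263552), (nat_lit 33, nat_lit 21694005312), (nat_lit 2, nat_lit 22767747072)]⟩,
   ⟨V6_14144258304, [(nat_lit 122, nat_lit 18472780032), (nat_lit 44, nat_lit 19529744640), (nat_lit 30, nat_lit 20586709248)]⟩],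
  [W_18422448128, W_18388893824]⟩
theorem C_18472780032 : chkRec R_18472780032 = true := by decide +kernel

noncomputable def R_18473037954 : Rec := ⟨nat_lit 18473037954, nat_lit 14,
  [⟨V6_16308248706, [(nat_lit 77, nat_lit 18473037954), (nat_lit 68, nat_lit 19546775682), (nat_lit 76, nat_lit 19546517634), (nat_lit 126, nat_lit 19530002562), (nat_lit 92, nat_lit 20620255362), (nat_lit 75, nat_lit 20619997314), (nat_lit 124, nat_lit 20603740290), (nat_lit 7, nat_lit 20603482242), (nat_lit 101, nat_lit 21693735042), (nat_lit 103, nat_lit 21677219970), (nat_lit 104, nat_lit 21676961922), (nat_lit 87, nat_lit 22750699650)]⟩,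
   ⟨V6_15235031169, [(nat_lit 111, nat_lit 18473037954), (nat_lit 9, nat_lit 19546779777), (nat_lit 45, nat_lit 19546775682), (nat_lit 104, nat_lit 19530002562), (nat_lit 38, nat_lit 20620517505), (nat_lit 26, nat_lit 20603744385), (nat_lit 98, nat_lit 20603740290), (nat_lit 99, nat_lit 21677482113)]⟩,
   ⟨V6_14177546370, [(nat_lit 103, nat_lit 18473037954), (nat_lit 32, nat_lit 19546517634), (nat_lit 116, nat_lit 20619997314)]⟩],
  [W_18422440064, W_18405924992, W_18405666944, W_18389151872]⟩
theorem C_18473037954 : chkRec R_18473037954 = true := by decide +kernel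

noncomputable def R_18473038017 : Rec := ⟨nat_lit 18473038017, nat_lit 20,
  [⟨V6_15251288256, [(nat_lit 95, nat_lit 18473038017), (nat_lit 22, nat_lit 19546779840), (nat_lit 125, nat_lit 19546517697), (nat_lit 95, nat_lit 20620259520), (nat_lit 112, nat_lit 20619997377), (nat_lit 116, nat_lit 21693739200)]⟩,
   ⟨V6_15234773184, [(nat_lit 71, nat_lit 18473038017), (nat_lit 83, nat_lit 19546779840), (nat_lit 69, nat_lit 19546517697), (nat_lit 102, nat_lit 19530002625), (nat_lit 99, nat_lit 20620259520), (nat_lit 124, nat_lit 20603744448), (nat_lit 37, nat_lit 20603482305), (nat_lit 62, nat_lit 21677224128)]⟩,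
   ⟨V6_14177808576, [(nat_lit 62, nat_lit 18473038017), (nat_lit 48, nat_lit 19546779840), (nat_lit 110, nat_lit 19546517697), (nat_lit 5, nat_lit 20620259520)]⟩,
   ⟨V6_14161293504, [(nat_lit 39, nat_lit 18473038017), (nat_lit 32, nat_lit 19546779840), (nat_lit 5, nat_lit 19530002625), (nat_lit 31, nat_lit 20603744448)]⟩],
  [W_18438959168, W_18405929024, W_18389151872, W_18372374720, W_16325029952]⟩
theorem C_18473038017 : chkRec R_18473038017 = true := by decide +kernel

noncomputable def R_18473042049 : Rec := ⟨nat_lit 18473042049, nat_lit 53,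
  [⟨V6_16291741761, [(nat_lit 21, nat_lit 18473042049), (nat_lit 3, nat_lit 19546783809), (nat_lit 91, nat_lit 19546521729), (nat_lit 102, nat_lit 19530006657), (nat_lit 40, nat_lit 20620263489), (nat_lit 42, nat_lit 20603748417), (nat_lit 57, nat_lit 20603486337), (nat_lit 121, nat_lit 20586971265), (nat_lit 59, nat_lit 21677228097), (nat_lit 33, nat_lit 21660713025), (nat_lit 93, nat_lit 21660450945), (nat_lit 126, nat_lit 22734192705)]⟩,
   ⟨V6_15235031169, [(nat_lit 52, nat_lit 18473042049), (nat_lit 71, nat_lit 19546779777), (nat_lit 18, nat_lit 19530006657), (nat_lit 67, nat_lit 20620517505), (nat_lit 42, nat_lit 20603744385), (nat_lit 24, nat_lit 21677482113)]⟩,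
   ⟨V6_15234777216, [(nat_lit 4, nat_lit 18473042049), (nat_lit 112, nat_lit 19546783872), (nat_lit 113, nat_lit 19546521729), (nat_lit 29, nat_lit 19530006657), (nat_lit 2, nat_lit 20620263552), (nat_lit 100, nat_lit 20603748480), (nat_lit 79, nat_lit 20603486337), (nat_lit 50, nat_lit 21677228160)]⟩,
   ⟨V6_14177812608, [(nat_lit 115, nat_lit 18473042049), (nat_lit 3, nat_lit 19546783872), (nat_lit 118, nat_lit 19546521729), (nat_lit 40, nat_lit 20620263552)]⟩],
  [W_18439217216, W_18422440064, W_18405924992, W_18372378752, W_17382252608, W_17365475456, W_17348960384, W_17348706368, W_14178070592]⟩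
theorem C_18473042049 : chkRec R_18473042049 = true := by decide +kernel

noncomputable def R_18473042112 : Rec := ⟨nat_lit 18473042112, nat_lit 72,
  [⟨V6_16308781056, [(nat_lit 31, nat_lit 18473042112), (nat_lit 29, nat_lit 19546783872), (nat_lit 20, nat_lit 19530006720), (nat_lit 71, nat_lit 20620525632), (nat_lit 103, nat_lit 20603748480), (nat_lit 125, nat_lit 21694267392), (nat_lit 80, nat_lit 21677490240), (nat_lit 33, nat_lit 22751232000)]⟩,
   ⟨V6_15251816448, [(nat_lit 28, nat_lit 18473042112), (nat_lit 54, nat_lit 19546783872), (nat_lit 33, nat_lit 20620525632), (nat_lit 106, nat_lit 21694267392)]⟩],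
  [W_18439221248, W_18422448128, W_18405666944, W_18388893824, W_18372374720, W_18372116672, W_17382256640, W_17348706368, W_16325292032, W_14144516288]⟩
theorem C_18473042112 : chkRec R_18473042112 = true := by decide +kernel

noncomputable def R_18473046081 : Rec := ⟨nat_lit 18473046081, nat_lit 25,
  [⟨V6_18456252480, [(nat_lit 29, nat_lit 18473046081), (nat_lit 105, nat_lit 19546787904), (nat_lit 116, nat_lit 19546783809), (nat_lit 13, nat_lit 19530010689), (nat_lit 51, nat_lit 20620525632), (nat_lit 2, nat_lit 20620521537), (nat_lit 81, nat_lit 20603752512), (nat_lit 32, nat_lit 20603748417), (nat_lit 126, nat_lit 21694263360), (nat_lit 16, nat_lit 21694259265), (nat_lit 15, nat_lit 21677490240), (nat_lit 28, nat_lit 21677486145), (nat_lit 110, nat_lit 22768001088), (nat_lit 92, nat_lit 22767996993), (nat_lit 99, nat_lit 22751227968), (nat_lit 111, nat_lit 22751223873), (nat_lit 21, nat_lit 23841738816), (nat_lit 34, nat_lit 23824965696), (nat_lit 104, nat_lit 23824961601), (nat_lit 53, nat_lit 24898703424)]⟩],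
  [W_18372382784, W_16258453568, W_15235035200, W_15218262080, W_14178070592, W_14144524352]⟩
theorem C_18473046081 : chkRec R_18473046081 = true := by decide +kernel

noncomputable def R_18473046144 : Rec := ⟨nat_lit 18473046144, nat_lit 64,
  [⟨V6_16292007936, [(nat_lit 102, nat_lit 18473046144), (nat_lit 109, nat_lit 19546787904), (nat_lit 83, nat_lit 19530010752), (nat_lit 72, nat_lit 20620529664), (nat_lit 7, nat_lit 20603752512), (nat_lit 48, nat_lit 20586975360), (nat_lit 83, nat_lit 21677494272), (nat_lit 102, nat_lit 21660717120), (nat_lit 57, nat_lit 22734458880)]⟩,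
   ⟨V6_15251816448, [(nat_lit 90, nat_lit 18473046144), (nat_lit 19, nat_lit 19546787904), (nat_lit 121, nat_lit 19546783872), (nat_lit 64, nat_lit 20620529664), (nat_lit 28, nat_lit 20620525632), (nat_lit 47, nat_lit 21694267392)]⟩,
   ⟨V6_14178078720, [(nat_lit 75, nat_lit 18473046144), (nat_lit 78, nat_lit 19546787904), (nat_lit 61, nat_lit 20620529664)]⟩],
  [W_18405924992, W_18389159936, W_18389151872, W_18372378752, W_17348960384, W_17332195328, W_17332187264, W_16275230720, W_15251812352, W_15235039232, W_15218262080, W_14178070592]⟩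
theorem C_18473046144 : chkRec R_18473046144 = true := by decide +kernel

noncomputable def R_18473296002 : Rec := ⟨nat_lit 18473296002, nat_lit 11,
  [⟨V6_15235031169, [(nat_lit 124, nat_lit 18473296002), (nat_lit 60, nat_lit 19547037825), (nat_lit 111, nat_lit 19546775682), (nat_lit 52, nat_lit 19530260610), (nat_lit 115, nat_lit 20620517505), (nat_lit 53, nat_lit 20604002433), (nat_lit 19, nat_lit 20603740290), (nat_lit 36, nat_lit 21677482113)]⟩],
  [W_18455470208, W_18438955136, W_18389409920, W_17398505600, W_16325025920]⟩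
theorem C_18473296002 : chkRec R_18473296002 = true := by decide +kernel

noncomputable def R_18473300097 : Rec := ⟨nat_lit 18473300097, nat_lit 70,
  [⟨V6_18389409921, [(nat_lit 46, nat_lit 18473300097), (nat_lit 124, nat_lit 19547037825), (nat_lit 64, nat_lit 19530264705), (nat_lit 106, nat_lit 20604002433), (nat_lit 37, nat_lit 20587229313), (nat_lit 65, nat_lit 21660967041), (nat_lit 39, nat_lit 21644193921), (nat_lit 25, nat_lit 22717931649), (nat_lit 56, nat_lit 22701158529), (nat_lit 51, nat_lit 23774896257), (nat_lit 42, nat_lit 23758123137), (nat_lit 57, nat_lit 24831860865)]⟩,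
   ⟨V6_16291995777, [(nat_lit 97, nat_lit 18473300097), (nat_lit 95, nat_lit 19547037825), (nat_lit 89, nat_lit 19546779777), (nat_lit 108, nat_lit 19530264705), (nat_lit 7, nat_lit 20620517505), (nat_lit 97, nat_lit 20604002433), (nat_lit 41, nat_lit 20603744385), (nat_lit 89, nat_lit 20587229313), (nat_lit 49, nat_lit 21677482113), (nat_lit 3, nat_lit 21660967041), (nat_lit 89, nat_lit 21660708993), (nat_lit 54, nat_lit 22734446721)]⟩,
   ⟨V6_15235293312, [(nat_lit 38, nat_lit 18473300097), (nat_lit 42, nat_lit 19547041920), (nat_lit 2, nat_lit 19547037825), (nat_lit 67, nat_lit 19530264705), (nat_lit 120, nat_lit 20620779648), (nat_lit 108, nat_lit 20604006528), (nat_lit 5, nat_lit 20604002433), (nat_lit 92, nat_lit 21677744256)]⟩],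
  [W_18455732288, W_18438959168, W_18422182016, W_18406187072, W_17398767680, W_17381994560, W_17381990528, W_17365475456, W_17365217408, W_16325029952, W_16308514880, W_15251550272, W_14178328640, W_14178070592, W_14161555520]⟩
theorem C_18473300097 : chkRec R_18473300097 = true := by decide +kernel

noncomputable def R_18473300160 : Rec := ⟨nat_lit 18473300160, nat_lit 71,
  [⟨V6_17366003712, [(nat_lit 35, nat_lit 18473300160), (nat_lit 11, nat_lit 19547041920), (nat_lit 37, nat_lit 19530264768), (nat_lit 104, nat_lit 20620783680), (nat_lit 2, nat_lit 20604006528), (nat_lit 81, nat_lit 20587229376), (nat_lit 13, nat_lit 21694525440), (nat_lit 9, nat_lit 21677748288), (nat_lit 60, nat_lit 21660971136), (nat_lit 63, nat_lit 22751490048), (nat_lit 4, nat_lit 22734712896), (nat_lit 6, nat_lit 23808454656)]⟩],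
  [W_18455736320, W_18439221248, W_18405666944, W_17398771712, W_17382256640, W_16325292032, W_16325029952, W_15251812352, W_14178332672, W_14178070592, W_14177546432]⟩
theorem C_18473300160 : chkRec R_18473300160 = true := by decide +kernel

noncomputable def R_18473304129 : Rec := ⟨nat_lit 18473304129, nat_lit 75,
  [⟨V6_18439217217, [(nat_lit 46, nat_lit 18473304129), (nat_lit 28, nat_lit 19547041857), (nat_lit 120, nat_lit 19546783809), (nat_lit 58, nat_lit 19530268737), (nat_lit 38, nat_lit 20620779585), (nat_lit 38, nat_lit 20620521537), (nat_lit 54, nat_lit 20620263489), (nat_lit 91, nat_lit 20604006465), (nat_lit 53, nat_lit 20603748417), (nat_lit 28, nat_lit 20587233345), (nat_lit 3, nat_lit 21694259265), (nat_lit 99, nat_lit 21694001217), (nat_lit 32, nat_lit 21677744193), (nat_lit 67, nat_lit 21677486145), (nat_lit 109, nat_lit 21677228097), (nat_lit 119, nat_lit 21660971073), (nat_lit 69, nat_lit 21660713025), (nat_lit 56, nat_lit 22767738945), (nat_lit 71, nat_lit 22751223873), (nat_lit 8, nat_lit 22750965825), (nat_lit 121, nat_lit 22734708801),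 (nat_lit 64, nat_lit 22734450753), (nat_lit 45, nat_lit 22734192705), (nat_lit 110, nat_lit 23824703553), (nat_lit 102, nat_lit 23808188481), (nat_lit 17, nat_lit 23807930433), (nat_lit 28, nat_lit 24881668161)]⟩,
   ⟨V6_18405670977, [(nat_lit 31, nat_lit 18473304129), (nat_lit 71, nat_lit 19546783809), (nat_lit 19, nat_lit 19530268737), (nat_lit 118, nat_lit 20620263489), (nat_lit 63, nat_lit 20603748417), (nat_lit 93, nat_lit 20587233345), (nat_lit 93, nat_lit 21677228097), (nat_lit 108, nat_lit 21660713025), (nat_lit 97, nat_lit 21644197953), (nat_lit 22, nat_lit 22734192705), (nat_lit 66, nat_lit 22717677633), (nat_lit 94, nat_lit 22701162561), (nat_lit 54, nat_lit 23791157313), (nat_lit 28, nat_lit 23774642241), (nat_lit 109, nat_lit 24848121921)]⟩,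
   ⟨V6_16308518976, [(nat_lit 8, nat_lit 18473304129), (nat_lit 94, nat_lit 19547045952), (nat_lit 67, nat_lit 19546783809), (nat_lit 82, nat_lit 19530268737), (nat_lit 70, nat_lit 20620525632), (nat_lit 103, nat_lit 20620263489), (nat_lit 22, nat_lit 20604010560), (nat_lit 107, nat_lit 20603748417), (nat_lit 18, nat_lit 21694005312), (nat_lit 89, nat_lit 21677490240), (nat_lit 30, nat_lit 21677228097), (nat_lit 82, nat_lit 22750969920)]⟩,
   ⟨V6_16291741761, [(nat_lit 111, nat_lit 18473304129), (nat_lit 37, nat_lit 19546783809), (nat_lit 20, nat_lit 19530268737), (nat_lit 28, nat_lit 20620263489), (nat_lit 78, nat_lit 20603748417), (nat_lit 73, nat_lit 20587233345), (nat_lit 91, nat_lit 21677228097), (nat_lit 66, nat_lit 21660713025), (nat_lit 50, nat_lit 22734192705)]⟩],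
  [W_18455990336, W_18406187072, W_18372640832, W_17399025728, W_16325546048, W_15234777152, W_15201747008, W_14178328640, W_14161555520, W_14144782400]⟩
theorem C_18473304129 : chkRec R_18473304129 = true := by decide +kernel

noncomputable def R_18473304192 : Rec := ⟨nat_lit 18473304192, nat_lit 196,
  [⟨V6_18439741440, [(nat_lit 113, nat_lit 18473304192), (nat_lit 33, nat_lit 19547045952), (nat_lit 112, nat_lit 19547041920), (nat_lit 70, nat_lit 19530268800), (nat_lit 96, nat_lit 20620787712), (nat_lit 84, nat_lit 20620783680), (nat_lit 100, nat_lit 20620779648), (nat_lit 10, nat_lit 20604010560), (nat_lit 28, nat_lit 20604006528), (nat_lit 105, nat_lit 20587233408), (nat_lit 69, nat_lit 21694525440), (nat_lit 100, nat_lit 21694521408), (nat_lit 82, nat_lit 21677752320), (nat_lit 68, nat_lit 21677748288), (nat_lit 98, nat_lit 21677744256), (nat_lit 99, nat_lit 21660975168), (nat_lit 104, nat_lit 21660971136), (nat_lit 72, nat_lit 22768263168), (nat_lit 80, nat_lit 22751490048), (nat_lit 21, nat_lit 22751486016), (nat_lit 27, nat_lit 22734716928),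 (nat_lit 45, nat_lit 22734712896), (nat_lit 58, nat_lit 22734708864), (nat_lit 39, nat_lit 23825227776), (nat_lit 117, nat_lit 23808454656), (nat_lit 53, nat_lit 23808450624), (nat_lit 82, nat_lit 24882192384)]⟩,
   ⟨V6_17382776832, [(nat_lit 1, nat_lit 18473304192), (nat_lit 121, nat_lit 19547045952), (nat_lit 34, nat_lit 19547041920), (nat_lit 125, nat_lit 19530268800), (nat_lit 69, nat_lit 20620787712), (nat_lit 88, nat_lit 20620783680), (nat_lit 104, nat_lit 20620779648), (nat_lit 57, nat_lit 20604010560), (nat_lit 105, nat_lit 20604006528), (nat_lit 72, nat_lit 21694525440), (nat_lit 80, nat_lit 21694521408), (nat_lit 122, nat_lit 21677752320), (nat_lit 118, nat_lit 21677748288), (nat_lit 119, nat_lit 21677744256), (nat_lit 39, nat_lit 22768263168), (nat_lit 61, nat_lit 22751490048), (nat_lit 88, nat_lit 22751486016), (nat_lit 91, nat_lit 23825227776)]⟩,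
   ⟨V6_16325296128, [(nat_lit 31, nat_lit 18473304192), (nat_lit 58, nat_lit 19547045952), (nat_lit 56, nat_lit 19546783872), (nat_lit 60, nat_lit 20620787712), (nat_lit 16, nat_lit 20620525632), (nat_lit 55, nat_lit 20620263552), (nat_lit 122, nat_lit 21694267392), (nat_lit 33, nat_lit 21694005312), (nat_lit 3, nat_lit 22767747072)]⟩],
  [W_18439221248, W_18422448128, W_18388893824, W_18372640832, W_18355863680, W_17382256640, W_17365483520, W_17348706368, W_16308518912, W_16291741760, W_15251554304, W_15251546240, W_15235297280, W_15235039232, W_15234777152, W_15218524160, W_15218262080, W_15201747008, W_14178332672, W_14178328640, W_14161559552, W_14161297472, W_14144782400]⟩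
theorem C_18473304192 : chkRec R_18473304192 = true := by decide +kernel

noncomputable def R_18473308224 : Rec := ⟨nat_lit 18473308224, nat_lit 171,
  [⟨V6_18456252480, [(nat_lit 111, nat_lit 18473308224), (nat_lit 27, nat_lit 19547045952), (nat_lit 39, nat_lit 19546787904), (nat_lit 21, nat_lit 19530272832), (nat_lit 55, nat_lit 20620783680), (nat_lit 71, nat_lit 20620525632), (nat_lit 71, nat_lit 20604010560), (nat_lit 75, nat_lit 20603752512), (nat_lit 10, nat_lit 21694521408), (nat_lit 41, nat_lit 21694263360), (nat_lit 1, nat_lit 21677748288), (nat_lit 72, nat_lit 21677490240), (nat_lit 98, nat_lit 22768259136), (nat_lit 88, nat_lit 22768001088), (nat_lit 94, nat_lit 22751486016), (nat_lit 87, nat_lit 22751227968), (nat_lit 94, nat_lit 23841738816), (nat_lit 116, nat_lit 23825223744), (nat_lit 11, nat_lit 23824965696), (nat_lit 122, nat_lit 24898703424)]⟩,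
   ⟨V6_17399549952, [(nat_lit 74, nat_lit 18473308224), (nat_lit 87, nat_lit 19547049984), (nat_lit 121, nat_lit 19547045952), (nat_lit 48, nat_lit 20620787712), (nat_lit 23, nat_lit 20620783680), (nat_lit 117, nat_lit 21694525440), (nat_lit 32, nat_lit 21694521408), (nat_lit 23, nat_lit 22768263168), (nat_lit 16, nat_lit 22768259136), (nat_lit 100, nat_lit 23842000896)]⟩,
   ⟨V6_17382776832, [(nat_lit 96, nat_lit 18473308224), (nat_lit 37, nat_lit 19547049984), (nat_lit 119, nat_lit 19547045952), (nat_lit 1, nat_lit 19530272832), (nat_lit 111, nat_lit 20620787712), (nat_lit 25, nat_lit 20620783680), (nat_lit 11, nat_lit 20604014592), (nat_lit 26, nat_lit 20604010560), (nat_lit 11, nat_lit 21694525440), (nat_lit 73, nat_lit 21694521408), (nat_lit 118, nat_lit 21677752320), (nat_lit 12, nat_lit 21677748288), (nat_lit 99, nat_lit 22768263168), (nat_lit 62, nat_lit 22751490048), (nat_lit 102, nat_lit 22751486016), (nat_lit 69, nat_lit 23825227776)]⟩],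
  [W_18389417984, W_18389159936, W_18372644864, W_18372640832, W_18372382784, W_18355867712, W_17298903104, W_16258453568, W_15251812352, W_15235297280, W_15235039232, W_15218524160, W_15218266112, W_15218262080, W_15201747008, W_15201488960, W_15184973888, W_14178332672, W_14178070592, W_14161559552, W_14161555520, W_14161301504, W_14161297472, W_14144782400, W_14144524352]⟩
theorem C_18473308224 : chkRec R_18473308224 = true := by decide +kernel

noncomputable def R_18473312256 : Rec := ⟨nat_lit 18473312256, nat_lit 77,
  [⟨V6_17399549952, [(nat_lit 48, nat_lit 18473312256), (nat_lit 46, nat_lit 19547049984), (nat_lit 110, nat_lit 20620787712), (nat_lit 15, nat_lit 21694525440), (nat_lit 78, nat_lit 22768263168), (nat_lit 97, nat_lit 23842000896)]⟩,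
   ⟨V6_17315684352, [(nat_lit 65, nat_lit 18473312256), (nat_lit 122, nat_lit 19530276864), (nat_lit 116, nat_lit 20587241472), (nat_lit 40, nat_lit 21644206080), (nat_lit 55, nat_lit 22701170688), (nat_lit 42, nat_lit 23758135296)]⟩],
  [W_18456510464, W_18389417984, W_15235297280, W_15218524160, W_14178332672]⟩
theorem C_18473312256 : chkRec R_18473312256 = true := by decide +kernel

noncomputable def R_18473558145 : Rec := ⟨nat_lit 18473558145, nat_lit 48,
  [⟨V6_17315930241, [(nat_lit 70, nat_lit 18473558145), (nat_lit 63, nat_lit 19530522753), (nat_lit 37, nat_lit 20587487361), (nat_lit 4, nat_lit 21644451969), (nat_lit 69, nat_lit 22701416577), (nat_lit 55, nat_lit 23758381185)]⟩,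
   ⟨V6_15235293312, [(nat_lit 49, nat_lit 18473558145), (nat_lit 7, nat_lit 19547299968), (nat_lit 124, nat_lit 19547037825), (nat_lit 86, nat_lit 19530522753), (nat_lit 115, nat_lit 20620779648), (nat_lit 79, nat_lit 20604264576), (nat_lit 74, nat_lit 20604002433), (nat_lit 84, nat_lit 21677744256)]⟩],
  [W_18455732288, W_18455470208, W_18406187072, W_17398767680, W_17398505600, W_17382252608, W_14178328640, W_14161813568]⟩
theorem C_18473558145 : chkRec R_18473558145 = true := by decide +kernel

noncomputable def R_18473562177 : Rec := ⟨nat_lit 18473562177, nat_lit 80,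
  [⟨V6_18456252480, [(nat_lit 95, nat_lit 18473562177), (nat_lit 40, nat_lit 19547304000), (nat_lit 98, nat_lit 19547299905), (nat_lit 69, nat_lit 19547041857), (nat_lit 106, nat_lit 19530526785), (nat_lit 81, nat_lit 20621041728), (nat_lit 74, nat_lit 20621037633), (nat_lit 125, nat_lit 20620783680), (nat_lit 19, nat_lit 20620779585), (nat_lit 73, nat_lit 20620521537), (nat_lit 116, nat_lit 20604268608), (nat_lit 47, nat_lit 20604264513), (nat_lit 43, nat_lit 20604006465), (nat_lit 16, nat_lit 21694779456), (nat_lit 95, nat_lit 21694521408), (nat_lit 70, nat_lit 21694517313), (nat_lit 15, nat_lit 21694263360), (nat_lit 25, nat_lit 21694259265), (nat_lit 44, nat_lit 21678006336), (nat_lit 16, nat_lit 21678002241), (nat_lit 38, nat_lit 21677748288), (nat_lit 90, nat_lit 21677744193), (nat_lit 122, nat_lit 21677486145), (nat_lit 108, nat_lit 22768259136), (nat_lit 2, nat_lit 22768001088), (nat_lit 33, nat_lit 22767996993), (nat_lit 79, nat_lit 22751744064), (nat_lit 11, nat_lit 22751486016), (nat_lit 123, nat_lit 22751481921), (nat_lit 31, nat_lit 22751227968),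 (nat_lit 42, nat_lit 22751223873), (nat_lit 116, nat_lit 23841738816), (nat_lit 82, nat_lit 23825223744), (nat_lit 88, nat_lit 23824965696), (nat_lit 118, nat_lit 23824961601), (nat_lit 6, nat_lit 24898703424)]⟩,
   ⟨V6_18423222336, [(nat_lit 22, nat_lit 18473562177), (nat_lit 51, nat_lit 19547304000), (nat_lit 51, nat_lit 19547299905), (nat_lit 121, nat_lit 19530526785), (nat_lit 73, nat_lit 20621041728), (nat_lit 76, nat_lit 20621037633), (nat_lit 53, nat_lit 20604268608), (nat_lit 48, nat_lit 20604264513), (nat_lit 116, nat_lit 20587491393), (nat_lit 29, nat_lit 21694779456), (nat_lit 115, nat_lit 21678006336), (nat_lit 115, nat_lit 21678002241), (nat_lit 65, nat_lit 21661233216), (nat_lit 21, nat_lit 21661229121), (nat_lit 20, nat_lit 21644456001), (nat_lit 51, nat_lit 22751744064), (nat_lit 87, nat_lit 22734970944), (nat_lit 48, nat_lit 22734966849), (nat_lit 39, nat_lit 22718197824), (nat_lit 44, nat_lit 22718193729), (nat_lit 6, nat_lit 23808708672), (nat_lit 122, nat_lit 23791935552), (nat_lit 24, nat_lit 23791931457), (nat_lit 46, nat_lit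 24865673280)]⟩,
   ⟨V6_15252328512, [(nat_lit 121, nat_lit 18473562177), (nat_lit 14, nat_lit 19547304000), (nat_lit 54, nat_lit 19547299905), (nat_lit 18, nat_lit 20621041728), (nat_lit 5, nat_lit 20621037633), (nat_lit 113, nat_lit 21694779456)]⟩],
  [W_18472505408, W_18438959168, W_18372898880, W_17398767680, W_17381994560, W_17315934272, W_16325546048, W_16325029952, W_16308514880, W_15251550272, W_15235551296, W_15235035200, W_14178328640, W_14178070592, W_14161813568, W_14161555520]⟩
theorem C_18473562177 : chkRec R_18473562177 = true := by decide +kernel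

noncomputable def R_18473562240 : Rec := ⟨nat_lit 18473562240, nat_lit 191,
  [⟨V6_18455998464, [(nat_lit 42, nat_lit 18473562240), (nat_lit 52, nat_lit 19547304000), (nat_lit 70, nat_lit 19547041920), (nat_lit 88, nat_lit 19530526848), (nat_lit 42, nat_lit 20621045760), (nat_lit 92, nat_lit 20620783680), (nat_lit 30, nat_lit 20620521600), (nat_lit 70, nat_lit 20604268608), (nat_lit 58, nat_lit 20604006528), (nat_lit 82, nat_lit 21694525440), (nat_lit 39, nat_lit 21694263360), (nat_lit 58, nat_lit 21694001280), (nat_lit 40, nat_lit 21678010368), (nat_lit 21, nat_lit 21677748288), (nat_lit 84, nat_lit 21677486208), (nat_lit 75, nat_lit 22768005120), (nat_lit 105, nat_lit 22767743040), (nat_lit 115, nat_lit 22751490048), (nat_lit 125, nat_lit 22751227968), (nat_lit 26, nat_lit 22750965888), (nat_lit 110, nat_lit 23841484800), (nat_lit 107, nat_lit 23824969728), (nat_lit 113, nat_lit 23824707648), (nat_lit 110, nat_lit 24898449408)]⟩,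
   ⟨V6_18423226368, [(nat_lit 51, nat_lit 18473562240), (nat_lit 15, nat_lit 19547304000), (nat_lit 23, nat_lit 19547299968), (nat_lit 78, nat_lit 19530526848), (nat_lit 99, nat_lit 20621045760), (nat_lit 14, nat_lit 20621041728), (nat_lit 38, nat_lit 20604268608), (nat_lit 85, nat_lit 20604264576), (nat_lit 28, nat_lit 20587491456), (nat_lit 123, nat_lit 21694783488), (nat_lit 24, nat_lit 21678010368), (nat_lit 116, nat_lit 21678006336), (nat_lit 49, nat_lit 21661233216), (nat_lit 75, nat_lit 21661229184), (nat_lit 95, nat_lit 21644456064), (nat_lit 49, nat_lit 22751748096), (nat_lit 20, nat_lit 22734974976), (nat_lit 48, nat_lit 22734970944), (nat_lit 4, nat_lit 22718197824), (nat_lit 91, nat_lit 22718193792), (nat_lit 35, nat_lit 23808712704), (nat_lit 3, nat_lit 23791939584), (nat_lit 6, nat_lit 23791935552), (nat_lit 13, nat_lit 24865677312)]⟩,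
   ⟨V6_17366261760, [(nat_lit 100, nat_lit 18473562240), (nat_lit 68, nat_lit 19547304000), (nat_lit 40, nat_lit 19547299968), (nat_lit 99, nat_lit 19530526848), (nat_lit 72, nat_lit 20621045760), (nat_lit 104, nat_lit 20621041728), (nat_lit 1, nat_lit 20604268608), (nat_lit 77, nat_lit 20604264576), (nat_lit 49, nat_lit 20587491456), (nat_lit 94, nat_lit 21694783488), (nat_lit 7, nat_lit 21678010368), (nat_lit 81, nat_lit 21678006336), (nat_lit 71, nat_lit 21661233216), (nat_lit 75, nat_lit 21661229184), (nat_lit 114, nat_lit 22751748096), (nat_lit 43, nat_lit 22734974976), (nat_lit 49, nat_lit 22734970944), (nat_lit 43, nat_lit 23808712704)]⟩],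
  [W_18472509440, W_18455736320, W_18439221248, W_18438959168, W_18422182016, W_18389676032, W_18372898880, W_17398771712, W_17398767680, W_17382256640, W_17381990528, W_17299157120, W_16325292032, W_16325029952, W_16308514880, W_16242192512, W_15251812352, W_15251546240, W_15235297280, W_15202001024, W_14178590720, W_14178332672, W_14178328640, W_14178070592, W_14161817600, W_14161813568, W_14161555520, W_14145036416, W_14128263296]⟩
theorem C_18473562240 : chkRec R_18473562240 = true := by decide +kernel

noncomputable def R_18473566272 : Rec := ⟨nat_lit 18473566272, nat_lit 274,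
  [⟨V6_18456252480, [(nat_lit 103, nat_lit 18473566272), (nat_lit 96, nat_lit 19547304000), (nat_lit 86, nat_lit 19547045952), (nat_lit 102, nat_lit 19530530880), (nat_lit 111, nat_lit 20621041728), (nat_lit 31, nat_lit 20620783680), (nat_lit 73, nat_lit 20620525632), (nat_lit 122, nat_lit 20604268608), (nat_lit 78, nat_lit 20604010560), (nat_lit 108, nat_lit 21694779456), (nat_lit 59, nat_lit 21694521408), (nat_lit 56, nat_lit 21694263360), (nat_lit 71, nat_lit 21678006336), (nat_lit 103, nat_lit 21677748288), (nat_lit 111, nat_lit 21677490240), (nat_lit 102, nat_lit 22768259136), (nat_lit 79, nat_lit 22768001088), (nat_lit 31, nat_lit 22751744064), (nat_lit 101, nat_lit 22751486016), (nat_lit 113, nat_lit 22751227968), (nat_lit 75, nat_lit 23841738816), (nat_lit 105, nat_lit 23825223744), (nat_lit 108, nat_lit 23824965696), (nat_lit 61, nat_lit 24898703424)]⟩,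
   ⟨V6_18439999488, [(nat_lit 22, nat_lit 18473566272), (nat_lit 64, nat_lit 19547308032), (nat_lit 56, nat_lit 19547304000), (nat_lit 49, nat_lit 19530530880), (nat_lit 46, nat_lit 20621045760), (nat_lit 109, nat_lit 20621041728), (nat_lit 97, nat_lit 20604272640), (nat_lit 3, nat_lit 20604268608), (nat_lit 66, nat_lit 20587495488), (nat_lit 48, nat_lit 21694783488), (nat_lit 72, nat_lit 21694779456), (nat_lit 11, nat_lit 21678010368), (nat_lit 14, nat_lit 21678006336), (nat_lit 18, nat_lit 21661237248), (nat_lit 30, nat_lit 21661233216), (nat_lit 125, nat_lit 22768521216), (nat_lit 26, nat_lit 22751748096), (nat_lit 113, nat_lit 22751744064), (nat_lit 78, nat_lit 22734974976), (nat_lit 120, nat_lit 22734970944), (nat_lit 50, nat_lit 23825485824), (nat_lit 97, nat_lit 23808712704), (nat_lit 63, nat_lit 23808708672), (nat_lit 106, nat_lit 24882450432)]⟩,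
   ⟨V6_18439225344, [(nat_lit 112, nat_lit 18473566272), (nat_lit 41, nat_lit 19547308032), (nat_lit 122, nat_lit 19547045952), (nat_lit 26, nat_lit 19530530880), (nat_lit 71, nat_lit 20620787712), (nat_lit 61, nat_lit 20620525632), (nat_lit 25, nat_lit 20604272640), (nat_lit 60, nat_lit 20604010560), (nat_lit 43, nat_lit 20587495488), (nat_lit 109, nat_lit 21694267392), (nat_lit 71, nat_lit 21694005312), (nat_lit 40, nat_lit 21677752320), (nat_lit 97, nat_lit 21677490240), (nat_lit 12, nat_lit 21661237248), (nat_lit 123, nat_lit 21660975168), (nat_lit 12, nat_lit 22767747072), (nat_lit 96, nat_lit 22751232000), (nat_lit 107, nat_lit 22750969920), (nat_lit 72, nat_lit 22734716928), (nat_lit 92, nat_lit 22734454848), (nat_lit 113, nat_lit 23824711680), (nat_lit 24, nat_lit 23808196608), (nat_lit 108, nat_lit 23807934528), (nat_lit 67, nat_lit 24881676288)]⟩,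
   ⟨V6_17383034880, [(nat_lit 31, nat_lit 18473566272), (nat_lit 88, nat_lit 19547308032), (nat_lit 11, nat_lit 19547304000), (nat_lit 23, nat_lit 19530530880), (nat_lit 9, nat_lit 20621045760), (nat_lit 10, nat_lit 20621041728), (nat_lit 47, nat_lit 20604272640), (nat_lit 110, nat_lit 20604268608), (nat_lit 116, nat_lit 21694783488), (nat_lit 55, nat_lit 21694779456), (nat_lit 87, nat_lit 21678010368), (nat_lit 11, nat_lit 21678006336), (nat_lit 4, nat_lit 22768521216), (nat_lit 59, nat_lit 22751748096), (nat_lit 31, nat_lit 22751744064), (nat_lit 87, nat_lit 23825485824)]⟩,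
   ⟨V6_17382260736, [(nat_lit 77, nat_lit 18473566272), (nat_lit 104, nat_lit 19547308032), (nat_lit 24, nat_lit 19547045952), (nat_lit 77, nat_lit 19530530880), (nat_lit 55, nat_lit 20620787712), (nat_lit 52, nat_lit 20620525632), (nat_lit 109, nat_lit 20604272640), (nat_lit 88, nat_lit 20604010560), (nat_lit 63, nat_lit 21694267392), (nat_lit 104, nat_lit 21694005312), (nat_lit 75, nat_lit 21677752320), (nat_lit 21, nat_lit 21677490240), (nat_lit 28, nat_lit 22767747072), (nat_lit 18, nat_lit 22751232000), (nat_lit 33, nat_lit 22750969920), (nat_lit 97, nat_lit 23824711680)]⟩,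
   ⟨V6_16325296128, [(nat_lit 75, nat_lit 18473566272), (nat_lit 46, nat_lit 19547308032), (nat_lit 8, nat_lit 19547045952), (nat_lit 95, nat_lit 20620787712), (nat_lit 125, nat_lit 20620525632), (nat_lit 114, nat_lit 21694267392), (nat_lit 74, nat_lit 21694005312), (nat_lit 121, nat_lit 22767747072)]⟩,
   ⟨V6_15252328512, [(nat_lit 85, nat_lit 18473566272), (nat_lit 59, nat_lit 19547304000), (nat_lit 67, nat_lit 20621041728), (nat_lit 96, nat_lit 21694779456)]⟩],
  [W_18422448128, W_18389676032, W_18372902912, W_18372898880, W_18372640832, W_17382256640, W_17365483520, W_17348706368, W_17315938304, W_16308518912, W_16242196544, W_15235297280, W_15235039232, W_15234777152, W_15218524160, W_15218262080, W_15202009088, W_15201747008, W_15185231936, W_14178590720, W_14178586688, W_14178328640, W_14161817600, W_14161813568, W_14161559552, W_14161555520, W_14161297472, W_14145044480, W_14144782400, W_14128267328]⟩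
theorem C_18473566272 : chkRec R_18473566272 = true := by decide +kernel

noncomputable def R_18473570304 : Rec := ⟨nat_lit 18473570304, nat_lit 179,
  [⟨V6_17399549952, [(nat_lit 117, nat_lit 18473570304), (nat_lit 108, nat_lit 19547308032), (nat_lit 23, nat_lit 19547049984), (nat_lit 31, nat_lit 20621045760), (nat_lit 19, nat_lit 20620787712), (nat_lit 6, nat_lit 21694783488), (nat_lit 77, nat_lit 21694525440), (nat_lit 44, nat_lit 22768521216), (nat_lit 78, nat_lit 22768263168), (nat_lit 113, nat_lit 23842000896)]⟩,
   ⟨V6_17383034880, [(nat_lit 15, nat_lit 18473570304), (nat_lit 48, nat_lit 19547308032), (nat_lit 113, nat_lit 19530534912), (nat_lit 74, nat_lit 20621045760), (nat_lit 33, nat_lit 20604272640), (nat_lit 126, nat_lit 21694783488), (nat_lit 30, nat_lit 21678010368), (nat_lit 29, nat_lit 22768521216), (nat_lit 65, nat_lit 22751748096), (nat_lit 5, nat_lit 23825485824)]⟩,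
   ⟨V6_16309297152, [(nat_lit 110, nat_lit 18473570304), (nat_lit 100, nat_lit 19547308032), (nat_lit 119, nat_lit 19530534912), (nat_lit 63, nat_lit 20621045760), (nat_lit 87, nat_lit 20604272640), (nat_lit 21, nat_lit 21694783488), (nat_lit 80, nat_lit 21678010368), (nat_lit 113, nat_lit 22751748096)]⟩],
  [W_18389676032, W_18389417984, W_18389159936, W_18372902912, W_18372644864, W_17332195328, W_17315938304, W_17299165184, W_15251812352, W_15235297280, W_15235039232, W_15218524160, W_15218266112, W_15202009088, W_14178590720, W_14178332672, W_14161817600, W_14161559552, W_14145044480]⟩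
theorem C_18473570304 : chkRec R_18473570304 = true := by decide +kernel

noncomputable def R_18473820225 : Rec := ⟨nat_lit 18473820225, nat_lit 61,
  [⟨V6_16276004928, [(nat_lit 42, nat_lit 18473820225), (nat_lit 3, nat_lit 19547562048), (nat_lit 68, nat_lit 19530784833), (nat_lit 46, nat_lit 20604526656), (nat_lit 117, nat_lit 20587749441), (nat_lit 47, nat_lit 21661491264), (nat_lit 68, nat_lit 21644714049), (nat_lit 44, nat_lit 22718455872)]⟩,
   ⟨V6_14178848832, [(nat_lit 33, nat_lit 18473820225), (nat_lit 110, nat_lit 19547562048), (nat_lit 1, nat_lit 19547557953), (nat_lit 99, nat_lit 20621299776)]⟩],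
  [W_18472505408, W_18472247360, W_18455990336, W_18455732288, W_18406187072, W_18389672000, W_17399025728, W_17398767680, W_16325546048]⟩
theorem C_18473820225 : chkRec R_18473820225 = true := by decide +kernel

noncomputable def R_18473820288 : Rec := ⟨nat_lit 18473820288, nat_lit 120,
  [⟨V6_17316192384, [(nat_lit 112, nat_lit 18473820288), (nat_lit 50, nat_lit 19530784896), (nat_lit 110, nat_lit 20587749504), (nat_lit 108, nat_lit 21644714112), (nat_lit 85, nat_lit 22701678720), (nat_lit 88, nat_lit 23758643328)]⟩,
   ⟨V6_15252332544, [(nat_lit 88, nat_lit 18473820288), (nat_lit 80, nat_lit 19547562048), (nat_lit 96, nat_lit 19547299968), (nat_lit 113, nat_lit 20621303808), (nat_lit 109, nat_lit 20621041728), (nat_lit 12, nat_lit 21694783488)]⟩,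
   ⟨V6_15235817472, [(nat_lit 33, nat_lit 18473820288), (nat_lit 107, nat_lit 19547562048), (nat_lit 60, nat_lit 19530784896), (nat_lit 64, nat_lit 20621303808), (nat_lit 12, nat_lit 20604526656), (nat_lit 34, nat_lit 21678268416)]⟩],
  [W_18472509440, W_18472247360, W_18455994368, W_18455732288, W_18455470208, W_18438955136, W_18389934080, W_17399029760, W_17398767680, W_17398505600, W_17381990528, W_17316192320, W_16242450560, W_15251546240, W_15202001024, W_14178590720, W_14178328640, W_14161813568]⟩
theorem C_18473820288 : chkRec R_18473820288 = true := by decide +kernel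

noncomputable def R_18473824320 : Rec := ⟨nat_lit 18473824320, nat_lit 264,
  [⟨V6_18456252480, [(nat_lit 18, nat_lit 18473824320), (nat_lit 122, nat_lit 19547562048), (nat_lit 72, nat_lit 19547304000), (nat_lit 69, nat_lit 19530788928), (nat_lit 57, nat_lit 20621299776), (nat_lit 52, nat_lit 20621041728), (nat_lit 100, nat_lit 20620783680), (nat_lit 18, nat_lit 20604526656), (nat_lit 19, nat_lit 20604268608), (nat_lit 87, nat_lit 21694779456), (nat_lit 67, nat_lit 21694521408), (nat_lit 7, nat_lit 21694263360), (nat_lit 63, nat_lit 21678264384), (nat_lit 60, nat_lit 21678006336), (nat_lit 85, nat_lit 21677748288), (nat_lit 7, nat_lit 22768259136), (nat_lit 26, nat_lit 22768001088), (nat_lit 8, nat_lit 22751744064), (nat_lit 49, nat_lit 22751486016), (nat_lit 102, nat_lit 22751227968), (nat_lit 33, nat_lit 23841738816), (nat_lit 88, nat_lit 23825223744), (nat_lit 17, nat_lit 23824965696), (nat_lit 75, nat_lit 24898703424)]⟩,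
   ⟨V6_18439999488, [(nat_lit 91, nat_lit 18473824320), (nat_lit 76, nat_lit 19547566080), (nat_lit 110, nat_lit 19547562048), (nat_lit 42, nat_lit 19547304000), (nat_lit 73, nat_lit 19530788928), (nat_lit 88, nat_lit 20621303808), (nat_lit 33, nat_lit 20621299776), (nat_lit 15, nat_lit 20621045760), (nat_lit 122, nat_lit 20621041728), (nat_lit 34, nat_lit 20604530688), (nat_lit 88, nat_lit 20604526656), (nat_lit 14, nat_lit 20604268608), (nat_lit 1, nat_lit 20587753536), (nat_lit 86, nat_lit 21695041536), (nat_lit 15, nat_lit 21694783488), (nat_lit 58, nat_lit 21694779456), (nat_lit 107, nat_lit 21678268416), (nat_lit 32, nat_lit 21678264384), (nat_lit 26, nat_lit 21678010368), (nat_lit 112, nat_lit 21678006336), (nat_lit 17, nat_lit 21661495296), (nat_lit 49, nat_lit 21661491264), (nat_lit 94, nat_lit 21661233216), (nat_lit 22, nat_lit 22768521216), (nat_lit 125, nat_lit 22752006144), (nat_lit 107, nat_lit 22751748096), (nat_lit 107, nat_lit 22751744064), (nat_lit 64, nat_lit 22735233024), (nat_lit 68, nat_lit 22735228992), (nat_lit 40, nat_lit 22734974976),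 (nat_lit 64, nat_lit 22734970944), (nat_lit 35, nat_lit 23825485824), (nat_lit 83, nat_lit 23808970752), (nat_lit 109, nat_lit 23808712704), (nat_lit 6, nat_lit 23808708672), (nat_lit 93, nat_lit 24882450432)]⟩,
   ⟨V6_18423484416, [(nat_lit 125, nat_lit 18473824320), (nat_lit 63, nat_lit 19547566080), (nat_lit 32, nat_lit 19547562048), (nat_lit 105, nat_lit 19530788928), (nat_lit 9, nat_lit 20621303808), (nat_lit 91, nat_lit 20621299776), (nat_lit 73, nat_lit 20604530688), (nat_lit 120, nat_lit 20604526656), (nat_lit 112, nat_lit 20587753536), (nat_lit 50, nat_lit 21695041536), (nat_lit 112, nat_lit 21678268416), (nat_lit 125, nat_lit 21678264384), (nat_lit 82, nat_lit 21661495296), (nat_lit 19, nat_lit 21661491264), (nat_lit 118, nat_lit 21644718144), (nat_lit 85, nat_lit 22752006144), (nat_lit 80, nat_lit 22735233024), (nat_lit 67, nat_lit 22735228992), (nat_lit 25, nat_lit 22718459904), (nat_lit 50, nat_lit 22718455872), (nat_lit 111, nat_lit 23808970752), (nat_lit 66, nat_lit 23792197632), (nat_lit 48, nat_lit 23792193600), (nat_lit 54, nat_lit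 24865935360)]⟩,
   ⟨V6_17383034880, [(nat_lit 17, nat_lit 18473824320), (nat_lit 27, nat_lit 19547566080), (nat_lit 45, nat_lit 19547562048), (nat_lit 40, nat_lit 19547304000), (nat_lit 61, nat_lit 19530788928), (nat_lit 72, nat_lit 20621303808), (nat_lit 37, nat_lit 20621299776), (nat_lit 83, nat_lit 20621045760), (nat_lit 31, nat_lit 20621041728), (nat_lit 69, nat_lit 20604530688), (nat_lit 116, nat_lit 20604526656), (nat_lit 90, nat_lit 20604268608), (nat_lit 62, nat_lit 21695041536), (nat_lit 68, nat_lit 21694783488), (nat_lit 69, nat_lit 21694779456), (nat_lit 5, nat_lit 21678268416), (nat_lit 69, nat_lit 21678264384), (nat_lit 44, nat_lit 21678010368), (nat_lit 88, nat_lit 21678006336), (nat_lit 83, nat_lit 22768521216), (nat_lit 39, nat_lit 22752006144), (nat_lit 23, nat_lit 22751748096), (nat_lit 8, nat_lit 22751744064), (nat_lit 99, nat_lit 23825485824)]⟩,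
   ⟨V6_17366519808, [(nat_lit 23, nat_lit 18473824320), (nat_lit 114, nat_lit 19547566080), (nat_lit 80, nat_lit 19547562048), (nat_lit 118, nat_lit 19530788928), (nat_lit 43, nat_lit 20621303808), (nat_lit 97, nat_lit 20621299776), (nat_lit 64, nat_lit 20604530688), (nat_lit 33, nat_lit 20604526656), (nat_lit 123, nat_lit 20587753536), (nat_lit 42, nat_lit 21695041536), (nat_lit 117, nat_lit 21678268416), (nat_lit 112, nat_lit 21678264384), (nat_lit 121, nat_lit 21661495296), (nat_lit 67, nat_lit 21661491264), (nat_lit 33, nat_lit 22752006144), (nat_lit 121, nat_lit 22735233024), (nat_lit 3, nat_lit 22735228992), (nat_lit 102, nat_lit 23808970752)]⟩],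
  [W_18472767488, W_18472509440, W_18472505408, W_18455736320, W_18438959168, W_18389934080, W_18389930048, W_18389676032, W_17398771712, W_17398767680, W_17382256640, W_17381994560, W_17332965440, W_17316196352, W_17316192320, W_17315934272, W_16325292032, W_16325029952, W_16308514880, W_16242454592, W_15251812352, W_15251550272, W_15235551296, W_15235297280, W_15235035200, W_15185489984, W_14178848768, W_14178590720, W_14178586688, W_14178332672, W_14178328640, W_14178070592, W_14161817600, W_14161813568, W_14161555520, W_14128525376]⟩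
theorem C_18473824320 : chkRec R_18473824320 = true := by decide +kernel

noncomputable def R_18473828352 : Rec := ⟨nat_lit 18473828352, nat_lit 233,
  [⟨V6_18456772608, [(nat_lit 2, nat_lit 18473828352), (nat_lit 93, nat_lit 19547566080), (nat_lit 29, nat_lit 19547308032), (nat_lit 57, nat_lit 19530792960), (nat_lit 100, nat_lit 20621303808), (nat_lit 95, nat_lit 20621045760), (nat_lit 4, nat_lit 20604530688), (nat_lit 99, nat_lit 20604272640), (nat_lit 6, nat_lit 21695041536), (nat_lit 84, nat_lit 21694783488), (nat_lit 51, nat_lit 21678268416), (nat_lit 44, nat_lit 21678010368), (nat_lit 55, nat_lit 22768779264), (nat_lit 115, nat_lit 22768521216), (nat_lit 103, nat_lit 22752006144), (nat_lit 40, nat_lit 22751748096), (nat_lit 110, nat_lit 23842258944), (nat_lit 98, nat_lit 23825743872), (nat_lit 53, nat_lit 23825485824), (nat_lit 100, nat_lit 24899223552)]⟩,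
   ⟨V6_18439225344, [(nat_lit 70, nat_lit 18473828352), (nat_lit 97, nat_lit 19547308032), (nat_lit 116, nat_lit 19530792960), (nat_lit 52, nat_lit 20620787712), (nat_lit 122, nat_lit 20604272640), (nat_lit 23, nat_lit 20587757568), (nat_lit 121, nat_lit 21694267392), (nat_lit 60, nat_lit 21677752320), (nat_lit 97, nat_lit 21661237248), (nat_lit 66, nat_lit 22767747072), (nat_lit 46, nat_lit 22751232000), (nat_lit 80, nat_lit 22734716928), (nat_lit 56, nat_lit 23824711680), (nat_lit 112, nat_lit 23808196608), (nat_lit 79, nat_lit 24881676288)]⟩,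
   ⟨V6_17399549952, [(nat_lit 28, nat_lit 18473828352), (nat_lit 90, nat_lit 19547566080), (nat_lit 10, nat_lit 19547308032), (nat_lit 116, nat_lit 20621303808), (nat_lit 4, nat_lit 20621045760), (nat_lit 39, nat_lit 20620787712), (nat_lit 59, nat_lit 21695041536), (nat_lit 104, nat_lit 21694783488), (nat_lit 103, nat_lit 21694525440), (nat_lit 29, nat_lit 22768521216), (nat_lit 112, nat_lit 22768263168), (nat_lit 122, nat_lit 23842000896)]⟩,
   ⟨V6_17382260736, [(nat_lit 72, nat_lit 18473828352), (nat_lit 54, nat_lit 19547308032), (nat_lit 47, nat_lit 19530792960), (nat_lit 85, nat_lit 20620787712), (nat_lit 29, nat_lit 20604272640), (nat_lit 21, nat_lit 21694267392), (nat_lit 49, nat_lit 21677752320), (nat_lit 27, nat_lit 22767747072), (nat_lit 88, nat_lit 22751232000), (nat_lit 120, nat_lit 23824711680)]⟩,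
   ⟨V6_17366519808, [(nat_lit 43, nat_lit 18473828352), (nat_lit 59, nat_lit 19547566080), (nat_lit 4, nat_lit 19530792960), (nat_lit 88, nat_lit 20621303808), (nat_lit 122, nat_lit 20604530688), (nat_lit 107, nat_lit 20587757568), (nat_lit 70, nat_lit 21695041536), (nat_lit 118, nat_lit 21678268416), (nat_lit 74, nat_lit 21661495296), (nat_lit 48, nat_lit 22752006144), (nat_lit 67, nat_lit 22735233024), (nat_lit 86, nat_lit 23808970752)]⟩,
   ⟨V6_16325296128, [(nat_lit 36, nat_lit 18473828352), (nat_lit 19, nat_lit 19547308032), (nat_lit 66, nat_lit 20620787712), (nat_lit 38, nat_lit 21694267392), (nat_lit 94, nat_lit 22767747072)]⟩],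
  [W_18472767488, W_18422448128, W_18389934080, W_18389676032, W_17365483520, W_17316196352, W_17315938304, W_16308518912, W_16242458624, W_15235297280, W_15235039232, W_15218524160, W_15202009088, W_15185494016, W_14178848768, W_14178332672, W_14161817600, W_14161559552, W_14145044480, W_14128529408]⟩
theorem C_18473828352 : chkRec R_18473828352 = true := by decide +kernel

noncomputable def R_18474078273 : Rec := ⟨nat_lit 18474078273, nat_lit 23,
  [⟨V6_15252328512, [(nat_lit 109, nat_lit 18474078273), (nat_lit 11, nat_lit 19547820096), (nat_lit 4, nat_lit 19547557953), (nat_lit 10, nat_lit 20621299776), (nat_lit 7, nat_lit 20621037633), (nat_lit 1, nat_lit 21694779456)]⟩,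
   ⟨V6_14178848832, [(nat_lit 74, nat_lit 18474078273), (nat_lit 117, nat_lit 19547820096), (nat_lit 126, nat_lit 19547557953), (nat_lit 6, nat_lit 20621299776)]⟩],
  [W_18472505408, W_18455990336, W_17332965440, W_16259485760, W_14145556544]⟩
theorem C_18474078273 : chkRec R_18474078273 = true := by decide +kernel

noncomputable def R_18474082368 : Rec := ⟨nat_lit 18474082368, nat_lit 179,
  [⟨V6_17349746688, [(nat_lit 69, nat_lit 18474082368), (nat_lit 106, nat_lit 19547824128), (nat_lit 92, nat_lit 19547562048), (nat_lit 118, nat_lit 19531046976), (nat_lit 100, nat_lit 20621303808), (nat_lit 54, nat_lit 20604788736), (nat_lit 51, nat_lit 20604526656), (nat_lit 99, nat_lit 20588011584), (nat_lit 95, nat_lit 21678268416), (nat_lit 36, nat_lit 21661753344), (nat_lit 62, nat_lit 21661491264), (nat_lit 111, nat_lit 21644976192), (nat_lit 124, nat_lit 22735233024), (nat_lit 114, nat_lit 22718717952), (nat_lit 58, nat_lit 22718455872), (nat_lit 29, nat_lit 23792197632)]⟩,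
   ⟨V6_15252328512, [(nat_lit 37, nat_lit 18474082368), (nat_lit 70, nat_lit 19547820096), (nat_lit 100, nat_lit 19547562048), (nat_lit 106, nat_lit 20621299776), (nat_lit 101, nat_lit 20621041728), (nat_lit 114, nat_lit 21694779456)]⟩,
   ⟨V6_15235817472, [(nat_lit 64, nat_lit 18474082368), (nat_lit 53, nat_lit 19547824128), (nat_lit 81, nat_lit 19547562048), (nat_lit 98, nat_lit 19531046976), (nat_lit 106, nat_lit 20621303808), (nat_lit 68, nat_lit 20604788736), (nat_lit 91, nat_lit 20604526656), (nat_lit 57, nat_lit 21678268416)]⟩,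
   ⟨V6_15235813440, [(nat_lit 88, nat_lit 18474082368), (nat_lit 75, nat_lit 19547820096), (nat_lit 102, nat_lit 19547562048), (nat_lit 93, nat_lit 19531046976), (nat_lit 118, nat_lit 20621299776), (nat_lit 31, nat_lit 20604784704), (nat_lit 91, nat_lit 20604526656), (nat_lit 12, nat_lit 21678264384)]⟩,
   ⟨V6_14179110912, [(nat_lit 73, nat_lit 18474082368), (nat_lit 75, nat_lit 19547824128), (nat_lit 53, nat_lit 19547820096), (nat_lit 90, nat_lit 20621561856)]⟩],
  [W_18472767488, W_18472509440, W_18472505408, W_18472247360, W_18456252416, W_18455990336, W_18406707200, W_17399025728, W_17398767680, W_17333227520, W_17332965440, W_16276262912, W_16276000832, W_16259489792, W_16259485760, W_15219298304, W_15202525184, W_15185748032, W_14178848768, W_14178590720, W_14178586688, W_14162333696, W_14161813568, W_14145556544]⟩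
theorem C_18474082368 : chkRec R_18474082368 = true := by decide +kernel

noncomputable def R_18474086400 : Rec := ⟨nat_lit 18474086400, nat_lit 200,
  [⟨V6_18455998464, [(nat_lit 118, nat_lit 18474086400), (nat_lit 102, nat_lit 19547566080), (nat_lit 15, nat_lit 19531051008), (nat_lit 77, nat_lit 20621045760), (nat_lit 24, nat_lit 20604530688), (nat_lit 27, nat_lit 21694525440), (nat_lit 53, nat_lit 21678010368), (nat_lit 120, nat_lit 22768005120), (nat_lit 50, nat_lit 22751490048), (nat_lit 45, nat_lit 23841484800), (nat_lit 60, nat_lit 23824969728), (nat_lit 122, nat_lit 24898449408)]⟩,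
   ⟨V6_17399549952, [(nat_lit 81, nat_lit 18474086400), (nat_lit 81, nat_lit 19547824128), (nat_lit 66, nat_lit 19547566080), (nat_lit 2, nat_lit 20621561856), (nat_lit 115, nat_lit 20621303808), (nat_lit 96, nat_lit 20621045760), (nat_lit 5, nat_lit 21695041536), (nat_lit 50, nat_lit 21694783488), (nat_lit 93, nat_lit 21694525440), (nat_lit 100, nat_lit 22768521216), (nat_lit 66, nat_lit 22768263168), (nat_lit 114, nat_lit 23842000896)]⟩,
   ⟨V6_17382776832, [(nat_lit 9, nat_lit 18474086400), (nat_lit 20, nat_lit 19547824128), (nat_lit 88, nat_lit 19547566080), (nat_lit 15, nat_lit 19531051008), (nat_lit 35, nat_lit 20621303808), (nat_lit 51, nat_lit 20621045760), (nat_lit 46, nat_lit 20604788736), (nat_lit 54, nat_lit 20604530688), (nat_lit 119, nat_lit 21694783488), (nat_lit 12, nat_lit 21694525440), (nat_lit 23, nat_lit 21678268416), (nat_lit 82, nat_lit 21678010368), (nat_lit 8, nat_lit 22768263168), (nat_lit 71, nat_lit 22751748096), (nat_lit 6, nat_lit 22751490048), (nat_lit 36, nat_lit 23825227776)]⟩],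
  [W_18472767488, W_18472509440, W_18455736320, W_18439221248, W_18406965248, W_18406707200, W_17398771712, W_17382256640, W_17333227520, W_16276262912, W_15235297280, W_15219298304, W_15202525184, W_15185752064, W_14179106816, W_14178848768, W_14178590720, W_14162333696, W_14161817600, W_14145560576, W_14145302528, W_14128787456]⟩
theorem C_18474086400 : chkRec R_18474086400 = true := by decide +kernel

noncomputable def R_18474340416 : Rec := ⟨nat_lit 18474340416, nat_lit 71,
  [⟨V6_16276262976, [(nat_lit 117, nat_lit 18474340416), (nat_lit 97, nat_lit 19547820096), (nat_lit 114, nat_lit 19531305024), (nat_lit 60, nat_lit 20604784704), (nat_lit 22, nat_lit 20588269632), (nat_lit 3, nat_lit 21661749312), (nat_lit 9, nat_lit 21645234240), (nat_lit 94, nat_lit 22718713920)]⟩,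
   ⟨V6_15252328512, [(nat_lit 125, nat_lit 18474340416), (nat_lit 29, nat_lit 19547820096), (nat_lit 97, nat_lit 20621299776), (nat_lit 49, nat_lit 21694779456)]⟩,
   ⟨V6_15235813440, [(nat_lit 32, nat_lit 18474340416), (nat_lit 22, nat_lit 19547820096), (nat_lit 111, nat_lit 19531305024), (nat_lit 96, nat_lit 20621299776), (nat_lit 56, nat_lit 20604784704), (nat_lit 116, nat_lit 21678264384)]⟩,
   ⟨V6_14178848832, [(nat_lit 61, nat_lit 18474340416), (nat_lit 66, nat_lit 19547820096), (nat_lit 109, nat_lit 20621299776)]⟩],
  [W_18472767488, W_18472505408, W_18456252416, W_17349742592, W_15202783232, W_14145818624]⟩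
theorem C_18474340416 : chkRec R_18474340416 = true := by decide +kernel

noncomputable def R_18474344448 : Rec := ⟨nat_lit 18474344448, nat_lit 137,
  [⟨V6_17349746688, [(nat_lit 61, nat_lit 18474344448), (nat_lit 1, nat_lit 19547824128), (nat_lit 71, nat_lit 19531309056), (nat_lit 16, nat_lit 20621303808), (nat_lit 73, nat_lit 20604788736), (nat_lit 109, nat_lit 20588273664), (nat_lit 116, nat_lit 21678268416), (nat_lit 95, nat_lit 21661753344), (nat_lit 9, nat_lit 21645238272), (nat_lit 52, nat_lit 22735233024), (nat_lit 106, nat_lit 22718717952), (nat_lit 88, nat_lit 23792197632)]⟩,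
   ⟨V6_15236333568, [(nat_lit 64, nat_lit 18474344448), (nat_lit 62, nat_lit 19548082176), (nat_lit 34, nat_lit 19531309056), (nat_lit 6, nat_lit 20621819904), (nat_lit 38, nat_lit 20605046784), (nat_lit 40, nat_lit 21678784512)]⟩,
   ⟨V6_15235817472, [(nat_lit 70, nat_lit 18474344448), (nat_lit 64, nat_lit 19547824128), (nat_lit 92, nat_lit 19531309056), (nat_lit 83, nat_lit 20621303808), (nat_lit 59, nat_lit 20604788736), (nat_lit 95, nat_lit 21678268416)]⟩,
   ⟨V6_14179110912, [(nat_lit 79, nat_lit 18474344448), (nat_lit 76, nat_lit 19548082176), (nat_lit 69, nat_lit 19547824128), (nat_lit 116, nat_lit 20621561856)]⟩],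
  [W_18473025536, W_18472767488, W_18472509440, W_18456510464, W_18456252416, W_17350000640, W_16276520960, W_16276262912, W_15202783232, W_14178848768, W_14178590720, W_14162591744, W_14145818624, W_14129045504]⟩
theorem C_18474344448 : chkRec R_18474344448 = true := by decide +kernel

noncomputable def R_18474602496 : Rec := ⟨nat_lit 18474602496, nat_lit 63,
  [⟨V6_17399549952, [(nat_lit 97, nat_lit 18474602496), (nat_lit 32, nat_lit 19548082176), (nat_lit 25, nat_lit 20621561856), (nat_lit 95, nat_lit 21695041536), (nat_lit 98, nat_lit 22768521216), (nat_lit 1, nat_lit 23842000896)]⟩,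
   ⟨V6_14179110912, [(nat_lit 7, nat_lit 18474602496), (nat_lit 22, nat_lit 19548082176), (nat_lit 58, nat_lit 20621561856)]⟩],
  [W_18472767488, W_18456510464, W_15252586496, W_15219556352, W_15219298304, W_14162591744, W_14145818624]⟩
theorem C_18474602496 : chkRec R_18474602496 = true := by decide +kernel

noncomputable def R_18474860544 : Rec := ⟨nat_lit 18474860544, nat_lit 15,
  [⟨V6_16326328320, [(nat_lit 60, nat_lit 18474860544), (nat_lit 104, nat_lit 19548340224), (nat_lit 23, nat_lit 20621819904), (nat_lit 57, nat_lit 21695299584), (nat_lit 82, nat_lit 22768779264)]⟩],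
  [W_18473025536, W_14179106816]⟩
theorem C_18474860544 : chkRec R_18474860544 = true := by decide +kernel

noncomputable def R_18489553026 : Rec := ⟨nat_lit 18489553026, nat_lit 7,
  [⟨V6_16308248706, [(nat_lit 13, nat_lit 18489553026), (nat_lit 6, nat_lit 19563290754), (nat_lit 61, nat_lit 19563032706), (nat_lit 94, nat_lit 19546517634), (nat_lit 18, nat_lit 20636770434), (nat_lit 89, nat_lit 20620255362), (nat_lit 18, nat_lit 20619997314), (nat_lit 90, nat_lit 20603482242), (nat_lit 120, nat_lit 21693735042), (nat_lit 113, nat_lit 21677219970), (nat_lit 111, nat_lit 21676961922), (nat_lit 56, nat_lit 22750699650)]⟩,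
   ⟨V6_16291733634, [(nat_lit 19, nat_lit 18489553026), (nat_lit 79, nat_lit 19563290754), (nat_lit 79, nat_lit 19546517634), (nat_lit 37, nat_lit 20620255362), (nat_lit 26, nat_lit 20603482242), (nat_lit 26, nat_lit 21677219970), (nat_lit 115, nat_lit 21660446850), (nat_lit 26, nat_lit 22734184578)]⟩,
   ⟨V6_16291475586, [(nat_lit 63, nat_lit 18489553026), (nat_lit 84, nat_lit 19563032706), (nat_lit 63, nat_lit 19546517634), (nat_lit 72, nat_lit 20619997314), (nat_lit 86, nat_lit 20603482242), (nat_lit 87, nat_lit 21676961922), (nat_lit 92, nat_lit 21660446850), (nat_lit 63, nat_lit 22733926530)]⟩,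
   ⟨V6_15268061313, [(nat_lit 25, nat_lit 18489553026), (nat_lit 90, nat_lit 19563294849), (nat_lit 67, nat_lit 19563290754), (nat_lit 125, nat_lit 19563032706), (nat_lit 11, nat_lit 20637032577), (nat_lit 56, nat_lit 20636774529), (nat_lit 108, nat_lit 20636770434), (nat_lit 27, nat_lit 21710512257)]⟩],
  [W_18422440064, W_15251546240]⟩
theorem C_18489553026 : chkRec R_18489553026 = true := by decide +kernel

noncomputable def R_18489553089 : Rec := ⟨nat_lit 18489553089, nat_lit 9,
  [⟨V6_15268065345, [(nat_lit 13, nat_lit 18489553089), (nat_lit 120, nat_lit 19563294849), (nat_lit 79, nat_lit 19563032769), (nat_lit 91, nat_lit 20637036609), (nat_lit 117, nat_lit 20636774529), (nat_lit 54, nat_lit 21710516289)]⟩,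
   ⟨V6_15234773184, [(nat_lit 68, nat_lit 18489553089), (nat_lit 101, nat_lit 19563294912), (nat_lit 22, nat_lit 19546517697), (nat_lit 119, nat_lit 20620259520), (nat_lit 94, nat_lit 20603482305), (nat_lit 24, nat_lit 21677224128)]⟩],
  [W_18438959168, W_17381994560, W_16325029952]⟩
theorem C_18489553089 : chkRec R_18489553089 = true := by decide +kernel

noncomputable def R_18489557121 : Rec := ⟨nat_lit 18489557121, nat_lit 24,
  [⟨V6_15234777216, [(nat_lit 29, nat_lit 18489557121), (nat_lit 30, nat_lit 19563298944), (nat_lit 43, nat_lit 19546521729), (nat_lit 19, nat_lit 20620263552), (nat_lit 126, nat_lit 20603486337), (nat_lit 70, nat_lit 21677228160)]⟩],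
  [W_18439217216, W_17382252608, W_16325288000, W_15268323392]⟩
theorem C_18489557121 : chkRec R_18489557121 = true := by decide +kernel

noncomputable def R_18489557184 : Rec := ⟨nat_lit 18489557184, nat_lit 31,
  [⟨V6_15268331520, [(nat_lit 82, nat_lit 18489557184), (nat_lit 13, nat_lit 19563298944), (nat_lit 15, nat_lit 20637040704), (nat_lit 2, nat_lit 21710782464)]⟩,
   ⟨V6_15234773184, [(nat_lit 10, nat_lit 18489557184), (nat_lit 26, nat_lit 19563294912), (nat_lit 38, nat_lit 19546521792), (nat_lit 51, nat_lit 20620259520), (nat_lit 97, nat_lit 20603486400), (nat_lit 124, nat_lit 21677224128)]⟩,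
   ⟨V6_15218000064, [(nat_lit 48, nat_lit 18489557184), (nat_lit 22, nat_lit 19546521792), (nat_lit 35, nat_lit 20603486400), (nat_lit 122, nat_lit 21660451008)]⟩],
  [W_18439221248, W_18422448128, W_18405666944, W_18372116672]⟩
theorem C_18489557184 : chkRec R_18489557184 = true := by decide +kernel

noncomputable def R_18489811074 : Rec := ⟨nat_lit 18489811074, nat_lit 9,
  [⟨V6_15235031169, [(nat_lit 43, nat_lit 18489811074), (nat_lit 123, nat_lit 19563552897), (nat_lit 23, nat_lit 19546775682), (nat_lit 105, nat_lit 20620517505), (nat_lit 58, nat_lit 20603740290), (nat_lit 13, nat_lit 21677482113)]⟩],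
  [W_18455470208, W_18422440064, W_17398505600, W_16341540992]⟩
theorem C_18489811074 : chkRec R_18489811074 = true := by decide +kernel

noncomputable def R_18489815169 : Rec := ⟨nat_lit 18489815169, nat_lit 40,
  [⟨V6_18439217217, [(nat_lit 86, nat_lit 18489815169), (nat_lit 110, nat_lit 19563556929), (nat_lit 96, nat_lit 19563552897), (nat_lit 73, nat_lit 19563294849), (nat_lit 15, nat_lit 19546779777), (nat_lit 19, nat_lit 20637294657), (nat_lit 106, nat_lit 20637036609), (nat_lit 71, nat_lit 20637032577), (nat_lit 85, nat_lit 20620521537), (nat_lit 16, nat_lit 20620517505), (nat_lit 56, nat_lit 20620259457), (nat_lit 31, nat_lit 20603744385), (nat_lit 18, nat_lit 21710774337), (nat_lit 8, nat_lit 21694259265), (nat_lit 6, nat_lit 21694001217), (nat_lit 118, nat_lit 21693997185), (nat_lit 83, nat_lit 21677486145), (nat_lit 69, nat_lit 21677482113), (nat_lit 74, nat_lit 21677224065), (nat_lit 70, nat_lit 21660708993), (nat_lit 35, nat_lit 22767738945), (nat_lit 21, nat_lit 22751223873), (nat_lit 49, nat_lit 22750965825), (nat_lit 88, nat_lit 22750961793),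 (nat_lit 53, nat_lit 22734450753), (nat_lit 68, nat_lit 22734446721), (nat_lit 91, nat_lit 22734188673), (nat_lit 96, nat_lit 23824703553), (nat_lit 88, nat_lit 23808188481), (nat_lit 85, nat_lit 23807930433), (nat_lit 55, nat_lit 23807926401), (nat_lit 15, nat_lit 24881668161)]⟩,
   ⟨V6_16291995777, [(nat_lit 85, nat_lit 18489815169), (nat_lit 66, nat_lit 19563552897), (nat_lit 66, nat_lit 19546779777), (nat_lit 92, nat_lit 20620517505), (nat_lit 123, nat_lit 20603744385), (nat_lit 123, nat_lit 21677482113), (nat_lit 80, nat_lit 21660708993), (nat_lit 123, nat_lit 22734446721)]⟩,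
   ⟨V6_15235031169, [(nat_lit 120, nat_lit 18489815169), (nat_lit 35, nat_lit 19563552897), (nat_lit 46, nat_lit 19546779777), (nat_lit 6, nat_lit 20620517505), (nat_lit 94, nat_lit 20603744385), (nat_lit 22, nat_lit 21677482113)]⟩],
  [W_18455732288, W_18438959168, W_18422182016, W_17398767680, W_16341803072, W_16325029952, W_16308514880, W_15251808320, W_15251550272]⟩
theorem C_18489815169 : chkRec R_18489815169 = true := by decide +kernel

noncomputable def R_18489815232 : Rec := ⟨nat_lit 18489815232, nat_lit 38,
  [⟨V6_16342069248, [(nat_lit 26, nat_lit 18489815232), (nat_lit 51, nat_lit 19563556992), (nat_lit 116, nat_lit 19563294912), (nat_lit 72, nat_lit 20637298752), (nat_lit 61, nat_lit 20637036672), (nat_lit 1, nat_lit 21711040512), (nat_lit 15, nat_lit 21710778432), (nat_lit 100, nat_lit 22784520192)]⟩,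
   ⟨V6_15268589568, [(nat_lit 23, nat_lit 18489815232), (nat_lit 126, nat_lit 19563556992), (nat_lit 77, nat_lit 20637298752), (nat_lit 78, nat_lit 21711040512)]⟩,
   ⟨V6_15234773184, [(nat_lit 110, nat_lit 18489815232), (nat_lit 54, nat_lit 19563294912), (nat_lit 104, nat_lit 19546779840), (nat_lit 103, nat_lit 20620259520), (nat_lit 56, nat_lit 20603744448), (nat_lit 68, nat_lit 21677224128)]⟩],
  [W_18455736320, W_18439221248, W_18389151872, W_18372374720, W_17382256640, W_16341807104]⟩
theorem C_18489815232 : chkRec R_18489815232 = true := by decide +kernel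

noncomputable def R_18489819201 : Rec := ⟨nat_lit 18489819201, nat_lit 41,
  [⟨V6_16308518976, [(nat_lit 28, nat_lit 18489819201), (nat_lit 70, nat_lit 19563561024), (nat_lit 10, nat_lit 19563298881), (nat_lit 2, nat_lit 19546783809), (nat_lit 7, nat_lit 20637040704), (nat_lit 106, nat_lit 20620525632), (nat_lit 13, nat_lit 20620263489), (nat_lit 122, nat_lit 20603748417), (nat_lit 71, nat_lit 21694005312), (nat_lit 105, nat_lit 21677490240), (nat_lit 106, nat_lit 21677228097), (nat_lit 93, nat_lit 22750969920)]⟩,
   ⟨V6_16291741761, [(nat_lit 67, nat_lit 18489819201), (nat_lit 59, nat_lit 19563298881), (nat_lit 3, nat_lit 19546783809), (nat_lit 6, nat_lit 20620263489), (nat_lit 83, nat_lit 20603748417), (nat_lit 76, nat_lit 21677228097), (nat_lit 82, nat_lit 21660713025), (nat_lit 107, nat_lit 22734192705)]⟩],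
  [W_18455990336, W_18439217216, W_17399025728, W_16342061120, W_16325546048, W_15218262080]⟩
theorem C_18489819201 : chkRec R_18489819201 = true := by decide +kernel

noncomputable def R_18489819264 : Rec := ⟨nat_lit 18489819264, nat_lit 106,
  [⟨V6_17382260736, [(nat_lit 69, nat_lit 18489819264), (nat_lit 48, nat_lit 19563561024), (nat_lit 122, nat_lit 19563298944), (nat_lit 38, nat_lit 19546783872), (nat_lit 90, nat_lit 20637302784), (nat_lit 70, nat_lit 20637040704), (nat_lit 122, nat_lit 20620525632), (nat_lit 64, nat_lit 20620263552), (nat_lit 37, nat_lit 20603748480), (nat_lit 8, nat_lit 21710782464), (nat_lit 13, nat_lit 21694267392), (nat_lit 116, nat_lit 21694005312), (nat_lit 88, nat_lit 21677490240), (nat_lit 27, nat_lit 21677228160), (nat_lit 12, nat_lit 22767747072), (nat_lit 65, nat_lit 22751232000), (nat_lit 36, nat_lit 22750969920), (nat_lit 29, nat_lit 23824711680)]⟩,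
   ⟨V6_16325296128, [(nat_lit 45, nat_lit 18489819264), (nat_lit 14, nat_lit 19563561024), (nat_lit 41, nat_lit 19563298944), (nat_lit 69, nat_lit 19546783872), (nat_lit 35, nat_lit 20637302784), (nat_lit 125, nat_lit 20637040704), (nat_lit 93, nat_lit 20620525632), (nat_lit 96, nat_lit 20620263552), (nat_lit 13, nat_lit 21710782464), (nat_lit 84, nat_lit 21694267392), (nat_lit 63, nat_lit 21694005312), (nat_lit 70, nat_lit 22767747072)]⟩,
   ⟨V6_16308781056, [(nat_lit 103, nat_lit 18489819264), (nat_lit 76, nat_lit 19563561024), (nat_lit 37, nat_lit 19546783872), (nat_lit 35, nat_lit 20637302784), (nat_lit 85, nat_lit 20620525632), (nat_lit 62, nat_lit 20603748480), (nat_lit 95, nat_lit 21694267392), (nat_lit 57, nat_lit 21677490240), (nat_lit 19, nat_lit 22751232000)]⟩],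
  [W_18439221248, W_18422448128, W_18422440064, W_18405924992, W_17399029760, W_17382256640, W_17365475456, W_16342065152, W_15268585472, W_15268327424, W_15251812352, W_15251546240]⟩
theorem C_18489819264 : chkRec R_18489819264 = true := by decide +kernel

noncomputable def R_18489823296 : Rec := ⟨nat_lit 18489823296, nat_lit 65,
  [⟨V6_16292007936, [(nat_lit 84, nat_lit 18489823296), (nat_lit 5, nat_lit 19563565056), (nat_lit 58, nat_lit 19546787904), (nat_lit 19, nat_lit 20620529664), (nat_lit 113, nat_lit 20603752512), (nat_lit 76, nat_lit 21677494272), (nat_lit 21, nat_lit 21660717120), (nat_lit 30, nat_lit 22734458880)]⟩,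
   ⟨V6_15251816448, [(nat_lit 105, nat_lit 18489823296), (nat_lit 95, nat_lit 19563565056), (nat_lit 18, nat_lit 19563561024), (nat_lit 94, nat_lit 19546787904), (nat_lit 85, nat_lit 20637302784), (nat_lit 31, nat_lit 20620529664), (nat_lit 5, nat_lit 20620525632), (nat_lit 19, nat_lit 21694267392)]⟩,
   ⟨V6_15235043328, [(nat_lit 113, nat_lit 18489823296), (nat_lit 84, nat_lit 19563565056), (nat_lit 25, nat_lit 19546787904), (nat_lit 81, nat_lit 20620529664), (nat_lit 52, nat_lit 20603752512), (nat_lit 108, nat_lit 21677494272)]⟩],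
  [W_18456252416, W_18372382784, W_17399287808, W_17382510656, W_16325546048, W_15268585472, W_15268581440, W_15251812352]⟩
theorem C_18489823296 : chkRec R_18489823296 = true := by decide +kernel

noncomputable def R_18490073217 : Rec := ⟨nat_lit 18490073217, nat_lit 39,
  [⟨V6_15235293312, [(nat_lit 32, nat_lit 18490073217), (nat_lit 55, nat_lit 19563815040), (nat_lit 100, nat_lit 19547037825), (nat_lit 56, nat_lit 20620779648), (nat_lit 104, nat_lit 20604002433), (nat_lit 86, nat_lit 21677744256)]⟩],
  [W_18472247360, W_18439217216, W_18406187072, W_17415282752, W_17398767680, W_16341540992, W_15268323392]⟩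
theorem C_18490073217 : chkRec R_18490073217 = true := by decide +kernel

noncomputable def R_18490077249 : Rec := ⟨nat_lit 18490077249, nat_lit 58,
  [⟨V6_18439737408, [(nat_lit 78, nat_lit 18490077249), (nat_lit 114, nat_lit 19563819072), (nat_lit 70, nat_lit 19563814977), (nat_lit 100, nat_lit 19547041857), (nat_lit 44, nat_lit 20637556800), (nat_lit 119, nat_lit 20637552705), (nat_lit 70, nat_lit 20620783680), (nat_lit 55, nat_lit 20620779585), (nat_lit 14, nat_lit 20604006465), (nat_lit 27, nat_lit 21711294528), (nat_lit 58, nat_lit 21694521408), (nat_lit 79, nat_lit 21694517313), (nat_lit 45, nat_lit 21677748288), (nat_lit 82, nat_lit 21677744193), (nat_lit 65, nat_lit 21660971073), (nat_lit 107, nat_lit 22768259136), (nat_lit 9, nat_lit 22751486016), (nat_lit 56, nat_lit 22751481921), (nat_lit 16, nat_lit 22734712896), (nat_lit 49, nat_lit 22734708801), (nat_lit 89, nat_lit 23825223744), (nat_lit 10, nat_lit 23808450624), (nat_lit 10, nat_lit 23808446529), (nat_lit 1, nat_lit 24882188352)]⟩,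
   ⟨V6_17365995585, [(nat_lit 13, nat_lit 18490077249), (nat_lit 81, nat_lit 19563814977), (nat_lit 100, nat_lit 19547041857), (nat_lit 115, nat_lit 20637552705), (nat_lit 19, nat_lit 20620779585), (nat_lit 21, nat_lit 20604006465), (nat_lit 76, nat_lit 21694517313), (nat_lit 121, nat_lit 21677744193), (nat_lit 98, nat_lit 21660971073), (nat_lit 121, nat_lit 22751481921), (nat_lit 103, nat_lit 22734708801), (nat_lit 38, nat_lit 23808446529)]⟩,
   ⟨V6_15268843584, [(nat_lit 26, nat_lit 18490077249), (nat_lit 24, nat_lit 19563819072), (nat_lit 20, nat_lit 19563814977), (nat_lit 49, nat_lit 20637556800), (nat_lit 63, nat_lit 20637552705), (nat_lit 103, nat_lit 21711294528)]⟩],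
  [W_18472505408, W_18438959168, W_17415540800, W_17399025728, W_17398767680, W_17381994560, W_16342061120, W_16341803072, W_16325546048, W_16325029952, W_16308514880, W_15268581440, W_15251550272, W_15235035200]⟩
theorem C_18490077249 : chkRec R_18490077249 = true := by decide +kernel

noncomputable def R_18490077312 : Rec := ⟨nat_lit 18490077312, nat_lit 144,
  [⟨V6_18455998464, [(nat_lit 34, nat_lit 18490077312), (nat_lit 75, nat_lit 19563819072), (nat_lit 38, nat_lit 19563556992), (nat_lit 100, nat_lit 19547041920), (nat_lit 82, nat_lit 20637560832), (nat_lit 51, nat_lit 20637298752), (nat_lit 56, nat_lit 20637036672), (nat_lit 19, nat_lit 20620783680), (nat_lit 59, nat_lit 20620521600), (nat_lit 7, nat_lit 20604006528), (nat_lit 91, nat_lit 21711040512), (nat_lit 95, nat_lit 21710778432), (nat_lit 28, nat_lit 21694525440), (nat_lit 123, nat_lit 21694263360), (nat_lit 17, nat_lit 21694001280), (nat_lit 6, nat_lit 21677748288), (nat_lit 20, nat_lit 21677486208), (nat_lit 10, nat_lit 22784520192), (nat_lit 43, nat_lit 22768005120), (nat_lit 91, nat_lit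 22767743040), (nat_lit 54, nat_lit 22751490048), (nat_lit 28, nat_lit 22751227968), (nat_lit 114, nat_lit 22750965888), (nat_lit 86, nat_lit 23841484800), (nat_lit 35, nat_lit 23824969728), (nat_lit 71, nat_lit 23824707648), (nat_lit 55, nat_lit 24898449408)]⟩,
   ⟨V6_17382776832, [(nat_lit 118, nat_lit 18490077312), (nat_lit 101, nat_lit 19563819072), (nat_lit 121, nat_lit 19563815040), (nat_lit 114, nat_lit 19547041920), (nat_lit 88, nat_lit 20637560832), (nat_lit 118, nat_lit 20637556800), (nat_lit 70, nat_lit 20620783680), (nat_lit 19, nat_lit 20620779648), (nat_lit 86, nat_lit 20604006528), (nat_lit 88, nat_lit 21711298560), (nat_lit 83, nat_lit 21694525440), (nat_lit 72, nat_lit 21694521408), (nat_lit 18, nat_lit 21677748288), (nat_lit 2, nat_lit 21677744256), (nat_lit 116, nat_lit 22768263168), (nat_lit 103, nat_lit 22751490048), (nat_lit 36, nat_lit 22751486016), (nat_lit 73, nat_lit 23825227776)]⟩],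
  [W_18472509440, W_18455736320, W_18439221248, W_18438959168, W_18422440064, W_18405924992, W_17415544832, W_17398771712, W_17398767680, W_17382256640, W_17381990528, W_17365475456, W_16341803072, W_16325292032, W_16325029952, W_15268585472, W_15268327424, W_15268061312, W_15251812352, W_15235297280]⟩
theorem C_18490077312 : chkRec R_18490077312 = true := by decide +kernel

noncomputable def R_18490081344 : Rec := ⟨nat_lit 18490081344, nat_lit 199,
  [⟨V6_17399549952, [(nat_lit 39, nat_lit 18490081344), (nat_lit 30, nat_lit 19563823104), (nat_lit 54, nat_lit 19563819072), (nat_lit 86, nat_lit 19547045952), (nat_lit 15, nat_lit 20637560832), (nat_lit 107, nat_lit 20637556800), (nat_lit 103, nat_lit 20620787712), (nat_lit 85, nat_lit 20620783680), (nat_lit 89, nat_lit 21711298560), (nat_lit 36, nat_lit 21711294528), (nat_lit 19, nat_lit 21694525440), (nat_lit 18, nat_lit 21694521408), (nat_lit 15, nat_lit 22785036288), (nat_lit 43, nat_lit 22768263168), (nat_lit 62, nat_lit 22768259136), (nat_lit 94, nat_lit 23842000896)]⟩,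
   ⟨V6_17382776832, [(nat_lit 46, nat_lit 18490081344), (nat_lit 40, nat_lit 19563823104), (nat_lit 91, nat_lit 19563819072), (nat_lit 30, nat_lit 19547045952), (nat_lit 66, nat_lit 20637560832), (nat_lit 119, nat_lit 20637556800), (nat_lit 8, nat_lit 20620787712), (nat_lit 120, nat_lit 20620783680), (nat_lit 99, nat_lit 20604010560), (nat_lit 80, nat_lit 21711298560), (nat_lit 68, nat_lit 21694525440), (nat_lit 49, nat_lit 21694521408), (nat_lit 56, nat_lit 21677752320), (nat_lit 31, nat_lit 21677748288), (nat_lit 36, nat_lit 22768263168), (nat_lit 27, nat_lit 22751490048), (nat_lit 79, nat_lit 22751486016), (nat_lit 39, nat_lit 23825227776)]⟩,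
   ⟨V6_16325296128, [(nat_lit 89, nat_lit 18490081344), (nat_lit 73, nat_lit 19563823104), (nat_lit 31, nat_lit 19563561024), (nat_lit 91, nat_lit 19547045952), (nat_lit 88, nat_lit 20637302784), (nat_lit 20, nat_lit 20637040704), (nat_lit 18, nat_lit 20620787712), (nat_lit 67, nat_lit 20620525632), (nat_lit 90, nat_lit 21710782464), (nat_lit 110, nat_lit 21694267392), (nat_lit 37, nat_lit 21694005312), (nat_lit 79, nat_lit 22767747072)]⟩,
   ⟨V6_16308518976, [(nat_lit 64, nat_lit 18490081344), (nat_lit 77, nat_lit 19563561024), (nat_lit 87, nat_lit 19547045952), (nat_lit 16, nat_lit 20637040704), (nat_lit 113, nat_lit 20620525632), (nat_lit 76, nat_lit 20604010560), (nat_lit 111, nat_lit 21694005312), (nat_lit 75, nat_lit 21677490240), (nat_lit 114, nat_lit 22750969920)]⟩],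
  [W_18472767488, W_18439221248, W_18422448128, W_18389417984, W_18372640832, W_17382256640, W_17365483520, W_17348706368, W_16308518912, W_16291741760, W_15268843520, W_15268585472, W_15268327424, W_15235297280, W_15235039232, W_15234777152, W_15218524160, W_15201747008]⟩
theorem C_18490081344 : chkRec R_18490081344 = true := by decide +kernel

noncomputable def R_18490085376 : Rec := ⟨nat_lit 18490085376, nat_lit 119,
  [⟨V6_18389422080, [(nat_lit 8, nat_lit 18490085376), (nat_lit 114, nat_lit 19547049984), (nat_lit 80, nat_lit 20604014592), (nat_lit 90, nat_lit 21660979200), (nat_lit 60, nat_lit 22717943808), (nat_lit 21, nat_lit 23774908416), (nat_lit 54, nat_lit 24831873024)]⟩,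
   ⟨V6_16325812224, [(nat_lit 71, nat_lit 18490085376), (nat_lit 101, nat_lit 19563823104), (nat_lit 77, nat_lit 19547049984), (nat_lit 52, nat_lit 20637560832), (nat_lit 76, nat_lit 20620787712), (nat_lit 29, nat_lit 21711298560), (nat_lit 29, nat_lit 21694525440), (nat_lit 117, nat_lit 22768263168)]⟩,
   ⟨V6_16292007936, [(nat_lit 49, nat_lit 18490085376), (nat_lit 59, nat_lit 19563565056), (nat_lit 104, nat_lit 19547049984), (nat_lit 41, nat_lit 20620529664), (nat_lit 5, nat_lit 20604014592), (nat_lit 31, nat_lit 21677494272), (nat_lit 119, nat_lit 21660979200), (nat_lit 106, nat_lit 22734458880)]⟩],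
  [W_18473025536, W_18456510464, W_18389417984, W_17416060928, W_17332195328, W_15268843520, W_15268585472, W_15251812352, W_15235297280, W_15218524160]⟩
theorem C_18490085376 : chkRec R_18490085376 = true := by decide +kernel

noncomputable def R_18490335297 : Rec := ⟨nat_lit 18490335297, nat_lit 52,
  [⟨V6_16309293120, [(nat_lit 87, nat_lit 18490335297), (nat_lit 21, nat_lit 19564077120), (nat_lit 49, nat_lit 19564073025), (nat_lit 95, nat_lit 19547299905), (nat_lit 4, nat_lit 20637814848), (nat_lit 92, nat_lit 20621041728), (nat_lit 110, nat_lit 20621037633), (nat_lit 58, nat_lit 20604264513), (nat_lit 53, nat_lit 21694779456), (nat_lit 111, nat_lit 21678006336), (nat_lit 97, nat_lit 21678002241), (nat_lit 75, nat_lit 22751744064)]⟩,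
   ⟨V6_15252328512, [(nat_lit 16, nat_lit 18490335297), (nat_lit 76, nat_lit 19564077120), (nat_lit 119, nat_lit 19564073025), (nat_lit 54, nat_lit 19547299905), (nat_lit 116, nat_lit 20637814848), (nat_lit 53, nat_lit 20621041728), (nat_lit 94, nat_lit 20621037633), (nat_lit 35, nat_lit 21694779456)]⟩],
  [W_18489020480, W_18472505408, W_18472247360, W_18455732288, W_18406187072, W_18389672000, W_17415540800, W_17415282752, W_17398767680, W_16341803072]⟩
theorem C_18490335297 : chkRec R_18490335297 = true := by decide +kernel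

noncomputable def R_18490335360 : Rec := ⟨nat_lit 18490335360, nat_lit 106,
  [⟨V6_16309297152, [(nat_lit 125, nat_lit 18490335360), (nat_lit 91, nat_lit 19564077120), (nat_lit 56, nat_lit 19547299968), (nat_lit 77, nat_lit 20637818880), (nat_lit 60, nat_lit 20621041728), (nat_lit 111, nat_lit 20604264576), (nat_lit 82, nat_lit 21694783488), (nat_lit 100, nat_lit 21678006336), (nat_lit 118, nat_lit 22751748096)]⟩,
   ⟨V6_15252332544, [(nat_lit 38, nat_lit 18490335360), (nat_lit 33, nat_lit 19564077120), (nat_lit 115, nat_lit 19547299968), (nat_lit 30, nat_lit 20637818880), (nat_lit 18, nat_lit 20621041728), (nat_lit 102, nat_lit 21694783488)]⟩],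
  [W_18489024512, W_18472509440, W_18472247360, W_18455732288, W_18455470208, W_18438955136, W_18422440064, W_18405924992, W_17415544832, W_17415282752, W_17399029760, W_17398767680, W_17381990528, W_17365475456, W_16342065152, W_16341803072, W_15268585472, W_15268061312]⟩
theorem C_18490335360 : chkRec R_18490335360 = true := by decide +kernel

noncomputable def R_18490339392 : Rec := ⟨nat_lit 18490339392, nat_lit 221,
  [⟨V6_18439999488, [(nat_lit 123, nat_lit 18490339392), (nat_lit 124, nat_lit 19564081152), (nat_lit 121, nat_lit 19564077120), (nat_lit 2, nat_lit 19547304000), (nat_lit 114, nat_lit 20637818880), (nat_lit 106, nat_lit 20637814848), (nat_lit 3, nat_lit 20621045760), (nat_lit 96, nat_lit 20621041728), (nat_lit 92, nat_lit 20604268608), (nat_lit 24, nat_lit 21711556608), (nat_lit 35, nat_lit 21694783488), (nat_lit 72, nat_lit 21694779456), (nat_lit 108, nat_lit 21678010368), (nat_lit 120, nat_lit 21678006336), (nat_lit 44, nat_lit 21661233216), (nat_lit 35, nat_lit 22768521216), (nat_lit 37, nat_lit 22751748096), (nat_lit 86, nat_lit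 22751744064), (nat_lit 30, nat_lit 22734974976), (nat_lit 91, nat_lit 22734970944), (nat_lit 41, nat_lit 23825485824), (nat_lit 33, nat_lit 23808712704), (nat_lit 98, nat_lit 23808708672), (nat_lit 106, nat_lit 24882450432)]⟩,
   ⟨V6_18423222336, [(nat_lit 19, nat_lit 18490339392), (nat_lit 24, nat_lit 19564077120), (nat_lit 8, nat_lit 19547304000), (nat_lit 74, nat_lit 20637814848), (nat_lit 56, nat_lit 20621041728), (nat_lit 73, nat_lit 20604268608), (nat_lit 37, nat_lit 21694779456), (nat_lit 27, nat_lit 21678006336), (nat_lit 81, nat_lit 21661233216), (nat_lit 81, nat_lit 22751744064), (nat_lit 56, nat_lit 22734970944), (nat_lit 47, nat_lit 22718197824), (nat_lit 115, nat_lit 23808708672), (nat_lit 116, nat_lit 23791935552), (nat_lit 72, nat_lit 24865673280)]⟩,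
   ⟨V6_17399549952, [(nat_lit 1, nat_lit 18490339392), (nat_lit 53, nat_lit 19564081152), (nat_lit 117, nat_lit 19564077120), (nat_lit 9, nat_lit 19563819072), (nat_lit 109, nat_lit 19547304000), (nat_lit 7, nat_lit 20637818880), (nat_lit 86, nat_lit 20637814848), (nat_lit 31, nat_lit 20637560832), (nat_lit 65, nat_lit 20637556800), (nat_lit 124, nat_lit 20621045760), (nat_lit 45, nat_lit 20621041728), (nat_lit 35, nat_lit 20620783680), (nat_lit 106, nat_lit 21711556608), (nat_lit 109, nat_lit 21711298560), (nat_lit 31, nat_lit 21711294528), (nat_lit 64, nat_lit 21694783488), (nat_lit 35, nat_lit 21694779456), (nat_lit 100, nat_lit 21694525440), (nat_lit 102, nat_lit 21694521408), (nat_lit 12, nat_lit 22785036288), (nat_lit 104, nat_lit 22768521216), (nat_lit 92, nat_lit 22768263168), (nat_lit 107, nat_lit 22768259136), (nat_lit 5, nat_lit 23842000896)]⟩,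
   ⟨V6_17383034880, [(nat_lit 71, nat_lit 18490339392), (nat_lit 43, nat_lit 19564081152), (nat_lit 49, nat_lit 19564077120), (nat_lit 14, nat_lit 19547304000), (nat_lit 43, nat_lit 20637818880), (nat_lit 42, nat_lit 20637814848), (nat_lit 42, nat_lit 20621045760), (nat_lit 116, nat_lit 20621041728), (nat_lit 29, nat_lit 20604268608), (nat_lit 31, nat_lit 21711556608), (nat_lit 74, nat_lit 21694783488), (nat_lit 55, nat_lit 21694779456), (nat_lit 46, nat_lit 21678010368), (nat_lit 58, nat_lit 21678006336), (nat_lit 57, nat_lit 22768521216), (nat_lit 40, nat_lit 22751748096), (nat_lit 118, nat_lit 22751744064), (nat_lit 18, nat_lit 23825485824)]⟩,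
   ⟨V6_15252328512, [(nat_lit 71, nat_lit 18490339392), (nat_lit 126, nat_lit 19564077120), (nat_lit 52, nat_lit 19547304000), (nat_lit 24, nat_lit 20637814848), (nat_lit 66, nat_lit 20621041728), (nat_lit 96, nat_lit 21694779456)]⟩],
  [W_18489282560, W_18472767488, W_18472509440, W_18472505408, W_18455736320, W_18439221248, W_18438959168, W_18389676032, W_18372898880, W_17415544832, W_17398771712, W_17398767680, W_17382256640, W_17381994560, W_17315934272, W_16341807104, W_16341803072, W_16325292032, W_16325029952, W_16308514880, W_15268843520, W_15268585472, W_15268581440, W_15268327424, W_15251812352, W_15251550272, W_15235551296, W_15235297280, W_15235035200]⟩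
theorem C_18490339392 : chkRec R_18490339392 = true := by decide +kernel

noncomputable def R_18490343424 : Rec := ⟨nat_lit 18490343424, nat_lit 196,
  [⟨V6_18423226368, [(nat_lit 102, nat_lit 18490343424), (nat_lit 126, nat_lit 19564081152), (nat_lit 51, nat_lit 19547308032), (nat_lit 120, nat_lit 20637818880), (nat_lit 59, nat_lit 20621045760), (nat_lit 43, nat_lit 20604272640), (nat_lit 8, nat_lit 21694783488), (nat_lit 96, nat_lit 21678010368), (nat_lit 83, nat_lit 21661237248), (nat_lit 115, nat_lit 22751748096), (nat_lit 77, nat_lit 22734974976), (nat_lit 10, nat_lit 22718201856), (nat_lit 87, nat_lit 23808712704), (nat_lit 18, nat_lit 23791939584), (nat_lit 3, nat_lit 24865677312)]⟩,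
   ⟨V6_17383034880, [(nat_lit 51, nat_lit 18490343424), (nat_lit 78, nat_lit 19564081152), (nat_lit 114, nat_lit 19547308032), (nat_lit 26, nat_lit 20637818880), (nat_lit 90, nat_lit 20621045760), (nat_lit 44, nat_lit 20604272640), (nat_lit 22, nat_lit 21711556608), (nat_lit 71, nat_lit 21694783488), (nat_lit 25, nat_lit 21678010368), (nat_lit 68, nat_lit 22768521216), (nat_lit 114, nat_lit 22751748096), (nat_lit 106, nat_lit 23825485824)]⟩,
   ⟨V6_17382260736, [(nat_lit 38, nat_lit 18490343424), (nat_lit 40, nat_lit 19563823104), (nat_lit 77, nat_lit 19547308032), (nat_lit 58, nat_lit 20637302784), (nat_lit 66, nat_lit 20620787712), (nat_lit 48, nat_lit 20604272640), (nat_lit 104, nat_lit 21710782464), (nat_lit 38, nat_lit 21694267392), (nat_lit 42, nat_lit 21677752320), (nat_lit 112, nat_lit 22767747072), (nat_lit 22, nat_lit 22751232000), (nat_lit 71, nat_lit 23824711680)]⟩,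
   ⟨V6_16325296128, [(nat_lit 26, nat_lit 18490343424), (nat_lit 11, nat_lit 19563823104), (nat_lit 100, nat_lit 19547308032), (nat_lit 79, nat_lit 20637302784), (nat_lit 114, nat_lit 20620787712), (nat_lit 42, nat_lit 21710782464), (nat_lit 99, nat_lit 21694267392), (nat_lit 103, nat_lit 22767747072)]⟩],
  [W_18489540608, W_18472767488, W_18439221248, W_18422448128, W_18389676032, W_17416060928, W_17382256640, W_17315938304, W_15269101568, W_15268843520, W_15268585472, W_15235297280, W_15235039232, W_15218524160, W_15202009088]⟩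
theorem C_18490343424 : chkRec R_18490343424 = true := by decide +kernel

noncomputable def R_18490593345 : Rec := ⟨nat_lit 18490593345, nat_lit 22,
  [⟨V6_15268843584, [(nat_lit 39, nat_lit 18490593345), (nat_lit 83, nat_lit 19564335168), (nat_lit 19, nat_lit 19564073025), (nat_lit 84, nat_lit 20637814848), (nat_lit 22, nat_lit 20637552705), (nat_lit 43, nat_lit 21711294528)]⟩,
   ⟨V6_15235813440, [(nat_lit 19, nat_lit 18490593345), (nat_lit 116, nat_lit 19564335168), (nat_lit 107, nat_lit 19547557953), (nat_lit 65, nat_lit 20621299776), (nat_lit 30, nat_lit 20604522561), (nat_lit 59, nat_lit 21678264384)]⟩],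
  [W_18472505408, W_18455990336, W_17399025728, W_16342061120]⟩
theorem C_18490593345 : chkRec R_18490593345 = true := by decide +kernel

noncomputable def R_18490597440 : Rec := ⟨nat_lit 18490597440, nat_lit 180,
  [⟨V6_18406711296, [(nat_lit 70, nat_lit 18490597440), (nat_lit 60, nat_lit 19564339200), (nat_lit 20, nat_lit 19547562048), (nat_lit 125, nat_lit 20621303808), (nat_lit 35, nat_lit 20604526656), (nat_lit 58, nat_lit 21678268416), (nat_lit 113, nat_lit 21661491264), (nat_lit 93, nat_lit 22735233024), (nat_lit 53, nat_lit 22718455872), (nat_lit 73, nat_lit 23792197632), (nat_lit 50, nat_lit 23775420480), (nat_lit 119, nat_lit 24849162240)]⟩,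
   ⟨V6_17349746688, [(nat_lit 121, nat_lit 18490597440), (nat_lit 122, nat_lit 19564339200), (nat_lit 28, nat_lit 19547562048), (nat_lit 89, nat_lit 20621303808), (nat_lit 4, nat_lit 20604526656), (nat_lit 77, nat_lit 21678268416), (nat_lit 112, nat_lit 21661491264), (nat_lit 81, nat_lit 22735233024), (nat_lit 36, nat_lit 22718455872), (nat_lit 53, nat_lit 23792197632)]⟩,
   ⟨V6_15268843584, [(nat_lit 30, nat_lit 18490597440), (nat_lit 6, nat_lit 19564335168), (nat_lit 45, nat_lit 19564077120), (nat_lit 33, nat_lit 20637814848), (nat_lit 38, nat_lit 20637556800), (nat_lit 41, nat_lit 21711294528)]⟩,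
   ⟨V6_15235817472, [(nat_lit 18, nat_lit 18490597440), (nat_lit 19, nat_lit 19564339200), (nat_lit 113, nat_lit 19547562048), (nat_lit 41, nat_lit 20621303808), (nat_lit 42, nat_lit 20604526656), (nat_lit 97, nat_lit 21678268416)]⟩],
  [W_18489282560, W_18489024512, W_18472767488, W_18472509440, W_18472505408, W_18472247360, W_18455990336, W_18406707200, W_18389934080, W_18389930048, W_17415802880, W_17415544832, W_17415540800, W_17415282752, W_17399025728, W_17398767680, W_17332965440, W_17316192320, W_16342065152, W_16341803072, W_16276000832, W_15268843520, W_15268585472, W_15235551296]⟩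
theorem C_18490597440 : chkRec R_18490597440 = true := by decide +kernel

noncomputable def R_18490601472 : Rec := ⟨nat_lit 18490601472, nat_lit 204,
  [⟨V6_18455998464, [(nat_lit 35, nat_lit 18490601472), (nat_lit 120, nat_lit 19564081152), (nat_lit 39, nat_lit 19547566080), (nat_lit 61, nat_lit 20637560832), (nat_lit 73, nat_lit 20621045760), (nat_lit 47, nat_lit 20604530688), (nat_lit 60, nat_lit 21711040512), (nat_lit 110, nat_lit 21694525440), (nat_lit 93, nat_lit 21678010368), (nat_lit 65, nat_lit 22784520192), (nat_lit 121, nat_lit 22768005120), (nat_lit 105, nat_lit 22751490048), (nat_lit 123, nat_lit 23841484800), (nat_lit 75, nat_lit 23824969728), (nat_lit 3, nat_lit 24898449408)]⟩,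
   ⟨V6_17349746688, [(nat_lit 94, nat_lit 18490601472), (nat_lit 118, nat_lit 19564339200), (nat_lit 13, nat_lit 19547566080), (nat_lit 125, nat_lit 20621303808), (nat_lit 60, nat_lit 20604530688), (nat_lit 83, nat_lit 21678268416), (nat_lit 48, nat_lit 21661495296), (nat_lit 17, nat_lit 22735233024), (nat_lit 79, nat_lit 22718459904), (nat_lit 97, nat_lit 23792197632)]⟩,
   ⟨V6_16326328320, [(nat_lit 73, nat_lit 18490601472), (nat_lit 66, nat_lit 19564339200), (nat_lit 9, nat_lit 19547566080), (nat_lit 126, nat_lit 20638076928), (nat_lit 29, nat_lit 20621303808), (nat_lit 114, nat_lit 21711814656), (nat_lit 110, nat_lit 21695041536), (nat_lit 70, nat_lit 22768779264)]⟩,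
   ⟨V6_16292782080, [(nat_lit 36, nat_lit 18490601472), (nat_lit 16, nat_lit 19564339200), (nat_lit 16, nat_lit 19547566080), (nat_lit 30, nat_lit 20621303808), (nat_lit 76, nat_lit 20604530688), (nat_lit 76, nat_lit 21678268416), (nat_lit 4, nat_lit 21661495296), (nat_lit 76, nat_lit 22735233024)]⟩],
  [W_18489540608, W_18489282560, W_18472767488, W_18472509440, W_18455736320, W_18439221248, W_18406707200, W_18389934080, W_18389676032, W_17416060928, W_17415544832, W_17398771712, W_17382256640, W_17316196352, W_15269101568, W_15268843520, W_15268585472, W_15235297280]⟩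
theorem C_18490601472 : chkRec R_18490601472 = true := by decide +kernel

noncomputable def R_18490855488 : Rec := ⟨nat_lit 18490855488, nat_lit 78,
  [⟨V6_16276262976, [(nat_lit 75, nat_lit 18490855488), (nat_lit 7, nat_lit 19547820096), (nat_lit 90, nat_lit 20604784704), (nat_lit 2, nat_lit 21661749312), (nat_lit 87, nat_lit 22718713920)]⟩,
   ⟨V6_15269105664, [(nat_lit 95, nat_lit 18490855488), (nat_lit 5, nat_lit 19564597248), (nat_lit 121, nat_lit 19564335168), (nat_lit 25, nat_lit 20638076928), (nat_lit 101, nat_lit 20637814848), (nat_lit 70, nat_lit 21711556608)]⟩,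
   ⟨V6_15268843584, [(nat_lit 38, nat_lit 18490855488), (nat_lit 66, nat_lit 19564335168), (nat_lit 83, nat_lit 20637814848), (nat_lit 59, nat_lit 21711294528)]⟩,
   ⟨V6_15252328512, [(nat_lit 73, nat_lit 18490855488), (nat_lit 115, nat_lit 19564335168), (nat_lit 116, nat_lit 19547820096), (nat_lit 76, nat_lit 20637814848), (nat_lit 12, nat_lit 20621299776), (nat_lit 60, nat_lit 21694779456)]⟩,
   ⟨V6_15235813440, [(nat_lit 11, nat_lit 18490855488), (nat_lit 80, nat_lit 19564335168), (nat_lit 88, nat_lit 19547820096), (nat_lit 114, nat_lit 20621299776), (nat_lit 84, nat_lit 20604784704), (nat_lit 8, nat_lit 21678264384)]⟩],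
  [W_18472767488, W_18472505408, W_18456252416, W_18406707200, W_17415802880, W_17415540800, W_17333227520]⟩
theorem C_18490855488 : chkRec R_18490855488 = true := by decide +kernel

noncomputable def R_18490859520 : Rec := ⟨nat_lit 18490859520, nat_lit 158,
  [⟨V6_18406711296, [(nat_lit 50, nat_lit 18490859520), (nat_lit 54, nat_lit 19564339200), (nat_lit 63, nat_lit 19547824128), (nat_lit 71, nat_lit 20621303808), (nat_lit 1, nat_lit 20604788736), (nat_lit 32, nat_lit 21678268416), (nat_lit 8, nat_lit 21661753344), (nat_lit 36, nat_lit 22735233024), (nat_lit 80, nat_lit 22718717952), (nat_lit 24, nat_lit 23792197632), (nat_lit 21, nat_lit 23775682560), (nat_lit 110, nat_lit 24849162240)]⟩,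
   ⟨V6_17349746688, [(nat_lit 80, nat_lit 18490859520), (nat_lit 59, nat_lit 19564339200), (nat_lit 30, nat_lit 19547824128), (nat_lit 79, nat_lit 20621303808), (nat_lit 91, nat_lit 20604788736), (nat_lit 60, nat_lit 21678268416), (nat_lit 94, nat_lit 21661753344), (nat_lit 101, nat_lit 22735233024), (nat_lit 40, nat_lit 22718717952), (nat_lit 47, nat_lit 23792197632)]⟩,
   ⟨V6_15235817472, [(nat_lit 113, nat_lit 18490859520), (nat_lit 106, nat_lit 19564339200), (nat_lit 15, nat_lit 19547824128), (nat_lit 5, nat_lit 20621303808), (nat_lit 124, nat_lit 20604788736), (nat_lit 36, nat_lit 21678268416)]⟩],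
  [W_18489540608, W_18489282560, W_18489024512, W_18472767488, W_18472509440, W_18406965248, W_18406707200, W_17416060928, W_17415802880, W_17415544832, W_16342065152, W_16276262912, W_15269101568, W_15268843520, W_15268585472, W_15219298304]⟩
theorem C_18490859520 : chkRec R_18490859520 = true := by decide +kernel

noncomputable def R_18491117568 : Rec := ⟨nat_lit 18491117568, nat_lit 88,
  [⟨V6_17399549952, [(nat_lit 28, nat_lit 18491117568), (nat_lit 35, nat_lit 19564597248), (nat_lit 112, nat_lit 19548082176), (nat_lit 71, nat_lit 20638076928), (nat_lit 40, nat_lit 20621561856), (nat_lit 69, nat_lit 21711556608), (nat_lit 14, nat_lit 21695041536), (nat_lit 26, nat_lit 22785036288), (nat_lit 32, nat_lit 22768521216), (nat_lit 45, nat_lit 23842000896)]⟩,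
   ⟨V6_17350262784, [(nat_lit 122, nat_lit 18491117568), (nat_lit 16, nat_lit 19564855296), (nat_lit 89, nat_lit 19548082176), (nat_lit 104, nat_lit 20621819904), (nat_lit 77, nat_lit 20605046784), (nat_lit 15, nat_lit 21678784512), (nat_lit 81, nat_lit 21662011392), (nat_lit 86, nat_lit 22735749120), (nat_lit 53, nat_lit 22718976000), (nat_lit 69, nat_lit 23792713728)]⟩,
   ⟨V6_15269105664, [(nat_lit 20, nat_lit 18491117568), (nat_lit 91, nat_lit 19564597248), (nat_lit 46, nat_lit 20638076928), (nat_lit 18, nat_lit 21711556608)]⟩,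
   ⟨V6_15236333568, [(nat_lit 105, nat_lit 18491117568), (nat_lit 105, nat_lit 19564855296), (nat_lit 6, nat_lit 19548082176), (nat_lit 82, nat_lit 20621819904), (nat_lit 8, nat_lit 20605046784), (nat_lit 96, nat_lit 21678784512)]⟩],
  [W_18489540608, W_18489282560, W_18472767488, W_17416060928, W_17415802880, W_17350000640, W_16276520960, W_16276262912]⟩
theorem C_18491117568 : chkRec R_18491117568 = true := by decide +kernel

noncomputable def R_18491375616 : Rec := ⟨nat_lit 18491375616, nat_lit 30,
  [⟨V6_18456772608, [(nat_lit 37, nat_lit 18491375616), (nat_lit 33, nat_lit 19564855296), (nat_lit 34, nat_lit 19548340224), (nat_lit 99, nat_lit 20638334976), (nat_lit 55, nat_lit 20621819904), (nat_lit 101, nat_lit 20605304832), (nat_lit 87, nat_lit 21711814656), (nat_lit 29, nat_lit 21695299584), (nat_lit 47, nat_lit 21678784512), (nat_lit 64, nat_lit 22785294336), (nat_lit 110, nat_lit 22768779264), (nat_lit 72, nat_lit 22752264192), (nat_lit 32, nat_lit 23842258944), (nat_lit 48, nat_lit 23825743872), (nat_lit 87, nat_lit 24899223552)]⟩],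
  [W_18456510464, W_17416060928]⟩
theorem C_18491375616 : chkRec R_18491375616 = true := by decide +kernel

noncomputable def R_18506068098 : Rec := ⟨nat_lit 18506068098, nat_lit 2,
  [⟨V6_16308248706, [(nat_lit 120, nat_lit 18506068098), (nat_lit 121, nat_lit 19579805826), (nat_lit 85, nat_lit 19563032706), (nat_lit 83, nat_lit 20636770434), (nat_lit 22, nat_lit 20619997314), (nat_lit 36, nat_lit 21693735042), (nat_lit 56, nat_lit 21676961922), (nat_lit 5, nat_lit 22750699650)]⟩],
  [W_18438955136]⟩
theorem C_18506068098 : chkRec R_18506068098 = true := by decide +kernel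

noncomputable def R_18506068161 : Rec := ⟨nat_lit 18506068161, nat_lit 1,
  [⟨V6_16308252864, [(nat_lit 23, nat_lit 18506068161), (nat_lit 71, nat_lit 19579809984), (nat_lit 40, nat_lit 19563032769), (nat_lit 37, nat_lit 20636774592), (nat_lit 125, nat_lit 20619997377), (nat_lit 70, nat_lit 21693739200), (nat_lit 3, nat_lit 21676961985), (nat_lit 44, nat_lit 22750703808)]⟩],
  [W_18422182016]⟩
theorem C_18506068161 : chkRec R_18506068161 = true := by decide +kernel

noncomputable def R_18506326146 : Rec := ⟨nat_lit 18506326146, nat_lit 4,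
  [⟨V6_16358318208, [(nat_lit 101, nat_lit 18506326146), (nat_lit 34, nat_lit 19580067969), (nat_lit 2, nat_lit 19579805826), (nat_lit 21, nat_lit 20653809792), (nat_lit 16, nat_lit 20653547649), (nat_lit 66, nat_lit 20653285506), (nat_lit 52, nat_lit 21727289472), (nat_lit 106, nat_lit 21727027329), (nat_lit 44, nat_lit 22800769152)]⟩,
   ⟨V6_16291733634, [(nat_lit 126, nat_lit 18506326146), (nat_lit 1, nat_lit 19563290754), (nat_lit 101, nat_lit 20620255362), (nat_lit 51, nat_lit 21677219970), (nat_lit 29, nat_lit 22734184578)]⟩],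
  [W_18422440064]⟩
theorem C_18506326146 : chkRec R_18506326146 = true := by decide +kernel

noncomputable def R_18506330241 : Rec := ⟨nat_lit 18506330241, nat_lit 19,
  [⟨V6_18455732352, [(nat_lit 118, nat_lit 18506330241), (nat_lit 7, nat_lit 19580072064), (nat_lit 117, nat_lit 19580067969), (nat_lit 84, nat_lit 19579809921), (nat_lit 37, nat_lit 19563294849), (nat_lit 13, nat_lit 20653809792), (nat_lit 9, nat_lit 20653551744), (nat_lit 68, nat_lit 20653547649), (nat_lit 25, nat_lit 20637036672), (nat_lit 33, nat_lit 20637032577), (nat_lit 67, nat_lit 20636774529), (nat_lit 31, nat_lit 20620259457), (nat_lit 113, nat_lit 21727289472), (nat_lit 89, nat_lit 21710774400), (nat_lit 126, nat_lit 21710516352), (nat_lit 114, nat_lit 21710512257), (nat_lit 15, nat_lit 21694001280), (nat_lit 85, nat_lit 21693997185), (nat_lit 54, nat_lit 21693739137), (nat_lit 32, nat_lit 21677224065), (nat_lit 85, nat_lit 22784254080), (nat_lit 7, nat_lit 22767739008), (nat_lit 14, nat_lit 22767480960), (nat_lit 95, nat_lit 22767476865), (nat_lit 117, nat_lit 22750965888),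 (nat_lit 126, nat_lit 22750961793), (nat_lit 28, nat_lit 22750703745), (nat_lit 20, nat_lit 23841218688), (nat_lit 85, nat_lit 23824703616), (nat_lit 118, nat_lit 23824445568), (nat_lit 20, nat_lit 23824441473), (nat_lit 102, nat_lit 24898183296)]⟩],
  [W_18438959168, W_17381994560, W_17365217408, W_16341803072, W_16325029952, W_16308514880]⟩
theorem C_18506330241 : chkRec R_18506330241 = true := by decide +kernel

noncomputable def R_18506330304 : Rec := ⟨nat_lit 18506330304, nat_lit 17,
  [⟨V6_16342069248, [(nat_lit 94, nat_lit 18506330304), (nat_lit 23, nat_lit 19580072064), (nat_lit 48, nat_lit 19563294912), (nat_lit 67, nat_lit 20653813824), (nat_lit 20, nat_lit 20637036672), (nat_lit 14, nat_lit 21727555584), (nat_lit 111, nat_lit 21710778432), (nat_lit 91, nat_lit 22784520192)]⟩],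
  [W_18455736320, W_18439221248, W_16308252800]⟩
theorem C_18506330304 : chkRec R_18506330304 = true := by decide +kernel

noncomputable def R_18506334273 : Rec := ⟨nat_lit 18506334273, nat_lit 17,
  [⟨V6_18405670977, [(nat_lit 26, nat_lit 18506334273), (nat_lit 10, nat_lit 19563298881), (nat_lit 107, nat_lit 20620263489), (nat_lit 121, nat_lit 21677228097), (nat_lit 22, nat_lit 22734192705), (nat_lit 5, nat_lit 23791157313), (nat_lit 51, nat_lit 24848121921)]⟩,
   ⟨V6_16291741761, [(nat_lit 99, nat_lit 18506334273), (nat_lit 28, nat_lit 19563298881), (nat_lit 34, nat_lit 20620263489), (nat_lit 31, nat_lit 21677228097), (nat_lit 50, nat_lit 22734192705)]⟩],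
  [W_17399025728, W_17382252608]⟩
theorem C_18506334273 : chkRec R_18506334273 = true := by decide +kernel

noncomputable def R_18506334336 : Rec := ⟨nat_lit 18506334336, nat_lit 41,
  [⟨V6_16325296128, [(nat_lit 35, nat_lit 18506334336), (nat_lit 67, nat_lit 19580076096), (nat_lit 20, nat_lit 19563298944), (nat_lit 107, nat_lit 20653817856), (nat_lit 4, nat_lit 20637040704), (nat_lit 114, nat_lit 20620263552), (nat_lit 96, nat_lit 21710782464), (nat_lit 83, nat_lit 21694005312), (nat_lit 47, nat_lit 22767747072)]⟩,
   ⟨V6_16291741824, [(nat_lit 15, nat_lit 18506334336), (nat_lit 112, nat_lit 19563298944), (nat_lit 9, nat_lit 20620263552), (nat_lit 124, nat_lit 21677228160), (nat_lit 73, nat_lit 22734192768)]⟩],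
  [W_18439221248, W_18422440064, W_17399029760]⟩
theorem C_18506334336 : chkRec R_18506334336 = true := by decide +kernel

noncomputable def R_18506588289 : Rec := ⟨nat_lit 18506588289, nat_lit 22,
  [⟨V6_18439217217, [(nat_lit 97, nat_lit 18506588289), (nat_lit 106, nat_lit 19580330049), (nat_lit 26, nat_lit 19580067969), (nat_lit 87, nat_lit 19563552897), (nat_lit 56, nat_lit 20653809729), (nat_lit 71, nat_lit 20637294657), (nat_lit 66, nat_lit 20637032577), (nat_lit 36, nat_lit 20620517505), (nat_lit 1, nat_lit 21710774337), (nat_lit 3, nat_lit 21694259265), (nat_lit 67, nat_lit 21693997185), (nat_lit 79, nat_lit 21677482113), (nat_lit 53, nat_lit 22767738945), (nat_lit 108, nat_lit 22751223873), (nat_lit 81, nat_lit 22750961793), (nat_lit 32, nat_lit 22734446721), (nat_lit 84, nat_lit 23824703553), (nat_lit 109, nat_lit 23808188481), (nat_lit 54, nat_lit 23807926401), (nat_lit 14, nat_lit 24881668161)]⟩,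
   ⟨V6_16291995777, [(nat_lit 91, nat_lit 18506588289), (nat_lit 36, nat_lit 19563552897), (nat_lit 80, nat_lit 20620517505), (nat_lit 58, nat_lit 21677482113), (nat_lit 28, nat_lit 22734446721)]⟩],
  [W_18472247360, W_18455732288, W_17415282752, W_17398767680, W_16341803072, W_16341540992]⟩
theorem C_18506588289 : chkRec R_18506588289 = true := by decide +kernel

end Crest.Agent.R187.SN.Top
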