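import Crest.Agent.R187.SN.Top
import Crest.Agent.R187.SN.TD.X6_0
import Crest.Agent.R187.SN.TD.X6_1
import Crest.Agent.R187.SN.TD.X6_2
import Crest.Agent.R187.SN.TD.X6_3
import Crest.Agent.R187.SN.TD.X6_4
import Crest.Agent.R187.SN.TD.X6_5
import Crest.Agent.R187.SN.TD.X6_6
import Crest.Agent.R187.SN.TD.X6_7
import Crest.Agent.R187.SN.TD.X6_8
import Crest.Agent.R187.SN.TD.X6_9
import Crest.Agent.R187.SN.TD.X6_10
import Crest.Agent.R187.SN.TD.W7_0
import Crest.Agent.R187.SN.TD.W7_1
import Crest.Agent.R187.SN.TD.W7_2

/-!
# Row 187, PLAN S, generated certificate data (mod 127): rank records and checks, chunk 10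

Written by a C++ program (helper824).  The tables are only data: every property is checked by
the kernel.
-/

set_option autoImplicit false
set_option maxRecDepth 100000
set_option Elab.async false

namespace Crest.Agent.R187.SN.Top

noncomputable def R_18506592321 : Rec := ⟨nat_lit 18506592321, nat_lit 32,
  [⟨V6_18456252480, [(nat_lit 99, nat_lit 18506592321), (nat_lit 40, nat_lit 19580334144), (nat_lit 59, nat_lit 19580330049), (nat_lit 76, nat_lit 19563556929), (nat_lit 25, nat_lit 20654071872), (nat_lit 25, nat_lit 20654067777), (nat_lit 96, nat_lit 20637298752), (nat_lit 24, nat_lit 20637294657), (nat_lit 1, nat_lit 20620521537), (nat_lit 66, nat_lit 21727809600), (nat_lit 31, nat_lit 21711036480), (nat_lit 111, nat_lit 21711032385), (nat_lit 111, nat_lit 21694263360), (nat_lit 97, nat_lit 21694259265), (nat_lit 50, nat_lit 21677486145), (nat_lit 72, nat_lit 22784774208), (nat_lit 4, nat_lit 22768001088), (nat_lit 95, nat_lit 22767996993), (nat_lit 51, nat_lit 22751227968), (nat_lit 89, nat_lit 22751223873), (nat_lit 81, nat_lit 23841738816),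 (nat_lit 44, nat_lit 23824965696), (nat_lit 83, nat_lit 23824961601), (nat_lit 64, nat_lit 24898703424)]⟩],
  [W_18438959168, W_17398767680, W_17381994560, W_16358576192, W_16341803072, W_16325546048, W_16325029952, W_16308514880]⟩
theorem C_18506592321 : chkRec R_18506592321 = true := by decide +kernel

noncomputable def R_18506592384 : Rec := ⟨nat_lit 18506592384, nat_lit 79,
  [⟨V6_18455998464, [(nat_lit 65, nat_lit 18506592384), (nat_lit 88, nat_lit 19580334144), (nat_lit 66, nat_lit 19580072064), (nat_lit 24, nat_lit 19563556992), (nat_lit 75, nat_lit 20654075904), (nat_lit 54, nat_lit 20653813824), (nat_lit 22, nat_lit 20637298752), (nat_lit 125, nat_lit 20637036672), (nat_lit 99, nat_lit 20620521600), (nat_lit 16, nat_lit 21727555584), (nat_lit 80, nat_lit 21711040512), (nat_lit 66, nat_lit 21710778432), (nat_lit 2, nat_lit 21694263360), (nat_lit 34, nat_lit 21694001280), (nat_lit 82, nat_lit 21677486208), (nat_lit 11, nat_lit 22784520192), (nat_lit 3, nat_lit 22768005120), (nat_lit 33, nat_lit 22767743040), (nat_lit 13, nat_lit 22751227968),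 (nat_lit 6, nat_lit 22750965888), (nat_lit 11, nat_lit 23841484800), (nat_lit 76, nat_lit 23824969728), (nat_lit 37, nat_lit 23824707648), (nat_lit 98, nat_lit 24898449408)]⟩,
   ⟨V6_17365737600, [(nat_lit 56, nat_lit 18506592384), (nat_lit 35, nat_lit 19580330112), (nat_lit 7, nat_lit 19563556992), (nat_lit 120, nat_lit 20637294720), (nat_lit 87, nat_lit 20620521600), (nat_lit 10, nat_lit 21694259328), (nat_lit 71, nat_lit 21677486208), (nat_lit 126, nat_lit 22751223936), (nat_lit 34, nat_lit 22734450816), (nat_lit 7, nat_lit 23808188544)]⟩],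
  [W_18472509440, W_18439221248, W_18438959168, W_17415544832, W_17399029760, W_16342065152, W_16341807104, W_16325292032, W_16308252800]⟩
theorem C_18506592384 : chkRec R_18506592384 = true := by decide +kernel

noncomputable def R_18506596416 : Rec := ⟨nat_lit 18506596416, nat_lit 99,
  [⟨V6_16325296128, [(nat_lit 14, nat_lit 18506596416), (nat_lit 36, nat_lit 19580338176), (nat_lit 114, nat_lit 19580076096), (nat_lit 51, nat_lit 19563561024), (nat_lit 47, nat_lit 20653817856), (nat_lit 8, nat_lit 20637302784), (nat_lit 89, nat_lit 20637040704), (nat_lit 120, nat_lit 20620525632), (nat_lit 15, nat_lit 21710782464), (nat_lit 75, nat_lit 21694267392), (nat_lit 76, nat_lit 21694005312), (nat_lit 67, nat_lit 22767747072)]⟩,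
   ⟨V6_16308781056, [(nat_lit 113, nat_lit 18506596416), (nat_lit 107, nat_lit 19580338176), (nat_lit 41, nat_lit 19563561024), (nat_lit 8, nat_lit 20637302784), (nat_lit 81, nat_lit 20620525632), (nat_lit 44, nat_lit 21694267392), (nat_lit 11, nat_lit 21677490240), (nat_lit 101, nat_lit 22751232000)]⟩,
   ⟨V6_16308518976, [(nat_lit 106, nat_lit 18506596416), (nat_lit 33, nat_lit 19580076096), (nat_lit 98, nat_lit 19563561024), (nat_lit 122, nat_lit 20637040704), (nat_lit 28, nat_lit 20620525632), (nat_lit 101, nat_lit 21694005312), (nat_lit 103, nat_lit 21677490240), (nat_lit 116, nat_lit 22750969920)]⟩],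
  [W_18456252416, W_18455990336, W_18422448128, W_17415802880, W_17399029760, W_17399025728, W_16358838272, W_16342065152, W_16325546048]⟩
theorem C_18506596416 : chkRec R_18506596416 = true := by decide +kernel

noncomputable def R_18506600448 : Rec := ⟨nat_lit 18506600448, nat_lit 44,
  [⟨V6_18405937152, [(nat_lit 11, nat_lit 18506600448), (nat_lit 14, nat_lit 19563565056), (nat_lit 99, nat_lit 20620529664), (nat_lit 17, nat_lit 21677494272), (nat_lit 107, nat_lit 22734458880), (nat_lit 7, nat_lit 23791423488), (nat_lit 46, nat_lit 24848388096)]⟩,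
   ⟨V6_16292007936, [(nat_lit 13, nat_lit 18506600448), (nat_lit 114, nat_lit 19563565056), (nat_lit 84, nat_lit 20620529664), (nat_lit 99, nat_lit 21677494272), (nat_lit 4, nat_lit 22734458880)]⟩],
  [W_18473025536, W_18389159936, W_17416060928, W_16342323200, W_16325550080]⟩
theorem C_18506600448 : chkRec R_18506600448 = true := by decide +kernel

noncomputable def R_18506850369 : Rec := ⟨nat_lit 18506850369, nat_lit 37,
  [⟨V6_17365995585, [(nat_lit 122, nat_lit 18506850369), (nat_lit 108, nat_lit 19580588097), (nat_lit 53, nat_lit 19563814977), (nat_lit 77, nat_lit 20637552705), (nat_lit 26, nat_lit 20620779585), (nat_lit 68, nat_lit 21694517313), (nat_lit 44, nat_lit 21677744193), (nat_lit 19, nat_lit 22751481921), (nat_lit 120, nat_lit 22734708801), (nat_lit 120, nat_lit 23808446529)]⟩,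
   ⟨V6_16325808192, [(nat_lit 23, nat_lit 18506850369), (nat_lit 90, nat_lit 19580592192), (nat_lit 10, nat_lit 19580588097), (nat_lit 99, nat_lit 19563814977), (nat_lit 102, nat_lit 20654329920), (nat_lit 121, nat_lit 20637556800), (nat_lit 14, nat_lit 20637552705), (nat_lit 96, nat_lit 20620779585), (nat_lit 51, nat_lit 21711294528), (nat_lit 66, nat_lit 21694521408), (nat_lit 26, nat_lit 21694517313), (nat_lit 34, nat_lit 22768259136)]⟩],
  [W_18472505408, W_18472247360, W_18455732288, W_18406187072, W_17432055872, W_17415282752, W_16358576192, W_16341803072]⟩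
theorem C_18506850369 : chkRec R_18506850369 = true := by decide +kernel

noncomputable def R_18506850432 : Rec := ⟨nat_lit 18506850432, nat_lit 72,
  [⟨V6_18455732352, [(nat_lit 124, nat_lit 18506850432), (nat_lit 63, nat_lit 19580330112), (nat_lit 31, nat_lit 19563815040), (nat_lit 75, nat_lit 20653809792), (nat_lit 39, nat_lit 20637294720), (nat_lit 77, nat_lit 20620779648), (nat_lit 36, nat_lit 21727289472), (nat_lit 102, nat_lit 21710774400), (nat_lit 29, nat_lit 21694259328), (nat_lit 102, nat_lit 21677744256), (nat_lit 19, nat_lit 22784254080), (nat_lit 85, nat_lit 22767739008), (nat_lit 49, nat_lit 22751223936), (nat_lit 68, nat_lit 23841218688), (nat_lit 80, nat_lit 23824703616), (nat_lit 98, nat_lit 24898183296)]⟩,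
   ⟨V6_16325812224, [(nat_lit 108, nat_lit 18506850432), (nat_lit 87, nat_lit 19580592192), (nat_lit 98, nat_lit 19563815040), (nat_lit 29, nat_lit 20654333952), (nat_lit 45, nat_lit 20637556800), (nat_lit 76, nat_lit 20620779648), (nat_lit 64, nat_lit 21711298560), (nat_lit 13, nat_lit 21694521408), (nat_lit 116, nat_lit 22768263168)]⟩],
  [W_18489024512, W_18472509440, W_18406187072, W_17432059904, W_17415544832, W_17399029760, W_16358580224, W_16342065152, W_16341540992]⟩
theorem C_18506850432 : chkRec R_18506850432 = true := by decide +kernel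

noncomputable def R_18506854464 : Rec := ⟨nat_lit 18506854464, nat_lit 150,
  [⟨V6_17399549952, [(nat_lit 60, nat_lit 18506854464), (nat_lit 47, nat_lit 19580596224), (nat_lit 120, nat_lit 19580592192), (nat_lit 64, nat_lit 19563819072), (nat_lit 74, nat_lit 20654333952), (nat_lit 104, nat_lit 20654329920), (nat_lit 79, nat_lit 20637560832), (nat_lit 100, nat_lit 20637556800), (nat_lit 123, nat_lit 20620783680), (nat_lit 46, nat_lit 21728071680), (nat_lit 122, nat_lit 21711298560), (nat_lit 112, nat_lit 21711294528), (nat_lit 6, nat_lit 21694525440), (nat_lit 54, nat_lit 21694521408), (nat_lit 1, nat_lit 22785036288), (nat_lit 20, nat_lit 22768263168), (nat_lit 79, nat_lit 22768259136), (nat_lit 108, nat_lit 23842000896)]⟩,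
   ⟨V6_17382776832, [(nat_lit 28, nat_lit 18506854464), (nat_lit 94, nat_lit 19580596224), (nat_lit 68, nat_lit 19580592192), (nat_lit 42, nat_lit 19563819072), (nat_lit 89, nat_lit 20654333952), (nat_lit 119, nat_lit 20637560832), (nat_lit 40, nat_lit 20637556800), (nat_lit 84, nat_lit 20620783680), (nat_lit 64, nat_lit 21711298560), (nat_lit 95, nat_lit 21694525440), (nat_lit 20, nat_lit 21694521408), (nat_lit 17, nat_lit 21677748288), (nat_lit 64, nat_lit 22768263168), (nat_lit 103, nat_lit 22751490048), (nat_lit 109, nat_lit 22751486016), (nat_lit 51, nat_lit 23825227776)]⟩],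
  [W_18489282560, W_18472767488, W_18472509440, W_18472505408, W_18455990336, W_18455736320, W_18439221248, W_18438959168, W_17415544832, W_17398771712, W_17398767680, W_17382256640, W_16358838272, W_16358580224, W_16358576192, W_16341807104, W_16341803072, W_16325292032, W_16325029952, W_16308514880]⟩
theorem C_18506854464 : chkRec R_18506854464 = true := by decide +kernel

noncomputable def R_18506858496 : Rec := ⟨nat_lit 18506858496, nat_lit 126,
  [⟨V6_17366003712, [(nat_lit 76, nat_lit 18506858496), (nat_lit 80, nat_lit 19580596224), (nat_lit 61, nat_lit 19563823104), (nat_lit 123, nat_lit 20637560832), (nat_lit 58, nat_lit 20620787712), (nat_lit 124, nat_lit 21694525440), (nat_lit 45, nat_lit 21677752320), (nat_lit 120, nat_lit 22751490048), (nat_lit 66, nat_lit 22734716928), (nat_lit 79, nat_lit 23808454656)]⟩,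
   ⟨V6_16359358464, [(nat_lit 53, nat_lit 18506858496), (nat_lit 57, nat_lit 19580596224), (nat_lit 24, nat_lit 20654333952), (nat_lit 40, nat_lit 21728071680), (nat_lit 55, nat_lit 22801809408)]⟩,
   ⟨V6_16358842368, [(nat_lit 90, nat_lit 18506858496), (nat_lit 100, nat_lit 19580596224), (nat_lit 109, nat_lit 19580338176), (nat_lit 85, nat_lit 20654333952), (nat_lit 41, nat_lit 20654075904), (nat_lit 116, nat_lit 20653817856), (nat_lit 5, nat_lit 21727813632), (nat_lit 24, nat_lit 21727555584), (nat_lit 121, nat_lit 22801293312)]⟩,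
   ⟨V6_16325296128, [(nat_lit 25, nat_lit 18506858496), (nat_lit 23, nat_lit 19580338176), (nat_lit 112, nat_lit 19563823104), (nat_lit 101, nat_lit 20653817856), (nat_lit 13, nat_lit 20637302784), (nat_lit 46, nat_lit 20620787712), (nat_lit 30, nat_lit 21710782464), (nat_lit 86, nat_lit 21694267392), (nat_lit 56, nat_lit 22767747072)]⟩],
  [W_18489540608, W_18472767488, W_18456252416, W_18439221248, W_18422448128, W_18389417984, W_17432576000, W_17416060928, W_16359096320, W_16358838272]⟩
theorem C_18506858496 : chkRec R_18506858496 = true := by decide +kernel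

noncomputable def R_18507108417 : Rec := ⟨nat_lit 18507108417, nat_lit 17,
  [⟨V6_18505797696, [(nat_lit 46, nat_lit 18507108417), (nat_lit 69, nat_lit 19580850240), (nat_lit 93, nat_lit 19580588097), (nat_lit 96, nat_lit 20654329920), (nat_lit 3, nat_lit 20654067777), (nat_lit 1, nat_lit 21727809600), (nat_lit 73, nat_lit 21727547457), (nat_lit 61, nat_lit 22801289280), (nat_lit 97, nat_lit 22801027137), (nat_lit 53, nat_lit 23874768960), (nat_lit 77, nat_lit 23874506817), (nat_lit 122, nat_lit 24948248640)]⟩,
   ⟨V6_16342323264, [(nat_lit 119, nat_lit 18507108417), (nat_lit 102, nat_lit 19580850240), (nat_lit 13, nat_lit 19580588097), (nat_lit 70, nat_lit 19564073025), (nat_lit 58, nat_lit 20654329920), (nat_lit 111, nat_lit 20654067777), (nat_lit 94, nat_lit 20637814848), (nat_lit 117, nat_lit 20637552705), (nat_lit 3, nat_lit 21727809600), (nat_lit 5, nat_lit 21711294528), (nat_lit 97, nat_lit 21711032385), (nat_lit 112, nat_lit 22784774208)]⟩],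
  [W_16325546048, W_16292515904]⟩
theorem C_18507108417 : chkRec R_18507108417 = true := by decide +kernel

noncomputable def R_18507112512 : Rec := ⟨nat_lit 18507112512, nat_lit 139,
  [⟨V6_18423226368, [(nat_lit 81, nat_lit 18507112512), (nat_lit 48, nat_lit 19580854272), (nat_lit 93, nat_lit 19564077120), (nat_lit 31, nat_lit 20637818880), (nat_lit 7, nat_lit 20621041728), (nat_lit 47, nat_lit 21694783488), (nat_lit 22, nat_lit 21678006336), (nat_lit 17, nat_lit 22751748096), (nat_lit 21, nat_lit 22734970944), (nat_lit 41, nat_lit 23808712704), (nat_lit 19, nat_lit 23791935552), (nat_lit 38, nat_lit 24865677312)]⟩,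
   ⟨V6_16309297152, [(nat_lit 105, nat_lit 18507112512), (nat_lit 23, nat_lit 19580854272), (nat_lit 10, nat_lit 19564077120), (nat_lit 67, nat_lit 20637818880), (nat_lit 91, nat_lit 20621041728), (nat_lit 51, nat_lit 21694783488), (nat_lit 108, nat_lit 21678006336), (nat_lit 68, nat_lit 22751748096)]⟩],
  [W_18505797632, W_18489282560, W_18489024512, W_18489020480, W_18472767488, W_18472509440, W_18472505408, W_18472247360, W_18455990336, W_17432317952, W_17432059904, W_17415802880, W_17415544832, W_17415282752, W_17399025728, W_17398767680, W_16358838272, W_16358580224, W_16358576192, W_16342065152, W_16341803072]⟩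
theorem C_18507112512 : chkRec R_18507112512 = true := by decide +kernel

noncomputable def R_18507116544 : Rec := ⟨nat_lit 18507116544, nat_lit 154,
  [⟨V6_18423226368, [(nat_lit 81, nat_lit 18507116544), (nat_lit 37, nat_lit 19580854272), (nat_lit 17, nat_lit 19564081152), (nat_lit 2, nat_lit 20637818880), (nat_lit 43, nat_lit 20621045760), (nat_lit 5, nat_lit 21694783488), (nat_lit 97, nat_lit 21678010368), (nat_lit 7, nat_lit 22751748096), (nat_lit 80, nat_lit 22734974976), (nat_lit 111, nat_lit 23808712704), (nat_lit 10, nat_lit 23791939584), (nat_lit 116, nat_lit 24865677312)]⟩,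
   ⟨V6_16309297152, [(nat_lit 37, nat_lit 18507116544), (nat_lit 68, nat_lit 19580854272), (nat_lit 95, nat_lit 19564081152), (nat_lit 33, nat_lit 20637818880), (nat_lit 47, nat_lit 20621045760), (nat_lit 100, nat_lit 21694783488), (nat_lit 85, nat_lit 21678010368), (nat_lit 28, nat_lit 22751748096)]⟩],
  [W_18506055680, W_18489540608, W_18489282560, W_18472767488, W_18472509440, W_18439221248, W_18389676032, W_17432576000, W_17416060928, W_17415544832, W_17398771712, W_17382256640, W_16358580224, W_16341807104, W_16325292032]⟩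
theorem C_18507116544 : chkRec R_18507116544 = true := by decide +kernel

noncomputable def R_18507370560 : Rec := ⟨nat_lit 18507370560, nat_lit 71,
  [⟨V6_18505797696, [(nat_lit 83, nat_lit 18507370560), (nat_lit 115, nat_lit 19580850240), (nat_lit 57, nat_lit 20654329920), (nat_lit 2, nat_lit 21727809600), (nat_lit 24, nat_lit 22801289280), (nat_lit 118, nat_lit 23874768960), (nat_lit 106, nat_lit 24948248640)]⟩,
   ⟨V6_18406707264, [(nat_lit 8, nat_lit 18507370560), (nat_lit 91, nat_lit 19564335168), (nat_lit 72, nat_lit 20621299776), (nat_lit 47, nat_lit 21678264384), (nat_lit 124, nat_lit 22735228992), (nat_lit 109, nat_lit 23792193600), (nat_lit 45, nat_lit 24849158208)]⟩,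
   ⟨V6_17349742656, [(nat_lit 87, nat_lit 18507370560), (nat_lit 100, nat_lit 19564335168), (nat_lit 7, nat_lit 20621299776), (nat_lit 80, nat_lit 21678264384), (nat_lit 44, nat_lit 22735228992), (nat_lit 95, nat_lit 23792193600)]⟩,
   ⟨V6_16309293120, [(nat_lit 9, nat_lit 18507370560), (nat_lit 95, nat_lit 19580850240), (nat_lit 44, nat_lit 19564335168), (nat_lit 100, nat_lit 20637814848), (nat_lit 96, nat_lit 20621299776), (nat_lit 38, nat_lit 21694779456), (nat_lit 66, nat_lit 21678264384), (nat_lit 94, nat_lit 22751744064)]⟩],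
  [W_18505797632, W_18489282560, W_18472767488, W_18472505408, W_17432317952, W_17415802880, W_16358838272, W_16358576192, W_16325546048]⟩
theorem C_18507370560 : chkRec R_18507370560 = true := by decide +kernel

noncomputable def R_18507374592 : Rec := ⟨nat_lit 18507374592, nat_lit 137,
  [⟨V6_18423484416, [(nat_lit 66, nat_lit 18507374592), (nat_lit 92, nat_lit 19581112320), (nat_lit 117, nat_lit 19564339200), (nat_lit 93, nat_lit 20638076928), (nat_lit 126, nat_lit 20621303808), (nat_lit 41, nat_lit 21695041536), (nat_lit 53, nat_lit 21678268416), (nat_lit 60, nat_lit 22752006144), (nat_lit 116, nat_lit 22735233024), (nat_lit 94, nat_lit 23808970752), (nat_lit 91, nat_lit 23792197632), (nat_lit 107, nat_lit 24865935360)]⟩,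
   ⟨V6_16359358464, [(nat_lit 123, nat_lit 18507374592), (nat_lit 22, nat_lit 19581112320), (nat_lit 44, nat_lit 19580854272), (nat_lit 93, nat_lit 20654850048), (nat_lit 44, nat_lit 20654592000), (nat_lit 10, nat_lit 20654333952), (nat_lit 68, nat_lit 21728329728), (nat_lit 101, nat_lit 21728071680), (nat_lit 22, nat_lit 22801809408)]⟩,
   ⟨V6_16326328320, [(nat_lit 1, nat_lit 18507374592), (nat_lit 89, nat_lit 19581112320), (nat_lit 46, nat_lit 19564339200), (nat_lit 107, nat_lit 20654850048), (nat_lit 29, nat_lit 20638076928), (nat_lit 4, nat_lit 20621303808), (nat_lit 84, nat_lit 21711814656), (nat_lit 81, nat_lit 21695041536), (nat_lit 49, nat_lit 22768779264)]⟩,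
   ⟨V6_16292782080, [(nat_lit 112, nat_lit 18507374592), (nat_lit 15, nat_lit 19564339200), (nat_lit 118, nat_lit 20621303808), (nat_lit 3, nat_lit 21678268416), (nat_lit 54, nat_lit 22735233024)]⟩],
  [W_18506055680, W_18505797632, W_18489540608, W_18489282560, W_18489024512, W_18472767488, W_18472509440, W_18389934080, W_17432576000, W_17432317952, W_17432059904, W_17416060928, W_17415802880, W_17415544832, W_16358580224]⟩
theorem C_18507374592 : chkRec R_18507374592 = true := by decide +kernel

noncomputable def R_18507632640 : Rec := ⟨nat_lit 18507632640, nat_lit 84,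
  [⟨V6_18423742464, [(nat_lit 58, nat_lit 18507632640), (nat_lit 28, nat_lit 19581370368), (nat_lit 11, nat_lit 19564597248), (nat_lit 15, nat_lit 20638334976), (nat_lit 115, nat_lit 20621561856), (nat_lit 65, nat_lit 21695299584), (nat_lit 47, nat_lit 21678526464), (nat_lit 111, nat_lit 22752264192), (nat_lit 76, nat_lit 22735491072), (nat_lit 80, nat_lit 23809228800), (nat_lit 120, nat_lit 23792455680), (nat_lit 54, nat_lit 24866193408)]⟩,
   ⟨V6_18423484416, [(nat_lit 34, nat_lit 18507632640), (nat_lit 39, nat_lit 19581112320), (nat_lit 72, nat_lit 19564597248), (nat_lit 4, nat_lit 20638076928), (nat_lit 18, nat_lit 20621561856), (nat_lit 99, nat_lit 21695041536), (nat_lit 109, nat_lit 21678526464), (nat_lit 8, nat_lit 22752006144), (nat_lit 55, nat_lit 22735491072), (nat_lit 68, nat_lit 23808970752), (nat_lit 93, nat_lit 23792455680), (nat_lit 52, nat_lit 24865935360)]⟩,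
   ⟨V6_16359358464, [(nat_lit 20, nat_lit 18507632640), (nat_lit 31, nat_lit 19581370368), (nat_lit 117, nat_lit 19581112320), (nat_lit 74, nat_lit 20654850048), (nat_lit 64, nat_lit 20654592000), (nat_lit 118, nat_lit 21728329728), (nat_lit 38, nat_lit 21728071680), (nat_lit 32, nat_lit 22801809408)]⟩,
   ⟨V6_16326328320, [(nat_lit 5, nat_lit 18507632640), (nat_lit 99, nat_lit 19581370368), (nat_lit 75, nat_lit 19581112320), (nat_lit 65, nat_lit 19564597248), (nat_lit 51, nat_lit 20654850048), (nat_lit 34, nat_lit 20638334976), (nat_lit 19, nat_lit 20638076928), (nat_lit 108, nat_lit 20621561856), (nat_lit 36, nat_lit 21711814656), (nat_lit 55, nat_lit 21695299584), (nat_lit 50, nat_lit 21695041536), (nat_lit 125, nat_lit 22768779264)]⟩],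
  [W_18506055680, W_18505797632, W_18489540608, W_18489282560, W_18472767488, W_17432576000, W_17432317952, W_17415802880, W_16359096320, W_16358838272]⟩
theorem C_18507632640 : chkRec R_18507632640 = true := by decide +kernel

noncomputable def R_18507890688 : Rec := ⟨nat_lit 18507890688, nat_lit 31,
  [⟨V6_18423742464, [(nat_lit 125, nat_lit 18507890688), (nat_lit 13, nat_lit 19581370368), (nat_lit 104, nat_lit 19564855296), (nat_lit 5, nat_lit 20638334976), (nat_lit 34, nat_lit 20621819904), (nat_lit 117, nat_lit 21695299584), (nat_lit 81, nat_lit 21678784512), (nat_lit 124, nat_lit 22752264192), (nat_lit 117, nat_lit 22735749120), (nat_lit 11, nat_lit 23809228800), (nat_lit 82, nat_lit 23792713728), (nat_lit 66, nat_lit 24866193408)]⟩,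
   ⟨V6_17350262784, [(nat_lit 55, nat_lit 18507890688), (nat_lit 53, nat_lit 19564855296), (nat_lit 38, nat_lit 20621819904), (nat_lit 17, nat_lit 21678784512), (nat_lit 3, nat_lit 22735749120), (nat_lit 44, nat_lit 23792713728)]⟩,
   ⟨V6_16359358464, [(nat_lit 117, nat_lit 18507890688), (nat_lit 28, nat_lit 19581370368), (nat_lit 108, nat_lit 20654850048), (nat_lit 73, nat_lit 21728329728), (nat_lit 69, nat_lit 22801809408)]⟩],
  [W_18506055680, W_18489540608, W_17432576000, W_17416060928]⟩
theorem C_18507890688 : chkRec R_18507890688 = true := by decide +kernel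

noncomputable def R_18522841218 : Rec := ⟨nat_lit 18522841218, nat_lit 1,
  [⟨V6_17381990529, [(nat_lit 78, nat_lit 18522841218), (nat_lit 58, nat_lit 19596583041), (nat_lit 116, nat_lit 19579805826), (nat_lit 75, nat_lit 20653547649), (nat_lit 5, nat_lit 20636770434), (nat_lit 97, nat_lit 21710512257), (nat_lit 109, nat_lit 21693735042), (nat_lit 89, nat_lit 22767476865), (nat_lit 54, nat_lit 22750699650), (nat_lit 34, nat_lit 23824441473)]⟩],
  [W_17398505600]⟩
theorem C_18522841218 : chkRec R_18522841218 = true := by decide +kernel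

noncomputable def R_18522845313 : Rec := ⟨nat_lit 18522845313, nat_lit 4,
  [⟨V6_17381990529, [(nat_lit 17, nat_lit 18522845313), (nat_lit 67, nat_lit 19596583041), (nat_lit 100, nat_lit 19579809921), (nat_lit 122, nat_lit 20653547649), (nat_lit 92, nat_lit 20636774529), (nat_lit 48, nat_lit 21710512257), (nat_lit 103, nat_lit 21693739137), (nat_lit 30, nat_lit 22767476865), (nat_lit 89, nat_lit 22750703745), (nat_lit 110, nat_lit 23824441473)]⟩],
  [W_18438959168]⟩
theorem C_18522845313 : chkRec R_18522845313 = true := by decide +kernel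

noncomputable def R_18522845376 : Rec := ⟨nat_lit 18522845376, nat_lit 2,
  [⟨V6_17365217472, [(nat_lit 78, nat_lit 18522845376), (nat_lit 124, nat_lit 19579809984), (nat_lit 3, nat_lit 20636774592), (nat_lit 49, nat_lit 21693739200), (nat_lit 26, nat_lit 22750703808), (nat_lit 87, nat_lit 23807668416)]⟩],
  [W_18455736320]⟩
theorem C_18522845376 : chkRec R_18522845376 = true := by decide +kernel

noncomputable def R_18523103361 : Rec := ⟨nat_lit 18523103361, nat_lit 11,
  [⟨V6_18439217217, [(nat_lit 8, nat_lit 18523103361), (nat_lit 29, nat_lit 19596845121), (nat_lit 39, nat_lit 19580067969), (nat_lit 19, nat_lit 20653809729), (nat_lit 45, nat_lit 20637032577), (nat_lit 122, nat_lit 21710774337), (nat_lit 114, nat_lit 21693997185), (nat_lit 95, nat_lit 22767738945), (nat_lit 126, nat_lit 22750961793), (nat_lit 86, nat_lit 23824703553), (nat_lit 8, nat_lit 23807926401), (nat_lit 82, nat_lit 24881668161)]⟩],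
  [W_18472247360, W_18455470208, W_17415282752, W_17381990528]⟩
theorem C_18523103361 : chkRec R_18523103361 = true := by decide +kernel

noncomputable def R_18523107393 : Rec := ⟨nat_lit 18523107393, nat_lit 13,
  [⟨V6_18439217217, [(nat_lit 47, nat_lit 18523107393), (nat_lit 88, nat_lit 19596845121), (nat_lit 101, nat_lit 19580072001), (nat_lit 103, nat_lit 20653809729), (nat_lit 69, nat_lit 20637036609), (nat_lit 29, nat_lit 21710774337), (nat_lit 91, nat_lit 21694001217), (nat_lit 68, nat_lit 22767738945), (nat_lit 48, nat_lit 22750965825), (nat_lit 73, nat_lit 23824703553), (nat_lit 25, nat_lit 23807930433), (nat_lit 53, nat_lit 24881668161)]⟩],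
  [W_18472505408, W_17399025728, W_17381994560]⟩
theorem C_18523107393 : chkRec R_18523107393 = true := by decide +kernel

noncomputable def R_18523107456 : Rec := ⟨nat_lit 18523107456, nat_lit 32,
  [⟨V6_18455998464, [(nat_lit 9, nat_lit 18523107456), (nat_lit 31, nat_lit 19596849216), (nat_lit 18, nat_lit 19580072064), (nat_lit 92, nat_lit 20670590976), (nat_lit 19, nat_lit 20653813824), (nat_lit 5, nat_lit 20637036672), (nat_lit 105, nat_lit 21727555584), (nat_lit 67, nat_lit 21710778432), (nat_lit 76, nat_lit 21694001280), (nat_lit 9, nat_lit 22784520192), (nat_lit 109, nat_lit 22767743040), (nat_lit 121, nat_lit 22750965888), (nat_lit 107, nat_lit 23841484800), (nat_lit 102, nat_lit 23824707648), (nat_lit 39, nat_lit 24898449408)]⟩],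
  [W_18472509440, W_18438955136, W_18422440064, W_17415544832, W_17381990528]⟩
theorem C_18523107456 : chkRec R_18523107456 = true := by decide +kernel

noncomputable def R_18523111488 : Rec := ⟨nat_lit 18523111488, nat_lit 34,
  [⟨V6_17365483584, [(nat_lit 31, nat_lit 18523111488), (nat_lit 33, nat_lit 19580076096), (nat_lit 94, nat_lit 20637040704), (nat_lit 96, nat_lit 21694005312), (nat_lit 95, nat_lit 22750969920), (nat_lit 59, nat_lit 23807934528)]⟩],
  [W_18472767488, W_18455990336, W_17415802880, W_17399025728]⟩
theorem C_18523111488 : chkRec R_18523111488 = true := by decide +kernel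

noncomputable def R_18523365441 : Rec := ⟨nat_lit 18523365441, nat_lit 18,
  [⟨V6_18439217217, [(nat_lit 56, nat_lit 18523365441), (nat_lit 57, nat_lit 19596845121), (nat_lit 80, nat_lit 19580330049), (nat_lit 116, nat_lit 20653809729), (nat_lit 100, nat_lit 20637294657), (nat_lit 88, nat_lit 21710774337), (nat_lit 39, nat_lit 21694259265), (nat_lit 77, nat_lit 22767738945), (nat_lit 116, nat_lit 22751223873), (nat_lit 79, nat_lit 23824703553), (nat_lit 101, nat_lit 23808188481), (nat_lit 125, nat_lit 24881668161)]⟩,
   ⟨V6_17382510657, [(nat_lit 7, nat_lit 18523365441), (nat_lit 7, nat_lit 19597103169), (nat_lit 43, nat_lit 19580330049), (nat_lit 86, nat_lit 20654067777), (nat_lit 118, nat_lit 20637294657), (nat_lit 8, nat_lit 21711032385), (nat_lit 22, nat_lit 21694259265), (nat_lit 20, nat_lit 22767996993), (nat_lit 97, nat_lit 22751223873), (nat_lit 74, nat_lit 23824961601)]⟩],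
  [W_18472505408, W_18472247360, W_17432055872, W_17415282752, W_17398767680]⟩
theorem C_18523365441 : chkRec R_18523365441 = true := by decide +kernel

noncomputable def R_18523365504 : Rec := ⟨nat_lit 18523365504, nat_lit 38,
  [⟨V6_17365737600, [(nat_lit 84, nat_lit 18523365504), (nat_lit 114, nat_lit 19580330112), (nat_lit 13, nat_lit 20637294720), (nat_lit 43, nat_lit 21694259328), (nat_lit 28, nat_lit 22751223936), (nat_lit 123, nat_lit 23808188544)]⟩],
  [W_18489024512, W_18472509440, W_18472247360, W_17432059904, W_17399029760]⟩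
theorem C_18523365504 : chkRec R_18523365504 = true := by decide +kernel

noncomputable def R_18523369536 : Rec := ⟨nat_lit 18523369536, nat_lit 72,
  [⟨V6_18456256512, [(nat_lit 74, nat_lit 18523369536), (nat_lit 103, nat_lit 19597111296), (nat_lit 11, nat_lit 19597107264), (nat_lit 103, nat_lit 19580334144), (nat_lit 8, nat_lit 20670849024), (nat_lit 17, nat_lit 20654075904), (nat_lit 116, nat_lit 20654071872), (nat_lit 100, nat_lit 20637298752), (nat_lit 106, nat_lit 21727813632), (nat_lit 107, nat_lit 21711040512), (nat_lit 96, nat_lit 21711036480), (nat_lit 79, nat_lit 21694263360), (nat_lit 80, nat_lit 22784778240), (nat_lit 70, nat_lit 22768005120), (nat_lit 85, nat_lit 22768001088), (nat_lit 68, nat_lit 22751227968), (nat_lit 57, nat_lit 23841742848), (nat_lit 77, nat_lit 23824969728), (nat_lit 91, nat_lit 23824965696), (nat_lit 69, nat_lit 24898707456)]⟩],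
  [W_18489282560, W_18472767488, W_18472505408, W_18439221248, W_18438959168, W_17432317952, W_17415802880, W_17399025728]⟩
theorem C_18523369536 : chkRec R_18523369536 = true := by decide +kernel

noncomputable def R_18523373568 : Rec := ⟨nat_lit 18523373568, nat_lit 58,
  [⟨V6_18439225344, [(nat_lit 48, nat_lit 18523373568), (nat_lit 67, nat_lit 19596853248), (nat_lit 123, nat_lit 19580338176), (nat_lit 45, nat_lit 20653817856), (nat_lit 122, nat_lit 20637302784), (nat_lit 21, nat_lit 21710782464), (nat_lit 106, nat_lit 21694267392), (nat_lit 66, nat_lit 22767747072), (nat_lit 45, nat_lit 22751232000), (nat_lit 104, nat_lit 23824711680), (nat_lit 14, nat_lit 23808196608), (nat_lit 89, nat_lit 24881676288)]⟩,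
   ⟨V6_17382260736, [(nat_lit 98, nat_lit 18523373568), (nat_lit 124, nat_lit 19596853248), (nat_lit 56, nat_lit 19580338176), (nat_lit 39, nat_lit 20653817856), (nat_lit 35, nat_lit 20637302784), (nat_lit 98, nat_lit 21710782464), (nat_lit 10, nat_lit 21694267392), (nat_lit 27, nat_lit 22767747072), (nat_lit 64, nat_lit 22751232000), (nat_lit 114, nat_lit 23824711680)]⟩],
  [W_18489540608, W_18472767488, W_17416060928, W_17382256640]⟩
theorem C_18523373568 : chkRec R_18523373568 = true := by decide +kernel

noncomputable def R_18523623489 : Rec := ⟨nat_lit 18523623489, nat_lit 9,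
  [⟨V6_17365995585, [(nat_lit 56, nat_lit 18523623489), (nat_lit 76, nat_lit 19580588097), (nat_lit 51, nat_lit 20637552705), (nat_lit 71, nat_lit 21694517313), (nat_lit 61, nat_lit 22751481921), (nat_lit 82, nat_lit 23808446529)]⟩],
  [W_18505535552, W_18489020480, W_18472505408, W_17432055872]⟩
theorem C_18523623489 : chkRec R_18523623489 = true := by decide +kernel

noncomputable def R_18523627584 : Rec := ⟨nat_lit 18523627584, nat_lit 85,
  [⟨V6_17382776832, [(nat_lit 39, nat_lit 18523627584), (nat_lit 29, nat_lit 19597369344), (nat_lit 58, nat_lit 19580592192), (nat_lit 101, nat_lit 20654333952), (nat_lit 66, nat_lit 20637556800), (nat_lit 112, nat_lit 21711298560), (nat_lit 118, nat_lit 21694521408), (nat_lit 108, nat_lit 22768263168), (nat_lit 27, nat_lit 22751486016), (nat_lit 17, nat_lit 23825227776)]⟩],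
  [W_18505797632, W_18489024512, W_18489020480, W_18472767488, W_18472509440, W_18472505408, W_18472247360, W_18455990336, W_17448833024, W_17415802880, W_17415540800, W_17399025728]⟩
theorem C_18523627584 : chkRec R_18523627584 = true := by decide +kernel

noncomputable def R_18523631616 : Rec := ⟨nat_lit 18523631616, nat_lit 92,
  [⟨V6_17449353216, [(nat_lit 40, nat_lit 18523631616), (nat_lit 116, nat_lit 19597369344), (nat_lit 7, nat_lit 19597111296), (nat_lit 42, nat_lit 20671107072), (nat_lit 86, nat_lit 20670849024), (nat_lit 104, nat_lit 20670590976), (nat_lit 17, nat_lit 21744844800), (nat_lit 114, nat_lit 21744586752), (nat_lit 113, nat_lit 21744328704), (nat_lit 105, nat_lit 22818324480), (nat_lit 44, nat_lit 22818066432), (nat_lit 45, nat_lit 23891804160)]⟩,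
   ⟨V6_17366003712, [(nat_lit 20, nat_lit 18523631616), (nat_lit 9, nat_lit 19580596224), (nat_lit 118, nat_lit 20637560832), (nat_lit 107, nat_lit 21694525440), (nat_lit 49, nat_lit 22751490048), (nat_lit 120, nat_lit 23808454656)]⟩],
  [W_18489540608, W_18489282560, W_18472767488, W_18472509440, W_17449091072, W_17432576000, W_17432317952, W_17416060928, W_17415544832]⟩
theorem C_18523631616 : chkRec R_18523631616 = true := by decide +kernel

noncomputable def R_18523885632 : Rec := ⟨nat_lit 18523885632, nat_lit 46,
  [⟨V6_18522574848, [(nat_lit 80, nat_lit 18523885632), (nat_lit 44, nat_lit 19597627392), (nat_lit 34, nat_lit 19597365312), (nat_lit 121, nat_lit 20671107072), (nat_lit 3, nat_lit 20670844992), (nat_lit 13, nat_lit 21744586752), (nat_lit 56, nat_lit 21744324672), (nat_lit 21, nat_lit 22818066432), (nat_lit 32, nat_lit 22817804352), (nat_lit 76, nat_lit 23891546112), (nat_lit 112, nat_lit 23891284032), (nat_lit 89, nat_lit 24965025792)]⟩,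
   ⟨V6_18423222336, [(nat_lit 32, nat_lit 18523885632), (nat_lit 126, nat_lit 19580850240), (nat_lit 113, nat_lit 20637814848), (nat_lit 125, nat_lit 21694779456), (nat_lit 33, nat_lit 22751744064), (nat_lit 54, nat_lit 23808708672), (nat_lit 8, nat_lit 24865673280)]⟩],
  [W_18472767488, W_17432317952, W_17432055872, W_17415802880, W_17399025728]⟩
theorem C_18523885632 : chkRec R_18523885632 = true := by decide +kernel

noncomputable def R_18523889664 : Rec := ⟨nat_lit 18523889664, nat_lit 95,
  [⟨V6_18423226368, [(nat_lit 68, nat_lit 18523889664), (nat_lit 109, nat_lit 19580854272), (nat_lit 2, nat_lit 20637818880), (nat_lit 91, nat_lit 21694783488), (nat_lit 86, nat_lit 22751748096), (nat_lit 83, nat_lit 23808712704), (nat_lit 17, nat_lit 24865677312)]⟩,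
   ⟨V6_17449353216, [(nat_lit 23, nat_lit 18523889664), (nat_lit 73, nat_lit 19597627392), (nat_lit 98, nat_lit 19597369344), (nat_lit 3, nat_lit 20671365120), (nat_lit 109, nat_lit 20671107072), (nat_lit 111, nat_lit 20670849024), (nat_lit 46, nat_lit 21744844800), (nat_lit 86, nat_lit 21744586752), (nat_lit 117, nat_lit 21744328704), (nat_lit 86, nat_lit 22818324480), (nat_lit 15, nat_lit 22818066432), (nat_lit 95, nat_lit 23891804160)]⟩],
  [W_18506055680, W_18505797632, W_18489540608, W_18489282560, W_18489024512, W_18472767488, W_17449091072, W_17448833024, W_17432317952, W_17416060928, W_17415802880]⟩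
theorem C_18523889664 : chkRec R_18523889664 = true := by decide +kernel

noncomputable def R_18524147712 : Rec := ⟨nat_lit 18524147712, nat_lit 66,
  [⟨V6_18522574848, [(nat_lit 42, nat_lit 18524147712), (nat_lit 23, nat_lit 19597627392), (nat_lit 113, nat_lit 20671107072), (nat_lit 102, nat_lit 21744586752), (nat_lit 81, nat_lit 22818066432), (nat_lit 49, nat_lit 23891546112), (nat_lit 72, nat_lit 24965025792)]⟩,
   ⟨V6_18423484416, [(nat_lit 64, nat_lit 18524147712), (nat_lit 125, nat_lit 19581112320), (nat_lit 99, nat_lit 20638076928), (nat_lit 123, nat_lit 21695041536), (nat_lit 66, nat_lit 22752006144), (nat_lit 108, nat_lit 23808970752), (nat_lit 16, nat_lit 24865935360)]⟩,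
   ⟨V6_17449353216, [(nat_lit 74, nat_lit 18524147712), (nat_lit 81, nat_lit 19597885440), (nat_lit 40, nat_lit 19597627392), (nat_lit 18, nat_lit 20671365120), (nat_lit 62, nat_lit 20671107072), (nat_lit 115, nat_lit 21744844800), (nat_lit 1, nat_lit 21744586752), (nat_lit 30, nat_lit 22818324480), (nat_lit 48, nat_lit 22818066432), (nat_lit 103, nat_lit 23891804160)]⟩],
  [W_18472767488, W_18456510464, W_17416060928, W_17415802880]⟩
theorem C_18524147712 : chkRec R_18524147712 = true := by decide +kernel

noncomputable def R_18524405760 : Rec := ⟨nat_lit 18524405760, nat_lit 27,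
  [⟨V6_18522832896, [(nat_lit 28, nat_lit 18524405760), (nat_lit 32, nat_lit 19597885440), (nat_lit 96, nat_lit 20671365120), (nat_lit 87, nat_lit 21744844800), (nat_lit 46, nat_lit 22818324480), (nat_lit 15, nat_lit 23891804160), (nat_lit 81, nat_lit 24965283840)]⟩,
   ⟨V6_18423742464, [(nat_lit 76, nat_lit 18524405760), (nat_lit 77, nat_lit 19581370368), (nat_lit 62, nat_lit 20638334976), (nat_lit 27, nat_lit 21695299584), (nat_lit 126, nat_lit 22752264192), (nat_lit 33, nat_lit 23809228800), (nat_lit 19, nat_lit 24866193408)]⟩,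
   ⟨V6_17449353216, [(nat_lit 73, nat_lit 18524405760), (nat_lit 117, nat_lit 19597885440), (nat_lit 59, nat_lit 20671365120), (nat_lit 38, nat_lit 21744844800), (nat_lit 20, nat_lit 22818324480), (nat_lit 5, nat_lit 23891804160)]⟩],
  [W_18456510464, W_17432576000]⟩
theorem C_18524405760 : chkRec R_18524405760 = true := by decide +kernel

noncomputable def R_18539618433 : Rec := ⟨nat_lit 18539618433, nat_lit 3,
  [⟨V6_18472247424, [(nat_lit 102, nat_lit 18539618433), (nat_lit 73, nat_lit 19613360256), (nat_lit 73, nat_lit 19613098113), (nat_lit 56, nat_lit 19596583041), (nat_lit 69, nat_lit 20686839936), (nat_lit 21, nat_lit 20670324864), (nat_lit 58, nat_lit 20670062721), (nat_lit 124, nat_lit 20653547649), (nat_lit 106, nat_lit 21743804544), (nat_lit 8, nat_lit 21727289472), (nat_lit 34, nat_lit 21727027329), (nat_lit 88, nat_lit 21710512257), (nat_lit 89, nat_lit 22800769152), (nat_lit 19, nat_lit 22784254080), (nat_lit 47, nat_lit 22783991937), (nat_lit 59, nat_lit 22767476865), (nat_lit 33, nat_lit 23857733760), (nat_lit 109, nat_lit 23841218688),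 (nat_lit 83, nat_lit 23840956545), (nat_lit 113, nat_lit 24914698368)]⟩],
  [W_18472247360]⟩
theorem C_18539618433 : chkRec R_18539618433 = true := by decide +kernel

noncomputable def R_18539622465 : Rec := ⟨nat_lit 18539622465, nat_lit 1,
  [⟨V6_18472505409, [(nat_lit 34, nat_lit 18539622465), (nat_lit 100, nat_lit 19613360193), (nat_lit 114, nat_lit 19596587073), (nat_lit 101, nat_lit 20687097921), (nat_lit 58, nat_lit 20670324801), (nat_lit 74, nat_lit 20653551681), (nat_lit 42, nat_lit 21744062529), (nat_lit 112, nat_lit 21727289409), (nat_lit 121, nat_lit 21710516289), (nat_lit 79, nat_lit 22801027137), (nat_lit 77, nat_lit 22784254017), (nat_lit 60, nat_lit 22767480897), (nat_lit 57, nat_lit 23857991745), (nat_lit 125, nat_lit 23841218625), (nat_lit 101, nat_lit 24914956353)]⟩],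
  [W_18438959168]⟩
theorem C_18539622465 : chkRec R_18539622465 = true := by decide +kernel

noncomputable def R_18539622528 : Rec := ⟨nat_lit 18539622528, nat_lit 6,
  [⟨V6_18455732352, [(nat_lit 121, nat_lit 18539622528), (nat_lit 33, nat_lit 19613360256), (nat_lit 8, nat_lit 19596587136), (nat_lit 39, nat_lit 20670324864), (nat_lit 62, nat_lit 20653551744), (nat_lit 35, nat_lit 21727289472), (nat_lit 118, nat_lit 21710516352), (nat_lit 45, nat_lit 22784254080), (nat_lit 41, nat_lit 22767480960), (nat_lit 44, nat_lit 23841218688), (nat_lit 12, nat_lit 23824445568), (nat_lit 119, nat_lit 24898183296)]⟩],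
  [W_18455736320]⟩
theorem C_18539622528 : chkRec R_18539622528 = true := by decide +kernel

noncomputable def R_18539880513 : Rec := ⟨nat_lit 18539880513, nat_lit 7,
  [⟨V6_18439217217, [(nat_lit 94, nat_lit 18539880513), (nat_lit 99, nat_lit 19596845121), (nat_lit 89, nat_lit 20653809729), (nat_lit 38, nat_lit 21710774337), (nat_lit 28, nat_lit 22767738945), (nat_lit 33, nat_lit 23824703553), (nat_lit 86, nat_lit 24881668161)]⟩],
  [W_18489020480, W_18472505408]⟩
theorem C_18539880513 : chkRec R_18539880513 = true := by decide +kernel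

noncomputable def R_18539880576 : Rec := ⟨nat_lit 18539880576, nat_lit 11,
  [⟨V6_18472247424, [(nat_lit 72, nat_lit 18539880576), (nat_lit 85, nat_lit 19613360256), (nat_lit 35, nat_lit 19596845184), (nat_lit 13, nat_lit 20686839936), (nat_lit 75, nat_lit 20670324864), (nat_lit 28, nat_lit 20653809792), (nat_lit 97, nat_lit 21743804544), (nat_lit 15, nat_lit 21727289472), (nat_lit 26, nat_lit 21710774400), (nat_lit 35, nat_lit 22800769152), (nat_lit 80, nat_lit 22784254080), (nat_lit 107, nat_lit 22767739008), (nat_lit 89, nat_lit 23857733760), (nat_lit 91, nat_lit 23841218688), (nat_lit 65, nat_lit 24914698368)]⟩,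
   ⟨V6_18455732352, [(nat_lit 104, nat_lit 18539880576), (nat_lit 87, nat_lit 19613360256), (nat_lit 48, nat_lit 19596845184), (nat_lit 10, nat_lit 20670324864), (nat_lit 19, nat_lit 20653809792), (nat_lit 42, nat_lit 21727289472), (nat_lit 56, nat_lit 21710774400), (nat_lit 58, nat_lit 22784254080), (nat_lit 61, nat_lit 22767739008), (nat_lit 71, nat_lit 23841218688), (nat_lit 101, nat_lit 23824703616), (nat_lit 48, nat_lit 24898183296)]⟩],
  [W_18472509440]⟩
theorem C_18539880576 : chkRec R_18539880576 = true := by decide +kernel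

noncomputable def R_18539884608 : Rec := ⟨nat_lit 18539884608, nat_lit 24,
  [⟨V6_18455998464, [(nat_lit 19, nat_lit 18539884608), (nat_lit 29, nat_lit 19613626368), (nat_lit 77, nat_lit 19596849216), (nat_lit 54, nat_lit 20670590976), (nat_lit 108, nat_lit 20653813824), (nat_lit 118, nat_lit 21727555584), (nat_lit 101, nat_lit 21710778432), (nat_lit 29, nat_lit 22784520192), (nat_lit 119, nat_lit 22767743040), (nat_lit 96, nat_lit 23841484800), (nat_lit 24, nat_lit 23824707648), (nat_lit 1, nat_lit 24898449408)]⟩],
  [W_18489282560, W_18472505408, W_18455990336, W_18438959168]⟩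
theorem C_18539884608 : chkRec R_18539884608 = true := by decide +kernel

noncomputable def R_18539888640 : Rec := ⟨nat_lit 18539888640, nat_lit 11,
  [⟨V6_18439225344, [(nat_lit 14, nat_lit 18539888640), (nat_lit 85, nat_lit 19596853248), (nat_lit 70, nat_lit 20653817856), (nat_lit 57, nat_lit 21710782464), (nat_lit 42, nat_lit 22767747072), (nat_lit 113, nat_lit 23824711680), (nat_lit 2, nat_lit 24881676288)]⟩],
  [W_18472767488]⟩
theorem C_18539888640 : chkRec R_18539888640 = true := by decide +kernel

noncomputable def R_18540138561 : Rec := ⟨nat_lit 18540138561, nat_lit 5,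
  [⟨V6_18439475265, [(nat_lit 66, nat_lit 18540138561), (nat_lit 56, nat_lit 19597103169), (nat_lit 76, nat_lit 20654067777), (nat_lit 51, nat_lit 21711032385), (nat_lit 71, nat_lit 22767996993), (nat_lit 61, nat_lit 23824961601), (nat_lit 82, nat_lit 24881926209)]⟩],
  [W_18472505408]⟩
theorem C_18540138561 : chkRec R_18540138561 = true := by decide +kernel

noncomputable def R_18540142656 : Rec := ⟨nat_lit 18540142656, nat_lit 32,
  [⟨V6_18456252480, [(nat_lit 24, nat_lit 18540142656), (nat_lit 85, nat_lit 19613880384), (nat_lit 56, nat_lit 19597107264), (nat_lit 56, nat_lit 20670844992), (nat_lit 90, nat_lit 20654071872), (nat_lit 53, nat_lit 21727809600), (nat_lit 55, nat_lit 21711036480), (nat_lit 64, nat_lit 22784774208), (nat_lit 49, nat_lit 22768001088), (nat_lit 33, nat_lit 23841738816), (nat_lit 14, nat_lit 23824965696), (nat_lit 84, nat_lit 24898703424)]⟩],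
  [W_18505797632, W_18489282560, W_18489024512, W_18472509440]⟩
theorem C_18540142656 : chkRec R_18540142656 = true := by decide +kernel

noncomputable def R_18540146688 : Rec := ⟨nat_lit 18540146688, nat_lit 35,
  [⟨V6_18455998464, [(nat_lit 100, nat_lit 18540146688), (nat_lit 37, nat_lit 19613626368), (nat_lit 102, nat_lit 19597111296), (nat_lit 85, nat_lit 20670590976), (nat_lit 22, nat_lit 20654075904), (nat_lit 38, nat_lit 21727555584), (nat_lit 109, nat_lit 21711040512), (nat_lit 102, nat_lit 22784520192), (nat_lit 13, nat_lit 22768005120), (nat_lit 124, nat_lit 23841484800), (nat_lit 7, nat_lit 23824969728), (nat_lit 72, nat_lit 24898449408)]⟩],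
  [W_18489540608, W_18489282560, W_18472509440]⟩
theorem C_18540146688 : chkRec R_18540146688 = true := by decide +kernel

noncomputable def R_18540400704 : Rec := ⟨nat_lit 18540400704, nat_lit 22,
  [⟨V6_18439737408, [(nat_lit 67, nat_lit 18540400704), (nat_lit 53, nat_lit 19597365312), (nat_lit 81, nat_lit 20654329920), (nat_lit 46, nat_lit 21711294528), (nat_lit 74, nat_lit 22768259136), (nat_lit 60, nat_lit 23825223744), (nat_lit 64, nat_lit 24882188352)]⟩],
  [W_18505797632, W_18472767488]⟩
theorem C_18540400704 : chkRec R_18540400704 = true := by decide +kernel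

noncomputable def R_18540404736 : Rec := ⟨nat_lit 18540404736, nat_lit 38,
  [⟨V6_18439741440, [(nat_lit 83, nat_lit 18540404736), (nat_lit 5, nat_lit 19597369344), (nat_lit 34, nat_lit 20654333952), (nat_lit 93, nat_lit 21711298560), (nat_lit 122, nat_lit 22768263168), (nat_lit 44, nat_lit 23825227776), (nat_lit 30, nat_lit 24882192384)]⟩],
  [W_18489282560, W_18489024512, W_18456510464]⟩
theorem C_18540404736 : chkRec R_18540404736 = true := by decide +kernel

noncomputable def R_18540662784 : Rec := ⟨nat_lit 18540662784, nat_lit 32,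
  [⟨V6_18439999488, [(nat_lit 30, nat_lit 18540662784), (nat_lit 37, nat_lit 19597627392), (nat_lit 23, nat_lit 20654592000), (nat_lit 104, nat_lit 21711556608), (nat_lit 90, nat_lit 22768521216), (nat_lit 97, nat_lit 23825485824), (nat_lit 95, nat_lit 24882450432)]⟩],
  [W_18489282560, W_18456510464]⟩
theorem C_18540662784 : chkRec R_18540662784 = true := by decide +kernel

noncomputable def R_18540920832 : Rec := ⟨nat_lit 18540920832, nat_lit 12,
  [⟨V6_18456772608, [(nat_lit 2, nat_lit 18540920832), (nat_lit 52, nat_lit 19614400512), (nat_lit 58, nat_lit 19597885440), (nat_lit 39, nat_lit 20671365120), (nat_lit 74, nat_lit 20654850048), (nat_lit 5, nat_lit 21728329728), (nat_lit 9, nat_lit 21711814656), (nat_lit 32, nat_lit 22785294336), (nat_lit 112, nat_lit 22768779264), (nat_lit 2, nat_lit 23842258944), (nat_lit 77, nat_lit 23825743872), (nat_lit 25, nat_lit 24899223552)]⟩],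
  [W_18456510464]⟩
theorem C_18540920832 : chkRec R_18540920832 = true := by decide +kernel

noncomputable def R_19429605636 : Rec := ⟨nat_lit 19429605636, nat_lit 1,
  [⟨V6_12987154692, [(nat_lit 110, nat_lit 19429605636)]⟩],
  [W_18355339520]⟩
theorem C_19429605636 : chkRec R_19429605636 = true := by decide +kernel

noncomputable def R_19429613826 : Rec := ⟨nat_lit 19429613826, nat_lit 3,
  [⟨V6_12987162882, [(nat_lit 38, nat_lit 19429613826)]⟩],
  [W_18355863680]⟩
theorem C_19429613826 : chkRec R_19429613826 = true := by decide +kernel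

noncomputable def R_19429613889 : Rec := ⟨nat_lit 19429613889, nat_lit 1,
  [⟨V6_14060904768, [(nat_lit 70, nat_lit 19429613889), (nat_lit 9, nat_lit 20503355712)]⟩],
  [W_18355867712]⟩
theorem C_19429613889 : chkRec R_19429613889 = true := by decide +kernel

noncomputable def R_19429613952 : Rec := ⟨nat_lit 19429613952, nat_lit 4,
  [⟨V6_19429613568, [(nat_lit 124, nat_lit 19429613952), (nat_lit 2, nat_lit 20503355712), (nat_lit 87, nat_lit 21577097472), (nat_lit 104, nat_lit 22650839232), (nat_lit 91, nat_lit 23724580992), (nat_lit 50, nat_lit 24798322752), (nat_lit 44, nat_lit 25872064512)]⟩,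
   ⟨V6_14060904768, [(nat_lit 102, nat_lit 19429613952), (nat_lit 61, nat_lit 20503355712)]⟩],
  [W_18355871744, W_11913421184]⟩
theorem C_19429613952 : chkRec R_19429613952 = true := by decide +kernel

noncomputable def R_19446382851 : Rec := ⟨nat_lit 19446382851, nat_lit 2,
  [⟨V6_16207855875, [(nat_lit 113, nat_lit 19446382851), (nat_lit 78, nat_lit 20519862531), (nat_lit 78, nat_lit 20503347459), (nat_lit 44, nat_lit 21593342211), (nat_lit 110, nat_lit 21576827139), (nat_lit 104, nat_lit 22650306819)]⟩,
   ⟨V6_14060896515, [(nat_lit 57, nat_lit 19446382851), (nat_lit 67, nat_lit 20503347459)]⟩],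
  [W_16225157312]⟩
theorem C_19446382851 : chkRec R_19446382851 = true := by decide +kernel

noncomputable def R_19446386883 : Rec := ⟨nat_lit 19446386883, nat_lit 1,
  [⟨V6_15134642370, [(nat_lit 111, nat_lit 19446386883), (nat_lit 53, nat_lit 20520128706), (nat_lit 99, nat_lit 20503351491), (nat_lit 66, nat_lit 21577093314)]⟩],
  [W_18372374720]⟩
theorem C_19446386883 : chkRec R_19446386883 = true := by decide +kernel

noncomputable def R_19446386946 : Rec := ⟨nat_lit 19446386946, nat_lit 3,
  [⟨V6_15134638338, [(nat_lit 37, nat_lit 19446386946), (nat_lit 85, nat_lit 20520124674), (nat_lit 79, nat_lit 20503351554), (nat_lit 54, nat_lit 21577089282)]⟩],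
  [W_18372378752, W_17298636992]⟩
theorem C_19446386946 : chkRec R_19446386946 = true := by decide +kernel

noncomputable def R_19446387009 : Rec := ⟨nat_lit 19446387009, nat_lit 1,
  [⟨V6_15151157505, [(nat_lit 116, nat_lit 19446387009), (nat_lit 10, nat_lit 20520128769), (nat_lit 38, nat_lit 20519866689), (nat_lit 117, nat_lit 21593608449)]⟩],
  [W_18355867712]⟩
theorem C_19446387009 : chkRec R_19446387009 = true := by decide +kernel

noncomputable def R_19446390978 : Rec := ⟨nat_lit 19446390978, nat_lit 5,
  [⟨V6_14060904642, [(nat_lit 117, nat_lit 19446390978), (nat_lit 64, nat_lit 20503355586)]⟩,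
   ⟨V6_13003940034, [(nat_lit 93, nat_lit 19446390978)]⟩],
  [W_19429601408, W_18372636800, W_17298895040]⟩
theorem C_19446390978 : chkRec R_19446390978 = true := by decide +kernel

noncomputable def R_19446391041 : Rec := ⟨nat_lit 19446391041, nat_lit 8,
  [⟨V6_16225165377, [(nat_lit 117, nat_lit 19446391041), (nat_lit 17, nat_lit 20520132801), (nat_lit 88, nat_lit 21593874561), (nat_lit 71, nat_lit 22667616321)]⟩,
   ⟨V6_15134646465, [(nat_lit 116, nat_lit 19446391041), (nat_lit 58, nat_lit 20520132801), (nat_lit 60, nat_lit 20503355649), (nat_lit 49, nat_lit 21577097409)]⟩],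
  [W_19429605440, W_18372640832, W_16208380160]⟩
theorem C_19446391041 : chkRec R_19446391041 = true := by decide +kernel

noncomputable def R_19446391104 : Rec := ⟨nat_lit 19446391104, nat_lit 6,
  [⟨V6_15134646528, [(nat_lit 45, nat_lit 19446391104), (nat_lit 101, nat_lit 20520132864), (nat_lit 84, nat_lit 20503355712), (nat_lit 20, nat_lit 21577097472)]⟩],
  [W_19429609472, W_18372644864]⟩
theorem C_19446391104 : chkRec R_19446391104 = true := by decide +kernel

noncomputable def R_19446644931 : Rec := ⟨nat_lit 19446644931, nat_lit 2,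
  [⟨V6_15151677633, [(nat_lit 121, nat_lit 19446644931), (nat_lit 118, nat_lit 20520386754), (nat_lit 41, nat_lit 21594128577)]⟩],
  [W_18372374720, W_18372116672]⟩
theorem C_19446644931 : chkRec R_19446644931 = true := by decide +kernel

noncomputable def R_19446644994 : Rec := ⟨nat_lit 19446644994, nat_lit 2,
  [⟨V6_15151677633, [(nat_lit 25, nat_lit 19446644994), (nat_lit 41, nat_lit 20520386817), (nat_lit 20, nat_lit 20520386754), (nat_lit 75, nat_lit 21594128577)]⟩],
  [W_19445858432]⟩
theorem C_19446644994 : chkRec R_19446644994 = true := by decide +kernel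

noncomputable def R_19446649026 : Rec := ⟨nat_lit 19446649026, nat_lit 4,
  [⟨V6_14077939905, [(nat_lit 95, nat_lit 19446649026), (nat_lit 81, nat_lit 20520390849)]⟩],
  [W_18372636800, W_18372374720]⟩
theorem C_19446649026 : chkRec R_19446649026 = true := by decide +kernel

noncomputable def R_19446649089 : Rec := ⟨nat_lit 19446649089, nat_lit 5,
  [⟨V6_14077939905, [(nat_lit 106, nat_lit 19446649089), (nat_lit 1, nat_lit 20520390849)]⟩],
  [W_19446120512, W_18372382784, W_18372378752]⟩
theorem C_19446649089 : chkRec R_19446649089 = true := by decide +kernel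

noncomputable def R_19446649152 : Rec := ⟨nat_lit 19446649152, nat_lit 3,
  [⟨V6_14077939968, [(nat_lit 89, nat_lit 19446649152), (nat_lit 110, nat_lit 20520390912)]⟩],
  [W_18372644864]⟩
theorem C_19446649152 : chkRec R_19446649152 = true := by decide +kernel

noncomputable def R_19446653058 : Rec := ⟨nat_lit 19446653058, nat_lit 1,
  [⟨V6_14077939842, [(nat_lit 42, nat_lit 19446653058), (nat_lit 69, nat_lit 20520390786)]⟩],
  [W_19446374528]⟩
theorem C_19446653058 : chkRec R_19446653058 = true := by decide +kernel

noncomputable def R_19446653121 : Rec := ⟨nat_lit 19446653121, nat_lit 8,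
  [⟨V6_15151685697, [(nat_lit 64, nat_lit 19446653121), (nat_lit 31, nat_lit 20520394881), (nat_lit 91, nat_lit 21594136641)]⟩,
   ⟨V6_14077939905, [(nat_lit 16, nat_lit 19446653121), (nat_lit 117, nat_lit 20520390849)]⟩],
  [W_19446378560, W_18372640832]⟩
theorem C_19446653121 : chkRec R_19446653121 = true := by decide +kernel

noncomputable def R_19446653184 : Rec := ⟨nat_lit 19446653184, nat_lit 8,
  [⟨V6_17299169280, [(nat_lit 10, nat_lit 19446653184), (nat_lit 100, nat_lit 20520394944), (nat_lit 63, nat_lit 21594136704), (nat_lit 91, nat_lit 22667878464), (nat_lit 2, nat_lit 23741620224)]⟩,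
   ⟨V6_14077939968, [(nat_lit 106, nat_lit 19446653184), (nat_lit 29, nat_lit 20520390912)]⟩],
  [W_19446382592, W_18372902912, W_15151415552]⟩
theorem C_19446653184 : chkRec R_19446653184 = true := by decide +kernel

noncomputable def R_19446657153 : Rec := ⟨nat_lit 19446657153, nat_lit 1,
  [⟨V6_14077948032, [(nat_lit 14, nat_lit 19446657153), (nat_lit 78, nat_lit 20520398976)]⟩],
  [W_19446636608]⟩
theorem C_19446657153 : chkRec R_19446657153 = true := by decide +kernel

noncomputable def R_19446657216 : Rec := ⟨nat_lit 19446657216, nat_lit 4,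
  [⟨V6_14077944000, [(nat_lit 114, nat_lit 19446657216), (nat_lit 84, nat_lit 20520394944)]⟩],
  [W_19446640640, W_18372902912]⟩
theorem C_19446657216 : chkRec R_19446657216 = true := by decide +kernel

noncomputable def R_19462635780 : Rec := ⟨nat_lit 19462635780, nat_lit 1,
  [⟨V6_17248043268, [(nat_lit 80, nat_lit 19462635780), (nat_lit 14, nat_lit 20519600388), (nat_lit 62, nat_lit 21576564996), (nat_lit 28, nat_lit 22633529604), (nat_lit 96, nat_lit 23690494212)]⟩],
  [W_18355339520]⟩
theorem C_19462635780 : chkRec R_19462635780 = true := by decide +kernel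

noncomputable def R_19462897923 : Rec := ⟨nat_lit 19462897923, nat_lit 2,
  [⟨V6_19412304129, [(nat_lit 71, nat_lit 19462897923), (nat_lit 71, nat_lit 20536639746), (nat_lit 66, nat_lit 20536377603), (nat_lit 73, nat_lit 20519862531), (nat_lit 56, nat_lit 21610381569), (nat_lit 37, nat_lit 21610119426), (nat_lit 12, nat_lit 21593604354), (nat_lit 57, nat_lit 21593342211), (nat_lit 44, nat_lit 21576827139), (nat_lit 20, nat_lit 22683861249), (nat_lit 61, nat_lit 22667346177), (nat_lit 75, nat_lit 22667084034), (nat_lit 38, nat_lit 22650568962), (nat_lit 43, nat_lit 22650306819), (nat_lit 80, nat_lit 22633791747), (nat_lit 120, nat_lit 23740825857), (nat_lit 117, nat_lit 23724310785), (nat_lit 37, nat_lit 23724048642), (nat_lit 84, nat_lit 23707533570), (nat_lit 85, nat_lit 23707271427), (nat_lit 32, nat_lit 24797790465), (nat_lit 109, nat_lit 24781275393), (nat_lit 89, nat_lit 24781013250), (nat_lit 26, nat_lit 25854755073)]⟩,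
   ⟨V6_16207855875, [(nat_lit 46, nat_lit 19462897923), (nat_lit 78, nat_lit 20536377603), (nat_lit 8, nat_lit 20519862531), (nat_lit 73, nat_lit 21593342211), (nat_lit 94, nat_lit 21576827139), (nat_lit 72, nat_lit 22650306819)]⟩],
  [W_16241672384]⟩
theorem C_19462897923 : chkRec R_19462897923 = true := by decide +kernel

noncomputable def R_19462901955 : Rec := ⟨nat_lit 19462901955, nat_lit 1,
  [⟨V6_14094192834, [(nat_lit 8, nat_lit 19462901955), (nat_lit 85, nat_lit 20536643778)]⟩],
  [W_18372374720]⟩
theorem C_19462901955 : chkRec R_19462901955 = true := by decide +kernel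

noncomputable def R_19462902018 : Rec := ⟨nat_lit 19462902018, nat_lit 1,
  [⟨V6_14094192834, [(nat_lit 18, nat_lit 19462902018), (nat_lit 108, nat_lit 20536643778)]⟩],
  [W_19429343360]⟩
theorem C_19462902018 : chkRec R_19462902018 = true := by decide +kernel

noncomputable def R_19463160003 : Rec := ⟨nat_lit 19463160003, nat_lit 2,
  [⟨V6_18355859649, [(nat_lit 26, nat_lit 19463160003), (nat_lit 54, nat_lit 20536901826), (nat_lit 117, nat_lit 20536897731), (nat_lit 95, nat_lit 20520124611), (nat_lit 43, nat_lit 21610643649), (nat_lit 67, nat_lit 21610639554), (nat_lit 5, nat_lit 21593866434), (nat_lit 95, nat_lit 21593862339), (nat_lit 118, nat_lit 21577089219), (nat_lit 29, nat_lit 22684381377), (nat_lit 56, nat_lit 22667608257), (nat_lit 85, nat_lit 22667604162), (nat_lit 74, nat_lit 22650831042), (nat_lit 70, nat_lit 22650826947), (nat_lit 118, nat_lit 23741345985), (nat_lit 67, nat_lit 23724572865), (nat_lit 51, nat_lit 23724568770), (nat_lit 52, nat_lit 24798310593)]⟩,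
   ⟨V6_16241668290, [(nat_lit 76, nat_lit 19463160003), (nat_lit 31, nat_lit 20536901826), (nat_lit 87, nat_lit 20536897731), (nat_lit 61, nat_lit 20536639683), (nat_lit 117, nat_lit 21610639554), (nat_lit 72, nat_lit 21610381506), (nat_lit 9, nat_lit 21610377411), (nat_lit 64, nat_lit 22684119234)]⟩],
  [W_19429081280, W_18372374720]⟩
theorem C_19463160003 : chkRec R_19463160003 = true := by decide +kernel

noncomputable def R_19463160066 : Rec := ⟨nat_lit 19463160066, nat_lit 11,
  [⟨V6_17315152065, [(nat_lit 48, nat_lit 19463160066), (nat_lit 5, nat_lit 20536901889), (nat_lit 80, nat_lit 20536901826), (nat_lit 108, nat_lit 20536639746), (nat_lit 57, nat_lit 21610643649), (nat_lit 73, nat_lit 21610381569), (nat_lit 65, nat_lit 21610381506), (nat_lit 27, nat_lit 21610119426), (nat_lit 19, nat_lit 22684123329), (nat_lit 124, nat_lit 22683861249), (nat_lit 54, nat_lit 22683861186), (nat_lit 25, nat_lit 23757603009)]⟩,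
   ⟨V6_16208380161, [(nat_lit 19, nat_lit 19463160066), (nat_lit 73, nat_lit 20536901889), (nat_lit 6, nat_lit 20520124674), (nat_lit 80, nat_lit 21593866497), (nat_lit 27, nat_lit 21577089282), (nat_lit 47, nat_lit 22650831105)]⟩,
   ⟨V6_15134638338, [(nat_lit 33, nat_lit 19463160066), (nat_lit 25, nat_lit 20520124674), (nat_lit 90, nat_lit 21577089282)]⟩],
  [W_19445858432, W_19429081280, W_18355863680, W_18355339520, W_17298899072]⟩
theorem C_19463160066 : chkRec R_19463160066 = true := by decide +kernel

noncomputable def R_19463164098 : Rec := ⟨nat_lit 19463164098, nat_lit 9,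
  [⟨V6_17282126016, [(nat_lit 35, nat_lit 19463164098), (nat_lit 44, nat_lit 20536905921), (nat_lit 64, nat_lit 20520128706), (nat_lit 23, nat_lit 21610647744), (nat_lit 47, nat_lit 21593870529), (nat_lit 98, nat_lit 21577093314), (nat_lit 106, nat_lit 22667612352), (nat_lit 126, nat_lit 22650835137), (nat_lit 120, nat_lit 23724576960)]⟩,
   ⟨V6_15151419522, [(nat_lit 57, nat_lit 19463164098), (nat_lit 38, nat_lit 20536905858), (nat_lit 38, nat_lit 20520128706), (nat_lit 17, nat_lit 21593870466)]⟩],
  [W_19446116480, W_19429601408, W_18389151872, W_18372374720, W_16241930432]⟩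
theorem C_19463164098 : chkRec R_19463164098 = true := by decide +kernel

noncomputable def R_19463164161 : Rec := ⟨nat_lit 19463164161, nat_lit 15,
  [⟨V6_17282125953, [(nat_lit 91, nat_lit 19463164161), (nat_lit 71, nat_lit 20536905921), (nat_lit 15, nat_lit 20520128769), (nat_lit 75, nat_lit 21610647681), (nat_lit 15, nat_lit 21593870529), (nat_lit 90, nat_lit 21577093377), (nat_lit 104, nat_lit 22667612289), (nat_lit 20, nat_lit 22650835137), (nat_lit 71, nat_lit 23724576897)]⟩,
   ⟨V6_16208384256, [(nat_lit 78, nat_lit 19463164161), (nat_lit 3, nat_lit 20536905984), (nat_lit 2, nat_lit 20520128769), (nat_lit 21, nat_lit 21593870592), (nat_lit 94, nat_lit 21577093377), (nat_lit 31, nat_lit 22650835200)]⟩,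
   ⟨V6_16208384193, [(nat_lit 70, nat_lit 19463164161), (nat_lit 14, nat_lit 20536905921), (nat_lit 105, nat_lit 20520128769), (nat_lit 77, nat_lit 21593870529), (nat_lit 4, nat_lit 21577093377), (nat_lit 11, nat_lit 22650835137)]⟩,
   ⟨V6_16208380161, [(nat_lit 101, nat_lit 19463164161), (nat_lit 121, nat_lit 20536901889), (nat_lit 67, nat_lit 20520128769), (nat_lit 10, nat_lit 21593866497), (nat_lit 109, nat_lit 21577093377), (nat_lit 54, nat_lit 22650831105)]⟩],
  [W_19446120512, W_19429343360, W_18372640832, W_18372382784, W_17315418176, W_15167930624]⟩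
theorem C_19463164161 : chkRec R_19463164161 = true := by decide +kernel

noncomputable def R_19463164224 : Rec := ⟨nat_lit 19463164224, nat_lit 6,
  [⟨V6_16208384256, [(nat_lit 43, nat_lit 19463164224), (nat_lit 100, nat_lit 20536905984), (nat_lit 46, nat_lit 20520128832), (nat_lit 94, nat_lit 21593870592), (nat_lit 61, nat_lit 21577093440), (nat_lit 79, nat_lit 22650835200)]⟩,
   ⟨V6_14077677888, [(nat_lit 39, nat_lit 19463164224), (nat_lit 44, nat_lit 20520128832)]⟩],
  [W_19429609472, W_18389159936, W_18372382784]⟩
theorem C_19463164224 : chkRec R_19463164224 = true := by decide +kernel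

noncomputable def R_19463168130 : Rec := ⟨nat_lit 19463168130, nat_lit 11,
  [⟨V6_17282125953, [(nat_lit 64, nat_lit 19463168130), (nat_lit 94, nat_lit 20536909953), (nat_lit 12, nat_lit 20536905858), (nat_lit 122, nat_lit 20520132738), (nat_lit 78, nat_lit 21610647681), (nat_lit 37, nat_lit 21593874561), (nat_lit 126, nat_lit 21593870466), (nat_lit 9, nat_lit 21577097346), (nat_lit 123, nat_lit 22667612289), (nat_lit 91, nat_lit 22650839169), (nat_lit 56, nat_lit 22650835074), (nat_lit 49, nat_lit 23724576897)]⟩,
   ⟨V6_15134646402, [(nat_lit 19, nat_lit 19463168130), (nat_lit 126, nat_lit 20520132738), (nat_lit 98, nat_lit 21577097346)]⟩,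
   ⟨V6_14077681794, [(nat_lit 73, nat_lit 19463168130), (nat_lit 27, nat_lit 20520132738)]⟩],
  [W_19446374528, W_19429601408, W_18389409920, W_16208388224]⟩
theorem C_19463168130 : chkRec R_19463168130 = true := by decide +kernel

noncomputable def R_19463168193 : Rec := ⟨nat_lit 19463168193, nat_lit 19,
  [⟨V6_16225165440, [(nat_lit 104, nat_lit 19463168193), (nat_lit 50, nat_lit 20536910016), (nat_lit 13, nat_lit 20536909953), (nat_lit 65, nat_lit 20520132801), (nat_lit 11, nat_lit 21610651776), (nat_lit 54, nat_lit 21593874624), (nat_lit 103, nat_lit 21593874561), (nat_lit 44, nat_lit 22667616384)]⟩,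
   ⟨V6_16208384193, [(nat_lit 88, nat_lit 19463168193), (nat_lit 94, nat_lit 20536905921), (nat_lit 65, nat_lit 20520132801), (nat_lit 101, nat_lit 21593870529), (nat_lit 97, nat_lit 21577097409), (nat_lit 77, nat_lit 22650835137)]⟩],
  [W_19429601408, W_18389413952, W_18372640832, W_17282129984]⟩
theorem C_19463168193 : chkRec R_19463168193 = true := by decide +kernel

noncomputable def R_19463168256 : Rec := ⟨nat_lit 19463168256, nat_lit 30,
  [⟨V6_19429613568, [(nat_lit 124, nat_lit 19463168256), (nat_lit 53, nat_lit 20536910016), (nat_lit 54, nat_lit 20520132864), (nat_lit 14, nat_lit 21610651776), (nat_lit 58, nat_lit 21593874624), (nat_lit 105, nat_lit 21577097472), (nat_lit 95, nat_lit 22684393536), (nat_lit 35, nat_lit 22667616384), (nat_lit 116, nat_lit 22650839232), (nat_lit 80, nat_lit 23758135296), (nat_lit 46, nat_lit 23741358144), (nat_lit 45, nat_lit 23724580992), (nat_lit 66, nat_lit 24815099904), (nat_lit 86, nat_lit 24798322752), (nat_lit 37, nat_lit 25872064512)]⟩,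
   ⟨V6_17315684352, [(nat_lit 90, nat_lit 19463168256), (nat_lit 11, nat_lit 20536910016), (nat_lit 59, nat_lit 21610651776), (nat_lit 57, nat_lit 22684393536), (nat_lit 18, nat_lit 23758135296)]⟩],
  [W_19446382592, W_18389417984, W_17282121920, W_16208380160, W_15151415552, W_15134646464, W_14094450944]⟩
theorem C_19463168256 : chkRec R_19463168256 = true := by decide +kernel

noncomputable def R_19463422146 : Rec := ⟨nat_lit 19463422146, nat_lit 12,
  [⟨V6_16241668290, [(nat_lit 109, nat_lit 19463422146), (nat_lit 7, nat_lit 20537159874), (nat_lit 14, nat_lit 20536901826), (nat_lit 29, nat_lit 21610639554), (nat_lit 75, nat_lit 21610381506), (nat_lit 92, nat_lit 22684119234)]⟩,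
   ⟨V6_16225415361, [(nat_lit 60, nat_lit 19463422146), (nat_lit 65, nat_lit 20537163969), (nat_lit 29, nat_lit 20537159874), (nat_lit 118, nat_lit 20520386754), (nat_lit 121, nat_lit 21610901697), (nat_lit 121, nat_lit 21594128577), (nat_lit 71, nat_lit 21594124482), (nat_lit 90, nat_lit 22667866305)]⟩,
   ⟨V6_15151677633, [(nat_lit 90, nat_lit 19463422146), (nat_lit 24, nat_lit 20537163969), (nat_lit 101, nat_lit 20520386754), (nat_lit 55, nat_lit 21594128577)]⟩],
  [W_19445858432, W_18389151872, W_18388893824, W_18372374720]⟩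
theorem C_19463422146 : chkRec R_19463422146 = true := by decide +kernel

noncomputable def R_19463422209 : Rec := ⟨nat_lit 19463422209, nat_lit 17,
  [⟨V6_17299161153, [(nat_lit 73, nat_lit 19463422209), (nat_lit 52, nat_lit 20537163969), (nat_lit 76, nat_lit 20520386817), (nat_lit 28, nat_lit 21610905729), (nat_lit 86, nat_lit 21594128577), (nat_lit 7, nat_lit 22684647489), (nat_lit 110, nat_lit 22667870337), (nat_lit 8, nat_lit 23741612097)]⟩,
   ⟨V6_15151677633, [(nat_lit 72, nat_lit 19463422209), (nat_lit 8, nat_lit 20537163969), (nat_lit 79, nat_lit 20520386817), (nat_lit 51, nat_lit 21594128577)]⟩],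
  [W_19462635584, W_18372116672, W_17298374912, W_16242196544, W_13020971264]⟩
theorem C_19463422209 : chkRec R_19463422209 = true := by decide +kernel

noncomputable def R_19463426178 : Rec := ⟨nat_lit 19463426178, nat_lit 11,
  [⟨V6_17315930241, [(nat_lit 75, nat_lit 19463426178), (nat_lit 78, nat_lit 20537168001), (nat_lit 69, nat_lit 20537163906), (nat_lit 43, nat_lit 21610905729), (nat_lit 71, nat_lit 21610901634), (nat_lit 51, nat_lit 22684643457), (nat_lit 93, nat_lit 22684639362), (nat_lit 32, nat_lit 23758381185)]⟩],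
  [W_19462889600, W_19446374528, W_19446116480, W_18372378752, W_17299157120, W_16241676416]⟩
theorem C_19463426178 : chkRec R_19463426178 = true := by decide +kernel

noncomputable def R_19463426241 : Rec := ⟨nat_lit 19463426241, nat_lit 27,
  [⟨V6_16225415361, [(nat_lit 7, nat_lit 19463426241), (nat_lit 102, nat_lit 20537163969), (nat_lit 112, nat_lit 20520390849), (nat_lit 101, nat_lit 21610901697), (nat_lit 49, nat_lit 21594128577), (nat_lit 26, nat_lit 22667866305)]⟩,
   ⟨V6_15151681728, [(nat_lit 102, nat_lit 19463426241), (nat_lit 72, nat_lit 20537168064), (nat_lit 39, nat_lit 20520390849), (nat_lit 30, nat_lit 21594132672)]⟩,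
   ⟨V6_15151677633, [(nat_lit 31, nat_lit 19463426241), (nat_lit 108, nat_lit 20537163969), (nat_lit 118, nat_lit 20520390849), (nat_lit 80, nat_lit 21594128577)]⟩,
   ⟨V6_14077939905, [(nat_lit 55, nat_lit 19463426241), (nat_lit 36, nat_lit 20520390849)]⟩],
  [W_19462893632, W_19446378560, W_19446120512, W_19446116480, W_18372898880, W_18372382784, W_18372374720, W_17315934272, W_16225415360]⟩
theorem C_19463426241 : chkRec R_19463426241 = true := by decide +kernel

noncomputable def R_19463426304 : Rec := ⟨nat_lit 19463426304, nat_lit 32,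
  [⟨V6_17315942400, [(nat_lit 22, nat_lit 19463426304), (nat_lit 93, nat_lit 20537168064), (nat_lit 37, nat_lit 21610909824), (nat_lit 124, nat_lit 22684651584), (nat_lit 106, nat_lit 23758393344)]⟩],
  [W_19462897664, W_19446382592, W_19446120512, W_18372644864, W_18372640832, W_18372382784, W_14094450944]⟩
theorem C_19463426304 : chkRec R_19463426304 = true := by decide +kernel

noncomputable def R_19463430273 : Rec := ⟨nat_lit 19463430273, nat_lit 28,
  [⟨V6_18389409921, [(nat_lit 46, nat_lit 19463430273), (nat_lit 110, nat_lit 20537168001), (nat_lit 45, nat_lit 20536909953), (nat_lit 15, nat_lit 21610905729), (nat_lit 22, nat_lit 21610647681), (nat_lit 78, nat_lit 22684643457), (nat_lit 51, nat_lit 22684385409), (nat_lit 97, nat_lit 23758381185), (nat_lit 100, nat_lit 23758123137), (nat_lit 56, nat_lit 24831860865)]⟩,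
   ⟨V6_17315930241, [(nat_lit 22, nat_lit 19463430273), (nat_lit 119, nat_lit 20537168001), (nat_lit 107, nat_lit 21610905729), (nat_lit 124, nat_lit 22684643457), (nat_lit 14, nat_lit 23758381185)]⟩,
   ⟨V6_15151685697, [(nat_lit 101, nat_lit 19463430273), (nat_lit 25, nat_lit 20537172033), (nat_lit 78, nat_lit 20520394881), (nat_lit 59, nat_lit 21594136641)]⟩],
  [W_19463151680, W_19446378560, W_18372640832, W_15168200768, W_13020979328]⟩
theorem C_19463430273 : chkRec R_19463430273 = true := by decide +kernel

noncomputable def R_19463430336 : Rec := ⟨nat_lit 19463430336, nat_lit 45,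
  [⟨V6_17315684352, [(nat_lit 96, nat_lit 19463430336), (nat_lit 50, nat_lit 20537172096), (nat_lit 32, nat_lit 20536910016), (nat_lit 111, nat_lit 21610913856), (nat_lit 126, nat_lit 21610651776), (nat_lit 81, nat_lit 22684655616), (nat_lit 96, nat_lit 22684393536), (nat_lit 105, nat_lit 23758135296)]⟩,
   ⟨V6_16242204672, [(nat_lit 107, nat_lit 19463430336), (nat_lit 48, nat_lit 20537172096), (nat_lit 70, nat_lit 21610913856), (nat_lit 4, nat_lit 22684655616)]⟩],
  [W_19463155712, W_19446640640, W_19446382592, W_19446378560, W_18389417984, W_18372640832, W_16225415360]⟩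
theorem C_19463430336 : chkRec R_19463430336 = true := by decide +kernel

noncomputable def R_19463434305 : Rec := ⟨nat_lit 19463434305, nat_lit 9,
  [⟨V6_15151685697, [(nat_lit 47, nat_lit 19463434305), (nat_lit 92, nat_lit 20537172033), (nat_lit 34, nat_lit 20520398913), (nat_lit 110, nat_lit 21594136641)]⟩,
   ⟨V6_14094725184, [(nat_lit 86, nat_lit 19463434305), (nat_lit 80, nat_lit 20537176128)]⟩],
  [W_18389672000]⟩
theorem C_19463434305 : chkRec R_19463434305 = true := by decide +kernel

noncomputable def R_19463434368 : Rec := ⟨nat_lit 19463434368, nat_lit 19,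
  [⟨V6_18389672064, [(nat_lit 108, nat_lit 19463434368), (nat_lit 40, nat_lit 20537172096), (nat_lit 57, nat_lit 21610909824), (nat_lit 2, nat_lit 22684647552), (nat_lit 112, nat_lit 23758385280), (nat_lit 123, nat_lit 24832123008)]⟩],
  [W_19463413760, W_16225427456, W_15168462848, W_14094725120, W_13020979328]⟩
theorem C_19463434368 : chkRec R_19463434368 = true := by decide +kernel

noncomputable def R_19463680194 : Rec := ⟨nat_lit 19463680194, nat_lit 2,
  [⟨V6_15168712896, [(nat_lit 113, nat_lit 19463680194), (nat_lit 114, nat_lit 20537422017), (nat_lit 110, nat_lit 21611163840)]⟩],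
  [W_19462631552]⟩
theorem C_19463680194 : chkRec R_19463680194 = true := by decide +kernel

noncomputable def R_19463684226 : Rec := ⟨nat_lit 19463684226, nat_lit 14,
  [⟨V6_17316192384, [(nat_lit 63, nat_lit 19463684226), (nat_lit 113, nat_lit 20537426049), (nat_lit 33, nat_lit 20537421954), (nat_lit 92, nat_lit 21611167872), (nat_lit 122, nat_lit 21611163777), (nat_lit 37, nat_lit 21611159682), (nat_lit 69, nat_lit 22684905600), (nat_lit 24, nat_lit 22684901505), (nat_lit 109, nat_lit 23758643328)]⟩],
  [W_19462889600, W_18388893824, W_15168454784]⟩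
theorem C_19463684226 : chkRec R_19463684226 = true := by decide +kernel

noncomputable def R_19463684289 : Rec := ⟨nat_lit 19463684289, nat_lit 20,
  [⟨V6_19462635585, [(nat_lit 15, nat_lit 19463684289), (nat_lit 15, nat_lit 20537426049), (nat_lit 53, nat_lit 20537163969), (nat_lit 69, nat_lit 21611167809), (nat_lit 25, nat_lit 21610905729), (nat_lit 83, nat_lit 21610643649), (nat_lit 12, nat_lit 22684647489), (nat_lit 30, nat_lit 22684385409), (nat_lit 88, nat_lit 22684123329), (nat_lit 2, nat_lit 23758127169), (nat_lit 1, nat_lit 23757865089), (nat_lit 104, nat_lit 23757603009), (nat_lit 32, nat_lit 24831606849), (nat_lit 79, nat_lit 24831344769), (nat_lit 51, nat_lit 25905086529)]⟩,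
   ⟨V6_18388889793, [(nat_lit 30, nat_lit 19463684289), (nat_lit 37, nat_lit 20537422017), (nat_lit 54, nat_lit 20537163969), (nat_lit 117, nat_lit 21610901697), (nat_lit 13, nat_lit 21610643649), (nat_lit 126, nat_lit 22684381377), (nat_lit 85, nat_lit 22684123329), (nat_lit 94, nat_lit 23757861057), (nat_lit 113, nat_lit 23757603009), (nat_lit 70, nat_lit 24831340737)]⟩,
   ⟨V6_17315152065, [(nat_lit 48, nat_lit 19463684289), (nat_lit 77, nat_lit 20537163969), (nat_lit 68, nat_lit 21610643649), (nat_lit 23, nat_lit 22684123329), (nat_lit 37, nat_lit 23757603009)]⟩,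
   ⟨V6_15168712896, [(nat_lit 21, nat_lit 19463684289), (nat_lit 126, nat_lit 20537426112), (nat_lit 58, nat_lit 20537422017), (nat_lit 45, nat_lit 21611163840)]⟩],
  [W_17315934272, W_16242454592, W_15168716864, W_15168712832, W_13021233344]⟩
theorem C_19463684289 : chkRec R_19463684289 = true := by decide +kernel

noncomputable def R_19463684352 : Rec := ⟨nat_lit 19463684352, nat_lit 28,
  [⟨V6_17316200448, [(nat_lit 100, nat_lit 19463684352), (nat_lit 111, nat_lit 20537426112), (nat_lit 122, nat_lit 21611167872), (nat_lit 21, nat_lit 22684909632), (nat_lit 20, nat_lit 23758651392)]⟩],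
  [W_19462635584, W_18389417984, W_17315152064, W_16241410304, W_15167930624]⟩
theorem C_19463684352 : chkRec R_19463684352 = true := by decide +kernel

noncomputable def R_19463688321 : Rec := ⟨nat_lit 19463688321, nat_lit 30,
  [⟨V6_16242450561, [(nat_lit 29, nat_lit 19463688321), (nat_lit 53, nat_lit 20537426049), (nat_lit 114, nat_lit 21611163777), (nat_lit 97, nat_lit 22684901505)]⟩,
   ⟨V6_15168720960, [(nat_lit 28, nat_lit 19463688321), (nat_lit 105, nat_lit 20537430144), (nat_lit 95, nat_lit 20537430081), (nat_lit 94, nat_lit 21611171904)]⟩],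
  [W_19463151680, W_19462889600, W_18389413952, W_18389409920, W_17315418176]⟩
theorem C_19463688321 : chkRec R_19463688321 = true := by decide +kernel

noncomputable def R_19463688384 : Rec := ⟨nat_lit 19463688384, nat_lit 43,
  [⟨V6_17316200448, [(nat_lit 9, nat_lit 19463688384), (nat_lit 99, nat_lit 20537430144), (nat_lit 30, nat_lit 20537426112), (nat_lit 18, nat_lit 21611171904), (nat_lit 22, nat_lit 21611167872), (nat_lit 109, nat_lit 22684913664), (nat_lit 72, nat_lit 22684909632), (nat_lit 52, nat_lit 23758651392)]⟩,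
   ⟨V6_16242462720, [(nat_lit 67, nat_lit 19463688384), (nat_lit 17, nat_lit 20537430144), (nat_lit 83, nat_lit 21611171904), (nat_lit 12, nat_lit 22684913664)]⟩],
  [W_19463155712, W_19462897664, W_18389417984, W_17315934272]⟩
theorem C_19463688384 : chkRec R_19463688384 = true := by decide +kernel

noncomputable def R_19463692353 : Rec := ⟨nat_lit 19463692353, nat_lit 16,
  [⟨V6_15168720960, [(nat_lit 19, nat_lit 19463692353), (nat_lit 104, nat_lit 20537434176), (nat_lit 103, nat_lit 20537430081), (nat_lit 33, nat_lit 21611171904)]⟩],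
  [W_19463409728, W_19463151680, W_15168200768]⟩
theorem C_19463692353 : chkRec R_19463692353 = true := by decide +kernel

noncomputable def R_19463692416 : Rec := ⟨nat_lit 19463692416, nat_lit 60,
  [⟨V6_17315684352, [(nat_lit 15, nat_lit 19463692416), (nat_lit 17, nat_lit 20537434176), (nat_lit 20, nat_lit 20537172096), (nat_lit 44, nat_lit 21611175936), (nat_lit 62, nat_lit 21610913856), (nat_lit 21, nat_lit 21610651776), (nat_lit 93, nat_lit 22684655616), (nat_lit 99, nat_lit 22684393536), (nat_lit 42, nat_lit 23758135296)]⟩,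
   ⟨V6_16242204672, [(nat_lit 32, nat_lit 19463692416), (nat_lit 124, nat_lit 20537434176), (nat_lit 70, nat_lit 20537172096), (nat_lit 105, nat_lit 21611175936), (nat_lit 78, nat_lit 21610913856), (nat_lit 14, nat_lit 22684655616)]⟩,
   ⟨V6_15168724992, [(nat_lit 28, nat_lit 19463692416), (nat_lit 42, nat_lit 20537434176), (nat_lit 105, nat_lit 21611175936)]⟩],
  [W_19463413760, W_19463155712, W_19463151680, W_18389934080, W_17316192320, W_16242450560, W_14094983168]⟩
theorem C_19463692416 : chkRec R_19463692416 = true := by decide +kernel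

noncomputable def R_19463696448 : Rec := ⟨nat_lit 19463696448, nat_lit 30,
  [⟨V6_16242462720, [(nat_lit 107, nat_lit 19463696448), (nat_lit 109, nat_lit 20537438208), (nat_lit 94, nat_lit 20537434176), (nat_lit 107, nat_lit 21611175936), (nat_lit 70, nat_lit 21611171904), (nat_lit 9, nat_lit 22684913664)]⟩,
   ⟨V6_14094987264, [(nat_lit 33, nat_lit 19463696448), (nat_lit 103, nat_lit 20537438208)]⟩],
  [W_19463671808, W_19463409728, W_18389934080, W_18389672000]⟩
theorem C_19463696448 : chkRec R_19463696448 = true := by decide +kernel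

noncomputable def R_19463700480 : Rec := ⟨nat_lit 19463700480, nat_lit 14,
  [⟨V6_16242462720, [(nat_lit 23, nat_lit 19463700480), (nat_lit 114, nat_lit 20537438208), (nat_lit 18, nat_lit 21611175936), (nat_lit 59, nat_lit 22684913664)]⟩],
  [W_19463671808, W_18389934080]⟩
theorem C_19463700480 : chkRec R_19463700480 = true := by decide +kernel

noncomputable def R_19479412995 : Rec := ⟨nat_lit 19479412995, nat_lit 2,
  [⟨V6_19395526914, [(nat_lit 28, nat_lit 19479412995), (nat_lit 29, nat_lit 20553154818), (nat_lit 114, nat_lit 20536377603), (nat_lit 28, nat_lit 21610119426), (nat_lit 50, nat_lit 21593342211), (nat_lit 101, nat_lit 22667084034), (nat_lit 36, nat_lit 22650306819), (nat_lit 100, nat_lit 23724048642), (nat_lit 12, nat_lit 23707271427), (nat_lit 94, nat_lit 24781013250), (nat_lit 121, nat_lit 24764236035), (nat_lit 46, nat_lit 25837977858)]⟩,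
   ⟨V6_16207855875, [(nat_lit 104, nat_lit 19479412995), (nat_lit 67, nat_lit 20536377603), (nat_lit 40, nat_lit 21593342211), (nat_lit 108, nat_lit 22650306819)]⟩],
  [W_19429081280, W_16258187456]⟩
theorem C_19479412995 : chkRec R_19479412995 = true := by decide +kernel

noncomputable def R_19479675075 : Rec := ⟨nat_lit 19479675075, nat_lit 2,
  [⟨V6_18388889793, [(nat_lit 101, nat_lit 19479675075), (nat_lit 40, nat_lit 20553416898), (nat_lit 79, nat_lit 20553412803), (nat_lit 56, nat_lit 20553154755), (nat_lit 93, nat_lit 20536639683), (nat_lit 39, nat_lit 21627158721), (nat_lit 44, nat_lit 21627154626), (nat_lit 34, nat_lit 21626896578), (nat_lit 89, nat_lit 21626892483), (nat_lit 63, nat_lit 21610381506), (nat_lit 102, nat_lit 21610377411), (nat_lit 60, nat_lit 21610119363), (nat_lit 61, nat_lit 22700896449), (nat_lit 37, nat_lit 22700638401), (nat_lit 16, nat_lit 22700634306), (nat_lit 59, nat_lit 22684123329), (nat_lit 89, nat_lit 22684119234), (nat_lit 28, nat_lit 22683861186), (nat_lit 14, nat_lit 22683857091), (nat_lit 37, nat_lit 23774376129),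 (nat_lit 67, nat_lit 23757861057), (nat_lit 56, nat_lit 23757603009), (nat_lit 1, nat_lit 23757598914), (nat_lit 36, nat_lit 24831340737)]⟩],
  [W_19429081280, W_18372116672]⟩
theorem C_19479675075 : chkRec R_19479675075 = true := by decide +kernel

noncomputable def R_19479675138 : Rec := ⟨nat_lit 19479675138, nat_lit 6,
  [⟨V6_15184707840, [(nat_lit 111, nat_lit 19479675138), (nat_lit 94, nat_lit 20553416961), (nat_lit 35, nat_lit 21627158784)]⟩],
  [W_19429081280, W_18388893824, W_18355339520]⟩
theorem C_19479675138 : chkRec R_19479675138 = true := by decide +kernel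

noncomputable def R_19479679170 : Rec := ⟨nat_lit 19479679170, nat_lit 5,
  [⟨V6_17298641088, [(nat_lit 97, nat_lit 19479679170), (nat_lit 34, nat_lit 20553420993), (nat_lit 103, nat_lit 20536643778), (nat_lit 111, nat_lit 21627162816), (nat_lit 85, nat_lit 21610385601), (nat_lit 87, nat_lit 21593608386), (nat_lit 21, nat_lit 22684127424), (nat_lit 123, nat_lit 22667350209), (nat_lit 38, nat_lit 23741092032)]⟩],
  [W_18389151872, W_18372374720]⟩
theorem C_19479679170 : chkRec R_19479679170 = true := by decide +kernel

noncomputable def R_19479679233 : Rec := ⟨nat_lit 19479679233, nat_lit 6,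
  [⟨V6_15184707840, [(nat_lit 10, nat_lit 19479679233), (nat_lit 126, nat_lit 20553421056), (nat_lit 59, nat_lit 20553416961), (nat_lit 89, nat_lit 21627158784)]⟩],
  [W_19446120512, W_19429343360, W_17315418176]⟩
theorem C_19479679233 : chkRec R_19479679233 = true := by decide +kernel

noncomputable def R_19479679296 : Rec := ⟨nat_lit 19479679296, nat_lit 2,
  [⟨V6_19429347456, [(nat_lit 118, nat_lit 19479679296), (nat_lit 69, nat_lit 20553421056), (nat_lit 73, nat_lit 20536643904), (nat_lit 31, nat_lit 21627162816), (nat_lit 121, nat_lit 21610385664), (nat_lit 106, nat_lit 21593608512), (nat_lit 88, nat_lit 22700904576), (nat_lit 80, nat_lit 22684127424), (nat_lit 23, nat_lit 22667350272), (nat_lit 67, nat_lit 22650573120), (nat_lit 21, nat_lit 23757869184), (nat_lit 75, nat_lit 23741092032), (nat_lit 11, nat_lit 23724314880), (nat_lit 20, nat_lit 24814833792), (nat_lit 100, nat_lit 24798056640), (nat_lit 126, nat_lit 25871798400)]⟩],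
  [W_17332195328]⟩
theorem C_19479679296 : chkRec R_19479679296 = true := by decide +kernel

noncomputable def R_19479933123 : Rec := ⟨nat_lit 19479933123, nat_lit 1,
  [⟨V6_13037482179, [(nat_lit 103, nat_lit 19479933123)]⟩],
  [W_18372374720]⟩
theorem C_19479933123 : chkRec R_19479933123 = true := by decide +kernel

noncomputable def R_19479937218 : Rec := ⟨nat_lit 19479937218, nat_lit 18,
  [⟨V6_17331929280, [(nat_lit 94, nat_lit 19479937218), (nat_lit 77, nat_lit 20553679041), (nat_lit 57, nat_lit 20553416898), (nat_lit 66, nat_lit 21627420864), (nat_lit 105, nat_lit 21627158721), (nat_lit 112, nat_lit 21626896578), (nat_lit 37, nat_lit 22700900544), (nat_lit 5, nat_lit 22700638401), (nat_lit 75, nat_lit 23774380224)]⟩,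
   ⟨V6_16241668290, [(nat_lit 90, nat_lit 19479937218), (nat_lit 87, nat_lit 20553674946), (nat_lit 61, nat_lit 20553416898), (nat_lit 126, nat_lit 20536901826), (nat_lit 33, nat_lit 21627154626), (nat_lit 91, nat_lit 21610639554), (nat_lit 64, nat_lit 21610381506), (nat_lit 52, nat_lit 22684119234)]⟩],
  [W_19462631552, W_19446116480, W_19429601408, W_18405666944, W_18372636800, W_18372374720, W_18355863680, W_17282121920, W_16241930432]⟩
theorem C_19479937218 : chkRec R_19479937218 = true := by decide +kernel

noncomputable def R_19479937281 : Rec := ⟨nat_lit 19479937281, nat_lit 25,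
  [⟨V6_19429081344, [(nat_lit 120, nat_lit 19479937281), (nat_lit 79, nat_lit 20553679104), (nat_lit 64, nat_lit 20553416961), (nat_lit 57, nat_lit 20536901889), (nat_lit 51, nat_lit 21627158784), (nat_lit 77, nat_lit 21626896641), (nat_lit 125, nat_lit 21610643712), (nat_lit 90, nat_lit 21610381569), (nat_lit 32, nat_lit 21593866497), (nat_lit 96, nat_lit 22700638464), (nat_lit 70, nat_lit 22684123392), (nat_lit 23, nat_lit 22683861249), (nat_lit 21, nat_lit 22667608320), (nat_lit 117, nat_lit 22667346177), (nat_lit 35, nat_lit 22650831105), (nat_lit 75, nat_lit 23757603072), (nat_lit 78, nat_lit 23741088000), (nat_lit 81, nat_lit 23740825857), (nat_lit 41, nat_lit 23724572928), (nat_lit 123, nat_lit 23724310785), (nat_lit 71, nat_lit 24814567680), (nat_lit 70, nat_lit 24798052608), (nat_lit 119, nat_lit 24797790465), (nat_lit 90, nat_lit 25871532288)]⟩,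
   ⟨V6_18405670977, [(nat_lit 96, nat_lit 19479937281), (nat_lit 65, nat_lit 20553679041), (nat_lit 39, nat_lit 20553416961), (nat_lit 3, nat_lit 21627420801), (nat_lit 7, nat_lit 21627158721), (nat_lit 77, nat_lit 21626896641), (nat_lit 76, nat_lit 22701162561), (nat_lit 4, nat_lit 22700900481), (nat_lit 7, nat_lit 22700638401), (nat_lit 126, nat_lit 23774642241), (nat_lit 72, nat_lit 23774380161), (nat_lit 13, nat_lit 24848121921)]⟩,
   ⟨V6_16258187520, [(nat_lit 55, nat_lit 19479937281), (nat_lit 17, nat_lit 20553679104), (nat_lit 68, nat_lit 20553416961), (nat_lit 9, nat_lit 21627158784), (nat_lit 116, nat_lit 21626896641), (nat_lit 4, nat_lit 22700638464)]⟩],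
  [W_19462635584, W_19446120512, W_19429605440, W_19429343360, W_18372640832, W_18355863680, W_17282121920, W_16208380160, W_15167930624, W_15151415552, W_13037486336]⟩
theorem C_19479937281 : chkRec R_19479937281 = true := by decide +kernel

noncomputable def R_19479941250 : Rec := ⟨nat_lit 19479941250, nat_lit 17,
  [⟨V6_17298903168, [(nat_lit 57, nat_lit 19479941250), (nat_lit 37, nat_lit 20553683073), (nat_lit 71, nat_lit 20536905858), (nat_lit 5, nat_lit 21627424896), (nat_lit 29, nat_lit 21610647681), (nat_lit 76, nat_lit 21593870466), (nat_lit 49, nat_lit 22684389504), (nat_lit 33, nat_lit 22667612289), (nat_lit 4, nat_lit 23741354112)]⟩],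
  [W_19462889600, W_19429343360, W_18405924992, W_15184969856]⟩
theorem C_19479941250 : chkRec R_19479941250 = true := by decide +kernel

noncomputable def R_19479941313 : Rec := ⟨nat_lit 19479941313, nat_lit 36,
  [⟨V6_17298903168, [(nat_lit 117, nat_lit 19479941313), (nat_lit 76, nat_lit 20553683136), (nat_lit 117, nat_lit 20553683073), (nat_lit 53, nat_lit 20536905921), (nat_lit 22, nat_lit 21627424896), (nat_lit 7, nat_lit 21610647744), (nat_lit 87, nat_lit 21610647681), (nat_lit 99, nat_lit 21593870529), (nat_lit 30, nat_lit 22684389504), (nat_lit 16, nat_lit 22667612352), (nat_lit 22, nat_lit 22667612289), (nat_lit 4, nat_lit 23741354112)]⟩,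
   ⟨V6_16225161408, [(nat_lit 108, nat_lit 19479941313), (nat_lit 14, nat_lit 20553683136), (nat_lit 82, nat_lit 20536905921), (nat_lit 11, nat_lit 21610647744), (nat_lit 51, nat_lit 21593870529), (nat_lit 51, nat_lit 22667612352)]⟩],
  [W_19446120512, W_19446116480, W_19429605440, W_19429601408, W_18405929024, W_18389151872, W_18372640832, W_18372374720, W_16258453568]⟩
theorem C_19479941313 : chkRec R_19479941313 = true := by decide +kernel

noncomputable def R_19479941376 : Rec := ⟨nat_lit 19479941376, nat_lit 42,
  [⟨V6_18389422080, [(nat_lit 41, nat_lit 19479941376), (nat_lit 22, nat_lit 20553683136), (nat_lit 94, nat_lit 20536905984), (nat_lit 126, nat_lit 21627424896), (nat_lit 27, nat_lit 21610647744), (nat_lit 84, nat_lit 22701166656), (nat_lit 58, nat_lit 22684389504), (nat_lit 96, nat_lit 23774908416), (nat_lit 1, nat_lit 23758131264), (nat_lit 58, nat_lit 24831873024)]⟩,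
   ⟨V6_17282126016, [(nat_lit 6, nat_lit 19479941376), (nat_lit 57, nat_lit 20553683136), (nat_lit 43, nat_lit 20536905984), (nat_lit 36, nat_lit 21610647744), (nat_lit 72, nat_lit 21593870592), (nat_lit 32, nat_lit 22667612352), (nat_lit 125, nat_lit 22650835200), (nat_lit 39, nat_lit 23724576960)]⟩],
  [W_19462897664, W_19446382592, W_19429609472, W_18389417984, W_17332195328, W_16258453568, W_15167930624, W_14110970048, W_13037486336, W_11963748608]⟩
theorem C_19479941376 : chkRec R_19479941376 = true := by decide +kernel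

noncomputable def R_19479945345 : Rec := ⟨nat_lit 19479945345, nat_lit 34,
  [⟨V6_18406187136, [(nat_lit 83, nat_lit 19479945345), (nat_lit 89, nat_lit 20553687168), (nat_lit 49, nat_lit 20553683073), (nat_lit 7, nat_lit 21627424896), (nat_lit 42, nat_lit 21627420801), (nat_lit 86, nat_lit 22701162624), (nat_lit 4, nat_lit 22701158529), (nat_lit 68, nat_lit 23774900352), (nat_lit 44, nat_lit 23774896257), (nat_lit 2, nat_lit 24848638080)]⟩],
  [W_19429605440, W_18372640832, W_17282129984, W_16225165376, W_16208388224, W_15184973888, W_15168200768, W_15151423616, W_14111236160, W_14094459008, W_13037494400]⟩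
theorem C_19479945345 : chkRec R_19479945345 = true := by decide +kernel

noncomputable def R_19479945408 : Rec := ⟨nat_lit 19479945408, nat_lit 56,
  [⟨V6_19429613568, [(nat_lit 104, nat_lit 19479945408), (nat_lit 31, nat_lit 20553687168), (nat_lit 49, nat_lit 20536910016), (nat_lit 64, nat_lit 21627428928), (nat_lit 111, nat_lit 21610651776), (nat_lit 11, nat_lit 21593874624), (nat_lit 87, nat_lit 22701170688), (nat_lit 101, nat_lit 22684393536), (nat_lit 1, nat_lit 22667616384), (nat_lit 111, nat_lit 22650839232), (nat_lit 23, nat_lit 23758135296), (nat_lit 109, nat_lit 23741358144), (nat_lit 37, nat_lit 23724580992), (nat_lit 112, nat_lit 24815099904), (nat_lit 31, nat_lit 24798322752), (nat_lit 46, nat_lit 25872064512)]⟩,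
   ⟨V6_17315684352, [(nat_lit 45, nat_lit 19479945408), (nat_lit 25, nat_lit 20553687168), (nat_lit 118, nat_lit 20536910016), (nat_lit 17, nat_lit 21627428928), (nat_lit 114, nat_lit 21610651776), (nat_lit 125, nat_lit 22701170688), (nat_lit 86, nat_lit 22684393536), (nat_lit 2, nat_lit 23758135296)]⟩,
   ⟨V6_16258719744, [(nat_lit 126, nat_lit 19479945408), (nat_lit 104, nat_lit 20553687168), (nat_lit 67, nat_lit 21627428928), (nat_lit 51, nat_lit 22701170688)]⟩],
  [W_19463155712, W_19446382592, W_19429601408, W_18389417984, W_18372640832, W_18355863680, W_15184969856]⟩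
theorem C_19479945408 : chkRec R_19479945408 = true := by decide +kernel

noncomputable def R_19480195266 : Rec := ⟨nat_lit 19480195266, nat_lit 10,
  [⟨V6_17299157184, [(nat_lit 20, nat_lit 19480195266), (nat_lit 62, nat_lit 20553937089), (nat_lit 16, nat_lit 20537159874), (nat_lit 53, nat_lit 21627678912), (nat_lit 28, nat_lit 21610901697), (nat_lit 69, nat_lit 21594124482), (nat_lit 113, nat_lit 22684643520), (nat_lit 45, nat_lit 22667866305), (nat_lit 17, nat_lit 23741608128)]⟩],
  [W_19462631552, W_18405666944, W_14111486144]⟩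
theorem C_19480195266 : chkRec R_19480195266 = true := by decide +kernel

noncomputable def R_19480199298 : Rec := ⟨nat_lit 19480199298, nat_lit 20,
  [⟨V6_18405671040, [(nat_lit 111, nat_lit 19480199298), (nat_lit 99, nat_lit 20553941121), (nat_lit 124, nat_lit 20553678978), (nat_lit 3, nat_lit 21627682944), (nat_lit 37, nat_lit 21627420801), (nat_lit 36, nat_lit 21627158658), (nat_lit 16, nat_lit 22701162624), (nat_lit 23, nat_lit 22700900481), (nat_lit 113, nat_lit 22700638338), (nat_lit 69, nat_lit 23774642304), (nat_lit 67, nat_lit 23774380161), (nat_lit 102, nat_lit 24848121984)]⟩],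
  [W_19462889600, W_18389409920, W_17299157120, W_15168454784, W_14111490176]⟩
theorem C_19480199298 : chkRec R_19480199298 = true := by decide +kernel

noncomputable def R_19480199361 : Rec := ⟨nat_lit 19480199361, nat_lit 48,
  [⟨V6_17331929280, [(nat_lit 35, nat_lit 19480199361), (nat_lit 11, nat_lit 20553941184), (nat_lit 120, nat_lit 20553679041), (nat_lit 40, nat_lit 21627420864), (nat_lit 19, nat_lit 21627158721), (nat_lit 36, nat_lit 22700900544), (nat_lit 106, nat_lit 22700638401), (nat_lit 68, nat_lit 23774380224)]⟩,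
   ⟨V6_17315152065, [(nat_lit 63, nat_lit 19480199361), (nat_lit 28, nat_lit 20553679041), (nat_lit 70, nat_lit 20537163969), (nat_lit 34, nat_lit 21627158721), (nat_lit 35, nat_lit 21610643649), (nat_lit 90, nat_lit 22700638401), (nat_lit 3, nat_lit 22684123329), (nat_lit 125, nat_lit 23757603009)]⟩,
   ⟨V6_17299161153, [(nat_lit 52, nat_lit 19480199361), (nat_lit 78, nat_lit 20553941121), (nat_lit 91, nat_lit 20537163969), (nat_lit 93, nat_lit 21627682881), (nat_lit 12, nat_lit 21610905729), (nat_lit 1, nat_lit 21594128577), (nat_lit 108, nat_lit 22684647489), (nat_lit 85, nat_lit 22667870337), (nat_lit 84, nat_lit 23741612097)]⟩,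
   ⟨V6_16225419456, [(nat_lit 97, nat_lit 19480199361), (nat_lit 109, nat_lit 20553941184), (nat_lit 76, nat_lit 20537163969), (nat_lit 4, nat_lit 21610905792), (nat_lit 7, nat_lit 21594128577), (nat_lit 7, nat_lit 22667870400)]⟩,
   ⟨V6_16225415361, [(nat_lit 50, nat_lit 19480199361), (nat_lit 71, nat_lit 20553937089), (nat_lit 112, nat_lit 20537163969), (nat_lit 87, nat_lit 21610901697), (nat_lit 27, nat_lit 21594128577), (nat_lit 16, nat_lit 22667866305)]⟩],
  [W_19479408704, W_19462635584, W_19462631552, W_19446378560, W_18372898880, W_18372374720, W_17315934272, W_16242196544, W_15185231936]⟩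
theorem C_19480199361 : chkRec R_19480199361 = true := by decide +kernel

noncomputable def R_19480199424 : Rec := ⟨nat_lit 19480199424, nat_lit 45,
  [⟨V6_18405671040, [(nat_lit 56, nat_lit 19480199424), (nat_lit 119, nat_lit 20553941184), (nat_lit 27, nat_lit 20553679104), (nat_lit 78, nat_lit 21627682944), (nat_lit 30, nat_lit 21627420864), (nat_lit 3, nat_lit 21627158784), (nat_lit 62, nat_lit 22701162624), (nat_lit 60, nat_lit 22700900544), (nat_lit 25, nat_lit 22700638464), (nat_lit 108, nat_lit 23774642304), (nat_lit 118, nat_lit 23774380224), (nat_lit 64, nat_lit 24848121984)]⟩,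
   ⟨V6_16225419456, [(nat_lit 25, nat_lit 19480199424), (nat_lit 37, nat_lit 20553941184), (nat_lit 71, nat_lit 20537164032), (nat_lit 27, nat_lit 21610905792), (nat_lit 106, nat_lit 21594128640), (nat_lit 53, nat_lit 22667870400)]⟩],
  [W_19479412736, W_18389417984, W_17315938304, W_15185231936]⟩
theorem C_19480199424 : chkRec R_19480199424 = true := by decide +kernel

noncomputable def R_19480203393 : Rec := ⟨nat_lit 19480203393, nat_lit 58,
  [⟨V6_18406187136, [(nat_lit 28, nat_lit 19480203393), (nat_lit 123, nat_lit 20553945216), (nat_lit 32, nat_lit 20553941121), (nat_lit 116, nat_lit 20553683073), (nat_lit 1, nat_lit 21627682944), (nat_lit 76, nat_lit 21627678849), (nat_lit 44, nat_lit 21627424896), (nat_lit 4, nat_lit 21627420801), (nat_lit 105, nat_lit 22701420672), (nat_lit 62, nat_lit 22701416577), (nat_lit 67, nat_lit 22701162624), (nat_lit 44, nat_lit 22701158529), (nat_lit 78, nat_lit 23775158400), (nat_lit 11, nat_lit 23774900352), (nat_lit 58, nat_lit 23774896257), (nat_lit 7, nat_lit 24848638080)]⟩,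
   ⟨V6_17315930241, [(nat_lit 9, nat_lit 19480203393), (nat_lit 101, nat_lit 20553941121), (nat_lit 71, nat_lit 20537168001), (nat_lit 73, nat_lit 21627678849), (nat_lit 14, nat_lit 21610905729), (nat_lit 40, nat_lit 22701416577), (nat_lit 48, nat_lit 22684643457), (nat_lit 92, nat_lit 23758381185)]⟩],
  [W_19463151680, W_19446636608, W_19446378560, W_18372898880, W_18372640832, W_18372382784, W_17299157120, W_16258453568, W_16242196544, W_15185231936, W_15184973888]⟩
theorem C_19480203393 : chkRec R_19480203393 = true := by decide +kernel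

noncomputable def R_19480203456 : Rec := ⟨nat_lit 19480203456, nat_lit 92,
  [⟨V6_18405937152, [(nat_lit 55, nat_lit 19480203456), (nat_lit 28, nat_lit 20553945216), (nat_lit 40, nat_lit 20553683136), (nat_lit 121, nat_lit 21627686976), (nat_lit 111, nat_lit 21627424896), (nat_lit 40, nat_lit 21627162816), (nat_lit 36, nat_lit 22701428736), (nat_lit 67, nat_lit 22701166656), (nat_lit 68, nat_lit 22700904576), (nat_lit 21, nat_lit 23774908416), (nat_lit 99, nat_lit 23774646336), (nat_lit 19, nat_lit 24848388096)]⟩,
   ⟨V6_18389422080, [(nat_lit 24, nat_lit 19480203456), (nat_lit 79, nat_lit 20553945216), (nat_lit 52, nat_lit 20553683136), (nat_lit 69, nat_lit 20537168064), (nat_lit 104, nat_lit 21627686976), (nat_lit 118, nat_lit 21627424896), (nat_lit 73, nat_lit 21610909824), (nat_lit 65, nat_lit 21610647744), (nat_lit 54, nat_lit 22701428736), (nat_lit 8, nat_lit 22701166656), (nat_lit 72, nat_lit 22684651584), (nat_lit 66, nat_lit 22684389504), (nat_lit 74, nat_lit 23774908416), (nat_lit 46, nat_lit 23758393344), (nat_lit 16, nat_lit 23758131264),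 (nat_lit 18, nat_lit 24831873024)]⟩,
   ⟨V6_17315942400, [(nat_lit 83, nat_lit 19480203456), (nat_lit 32, nat_lit 20553945216), (nat_lit 85, nat_lit 20537168064), (nat_lit 37, nat_lit 21627686976), (nat_lit 24, nat_lit 21610909824), (nat_lit 33, nat_lit 22701428736), (nat_lit 105, nat_lit 22684651584), (nat_lit 94, nat_lit 23758393344)]⟩],
  [W_19463155712, W_19446640640, W_19446382592, W_19446116480, W_18389676032, W_18389417984, W_18372898880, W_18372374720, W_15185231936, W_15184973888, W_15184969856, W_14110970048, W_11964010688]⟩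
theorem C_19480203456 : chkRec R_19480203456 = true := by decide +kernel

noncomputable def R_19480207425 : Rec := ⟨nat_lit 19480207425, nat_lit 38,
  [⟨V6_19480186944, [(nat_lit 2, nat_lit 19480207425), (nat_lit 102, nat_lit 20553949248), (nat_lit 80, nat_lit 20553945153), (nat_lit 101, nat_lit 21627686976), (nat_lit 31, nat_lit 21627682881), (nat_lit 117, nat_lit 22701424704), (nat_lit 58, nat_lit 22701420609), (nat_lit 100, nat_lit 23775162432), (nat_lit 96, nat_lit 23775158337), (nat_lit 124, nat_lit 24848900160), (nat_lit 123, nat_lit 24848896065), (nat_lit 18, nat_lit 25922637888)]⟩,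
   ⟨V6_15151685697, [(nat_lit 61, nat_lit 19480207425), (nat_lit 72, nat_lit 20537172033), (nat_lit 106, nat_lit 21594136641)]⟩],
  [W_18372640832, W_17298903104, W_15185231936, W_15184973888, W_15168200768, W_15151685696, W_14111236160, W_14094721088]⟩
theorem C_19480207425 : chkRec R_19480207425 = true := by decide +kernel

noncomputable def R_19480207488 : Rec := ⟨nat_lit 19480207488, nat_lit 97,
  [⟨V6_17315942400, [(nat_lit 113, nat_lit 19480207488), (nat_lit 63, nat_lit 20553949248), (nat_lit 61, nat_lit 20553945216), (nat_lit 65, nat_lit 20537172096), (nat_lit 114, nat_lit 21627691008), (nat_lit 103, nat_lit 21627686976), (nat_lit 74, nat_lit 21610913856), (nat_lit 72, nat_lit 21610909824), (nat_lit 73, nat_lit 22701428736), (nat_lit 107, nat_lit 22684655616), (nat_lit 17, nat_lit 22684651584), (nat_lit 60, nat_lit 23758393344)]⟩,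
   ⟨V6_17315684352, [(nat_lit 75, nat_lit 19480207488), (nat_lit 33, nat_lit 20553949248), (nat_lit 105, nat_lit 20553687168), (nat_lit 109, nat_lit 20537172096), (nat_lit 50, nat_lit 21627691008), (nat_lit 17, nat_lit 21627428928), (nat_lit 119, nat_lit 21610913856), (nat_lit 105, nat_lit 21610651776), (nat_lit 82, nat_lit 22701170688), (nat_lit 16, nat_lit 22684655616), (nat_lit 30, nat_lit 22684393536), (nat_lit 60, nat_lit 23758135296)]⟩,
   ⟨V6_16258719744, [(nat_lit 51, nat_lit 19480207488), (nat_lit 64, nat_lit 20553949248), (nat_lit 5, nat_lit 20553687168), (nat_lit 81, nat_lit 21627691008), (nat_lit 67, nat_lit 21627428928), (nat_lit 68, nat_lit 22701170688)]⟩,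
   ⟨V6_16242204672, [(nat_lit 19, nat_lit 19480207488), (nat_lit 34, nat_lit 20553949248), (nat_lit 64, nat_lit 20537172096), (nat_lit 1, nat_lit 21627691008), (nat_lit 35, nat_lit 21610913856), (nat_lit 98, nat_lit 22684655616)]⟩],
  [W_19463413760, W_19463155712, W_19463151680, W_19446640640, W_19446636608, W_19446382592, W_19446374528, W_18389676032, W_18389417984, W_18372640832, W_17299157120, W_16225165376, W_15184969856]⟩
theorem C_19480207488 : chkRec R_19480207488 = true := by decide +kernel

noncomputable def R_19480211520 : Rec := ⟨nat_lit 19480211520, nat_lit 40,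
  [⟨V6_19480186944, [(nat_lit 75, nat_lit 19480211520), (nat_lit 88, nat_lit 20553949248), (nat_lit 16, nat_lit 21627686976), (nat_lit 87, nat_lit 22701424704), (nat_lit 113, nat_lit 23775162432), (nat_lit 16, nat_lit 24848900160), (nat_lit 116, nat_lit 25922637888)]⟩,
   ⟨V6_16225427520, [(nat_lit 97, nat_lit 19480211520), (nat_lit 11, nat_lit 20553949248), (nat_lit 117, nat_lit 20537176128), (nat_lit 66, nat_lit 21610913856), (nat_lit 75, nat_lit 21594140736), (nat_lit 94, nat_lit 22667878464)]⟩],
  [W_19463413760, W_18389676032, W_17315938304, W_14094725120, W_11964018752]⟩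
theorem C_19480211520 : chkRec R_19480211520 = true := by decide +kernel

noncomputable def R_19480457346 : Rec := ⟨nat_lit 19480457346, nat_lit 15,
  [⟨V6_16242450561, [(nat_lit 79, nat_lit 19480457346), (nat_lit 28, nat_lit 20554199169), (nat_lit 91, nat_lit 20554195074), (nat_lit 6, nat_lit 20537421954), (nat_lit 103, nat_lit 21627936897), (nat_lit 124, nat_lit 21611163777), (nat_lit 59, nat_lit 21611159682), (nat_lit 70, nat_lit 22684901505)]⟩,
   ⟨V6_15168708738, [(nat_lit 28, nat_lit 19480457346), (nat_lit 2, nat_lit 20554195074), (nat_lit 29, nat_lit 20537421954), (nat_lit 7, nat_lit 21611159682)]⟩,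
   ⟨V6_14111744130, [(nat_lit 120, nat_lit 19480457346), (nat_lit 85, nat_lit 20554195074)]⟩],
  [W_19479404672, W_19479146624, W_19462631552, W_18405924992, W_15168712832]⟩
theorem C_19480457346 : chkRec R_19480457346 = true := by decide +kernel

noncomputable def R_19480457409 : Rec := ⟨nat_lit 19480457409, nat_lit 22,
  [⟨V6_16259231808, [(nat_lit 16, nat_lit 19480457409), (nat_lit 14, nat_lit 20554199232), (nat_lit 59, nat_lit 20554199169), (nat_lit 68, nat_lit 21627940992), (nat_lit 5, nat_lit 21627940929), (nat_lit 78, nat_lit 22701682752)]⟩],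
  [W_19462893632, W_19462631552, W_18389413952, W_14111486144]⟩
theorem C_19480457409 : chkRec R_19480457409 = true := by decide +kernel

noncomputable def R_19480461441 : Rec := ⟨nat_lit 19480461441, nat_lit 62,
  [⟨V6_18405671040, [(nat_lit 16, nat_lit 19480461441), (nat_lit 84, nat_lit 20554203264), (nat_lit 1, nat_lit 20553941121), (nat_lit 13, nat_lit 21627682944), (nat_lit 53, nat_lit 21627420801), (nat_lit 115, nat_lit 22701162624), (nat_lit 10, nat_lit 22700900481), (nat_lit 43, nat_lit 23774642304), (nat_lit 61, nat_lit 23774380161), (nat_lit 77, nat_lit 24848121984)]⟩,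
   ⟨V6_17316192384, [(nat_lit 77, nat_lit 19480461441), (nat_lit 46, nat_lit 20554203264), (nat_lit 122, nat_lit 20554199169), (nat_lit 49, nat_lit 20537426049), (nat_lit 63, nat_lit 21627940992), (nat_lit 14, nat_lit 21627936897), (nat_lit 21, nat_lit 21611167872), (nat_lit 73, nat_lit 21611163777), (nat_lit 76, nat_lit 22701678720), (nat_lit 53, nat_lit 22684905600), (nat_lit 52, nat_lit 22684901505), (nat_lit 55, nat_lit 23758643328)]⟩,
   ⟨V6_16242450561, [(nat_lit 68, nat_lit 19480461441), (nat_lit 121, nat_lit 20554199169), (nat_lit 106, nat_lit 20537426049), (nat_lit 38, nat_lit 21627936897), (nat_lit 18, nat_lit 21611163777), (nat_lit 114, nat_lit 22684901505)]⟩],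
  [W_19463151680, W_18406187072, W_16242454592, W_16242196544, W_15185489984, W_15185231936, W_15168716864]⟩
theorem C_19480461441 : chkRec R_19480461441 = true := by decide +kernel

noncomputable def R_19480461504 : Rec := ⟨nat_lit 19480461504, nat_lit 87,
  [⟨V6_18405671040, [(nat_lit 37, nat_lit 19480461504), (nat_lit 71, nat_lit 20554203264), (nat_lit 9, nat_lit 20553941184), (nat_lit 29, nat_lit 21627682944), (nat_lit 50, nat_lit 21627420864), (nat_lit 75, nat_lit 22701162624), (nat_lit 50, nat_lit 22700900544), (nat_lit 94, nat_lit 23774642304), (nat_lit 28, nat_lit 23774380224), (nat_lit 89, nat_lit 24848121984)]⟩,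
   ⟨V6_17331929280, [(nat_lit 34, nat_lit 19480461504), (nat_lit 81, nat_lit 20553941184), (nat_lit 27, nat_lit 21627420864), (nat_lit 11, nat_lit 22700900544), (nat_lit 95, nat_lit 23774380224)]⟩,
   ⟨V6_17316200448, [(nat_lit 70, nat_lit 19480461504), (nat_lit 53, nat_lit 20554203264), (nat_lit 113, nat_lit 20537426112), (nat_lit 97, nat_lit 21627945024), (nat_lit 8, nat_lit 21611167872), (nat_lit 11, nat_lit 22701686784), (nat_lit 35, nat_lit 22684909632), (nat_lit 116, nat_lit 23758651392)]⟩],
  [W_19479412736, W_19463155712, W_18389676032, W_17316196352, W_17315938304, W_16242458624, W_15185494016, W_15185231936, W_15168712832]⟩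
theorem C_19480461504 : chkRec R_19480461504 = true := by decide +kernel

noncomputable def R_19480465473 : Rec := ⟨nat_lit 19480465473, nat_lit 46,
  [⟨V6_16259231808, [(nat_lit 102, nat_lit 19480465473), (nat_lit 115, nat_lit 20554207296), (nat_lit 72, nat_lit 20554203201), (nat_lit 28, nat_lit 21627945024), (nat_lit 68, nat_lit 21627940929), (nat_lit 64, nat_lit 22701682752)]⟩],
  [W_19479924800, W_19463409728, W_19463151680, W_19462893632, W_18389672000, W_17316192320, W_17315418176, W_16258453568]⟩
theorem C_19480465473 : chkRec R_19480465473 = true := by decide +kernel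

noncomputable def R_19480465536 : Rec := ⟨nat_lit 19480465536, nat_lit 128,
  [⟨V6_18406711296, [(nat_lit 122, nat_lit 19480465536), (nat_lit 96, nat_lit 20554207296), (nat_lit 46, nat_lit 20554203264), (nat_lit 98, nat_lit 21627949056), (nat_lit 79, nat_lit 21627945024), (nat_lit 120, nat_lit 21627940992), (nat_lit 113, nat_lit 22701686784), (nat_lit 80, nat_lit 22701682752), (nat_lit 22, nat_lit 22701678720), (nat_lit 39, nat_lit 23775424512), (nat_lit 76, nat_lit 23775420480), (nat_lit 52, nat_lit 24849162240)]⟩,
   ⟨V6_17316192384, [(nat_lit 114, nat_lit 19480465536), (nat_lit 94, nat_lit 20554203264), (nat_lit 95, nat_lit 20537430144), (nat_lit 78, nat_lit 21627940992), (nat_lit 8, nat_lit 21611167872), (nat_lit 41, nat_lit 22701678720), (nat_lit 100, nat_lit 22684905600), (nat_lit 107, nat_lit 23758643328)]⟩,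
   ⟨V6_17315942400, [(nat_lit 2, nat_lit 19480465536), (nat_lit 10, nat_lit 20554207296), (nat_lit 43, nat_lit 20553945216), (nat_lit 2, nat_lit 20537430144), (nat_lit 108, nat_lit 21627949056), (nat_lit 39, nat_lit 21627686976), (nat_lit 55, nat_lit 21611171904), (nat_lit 15, nat_lit 21610909824), (nat_lit 8, nat_lit 22701428736), (nat_lit 110, nat_lit 22684913664), (nat_lit 32, nat_lit 22684651584), (nat_lit 14, nat_lit 23758393344)]⟩,
   ⟨V6_16242462720, [(nat_lit 50, nat_lit 19480465536), (nat_lit 36, nat_lit 20554207296), (nat_lit 8, nat_lit 20537430144), (nat_lit 16, nat_lit 21627949056), (nat_lit 52, nat_lit 21611171904), (nat_lit 44, nat_lit 22684913664)]⟩],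
  [W_19463413760, W_19463155712, W_19463151680, W_19462897664, W_19462889600, W_18389934080, W_18389676032, W_18389417984, W_17332195328, W_17315938304, W_16242450560, W_15185494016]⟩
theorem C_19480465536 : chkRec R_19480465536 = true := by decide +kernel

noncomputable def R_19480469568 : Rec := ⟨nat_lit 19480469568, nat_lit 111,
  [⟨V6_18406711296, [(nat_lit 83, nat_lit 19480469568), (nat_lit 98, nat_lit 20554211328), (nat_lit 95, nat_lit 20554207296), (nat_lit 71, nat_lit 21627949056), (nat_lit 6, nat_lit 21627945024), (nat_lit 3, nat_lit 22701686784), (nat_lit 52, nat_lit 22701682752), (nat_lit 87, nat_lit 23775424512), (nat_lit 9, nat_lit 23775420480), (nat_lit 107, nat_lit 24849162240)]⟩,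
   ⟨V6_16258719744, [(nat_lit 83, nat_lit 19480469568), (nat_lit 28, nat_lit 20554211328), (nat_lit 97, nat_lit 20553949248), (nat_lit 15, nat_lit 21627691008), (nat_lit 37, nat_lit 21627428928), (nat_lit 82, nat_lit 22701170688)]⟩,
   ⟨V6_16242204672, [(nat_lit 97, nat_lit 19480469568), (nat_lit 108, nat_lit 20554211328), (nat_lit 119, nat_lit 20553949248), (nat_lit 5, nat_lit 20537434176), (nat_lit 19, nat_lit 21627691008), (nat_lit 39, nat_lit 21611175936), (nat_lit 30, nat_lit 21610913856), (nat_lit 75, nat_lit 22684655616)]⟩,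
   ⟨V6_15168724992, [(nat_lit 100, nat_lit 19480469568), (nat_lit 62, nat_lit 20554211328), (nat_lit 57, nat_lit 20537434176), (nat_lit 39, nat_lit 21611175936)]⟩],
  [W_19463671808, W_19463413760, W_19463409728, W_19463155712, W_19463151680, W_18389930048, W_18389676032, W_18389417984, W_17315938304, W_14094983168, W_14094721088]⟩
theorem C_19480469568 : chkRec R_19480469568 = true := by decide +kernel

noncomputable def R_19480473600 : Rec := ⟨nat_lit 19480473600, nat_lit 45,
  [⟨V6_18406711296, [(nat_lit 41, nat_lit 19480473600), (nat_lit 34, nat_lit 20554211328), (nat_lit 4, nat_lit 21627949056), (nat_lit 116, nat_lit 22701686784), (nat_lit 19, nat_lit 23775424512), (nat_lit 22, nat_lit 24849162240)]⟩],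
  [W_19463413760, W_17315938304, W_15168720896, W_14094983168, W_14094725120, W_13021245440, W_11964280832]⟩
theorem C_19480473600 : chkRec R_19480473600 = true := by decide +kernel

noncomputable def R_19480715394 : Rec := ⟨nat_lit 19480715394, nat_lit 2,
  [⟨V6_14111744130, [(nat_lit 26, nat_lit 19480715394), (nat_lit 114, nat_lit 20554195074)]⟩],
  [W_19479404672]⟩
theorem C_19480715394 : chkRec R_19480715394 = true := by decide +kernel

noncomputable def R_19480719489 : Rec := ⟨nat_lit 19480719489, nat_lit 24,
  [⟨V6_16259231808, [(nat_lit 2, nat_lit 19480719489), (nat_lit 63, nat_lit 20554461312), (nat_lit 18, nat_lit 20554461249), (nat_lit 42, nat_lit 20554199169), (nat_lit 121, nat_lit 21628203072), (nat_lit 118, nat_lit 21627940992), (nat_lit 43, nat_lit 21627940929), (nat_lit 24, nat_lit 22701682752)]⟩],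
  [W_19479408704, W_19479404672, W_19479146624, W_18406187072]⟩
theorem C_19480719489 : chkRec R_19480719489 = true := by decide +kernel

noncomputable def R_19480719552 : Rec := ⟨nat_lit 19480719552, nat_lit 32,
  [⟨V6_16259231808, [(nat_lit 71, nat_lit 19480719552), (nat_lit 53, nat_lit 20554461312), (nat_lit 89, nat_lit 20554199232), (nat_lit 32, nat_lit 21628203072), (nat_lit 23, nat_lit 21627940992), (nat_lit 27, nat_lit 22701682752)]⟩],
  [W_19479670784, W_19479408704, W_19479146624, W_17331925184, W_15185752064, W_14111486144, W_11964526784]⟩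
theorem C_19480719552 : chkRec R_19480719552 = true := by decide +kernel

noncomputable def R_19480723521 : Rec := ⟨nat_lit 19480723521, nat_lit 31,
  [⟨V6_19479924801, [(nat_lit 45, nat_lit 19480723521), (nat_lit 95, nat_lit 20554461249), (nat_lit 116, nat_lit 20554203201), (nat_lit 3, nat_lit 21628198977), (nat_lit 114, nat_lit 21627940929), (nat_lit 69, nat_lit 21627682881), (nat_lit 51, nat_lit 22701936705), (nat_lit 64, nat_lit 22701678657), (nat_lit 20, nat_lit 22701420609), (nat_lit 42, nat_lit 22701162561), (nat_lit 55, nat_lit 23775416385), (nat_lit 2, nat_lit 23775158337), (nat_lit 59, nat_lit 23774900289), (nat_lit 87, nat_lit 24848896065), (nat_lit 67, nat_lit 24848638017), (nat_lit 55, nat_lit 25922375745)]⟩,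
   ⟨V6_18405670977, [(nat_lit 69, nat_lit 19480723521), (nat_lit 30, nat_lit 20554203201), (nat_lit 86, nat_lit 21627682881), (nat_lit 17, nat_lit 22701162561), (nat_lit 90, nat_lit 23774642241), (nat_lit 16, nat_lit 24848121921)]⟩,
   ⟨V6_17332965441, [(nat_lit 15, nat_lit 19480723521), (nat_lit 64, nat_lit 20554461249), (nat_lit 126, nat_lit 20554203201), (nat_lit 119, nat_lit 21628198977), (nat_lit 111, nat_lit 21627940929), (nat_lit 93, nat_lit 22701936705), (nat_lit 92, nat_lit 22701678657), (nat_lit 117, nat_lit 23775416385)]⟩,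
   ⟨V6_15185748033, [(nat_lit 92, nat_lit 19480723521), (nat_lit 107, nat_lit 20554461249), (nat_lit 121, nat_lit 21628198977)]⟩],
  [W_19479408704, W_16259485760, W_15185489984, W_15185231936, W_14112010304]⟩
theorem C_19480723521 : chkRec R_19480723521 = true := by decide +kernel

noncomputable def R_19480723584 : Rec := ⟨nat_lit 19480723584, nat_lit 66,
  [⟨V6_18406711296, [(nat_lit 60, nat_lit 19480723584), (nat_lit 74, nat_lit 20554465344), (nat_lit 40, nat_lit 20554461312), (nat_lit 22, nat_lit 20554203264), (nat_lit 83, nat_lit 21628207104), (nat_lit 119, nat_lit 21628203072), (nat_lit 82, nat_lit 21628199040), (nat_lit 57, nat_lit 21627945024), (nat_lit 55, nat_lit 21627940992), (nat_lit 41, nat_lit 22701944832), (nat_lit 12, nat_lit 22701940800), (nat_lit 47, nat_lit 22701686784), (nat_lit 73, nat_lit 22701682752), (nat_lit 43, nat_lit 22701678720), (nat_lit 34, nat_lit 23775682560), (nat_lit 14, nat_lit 23775424512), (nat_lit 43, nat_lit 23775420480), (nat_lit 88, nat_lit 24849162240)]⟩,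
   ⟨V6_18405671040, [(nat_lit 32, nat_lit 19480723584), (nat_lit 36, nat_lit 20554203264), (nat_lit 27, nat_lit 21627682944), (nat_lit 122, nat_lit 22701162624), (nat_lit 108, nat_lit 23774642304), (nat_lit 70, nat_lit 24848121984)]⟩],
  [W_19479412736, W_19479408704, W_19479404672, W_15185752064, W_15185748032, W_15185494016, W_15185489984, W_15185231936, W_14112014336, W_14112010304, W_14111748224, W_13038268544]⟩
theorem C_19480723584 : chkRec R_19480723584 = true := by decide +kernel

noncomputable def R_19480727616 : Rec := ⟨nat_lit 19480727616, nat_lit 73,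
  [⟨V6_19480186944, [(nat_lit 57, nat_lit 19480727616), (nat_lit 61, nat_lit 20554465344), (nat_lit 104, nat_lit 20554207296), (nat_lit 20, nat_lit 21628203072), (nat_lit 84, nat_lit 21627945024), (nat_lit 31, nat_lit 21627686976), (nat_lit 54, nat_lit 22701940800), (nat_lit 20, nat_lit 22701682752), (nat_lit 99, nat_lit 22701424704), (nat_lit 115, nat_lit 23775678528), (nat_lit 71, nat_lit 23775420480), (nat_lit 113, nat_lit 23775162432), (nat_lit 44, nat_lit 24849158208), (nat_lit 20, nat_lit 24848900160), (nat_lit 21, nat_lit 25922637888)]⟩,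
   ⟨V6_18406707264, [(nat_lit 26, nat_lit 19480727616), (nat_lit 76, nat_lit 20554465344), (nat_lit 88, nat_lit 20554207296), (nat_lit 99, nat_lit 21628203072), (nat_lit 40, nat_lit 21627945024), (nat_lit 21, nat_lit 22701940800), (nat_lit 45, nat_lit 22701682752), (nat_lit 55, nat_lit 23775678528), (nat_lit 35, nat_lit 23775420480), (nat_lit 120, nat_lit 24849158208)]⟩,
   ⟨V6_18405937152, [(nat_lit 15, nat_lit 19480727616), (nat_lit 38, nat_lit 20554469376), (nat_lit 72, nat_lit 20554207296), (nat_lit 38, nat_lit 21627949056), (nat_lit 45, nat_lit 21627686976), (nat_lit 30, nat_lit 22701428736), (nat_lit 89, nat_lit 22701166656), (nat_lit 110, nat_lit 23774908416), (nat_lit 59, nat_lit 23774646336), (nat_lit 11, nat_lit 24848388096)]⟩],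
  [W_19480186880, W_18406707200, W_17333227520, W_16259489792, W_15185752064, W_15185494016, W_15185231936, W_15184973888, W_14112014336, W_14112010304]⟩
theorem C_19480727616 : chkRec R_19480727616 = true := by decide +kernel

noncomputable def R_19480731648 : Rec := ⟨nat_lit 19480731648, nat_lit 40,
  [⟨V6_19480707072, [(nat_lit 120, nat_lit 19480731648), (nat_lit 87, nat_lit 20554469376), (nat_lit 124, nat_lit 21628207104), (nat_lit 32, nat_lit 22701944832), (nat_lit 4, nat_lit 23775682560), (nat_lit 95, nat_lit 24849420288), (nat_lit 122, nat_lit 25923158016)]⟩,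
   ⟨V6_16258719744, [(nat_lit 124, nat_lit 19480731648), (nat_lit 6, nat_lit 20554211328), (nat_lit 74, nat_lit 21627691008), (nat_lit 61, nat_lit 22701170688)]⟩,
   ⟨V6_14112018432, [(nat_lit 55, nat_lit 19480731648), (nat_lit 45, nat_lit 20554469376)]⟩],
  [W_19480186880, W_18406965248, W_18406707200, W_17333227520, W_16259489792]⟩
theorem C_19480731648 : chkRec R_19480731648 = true := by decide +kernel

noncomputable def R_19496190147 : Rec := ⟨nat_lit 19496190147, nat_lit 1,
  [⟨V6_14127481026, [(nat_lit 100, nat_lit 19496190147), (nat_lit 110, nat_lit 20569931970)]⟩],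
  [W_19429081280]⟩
theorem C_19496190147 : chkRec R_19496190147 = true := by decide +kernel

noncomputable def R_19496190210 : Rec := ⟨nat_lit 19496190210, nat_lit 7,
  [⟨V6_19395526914, [(nat_lit 11, nat_lit 19496190210), (nat_lit 93, nat_lit 20553154818), (nat_lit 8, nat_lit 21610119426), (nat_lit 89, nat_lit 22667084034), (nat_lit 124, nat_lit 23724048642), (nat_lit 12, nat_lit 24781013250), (nat_lit 32, nat_lit 25837977858)]⟩,
   ⟨V6_14127481089, [(nat_lit 56, nat_lit 19496190210), (nat_lit 17, nat_lit 20569932033)]⟩,
   ⟨V6_14127481026, [(nat_lit 34, nat_lit 19496190210), (nat_lit 77, nat_lit 20569931970)]⟩],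
  [W_19445858432, W_19429081280, W_18388893824]⟩
theorem C_19496190210 : chkRec R_19496190210 = true := by decide +kernel

noncomputable def R_19496448195 : Rec := ⟨nat_lit 19496448195, nat_lit 1,
  [⟨V6_15201218754, [(nat_lit 39, nat_lit 19496448195), (nat_lit 125, nat_lit 20570190018), (nat_lit 98, nat_lit 20569927875), (nat_lit 93, nat_lit 21643669698)]⟩],
  [W_18372374720]⟩
theorem C_19496448195 : chkRec R_19496448195 = true := by decide +kernel

noncomputable def R_19496452290 : Rec := ⟨nat_lit 19496452290, nat_lit 13,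
  [⟨V6_16274964672, [(nat_lit 24, nat_lit 19496452290), (nat_lit 25, nat_lit 20570194113), (nat_lit 103, nat_lit 20569931970), (nat_lit 44, nat_lit 21643935936), (nat_lit 65, nat_lit 21643673793), (nat_lit 30, nat_lit 22717415616)]⟩],
  [W_19446116480, W_19429343360, W_18389151872, W_18372374720, W_17332187264]⟩
theorem C_19496452290 : chkRec R_19496452290 = true := by decide +kernel

noncomputable def R_19496452353 : Rec := ⟨nat_lit 19496452353, nat_lit 18,
  [⟨V6_17348706369, [(nat_lit 3, nat_lit 19496452353), (nat_lit 15, nat_lit 20570194113), (nat_lit 11, nat_lit 20569932033), (nat_lit 46, nat_lit 21643935873), (nat_lit 46, nat_lit 21643673793), (nat_lit 4, nat_lit 22717677633), (nat_lit 50, nat_lit 22717415553), (nat_lit 103, nat_lit 23791157313)]⟩,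
   ⟨V6_15201222912, [(nat_lit 91, nat_lit 19496452353), (nat_lit 77, nat_lit 20570194176), (nat_lit 119, nat_lit 20569932033), (nat_lit 11, nat_lit 21643673856)]⟩],
  [W_19462635584, W_19446120512, W_19429343360, W_18355339520, W_17348706368]⟩
theorem C_19496452353 : chkRec R_19496452353 = true := by decide +kernel

noncomputable def R_19496456322 : Rec := ⟨nat_lit 19496456322, nat_lit 6,
  [⟨V6_18372382848, [(nat_lit 104, nat_lit 19496456322), (nat_lit 66, nat_lit 20570198145), (nat_lit 39, nat_lit 20553420930), (nat_lit 100, nat_lit 21643939968), (nat_lit 64, nat_lit 21627162753), (nat_lit 62, nat_lit 21610385538), (nat_lit 5, nat_lit 22700904576), (nat_lit 90, nat_lit 22684127361), (nat_lit 64, nat_lit 22667350146), (nat_lit 99, nat_lit 23757869184), (nat_lit 89, nat_lit 23741091969), (nat_lit 44, nat_lit 24814833792)]⟩],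
  [W_19462889600, W_17348960384, W_14127747200]⟩
theorem C_19496456322 : chkRec R_19496456322 = true := by decide +kernel

noncomputable def R_19496456385 : Rec := ⟨nat_lit 19496456385, nat_lit 17,
  [⟨V6_19429347456, [(nat_lit 28, nat_lit 19496456385), (nat_lit 11, nat_lit 20570198208), (nat_lit 60, nat_lit 20570198145), (nat_lit 58, nat_lit 20553420993), (nat_lit 56, nat_lit 21643939968), (nat_lit 76, nat_lit 21627162816), (nat_lit 103, nat_lit 21627162753), (nat_lit 69, nat_lit 21610385601), (nat_lit 96, nat_lit 22700904576), (nat_lit 78, nat_lit 22684127424), (nat_lit 37, nat_lit 22684127361), (nat_lit 107, nat_lit 22667350209), (nat_lit 65, nat_lit 23757869184), (nat_lit 95, nat_lit 23741092032), (nat_lit 123, nat_lit 23741091969), (nat_lit 70, nat_lit 23724314817), (nat_lit 69, nat_lit 24814833792), (nat_lit 108, nat_lit 24798056640), (nat_lit 9, nat_lit 24798056577), (nat_lit 51, nat_lit 25871798400)]⟩,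
   ⟨V6_19429347393, [(nat_lit 101, nat_lit 19496456385), (nat_lit 116, nat_lit 20570198145), (nat_lit 92, nat_lit 20553420993), (nat_lit 88, nat_lit 21643939905), (nat_lit 48, nat_lit 21627162753), (nat_lit 16, nat_lit 21610385601), (nat_lit 70, nat_lit 22700904513), (nat_lit 46, nat_lit 22684127361), (nat_lit 16, nat_lit 22667350209), (nat_lit 25, nat_lit 23757869121), (nat_lit 81, nat_lit 23741091969), (nat_lit 12, nat_lit 23724314817), (nat_lit 62, nat_lit 24814833729), (nat_lit 64, nat_lit 24798056577), (nat_lit 20, nat_lit 25871798337)]⟩,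
   ⟨V6_18372382785, [(nat_lit 55, nat_lit 19496456385), (nat_lit 45, nat_lit 20570198145), (nat_lit 121, nat_lit 20553420993), (nat_lit 99, nat_lit 21643939905), (nat_lit 100, nat_lit 21627162753), (nat_lit 6, nat_lit 21610385601), (nat_lit 116, nat_lit 22700904513), (nat_lit 121, nat_lit 22684127361), (nat_lit 72, nat_lit 22667350209), (nat_lit 43, nat_lit 23757869121), (nat_lit 72, nat_lit 23741091969), (nat_lit 30, nat_lit 24814833729)]⟩,
   ⟨V6_17298641088, [(nat_lit 86, nat_lit 19496456385), (nat_lit 27, nat_lit 20570198208), (nat_lit 81, nat_lit 20553420993), (nat_lit 37, nat_lit 21627162816), (nat_lit 17, nat_lit 21610385601), (nat_lit 84, nat_lit 22684127424), (nat_lit 30, nat_lit 22667350209), (nat_lit 15, nat_lit 23741092032)]⟩,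
   ⟨V6_16224899265, [(nat_lit 104, nat_lit 19496456385), (nat_lit 16, nat_lit 20553420993), (nat_lit 36, nat_lit 21610385601), (nat_lit 119, nat_lit 22667350209)]⟩],
  [W_18389151872, W_16258453568, W_15201488960, W_15201484928, W_15201480896, W_14127747200, W_14110970048]⟩
theorem C_19496456385 : chkRec R_19496456385 = true := by decide +kernel

noncomputable def R_19496456448 : Rec := ⟨nat_lit 19496456448, nat_lit 16,
  [⟨V6_17348972544, [(nat_lit 50, nat_lit 19496456448), (nat_lit 119, nat_lit 20570198208), (nat_lit 61, nat_lit 21643939968), (nat_lit 74, nat_lit 22717681728), (nat_lit 10, nat_lit 23791423488)]⟩],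
  [W_19462897664, W_19446124544, W_19446120512, W_19429343360, W_15167930624, W_14110970048, W_13054001408]⟩
theorem C_19496456448 : chkRec R_19496456448 = true := by decide +kernel

noncomputable def R_19496710338 : Rec := ⟨nat_lit 19496710338, nat_lit 9,
  [⟨V6_17348702400, [(nat_lit 106, nat_lit 19496710338), (nat_lit 49, nat_lit 20570452161), (nat_lit 94, nat_lit 20570190018), (nat_lit 42, nat_lit 21644193984), (nat_lit 113, nat_lit 21643931841), (nat_lit 2, nat_lit 21643669698), (nat_lit 12, nat_lit 22717673664), (nat_lit 84, nat_lit 22717411521), (nat_lit 117, nat_lit 23791153344)]⟩],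
  [W_19446116480, W_19429601408, W_18372636800, W_14128001216]⟩
theorem C_19496710338 : chkRec R_19496710338 = true := by decide +kernel

noncomputable def R_19496714370 : Rec := ⟨nat_lit 19496714370, nat_lit 31,
  [⟨V6_18405671040, [(nat_lit 37, nat_lit 19496714370), (nat_lit 89, nat_lit 20570456193), (nat_lit 77, nat_lit 20570194050), (nat_lit 16, nat_lit 20553678978), (nat_lit 29, nat_lit 21644198016), (nat_lit 59, nat_lit 21643935873), (nat_lit 49, nat_lit 21643673730), (nat_lit 10, nat_lit 21627420801), (nat_lit 61, nat_lit 21627158658), (nat_lit 35, nat_lit 22717677696), (nat_lit 34, nat_lit 22717415553), (nat_lit 90, nat_lit 22701162624), (nat_lit 71, nat_lit 22700900481), (nat_lit 33, nat_lit 22700638338), (nat_lit 84, nat_lit 23791157376), (nat_lit 123, nat_lit 23774642304), (nat_lit 105, nat_lit 23774380161), (nat_lit 91, nat_lit 24848121984)]⟩],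
  [W_19479404672, W_19462889600, W_19462631552, W_19446374528, W_19429601408, W_19429343360, W_18389409920, W_18355863680, W_17348960384]⟩
theorem C_19496714370 : chkRec R_19496714370 = true := by decide +kernel

noncomputable def R_19496714433 : Rec := ⟨nat_lit 19496714433, nat_lit 55,
  [⟨V6_18422448192, [(nat_lit 97, nat_lit 19496714433), (nat_lit 109, nat_lit 20570456256), (nat_lit 94, nat_lit 20570456193), (nat_lit 120, nat_lit 20570194113), (nat_lit 19, nat_lit 21644198016), (nat_lit 24, nat_lit 21644197953), (nat_lit 55, nat_lit 21643935936), (nat_lit 74, nat_lit 21643935873), (nat_lit 37, nat_lit 21643673793), (nat_lit 47, nat_lit 22717939776), (nat_lit 58, nat_lit 22717677696), (nat_lit 6, nat_lit 22717677633), (nat_lit 71, nat_lit 22717415616), (nat_lit 17, nat_lit 22717415553), (nat_lit 20, nat_lit 23791419456), (nat_lit 50, nat_lit 23791157376), (nat_lit 122, nat_lit 23791157313), (nat_lit 80, nat_lit 24864899136)]⟩,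
   ⟨V6_16274964672, [(nat_lit 79, nat_lit 19496714433), (nat_lit 96, nat_lit 20570456256), (nat_lit 3, nat_lit 20570194113), (nat_lit 6, nat_lit 21643935936), (nat_lit 35, nat_lit 21643673793), (nat_lit 45, nat_lit 22717415616)]⟩],
  [W_19479408704, W_19446378560, W_19446116480, W_19429605440, W_19429601408, W_18372640832, W_18372374720, W_18355863680, W_17348706368, W_17282121920, W_15201747008, W_14128001216]⟩
theorem C_19496714433 : chkRec R_19496714433 = true := by decide +kernel

noncomputable def R_19496714496 : Rec := ⟨nat_lit 19496714496, nat_lit 62,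
  [⟨V6_19496189952, [(nat_lit 82, nat_lit 19496714496), (nat_lit 112, nat_lit 20570456256), (nat_lit 41, nat_lit 20570194176), (nat_lit 16, nat_lit 21644198016), (nat_lit 119, nat_lit 21643935936), (nat_lit 102, nat_lit 21643673856), (nat_lit 49, nat_lit 22717939776), (nat_lit 23, nat_lit 22717677696), (nat_lit 117, nat_lit 22717415616), (nat_lit 97, nat_lit 23791681536), (nat_lit 28, nat_lit 23791419456), (nat_lit 73, nat_lit 23791157376), (nat_lit 46, nat_lit 24865161216), (nat_lit 53, nat_lit 24864899136), (nat_lit 102, nat_lit 25938640896)]⟩,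
   ⟨V6_16274964672, [(nat_lit 72, nat_lit 19496714496), (nat_lit 5, nat_lit 20570456256), (nat_lit 122, nat_lit 20570194176), (nat_lit 89, nat_lit 21643935936), (nat_lit 66, nat_lit 21643673856), (nat_lit 69, nat_lit 22717415616)]⟩],
  [W_19479412736, W_19446382592, W_19429605440, W_18389417984, W_18372640832, W_18355863680, W_15201747008]⟩
theorem C_19496714496 : chkRec R_19496714496 = true := by decide +kernel

noncomputable def R_19496718465 : Rec := ⟨nat_lit 19496718465, nat_lit 64,
  [⟨V6_19446374529, [(nat_lit 3, nat_lit 19496718465), (nat_lit 72, nat_lit 20570456193), (nat_lit 61, nat_lit 20553683073), (nat_lit 21, nat_lit 21644193921), (nat_lit 34, nat_lit 21627420801), (nat_lit 90, nat_lit 21610647681), (nat_lit 29, nat_lit 22717931649), (nat_lit 43, nat_lit 22701158529), (nat_lit 109, nat_lit 22684385409), (nat_lit 83, nat_lit 22667612289), (nat_lit 54, nat_lit 23774896257), (nat_lit 51, nat_lit 23758123137), (nat_lit 115, nat_lit 23741350017), (nat_lit 60, nat_lit 24831860865), (nat_lit 64, nat_lit 24815087745), (nat_lit 42, nat_lit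 25888825473)]⟩,
   ⟨V6_18406187136, [(nat_lit 96, nat_lit 19496718465), (nat_lit 36, nat_lit 20570460288), (nat_lit 97, nat_lit 20570456193), (nat_lit 87, nat_lit 20553683073), (nat_lit 61, nat_lit 21644198016), (nat_lit 28, nat_lit 21644193921), (nat_lit 28, nat_lit 21627424896), (nat_lit 67, nat_lit 21627420801), (nat_lit 43, nat_lit 22717935744), (nat_lit 64, nat_lit 22717931649), (nat_lit 94, nat_lit 22701162624), (nat_lit 71, nat_lit 22701158529), (nat_lit 100, nat_lit 23791673472), (nat_lit 42, nat_lit 23774900352), (nat_lit 99, nat_lit 23774896257), (nat_lit 124, nat_lit 24848638080)]⟩,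
   ⟨V6_18389409921, [(nat_lit 104, nat_lit 19496718465), (nat_lit 4, nat_lit 20570456193), (nat_lit 107, nat_lit 20553683073), (nat_lit 82, nat_lit 21644193921), (nat_lit 33, nat_lit 21627420801), (nat_lit 70, nat_lit 21610647681), (nat_lit 55, nat_lit 22717931649), (nat_lit 22, nat_lit 22701158529), (nat_lit 59, nat_lit 22684385409), (nat_lit 122, nat_lit 23774896257), (nat_lit 116, nat_lit 23758123137), (nat_lit 61, nat_lit 24831860865)]⟩],
  [W_19463151680, W_19446378560, W_19429605440, W_18406187072, W_18372640832, W_18372382784, W_16258453568, W_15201747008, W_15201488960, W_14127747200, W_13054267520]⟩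
theorem C_19496718465 : chkRec R_19496718465 = true := by decide +kernel

noncomputable def R_19496718528 : Rec := ⟨nat_lit 19496718528, nat_lit 95,
  [⟨V6_19462901760, [(nat_lit 55, nat_lit 19496718528), (nat_lit 47, nat_lit 20570460288), (nat_lit 32, nat_lit 20570198208), (nat_lit 64, nat_lit 20553683136), (nat_lit 47, nat_lit 21644202048), (nat_lit 117, nat_lit 21643939968), (nat_lit 123, nat_lit 21627424896), (nat_lit 8, nat_lit 21627162816), (nat_lit 117, nat_lit 21610647744), (nat_lit 99, nat_lit 22717943808), (nat_lit 26, nat_lit 22717681728), (nat_lit 51, nat_lit 22701166656), (nat_lit 18, nat_lit 22700904576), (nat_lit 81, nat_lit 22684389504), (nat_lit 41, nat_lit 22684127424), (nat_lit 63, nat_lit 23791423488), (nat_lit 40, nat_lit 23774908416), (nat_lit 76, nat_lit 23774646336), (nat_lit 19, nat_lit 23758131264), (nat_lit 43, nat_lit 23757869184), (nat_lit 65, nat_lit 24848388096), (nat_lit 64, nat_lit 24831873024), (nat_lit 39, nat_lit 24831610944), (nat_lit 94, nat_lit 25905352704)]⟩,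
   ⟨V6_19446386688, [(nat_lit 85, nat_lit 19496718528), (nat_lit 113, nat_lit 20570460288), (nat_lit 89, nat_lit 20553683136), (nat_lit 2, nat_lit 21644202048), (nat_lit 15, nat_lit 21627424896), (nat_lit 73, nat_lit 21610647744), (nat_lit 89, nat_lit 22717943808), (nat_lit 50, nat_lit 22701166656), (nat_lit 22, nat_lit 22684389504), (nat_lit 110, nat_lit 22667612352), (nat_lit 86, nat_lit 23774908416), (nat_lit 107, nat_lit 23758131264), (nat_lit 26, nat_lit 23741354112), (nat_lit 83, nat_lit 24831873024), (nat_lit 54, nat_lit 24815095872), (nat_lit 120, nat_lit 25888837632)]⟩,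
   ⟨V6_18405937152, [(nat_lit 3, nat_lit 19496718528), (nat_lit 47, nat_lit 20570460288), (nat_lit 81, nat_lit 20570198208), (nat_lit 107, nat_lit 20553683136), (nat_lit 99, nat_lit 21644202048), (nat_lit 36, nat_lit 21643939968), (nat_lit 97, nat_lit 21627424896), (nat_lit 9, nat_lit 21627162816), (nat_lit 49, nat_lit 22717943808), (nat_lit 79, nat_lit 22717681728), (nat_lit 118, nat_lit 22701166656), (nat_lit 22, nat_lit 22700904576), (nat_lit 54, nat_lit 23791423488), (nat_lit 110, nat_lit 23774908416), (nat_lit 120, nat_lit 23774646336), (nat_lit 55, nat_lit 24848388096)]⟩,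
   ⟨V6_18389422080, [(nat_lit 76, nat_lit 19496718528), (nat_lit 100, nat_lit 20570460288), (nat_lit 101, nat_lit 20553683136), (nat_lit 114, nat_lit 21644202048), (nat_lit 126, nat_lit 21627424896), (nat_lit 95, nat_lit 21610647744), (nat_lit 2, nat_lit 22717943808), (nat_lit 52, nat_lit 22701166656), (nat_lit 73, nat_lit 22684389504), (nat_lit 55, nat_lit 23774908416), (nat_lit 77, nat_lit 23758131264), (nat_lit 104, nat_lit 24831873024)]⟩],
  [W_19463155712, W_19446382592, W_19429609472, W_18389417984, W_18372640832, W_18372374720, W_18355863680, W_16275230720, W_15201747008, W_15184973888, W_15184969856, W_14128001216, W_13054263488, W_11980525760]⟩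
theorem C_19496718528 : chkRec R_19496718528 = true := by decide +kernel

noncomputable def R_19496722497 : Rec := ⟨nat_lit 19496722497, nat_lit 29,
  [⟨V6_19479924801, [(nat_lit 24, nat_lit 19496722497), (nat_lit 65, nat_lit 20570460225), (nat_lit 62, nat_lit 20553687105), (nat_lit 36, nat_lit 21644197953), (nat_lit 82, nat_lit 21627424833), (nat_lit 2, nat_lit 22717935681), (nat_lit 104, nat_lit 22701162561), (nat_lit 66, nat_lit 23791673409), (nat_lit 93, nat_lit 23774900289), (nat_lit 118, nat_lit 24865411137), (nat_lit 80, nat_lit 24848638017), (nat_lit 67, nat_lit 25922375745)]⟩,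
   ⟨V6_14128013376, [(nat_lit 48, nat_lit 19496722497), (nat_lit 86, nat_lit 20570464320)]⟩],
  [W_19479924800, W_19463151680, W_19446378560, W_18372640832, W_17282129984]⟩
theorem C_19496722497 : chkRec R_19496722497 = true := by decide +kernel

noncomputable def R_19496722560 : Rec := ⟨nat_lit 19496722560, nat_lit 100,
  [⟨V6_19496706048, [(nat_lit 88, nat_lit 19496722560), (nat_lit 33, nat_lit 20570464320), (nat_lit 46, nat_lit 20570460288), (nat_lit 90, nat_lit 21644206080), (nat_lit 14, nat_lit 21644202048), (nat_lit 52, nat_lit 21644198016), (nat_lit 97, nat_lit 22717943808), (nat_lit 64, nat_lit 22717939776), (nat_lit 74, nat_lit 22717935744), (nat_lit 93, nat_lit 23791681536), (nat_lit 122, nat_lit 23791677504), (nat_lit 112, nat_lit 23791673472), (nat_lit 24, nat_lit 24865419264), (nat_lit 70, nat_lit 24865415232), (nat_lit 3, nat_lit 25939156992)]⟩,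
   ⟨V6_16258719744, [(nat_lit 99, nat_lit 19496722560), (nat_lit 72, nat_lit 20570464320), (nat_lit 6, nat_lit 20553687168), (nat_lit 100, nat_lit 21644206080), (nat_lit 106, nat_lit 21627428928), (nat_lit 55, nat_lit 22701170688)]⟩],
  [W_19446382592, W_18389417984, W_18372640832, W_18355871744, W_18355863680, W_17298907136, W_17298903104, W_17298899072, W_17282129984, W_17282125952, W_16225165376, W_15201747008, W_15184973888, W_15184969856, W_14128013312, W_14111236160, W_14111232128, W_13054267520]⟩
theorem C_19496722560 : chkRec R_19496722560 = true := by decide +kernel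

noncomputable def R_19496972418 : Rec := ⟨nat_lit 19496972418, nat_lit 21,
  [⟨V6_19446374529, [(nat_lit 105, nat_lit 19496972418), (nat_lit 33, nat_lit 20570714241), (nat_lit 83, nat_lit 20570710146), (nat_lit 106, nat_lit 20570452098), (nat_lit 10, nat_lit 20553937026), (nat_lit 106, nat_lit 21644451969), (nat_lit 32, nat_lit 21644193921), (nat_lit 115, nat_lit 21644189826), (nat_lit 119, nat_lit 21627678849), (nat_lit 52, nat_lit 21627674754), (nat_lit 91, nat_lit 21627416706), (nat_lit 46, nat_lit 21610901634), (nat_lit 75, nat_lit 22717931649), (nat_lit 4, nat_lit 22701416577), (nat_lit 22, nat_lit 22701158529), (nat_lit 59, nat_lit 22701154434), (nat_lit 12, nat_lit 22684643457), (nat_lit 91, nat_lit 22684639362), (nat_lit 55, nat_lit 22684381314), (nat_lit 63, nat_lit 22667866242), (nat_lit 15, nat_lit 23774896257), (nat_lit 6, nat_lit 23758381185), (nat_lit 74, nat_lit 23758123137), (nat_lit 9, nat_lit 23758119042), (nat_lit 118, nat_lit 23741608065), (nat_lit 18, nat_lit 23741603970), (nat_lit 117, nat_lit 23741345922), (nat_lit 65, nat_lit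 24831860865), (nat_lit 47, nat_lit 24815345793), (nat_lit 53, nat_lit 24815087745), (nat_lit 121, nat_lit 24815083650), (nat_lit 58, nat_lit 25888825473)]⟩,
   ⟨V6_18372894849, [(nat_lit 30, nat_lit 19496972418), (nat_lit 21, nat_lit 20570714241), (nat_lit 92, nat_lit 20570710146), (nat_lit 125, nat_lit 20553937026), (nat_lit 28, nat_lit 21644451969), (nat_lit 89, nat_lit 21627678849), (nat_lit 23, nat_lit 21627674754), (nat_lit 23, nat_lit 21610901634), (nat_lit 63, nat_lit 22701416577), (nat_lit 48, nat_lit 22684643457), (nat_lit 74, nat_lit 22684639362), (nat_lit 123, nat_lit 22667866242), (nat_lit 113, nat_lit 23758381185), (nat_lit 59, nat_lit 23741608065), (nat_lit 43, nat_lit 23741603970), (nat_lit 108, nat_lit 24815345793)]⟩,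
   ⟨V6_17315930241, [(nat_lit 73, nat_lit 19496972418), (nat_lit 49, nat_lit 20570714241), (nat_lit 114, nat_lit 20570710146), (nat_lit 91, nat_lit 20553937026), (nat_lit 90, nat_lit 21644451969), (nat_lit 40, nat_lit 21627678849), (nat_lit 96, nat_lit 21627674754), (nat_lit 57, nat_lit 21610901634), (nat_lit 7, nat_lit 22701416577), (nat_lit 109, nat_lit 22684643457), (nat_lit 25, nat_lit 22684639362), (nat_lit 73, nat_lit 23758381185)]⟩],
  [W_19479404672, W_17348960384, W_15202001024, W_14128263296]⟩
theorem C_19496972418 : chkRec R_19496972418 = true := by decide +kernel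

noncomputable def R_19496972481 : Rec := ⟨nat_lit 19496972481, nat_lit 33,
  [⟨V6_18372898881, [(nat_lit 78, nat_lit 19496972481), (nat_lit 110, nat_lit 20570714241), (nat_lit 70, nat_lit 20553937089), (nat_lit 115, nat_lit 21644456001), (nat_lit 61, nat_lit 21627678849), (nat_lit 57, nat_lit 21610901697), (nat_lit 86, nat_lit 22701420609), (nat_lit 70, nat_lit 22684643457), (nat_lit 49, nat_lit 22667866305), (nat_lit 91, nat_lit 23758385217), (nat_lit 49, nat_lit 23741608065), (nat_lit 31, nat_lit 24815349825)]⟩,
   ⟨V6_17348702400, [(nat_lit 67, nat_lit 19496972481), (nat_lit 90, nat_lit 20570714304), (nat_lit 12, nat_lit 20570452161), (nat_lit 4, nat_lit 21644193984), (nat_lit 40, nat_lit 21643931841), (nat_lit 29, nat_lit 22717673664), (nat_lit 36, nat_lit 22717411521), (nat_lit 83, nat_lit 23791153344)]⟩,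
   ⟨V6_17299157184, [(nat_lit 120, nat_lit 19496972481), (nat_lit 17, nat_lit 20570714304), (nat_lit 51, nat_lit 20553937089), (nat_lit 28, nat_lit 21627678912), (nat_lit 6, nat_lit 21610901697), (nat_lit 67, nat_lit 22684643520), (nat_lit 33, nat_lit 22667866305), (nat_lit 80, nat_lit 23741608128)]⟩,
   ⟨V6_16274960577, [(nat_lit 63, nat_lit 19496972481), (nat_lit 119, nat_lit 20570452161), (nat_lit 99, nat_lit 21643931841), (nat_lit 7, nat_lit 22717411521)]⟩,
   ⟨V6_16225415361, [(nat_lit 1, nat_lit 19496972481), (nat_lit 49, nat_lit 20553937089), (nat_lit 15, nat_lit 21610901697), (nat_lit 39, nat_lit 22667866305)]⟩],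
  [W_19495923776, W_19479408704, W_19479146624, W_19446378560, W_18422182016, W_17315934272, W_14128263296, W_14111486144]⟩
theorem C_19496972481 : chkRec R_19496972481 = true := by decide +kernel

noncomputable def R_19496976513 : Rec := ⟨nat_lit 19496976513, nat_lit 94,
  [⟨V6_18422448192, [(nat_lit 23, nat_lit 19496976513), (nat_lit 120, nat_lit 20570718336), (nat_lit 34, nat_lit 20570718273), (nat_lit 83, nat_lit 20570456193), (nat_lit 104, nat_lit 21644460096), (nat_lit 5, nat_lit 21644198016), (nat_lit 56, nat_lit 21644197953), (nat_lit 31, nat_lit 21643935873), (nat_lit 30, nat_lit 22717939776), (nat_lit 93, nat_lit 22717677696), (nat_lit 31, nat_lit 22717677633), (nat_lit 13, nat_lit 22717415553), (nat_lit 124, nat_lit 23791419456), (nat_lit 16, nat_lit 23791157376), (nat_lit 40, nat_lit 23791157313), (nat_lit 121, nat_lit 24864899136)]⟩,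
   ⟨V6_18405671040, [(nat_lit 86, nat_lit 19496976513), (nat_lit 43, nat_lit 20570718336), (nat_lit 106, nat_lit 20570456193), (nat_lit 54, nat_lit 20553941121), (nat_lit 87, nat_lit 21644198016), (nat_lit 24, nat_lit 21643935873), (nat_lit 102, nat_lit 21627682944), (nat_lit 58, nat_lit 21627420801), (nat_lit 45, nat_lit 22717677696), (nat_lit 78, nat_lit 22717415553), (nat_lit 76, nat_lit 22701162624), (nat_lit 64, nat_lit 22700900481), (nat_lit 60, nat_lit 23791157376), (nat_lit 30, nat_lit 23774642304), (nat_lit 18, nat_lit 23774380161), (nat_lit 23, nat_lit 24848121984)]⟩,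
   ⟨V6_18405670977, [(nat_lit 23, nat_lit 19496976513), (nat_lit 36, nat_lit 20570718273), (nat_lit 110, nat_lit 20570456193), (nat_lit 48, nat_lit 20553941121), (nat_lit 46, nat_lit 21644197953), (nat_lit 86, nat_lit 21643935873), (nat_lit 36, nat_lit 21627682881), (nat_lit 24, nat_lit 21627420801), (nat_lit 106, nat_lit 22717677633), (nat_lit 49, nat_lit 22717415553), (nat_lit 66, nat_lit 22701162561), (nat_lit 8, nat_lit 22700900481), (nat_lit 97, nat_lit 23791157313), (nat_lit 19, nat_lit 23774642241), (nat_lit 23, nat_lit 23774380161), (nat_lit 2, nat_lit 24848121921)]⟩,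
   ⟨V6_17348706369, [(nat_lit 103, nat_lit 19496976513), (nat_lit 61, nat_lit 20570718273), (nat_lit 18, nat_lit 20570456193), (nat_lit 118, nat_lit 21644197953), (nat_lit 34, nat_lit 21643935873), (nat_lit 95, nat_lit 22717677633), (nat_lit 8, nat_lit 22717415553), (nat_lit 32, nat_lit 23791157313)]⟩],
  [W_19463151680, W_19446636608, W_19446374528, W_18389409920, W_18372898880, W_17315934272, W_16242196544, W_15202001024, W_15201747008, W_15185231936, W_15168454784, W_14128267328, W_14128263296, W_13054525568]⟩
theorem C_19496976513 : chkRec R_19496976513 = true := by decide +kernel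

noncomputable def R_19496976576 : Rec := ⟨nat_lit 19496976576, nat_lit 134,
  [⟨V6_19496189952, [(nat_lit 54, nat_lit 19496976576), (nat_lit 31, nat_lit 20570718336), (nat_lit 110, nat_lit 20570456256), (nat_lit 3, nat_lit 21644460096), (nat_lit 71, nat_lit 21644198016), (nat_lit 22, nat_lit 21643935936), (nat_lit 16, nat_lit 22718201856), (nat_lit 17, nat_lit 22717939776), (nat_lit 73, nat_lit 22717677696), (nat_lit 111, nat_lit 22717415616), (nat_lit 121, nat_lit 23791681536), (nat_lit 49, nat_lit 23791419456), (nat_lit 95, nat_lit 23791157376), (nat_lit 86, nat_lit 24865161216), (nat_lit 13, nat_lit 24864899136), (nat_lit 105, nat_lit 25938640896)]⟩,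
   ⟨V6_19446644736, [(nat_lit 126, nat_lit 19496976576), (nat_lit 42, nat_lit 20570718336), (nat_lit 114, nat_lit 20553941184), (nat_lit 121, nat_lit 21644460096), (nat_lit 82, nat_lit 21627682944), (nat_lit 35, nat_lit 21610905792), (nat_lit 114, nat_lit 22718201856), (nat_lit 104, nat_lit 22701424704), (nat_lit 61, nat_lit 22684647552), (nat_lit 51, nat_lit 22667870400), (nat_lit 123, nat_lit 23775166464), (nat_lit 60, nat_lit 23758389312), (nat_lit 49, nat_lit 23741612160), (nat_lit 5, nat_lit 24832131072), (nat_lit 92, nat_lit 24815353920), (nat_lit 21, nat_lit 25889095680)]⟩,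
   ⟨V6_18422448192, [(nat_lit 82, nat_lit 19496976576), (nat_lit 104, nat_lit 20570718336), (nat_lit 118, nat_lit 20570456256), (nat_lit 31, nat_lit 21644460096), (nat_lit 78, nat_lit 21644198016), (nat_lit 16, nat_lit 21643935936), (nat_lit 117, nat_lit 22717939776), (nat_lit 39, nat_lit 22717677696), (nat_lit 120, nat_lit 22717415616), (nat_lit 13, nat_lit 23791419456), (nat_lit 58, nat_lit 23791157376), (nat_lit 66, nat_lit 24864899136)]⟩,
   ⟨V6_17331929280, [(nat_lit 30, nat_lit 19496976576), (nat_lit 15, nat_lit 20570456256), (nat_lit 122, nat_lit 20553941184), (nat_lit 92, nat_lit 21643935936), (nat_lit 82, nat_lit 21627420864), (nat_lit 108, nat_lit 22717415616), (nat_lit 30, nat_lit 22700900544), (nat_lit 52, nat_lit 23774380224)]⟩,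
   ⟨V6_16274964672, [(nat_lit 3, nat_lit 19496976576), (nat_lit 48, nat_lit 20570456256), (nat_lit 41, nat_lit 21643935936), (nat_lit 85, nat_lit 22717415616)]⟩],
  [W_19496185856, W_19463155712, W_19446382592, W_18389676032, W_18372898880, W_17315938304, W_15202009088, W_15201747008, W_15185231936, W_14128267328, W_14128263296, W_13054525568]⟩
theorem C_19496976576 : chkRec R_19496976576 = true := by decide +kernel

noncomputable def R_19496980545 : Rec := ⟨nat_lit 19496980545, nat_lit 67,
  [⟨V6_19446636609, [(nat_lit 105, nat_lit 19496980545), (nat_lit 107, nat_lit 20570718273), (nat_lit 103, nat_lit 20553945153), (nat_lit 100, nat_lit 21644456001), (nat_lit 47, nat_lit 21627682881), (nat_lit 102, nat_lit 21610909761), (nat_lit 126, nat_lit 22718193729), (nat_lit 108, nat_lit 22701420609), (nat_lit 5, nat_lit 22684647489), (nat_lit 111, nat_lit 22667874369), (nat_lit 112, nat_lit 23775158337), (nat_lit 7, nat_lit 23758385217), (nat_lit 88, nat_lit 23741612097), (nat_lit 68, nat_lit 24832122945), (nat_lit 81, nat_lit 24815349825), (nat_lit 73,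 nat_lit 25889087553)]⟩,
   ⟨V6_18423222336, [(nat_lit 89, nat_lit 19496980545), (nat_lit 122, nat_lit 20570722368), (nat_lit 22, nat_lit 20570718273), (nat_lit 66, nat_lit 21644460096), (nat_lit 41, nat_lit 21644456001), (nat_lit 17, nat_lit 22718197824), (nat_lit 102, nat_lit 22718193729), (nat_lit 86, nat_lit 23791935552), (nat_lit 71, nat_lit 23791931457), (nat_lit 44, nat_lit 24865673280)]⟩,
   ⟨V6_18372898881, [(nat_lit 103, nat_lit 19496980545), (nat_lit 21, nat_lit 20570718273), (nat_lit 16, nat_lit 20553945153), (nat_lit 100, nat_lit 21644456001), (nat_lit 118, nat_lit 21627682881), (nat_lit 98, nat_lit 21610909761), (nat_lit 61, nat_lit 22701420609), (nat_lit 83, nat_lit 22684647489), (nat_lit 103, nat_lit 22667874369), (nat_lit 101, nat_lit 23758385217), (nat_lit 19, nat_lit 23741612097), (nat_lit 32, nat_lit 24815349825)]⟩,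
   ⟨V6_17299161153, [(nat_lit 8, nat_lit 19496980545), (nat_lit 56, nat_lit 20570718273), (nat_lit 57, nat_lit 20553945153), (nat_lit 66, nat_lit 21627682881), (nat_lit 44, nat_lit 21610909761), (nat_lit 44, nat_lit 22684647489), (nat_lit 63, nat_lit 22667874369), (nat_lit 18, nat_lit 23741612097)]⟩],
  [W_19463409728, W_19463151680, W_18372640832, W_17315934272, W_16242196544, W_15201747008, W_15201488960, W_15185231936, W_13054529600]⟩
theorem C_19496980545 : chkRec R_19496980545 = true := by decide +kernel

noncomputable def R_19496980608 : Rec := ⟨nat_lit 19496980608, nat_lit 178,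
  [⟨V6_19496706048, [(nat_lit 71, nat_lit 19496980608), (nat_lit 41, nat_lit 20570722368), (nat_lit 61, nat_lit 20570718336), (nat_lit 43, nat_lit 20570460288), (nat_lit 77, nat_lit 21644464128), (nat_lit 8, nat_lit 21644460096), (nat_lit 25, nat_lit 21644456064), (nat_lit 35, nat_lit 21644202048), (nat_lit 95, nat_lit 21644198016), (nat_lit 122, nat_lit 22718201856), (nat_lit 37, nat_lit 22718197824), (nat_lit 101, nat_lit 22718193792), (nat_lit 21, nat_lit 22717943808), (nat_lit 113, nat_lit 22717939776), (nat_lit 45, nat_lit 22717935744), (nat_lit 60, nat_lit 23791939584), (nat_lit 74, nat_lit 23791935552), (nat_lit 23, nat_lit 23791681536), (nat_lit 41, nat_lit 23791677504), (nat_lit 110, nat_lit 23791673472), (nat_lit 8, nat_lit 24865677312), (nat_lit 112, nat_lit 24865419264), (nat_lit 96, nat_lit 24865415232), (nat_lit 72, nat_lit 25939156992)]⟩,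
   ⟨V6_18423226368, [(nat_lit 123, nat_lit 19496980608), (nat_lit 26, nat_lit 20570722368), (nat_lit 113, nat_lit 20570718336), (nat_lit 53, nat_lit 21644464128), (nat_lit 114, nat_lit 21644460096), (nat_lit 96, nat_lit 21644456064), (nat_lit 65, nat_lit 22718201856), (nat_lit 64, nat_lit 22718197824), (nat_lit 43, nat_lit 22718193792), (nat_lit 82, nat_lit 23791939584), (nat_lit 10, nat_lit 23791935552), (nat_lit 67, nat_lit 24865677312)]⟩],
  [W_19463155712, W_19446382592, W_18372898880, W_18372644864, W_18372640832, W_17315938304, W_17299157120, W_17298903104, W_16258453568, W_16242196544, W_16242192512, W_16241676416, W_16225423424, W_15202009088, W_15201747008, W_15201488960, W_15185231936, W_15184973888, W_15168458816, W_15168454784, W_15168196736, W_14128267328, W_14128263296, W_14127747200, W_14111494208, W_14111232128, W_14094717056, W_13054267520, W_13037752448, W_11980787840]⟩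
theorem C_19496980608 : chkRec R_19496980608 = true := by decide +kernel

noncomputable def R_19496984640 : Rec := ⟨nat_lit 19496984640, nat_lit 147,
  [⟨V6_19496964096, [(nat_lit 75, nat_lit 19496984640), (nat_lit 66, nat_lit 20570726400), (nat_lit 78, nat_lit 20570722368), (nat_lit 105, nat_lit 21644464128), (nat_lit 30, nat_lit 21644460096), (nat_lit 119, nat_lit 22718201856), (nat_lit 81, nat_lit 22718197824), (nat_lit 43, nat_lit 23791939584), (nat_lit 9, nat_lit 23791935552), (nat_lit 53, nat_lit 24865677312), (nat_lit 73, nat_lit 24865673280), (nat_lit 84, nat_lit 25939415040)]⟩,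
   ⟨V6_19480186944, [(nat_lit 6, nat_lit 19496984640), (nat_lit 48, nat_lit 20570722368), (nat_lit 79, nat_lit 20553949248), (nat_lit 9, nat_lit 21644460096), (nat_lit 84, nat_lit 21627686976), (nat_lit 64, nat_lit 22718197824), (nat_lit 26, nat_lit 22701424704), (nat_lit 80, nat_lit 23791935552), (nat_lit 55, nat_lit 23775162432), (nat_lit 93, nat_lit 24865673280), (nat_lit 20, nat_lit 24848900160), (nat_lit 112, nat_lit 25922637888)]⟩,
   ⟨V6_18423222336, [(nat_lit 97, nat_lit 19496984640), (nat_lit 36, nat_lit 20570722368), (nat_lit 56, nat_lit 21644460096), (nat_lit 49, nat_lit 22718197824), (nat_lit 75, nat_lit 23791935552), (nat_lit 50, nat_lit 24865673280)]⟩,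
   ⟨V6_16242204672, [(nat_lit 115, nat_lit 19496984640), (nat_lit 89, nat_lit 20570726400), (nat_lit 41, nat_lit 20553949248), (nat_lit 89, nat_lit 21627691008), (nat_lit 33, nat_lit 21610913856), (nat_lit 26, nat_lit 22684655616)]⟩],
  [W_19463413760, W_19463155712, W_19446382592, W_18389676032, W_18389417984, W_18372902912, W_18372644864, W_18372640832, W_17315938304, W_17299165184, W_17298907136, W_15202009088, W_15201747008, W_14128013312]⟩
theorem C_19496984640 : chkRec R_19496984640 = true := by decide +kernel

noncomputable def R_19496988672 : Rec := ⟨nat_lit 19496988672, nat_lit 42,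
  [⟨V6_19496964096, [(nat_lit 56, nat_lit 19496988672), (nat_lit 42, nat_lit 20570726400), (nat_lit 100, nat_lit 21644464128), (nat_lit 4, nat_lit 22718201856), (nat_lit 103, nat_lit 23791939584), (nat_lit 100, nat_lit 24865677312), (nat_lit 90, nat_lit 25939415040)]⟩,
   ⟨V6_17299169280, [(nat_lit 77, nat_lit 19496988672), (nat_lit 16, nat_lit 20570726400), (nat_lit 126, nat_lit 20553953280), (nat_lit 85, nat_lit 21627691008), (nat_lit 24, nat_lit 21610917888), (nat_lit 110, nat_lit 22684655616), (nat_lit 119, nat_lit 22667882496), (nat_lit 54, nat_lit 23741620224)]⟩],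
  [W_19446640640, W_18372902912, W_17315938304, W_16225427456, W_15202009088, W_15168462848]⟩
theorem C_19496988672 : chkRec R_19496988672 = true := by decide +kernel

noncomputable def R_19497230466 : Rec := ⟨nat_lit 19497230466, nat_lit 15,
  [⟨V6_15202263168, [(nat_lit 41, nat_lit 19497230466), (nat_lit 29, nat_lit 20570972289), (nat_lit 77, nat_lit 21644714112)]⟩],
  [W_19495919744, W_19462889600, W_18422440064, W_18405924992]⟩
theorem C_19497230466 : chkRec R_19497230466 = true := by decide +kernel

noncomputable def R_19497234561 : Rec := ⟨nat_lit 19497234561, nat_lit 70,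
  [⟨V6_16276004928, [(nat_lit 86, nat_lit 19497234561), (nat_lit 41, nat_lit 20570976384), (nat_lit 102, nat_lit 20570976321), (nat_lit 115, nat_lit 20570972289), (nat_lit 118, nat_lit 21644718144), (nat_lit 89, nat_lit 21644714112), (nat_lit 46, nat_lit 21644714049), (nat_lit 39, nat_lit 22718455872)]⟩,
   ⟨V6_16242450561, [(nat_lit 79, nat_lit 19497234561), (nat_lit 103, nat_lit 20570972289), (nat_lit 64, nat_lit 20554199169), (nat_lit 7, nat_lit 21627936897), (nat_lit 81, nat_lit 21611163777), (nat_lit 9, nat_lit 22684901505)]⟩],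
  [W_19496181824, W_19495923776, W_19495919744, W_19479408704, W_19479404672, W_19479146624, W_19463151680, W_19462889600, W_18422182016, W_18389672000, W_18389413952, W_17316192320, W_16242454592]⟩
theorem C_19497234561 : chkRec R_19497234561 = true := by decide +kernel

noncomputable def R_19497234624 : Rec := ⟨nat_lit 19497234624, nat_lit 69,
  [⟨V6_17348702400, [(nat_lit 37, nat_lit 19497234624), (nat_lit 62, nat_lit 20570714304), (nat_lit 63, nat_lit 21644193984), (nat_lit 68, nat_lit 22717673664), (nat_lit 10, nat_lit 23791153344)]⟩,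
   ⟨V6_16276008960, [(nat_lit 60, nat_lit 19497234624), (nat_lit 110, nat_lit 20570976384), (nat_lit 44, nat_lit 21644718144), (nat_lit 115, nat_lit 22718459904)]⟩],
  [W_19496185856, W_19495923776, W_19479408704, W_19479146624, W_19463155712, W_19462631552, W_18405666944, W_18389676032, W_17315934272, W_15168712832]⟩
theorem C_19497234624 : chkRec R_19497234624 = true := by decide +kernel

noncomputable def R_19497238593 : Rec := ⟨nat_lit 19497238593, nat_lit 73,
  [⟨V6_17348706369, [(nat_lit 59, nat_lit 19497238593), (nat_lit 92, nat_lit 20570718273), (nat_lit 73, nat_lit 21644197953), (nat_lit 105, nat_lit 22717677633), (nat_lit 64, nat_lit 23791157313)]⟩,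
   ⟨V6_16276004928, [(nat_lit 39, nat_lit 19497238593), (nat_lit 90, nat_lit 20570980416), (nat_lit 105, nat_lit 20570976321), (nat_lit 79, nat_lit 21644718144), (nat_lit 66, nat_lit 21644714049), (nat_lit 52, nat_lit 22718455872)]⟩],
  [W_19496439872, W_19496181824, W_19479924800, W_19463151680, W_19462635584, W_18406187072, W_16242454592, W_16242196544, W_15168716864]⟩
theorem C_19497238593 : chkRec R_19497238593 = true := by decide +kernel

noncomputable def R_19497238656 : Rec := ⟨nat_lit 19497238656, nat_lit 217,
  [⟨V6_19496706048, [(nat_lit 90, nat_lit 19497238656), (nat_lit 66, nat_lit 20570980416), (nat_lit 84, nat_lit 20570976384), (nat_lit 100, nat_lit 20570718336), (nat_lit 83, nat_lit 21644722176), (nat_lit 82, nat_lit 21644718144), (nat_lit 94, nat_lit 21644714112), (nat_lit 96, nat_lit 21644460096), (nat_lit 69, nat_lit 21644456064), (nat_lit 88, nat_lit 21644198016), (nat_lit 32, nat_lit 22718459904), (nat_lit 78, nat_lit 22718455872), (nat_lit 113, nat_lit 22718201856), (nat_lit 105, nat_lit 22718197824), (nat_lit 124, nat_lit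 22718193792), (nat_lit 71, nat_lit 22717939776), (nat_lit 16, nat_lit 22717935744), (nat_lit 90, nat_lit 23792197632), (nat_lit 26, nat_lit 23791939584), (nat_lit 16, nat_lit 23791935552), (nat_lit 13, nat_lit 23791681536), (nat_lit 104, nat_lit 23791677504), (nat_lit 14, nat_lit 23791673472), (nat_lit 48, nat_lit 24865677312), (nat_lit 19, nat_lit 24865419264), (nat_lit 79, nat_lit 24865415232), (nat_lit 17, nat_lit 25939156992)]⟩,
   ⟨V6_19496189952, [(nat_lit 74, nat_lit 19497238656), (nat_lit 117, nat_lit 20570980416), (nat_lit 59, nat_lit 20570718336), (nat_lit 70, nat_lit 21644722176), (nat_lit 32, nat_lit 21644460096), (nat_lit 114, nat_lit 21644198016), (nat_lit 78, nat_lit 22718201856), (nat_lit 5, nat_lit 22717939776), (nat_lit 55, nat_lit 22717677696), (nat_lit 91, nat_lit 23791681536), (nat_lit 55, nat_lit 23791419456), (nat_lit 103, nat_lit 23791157376), (nat_lit 72, nat_lit 24865161216), (nat_lit 102, nat_lit 24864899136), (nat_lit 62, nat_lit 25938640896)]⟩,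
   ⟨V6_18422448192, [(nat_lit 17, nat_lit 19497238656), (nat_lit 80, nat_lit 20570980416), (nat_lit 116, nat_lit 20570718336), (nat_lit 119, nat_lit 21644460096), (nat_lit 68, nat_lit 21644198016), (nat_lit 12, nat_lit 22717939776), (nat_lit 52, nat_lit 22717677696), (nat_lit 12, nat_lit 23791419456), (nat_lit 107, nat_lit 23791157376), (nat_lit 88, nat_lit 24864899136)]⟩,
   ⟨V6_18405671040, [(nat_lit 122, nat_lit 19497238656), (nat_lit 122, nat_lit 20570718336), (nat_lit 94, nat_lit 20554203264), (nat_lit 91, nat_lit 21644198016), (nat_lit 74, nat_lit 21627682944), (nat_lit 103, nat_lit 22717677696), (nat_lit 40, nat_lit 22701162624), (nat_lit 52, nat_lit 23791157376), (nat_lit 56, nat_lit 23774642304), (nat_lit 53, nat_lit 24848121984)]⟩],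
  [W_19463413760, W_18422448128, W_18389934080, W_18389676032, W_17316196352, W_17316192320, W_17315938304, W_16242458624, W_16242454592, W_16242450560, W_16242196544, W_15202009088, W_15202001024, W_15185494016, W_15185231936, W_15168712832, W_15168454784, W_14128529408, W_14128525376, W_14128521344, W_14128267328, W_14111748224, W_13054787648, W_13054783616, W_13054525568, W_13038010496, W_11981045888]⟩
theorem C_19497238656 : chkRec R_19497238656 = true := by decide +kernel

noncomputable def R_19497242688 : Rec := ⟨nat_lit 19497242688, nat_lit 208,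
  [⟨V6_18423484416, [(nat_lit 24, nat_lit 19497242688), (nat_lit 88, nat_lit 20570984448), (nat_lit 115, nat_lit 20570980416), (nat_lit 60, nat_lit 21644722176), (nat_lit 20, nat_lit 21644718144), (nat_lit 105, nat_lit 22718459904), (nat_lit 19, nat_lit 22718455872), (nat_lit 13, nat_lit 23792197632), (nat_lit 119, nat_lit 23792193600), (nat_lit 64, nat_lit 24865935360)]⟩,
   ⟨V6_18423222336, [(nat_lit 83, nat_lit 19497242688), (nat_lit 109, nat_lit 20570980416), (nat_lit 94, nat_lit 20570722368), (nat_lit 70, nat_lit 21644718144), (nat_lit 11, nat_lit 21644460096), (nat_lit 113, nat_lit 22718455872), (nat_lit 16, nat_lit 22718197824), (nat_lit 117, nat_lit 23792193600), (nat_lit 115, nat_lit 23791935552), (nat_lit 23, nat_lit 24865673280)]⟩,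
   ⟨V6_18406707264, [(nat_lit 93, nat_lit 19497242688), (nat_lit 121, nat_lit 20570980416), (nat_lit 50, nat_lit 20554207296), (nat_lit 7, nat_lit 21644718144), (nat_lit 122, nat_lit 21627945024), (nat_lit 51, nat_lit 22718455872), (nat_lit 100, nat_lit 22701682752), (nat_lit 70, nat_lit 23792193600), (nat_lit 80, nat_lit 23775420480), (nat_lit 76, nat_lit 24849158208)]⟩,
   ⟨V6_17349746688, [(nat_lit 25, nat_lit 19497242688), (nat_lit 26, nat_lit 20570984448), (nat_lit 23, nat_lit 20570980416), (nat_lit 99, nat_lit 21644722176), (nat_lit 66, nat_lit 21644718144), (nat_lit 17, nat_lit 22718459904), (nat_lit 31, nat_lit 22718455872), (nat_lit 53, nat_lit 23792197632)]⟩,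
   ⟨V6_17349742656, [(nat_lit 84, nat_lit 19497242688), (nat_lit 52, nat_lit 20570980416), (nat_lit 62, nat_lit 21644718144), (nat_lit 61, nat_lit 22718455872), (nat_lit 68, nat_lit 23792193600)]⟩],
  [W_19480186880, W_19463671808, W_19463413760, W_19463155712, W_18389934080, W_18389676032, W_17316196352, W_17315938304, W_16242458624, W_16242454592, W_16242196544, W_15202009088, W_15201747008, W_15201488960, W_15185494016, W_15185231936, W_15168720896, W_15168716864, W_15168458816, W_14094979136]⟩
theorem C_19497242688 : chkRec R_19497242688 = true := by decide +kernel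

noncomputable def R_19497246720 : Rec := ⟨nat_lit 19497246720, nat_lit 136,
  [⟨V6_18423484416, [(nat_lit 3, nat_lit 19497246720), (nat_lit 98, nat_lit 20570984448), (nat_lit 96, nat_lit 21644722176), (nat_lit 84, nat_lit 22718459904), (nat_lit 56, nat_lit 23792197632), (nat_lit 122, nat_lit 24865935360)]⟩,
   ⟨V6_17349746688, [(nat_lit 95, nat_lit 19497246720), (nat_lit 104, nat_lit 20570984448), (nat_lit 6, nat_lit 21644722176), (nat_lit 39, nat_lit 22718459904), (nat_lit 72, nat_lit 23792197632)]⟩,
   ⟨V6_15168724992, [(nat_lit 94, nat_lit 19497246720), (nat_lit 33, nat_lit 20554211328), (nat_lit 118, nat_lit 21611175936)]⟩],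
  [W_19480444928, W_19480186880, W_19463413760, W_19463155712, W_18389676032, W_18389417984, W_17315938304, W_15202009088, W_15168462848, W_14128013312]⟩
theorem C_19497246720 : chkRec R_19497246720 = true := by decide +kernel

noncomputable def R_19497492609 : Rec := ⟨nat_lit 19497492609, nat_lit 29,
  [⟨V6_15202263168, [(nat_lit 79, nat_lit 19497492609), (nat_lit 123, nat_lit 20571234432), (nat_lit 19, nat_lit 20570972289), (nat_lit 83, nat_lit 21644714112)]⟩],
  [W_19496181824, W_19495919744, W_19479404672, W_18406187072]⟩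
theorem C_19497492609 : chkRec R_19497492609 = true := by decide +kernel

noncomputable def R_19497496641 : Rec := ⟨nat_lit 19497496641, nat_lit 47,
  [⟨V6_15202267200, [(nat_lit 30, nat_lit 19497496641), (nat_lit 66, nat_lit 20571238464), (nat_lit 4, nat_lit 20570976321), (nat_lit 91, nat_lit 21644718144)]⟩],
  [W_19496439872, W_19496181824, W_19495923776, W_19479924800, W_19479408704, W_18406187072, W_16259485760]⟩
theorem C_19497496641 : chkRec R_19497496641 = true := by decide +kernel

noncomputable def R_19497496704 : Rec := ⟨nat_lit 19497496704, nat_lit 118,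
  [⟨V6_17349746688, [(nat_lit 30, nat_lit 19497496704), (nat_lit 86, nat_lit 20571238464), (nat_lit 56, nat_lit 20571234432), (nat_lit 23, nat_lit 20570976384), (nat_lit 62, nat_lit 21644980224), (nat_lit 56, nat_lit 21644976192), (nat_lit 102, nat_lit 21644718144), (nat_lit 53, nat_lit 21644714112), (nat_lit 72, nat_lit 22718717952), (nat_lit 115, nat_lit 22718459904), (nat_lit 87, nat_lit 22718455872), (nat_lit 80, nat_lit 23792197632)]⟩,
   ⟨V6_16276008960, [(nat_lit 117, nat_lit 19497496704), (nat_lit 7, nat_lit 20571238464), (nat_lit 74, nat_lit 20570976384), (nat_lit 125, nat_lit 21644980224), (nat_lit 99, nat_lit 21644718144), (nat_lit 44, nat_lit 22718459904)]⟩],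
  [W_19496185856, W_19496181824, W_19495923776, W_19495919744, W_19479408704, W_19479404672, W_19479146624, W_18422440064, W_18422182016, W_18405924992, W_18405666944, W_16259489792, W_15202525184, W_15202001024, W_15185752064, W_15185748032, W_15185489984, W_15185485952, W_14128787456, W_14128783424, W_14112010304, W_13055045696, W_13038268544]⟩
theorem C_19497496704 : chkRec R_19497496704 = true := by decide +kernel

noncomputable def R_19497500736 : Rec := ⟨nat_lit 19497500736, nat_lit 173,
  [⟨V6_19496189952, [(nat_lit 3, nat_lit 19497500736), (nat_lit 13, nat_lit 20571242496), (nat_lit 96, nat_lit 20570980416), (nat_lit 2, nat_lit 21644722176), (nat_lit 18, nat_lit 21644460096), (nat_lit 74, nat_lit 22718201856), (nat_lit 115, nat_lit 22717939776), (nat_lit 7, nat_lit 23791681536), (nat_lit 108, nat_lit 23791419456), (nat_lit 23, nat_lit 24865161216), (nat_lit 24, nat_lit 24864899136), (nat_lit 125, nat_lit 25938640896)]⟩,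
   ⟨V6_18422448192, [(nat_lit 37, nat_lit 19497500736), (nat_lit 121, nat_lit 20570980416), (nat_lit 59, nat_lit 21644460096), (nat_lit 22, nat_lit 22717939776), (nat_lit 109, nat_lit 23791419456), (nat_lit 73, nat_lit 24864899136)]⟩,
   ⟨V6_17349746688, [(nat_lit 23, nat_lit 19497500736), (nat_lit 112, nat_lit 20571242496), (nat_lit 110, nat_lit 20571238464), (nat_lit 89, nat_lit 20570980416), (nat_lit 56, nat_lit 21644980224), (nat_lit 12, nat_lit 21644976192), (nat_lit 59, nat_lit 21644722176), (nat_lit 86, nat_lit 21644718144), (nat_lit 90, nat_lit 22718717952), (nat_lit 63, nat_lit 22718459904), (nat_lit 9, nat_lit 22718455872), (nat_lit 22, nat_lit 23792197632)]⟩,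
   ⟨V6_17349742656, [(nat_lit 96, nat_lit 19497500736), (nat_lit 54, nat_lit 20571238464), (nat_lit 19, nat_lit 20570980416), (nat_lit 25, nat_lit 21644976192), (nat_lit 50, nat_lit 21644718144), (nat_lit 11, nat_lit 22718713920), (nat_lit 30, nat_lit 22718455872), (nat_lit 63, nat_lit 23792193600)]⟩],
  [W_19496185856, W_19480186880, W_19479412736, W_18422448128, W_18406707200, W_17333227520, W_16276262912, W_16259489792, W_16259485760, W_15202525184, W_15202009088, W_15201747008, W_15185752064, W_15185748032, W_15185494016, W_15185231936, W_14128267328]⟩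
theorem C_19497500736 : chkRec R_19497500736 = true := by decide +kernel

noncomputable def R_19497504768 : Rec := ⟨nat_lit 19497504768, nat_lit 121,
  [⟨V6_18423742464, [(nat_lit 51, nat_lit 19497504768), (nat_lit 29, nat_lit 20571242496), (nat_lit 19, nat_lit 21644980224), (nat_lit 110, nat_lit 22718717952), (nat_lit 14, nat_lit 23792455680), (nat_lit 116, nat_lit 24866193408)]⟩,
   ⟨V6_17349746688, [(nat_lit 4, nat_lit 19497504768), (nat_lit 16, nat_lit 20571242496), (nat_lit 46, nat_lit 20570984448), (nat_lit 3, nat_lit 21644980224), (nat_lit 107, nat_lit 21644722176), (nat_lit 111, nat_lit 22718717952), (nat_lit 105, nat_lit 22718459904), (nat_lit 21, nat_lit 23792197632)]⟩,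
   ⟨V6_16276267008, [(nat_lit 99, nat_lit 19497504768), (nat_lit 124, nat_lit 20571242496), (nat_lit 87, nat_lit 21644980224), (nat_lit 64, nat_lit 22718717952)]⟩],
  [W_19496960000, W_19480444928, W_19480186880, W_18406965248, W_18406707200, W_17350000640, W_17333227520, W_17332195328, W_16275230720, W_15202009088, W_15185752064, W_15185494016, W_14128787456, W_14112014336]⟩
theorem C_19497504768 : chkRec R_19497504768 = true := by decide +kernel

noncomputable def R_19497754689 : Rec := ⟨nat_lit 19497754689, nat_lit 15,
  [⟨V6_19496439873, [(nat_lit 88, nat_lit 19497754689), (nat_lit 8, nat_lit 20571492417), (nat_lit 120, nat_lit 20571234369), (nat_lit 63, nat_lit 21644972097), (nat_lit 70, nat_lit 21644714049), (nat_lit 122, nat_lit 22718451777), (nat_lit 102, nat_lit 22718193729), (nat_lit 64, nat_lit 23791931457), (nat_lit 40, nat_lit 23791673409), (nat_lit 124, nat_lit 24865411137), (nat_lit 52, nat_lit 24865153089), (nat_lit 115, nat_lit 25938890817)]⟩,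
   ⟨V6_15202783296, [(nat_lit 79, nat_lit 19497754689), (nat_lit 14, nat_lit 20571496512), (nat_lit 48, nat_lit 20571492417), (nat_lit 16, nat_lit 21645234240)]⟩,
   ⟨V6_14129041473, [(nat_lit 107, nat_lit 19497754689), (nat_lit 14, nat_lit 20571492417)]⟩],
  [W_19496181824, W_14128783424, W_13055303744]⟩
theorem C_19497754689 : chkRec R_19497754689 = true := by decide +kernel

noncomputable def R_19497754752 : Rec := ⟨nat_lit 19497754752, nat_lit 45,
  [⟨V6_15202787328, [(nat_lit 49, nat_lit 19497754752), (nat_lit 10, nat_lit 20571496512), (nat_lit 25, nat_lit 21645238272)]⟩,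
   ⟨V6_15202263168, [(nat_lit 62, nat_lit 19497754752), (nat_lit 94, nat_lit 20571234432), (nat_lit 89, nat_lit 21644714112)]⟩],
  [W_19496443904, W_19496181824, W_18422440064, W_14128783424, W_13055303744]⟩
theorem C_19497754752 : chkRec R_19497754752 = true := by decide +kernel

noncomputable def R_19497758784 : Rec := ⟨nat_lit 19497758784, nat_lit 81,
  [⟨V6_17349742656, [(nat_lit 116, nat_lit 19497758784), (nat_lit 54, nat_lit 20571496512), (nat_lit 20, nat_lit 20571238464), (nat_lit 52, nat_lit 21645234240), (nat_lit 52, nat_lit 21644976192), (nat_lit 72, nat_lit 21644718144), (nat_lit 38, nat_lit 22718713920), (nat_lit 26, nat_lit 22718455872), (nat_lit 108, nat_lit 23792193600)]⟩,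
   ⟨V6_15202787328, [(nat_lit 36, nat_lit 19497758784), (nat_lit 120, nat_lit 20571500544), (nat_lit 105, nat_lit 20571496512), (nat_lit 108, nat_lit 21645238272)]⟩,
   ⟨V6_15202529280, [(nat_lit 39, nat_lit 19497758784), (nat_lit 108, nat_lit 20571500544), (nat_lit 87, nat_lit 20571238464), (nat_lit 113, nat_lit 21644980224)]⟩],
  [W_19496701952, W_19496439872, W_19496185856, W_19496181824, W_19495923776, W_17349742592, W_14129045504]⟩
theorem C_19497758784 : chkRec R_19497758784 = true := by decide +kernel

noncomputable def R_19497762816 : Rec := ⟨nat_lit 19497762816, nat_lit 87,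
  [⟨V6_19496189952, [(nat_lit 85, nat_lit 19497762816), (nat_lit 79, nat_lit 20571242496), (nat_lit 110, nat_lit 21644722176), (nat_lit 60, nat_lit 22718201856), (nat_lit 58, nat_lit 23791681536), (nat_lit 41, nat_lit 24865161216), (nat_lit 69, nat_lit 25938640896)]⟩,
   ⟨V6_18423742464, [(nat_lit 88, nat_lit 19497762816), (nat_lit 10, nat_lit 20571500544), (nat_lit 32, nat_lit 20571242496), (nat_lit 81, nat_lit 21645238272), (nat_lit 98, nat_lit 21644980224), (nat_lit 33, nat_lit 22718976000), (nat_lit 19, nat_lit 22718717952), (nat_lit 40, nat_lit 23792713728), (nat_lit 38, nat_lit 23792455680), (nat_lit 84, nat_lit 24866193408)]⟩,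
   ⟨V6_17350262784, [(nat_lit 9, nat_lit 19497762816), (nat_lit 97, nat_lit 20571500544), (nat_lit 78, nat_lit 21645238272), (nat_lit 32, nat_lit 22718976000), (nat_lit 102, nat_lit 23792713728)]⟩,
   ⟨V6_15202787328, [(nat_lit 84, nat_lit 19497762816), (nat_lit 48, nat_lit 20571500544), (nat_lit 116, nat_lit 21645238272)]⟩],
  [W_19496185856, W_18422448128, W_16276262912, W_15202009088, W_14129045504, W_14128787456, W_14128529408, W_11981570048]⟩
theorem C_19497762816 : chkRec R_19497762816 = true := by decide +kernel

noncomputable def R_19512967362 : Rec := ⟨nat_lit 19512967362, nat_lit 8,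
  [⟨V6_15218000064, [(nat_lit 50, nat_lit 19512967362), (nat_lit 119, nat_lit 20586709185), (nat_lit 97, nat_lit 21660451008)]⟩],
  [W_19445858432, W_19429081280, W_18405666944]⟩
theorem C_19512967362 : chkRec R_19512967362 = true := by decide +kernel

noncomputable def R_19512967425 : Rec := ⟨nat_lit 19512967425, nat_lit 11,
  [⟨V6_16291741761, [(nat_lit 28, nat_lit 19512967425), (nat_lit 54, nat_lit 20586709185), (nat_lit 33, nat_lit 21660450945), (nat_lit 106, nat_lit 22734192705)]⟩,
   ⟨V6_14127481089, [(nat_lit 58, nat_lit 19512967425), (nat_lit 23, nat_lit 20569932033)]⟩],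
  [W_19462635584, W_19429081280, W_18388893824]⟩
theorem C_19512967425 : chkRec R_19512967425 = true := by decide +kernel

noncomputable def R_19513225410 : Rec := ⟨nat_lit 19513225410, nat_lit 7,
  [⟨V6_16291475586, [(nat_lit 5, nat_lit 19513225410), (nat_lit 125, nat_lit 20586967170), (nat_lit 70, nat_lit 20586705090), (nat_lit 4, nat_lit 21660446850), (nat_lit 44, nat_lit 21660184770), (nat_lit 50, nat_lit 22733926530)]⟩,
   ⟨V6_16274960577, [(nat_lit 53, nat_lit 19513225410), (nat_lit 67, nat_lit 20586967233), (nat_lit 119, nat_lit 20586705090), (nat_lit 43, nat_lit 20570190018), (nat_lit 10, nat_lit 21660446913), (nat_lit 7, nat_lit 21643931841), (nat_lit 104, nat_lit 21643669698), (nat_lit 31, nat_lit 22717411521)]⟩,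
   ⟨V6_14144254146, [(nat_lit 77, nat_lit 19513225410), (nat_lit 63, nat_lit 20586705090)]⟩,
   ⟨V6_13070774466, [(nat_lit 88, nat_lit 19513225410)]⟩],
  [W_19479146624, W_19462631552, W_19446116480, W_18372374720]⟩
theorem C_19513225410 : chkRec R_19513225410 = true := by decide +kernel

noncomputable def R_19513229442 : Rec := ⟨nat_lit 19513229442, nat_lit 18,
  [⟨V6_16291741824, [(nat_lit 94, nat_lit 19513229442), (nat_lit 45, nat_lit 20586971265), (nat_lit 33, nat_lit 20586709122), (nat_lit 3, nat_lit 21660713088), (nat_lit 117, nat_lit 21660450945), (nat_lit 54, nat_lit 22734192768)]⟩],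
  [W_19462889600, W_19462631552, W_19446116480, W_19429343360, W_18422440064, W_18372378752]⟩
theorem C_19513229442 : chkRec R_19513229442 = true := by decide +kernel

noncomputable def R_19513229505 : Rec := ⟨nat_lit 19513229505, nat_lit 38,
  [⟨V6_16291741824, [(nat_lit 118, nat_lit 19513229505), (nat_lit 50, nat_lit 20586971328), (nat_lit 58, nat_lit 20586971265), (nat_lit 55, nat_lit 20586709185), (nat_lit 82, nat_lit 21660713088), (nat_lit 112, nat_lit 21660451008), (nat_lit 97, nat_lit 21660450945), (nat_lit 116, nat_lit 22734192768)]⟩,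
   ⟨V6_16291741761, [(nat_lit 22, nat_lit 19513229505), (nat_lit 126, nat_lit 20586971265), (nat_lit 7, nat_lit 20586709185), (nat_lit 10, nat_lit 21660713025), (nat_lit 52, nat_lit 21660450945), (nat_lit 51, nat_lit 22734192705)]⟩],
  [W_19479408704, W_19462893632, W_19462635584, W_19462631552, W_19446120512, W_19446116480, W_19429343360, W_19429081280, W_18372374720, W_18372116672, W_15218262080]⟩
theorem C_19513229505 : chkRec R_19513229505 = true := by decide +kernel

noncomputable def R_19513229568 : Rec := ⟨nat_lit 19513229568, nat_lit 36,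
  [⟨V6_18439225344, [(nat_lit 92, nat_lit 19513229568), (nat_lit 59, nat_lit 20586971328), (nat_lit 45, nat_lit 20586709248), (nat_lit 126, nat_lit 21660713088), (nat_lit 53, nat_lit 21660451008), (nat_lit 117, nat_lit 22734454848), (nat_lit 85, nat_lit 22734192768), (nat_lit 50, nat_lit 23808196608), (nat_lit 7, nat_lit 23807934528), (nat_lit 91, nat_lit 24881676288)]⟩,
   ⟨V6_14144258304, [(nat_lit 111, nat_lit 19513229568), (nat_lit 10, nat_lit 20586709248)]⟩],
  [W_19479412736, W_19429343360, W_19429081280, W_18422448128, W_18355339520, W_17298374912, W_15218262080, W_15167930624, W_13054001408]⟩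
theorem C_19513229568 : chkRec R_19513229568 = true := by decide +kernel

noncomputable def R_19513233537 : Rec := ⟨nat_lit 19513233537, nat_lit 29,
  [⟨V6_17365737600, [(nat_lit 8, nat_lit 19513233537), (nat_lit 118, nat_lit 20586975360), (nat_lit 89, nat_lit 20586971265), (nat_lit 73, nat_lit 21660713088), (nat_lit 38, nat_lit 21660708993), (nat_lit 88, nat_lit 22734450816), (nat_lit 29, nat_lit 22734446721), (nat_lit 126, nat_lit 23808188544)]⟩],
  [W_19446120512, W_18405929024, W_16258453568, W_15218262080, W_14144524352]⟩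
theorem C_19513233537 : chkRec R_19513233537 = true := by decide +kernel

noncomputable def R_19513233600 : Rec := ⟨nat_lit 19513233600, nat_lit 43,
  [⟨V6_17348972544, [(nat_lit 110, nat_lit 19513233600), (nat_lit 126, nat_lit 20586975360), (nat_lit 76, nat_lit 20570198208), (nat_lit 28, nat_lit 21660717120), (nat_lit 70, nat_lit 21643939968), (nat_lit 124, nat_lit 22734458880), (nat_lit 13, nat_lit 22717681728), (nat_lit 28, nat_lit 23791423488)]⟩,
   ⟨V6_16292007936, [(nat_lit 20, nat_lit 19513233600), (nat_lit 79, nat_lit 20586975360), (nat_lit 57, nat_lit 21660717120), (nat_lit 123, nat_lit 22734458880)]⟩],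
  [W_19462897664, W_19462893632, W_19446124544, W_19446120512, W_19446116480, W_19429343360, W_18389151872, W_18372374720, W_15218262080, W_14144516288, W_14110970048, W_11997040832]⟩
theorem C_19513233600 : chkRec R_19513233600 = true := by decide +kernel

noncomputable def R_19513487490 : Rec := ⟨nat_lit 19513487490, nat_lit 23,
  [⟨V6_19446374529, [(nat_lit 63, nat_lit 19513487490), (nat_lit 125, nat_lit 20587229313), (nat_lit 110, nat_lit 20587225218), (nat_lit 16, nat_lit 20570452098), (nat_lit 114, nat_lit 21660967041), (nat_lit 16, nat_lit 21644193921), (nat_lit 71, nat_lit 21644189826), (nat_lit 101, nat_lit 21627416706), (nat_lit 64, nat_lit 22717931649), (nat_lit 20, nat_lit 22701158529), (nat_lit 8, nat_lit 22701154434), (nat_lit 118, nat_lit 22684381314), (nat_lit 81, nat_lit 23774896257), (nat_lit 112, nat_lit 23758123137), (nat_lit 7, nat_lit 23758119042), (nat_lit 67, nat_lit 23741345922), (nat_lit 29, nat_lit 24831860865), (nat_lit 85, nat_lit 24815087745), (nat_lit 30, nat_lit 24815083650), (nat_lit 103, nat_lit 25888825473)]⟩,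
   ⟨V6_16291995777, [(nat_lit 94, nat_lit 19513487490), (nat_lit 88, nat_lit 20587229313), (nat_lit 6, nat_lit 20587225218), (nat_lit 89, nat_lit 20586967170), (nat_lit 109, nat_lit 21660967041), (nat_lit 47, nat_lit 21660708993), (nat_lit 32, nat_lit 21660704898), (nat_lit 29, nat_lit 22734446721)]⟩],
  [W_19495919744, W_19479404672, W_19429601408, W_18422182016, W_17365475456, W_17365217408, W_17348960384]⟩
theorem C_19513487490 : chkRec R_19513487490 = true := by decide +kernel

noncomputable def R_19513487553 : Rec := ⟨nat_lit 19513487553, nat_lit 33,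
  [⟨V6_19495923777, [(nat_lit 58, nat_lit 19513487553), (nat_lit 80, nat_lit 20587229313), (nat_lit 73, nat_lit 20586967233), (nat_lit 51, nat_lit 20570452161), (nat_lit 41, nat_lit 21660971073), (nat_lit 10, nat_lit 21660708993), (nat_lit 22, nat_lit 21660446913), (nat_lit 14, nat_lit 21644193921), (nat_lit 42, nat_lit 21643931841), (nat_lit 47, nat_lit 22734450753), (nat_lit 96, nat_lit 22734188673), (nat_lit 58, nat_lit 22733926593), (nat_lit 36, nat_lit 22717935681), (nat_lit 78, nat_lit 22717673601), (nat_lit 116, nat_lit 22717411521), (nat_lit 89, nat_lit 23807930433), (nat_lit 100, nat_lit 23807668353), (nat_lit 99, nat_lit 23791415361), (nat_lit 104, nat_lit 23791153281), (nat_lit 29, nat_lit 23790891201), (nat_lit 113, nat_lit 24881410113), (nat_lit 74, nat_lit 24864895041), (nat_lit 61, nat_lit 24864632961), (nat_lit 73, nat_lit 25938374721)]⟩,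
   ⟨V6_19462631616, [(nat_lit 116, nat_lit 19513487553), (nat_lit 105, nat_lit 20587229376), (nat_lit 56, nat_lit 20586967233), (nat_lit 54, nat_lit 20570452161), (nat_lit 15, nat_lit 21660709056), (nat_lit 1, nat_lit 21660446913), (nat_lit 5, nat_lit 21644193984), (nat_lit 89, nat_lit 21643931841), (nat_lit 76, nat_lit 21627416769), (nat_lit 35, nat_lit 22734188736), (nat_lit 107, nat_lit 22717673664), (nat_lit 123, nat_lit 22717411521), (nat_lit 117, nat_lit 22701158592), (nat_lit 105, nat_lit 22700896449), (nat_lit 28, nat_lit 22684381377), (nat_lit 97, nat_lit 23791153344), (nat_lit 84, nat_lit 23774638272), (nat_lit 125, nat_lit 23774376129), (nat_lit 27, nat_lit 23758123200), (nat_lit 68, nat_lit 23757861057), (nat_lit 28, nat_lit 24848117952), (nat_lit 7, nat_lit 24831602880), (nat_lit 43, nat_lit 24831340737), (nat_lit 43, nat_lit 25905082560)]⟩,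
   ⟨V6_19429601472, [(nat_lit 9, nat_lit 19513487553), (nat_lit 112, nat_lit 20587229376), (nat_lit 66, nat_lit 20570452161), (nat_lit 49, nat_lit 21644193984), (nat_lit 44, nat_lit 21627416769), (nat_lit 114, nat_lit 22701158592), (nat_lit 126, nat_lit 22684381377), (nat_lit 121, nat_lit 23758123200), (nat_lit 64, nat_lit 23741345985), (nat_lit 57, nat_lit 24815087808), (nat_lit 21, nat_lit 24798310593), (nat_lit 86, nat_lit 25872052416)]⟩,
   ⟨V6_18388889793, [(nat_lit 61, nat_lit 19513487553), (nat_lit 108, nat_lit 20586967233), (nat_lit 36, nat_lit 20570452161), (nat_lit 100, nat_lit 21660446913), (nat_lit 10, nat_lit 21643931841), (nat_lit 107, nat_lit 21627416769), (nat_lit 12, nat_lit 22717411521), (nat_lit 73, nat_lit 22700896449), (nat_lit 89, nat_lit 22684381377), (nat_lit 11, nat_lit 23774376129), (nat_lit 109, nat_lit 23757861057), (nat_lit 122, nat_lit 24831340737)]⟩,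
   ⟨V6_18355859649, [(nat_lit 54, nat_lit 19513487553), (nat_lit 44, nat_lit 20570452161), (nat_lit 82, nat_lit 21627416769), (nat_lit 83, nat_lit 22684381377), (nat_lit 103, nat_lit 23741345985), (nat_lit 49, nat_lit 24798310593)]⟩,
   ⟨V6_17365217472, [(nat_lit 71, nat_lit 19513487553), (nat_lit 47, nat_lit 20587229376), (nat_lit 75, nat_lit 20586967233), (nat_lit 38, nat_lit 21660709056), (nat_lit 12, nat_lit 21660446913), (nat_lit 46, nat_lit 22734188736), (nat_lit 36, nat_lit 22733926593), (nat_lit 73, nat_lit 23807668416)]⟩,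
   ⟨V6_17348702400, [(nat_lit 112, nat_lit 19513487553), (nat_lit 15, nat_lit 20587229376), (nat_lit 86, nat_lit 20586967233), (nat_lit 105, nat_lit 20570452161), (nat_lit 86, nat_lit 21660709056), (nat_lit 85, nat_lit 21660446913), (nat_lit 41, nat_lit 21644193984), (nat_lit 92, nat_lit 21643931841), (nat_lit 100, nat_lit 22734188736), (nat_lit 56, nat_lit 22717673664), (nat_lit 42, nat_lit 22717411521), (nat_lit 33, nat_lit 23791153344)]⟩,
   ⟨V6_16274960577, [(nat_lit 31, nat_lit 19513487553), (nat_lit 75, nat_lit 20586967233), (nat_lit 57, nat_lit 20570452161), (nat_lit 53, nat_lit 21660446913), (nat_lit 88, nat_lit 21643931841), (nat_lit 114, nat_lit 22717411521)]⟩],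
  [W_19479408704, W_19446378560, W_19446116480, W_19429601408, W_18438959168, W_18389413952, W_14128001216, W_13071036608]⟩
theorem C_19513487553 : chkRec R_19513487553 = true := by decide +kernel

noncomputable def R_19513491585 : Rec := ⟨nat_lit 19513491585, nat_lit 95,
  [⟨V6_18405671040, [(nat_lit 67, nat_lit 19513491585), (nat_lit 107, nat_lit 20587233408), (nat_lit 78, nat_lit 20586971265), (nat_lit 91, nat_lit 20570456193), (nat_lit 101, nat_lit 21660713088), (nat_lit 81, nat_lit 21660450945), (nat_lit 70, nat_lit 21644198016), (nat_lit 112, nat_lit 21643935873), (nat_lit 1, nat_lit 21627420801), (nat_lit 28, nat_lit 22734192768), (nat_lit 119, nat_lit 22717677696), (nat_lit 65, nat_lit 22717415553), (nat_lit 93, nat_lit 22701162624), (nat_lit 112, nat_lit 22700900481), (nat_lit 113, nat_lit 23791157376), (nat_lit 125, nat_lit 23774642304), (nat_lit 85, nat_lit 23774380161), (nat_lit 98, nat_lit 24848121984)]⟩,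
   ⟨V6_17365483584, [(nat_lit 106, nat_lit 19513491585), (nat_lit 109, nat_lit 20587233408), (nat_lit 18, nat_lit 20587233345), (nat_lit 6, nat_lit 20586971265), (nat_lit 75, nat_lit 21660975168), (nat_lit 13, nat_lit 21660713088), (nat_lit 17, nat_lit 21660713025), (nat_lit 91, nat_lit 21660450945), (nat_lit 35, nat_lit 22734454848), (nat_lit 95, nat_lit 22734192768), (nat_lit 116, nat_lit 22734192705), (nat_lit 34, nat_lit 23807934528)]⟩,
   ⟨V6_16291741824, [(nat_lit 11, nat_lit 19513491585), (nat_lit 105, nat_lit 20587233408), (nat_lit 39, nat_lit 20586971265), (nat_lit 78, nat_lit 21660713088), (nat_lit 74, nat_lit 21660450945), (nat_lit 77, nat_lit 22734192768)]⟩],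
  [W_19496181824, W_19479404672, W_19463151680, W_19462889600, W_19446378560, W_19446374528, W_19446116480, W_19429605440, W_19429601408, W_18405924992, W_18372640832, W_18355863680, W_17365475456, W_16291741760, W_15201747008, W_14144782400, W_13071040640]⟩
theorem C_19513491585 : chkRec R_19513491585 = true := by decide +kernel

noncomputable def R_19513491648 : Rec := ⟨nat_lit 19513491648, nat_lit 132,
  [⟨V6_18439225344, [(nat_lit 24, nat_lit 19513491648), (nat_lit 17, nat_lit 20587233408), (nat_lit 96, nat_lit 20586971328), (nat_lit 22, nat_lit 21660975168), (nat_lit 92, nat_lit 21660713088), (nat_lit 117, nat_lit 21660451008), (nat_lit 92, nat_lit 22734716928), (nat_lit 58, nat_lit 22734454848), (nat_lit 18, nat_lit 22734192768), (nat_lit 85, nat_lit 23808196608), (nat_lit 105, nat_lit 23807934528), (nat_lit 5, nat_lit 24881676288)]⟩,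
   ⟨V6_17366003712, [(nat_lit 27, nat_lit 19513491648), (nat_lit 64, nat_lit 20587233408), (nat_lit 39, nat_lit 20587229376), (nat_lit 36, nat_lit 21660975168), (nat_lit 48, nat_lit 21660971136), (nat_lit 125, nat_lit 22734716928), (nat_lit 78, nat_lit 22734712896), (nat_lit 49, nat_lit 23808454656)]⟩],
  [W_19496185856, W_19479412736, W_19463155712, W_19462635584, W_19446382592, W_19429605440, W_19429601408, W_18439221248, W_18422448128, W_15218524160, W_15218262080, W_15201747008, W_13071040640, W_11997298880]⟩
theorem C_19513491648 : chkRec R_19513491648 = true := by decide +kernel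

noncomputable def R_19513495617 : Rec := ⟨nat_lit 19513495617, nat_lit 60,
  [⟨V6_19479924801, [(nat_lit 97, nat_lit 19513495617), (nat_lit 10, nat_lit 20587233345), (nat_lit 80, nat_lit 20570460225), (nat_lit 76, nat_lit 21660971073), (nat_lit 69, nat_lit 21644197953), (nat_lit 16, nat_lit 21627424833), (nat_lit 114, nat_lit 22734708801), (nat_lit 2, nat_lit 22717935681), (nat_lit 76, nat_lit 22701162561), (nat_lit 7, nat_lit 23808446529), (nat_lit 80, nat_lit 23791673409), (nat_lit 7, nat_lit 23774900289), (nat_lit 51, nat_lit 24865411137), (nat_lit 93, nat_lit 24848638017), (nat_lit 57, nat_lit 25922375745)]⟩,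
   ⟨V6_18439737408, [(nat_lit 68, nat_lit 19513495617), (nat_lit 29, nat_lit 20587237440), (nat_lit 101, nat_lit 20587233345), (nat_lit 49, nat_lit 21660975168), (nat_lit 67, nat_lit 21660971073), (nat_lit 3, nat_lit 22734712896), (nat_lit 18, nat_lit 22734708801), (nat_lit 60, nat_lit 23808450624), (nat_lit 20, nat_lit 23808446529), (nat_lit 75, nat_lit 24882188352)]⟩,
   ⟨V6_17365995585, [(nat_lit 64, nat_lit 19513495617), (nat_lit 88, nat_lit 20587233345), (nat_lit 17, nat_lit 21660971073), (nat_lit 113, nat_lit 22734708801), (nat_lit 76, nat_lit 23808446529)]⟩],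
  [W_19446378560, W_18372640832, W_16258453568, W_15218262080, W_15201747008, W_15201488960, W_15184973888, W_14144782400, W_14144524352, W_13071044672]⟩
theorem C_19513495617 : chkRec R_19513495617 = true := by decide +kernel

noncomputable def R_19513495680 : Rec := ⟨nat_lit 19513495680, nat_lit 165,
  [⟨V6_19513221120, [(nat_lit 83, nat_lit 19513495680), (nat_lit 86, nat_lit 20587237440), (nat_lit 11, nat_lit 20587233408), (nat_lit 24, nat_lit 20586975360), (nat_lit 106, nat_lit 21660979200), (nat_lit 121, nat_lit 21660975168), (nat_lit 1, nat_lit 21660971136), (nat_lit 55, nat_lit 21660717120), (nat_lit 119, nat_lit 21660713088), (nat_lit 27, nat_lit 22734716928), (nat_lit 60, nat_lit 22734712896), (nat_lit 53, nat_lit 22734708864), (nat_lit 94, nat_lit 22734458880), (nat_lit 51, nat_lit 22734454848), (nat_lit 80, nat_lit 22734450816), (nat_lit 93, nat_lit 23808454656), (nat_lit 49, nat_lit 23808450624), (nat_lit 111, nat_lit 23808196608), (nat_lit 93, nat_lit 23808192576), (nat_lit 120, nat_lit 23808188544), (nat_lit 91, nat_lit 24882192384),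 (nat_lit 65, nat_lit 24881934336), (nat_lit 59, nat_lit 24881930304), (nat_lit 51, nat_lit 25955672064)]⟩,
   ⟨V6_18439741440, [(nat_lit 31, nat_lit 19513495680), (nat_lit 116, nat_lit 20587237440), (nat_lit 45, nat_lit 20587233408), (nat_lit 2, nat_lit 21660979200), (nat_lit 69, nat_lit 21660975168), (nat_lit 18, nat_lit 21660971136), (nat_lit 36, nat_lit 22734716928), (nat_lit 12, nat_lit 22734712896), (nat_lit 16, nat_lit 22734708864), (nat_lit 63, nat_lit 23808454656), (nat_lit 113, nat_lit 23808450624), (nat_lit 84, nat_lit 24882192384)]⟩],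
  [W_19463155712, W_19462889600, W_19446382592, W_19446374528, W_19429609472, W_19429605440, W_19429343360, W_18389159936, W_18372644864, W_18372640832, W_18355863680, W_17332195328, W_17298903104, W_17298899072, W_16258453568, W_16241676416, W_15218524160, W_15218266112, W_15218262080, W_15201747008, W_15201488960, W_15184973888, W_15184969856, W_15168196736, W_14144782400, W_14144524352, W_14127747200, W_14111232128, W_13071044672, W_13071040640, W_13070782592, W_13054267520]⟩
theorem C_19513495680 : chkRec R_19513495680 = true := by decide +kernel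

noncomputable def R_19513499712 : Rec := ⟨nat_lit 19513499712, nat_lit 110,
  [⟨V6_19513479168, [(nat_lit 28, nat_lit 19513499712), (nat_lit 111, nat_lit 20587241472), (nat_lit 85, nat_lit 20587237440), (nat_lit 90, nat_lit 21660979200), (nat_lit 62, nat_lit 21660975168), (nat_lit 102, nat_lit 22734716928), (nat_lit 15, nat_lit 22734712896), (nat_lit 55, nat_lit 23808454656), (nat_lit 44, nat_lit 23808450624), (nat_lit 118, nat_lit 24882192384), (nat_lit 117, nat_lit 24882188352), (nat_lit 72, nat_lit 25955930112)]⟩,
   ⟨V6_17315684352, [(nat_lit 2, nat_lit 19513499712), (nat_lit 4, nat_lit 20587241472), (nat_lit 25, nat_lit 20570464320), (nat_lit 76, nat_lit 21644206080), (nat_lit 71, nat_lit 21627428928), (nat_lit 2, nat_lit 22701170688), (nat_lit 40, nat_lit 22684393536), (nat_lit 118, nat_lit 23758135296)]⟩,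
   ⟨V6_16258719744, [(nat_lit 60, nat_lit 19513499712), (nat_lit 105, nat_lit 20587241472), (nat_lit 78, nat_lit 20570464320), (nat_lit 50, nat_lit 21644206080), (nat_lit 108, nat_lit 21627428928), (nat_lit 76, nat_lit 22701170688)]⟩],
  [W_19463155712, W_19446382592, W_19429609472, W_19429605440, W_18389417984, W_18372640832, W_18355871744, W_17298907136, W_15218524160, W_15201747008, W_14144782400, W_14128013312, W_13071048704]⟩
theorem C_19513499712 : chkRec R_19513499712 = true := by decide +kernel

noncomputable def R_19513745538 : Rec := ⟨nat_lit 19513745538, nat_lit 13,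
  [⟨V6_17315930241, [(nat_lit 46, nat_lit 19513745538), (nat_lit 92, nat_lit 20587487361), (nat_lit 67, nat_lit 20570710146), (nat_lit 97, nat_lit 21644451969), (nat_lit 109, nat_lit 21627674754), (nat_lit 46, nat_lit 22701416577), (nat_lit 31, nat_lit 22684639362), (nat_lit 47, nat_lit 23758381185)]⟩,
   ⟨V6_13071294594, [(nat_lit 126, nat_lit 19513745538)]⟩],
  [W_19495919744, W_19446374528, W_18438955136, W_18422440064]⟩
theorem C_19513745538 : chkRec R_19513745538 = true := by decide +kernel

noncomputable def R_19513749633 : Rec := ⟨nat_lit 19513749633, nat_lit 85,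
  [⟨V6_19446636609, [(nat_lit 124, nat_lit 19513749633), (nat_lit 7, nat_lit 20587491393), (nat_lit 44, nat_lit 20587487361), (nat_lit 24, nat_lit 20570714241), (nat_lit 103, nat_lit 21661229121), (nat_lit 4, nat_lit 21644456001), (nat_lit 96, nat_lit 21644451969), (nat_lit 30, nat_lit 21627678849), (nat_lit 106, nat_lit 22718193729), (nat_lit 95, nat_lit 22701420609), (nat_lit 58, nat_lit 22701416577), (nat_lit 41, nat_lit 22684643457), (nat_lit 5, nat_lit 23775158337), (nat_lit 5, nat_lit 23758385217), (nat_lit 107, nat_lit 23758381185), (nat_lit 64, nat_lit 23741608065), (nat_lit 100, nat_lit 24832122945), (nat_lit 11, nat_lit 24815349825), (nat_lit 91, nat_lit 24815345793), (nat_lit 87, nat_lit 25889087553)]⟩,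
   ⟨V6_18389672064, [(nat_lit 84, nat_lit 19513749633), (nat_lit 68, nat_lit 20587491456), (nat_lit 98, nat_lit 20587487361), (nat_lit 23, nat_lit 20570714241), (nat_lit 31, nat_lit 21661229184), (nat_lit 96, nat_lit 21644456064), (nat_lit 10, nat_lit 21644451969), (nat_lit 29, nat_lit 21627678849), (nat_lit 39, nat_lit 22718193792), (nat_lit 91, nat_lit 22701420672), (nat_lit 88, nat_lit 22701416577), (nat_lit 117, nat_lit 22684643457), (nat_lit 35, nat_lit 23775158400), (nat_lit 11, nat_lit 23758385280), (nat_lit 61, nat_lit 23758381185), (nat_lit 113, nat_lit 24832123008)]⟩,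
   ⟨V6_17365737600, [(nat_lit 49, nat_lit 19513749633), (nat_lit 23, nat_lit 20587491456), (nat_lit 76, nat_lit 20587487361), (nat_lit 109, nat_lit 20587229313), (nat_lit 46, nat_lit 21661229184), (nat_lit 90, nat_lit 21660971136), (nat_lit 72, nat_lit 21660967041), (nat_lit 26, nat_lit 21660708993), (nat_lit 124, nat_lit 22734708864), (nat_lit 3, nat_lit 22734450816), (nat_lit 33, nat_lit 22734446721), (nat_lit 49, nat_lit 23808188544)]⟩,
   ⟨V6_17315930241, [(nat_lit 98, nat_lit 19513749633), (nat_lit 108, nat_lit 20587487361), (nat_lit 13, nat_lit 20570714241), (nat_lit 14, nat_lit 21644451969), (nat_lit 4, nat_lit 21627678849), (nat_lit 62, nat_lit 22701416577), (nat_lit 22, nat_lit 22684643457), (nat_lit 40, nat_lit 23758381185)]⟩],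
  [W_19512696896, W_19496181824, W_19495923776, W_19495919744, W_19479408704, W_19479404672, W_19479146624, W_19463151680, W_19462889600, W_19446636608, W_19446378560, W_19446374528, W_18438959168, W_18372898880, W_17365475456, W_17365217408, W_17315934272, W_15202001024, W_13071298688]⟩
theorem C_19513749633 : chkRec R_19513749633 = true := by decide +kernel

noncomputable def R_19513749696 : Rec := ⟨nat_lit 19513749696, nat_lit 89,
  [⟨V6_17366003712, [(nat_lit 47, nat_lit 19513749696), (nat_lit 43, nat_lit 20587491456), (nat_lit 58, nat_lit 20587229376), (nat_lit 98, nat_lit 21661233216), (nat_lit 22, nat_lit 21660971136), (nat_lit 123, nat_lit 22734974976), (nat_lit 47, nat_lit 22734712896), (nat_lit 103, nat_lit 23808454656)]⟩],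
  [W_19512700928, W_19496185856, W_19479408704, W_19463155712, W_19446640640, W_19446116480, W_18439221248, W_18438959168, W_18389676032, W_18372898880, W_18372374720, W_17299157120, W_16225415360, W_14144516288, W_13071298688, W_13071036608, W_13054521536, W_11997556928]⟩
theorem C_19513749696 : chkRec R_19513749696 = true := by decide +kernel

noncomputable def R_19513753665 : Rec := ⟨nat_lit 19513753665, nat_lit 95,
  [⟨V6_18422448192, [(nat_lit 37, nat_lit 19513753665), (nat_lit 84, nat_lit 20587495488), (nat_lit 115, nat_lit 20587233345), (nat_lit 120, nat_lit 20570718273), (nat_lit 85, nat_lit 21660975168), (nat_lit 105, nat_lit 21660713025), (nat_lit 103, nat_lit 21644460096), (nat_lit 59, nat_lit 21644197953), (nat_lit 77, nat_lit 22734454848), (nat_lit 97, nat_lit 22734192705), (nat_lit 76, nat_lit 22717939776), (nat_lit 104, nat_lit 22717677633), (nat_lit 4, nat_lit 23807934528), (nat_lit 49, nat_lit 23791419456), (nat_lit 12, nat_lit 23791157313), (nat_lit 94, nat_lit 24864899136)]⟩,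
   ⟨V6_17365483584, [(nat_lit 8, nat_lit 19513753665), (nat_lit 115, nat_lit 20587495488), (nat_lit 100, nat_lit 20587233345), (nat_lit 118, nat_lit 21660975168), (nat_lit 37, nat_lit 21660713025), (nat_lit 30, nat_lit 22734454848), (nat_lit 46, nat_lit 22734192705), (nat_lit 99, nat_lit 23807934528)]⟩,
   ⟨V6_16291741761, [(nat_lit 41, nat_lit 19513753665), (nat_lit 21, nat_lit 20587233345), (nat_lit 10, nat_lit 21660713025), (nat_lit 61, nat_lit 22734192705)]⟩],
  [W_19512954944, W_19479924800, W_19463409728, W_19463151680, W_18372898880, W_18372640832, W_17299161152, W_16242196544, W_15201747008, W_15185231936, W_14144782400, W_14128267328, W_13071302720]⟩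
theorem C_19513753665 : chkRec R_19513753665 = true := by decide +kernel

noncomputable def R_19513753728 : Rec := ⟨nat_lit 19513753728, nat_lit 245,
  [⟨V6_19513221120, [(nat_lit 34, nat_lit 19513753728), (nat_lit 56, nat_lit 20587495488), (nat_lit 97, nat_lit 20587491456), (nat_lit 13, nat_lit 20587233408), (nat_lit 91, nat_lit 21661237248), (nat_lit 49, nat_lit 21661233216), (nat_lit 124, nat_lit 21661229184), (nat_lit 81, nat_lit 21660975168), (nat_lit 55, nat_lit 21660971136), (nat_lit 90, nat_lit 21660713088), (nat_lit 68, nat_lit 22734974976), (nat_lit 15, nat_lit 22734970944), (nat_lit 43, nat_lit 22734716928), (nat_lit 101, nat_lit 22734712896), (nat_lit 56, nat_lit 22734708864), (nat_lit 66, nat_lit 22734454848), (nat_lit 84, nat_lit 22734450816), (nat_lit 61, nat_lit 23808712704), (nat_lit 62, nat_lit 23808454656), (nat_lit 74, nat_lit 23808450624), (nat_lit 83, nat_lit 23808196608), (nat_lit 82, nat_lit 23808192576), (nat_lit 94, nat_lit 23808188544), (nat_lit 97, nat_lit 24882192384), (nat_lit 32, nat_lit 24881934336), (nat_lit 78,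 nat_lit 24881930304), (nat_lit 90, nat_lit 25955672064)]⟩,
   ⟨V6_19512963072, [(nat_lit 64, nat_lit 19513753728), (nat_lit 82, nat_lit 20587495488), (nat_lit 83, nat_lit 20587491456), (nat_lit 53, nat_lit 20587233408), (nat_lit 111, nat_lit 21661237248), (nat_lit 10, nat_lit 21661233216), (nat_lit 36, nat_lit 21660975168), (nat_lit 122, nat_lit 21660971136), (nat_lit 40, nat_lit 21660713088), (nat_lit 64, nat_lit 22734974976), (nat_lit 38, nat_lit 22734716928), (nat_lit 110, nat_lit 22734712896), (nat_lit 30, nat_lit 22734454848), (nat_lit 94, nat_lit 22734450816), (nat_lit 69, nat_lit 22734192768), (nat_lit 58, nat_lit 23808454656), (nat_lit 102, nat_lit 23808196608), (nat_lit 119, nat_lit 23808192576), (nat_lit 42, nat_lit 23807934528), (nat_lit 13, nat_lit 23807930496), (nat_lit 120, nat_lit 24881934336), (nat_lit 91, nat_lit 24881676288), (nat_lit 2, nat_lit 24881672256), (nat_lit 78, nat_lit 25955414016)]⟩,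
   ⟨V6_19496189952, [(nat_lit 117, nat_lit 19513753728), (nat_lit 31, nat_lit 20587495488), (nat_lit 109, nat_lit 20587233408), (nat_lit 26, nat_lit 20570718336), (nat_lit 14, nat_lit 21661237248), (nat_lit 103, nat_lit 21660975168), (nat_lit 61, nat_lit 21660713088), (nat_lit 62, nat_lit 21644460096), (nat_lit 17, nat_lit 21644198016), (nat_lit 60, nat_lit 22734716928), (nat_lit 51, nat_lit 22734454848), (nat_lit 120, nat_lit 22734192768), (nat_lit 7, nat_lit 22718201856), (nat_lit 77, nat_lit 22717939776), (nat_lit 75, nat_lit 22717677696), (nat_lit 104, nat_lit 23808196608), (nat_lit 117, nat_lit 23807934528), (nat_lit 63, nat_lit 23791681536), (nat_lit 73, nat_lit 23791419456), (nat_lit 8, nat_lit 23791157376), (nat_lit 58, nat_lit 24881676288), (nat_lit 92, nat_lit 24865161216), (nat_lit 121, nat_lit 24864899136), (nat_lit 123, nat_lit 25938640896)]⟩,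
   ⟨V6_18439225344, [(nat_lit 9, nat_lit 19513753728), (nat_lit 84, nat_lit 20587495488), (nat_lit 48, nat_lit 20587233408), (nat_lit 5, nat_lit 21661237248), (nat_lit 34, nat_lit 21660975168), (nat_lit 80, nat_lit 21660713088), (nat_lit 1, nat_lit 22734716928), (nat_lit 22, nat_lit 22734454848), (nat_lit 52, nat_lit 22734192768), (nat_lit 97, nat_lit 23808196608), (nat_lit 44, nat_lit 23807934528), (nat_lit 29, nat_lit 24881676288)]⟩,
   ⟨V6_17365483584, [(nat_lit 77, nat_lit 19513753728), (nat_lit 53, nat_lit 20587495488), (nat_lit 101, nat_lit 20587233408), (nat_lit 13, nat_lit 21660975168), (nat_lit 92, nat_lit 21660713088), (nat_lit 18, nat_lit 22734454848), (nat_lit 59, nat_lit 22734192768), (nat_lit 109, nat_lit 23807934528)]⟩],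
  [W_19479412736, W_19463413760, W_19446640640, W_19446636608, W_19446382592, W_19446374528, W_18422448128, W_18389676032, W_18372902912, W_18372898880, W_18372640832, W_17365483520, W_17348706368, W_17315938304, W_17299157120, W_16291741760, W_16242196544, W_15218524160, W_15202009088, W_15202001024, W_15185231936, W_15168454784, W_14145044480, W_14145036416, W_14144782400, W_14128267328, W_14128263296, W_14111490176, W_13071302720, W_13071298688, W_13071040640, W_13054525568]⟩
theorem C_19513753728 : chkRec R_19513753728 = true := by decide +kernel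

noncomputable def R_19513757760 : Rec := ⟨nat_lit 19513757760, nat_lit 239,
  [⟨V6_19513479168, [(nat_lit 83, nat_lit 19513757760), (nat_lit 1, nat_lit 20587499520), (nat_lit 10, nat_lit 20587495488), (nat_lit 12, nat_lit 20587237440), (nat_lit 89, nat_lit 21661237248), (nat_lit 78, nat_lit 21661233216), (nat_lit 58, nat_lit 21660979200), (nat_lit 46, nat_lit 21660975168), (nat_lit 75, nat_lit 22734974976), (nat_lit 29, nat_lit 22734970944), (nat_lit 124, nat_lit 22734716928), (nat_lit 83, nat_lit 22734712896), (nat_lit 10, nat_lit 23808712704), (nat_lit 41, nat_lit 23808708672), (nat_lit 13, nat_lit 23808454656), (nat_lit 120, nat_lit 23808450624), (nat_lit 86, nat_lit 24882450432), (nat_lit 90, nat_lit 24882192384), (nat_lit 45, nat_lit 24882188352), (nat_lit 45, nat_lit 25955930112)]⟩,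
   ⟨V6_19446644736, [(nat_lit 25, nat_lit 19513757760), (nat_lit 120, nat_lit 20587499520), (nat_lit 83, nat_lit 20587495488), (nat_lit 117, nat_lit 20570722368), (nat_lit 34, nat_lit 21661237248), (nat_lit 115, nat_lit 21644464128), (nat_lit 84, nat_lit 21644460096), (nat_lit 53, nat_lit 21627686976), (nat_lit 105, nat_lit 22718201856), (nat_lit 39, nat_lit 22701428736), (nat_lit 44, nat_lit 22701424704), (nat_lit 6, nat_lit 22684651584), (nat_lit 114, nat_lit 23775166464), (nat_lit 12, nat_lit 23758393344), (nat_lit 69, nat_lit 23758389312), (nat_lit 42, nat_lit 23741616192), (nat_lit 112, nat_lit 24832131072), (nat_lit 81, nat_lit 24815357952), (nat_lit 11, nat_lit 24815353920), (nat_lit 89, nat_lit 25889095680)]⟩,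
   ⟨V6_18439999488, [(nat_lit 99, nat_lit 19513757760), (nat_lit 109, nat_lit 20587499520), (nat_lit 14, nat_lit 20587495488), (nat_lit 57, nat_lit 21661237248), (nat_lit 19, nat_lit 21661233216), (nat_lit 68, nat_lit 22734974976), (nat_lit 126, nat_lit 22734970944), (nat_lit 6, nat_lit 23808712704), (nat_lit 94, nat_lit 23808708672), (nat_lit 10, nat_lit 24882450432)]⟩,
   ⟨V6_18439741440, [(nat_lit 122, nat_lit 19513757760), (nat_lit 42, nat_lit 20587499520), (nat_lit 33, nat_lit 20587495488), (nat_lit 55, nat_lit 20587237440), (nat_lit 124, nat_lit 21661237248), (nat_lit 36, nat_lit 21661233216), (nat_lit 81, nat_lit 21660979200), (nat_lit 52, nat_lit 21660975168), (nat_lit 45, nat_lit 22734974976), (nat_lit 34, nat_lit 22734970944), (nat_lit 74, nat_lit 22734716928), (nat_lit 109, nat_lit 22734712896), (nat_lit 24, nat_lit 23808712704), (nat_lit 86, nat_lit 23808454656), (nat_lit 104, nat_lit 23808450624), (nat_lit 76, nat_lit 24882192384)]⟩],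
  [W_19463413760, W_19463409728, W_19463155712, W_19446640640, W_19446636608, W_19446382592, W_18389676032, W_18372902912, W_18372898880, W_18372640832, W_17315938304, W_16242196544, W_15218524160, W_15218262080, W_15202009088, W_15201747008, W_15201488960, W_15185231936, W_15168458816, W_14145044480, W_14144782400, W_14144524352, W_14128267328, W_14111494208, W_13071306752, W_13071302720, W_13071044672, W_13054529600, W_11997564992]⟩
theorem C_19513757760 : chkRec R_19513757760 = true := by decide +kernel

noncomputable def R_19513761792 : Rec := ⟨nat_lit 19513761792, nat_lit 129,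
  [⟨V6_18439999488, [(nat_lit 19, nat_lit 19513761792), (nat_lit 28, nat_lit 20587499520), (nat_lit 100, nat_lit 21661237248), (nat_lit 24, nat_lit 22734974976), (nat_lit 16, nat_lit 23808712704), (nat_lit 53, nat_lit 24882450432)]⟩,
   ⟨V6_17366261760, [(nat_lit 102, nat_lit 19513761792), (nat_lit 113, nat_lit 20587499520), (nat_lit 92, nat_lit 21661237248), (nat_lit 90, nat_lit 22734974976), (nat_lit 88, nat_lit 23808712704)]⟩],
  [W_19463413760, W_19463155712, W_19446640640, W_19446382592, W_18389417984, W_18372644864, W_17299165184, W_17298907136, W_16225427456, W_15218524160, W_15202009088, W_15168462848, W_14128013312, W_13071048704, W_11997569024]⟩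
theorem C_19513761792 : chkRec R_19513761792 = true := by decide +kernel

noncomputable def R_19514007681 : Rec := ⟨nat_lit 19514007681, nat_lit 51,
  [⟨V6_17316192384, [(nat_lit 118, nat_lit 19514007681), (nat_lit 59, nat_lit 20587749504), (nat_lit 110, nat_lit 20570972289), (nat_lit 39, nat_lit 21644714112), (nat_lit 5, nat_lit 21627936897), (nat_lit 126, nat_lit 22701678720), (nat_lit 50, nat_lit 22684901505), (nat_lit 37, nat_lit 23758643328)]⟩,
   ⟨V6_16291995777, [(nat_lit 74, nat_lit 19514007681), (nat_lit 71, nat_lit 20587487361), (nat_lit 40, nat_lit 21660967041), (nat_lit 89, nat_lit 22734446721)]⟩,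
   ⟨V6_14145298560, [(nat_lit 56, nat_lit 19514007681), (nat_lit 58, nat_lit 20587749504)]⟩],
  [W_19512696896, W_19496181824, W_19495919744, W_18439217216, W_18422440064, W_18406187072]⟩
theorem C_19514007681 : chkRec R_19514007681 = true := by decide +kernel

end Crest.Agent.R187.SN.Top
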