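import Crest.Agent.R187.SN.Top
import Crest.Agent.R187.SN.TD.X6_0
import Crest.Agent.R187.SN.TD.X6_1
import Crest.Agent.R187.SN.TD.X6_2
import Crest.Agent.R187.SN.TD.X6_3
import Crest.Agent.R187.SN.TD.X6_4
import Crest.Agent.R187.SN.TD.X6_5
import Crest.Agent.R187.SN.TD.X6_6
import Crest.Agent.R187.SN.TD.X6_7
import Crest.Agent.R187.SN.TD.X6_8
import Crest.Agent.R187.SN.TD.X6_9
import Crest.Agent.R187.SN.TD.X6_10
import Crest.Agent.R187.SN.TD.W7_0
import Crest.Agent.R187.SN.TD.W7_1
import Crest.Agent.R187.SN.TD.W7_2
import Crest.Agent.R187.SN.TD.W7_3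

/-!
# Row 187, PLAN S, generated certificate data (mod 127): rank records and checks, chunk 11

Written by a C++ program (helper824).  The tables are only data: every property is checked by
the kernel.
-/

set_option autoImplicit false
set_option maxRecDepth 100000
set_option Elab.async false

namespace Crest.Agent.R187.SN.Top

noncomputable def R_19514011713 : Rec := ⟨nat_lit 19514011713, nat_lit 82,
  [⟨V6_17349742656, [(nat_lit 87, nat_lit 19514011713), (nat_lit 69, nat_lit 20587753536), (nat_lit 29, nat_lit 20587749441), (nat_lit 125, nat_lit 20570976321), (nat_lit 33, nat_lit 21661491264), (nat_lit 12, nat_lit 21661487169), (nat_lit 91, nat_lit 21644718144), (nat_lit 81, nat_lit 21644714049), (nat_lit 92, nat_lit 22735228992), (nat_lit 82, nat_lit 22718455872), (nat_lit 50, nat_lit 22718451777), (nat_lit 64, nat_lit 23792193600)]⟩,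
   ⟨V6_16276004928, [(nat_lit 39, nat_lit 19514011713), (nat_lit 109, nat_lit 20587753536), (nat_lit 18, nat_lit 20587749441), (nat_lit 106, nat_lit 20570976321), (nat_lit 124, nat_lit 21661491264), (nat_lit 90, nat_lit 21644718144), (nat_lit 103, nat_lit 21644714049), (nat_lit 19, nat_lit 22718455872)]⟩],
  [W_19512954944, W_19512696896, W_19496181824, W_19479924800, W_19479408704, W_19463409728, W_19463151680, W_19462893632, W_18438959168, W_17316192320, W_17315934272, W_16242454592]⟩
theorem C_19514011713 : chkRec R_19514011713 = true := by decide +kernel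

noncomputable def R_19514011776 : Rec := ⟨nat_lit 19514011776, nat_lit 203,
  [⟨V6_17366261760, [(nat_lit 102, nat_lit 19514011776), (nat_lit 114, nat_lit 20587753536), (nat_lit 44, nat_lit 20587749504), (nat_lit 37, nat_lit 20587491456), (nat_lit 85, nat_lit 21661495296), (nat_lit 83, nat_lit 21661491264), (nat_lit 123, nat_lit 21661233216), (nat_lit 86, nat_lit 21661229184), (nat_lit 55, nat_lit 22735233024), (nat_lit 68, nat_lit 22734974976), (nat_lit 86, nat_lit 22734970944), (nat_lit 38, nat_lit 23808712704)]⟩,
   ⟨V6_17349746688, [(nat_lit 52, nat_lit 19514011776), (nat_lit 68, nat_lit 20587753536), (nat_lit 107, nat_lit 20587749504), (nat_lit 43, nat_lit 20570976384), (nat_lit 29, nat_lit 21661495296), (nat_lit 27, nat_lit 21661491264), (nat_lit 86, nat_lit 21644718144), (nat_lit 80, nat_lit 21644714112), (nat_lit 37, nat_lit 22735233024), (nat_lit 68, nat_lit 22718459904), (nat_lit 44, nat_lit 22718455872), (nat_lit 48, nat_lit 23792197632)]⟩,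
   ⟨V6_16292782080, [(nat_lit 29, nat_lit 19514011776), (nat_lit 37, nat_lit 20587753536), (nat_lit 1, nat_lit 20587749504), (nat_lit 13, nat_lit 21661495296), (nat_lit 9, nat_lit 21661491264), (nat_lit 16, nat_lit 22735233024)]⟩],
  [W_19512700928, W_19512696896, W_19496185856, W_19495923776, W_19495919744, W_19479404672, W_19479146624, W_19463413760, W_19463155712, W_19463151680, W_19462889600, W_18439221248, W_18438959168, W_18422182016, W_18389934080, W_18389676032, W_17316196352, W_17316192320, W_16242454592, W_16242450560, W_16242192512, W_15202001024, W_15185489984, W_15185485952, W_15168712832, W_14145302528]⟩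
theorem C_19514011776 : chkRec R_19514011776 = true := by decide +kernel

noncomputable def R_19514015808 : Rec := ⟨nat_lit 19514015808, nat_lit 293,
  [⟨V6_19513479168, [(nat_lit 124, nat_lit 19514015808), (nat_lit 2, nat_lit 20587757568), (nat_lit 54, nat_lit 20587753536), (nat_lit 88, nat_lit 20587495488), (nat_lit 114, nat_lit 21661495296), (nat_lit 8, nat_lit 21661491264), (nat_lit 93, nat_lit 21661237248), (nat_lit 1, nat_lit 21661233216), (nat_lit 118, nat_lit 21660975168), (nat_lit 19, nat_lit 22735233024), (nat_lit 88, nat_lit 22735228992), (nat_lit 45, nat_lit 22734974976), (nat_lit 57, nat_lit 22734970944), (nat_lit 86, nat_lit 22734716928), (nat_lit 53, nat_lit 22734712896), (nat_lit 67, nat_lit 23808970752), (nat_lit 44, nat_lit 23808712704), (nat_lit 13, nat_lit 23808708672), (nat_lit 28, nat_lit 23808454656), (nat_lit 83, nat_lit 23808450624), (nat_lit 52, nat_lit 24882450432), (nat_lit 5, nat_lit 24882192384), (nat_lit 76, nat_lit 24882188352), (nat_lit 77, nat_lit 25955930112)]⟩,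
   ⟨V6_19480186944, [(nat_lit 107, nat_lit 19514015808), (nat_lit 87, nat_lit 20587753536), (nat_lit 5, nat_lit 20587495488), (nat_lit 111, nat_lit 20570980416), (nat_lit 52, nat_lit 21661491264), (nat_lit 21, nat_lit 21661233216), (nat_lit 120, nat_lit 21644718144), (nat_lit 72, nat_lit 21644460096), (nat_lit 64, nat_lit 21627945024), (nat_lit 95, nat_lit 22735228992), (nat_lit 104, nat_lit 22734970944), (nat_lit 31, nat_lit 22718455872), (nat_lit 9, nat_lit 22718197824), (nat_lit 99, nat_lit 22701682752), (nat_lit 57, nat_lit 22701424704), (nat_lit 104, nat_lit 23808708672), (nat_lit 126, nat_lit 23792193600), (nat_lit 100, nat_lit 23791935552), (nat_lit 43, nat_lit 23775420480), (nat_lit 104, nat_lit 23775162432), (nat_lit 122, nat_lit 24865673280), (nat_lit 19, nat_lit 24849158208), (nat_lit 27, nat_lit 24848900160), (nat_lit 91, nat_lit 25922637888)]⟩,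
   ⟨V6_18439999488, [(nat_lit 7, nat_lit 19514015808), (nat_lit 5, nat_lit 20587757568), (nat_lit 66, nat_lit 20587753536), (nat_lit 47, nat_lit 20587495488), (nat_lit 14, nat_lit 21661495296), (nat_lit 126, nat_lit 21661491264), (nat_lit 51, nat_lit 21661237248), (nat_lit 67, nat_lit 21661233216), (nat_lit 108, nat_lit 22735233024), (nat_lit 53, nat_lit 22735228992), (nat_lit 117, nat_lit 22734974976), (nat_lit 90, nat_lit 22734970944), (nat_lit 115, nat_lit 23808970752), (nat_lit 1, nat_lit 23808712704), (nat_lit 36, nat_lit 23808708672), (nat_lit 9, nat_lit 24882450432)]⟩,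
   ⟨V6_18439225344, [(nat_lit 38, nat_lit 19514015808), (nat_lit 86, nat_lit 20587757568), (nat_lit 21, nat_lit 20587495488), (nat_lit 34, nat_lit 21661237248), (nat_lit 49, nat_lit 21660975168), (nat_lit 90, nat_lit 22734716928), (nat_lit 89, nat_lit 22734454848), (nat_lit 24, nat_lit 23808196608), (nat_lit 56, nat_lit 23807934528), (nat_lit 108, nat_lit 24881676288)]⟩,
   ⟨V6_18423484416, [(nat_lit 96, nat_lit 19514015808), (nat_lit 74, nat_lit 20587757568), (nat_lit 26, nat_lit 20587753536), (nat_lit 86, nat_lit 20570980416), (nat_lit 75, nat_lit 21661495296), (nat_lit 67, nat_lit 21661491264), (nat_lit 47, nat_lit 21644722176), (nat_lit 123, nat_lit 21644718144), (nat_lit 8, nat_lit 22735233024), (nat_lit 13, nat_lit 22735228992), (nat_lit 2, nat_lit 22718459904), (nat_lit 41, nat_lit 22718455872), (nat_lit 88, nat_lit 23808970752), (nat_lit 96, nat_lit 23792197632), (nat_lit 45, nat_lit 23792193600), (nat_lit 125, nat_lit 24865935360)]⟩,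
   ⟨V6_17366519808, [(nat_lit 54, nat_lit 19514015808), (nat_lit 124, nat_lit 20587757568), (nat_lit 117, nat_lit 20587753536), (nat_lit 10, nat_lit 21661495296), (nat_lit 9, nat_lit 21661491264), (nat_lit 101, nat_lit 22735233024), (nat_lit 120, nat_lit 22735228992), (nat_lit 74, nat_lit 23808970752)]⟩],
  [W_19479412736, W_19463671808, W_19463413760, W_19463409728, W_19462635584, W_18422448128, W_18389934080, W_17365483520, W_17348706368, W_17332965440, W_17316196352, W_17316192320, W_17315938304, W_16291741760, W_16242458624, W_16242454592, W_16242196544, W_15218524160, W_15218262080, W_15202009088, W_15201747008, W_15185494016, W_15185231936, W_14145044480, W_14144782400, W_14128529408, W_14128525376, W_14128267328, W_13071564800, W_13071560768, W_13071302720, W_13054787648, W_11997823040]⟩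
theorem C_19514015808 : chkRec R_19514015808 = true := by decide +kernel

noncomputable def R_19514019840 : Rec := ⟨nat_lit 19514019840, nat_lit 203,
  [⟨V6_18423484416, [(nat_lit 114, nat_lit 19514019840), (nat_lit 14, nat_lit 20587757568), (nat_lit 121, nat_lit 20570984448), (nat_lit 101, nat_lit 21661495296), (nat_lit 101, nat_lit 21644722176), (nat_lit 30, nat_lit 22735233024), (nat_lit 82, nat_lit 22718459904), (nat_lit 92, nat_lit 23808970752), (nat_lit 56, nat_lit 23792197632), (nat_lit 71, nat_lit 24865935360)]⟩,
   ⟨V6_17366519808, [(nat_lit 101, nat_lit 19514019840), (nat_lit 123, nat_lit 20587757568), (nat_lit 5, nat_lit 21661495296), (nat_lit 93, nat_lit 22735233024), (nat_lit 112, nat_lit 23808970752)]⟩,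
   ⟨V6_17349746688, [(nat_lit 88, nat_lit 19514019840), (nat_lit 4, nat_lit 20587757568), (nat_lit 4, nat_lit 20570984448), (nat_lit 77, nat_lit 21661495296), (nat_lit 46, nat_lit 21644722176), (nat_lit 26, nat_lit 22735233024), (nat_lit 29, nat_lit 22718459904), (nat_lit 72, nat_lit 23792197632)]⟩,
   ⟨V6_16292782080, [(nat_lit 50, nat_lit 19514019840), (nat_lit 87, nat_lit 20587757568), (nat_lit 17, nat_lit 21661495296), (nat_lit 49, nat_lit 22735233024)]⟩],
  [W_19480444928, W_19480186880, W_19463671808, W_19463413760, W_19463155712, W_18389934080, W_18389676032, W_18389159936, W_17316196352, W_17315938304, W_16242458624, W_15218524160, W_15202009088, W_15185494016, W_15168720896, W_14145302528, W_11997827072]⟩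
theorem C_19514019840 : chkRec R_19514019840 = true := by decide +kernel

noncomputable def R_19514269761 : Rec := ⟨nat_lit 19514269761, nat_lit 51,
  [⟨V6_18439217217, [(nat_lit 110, nat_lit 19514269761), (nat_lit 92, nat_lit 20587749441), (nat_lit 69, nat_lit 21661229121), (nat_lit 86, nat_lit 22734708801), (nat_lit 22, nat_lit 23808188481), (nat_lit 66, nat_lit 24881668161)]⟩,
   ⟨V6_17365995585, [(nat_lit 11, nat_lit 19514269761), (nat_lit 14, nat_lit 20588007489), (nat_lit 119, nat_lit 20587749441), (nat_lit 91, nat_lit 21661487169), (nat_lit 81, nat_lit 21661229121), (nat_lit 3, nat_lit 22734966849), (nat_lit 7, nat_lit 22734708801), (nat_lit 68, nat_lit 23808446529)]⟩,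
   ⟨V6_16276262976, [(nat_lit 22, nat_lit 19514269761), (nat_lit 4, nat_lit 20588011584), (nat_lit 21, nat_lit 20588007489), (nat_lit 22, nat_lit 20571234369), (nat_lit 88, nat_lit 21661749312), (nat_lit 19, nat_lit 21644976192), (nat_lit 18, nat_lit 21644972097), (nat_lit 68, nat_lit 22718713920)]⟩,
   ⟨V6_15185748033, [(nat_lit 85, nat_lit 19514269761), (nat_lit 122, nat_lit 20571234369), (nat_lit 33, nat_lit 21628198977)]⟩],
  [W_19512954944, W_19512696896, W_19496181824, W_19479924800, W_18406187072, W_14128783424]⟩
theorem C_19514269761 : chkRec R_19514269761 = true := by decide +kernel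

noncomputable def R_19514269824 : Rec := ⟨nat_lit 19514269824, nat_lit 93,
  [⟨V6_16292782080, [(nat_lit 19, nat_lit 19514269824), (nat_lit 101, nat_lit 20588011584), (nat_lit 88, nat_lit 20587749504), (nat_lit 80, nat_lit 21661753344), (nat_lit 104, nat_lit 21661491264), (nat_lit 18, nat_lit 22735233024)]⟩,
   ⟨V6_15219302400, [(nat_lit 30, nat_lit 19514269824), (nat_lit 45, nat_lit 20588011584), (nat_lit 49, nat_lit 21661753344)]⟩],
  [W_19512958976, W_19512696896, W_19496181824, W_19479404672, W_18438955136, W_18422440064, W_18406449152, W_18405924992, W_17365475456, W_15202001024, W_15185485952]⟩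
theorem C_19514269824 : chkRec R_19514269824 = true := by decide +kernel

noncomputable def R_19514273856 : Rec := ⟨nat_lit 19514273856, nat_lit 215,
  [⟨V6_19512963072, [(nat_lit 46, nat_lit 19514273856), (nat_lit 30, nat_lit 20588015616), (nat_lit 75, nat_lit 20587753536), (nat_lit 73, nat_lit 21661495296), (nat_lit 22, nat_lit 21661233216), (nat_lit 34, nat_lit 22734974976), (nat_lit 70, nat_lit 22734712896), (nat_lit 65, nat_lit 23808454656), (nat_lit 5, nat_lit 23808192576), (nat_lit 14, nat_lit 24881934336), (nat_lit 114, nat_lit 24881672256), (nat_lit 54, nat_lit 25955414016)]⟩,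
   ⟨V6_18439741440, [(nat_lit 6, nat_lit 19514273856), (nat_lit 9, nat_lit 20588015616), (nat_lit 121, nat_lit 20588011584), (nat_lit 90, nat_lit 20587753536), (nat_lit 101, nat_lit 21661753344), (nat_lit 44, nat_lit 21661495296), (nat_lit 51, nat_lit 21661491264), (nat_lit 12, nat_lit 21661233216), (nat_lit 9, nat_lit 22735233024), (nat_lit 105, nat_lit 22734974976), (nat_lit 89, nat_lit 22734970944), (nat_lit 126, nat_lit 22734712896), (nat_lit 126, nat_lit 23808712704), (nat_lit 104, nat_lit 23808454656), (nat_lit 13, nat_lit 23808450624), (nat_lit 3, nat_lit 24882192384)]⟩,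
   ⟨V6_18406707264, [(nat_lit 48, nat_lit 19514273856), (nat_lit 66, nat_lit 20588011584), (nat_lit 1, nat_lit 20587753536), (nat_lit 16, nat_lit 20571238464), (nat_lit 47, nat_lit 21661749312), (nat_lit 95, nat_lit 21661491264), (nat_lit 121, nat_lit 21644976192), (nat_lit 48, nat_lit 21644718144), (nat_lit 56, nat_lit 21628203072), (nat_lit 119, nat_lit 22735228992), (nat_lit 92, nat_lit 22718713920), (nat_lit 61, nat_lit 22718455872), (nat_lit 47, nat_lit 22701940800), (nat_lit 97, nat_lit 22701682752), (nat_lit 4, nat_lit 23792193600), (nat_lit 58, nat_lit 23775678528), (nat_lit 12, nat_lit 23775420480), (nat_lit 123, nat_lit 24849158208)]⟩,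
   ⟨V6_17366519808, [(nat_lit 77, nat_lit 19514273856), (nat_lit 88, nat_lit 20588015616), (nat_lit 59, nat_lit 20588011584), (nat_lit 112, nat_lit 20587753536), (nat_lit 94, nat_lit 21661753344), (nat_lit 80, nat_lit 21661749312), (nat_lit 69, nat_lit 21661495296), (nat_lit 103, nat_lit 21661491264), (nat_lit 119, nat_lit 22735491072), (nat_lit 48, nat_lit 22735233024), (nat_lit 39, nat_lit 22735228992), (nat_lit 23, nat_lit 23808970752)]⟩],
  [W_19512700928, W_19512696896, W_19496185856, W_19495923776, W_19480186880, W_18439221248, W_18438959168, W_18406707200, W_17333227520, W_17332965440, W_16276262912, W_16276000832, W_16259489792, W_16259485760, W_15219298304, W_15202525184, W_15202521152, W_15185752064, W_15185748032, W_15185489984, W_14145560576, W_14145556544, W_14145302528, W_14128787456, W_14128783424, W_14128525376, W_14112010304, W_13071822848, W_13071560768, W_13055045696, W_11998081088]⟩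
theorem C_19514273856 : chkRec R_19514273856 = true := by decide +kernel

noncomputable def R_19514277888 : Rec := ⟨nat_lit 19514277888, nat_lit 186,
  [⟨V6_19512963072, [(nat_lit 112, nat_lit 19514277888), (nat_lit 20, nat_lit 20588015616), (nat_lit 22, nat_lit 20587757568), (nat_lit 17, nat_lit 21661495296), (nat_lit 47, nat_lit 21661237248), (nat_lit 78, nat_lit 22734974976), (nat_lit 111, nat_lit 22734716928), (nat_lit 103, nat_lit 23808454656), (nat_lit 41, nat_lit 23808196608), (nat_lit 93, nat_lit 24881934336), (nat_lit 48, nat_lit 24881676288), (nat_lit 108, nat_lit 25955414016)]⟩,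
   ⟨V6_19496189952, [(nat_lit 5, nat_lit 19514277888), (nat_lit 20, nat_lit 20587757568), (nat_lit 54, nat_lit 20571242496), (nat_lit 70, nat_lit 21661237248), (nat_lit 116, nat_lit 21644722176), (nat_lit 75, nat_lit 22734716928), (nat_lit 69, nat_lit 22718201856), (nat_lit 119, nat_lit 23808196608), (nat_lit 60, nat_lit 23791681536), (nat_lit 92, nat_lit 24881676288), (nat_lit 103, nat_lit 24865161216), (nat_lit 123, nat_lit 25938640896)]⟩,
   ⟨V6_18439225344, [(nat_lit 119, nat_lit 19514277888), (nat_lit 118, nat_lit 20587757568), (nat_lit 25, nat_lit 21661237248), (nat_lit 33, nat_lit 22734716928), (nat_lit 100, nat_lit 23808196608), (nat_lit 46, nat_lit 24881676288)]⟩,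
   ⟨V6_17366519808, [(nat_lit 109, nat_lit 19514277888), (nat_lit 101, nat_lit 20588015616), (nat_lit 52, nat_lit 20587757568), (nat_lit 35, nat_lit 21661753344), (nat_lit 70, nat_lit 21661495296), (nat_lit 117, nat_lit 22735491072), (nat_lit 42, nat_lit 22735233024), (nat_lit 12, nat_lit 23808970752)]⟩],
  [W_19480444928, W_19480186880, W_18406707200, W_16276262912, W_16259489792, W_15218524160, W_15202525184, W_15202009088, W_15185752064, W_15185494016, W_14145560576, W_14145302528, W_14145044480, W_14128787456, W_14128529408, W_14112014336, W_13071822848, W_13071564800, W_13055049728, W_11998085120]⟩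
theorem C_19514277888 : chkRec R_19514277888 = true := by decide +kernel

noncomputable def R_19514527809 : Rec := ⟨nat_lit 19514527809, nat_lit 13,
  [⟨V6_19512954945, [(nat_lit 82, nat_lit 19514527809), (nat_lit 3, nat_lit 20588007489), (nat_lit 9, nat_lit 21661487169), (nat_lit 28, nat_lit 22734966849), (nat_lit 44, nat_lit 23808446529), (nat_lit 53, nat_lit 24881926209), (nat_lit 83, nat_lit 25955405889)]⟩,
   ⟨V6_14145556545, [(nat_lit 87, nat_lit 19514527809), (nat_lit 99, nat_lit 20588007489)]⟩,
   ⟨V6_14129041473, [(nat_lit 79, nat_lit 19514527809), (nat_lit 16, nat_lit 20571492417)]⟩,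
   ⟨V6_13072076865, [(nat_lit 33, nat_lit 19514527809)]⟩],
  [W_19512954944, W_19496439872, W_13072076864]⟩
theorem C_19514527809 : chkRec R_19514527809 = true := by decide +kernel

noncomputable def R_19514531904 : Rec := ⟨nat_lit 19514531904, nat_lit 114,
  [⟨V6_19513221120, [(nat_lit 87, nat_lit 19514531904), (nat_lit 88, nat_lit 20588273664), (nat_lit 64, nat_lit 20588011584), (nat_lit 68, nat_lit 21661753344), (nat_lit 108, nat_lit 21661491264), (nat_lit 12, nat_lit 22735233024), (nat_lit 26, nat_lit 22734970944), (nat_lit 95, nat_lit 23808712704), (nat_lit 76, nat_lit 23808450624), (nat_lit 74, nat_lit 24882192384), (nat_lit 82, nat_lit 24881930304), (nat_lit 90, nat_lit 25955672064)]⟩,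
   ⟨V6_15219302400, [(nat_lit 25, nat_lit 19514531904), (nat_lit 79, nat_lit 20588273664), (nat_lit 46, nat_lit 20588011584), (nat_lit 105, nat_lit 21661753344)]⟩],
  [W_19512954944, W_19512696896, W_17349742592, W_16292515904, W_16276262912, W_16276000832, W_15219298304, W_15202783232, W_15202525184, W_15202521152, W_14145818624, W_14145560576, W_14145556544, W_14129045504, W_14128783424, W_13072080896, W_13071818816]⟩
theorem C_19514531904 : chkRec R_19514531904 = true := by decide +kernel

noncomputable def R_19514535936 : Rec := ⟨nat_lit 19514535936, nat_lit 127,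
  [⟨V6_17366003712, [(nat_lit 62, nat_lit 19514535936), (nat_lit 39, nat_lit 20588015616), (nat_lit 99, nat_lit 21661495296), (nat_lit 86, nat_lit 22734974976), (nat_lit 33, nat_lit 23808454656)]⟩,
   ⟨V6_15219302400, [(nat_lit 49, nat_lit 19514535936), (nat_lit 67, nat_lit 20588273664), (nat_lit 19, nat_lit 20588015616), (nat_lit 44, nat_lit 21661753344)]⟩],
  [W_19513475072, W_19512700928, W_19496960000, W_19496185856, W_18439221248, W_17350000640, W_16276520960, W_16276262912, W_15219298304, W_15202783232, W_14145818624, W_14129045504, W_13072080896, W_13055307776]⟩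
theorem C_19514535936 : chkRec R_19514535936 = true := by decide +kernel

noncomputable def R_19514789952 : Rec := ⟨nat_lit 19514789952, nat_lit 29,
  [⟨V6_18439737408, [(nat_lit 119, nat_lit 19514789952), (nat_lit 32, nat_lit 20588269632), (nat_lit 40, nat_lit 21661749312), (nat_lit 9, nat_lit 22735228992), (nat_lit 89, nat_lit 23808708672), (nat_lit 119, nat_lit 24882188352)]⟩],
  [W_16292515904, W_15219298304, W_14145818624, W_14145556544, W_13072076864, W_11998597184]⟩
theorem C_19514789952 : chkRec R_19514789952 = true := by decide +kernel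

noncomputable def R_19514793984 : Rec := ⟨nat_lit 19514793984, nat_lit 43,
  [⟨V6_16292782080, [(nat_lit 26, nat_lit 19514793984), (nat_lit 4, nat_lit 20588273664), (nat_lit 9, nat_lit 21661753344), (nat_lit 125, nat_lit 22735233024)]⟩,
   ⟨V6_15219302400, [(nat_lit 98, nat_lit 19514793984), (nat_lit 29, nat_lit 20588273664), (nat_lit 96, nat_lit 21661753344)]⟩],
  [W_19513475072, W_19513217024, W_19512958976, W_15219556352]⟩
theorem C_19514793984 : chkRec R_19514793984 = true := by decide +kernel

noncomputable def R_19529740482 : Rec := ⟨nat_lit 19529740482, nat_lit 3,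
  [⟨V6_15234511041, [(nat_lit 84, nat_lit 19529740482), (nat_lit 82, nat_lit 20603482305), (nat_lit 17, nat_lit 20603220162), (nat_lit 92, nat_lit 21676961985)]⟩,
   ⟨V6_15201218754, [(nat_lit 79, nat_lit 19529740482), (nat_lit 36, nat_lit 20586705090), (nat_lit 119, nat_lit 21643669698)]⟩,
   ⟨V6_14144254146, [(nat_lit 6, nat_lit 19529740482), (nat_lit 62, nat_lit 20586705090)]⟩],
  [W_19479146624, W_19462631552]⟩
theorem C_19529740482 : chkRec R_19529740482 = true := by decide +kernel

noncomputable def R_19529744514 : Rec := ⟨nat_lit 19529744514, nat_lit 13,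
  [⟨V6_15234777216, [(nat_lit 91, nat_lit 19529744514), (nat_lit 21, nat_lit 20603486337), (nat_lit 47, nat_lit 21677228160)]⟩],
  [W_19479404672, W_19445858432, W_18422440064]⟩
theorem C_19529744514 : chkRec R_19529744514 = true := by decide +kernel

noncomputable def R_19529744577 : Rec := ⟨nat_lit 19529744577, nat_lit 19,
  [⟨V6_16291741761, [(nat_lit 14, nat_lit 19529744577), (nat_lit 98, nat_lit 20603486337), (nat_lit 13, nat_lit 20586709185), (nat_lit 22, nat_lit 21677228097), (nat_lit 57, nat_lit 21660450945), (nat_lit 114, nat_lit 22734192705)]⟩,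
   ⟨V6_14161035456, [(nat_lit 65, nat_lit 19529744577), (nat_lit 90, nat_lit 20603486400)]⟩],
  [W_19479408704, W_19462635584, W_19462631552, W_19445858432, W_19429081280, W_18372116672]⟩
theorem C_19529744577 : chkRec R_19529744577 = true := by decide +kernel

noncomputable def R_19529744640 : Rec := ⟨nat_lit 19529744640, nat_lit 24,
  [⟨V6_15234777216, [(nat_lit 86, nat_lit 19529744640), (nat_lit 27, nat_lit 20603486400), (nat_lit 101, nat_lit 21677228160)]⟩],
  [W_19479412736, W_19462635584, W_18422448128, W_18355339520]⟩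
theorem C_19529744640 : chkRec R_19529744640 = true := by decide +kernel

noncomputable def R_19530002562 : Rec := ⟨nat_lit 19530002562, nat_lit 15,
  [⟨V6_16291995777, [(nat_lit 9, nat_lit 19530002562), (nat_lit 101, nat_lit 20603744385), (nat_lit 40, nat_lit 20603740290), (nat_lit 97, nat_lit 20586967170), (nat_lit 124, nat_lit 21677482113), (nat_lit 73, nat_lit 21660708993), (nat_lit 49, nat_lit 21660704898), (nat_lit 77, nat_lit 22734446721)]⟩],
  [W_19479404672, W_19479146624, W_19462889600, W_19462631552, W_19446116480, W_18422182016, W_17365217408]⟩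
theorem C_19530002562 : chkRec R_19530002562 = true := by decide +kernel

noncomputable def R_19530002625 : Rec := ⟨nat_lit 19530002625, nat_lit 22,
  [⟨V6_18388889793, [(nat_lit 94, nat_lit 19530002625), (nat_lit 70, nat_lit 20603482305), (nat_lit 32, nat_lit 20586967233), (nat_lit 14, nat_lit 21660446913), (nat_lit 42, nat_lit 21643931841), (nat_lit 115, nat_lit 22717411521), (nat_lit 67, nat_lit 22700896449), (nat_lit 28, nat_lit 23774376129), (nat_lit 84, nat_lit 23757861057), (nat_lit 65, nat_lit 24831340737)]⟩,
   ⟨V6_17365217472, [(nat_lit 58, nat_lit 19530002625), (nat_lit 40, nat_lit 20603744448), (nat_lit 1, nat_lit 20603482305), (nat_lit 121, nat_lit 20586967233), (nat_lit 58, nat_lit 21677224128), (nat_lit 4, nat_lit 21676961985), (nat_lit 123, nat_lit 21660709056), (nat_lit 22, nat_lit 21660446913), (nat_lit 108, nat_lit 22750703808), (nat_lit 82, nat_lit 22734188736), (nat_lit 51, nat_lit 22733926593), (nat_lit 23, nat_lit 23807668416)]⟩,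
   ⟨V6_16274960577, [(nat_lit 90, nat_lit 19530002625), (nat_lit 124, nat_lit 20603482305), (nat_lit 121, nat_lit 20586967233), (nat_lit 76, nat_lit 21660446913), (nat_lit 14, nat_lit 21643931841), (nat_lit 13, nat_lit 22717411521)]⟩,
   ⟨V6_15234773184, [(nat_lit 1, nat_lit 19530002625), (nat_lit 79, nat_lit 20603744448), (nat_lit 99, nat_lit 20603482305), (nat_lit 102, nat_lit 21677224128)]⟩,
   ⟨V6_14161293504, [(nat_lit 76, nat_lit 19530002625), (nat_lit 115, nat_lit 20603744448)]⟩],
  [W_19479408704, W_19462893632, W_19446116480, W_16308514880]⟩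
theorem C_19530002625 : chkRec R_19530002625 = true := by decide +kernel

noncomputable def R_19530006657 : Rec := ⟨nat_lit 19530006657, nat_lit 61,
  [⟨V6_16291995777, [(nat_lit 84, nat_lit 19530006657), (nat_lit 111, nat_lit 20603744385), (nat_lit 102, nat_lit 20586971265), (nat_lit 58, nat_lit 21677482113), (nat_lit 2, nat_lit 21660708993), (nat_lit 21, nat_lit 22734446721)]⟩,
   ⟨V6_16291741761, [(nat_lit 88, nat_lit 19530006657), (nat_lit 85, nat_lit 20603748417), (nat_lit 45, nat_lit 20603486337), (nat_lit 103, nat_lit 20586971265), (nat_lit 92, nat_lit 21677228097), (nat_lit 101, nat_lit 21660713025), (nat_lit 70, nat_lit 21660450945), (nat_lit 64, nat_lit 22734192705)]⟩,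
   ⟨V6_15235031169, [(nat_lit 23, nat_lit 19530006657), (nat_lit 122, nat_lit 20603744385), (nat_lit 62, nat_lit 21677482113)]⟩,
   ⟨V6_15234777216, [(nat_lit 30, nat_lit 19530006657), (nat_lit 84, nat_lit 20603748480), (nat_lit 49, nat_lit 20603486337), (nat_lit 12, nat_lit 21677228160)]⟩],
  [W_19496181824, W_19479408704, W_19479404672, W_19462893632, W_19462889600, W_19462635584, W_19446120512, W_19446116480, W_19429343360, W_18439217216, W_17348706368]⟩
theorem C_19530006657 : chkRec R_19530006657 = true := by decide +kernel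

noncomputable def R_19530006720 : Rec := ⟨nat_lit 19530006720, nat_lit 81,
  [⟨V6_16308781056, [(nat_lit 109, nat_lit 19530006720), (nat_lit 94, nat_lit 20603748480), (nat_lit 63, nat_lit 21677490240), (nat_lit 29, nat_lit 22751232000)]⟩,
   ⟨V6_16274964672, [(nat_lit 14, nat_lit 19530006720), (nat_lit 8, nat_lit 20603486400), (nat_lit 16, nat_lit 20586971328), (nat_lit 9, nat_lit 21660451008), (nat_lit 5, nat_lit 21643935936), (nat_lit 50, nat_lit 22717415616)]⟩,
   ⟨V6_15234777216, [(nat_lit 12, nat_lit 19530006720), (nat_lit 25, nat_lit 20603748480), (nat_lit 77, nat_lit 20603486400), (nat_lit 30, nat_lit 21677228160)]⟩],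
  [W_19496185856, W_19479412736, W_19462897664, W_19462635584, W_19446120512, W_19446116480, W_19429343360, W_18439221248, W_18422448128, W_18372374720, W_18372116672, W_17382256640]⟩
theorem C_19530006720 : chkRec R_19530006720 = true := by decide +kernel

noncomputable def R_19530010689 : Rec := ⟨nat_lit 19530010689, nat_lit 30,
  [⟨V6_18456252480, [(nat_lit 81, nat_lit 19530010689), (nat_lit 14, nat_lit 20603752512), (nat_lit 40, nat_lit 20603748417), (nat_lit 120, nat_lit 21677490240), (nat_lit 63, nat_lit 21677486145), (nat_lit 54, nat_lit 22751227968), (nat_lit 70, nat_lit 22751223873), (nat_lit 64, nat_lit 23824965696), (nat_lit 106, nat_lit 23824961601), (nat_lit 80, nat_lit 24898703424)]⟩],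
  [W_19446120512, W_18372382784, W_16258453568, W_15235035200, W_15218262080, W_15201488960, W_14161297472, W_14144524352]⟩
theorem C_19530010689 : chkRec R_19530010689 = true := by decide +kernel

noncomputable def R_19530010752 : Rec := ⟨nat_lit 19530010752, nat_lit 69,
  [⟨V6_16308781056, [(nat_lit 74, nat_lit 19530010752), (nat_lit 19, nat_lit 20603752512), (nat_lit 72, nat_lit 20603748480), (nat_lit 100, nat_lit 21677494272), (nat_lit 41, nat_lit 21677490240), (nat_lit 12, nat_lit 22751232000)]⟩,
   ⟨V6_16292007936, [(nat_lit 48, nat_lit 19530010752), (nat_lit 12, nat_lit 20603752512), (nat_lit 70, nat_lit 20586975360), (nat_lit 101, nat_lit 21677494272), (nat_lit 52, nat_lit 21660717120), (nat_lit 121, nat_lit 22734458880)]⟩],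
  [W_19479666752, W_19462897664, W_19462893632, W_19462889600, W_19446120512, W_19446116480, W_19429343360, W_18405924992, W_18389159936, W_17332195328, W_15235039232, W_15218262080]⟩
theorem C_19530010752 : chkRec R_19530010752 = true := by decide +kernel

noncomputable def R_19530260610 : Rec := ⟨nat_lit 19530260610, nat_lit 18,
  [⟨V6_15235293312, [(nat_lit 10, nat_lit 19530260610), (nat_lit 100, nat_lit 20604002433), (nat_lit 121, nat_lit 21677744256)]⟩],
  [W_19495919744, W_19479404672, W_19462889600, W_18455470208, W_18422440064]⟩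
theorem C_19530260610 : chkRec R_19530260610 = true := by decide +kernel

noncomputable def R_19530264705 : Rec := ⟨nat_lit 19530264705, nat_lit 79,
  [⟨V6_18455732352, [(nat_lit 10, nat_lit 19530264705), (nat_lit 43, nat_lit 20604006528), (nat_lit 110, nat_lit 20604002433), (nat_lit 19, nat_lit 20603744385), (nat_lit 5, nat_lit 21677744256), (nat_lit 58, nat_lit 21677486208), (nat_lit 79, nat_lit 21677482113), (nat_lit 17, nat_lit 21677224065), (nat_lit 83, nat_lit 22751223936), (nat_lit 41, nat_lit 22750965888), (nat_lit 72, nat_lit 22750961793), (nat_lit 23, nat_lit 22750703745), (nat_lit 115, nat_lit 23824703616), (nat_lit 53, nat_lit 23824445568), (nat_lit 100, nat_lit 23824441473), (nat_lit 1, nat_lit 24898183296)]⟩,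
   ⟨V6_17365737600, [(nat_lit 18, nat_lit 19530264705), (nat_lit 76, nat_lit 20604006528), (nat_lit 60, nat_lit 20604002433), (nat_lit 28, nat_lit 20603744385), (nat_lit 84, nat_lit 20587229313), (nat_lit 115, nat_lit 21677744256), (nat_lit 37, nat_lit 21677486208), (nat_lit 29, nat_lit 21677482113), (nat_lit 7, nat_lit 21660971136), (nat_lit 113, nat_lit 21660967041), (nat_lit 84, nat_lit 21660708993), (nat_lit 82, nat_lit 22751223936), (nat_lit 106, nat_lit 22734708864), (nat_lit 120, nat_lit 22734450816), (nat_lit 2, nat_lit 22734446721), (nat_lit 124, nat_lit 23808188544)]⟩,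
   ⟨V6_16291995777, [(nat_lit 89, nat_lit 19530264705), (nat_lit 32, nat_lit 20604002433), (nat_lit 48, nat_lit 20603744385), (nat_lit 121, nat_lit 20587229313), (nat_lit 1, nat_lit 21677482113), (nat_lit 96, nat_lit 21660967041), (nat_lit 108, nat_lit 21660708993), (nat_lit 11, nat_lit 22734446721)]⟩],
  [W_19512696896, W_19496181824, W_19479408704, W_19463151680, W_19446378560, W_19446374528, W_19429601408, W_18438959168, W_18406187072, W_16308514880, W_14161555520, W_13087813760]⟩
theorem C_19530264705 : chkRec R_19530264705 = true := by decide +kernel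

noncomputable def R_19530264768 : Rec := ⟨nat_lit 19530264768, nat_lit 76,
  [⟨V6_17366003712, [(nat_lit 55, nat_lit 19530264768), (nat_lit 54, nat_lit 20604006528), (nat_lit 88, nat_lit 20587229376), (nat_lit 108, nat_lit 21677748288), (nat_lit 41, nat_lit 21660971136), (nat_lit 47, nat_lit 22751490048), (nat_lit 84, nat_lit 22734712896), (nat_lit 29, nat_lit 23808454656)]⟩],
  [W_19496185856, W_19479408704, W_19463155712, W_19446116480, W_19429601408, W_18455736320, W_18439221248, W_18372374720, W_17382256640, W_14144516288]⟩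
theorem C_19530264768 : chkRec R_19530264768 = true := by decide +kernel

noncomputable def R_19530268737 : Rec := ⟨nat_lit 19530268737, nat_lit 80,
  [⟨V6_17365483584, [(nat_lit 83, nat_lit 19530268737), (nat_lit 82, nat_lit 20604010560), (nat_lit 57, nat_lit 20603748417), (nat_lit 74, nat_lit 20587233345), (nat_lit 112, nat_lit 21677490240), (nat_lit 84, nat_lit 21677228097), (nat_lit 1, nat_lit 21660975168), (nat_lit 93, nat_lit 21660713025), (nat_lit 66, nat_lit 22750969920), (nat_lit 100, nat_lit 22734454848), (nat_lit 10, nat_lit 22734192705), (nat_lit 59, nat_lit 23807934528)]⟩,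
   ⟨V6_16308518976, [(nat_lit 109, nat_lit 19530268737), (nat_lit 36, nat_lit 20604010560), (nat_lit 17, nat_lit 20603748417), (nat_lit 34, nat_lit 21677490240), (nat_lit 29, nat_lit 21677228097), (nat_lit 1, nat_lit 22750969920)]⟩,
   ⟨V6_16291741761, [(nat_lit 8, nat_lit 19530268737), (nat_lit 48, nat_lit 20603748417), (nat_lit 13, nat_lit 20587233345), (nat_lit 16, nat_lit 21677228097), (nat_lit 32, nat_lit 21660713025), (nat_lit 74, nat_lit 22734192705)]⟩],
  [W_19512954944, W_19496439872, W_19496181824, W_19479924800, W_19463151680, W_19446378560, W_19429605440, W_18455990336, W_18372640832, W_14161555520, W_14144782400, W_13087817792]⟩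
theorem C_19530268737 : chkRec R_19530268737 = true := by decide +kernel

noncomputable def R_19530268800 : Rec := ⟨nat_lit 19530268800, nat_lit 232,
  [⟨V6_18439225344, [(nat_lit 94, nat_lit 19530268800), (nat_lit 20, nat_lit 20604010560), (nat_lit 69, nat_lit 20603748480), (nat_lit 58, nat_lit 20587233408), (nat_lit 100, nat_lit 21677752320), (nat_lit 51, nat_lit 21677490240), (nat_lit 118, nat_lit 21677228160), (nat_lit 22, nat_lit 21660975168), (nat_lit 21, nat_lit 21660713088), (nat_lit 46, nat_lit 22751232000), (nat_lit 118, nat_lit 22750969920), (nat_lit 78, nat_lit 22734716928), (nat_lit 66, nat_lit 22734454848), (nat_lit 69, nat_lit 22734192768), (nat_lit 48, nat_lit 23824711680), (nat_lit 96, nat_lit 23808196608), (nat_lit 49, nat_lit 23807934528), (nat_lit 71, nat_lit 24881676288)]⟩,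
   ⟨V6_17382776832, [(nat_lit 37, nat_lit 19530268800), (nat_lit 124, nat_lit 20604010560), (nat_lit 123, nat_lit 20604006528), (nat_lit 106, nat_lit 21677752320), (nat_lit 57, nat_lit 21677748288), (nat_lit 117, nat_lit 21677744256), (nat_lit 70, nat_lit 22751490048), (nat_lit 63, nat_lit 22751486016), (nat_lit 72, nat_lit 23825227776)]⟩,
   ⟨V6_17382260736, [(nat_lit 59, nat_lit 19530268800), (nat_lit 114, nat_lit 20604010560), (nat_lit 35, nat_lit 20603748480), (nat_lit 124, nat_lit 21677752320), (nat_lit 104, nat_lit 21677490240), (nat_lit 119, nat_lit 21677228160), (nat_lit 88, nat_lit 22751232000), (nat_lit 72, nat_lit 22750969920), (nat_lit 121, nat_lit 23824711680)]⟩,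
   ⟨V6_16308518976, [(nat_lit 26, nat_lit 19530268800), (nat_lit 117, nat_lit 20604010560), (nat_lit 43, nat_lit 20603748480), (nat_lit 43, nat_lit 21677490240), (nat_lit 114, nat_lit 21677228160), (nat_lit 87, nat_lit 22750969920)]⟩,
   ⟨V6_16291741824, [(nat_lit 14, nat_lit 19530268800), (nat_lit 84, nat_lit 20603748480), (nat_lit 118, nat_lit 20587233408), (nat_lit 28, nat_lit 21677228160), (nat_lit 56, nat_lit 21660713088), (nat_lit 66, nat_lit 22734192768)]⟩],
  [W_19496185856, W_19479412736, W_19479404672, W_19463155712, W_19463151680, W_19462889600, W_19462635584, W_19446382592, W_19446378560, W_19446374528, W_19429605440, W_19429601408, W_19429343360, W_18422448128, W_18372640832, W_18355863680, W_17382256640, W_17365483520, W_17348706368, W_16308518912, W_15235297280, W_15235039232, W_15218524160, W_14161559552, W_14144782400, W_13087817792]⟩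
theorem C_19530268800 : chkRec R_19530268800 = true := by decide +kernel

noncomputable def R_19530272832 : Rec := ⟨nat_lit 19530272832, nat_lit 192,
  [⟨V6_18456514560, [(nat_lit 99, nat_lit 19530272832), (nat_lit 109, nat_lit 20604014592), (nat_lit 14, nat_lit 20604010560), (nat_lit 57, nat_lit 21677752320), (nat_lit 19, nat_lit 21677748288), (nat_lit 68, nat_lit 22751490048), (nat_lit 126, nat_lit 22751486016), (nat_lit 6, nat_lit 23825227776), (nat_lit 94, nat_lit 23825223744), (nat_lit 10, nat_lit 24898965504)]⟩,
   ⟨V6_18456252480, [(nat_lit 11, nat_lit 19530272832), (nat_lit 3, nat_lit 20604010560), (nat_lit 73, nat_lit 20603752512), (nat_lit 82, nat_lit 21677748288), (nat_lit 15, nat_lit 21677490240), (nat_lit 97, nat_lit 22751486016), (nat_lit 112, nat_lit 22751227968), (nat_lit 107, nat_lit 23825223744), (nat_lit 74, nat_lit 23824965696), (nat_lit 2, nat_lit 24898703424)]⟩,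
   ⟨V6_17382776832, [(nat_lit 61, nat_lit 19530272832), (nat_lit 99, nat_lit 20604014592), (nat_lit 112, nat_lit 20604010560), (nat_lit 79, nat_lit 21677752320), (nat_lit 95, nat_lit 21677748288), (nat_lit 11, nat_lit 22751490048), (nat_lit 35, nat_lit 22751486016), (nat_lit 109, nat_lit 23825227776)]⟩],
  [W_19463155712, W_19463151680, W_19462897664, W_19446382592, W_19446378560, W_19446124544, W_19446120512, W_19429609472, W_19429605440, W_18389159936, W_18372644864, W_18372640832, W_17298903104, W_15235297280, W_15235039232, W_15218524160, W_15218262080, W_15201747008, W_15201488960, W_14161559552, W_14161301504, W_14161297472, W_14144782400, W_14144524352, W_13087821824, W_13087817792, W_13071044672]⟩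
theorem C_19530272832 : chkRec R_19530272832 = true := by decide +kernel

noncomputable def R_19530276864 : Rec := ⟨nat_lit 19530276864, nat_lit 99,
  [⟨V6_18456514560, [(nat_lit 8, nat_lit 19530276864), (nat_lit 92, nat_lit 20604014592), (nat_lit 2, nat_lit 21677752320), (nat_lit 97, nat_lit 22751490048), (nat_lit 107, nat_lit 23825227776), (nat_lit 29, nat_lit 24898965504)]⟩,
   ⟨V6_14161563648, [(nat_lit 35, nat_lit 19530276864), (nat_lit 121, nat_lit 20604014592)]⟩,
   ⟨V6_13087825920, [(nat_lit 96, nat_lit 19530276864)]⟩],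
  [W_19463155712, W_19446382592, W_19429609472, W_18389417984, W_18372644864, W_18355871744, W_17298907136, W_15235297280, W_15218524160, W_13071048704]⟩
theorem C_19530276864 : chkRec R_19530276864 = true := by decide +kernel

noncomputable def R_19530522753 : Rec := ⟨nat_lit 19530522753, nat_lit 56,
  [⟨V6_17315930241, [(nat_lit 109, nat_lit 19530522753), (nat_lit 45, nat_lit 20587487361), (nat_lit 82, nat_lit 21644451969), (nat_lit 21, nat_lit 22701416577), (nat_lit 77, nat_lit 23758381185)]⟩,
   ⟨V6_15235293312, [(nat_lit 48, nat_lit 19530522753), (nat_lit 66, nat_lit 20604264576), (nat_lit 2, nat_lit 20604002433), (nat_lit 77, nat_lit 21677744256)]⟩,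
   ⟨V6_13088071809, [(nat_lit 122, nat_lit 19530522753)]⟩],
  [W_19512434816, W_19496181824, W_19463151680, W_18455732288, W_18455470208, W_18439217216, W_18389672000, W_17381990528]⟩
theorem C_19530522753 : chkRec R_19530522753 = true := by decide +kernel

noncomputable def R_19530526785 : Rec := ⟨nat_lit 19530526785, nat_lit 88,
  [⟨V6_19529732160, [(nat_lit 13, nat_lit 19530526785), (nat_lit 75, nat_lit 20604268608), (nat_lit 108, nat_lit 20604264513), (nat_lit 113, nat_lit 20604006465), (nat_lit 98, nat_lit 21678006336), (nat_lit 42, nat_lit 21678002241), (nat_lit 44, nat_lit 21677748288), (nat_lit 84, nat_lit 21677744193), (nat_lit 3, nat_lit 21677486145), (nat_lit 27, nat_lit 22751744064), (nat_lit 74, nat_lit 22751486016), (nat_lit 59, nat_lit 22751481921), (nat_lit 82, nat_lit 22751227968), (nat_lit 57, nat_lit 22751223873), (nat_lit 98, nat_lit 22750965825), (nat_lit 46, nat_lit 23825223744), (nat_lit 104, nat_lit 23824965696), (nat_lit 119, nat_lit 23824961601), (nat_lit 71, nat_lit 23824707648), (nat_lit 31, nat_lit 23824703553), (nat_lit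 17, nat_lit 24898703424), (nat_lit 44, nat_lit 24898445376), (nat_lit 42, nat_lit 24898441281), (nat_lit 22, nat_lit 25972183104)]⟩,
   ⟨V6_18456252480, [(nat_lit 49, nat_lit 19530526785), (nat_lit 105, nat_lit 20604268608), (nat_lit 98, nat_lit 20604264513), (nat_lit 81, nat_lit 20604006465), (nat_lit 97, nat_lit 21678006336), (nat_lit 37, nat_lit 21678002241), (nat_lit 34, nat_lit 21677748288), (nat_lit 10, nat_lit 21677744193), (nat_lit 13, nat_lit 21677486145), (nat_lit 77, nat_lit 22751744064), (nat_lit 5, nat_lit 22751486016), (nat_lit 112, nat_lit 22751481921), (nat_lit 109, nat_lit 22751227968), (nat_lit 43, nat_lit 22751223873), (nat_lit 63, nat_lit 23825223744), (nat_lit 42, nat_lit 23824965696), (nat_lit 36, nat_lit 23824961601), (nat_lit 75, nat_lit 24898703424)]⟩,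
   ⟨V6_18423222336, [(nat_lit 14, nat_lit 19530526785), (nat_lit 106, nat_lit 20604268608), (nat_lit 119, nat_lit 20604264513), (nat_lit 119, nat_lit 20587491393), (nat_lit 89, nat_lit 21678006336), (nat_lit 4, nat_lit 21678002241), (nat_lit 37, nat_lit 21661233216), (nat_lit 105, nat_lit 21661229121), (nat_lit 4, nat_lit 21644456001), (nat_lit 69, nat_lit 22751744064), (nat_lit 117, nat_lit 22734970944), (nat_lit 99, nat_lit 22734966849), (nat_lit 55, nat_lit 22718197824), (nat_lit 124, nat_lit 22718193729), (nat_lit 3, nat_lit 23808708672), (nat_lit 83, nat_lit 23791935552), (nat_lit 66, nat_lit 23791931457), (nat_lit 73, nat_lit 24865673280)]⟩],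
  [W_19529470016, W_19512696896, W_19463409728, W_19463151680, W_19446636608, W_19446378560, W_18438959168, W_18372898880, W_17381994560, W_17315934272, W_16308514880, W_15235551296, W_15235035200, W_14161813568, W_14161555520, W_13088075840]⟩
theorem C_19530526785 : chkRec R_19530526785 = true := by decide +kernel

noncomputable def R_19530526848 : Rec := ⟨nat_lit 19530526848, nat_lit 216,
  [⟨V6_18456256512, [(nat_lit 117, nat_lit 19530526848), (nat_lit 111, nat_lit 20604268608), (nat_lit 111, nat_lit 20604264576), (nat_lit 42, nat_lit 20604006528), (nat_lit 96, nat_lit 21678010368), (nat_lit 59, nat_lit 21678006336), (nat_lit 94, nat_lit 21677748288), (nat_lit 70, nat_lit 21677744256), (nat_lit 12, nat_lit 21677486208), (nat_lit 78, nat_lit 22751748096), (nat_lit 56, nat_lit 22751490048), (nat_lit 96, nat_lit 22751486016), (nat_lit 10, nat_lit 22751227968), (nat_lit 106, nat_lit 22751223936), (nat_lit 13, nat_lit 23825227776), (nat_lit 93, nat_lit 23824969728), (nat_lit 19, nat_lit 23824965696), (nat_lit 121, nat_lit 24898707456)]⟩,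
   ⟨V6_18455998464, [(nat_lit 14, nat_lit 19530526848), (nat_lit 46, nat_lit 20604268608), (nat_lit 117, nat_lit 20604006528), (nat_lit 36, nat_lit 21678010368), (nat_lit 67, nat_lit 21677748288), (nat_lit 68, nat_lit 21677486208), (nat_lit 58, nat_lit 22751490048), (nat_lit 6, nat_lit 22751227968), (nat_lit 95, nat_lit 22750965888), (nat_lit 38, nat_lit 23824969728), (nat_lit 12, nat_lit 23824707648), (nat_lit 31, nat_lit 24898449408)]⟩,
   ⟨V6_17382776832, [(nat_lit 65, nat_lit 19530526848), (nat_lit 30, nat_lit 20604268608), (nat_lit 6, nat_lit 20604264576), (nat_lit 113, nat_lit 20604006528), (nat_lit 118, nat_lit 21678010368), (nat_lit 33, nat_lit 21678006336), (nat_lit 74, nat_lit 21677748288), (nat_lit 111, nat_lit 21677744256), (nat_lit 73, nat_lit 22751748096), (nat_lit 73, nat_lit 22751490048), (nat_lit 16, nat_lit 22751486016), (nat_lit 107, nat_lit 23825227776)]⟩],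
  [W_19529474048, W_19512700928, W_19496185856, W_19495923776, W_19495919744, W_19479404672, W_19463413760, W_19463155712, W_19463151680, W_19462889600, W_19446640640, W_19446636608, W_19446378560, W_19446374528, W_19446116480, W_18455736320, W_18438959168, W_18389676032, W_18372898880, W_17382256640, W_17299157120, W_15235297280, W_15202001024, W_14161817600, W_14161813568, W_14145036416, W_14128263296, W_13088075840, W_13088071808, W_13071298688]⟩
theorem C_19530526848 : chkRec R_19530526848 = true := by decide +kernel

noncomputable def R_19530530880 : Rec := ⟨nat_lit 19530530880, nat_lit 309,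
  [⟨V6_19529732160, [(nat_lit 39, nat_lit 19530530880), (nat_lit 20, nat_lit 20604268608), (nat_lit 48, nat_lit 20604010560), (nat_lit 86, nat_lit 21678006336), (nat_lit 23, nat_lit 21677748288), (nat_lit 12, nat_lit 21677490240), (nat_lit 52, nat_lit 22751744064), (nat_lit 21, nat_lit 22751486016), (nat_lit 66, nat_lit 22751227968), (nat_lit 70, nat_lit 22750969920), (nat_lit 55, nat_lit 23825223744), (nat_lit 19, nat_lit 23824965696), (nat_lit 90, nat_lit 23824707648), (nat_lit 41, nat_lit 24898703424), (nat_lit 71, nat_lit 24898445376), (nat_lit 44, nat_lit 25972183104)]⟩,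
   ⟨V6_19513479168, [(nat_lit 47, nat_lit 19530530880), (nat_lit 92, nat_lit 20604272640), (nat_lit 96, nat_lit 20604268608), (nat_lit 106, nat_lit 20604010560), (nat_lit 82, nat_lit 20587495488), (nat_lit 121, nat_lit 21678010368), (nat_lit 54, nat_lit 21678006336), (nat_lit 33, nat_lit 21677752320), (nat_lit 98, nat_lit 21677748288), (nat_lit 95, nat_lit 21661237248), (nat_lit 43, nat_lit 21661233216), (nat_lit 45, nat_lit 21660975168), (nat_lit 22, nat_lit 22751748096), (nat_lit 32, nat_lit 22751744064), (nat_lit 22, nat_lit 22751490048), (nat_lit 111, nat_lit 22751486016), (nat_lit 17, nat_lit 22734974976), (nat_lit 23, nat_lit 22734970944), (nat_lit 95, nat_lit 22734716928), (nat_lit 115, nat_lit 22734712896), (nat_lit 124, nat_lit 23825485824), (nat_lit 110, nat_lit 23825227776), (nat_lit 35, nat_lit 23825223744), (nat_lit 1, nat_lit 23808712704), (nat_lit 38, nat_lit 23808708672), (nat_lit 52, nat_lit 23808454656), (nat_lit 45, nat_lit 23808450624), (nat_lit 39, nat_lit 24898965504), (nat_lit 120, nat_lit 24882450432), (nat_lit 114, nat_lit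 24882192384), (nat_lit 11, nat_lit 24882188352), (nat_lit 119, nat_lit 25955930112)]⟩,
   ⟨V6_19496964096, [(nat_lit 117, nat_lit 19530530880), (nat_lit 54, nat_lit 20604272640), (nat_lit 113, nat_lit 20604268608), (nat_lit 72, nat_lit 20587495488), (nat_lit 40, nat_lit 21678010368), (nat_lit 9, nat_lit 21678006336), (nat_lit 109, nat_lit 21661237248), (nat_lit 21, nat_lit 21661233216), (nat_lit 55, nat_lit 21644460096), (nat_lit 89, nat_lit 22751748096), (nat_lit 52, nat_lit 22751744064), (nat_lit 96, nat_lit 22734974976), (nat_lit 61, nat_lit 22734970944), (nat_lit 68, nat_lit 22718201856), (nat_lit 47, nat_lit 22718197824), (nat_lit 13, nat_lit 23825485824), (nat_lit 96, nat_lit 23808712704), (nat_lit 124, nat_lit 23808708672), (nat_lit 90, nat_lit 23791939584), (nat_lit 4, nat_lit 23791935552), (nat_lit 52, nat_lit 24882450432), (nat_lit 114, nat_lit 24865677312), (nat_lit 15, nat_lit 24865673280), (nat_lit 62, nat_lit 25939415040)]⟩,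
   ⟨V6_19496189952, [(nat_lit 88, nat_lit 19530530880), (nat_lit 82, nat_lit 20604272640), (nat_lit 52, nat_lit 20604010560), (nat_lit 70, nat_lit 20587495488), (nat_lit 67, nat_lit 21677752320), (nat_lit 39, nat_lit 21677490240), (nat_lit 115, nat_lit 21661237248), (nat_lit 31, nat_lit 21660975168), (nat_lit 43, nat_lit 21644460096), (nat_lit 89, nat_lit 22751232000), (nat_lit 32, nat_lit 22750969920), (nat_lit 67, nat_lit 22734716928), (nat_lit 117, nat_lit 22734454848), (nat_lit 29, nat_lit 22718201856), (nat_lit 120, nat_lit 22717939776), (nat_lit 98, nat_lit 23824711680), (nat_lit 30, nat_lit 23808196608), (nat_lit 31, nat_lit 23807934528), (nat_lit 114, nat_lit 23791681536), (nat_lit 31, nat_lit 23791419456), (nat_lit 64, nat_lit 24881676288), (nat_lit 72, nat_lit 24865161216), (nat_lit 126, nat_lit 24864899136), (nat_lit 106, nat_lit 25938640896)]⟩,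
   ⟨V6_19480186944, [(nat_lit 77, nat_lit 19530530880), (nat_lit 78, nat_lit 20604268608), (nat_lit 123, nat_lit 20587495488), (nat_lit 21, nat_lit 21678006336), (nat_lit 14, nat_lit 21661233216), (nat_lit 80, nat_lit 21644460096), (nat_lit 22, nat_lit 22751744064), (nat_lit 13, nat_lit 22734970944), (nat_lit 34, nat_lit 22718197824), (nat_lit 94, nat_lit 22701424704), (nat_lit 50, nat_lit 23808708672), (nat_lit 92, nat_lit 23791935552), (nat_lit 68, nat_lit 23775162432), (nat_lit 80, nat_lit 24865673280), (nat_lit 72, nat_lit 24848900160), (nat_lit 2, nat_lit 25922637888)]⟩,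
   ⟨V6_19446644736, [(nat_lit 100, nat_lit 19530530880), (nat_lit 31, nat_lit 20604272640), (nat_lit 71, nat_lit 20587495488), (nat_lit 42, nat_lit 21661237248), (nat_lit 41, nat_lit 21644460096), (nat_lit 32, nat_lit 22718201856), (nat_lit 14, nat_lit 22701424704), (nat_lit 24, nat_lit 23775166464), (nat_lit 13, nat_lit 23758389312), (nat_lit 115, nat_lit 24832131072), (nat_lit 103, nat_lit 24815353920), (nat_lit 73, nat_lit 25889095680)]⟩,
   ⟨V6_18439999488, [(nat_lit 31, nat_lit 19530530880), (nat_lit 45, nat_lit 20604272640), (nat_lit 34, nat_lit 20604268608), (nat_lit 64, nat_lit 20587495488), (nat_lit 110, nat_lit 21678010368), (nat_lit 96, nat_lit 21678006336), (nat_lit 48, nat_lit 21661237248), (nat_lit 87, nat_lit 21661233216), (nat_lit 73, nat_lit 22751748096), (nat_lit 62, nat_lit 22751744064), (nat_lit 95, nat_lit 22734974976), (nat_lit 43, nat_lit 22734970944), (nat_lit 17, nat_lit 23825485824), (nat_lit 26, nat_lit 23808712704), (nat_lit 115, nat_lit 23808708672), (nat_lit 11, nat_lit 24882450432)]⟩],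
  [W_19479412736, W_19446640640, W_19446636608, W_19446382592, W_18422448128, W_18372902912, W_18372898880, W_18372640832, W_17382256640, W_17365483520, W_17348706368, W_17315938304, W_16308518912, W_16308514880, W_16291741760, W_16242196544, W_15235551296, W_15235297280, W_15235039232, W_15235035200, W_15234777152, W_15218524160, W_15218262080, W_15202009088, W_15201747008, W_15185231936, W_14161817600, W_14161813568, W_14161559552, W_14161555520, W_14161297472, W_14145044480, W_14144782400, W_14128267328, W_13088079872, W_13088075840, W_13087817792, W_13071302720]⟩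
theorem C_19530530880 : chkRec R_19530530880 = true := by decide +kernel

noncomputable def R_19530534912 : Rec := ⟨nat_lit 19530534912, nat_lit 199,
  [⟨V6_19446644736, [(nat_lit 36, nat_lit 19530534912), (nat_lit 97, nat_lit 20604272640), (nat_lit 79, nat_lit 20587499520), (nat_lit 104, nat_lit 21661237248), (nat_lit 96, nat_lit 21644464128), (nat_lit 81, nat_lit 22718201856), (nat_lit 21, nat_lit 22701428736), (nat_lit 61, nat_lit 23775166464), (nat_lit 87, nat_lit 23758393344), (nat_lit 36, nat_lit 24832131072), (nat_lit 85, nat_lit 24815357952), (nat_lit 87, nat_lit 25889095680)]⟩,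
   ⟨V6_18456772608, [(nat_lit 126, nat_lit 19530534912), (nat_lit 109, nat_lit 20604272640), (nat_lit 32, nat_lit 21678010368), (nat_lit 85, nat_lit 22751748096), (nat_lit 57, nat_lit 23825485824), (nat_lit 55, nat_lit 24899223552)]⟩,
   ⟨V6_17383034880, [(nat_lit 85, nat_lit 19530534912), (nat_lit 101, nat_lit 20604272640), (nat_lit 96, nat_lit 21678010368), (nat_lit 33, nat_lit 22751748096), (nat_lit 93, nat_lit 23825485824)]⟩,
   ⟨V6_17382776832, [(nat_lit 91, nat_lit 19530534912), (nat_lit 7, nat_lit 20604272640), (nat_lit 111, nat_lit 20604014592), (nat_lit 75, nat_lit 21678010368), (nat_lit 67, nat_lit 21677752320), (nat_lit 50, nat_lit 22751748096), (nat_lit 40, nat_lit 22751490048), (nat_lit 56, nat_lit 23825227776)]⟩],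
  [W_19480186880, W_19463413760, W_19463155712, W_19446640640, W_19446382592, W_18389676032, W_17315938304, W_15235297280, W_15235039232, W_15218524160, W_15202009088, W_14161817600, W_14161559552, W_14145044480, W_13088079872, W_13071306752]⟩
theorem C_19530534912 : chkRec R_19530534912 = true := by decide +kernel

noncomputable def R_19530784833 : Rec := ⟨nat_lit 19530784833, nat_lit 63,
  [⟨V6_17382510657, [(nat_lit 45, nat_lit 19530784833), (nat_lit 87, nat_lit 20604522561), (nat_lit 46, nat_lit 20604264513), (nat_lit 10, nat_lit 21678002241), (nat_lit 106, nat_lit 21677744193), (nat_lit 45, nat_lit 22751481921), (nat_lit 88, nat_lit 22751223873), (nat_lit 112, nat_lit 23824961601)]⟩,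
   ⟨V6_16276004928, [(nat_lit 29, nat_lit 19530784833), (nat_lit 12, nat_lit 20604526656), (nat_lit 113, nat_lit 20587749441), (nat_lit 96, nat_lit 21661491264), (nat_lit 110, nat_lit 21644714049), (nat_lit 82, nat_lit 22718455872)]⟩],
  [W_19512954944, W_19512696896, W_19496181824, W_19463409728, W_19463151680, W_18455990336, W_18455732288, W_18389672000]⟩
theorem C_19530784833 : chkRec R_19530784833 = true := by decide +kernel

noncomputable def R_19530784896 : Rec := ⟨nat_lit 19530784896, nat_lit 146,
  [⟨V6_16309297152, [(nat_lit 36, nat_lit 19530784896), (nat_lit 76, nat_lit 20604526656), (nat_lit 47, nat_lit 20604264576), (nat_lit 7, nat_lit 21678268416), (nat_lit 56, nat_lit 21678006336), (nat_lit 111, nat_lit 22751748096)]⟩,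
   ⟨V6_16292782080, [(nat_lit 104, nat_lit 19530784896), (nat_lit 26, nat_lit 20604526656), (nat_lit 67, nat_lit 20587749504), (nat_lit 113, nat_lit 21678268416), (nat_lit 28, nat_lit 21661491264), (nat_lit 114, nat_lit 22735233024)]⟩,
   ⟨V6_15235817472, [(nat_lit 66, nat_lit 19530784896), (nat_lit 99, nat_lit 20604526656), (nat_lit 57, nat_lit 21678268416)]⟩],
  [W_19529474048, W_19529211968, W_19512958976, W_19512696896, W_19496181824, W_19495919744, W_19479404672, W_19463413760, W_19463151680, W_19462889600, W_18455470208, W_18438955136, W_18422440064, W_18389934080, W_17381990528, W_17316192320, W_16242450560, W_15202001024, W_14161813568, W_13088071808, W_13071556736]⟩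
theorem C_19530784896 : chkRec R_19530784896 = true := by decide +kernel

noncomputable def R_19530788928 : Rec := ⟨nat_lit 19530788928, nat_lit 287,
  [⟨V6_19529732160, [(nat_lit 100, nat_lit 19530788928), (nat_lit 124, nat_lit 20604526656), (nat_lit 45, nat_lit 20604268608), (nat_lit 31, nat_lit 21678264384), (nat_lit 114, nat_lit 21678006336), (nat_lit 71, nat_lit 21677748288), (nat_lit 41, nat_lit 22751744064), (nat_lit 78, nat_lit 22751486016), (nat_lit 120, nat_lit 22751227968), (nat_lit 30, nat_lit 23825223744), (nat_lit 112, nat_lit 23824965696), (nat_lit 96, nat_lit 23824707648), (nat_lit 110, nat_lit 24898703424), (nat_lit 50, nat_lit 24898445376), (nat_lit 4, nat_lit 25972183104)]⟩,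
   ⟨V6_18456252480, [(nat_lit 42, nat_lit 19530788928), (nat_lit 56, nat_lit 20604526656), (nat_lit 63, nat_lit 20604268608), (nat_lit 11, nat_lit 21678264384), (nat_lit 61, nat_lit 21678006336), (nat_lit 26, nat_lit 21677748288), (nat_lit 84, nat_lit 22751744064), (nat_lit 19, nat_lit 22751486016), (nat_lit 48, nat_lit 22751227968), (nat_lit 19, nat_lit 23825223744), (nat_lit 55, nat_lit 23824965696), (nat_lit 52, nat_lit 24898703424)]⟩,
   ⟨V6_18439999488, [(nat_lit 61, nat_lit 19530788928), (nat_lit 79, nat_lit 20604530688), (nat_lit 48, nat_lit 20604526656), (nat_lit 13, nat_lit 20604268608), (nat_lit 48, nat_lit 20587753536), (nat_lit 97, nat_lit 21678268416), (nat_lit 58, nat_lit 21678264384), (nat_lit 80, nat_lit 21678010368), (nat_lit 80, nat_lit 21678006336), (nat_lit 85, nat_lit 21661495296), (nat_lit 41, nat_lit 21661491264), (nat_lit 121, nat_lit 21661233216), (nat_lit 121, nat_lit 22752006144), (nat_lit 124, nat_lit 22751748096), (nat_lit 44, nat_lit 22751744064), (nat_lit 41, nat_lit 22735233024), (nat_lit 49, nat_lit 22735228992),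 (nat_lit 20, nat_lit 22734974976), (nat_lit 80, nat_lit 22734970944), (nat_lit 74, nat_lit 23825485824), (nat_lit 23, nat_lit 23808970752), (nat_lit 81, nat_lit 23808712704), (nat_lit 15, nat_lit 23808708672), (nat_lit 52, nat_lit 24882450432)]⟩,
   ⟨V6_18423484416, [(nat_lit 86, nat_lit 19530788928), (nat_lit 9, nat_lit 20604530688), (nat_lit 77, nat_lit 20604526656), (nat_lit 42, nat_lit 20587753536), (nat_lit 41, nat_lit 21678268416), (nat_lit 44, nat_lit 21678264384), (nat_lit 29, nat_lit 21661495296), (nat_lit 47, nat_lit 21661491264), (nat_lit 59, nat_lit 21644718144), (nat_lit 1, nat_lit 22752006144), (nat_lit 83, nat_lit 22735233024), (nat_lit 24, nat_lit 22735228992), (nat_lit 82, nat_lit 22718459904), (nat_lit 29, nat_lit 22718455872), (nat_lit 43, nat_lit 23808970752), (nat_lit 104, nat_lit 23792197632), (nat_lit 76, nat_lit 23792193600), (nat_lit 124, nat_lit 24865935360)]⟩,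
   ⟨V6_17383034880, [(nat_lit 4, nat_lit 19530788928), (nat_lit 52, nat_lit 20604530688), (nat_lit 121, nat_lit 20604526656), (nat_lit 11, nat_lit 20604268608), (nat_lit 71, nat_lit 21678268416), (nat_lit 6, nat_lit 21678264384), (nat_lit 67, nat_lit 21678010368), (nat_lit 81, nat_lit 21678006336), (nat_lit 117, nat_lit 22752006144), (nat_lit 86, nat_lit 22751748096), (nat_lit 84, nat_lit 22751744064), (nat_lit 17, nat_lit 23825485824)]⟩,
   ⟨V6_17366519808, [(nat_lit 116, nat_lit 19530788928), (nat_lit 74, nat_lit 20604530688), (nat_lit 18, nat_lit 20604526656), (nat_lit 62, nat_lit 20587753536), (nat_lit 112, nat_lit 21678268416), (nat_lit 76, nat_lit 21678264384), (nat_lit 97, nat_lit 21661495296), (nat_lit 12, nat_lit 21661491264), (nat_lit 99, nat_lit 22752006144), (nat_lit 16, nat_lit 22735233024), (nat_lit 75, nat_lit 22735228992), (nat_lit 91, nat_lit 23808970752)]⟩],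
  [W_19529732096, W_19529474048, W_19512700928, W_19496185856, W_19495923776, W_19463671808, W_19463413760, W_19463409728, W_19463155712, W_18455736320, W_18438959168, W_18389934080, W_18389930048, W_18389676032, W_17382256640, W_17381994560, W_17332965440, W_17316196352, W_17316192320, W_16308514880, W_16242454592, W_15235551296, W_15235297280, W_15235035200, W_15185489984, W_14162071616, W_14161817600, W_14161813568, W_14161555520, W_14128525376, W_13088337920, W_13088333888, W_13088075840, W_13071560768]⟩
theorem C_19530788928 : chkRec R_19530788928 = true := by decide +kernel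

noncomputable def R_19530792960 : Rec := ⟨nat_lit 19530792960, nat_lit 274,
  [⟨V6_19496189952, [(nat_lit 60, nat_lit 19530792960), (nat_lit 82, nat_lit 20604272640), (nat_lit 65, nat_lit 20587757568), (nat_lit 69, nat_lit 21677752320), (nat_lit 104, nat_lit 21661237248), (nat_lit 41, nat_lit 21644722176), (nat_lit 54, nat_lit 22751232000), (nat_lit 37, nat_lit 22734716928), (nat_lit 114, nat_lit 22718201856), (nat_lit 55, nat_lit 23824711680), (nat_lit 62, nat_lit 23808196608), (nat_lit 103, nat_lit 23791681536), (nat_lit 125, nat_lit 24881676288), (nat_lit 62, nat_lit 24865161216), (nat_lit 35, nat_lit 25938640896)]⟩,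
   ⟨V6_18439999488, [(nat_lit 62, nat_lit 19530792960), (nat_lit 74, nat_lit 20604530688), (nat_lit 45, nat_lit 20604272640), (nat_lit 57, nat_lit 20587757568), (nat_lit 26, nat_lit 21678268416), (nat_lit 37, nat_lit 21678010368), (nat_lit 28, nat_lit 21661495296), (nat_lit 92, nat_lit 21661237248), (nat_lit 61, nat_lit 22752006144), (nat_lit 17, nat_lit 22751748096), (nat_lit 5, nat_lit 22735233024), (nat_lit 4, nat_lit 22734974976), (nat_lit 86, nat_lit 23825485824), (nat_lit 3, nat_lit 23808970752), (nat_lit 107, nat_lit 23808712704), (nat_lit 83, nat_lit 24882450432)]⟩,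
   ⟨V6_18423484416, [(nat_lit 7, nat_lit 19530792960), (nat_lit 2, nat_lit 20604530688), (nat_lit 107, nat_lit 20587757568), (nat_lit 83, nat_lit 21678268416), (nat_lit 23, nat_lit 21661495296), (nat_lit 48, nat_lit 21644722176), (nat_lit 11, nat_lit 22752006144), (nat_lit 38, nat_lit 22735233024), (nat_lit 80, nat_lit 22718459904), (nat_lit 105, nat_lit 23808970752), (nat_lit 103, nat_lit 23792197632), (nat_lit 10, nat_lit 24865935360)]⟩,
   ⟨V6_17383034880, [(nat_lit 93, nat_lit 19530792960), (nat_lit 68, nat_lit 20604530688), (nat_lit 120, nat_lit 20604272640), (nat_lit 57, nat_lit 21678268416), (nat_lit 4, nat_lit 21678010368), (nat_lit 17, nat_lit 22752006144), (nat_lit 63, nat_lit 22751748096), (nat_lit 109, nat_lit 23825485824)]⟩,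
   ⟨V6_17366519808, [(nat_lit 46, nat_lit 19530792960), (nat_lit 87, nat_lit 20604530688), (nat_lit 42, nat_lit 20587757568), (nat_lit 13, nat_lit 21678268416), (nat_lit 20, nat_lit 21661495296), (nat_lit 73, nat_lit 22752006144), (nat_lit 67, nat_lit 22735233024), (nat_lit 45, nat_lit 23808970752)]⟩],
  [W_19529732096, W_19479412736, W_19463671808, W_19463413760, W_18422448128, W_18389934080, W_17382256640, W_17316196352, W_17315938304, W_16308518912, W_16242458624, W_15235297280, W_15235039232, W_15218524160, W_15202009088, W_15185494016, W_14161817600, W_14161559552, W_14145044480, W_14128529408, W_13088337920, W_13088079872, W_13071564800]⟩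
theorem C_19530792960 : chkRec R_19530792960 = true := by decide +kernel

noncomputable def R_19531042881 : Rec := ⟨nat_lit 19531042881, nat_lit 23,
  [⟨V6_17332965441, [(nat_lit 107, nat_lit 19531042881), (nat_lit 99, nat_lit 20604522561), (nat_lit 31, nat_lit 20588007489), (nat_lit 70, nat_lit 21661487169), (nat_lit 43, nat_lit 21644972097), (nat_lit 57, nat_lit 22718451777), (nat_lit 4, nat_lit 22701936705), (nat_lit 75, nat_lit 23775416385)]⟩,
   ⟨V6_15235813440, [(nat_lit 89, nat_lit 19531042881), (nat_lit 18, nat_lit 20604784704), (nat_lit 105, nat_lit 20604522561), (nat_lit 71, nat_lit 21678264384)]⟩],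
  [W_19512954944, W_19496439872, W_18455990336, W_16259485760]⟩
theorem C_19531042881 : chkRec R_19531042881 = true := by decide +kernel

noncomputable def R_19531046976 : Rec := ⟨nat_lit 19531046976, nat_lit 191,
  [⟨V6_18456256512, [(nat_lit 83, nat_lit 19531046976), (nat_lit 24, nat_lit 20604788736), (nat_lit 119, nat_lit 20604526656), (nat_lit 24, nat_lit 21678268416), (nat_lit 122, nat_lit 21678006336), (nat_lit 39, nat_lit 22751748096), (nat_lit 103, nat_lit 22751486016), (nat_lit 16, nat_lit 23825227776), (nat_lit 64, nat_lit 23824965696), (nat_lit 27, nat_lit 24898707456)]⟩,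
   ⟨V6_17382776832, [(nat_lit 102, nat_lit 19531046976), (nat_lit 18, nat_lit 20604788736), (nat_lit 46, nat_lit 20604526656), (nat_lit 82, nat_lit 21678268416), (nat_lit 79, nat_lit 21678006336), (nat_lit 100, nat_lit 22751748096), (nat_lit 123, nat_lit 22751486016), (nat_lit 34, nat_lit 23825227776)]⟩,
   ⟨V6_15235813440, [(nat_lit 50, nat_lit 19531046976), (nat_lit 118, nat_lit 20604784704), (nat_lit 118, nat_lit 20604526656), (nat_lit 6, nat_lit 21678264384)]⟩],
  [W_19529732096, W_19529474048, W_19529470016, W_19529211968, W_19512696896, W_19480186880, W_19479924800, W_18406707200, W_17333227520, W_17332965440, W_16276262912, W_16276000832, W_16259489792, W_16259485760, W_15235551296, W_15219298304, W_15202525184, W_15185748032, W_14162333696, W_14162071616, W_14161813568, W_14145560576, W_14145556544, W_14128783424, W_13088595968, W_13088333888]⟩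
theorem C_19531046976 : chkRec R_19531046976 = true := by decide +kernel

noncomputable def R_19531051008 : Rec := ⟨nat_lit 19531051008, nat_lit 219,
  [⟨V6_19512963072, [(nat_lit 17, nat_lit 19531051008), (nat_lit 13, nat_lit 20604530688), (nat_lit 34, nat_lit 20588015616), (nat_lit 57, nat_lit 21678010368), (nat_lit 87, nat_lit 21661495296), (nat_lit 33, nat_lit 22751490048), (nat_lit 42, nat_lit 22734974976), (nat_lit 63, nat_lit 23824969728), (nat_lit 21, nat_lit 23808454656), (nat_lit 74, nat_lit 24898449408), (nat_lit 20, nat_lit 24881934336), (nat_lit 39, nat_lit 25955414016)]⟩,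
   ⟨V6_18456772608, [(nat_lit 25, nat_lit 19531051008), (nat_lit 17, nat_lit 20604788736), (nat_lit 7, nat_lit 20604530688), (nat_lit 106, nat_lit 21678526464), (nat_lit 31, nat_lit 21678268416), (nat_lit 125, nat_lit 21678010368), (nat_lit 99, nat_lit 22752264192), (nat_lit 113, nat_lit 22752006144), (nat_lit 121, nat_lit 22751748096), (nat_lit 70, nat_lit 23825743872), (nat_lit 55, nat_lit 23825485824), (nat_lit 21, nat_lit 24899223552)]⟩,
   ⟨V6_18455998464, [(nat_lit 121, nat_lit 19531051008), (nat_lit 25, nat_lit 20604530688), (nat_lit 114, nat_lit 21678010368), (nat_lit 120, nat_lit 22751490048), (nat_lit 75, nat_lit 23824969728), (nat_lit 98, nat_lit 24898449408)]⟩,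
   ⟨V6_17382776832, [(nat_lit 121, nat_lit 19531051008), (nat_lit 64, nat_lit 20604788736), (nat_lit 88, nat_lit 20604530688), (nat_lit 86, nat_lit 21678268416), (nat_lit 35, nat_lit 21678010368), (nat_lit 116, nat_lit 22751748096), (nat_lit 116, nat_lit 22751490048), (nat_lit 86, nat_lit 23825227776)]⟩],
  [W_19529732096, W_19529474048, W_19496185856, W_19480444928, W_18455736320, W_18406965248, W_18406707200, W_17382256640, W_17333227520, W_16276262912, W_16259489792, W_15235297280, W_15219298304, W_15202525184, W_15185752064, W_14162333696, W_14161817600, W_14145560576, W_14145302528, W_14128787456, W_13088595968, W_13088337920, W_13071822848]⟩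
theorem C_19531051008 : chkRec R_19531051008 = true := by decide +kernel

noncomputable def R_19531305024 : Rec := ⟨nat_lit 19531305024, nat_lit 67,
  [⟨V6_18456514560, [(nat_lit 72, nat_lit 19531305024), (nat_lit 78, nat_lit 20605046784), (nat_lit 104, nat_lit 20604784704), (nat_lit 24, nat_lit 21678526464), (nat_lit 111, nat_lit 21678264384), (nat_lit 9, nat_lit 22752006144), (nat_lit 52, nat_lit 22751744064), (nat_lit 70, nat_lit 23825485824), (nat_lit 119, nat_lit 23825223744), (nat_lit 1, nat_lit 24898965504)]⟩],
  [W_19529732096, W_16292515904, W_16276262912, W_15219298304, W_15202783232, W_14145818624, W_14145556544, W_13088854016]⟩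
theorem C_19531305024 : chkRec R_19531305024 = true := by decide +kernel

noncomputable def R_19531309056 : Rec := ⟨nat_lit 19531309056, nat_lit 154,
  [⟨V6_17382776832, [(nat_lit 25, nat_lit 19531309056), (nat_lit 112, nat_lit 20604788736), (nat_lit 1, nat_lit 21678268416), (nat_lit 6, nat_lit 22751748096), (nat_lit 85, nat_lit 23825227776)]⟩,
   ⟨V6_15235817472, [(nat_lit 21, nat_lit 19531309056), (nat_lit 81, nat_lit 20604788736), (nat_lit 24, nat_lit 21678268416)]⟩],
  [W_19529990144, W_19529732096, W_19529474048, W_19513475072, W_19496960000, W_17350000640, W_16276520960, W_16276262912, W_15219298304, W_15202783232, W_15202525184, W_14162591744, W_14162333696, W_14145560576, W_13088854016, W_13088595968]⟩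
theorem C_19531309056 : chkRec R_19531309056 = true := by decide +kernel

noncomputable def R_19531567104 : Rec := ⟨nat_lit 19531567104, nat_lit 58,
  [⟨V6_17383034880, [(nat_lit 53, nat_lit 19531567104), (nat_lit 4, nat_lit 20605046784), (nat_lit 88, nat_lit 21678526464), (nat_lit 83, nat_lit 22752006144), (nat_lit 28, nat_lit 23825485824)]⟩],
  [W_19529990144, W_19513475072, W_18456510464, W_14145818624, W_13088854016]⟩
theorem C_19531567104 : chkRec R_19531567104 = true := by decide +kernel

noncomputable def R_19531825152 : Rec := ⟨nat_lit 19531825152, nat_lit 20,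
  [⟨V6_18456772608, [(nat_lit 36, nat_lit 19531825152), (nat_lit 114, nat_lit 20605304832), (nat_lit 97, nat_lit 21678784512), (nat_lit 13, nat_lit 22752264192), (nat_lit 111, nat_lit 23825743872), (nat_lit 75, nat_lit 24899223552)]⟩],
  [W_18456510464]⟩
theorem C_19531825152 : chkRec R_19531825152 = true := by decide +kernel

noncomputable def R_19546255554 : Rec := ⟨nat_lit 19546255554, nat_lit 1,
  [⟨V6_14177546370, [(nat_lit 22, nat_lit 19546255554), (nat_lit 10, nat_lit 20619997314)]⟩],
  [W_19479146624]⟩
theorem C_19546255554 : chkRec R_19546255554 = true := by decide +kernel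

noncomputable def R_19546517634 : Rec := ⟨nat_lit 19546517634, nat_lit 9,
  [⟨V6_18455732352, [(nat_lit 68, nat_lit 19546517634), (nat_lit 116, nat_lit 20620259457), (nat_lit 121, nat_lit 20620255362), (nat_lit 39, nat_lit 20619997314), (nat_lit 112, nat_lit 20603482242), (nat_lit 26, nat_lit 21694001280), (nat_lit 80, nat_lit 21693997185), (nat_lit 3, nat_lit 21693739137), (nat_lit 100, nat_lit 21693735042), (nat_lit 106, nat_lit 21677224065), (nat_lit 53, nat_lit 21677219970), (nat_lit 47, nat_lit 21676961922), (nat_lit 60, nat_lit 22767739008), (nat_lit 60, nat_lit 22767480960), (nat_lit 121, nat_lit 22767476865), (nat_lit 30, nat_lit 22750965888), (nat_lit 93, nat_lit 22750961793), (nat_lit 95, nat_lit 22750703745), (nat_lit 10, nat_lit 22750699650), (nat_lit 126, nat_lit 23841218688), (nat_lit 76, nat_lit 23824703616), (nat_lit 117, nat_lit 23824445568), (nat_lit 68, nat_lit 23824441473), (nat_lit 65, nat_lit 24898183296)]⟩],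
  [W_19479404672, W_19479146624, W_19462631552, W_14177808512]⟩
theorem C_19546517634 : chkRec R_19546517634 = true := by decide +kernel

noncomputable def R_19546517697 : Rec := ⟨nat_lit 19546517697, nat_lit 11,
  [⟨V6_15234773184, [(nat_lit 87, nat_lit 19546517697), (nat_lit 68, nat_lit 20620259520), (nat_lit 121, nat_lit 20603482305), (nat_lit 122, nat_lit 21677224128)]⟩,
   ⟨V6_15234511041, [(nat_lit 115, nat_lit 19546517697), (nat_lit 39, nat_lit 20619997377), (nat_lit 109, nat_lit 20603482305), (nat_lit 36, nat_lit 21676961985)]⟩,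
   ⟨V6_14177808576, [(nat_lit 89, nat_lit 19546517697), (nat_lit 6, nat_lit 20620259520)]⟩],
  [W_19495923776, W_19479408704, W_19479146624, W_19462631552]⟩
theorem C_19546517697 : chkRec R_19546517697 = true := by decide +kernel

noncomputable def R_19546521729 : Rec := ⟨nat_lit 19546521729, nat_lit 31,
  [⟨V6_15234777216, [(nat_lit 106, nat_lit 19546521729), (nat_lit 23, nat_lit 20620263552), (nat_lit 54, nat_lit 20603486337), (nat_lit 45, nat_lit 21677228160)]⟩,
   ⟨V6_14177812608, [(nat_lit 50, nat_lit 19546521729), (nat_lit 79, nat_lit 20620263552)]⟩],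
  [W_19496181824, W_19479408704, W_19479404672, W_19462635584, W_18422440064]⟩
theorem C_19546521729 : chkRec R_19546521729 = true := by decide +kernel

noncomputable def R_19546521792 : Rec := ⟨nat_lit 19546521792, nat_lit 40,
  [⟨V6_17382260736, [(nat_lit 14, nat_lit 19546521792), (nat_lit 96, nat_lit 20620263552), (nat_lit 39, nat_lit 20603486400), (nat_lit 48, nat_lit 21694005312), (nat_lit 85, nat_lit 21677228160), (nat_lit 71, nat_lit 22767747072), (nat_lit 59, nat_lit 22750969920), (nat_lit 40, nat_lit 23824711680)]⟩],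
  [W_19496185856, W_19479412736, W_19479408704, W_19462635584, W_19429081280, W_18405666944]⟩
theorem C_19546521792 : chkRec R_19546521792 = true := by decide +kernel

noncomputable def R_19546775682 : Rec := ⟨nat_lit 19546775682, nat_lit 10,
  [⟨V6_15235031169, [(nat_lit 122, nat_lit 19546775682), (nat_lit 19, nat_lit 20620517505), (nat_lit 62, nat_lit 20603740290), (nat_lit 116, nat_lit 21677482113)]⟩],
  [W_19479404672, W_19462889600, W_17398505600]⟩
theorem C_19546775682 : chkRec R_19546775682 = true := by decide +kernel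

noncomputable def R_19546779777 : Rec := ⟨nat_lit 19546779777, nat_lit 52,
  [⟨V6_17365737600, [(nat_lit 12, nat_lit 19546779777), (nat_lit 18, nat_lit 20620521600), (nat_lit 63, nat_lit 20620517505), (nat_lit 84, nat_lit 20603744385), (nat_lit 50, nat_lit 21694259328), (nat_lit 125, nat_lit 21677486208), (nat_lit 32, nat_lit 21677482113), (nat_lit 108, nat_lit 21660708993), (nat_lit 77, nat_lit 22751223936), (nat_lit 110, nat_lit 22734450816), (nat_lit 56, nat_lit 22734446721), (nat_lit 53, nat_lit 23808188544)]⟩,
   ⟨V6_15235031169, [(nat_lit 50, nat_lit 19546779777), (nat_lit 91, nat_lit 20620517505), (nat_lit 45, nat_lit 20603744385), (nat_lit 64, nat_lit 21677482113)]⟩],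
  [W_19512696896, W_19496181824, W_19495923776, W_19479408704, W_19479146624, W_18455732288, W_18438959168, W_17381994560, W_16325029952, W_15251550272, W_14178070592]⟩
theorem C_19546779777 : chkRec R_19546779777 = true := by decide +kernel

noncomputable def R_19546779840 : Rec := ⟨nat_lit 19546779840, nat_lit 50,
  [⟨V6_18455998464, [(nat_lit 53, nat_lit 19546779840), (nat_lit 25, nat_lit 20620521600), (nat_lit 9, nat_lit 20620259520), (nat_lit 7, nat_lit 20603744448), (nat_lit 67, nat_lit 21694263360), (nat_lit 86, nat_lit 21694001280), (nat_lit 17, nat_lit 21677486208), (nat_lit 86, nat_lit 21677224128), (nat_lit 77, nat_lit 22768005120), (nat_lit 39, nat_lit 22767743040), (nat_lit 111, nat_lit 22751227968), (nat_lit 22, nat_lit 22750965888), (nat_lit 106, nat_lit 23841484800), (nat_lit 100, nat_lit 23824969728), (nat_lit 88, nat_lit 23824707648), (nat_lit 33, nat_lit 24898449408)]⟩,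
   ⟨V6_14177808576, [(nat_lit 36, nat_lit 19546779840), (nat_lit 41, nat_lit 20620259520)]⟩],
  [W_19512700928, W_19496185856, W_19479408704, W_19479146624, W_19446116480, W_18372374720, W_16325029952, W_15251812352, W_14178070592, W_14177546432]⟩
theorem C_19546779840 : chkRec R_19546779840 = true := by decide +kernel

noncomputable def R_19546783809 : Rec := ⟨nat_lit 19546783809, nat_lit 52,
  [⟨V6_17348706369, [(nat_lit 121, nat_lit 19546783809), (nat_lit 35, nat_lit 20620263489), (nat_lit 84, nat_lit 20603748417), (nat_lit 123, nat_lit 21677228097), (nat_lit 60, nat_lit 21660713025), (nat_lit 21, nat_lit 22734192705), (nat_lit 15, nat_lit 22717677633), (nat_lit 51, nat_lit 23791157313)]⟩,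
   ⟨V6_16308518976, [(nat_lit 68, nat_lit 19546783809), (nat_lit 72, nat_lit 20620525632), (nat_lit 51, nat_lit 20620263489), (nat_lit 17, nat_lit 20603748417), (nat_lit 71, nat_lit 21694005312), (nat_lit 36, nat_lit 21677490240), (nat_lit 103, nat_lit 21677228097), (nat_lit 105, nat_lit 22750969920)]⟩,
   ⟨V6_16291741761, [(nat_lit 102, nat_lit 19546783809), (nat_lit 4, nat_lit 20620263489), (nat_lit 48, nat_lit 20603748417), (nat_lit 105, nat_lit 21677228097), (nat_lit 50, nat_lit 21660713025), (nat_lit 97, nat_lit 22734192705)]⟩],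
  [W_19512954944, W_19496439872, W_19496181824, W_19479408704, W_19462635584, W_19446120512, W_16325546048, W_14178070592]⟩
theorem C_19546783809 : chkRec R_19546783809 = true := by decide +kernel

noncomputable def R_19546783872 : Rec := ⟨nat_lit 19546783872, nat_lit 136,
  [⟨V6_18456256512, [(nat_lit 90, nat_lit 19546783872), (nat_lit 74, nat_lit 20620525632), (nat_lit 77, nat_lit 20620521600), (nat_lit 43, nat_lit 20603748480), (nat_lit 119, nat_lit 21694267392), (nat_lit 49, nat_lit 21694263360), (nat_lit 80, nat_lit 21694259328), (nat_lit 36, nat_lit 21677490240), (nat_lit 40, nat_lit 21677486208), (nat_lit 90, nat_lit 22768005120), (nat_lit 14, nat_lit 22768001088), (nat_lit 115, nat_lit 22751232000), (nat_lit 17, nat_lit 22751227968), (nat_lit 59, nat_lit 22751223936), (nat_lit 38, nat_lit 23841742848), (nat_lit 25, nat_lit 23824969728), (nat_lit 80, nat_lit 23824965696), (nat_lit 95, nat_lit 24898707456)]⟩,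
   ⟨V6_17382260736, [(nat_lit 52, nat_lit 19546783872), (nat_lit 67, nat_lit 20620525632), (nat_lit 97, nat_lit 20620263552), (nat_lit 19, nat_lit 20603748480), (nat_lit 24, nat_lit 21694267392), (nat_lit 102, nat_lit 21694005312), (nat_lit 123, nat_lit 21677490240), (nat_lit 35, nat_lit 21677228160), (nat_lit 101, nat_lit 22767747072), (nat_lit 115, nat_lit 22751232000), (nat_lit 38, nat_lit 22750969920), (nat_lit 110, nat_lit 23824711680)]⟩,
   ⟨V6_16325296128, [(nat_lit 61, nat_lit 19546783872), (nat_lit 100, nat_lit 20620525632), (nat_lit 82, nat_lit 20620263552), (nat_lit 116, nat_lit 21694267392), (nat_lit 97, nat_lit 21694005312), (nat_lit 60, nat_lit 22767747072)]⟩],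
  [W_19496185856, W_19479412736, W_19479404672, W_19462889600, W_19462635584, W_19446116480, W_19429343360, W_18439221248, W_18422448128, W_18422440064, W_17382256640, W_17365475456, W_17348706368, W_15251812352, W_15251546240, W_15218262080, W_14178070592, W_14177808512]⟩
theorem C_19546783872 : chkRec R_19546783872 = true := by decide +kernel

noncomputable def R_19546787904 : Rec := ⟨nat_lit 19546787904, nat_lit 84,
  [⟨V6_16308781056, [(nat_lit 16, nat_lit 19546787904), (nat_lit 126, nat_lit 20620529664), (nat_lit 34, nat_lit 20620525632), (nat_lit 13, nat_lit 20603752512), (nat_lit 13, nat_lit 21694267392), (nat_lit 18, nat_lit 21677494272), (nat_lit 17, nat_lit 21677490240), (nat_lit 110, nat_lit 22751232000)]⟩,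
   ⟨V6_16292007936, [(nat_lit 47, nat_lit 19546787904), (nat_lit 126, nat_lit 20620529664), (nat_lit 55, nat_lit 20603752512), (nat_lit 102, nat_lit 21677494272), (nat_lit 110, nat_lit 21660717120), (nat_lit 80, nat_lit 22734458880)]⟩,
   ⟨V6_14178078720, [(nat_lit 8, nat_lit 19546787904), (nat_lit 75, nat_lit 20620529664)]⟩],
  [W_19513217024, W_19496439872, W_19462897664, W_19446120512, W_18456252416, W_16325546048, W_15251812352, W_14178070592]⟩
theorem C_19546787904 : chkRec R_19546787904 = true := by decide +kernel

noncomputable def R_19547037825 : Rec := ⟨nat_lit 19547037825, nat_lit 50,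
  [⟨V6_19446374529, [(nat_lit 15, nat_lit 19547037825), (nat_lit 68, nat_lit 20604002433), (nat_lit 10, nat_lit 21660967041), (nat_lit 54, nat_lit 22717931649), (nat_lit 8, nat_lit 23774896257), (nat_lit 101, nat_lit 24831860865), (nat_lit 71, nat_lit 25888825473)]⟩,
   ⟨V6_15235293312, [(nat_lit 5, nat_lit 19547037825), (nat_lit 55, nat_lit 20620779648), (nat_lit 96, nat_lit 20604002433), (nat_lit 80, nat_lit 21677744256)]⟩,
   ⟨V6_15235031169, [(nat_lit 29, nat_lit 19547037825), (nat_lit 36, nat_lit 20620517505), (nat_lit 95, nat_lit 20604002433), (nat_lit 66, nat_lit 21677482113)]⟩],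
  [W_19512696896, W_19512434816, W_19496181824, W_19463151680, W_18472247360, W_18455732288, W_18455470208, W_17398767680, W_14178328640]⟩
theorem C_19547037825 : chkRec R_19547037825 = true := by decide +kernel

noncomputable def R_19547041857 : Rec := ⟨nat_lit 19547041857, nat_lit 74,
  [⟨V6_19546247232, [(nat_lit 56, nat_lit 19547041857), (nat_lit 44, nat_lit 20620783680), (nat_lit 27, nat_lit 20620779585), (nat_lit 91, nat_lit 20620521537), (nat_lit 19, nat_lit 21694521408), (nat_lit 110, nat_lit 21694517313), (nat_lit 119, nat_lit 21694263360), (nat_lit 123, nat_lit 21694259265), (nat_lit 28, nat_lit 21694001217), (nat_lit 13, nat_lit 22768259136), (nat_lit 111, nat_lit 22768001088), (nat_lit 121, nat_lit 22767996993), (nat_lit 4, nat_lit 22767743040), (nat_lit 67, nat_lit 22767738945), (nat_lit 65, nat_lit 22767480897), (nat_lit 100, nat_lit 23841738816), (nat_lit 9, nat_lit 23841480768), (nat_lit 31, nat_lit 23841476673), (nat_lit 121, nat_lit 23841222720), (nat_lit 32, nat_lit 23841218625), (nat_lit 67, nat_lit 24915218496), (nat_lit 109,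 nat_lit 24914960448), (nat_lit 83, nat_lit 24914956353), (nat_lit 8, nat_lit 25988698176)]⟩,
   ⟨V6_19512954945, [(nat_lit 76, nat_lit 19547041857), (nat_lit 67, nat_lit 20620779585), (nat_lit 69, nat_lit 20620521537), (nat_lit 64, nat_lit 20604006465), (nat_lit 119, nat_lit 21694517313), (nat_lit 109, nat_lit 21694259265), (nat_lit 52, nat_lit 21694001217), (nat_lit 80, nat_lit 21677744193), (nat_lit 109, nat_lit 21677486145), (nat_lit 96, nat_lit 21660971073), (nat_lit 61, nat_lit 22767996993), (nat_lit 51, nat_lit 22767738945), (nat_lit 45, nat_lit 22751481921), (nat_lit 103, nat_lit 22751223873), (nat_lit 84, nat_lit 22750965825), (nat_lit 121, nat_lit 22734708801), (nat_lit 28, nat_lit 22734450753), (nat_lit 64, nat_lit 23841476673), (nat_lit 105, nat_lit 23824961601), (nat_lit 126, nat_lit 23824703553), (nat_lit 49, nat_lit 23808446529), (nat_lit 32, nat_lit 23808188481), (nat_lit 46, nat_lit 23807930433), (nat_lit 47, nat_lit 24898441281), (nat_lit 10, nat_lit 24881926209), (nat_lit 41, nat_lit 24881668161), (nat_lit 56, nat_lit 25955405889)]⟩,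
   ⟨V6_18472505409, [(nat_lit 119, nat_lit 19547041857), (nat_lit 37, nat_lit 20620779585), (nat_lit 82, nat_lit 20620521537), (nat_lit 67, nat_lit 21694517313), (nat_lit 95, nat_lit 21694259265), (nat_lit 18, nat_lit 21694001217), (nat_lit 6, nat_lit 22767996993), (nat_lit 116, nat_lit 22767738945), (nat_lit 94, nat_lit 22767480897), (nat_lit 53, nat_lit 23841476673), (nat_lit 41, nat_lit 23841218625), (nat_lit 13, nat_lit 24914956353)]⟩,
   ⟨V6_18456252480, [(nat_lit 28, nat_lit 19547041857), (nat_lit 99, nat_lit 20620783680), (nat_lit 43, nat_lit 20620779585), (nat_lit 11, nat_lit 20620521537), (nat_lit 113, nat_lit 20604006465), (nat_lit 115, nat_lit 21694521408), (nat_lit 38, nat_lit 21694517313), (nat_lit 11, nat_lit 21694263360), (nat_lit 41, nat_lit 21694259265), (nat_lit 28, nat_lit 21677748288), (nat_lit 124, nat_lit 21677744193), (nat_lit 69, nat_lit 21677486145), (nat_lit 56, nat_lit 22768259136), (nat_lit 103, nat_lit 22768001088), (nat_lit 69, nat_lit 22767996993), (nat_lit 108, nat_lit 22751486016), (nat_lit 116, nat_lit 22751481921),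 (nat_lit 11, nat_lit 22751227968), (nat_lit 121, nat_lit 22751223873), (nat_lit 32, nat_lit 23841738816), (nat_lit 1, nat_lit 23825223744), (nat_lit 38, nat_lit 23824965696), (nat_lit 30, nat_lit 23824961601), (nat_lit 72, nat_lit 24898703424)]⟩,
   ⟨V6_18439217217, [(nat_lit 27, nat_lit 19547041857), (nat_lit 15, nat_lit 20620779585), (nat_lit 99, nat_lit 20620521537), (nat_lit 9, nat_lit 20604006465), (nat_lit 101, nat_lit 21694259265), (nat_lit 8, nat_lit 21694001217), (nat_lit 45, nat_lit 21677744193), (nat_lit 94, nat_lit 21677486145), (nat_lit 100, nat_lit 21660971073), (nat_lit 90, nat_lit 22767738945), (nat_lit 78, nat_lit 22751223873), (nat_lit 10, nat_lit 22750965825), (nat_lit 102, nat_lit 22734708801), (nat_lit 109, nat_lit 22734450753), (nat_lit 60, nat_lit 23824703553), (nat_lit 81, nat_lit 23808188481), (nat_lit 110, nat_lit 23807930433), (nat_lit 94, nat_lit 24881668161)]⟩],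
  [W_19512696896, W_19495923776, W_19479408704, W_19463151680, W_19446378560, W_18438959168, W_16325546048, W_16325029952, W_16308514880, W_15251550272, W_14178328640, W_14178070592, W_14161555520]⟩
theorem C_19547041857 : chkRec R_19547041857 = true := by decide +kernel

noncomputable def R_19547041920 : Rec := ⟨nat_lit 19547041920, nat_lit 185,
  [⟨V6_18439741440, [(nat_lit 88, nat_lit 19547041920), (nat_lit 108, nat_lit 20620783680), (nat_lit 125, nat_lit 20620779648), (nat_lit 126, nat_lit 20604006528), (nat_lit 64, nat_lit 21694525440), (nat_lit 66, nat_lit 21694521408), (nat_lit 62, nat_lit 21677748288), (nat_lit 107, nat_lit 21677744256), (nat_lit 32, nat_lit 21660971136), (nat_lit 44, nat_lit 22768263168), (nat_lit 49, nat_lit 22751490048), (nat_lit 87, nat_lit 22751486016), (nat_lit 12, nat_lit 22734712896), (nat_lit 95, nat_lit 22734708864), (nat_lit 73, nat_lit 23825227776), (nat_lit 43, nat_lit 23808454656), (nat_lit 111, nat_lit 23808450624), (nat_lit 126, nat_lit 24882192384)]⟩,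
   ⟨V6_17382776832, [(nat_lit 63, nat_lit 19547041920), (nat_lit 95, nat_lit 20620783680), (nat_lit 3, nat_lit 20620779648), (nat_lit 28, nat_lit 20604006528), (nat_lit 122, nat_lit 21694525440), (nat_lit 2, nat_lit 21694521408), (nat_lit 3, nat_lit 21677748288), (nat_lit 12, nat_lit 21677744256), (nat_lit 45, nat_lit 22768263168), (nat_lit 58, nat_lit 22751490048), (nat_lit 38, nat_lit 22751486016), (nat_lit 1, nat_lit 23825227776)]⟩],
  [W_19529474048, W_19512700928, W_19512696896, W_19496185856, W_19495919744, W_19479404672, W_19479146624, W_19463155712, W_19463151680, W_19462889600, W_19446378560, W_19446374528, W_19446116480, W_18472509440, W_18439221248, W_18422182016, W_17398771712, W_17382256640, W_16325292032, W_16325029952, W_15251812352, W_15251546240, W_14178332672, W_14178070592]⟩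
theorem C_19547041920 : chkRec R_19547041920 = true := by decide +kernel

noncomputable def R_19547045952 : Rec := ⟨nat_lit 19547045952, nat_lit 255,
  [⟨V6_19513479168, [(nat_lit 23, nat_lit 19547045952), (nat_lit 70, nat_lit 20620787712), (nat_lit 82, nat_lit 20620783680), (nat_lit 55, nat_lit 20604010560), (nat_lit 3, nat_lit 21694525440), (nat_lit 34, nat_lit 21694521408), (nat_lit 125, nat_lit 21677752320), (nat_lit 4, nat_lit 21677748288), (nat_lit 28, nat_lit 21660975168), (nat_lit 80, nat_lit 22768263168), (nat_lit 64, nat_lit 22768259136), (nat_lit 2, nat_lit 22751490048), (nat_lit 49, nat_lit 22751486016), (nat_lit 106, nat_lit 22734716928), (nat_lit 62, nat_lit 22734712896), (nat_lit 19, nat_lit 23842000896), (nat_lit 99, nat_lit 23825227776), (nat_lit 38, nat_lit 23825223744), (nat_lit 52, nat_lit 23808454656), (nat_lit 16, nat_lit 23808450624), (nat_lit 92, nat_lit 24898965504), (nat_lit 11, nat_lit 24882192384), (nat_lit 8, nat_lit 24882188352), (nat_lit 92, nat_lit 25955930112)]⟩,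
   ⟨V6_18456514560, [(nat_lit 40, nat_lit 19547045952), (nat_lit 30, nat_lit 20620787712), (nat_lit 102, nat_lit 20620783680), (nat_lit 119, nat_lit 20604010560), (nat_lit 107, nat_lit 21694525440), (nat_lit 11, nat_lit 21694521408), (nat_lit 45, nat_lit 21677752320), (nat_lit 95, nat_lit 21677748288), (nat_lit 48, nat_lit 22768263168), (nat_lit 56, nat_lit 22768259136), (nat_lit 65, nat_lit 22751490048), (nat_lit 81, nat_lit 22751486016), (nat_lit 118, nat_lit 23842000896), (nat_lit 120, nat_lit 23825227776), (nat_lit 80, nat_lit 23825223744), (nat_lit 42, nat_lit 24898965504)]⟩,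
   ⟨V6_17399549952, [(nat_lit 30, nat_lit 19547045952), (nat_lit 83, nat_lit 20620787712), (nat_lit 65, nat_lit 20620783680), (nat_lit 62, nat_lit 21694525440), (nat_lit 5, nat_lit 21694521408), (nat_lit 42, nat_lit 22768263168), (nat_lit 109, nat_lit 22768259136), (nat_lit 27, nat_lit 23842000896)]⟩,
   ⟨V6_17382260736, [(nat_lit 110, nat_lit 19547045952), (nat_lit 106, nat_lit 20620787712), (nat_lit 78, nat_lit 20620525632), (nat_lit 19, nat_lit 20604010560), (nat_lit 47, nat_lit 21694267392), (nat_lit 13, nat_lit 21694005312), (nat_lit 7, nat_lit 21677752320), (nat_lit 5, nat_lit 21677490240), (nat_lit 77, nat_lit 22767747072), (nat_lit 58, nat_lit 22751232000), (nat_lit 108, nat_lit 22750969920), (nat_lit 126, nat_lit 23824711680)]⟩,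
   ⟨V6_16325296128, [(nat_lit 79, nat_lit 19547045952), (nat_lit 33, nat_lit 20620787712), (nat_lit 124, nat_lit 20620525632), (nat_lit 79, nat_lit 21694267392), (nat_lit 41, nat_lit 21694005312), (nat_lit 47, nat_lit 22767747072)]⟩],
  [W_19529732096, W_19479412736, W_19463155712, W_19462635584, W_19446382592, W_18422448128, W_18372640832, W_17382256640, W_17365483520, W_17348706368, W_16308518912, W_16308514880, W_16291741760, W_15235297280, W_15235039232, W_15235035200, W_15234777152, W_15218524160, W_15218262080, W_15201747008, W_14178332672, W_14178328640, W_14161559552, W_14161555520, W_14161297472, W_14144782400]⟩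
theorem C_19547045952 : chkRec R_19547045952 = true := by decide +kernel

noncomputable def R_19547049984 : Rec := ⟨nat_lit 19547049984, nat_lit 153,
  [⟨V6_18456514560, [(nat_lit 27, nat_lit 19547049984), (nat_lit 101, nat_lit 20620787712), (nat_lit 100, nat_lit 20604014592), (nat_lit 70, nat_lit 21694525440), (nat_lit 16, nat_lit 21677752320), (nat_lit 10, nat_lit 22768263168), (nat_lit 51, nat_lit 22751490048), (nat_lit 37, nat_lit 23842000896), (nat_lit 120, nat_lit 23825227776), (nat_lit 111, nat_lit 24898965504)]⟩,
   ⟨V6_17382776832, [(nat_lit 37, nat_lit 19547049984), (nat_lit 103, nat_lit 20620787712), (nat_lit 85, nat_lit 20604014592), (nat_lit 99, nat_lit 21694525440), (nat_lit 40, nat_lit 21677752320), (nat_lit 28, nat_lit 22768263168), (nat_lit 40, nat_lit 22751490048), (nat_lit 21, nat_lit 23825227776)]⟩],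
  [W_19463155712, W_19462897664, W_19446382592, W_19446124544, W_19429609472, W_18389417984, W_18389159936, W_18372644864, W_17332195328, W_16275230720, W_15251812352, W_15235297280, W_15235039232, W_15218524160, W_15218266112, W_14178332672, W_14161559552]⟩
theorem C_19547049984 : chkRec R_19547049984 = true := by decide +kernel

noncomputable def R_19547299905 : Rec := ⟨nat_lit 19547299905, nat_lit 67,
  [⟨V6_19446636609, [(nat_lit 60, nat_lit 19547299905), (nat_lit 18, nat_lit 20604264513), (nat_lit 40, nat_lit 21661229121), (nat_lit 89, nat_lit 22718193729), (nat_lit 32, nat_lit 23775158337), (nat_lit 23, nat_lit 24832122945), (nat_lit 30, nat_lit 25889087553)]⟩,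
   ⟨V6_17382510657, [(nat_lit 15, nat_lit 19547299905), (nat_lit 41, nat_lit 20621037633), (nat_lit 49, nat_lit 20620779585), (nat_lit 30, nat_lit 20604264513), (nat_lit 26, nat_lit 21694517313), (nat_lit 48, nat_lit 21694259265), (nat_lit 84, nat_lit 21678002241), (nat_lit 63, nat_lit 21677744193), (nat_lit 68, nat_lit 22767996993), (nat_lit 90, nat_lit 22751481921), (nat_lit 29, nat_lit 22751223873), (nat_lit 87, nat_lit 23824961601)]⟩,
   ⟨V6_16309293120, [(nat_lit 31, nat_lit 19547299905), (nat_lit 33, nat_lit 20621041728), (nat_lit 32, nat_lit 20621037633), (nat_lit 8, nat_lit 20604264513), (nat_lit 67, nat_lit 21694779456), (nat_lit 58, nat_lit 21678006336), (nat_lit 84, nat_lit 21678002241), (nat_lit 66, nat_lit 22751744064)]⟩,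
   ⟨V6_15252328512, [(nat_lit 35, nat_lit 19547299905), (nat_lit 48, nat_lit 20621041728), (nat_lit 92, nat_lit 20621037633), (nat_lit 73, nat_lit 21694779456)]⟩],
  [W_19529211968, W_19512696896, W_19496181824, W_19463409728, W_19463151680, W_19446636608, W_18472247360, W_18406187072, W_14178328640, W_14161813568]⟩
theorem C_19547299905 : chkRec R_19547299905 = true := by decide +kernel

noncomputable def R_19547299968 : Rec := ⟨nat_lit 19547299968, nat_lit 132,
  [⟨V6_16325812224, [(nat_lit 57, nat_lit 19547299968), (nat_lit 79, nat_lit 20621041728), (nat_lit 28, nat_lit 20620779648), (nat_lit 98, nat_lit 21694783488), (nat_lit 45, nat_lit 21694521408), (nat_lit 76, nat_lit 22768263168)]⟩,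
   ⟨V6_16309297152, [(nat_lit 120, nat_lit 19547299968), (nat_lit 71, nat_lit 20621041728), (nat_lit 76, nat_lit 20604264576), (nat_lit 26, nat_lit 21694783488), (nat_lit 94, nat_lit 21678006336), (nat_lit 96, nat_lit 22751748096)]⟩,
   ⟨V6_15252332544, [(nat_lit 65, nat_lit 19547299968), (nat_lit 34, nat_lit 20621041728), (nat_lit 85, nat_lit 21694783488)]⟩],
  [W_19529474048, W_19512958976, W_19512696896, W_19496181824, W_19479404672, W_19463413760, W_19463151680, W_19462889600, W_19446636608, W_18472509440, W_18472247360, W_18455732288, W_18455470208, W_18438955136, W_18422440064, W_18405924992, W_17381990528]⟩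
theorem C_19547299968 : chkRec R_19547299968 = true := by decide +kernel

noncomputable def R_19547304000 : Rec := ⟨nat_lit 19547304000, nat_lit 283,
  [⟨V6_19513479168, [(nat_lit 98, nat_lit 19547304000), (nat_lit 59, nat_lit 20621045760), (nat_lit 109, nat_lit 20621041728), (nat_lit 104, nat_lit 20620783680), (nat_lit 32, nat_lit 20604268608), (nat_lit 62, nat_lit 21694783488), (nat_lit 122, nat_lit 21694779456), (nat_lit 124, nat_lit 21694525440), (nat_lit 76, nat_lit 21694521408), (nat_lit 81, nat_lit 21678010368), (nat_lit 43, nat_lit 21678006336), (nat_lit 77, nat_lit 21677748288), (nat_lit 89, nat_lit 21661233216), (nat_lit 70, nat_lit 22768521216), (nat_lit 36, nat_lit 22768263168), (nat_lit 58, nat_lit 22768259136), (nat_lit 116, nat_lit 22751748096), (nat_lit 100, nat_lit 22751744064), (nat_lit 71, nat_lit 22751490048), (nat_lit 101, nat_lit 22751486016), (nat_lit 65, nat_lit 22734974976), (nat_lit 22, nat_lit 22734970944), (nat_lit 52, nat_lit 22734712896), (nat_lit 50, nat_lit 23842000896), (nat_lit 86, nat_lit 23825485824), (nat_lit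 79, nat_lit 23825227776), (nat_lit 107, nat_lit 23825223744), (nat_lit 22, nat_lit 23808712704), (nat_lit 109, nat_lit 23808708672), (nat_lit 109, nat_lit 23808454656), (nat_lit 21, nat_lit 23808450624), (nat_lit 68, nat_lit 24898965504), (nat_lit 103, nat_lit 24882450432), (nat_lit 106, nat_lit 24882192384), (nat_lit 77, nat_lit 24882188352), (nat_lit 109, nat_lit 25955930112)]⟩,
   ⟨V6_19496964096, [(nat_lit 102, nat_lit 19547304000), (nat_lit 41, nat_lit 20621045760), (nat_lit 34, nat_lit 20621041728), (nat_lit 80, nat_lit 20604268608), (nat_lit 63, nat_lit 21694783488), (nat_lit 18, nat_lit 21694779456), (nat_lit 95, nat_lit 21678010368), (nat_lit 113, nat_lit 21678006336), (nat_lit 73, nat_lit 21661233216), (nat_lit 37, nat_lit 22768521216), (nat_lit 19, nat_lit 22751748096), (nat_lit 99, nat_lit 22751744064), (nat_lit 1, nat_lit 22734974976), (nat_lit 97, nat_lit 22734970944), (nat_lit 7, nat_lit 22718197824), (nat_lit 93, nat_lit 23825485824), (nat_lit 80, nat_lit 23808712704), (nat_lit 95, nat_lit 23808708672), (nat_lit 57, nat_lit 23791939584),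 (nat_lit 99, nat_lit 23791935552), (nat_lit 15, nat_lit 24882450432), (nat_lit 61, nat_lit 24865677312), (nat_lit 76, nat_lit 24865673280), (nat_lit 3, nat_lit 25939415040)]⟩,
   ⟨V6_18456252480, [(nat_lit 107, nat_lit 19547304000), (nat_lit 13, nat_lit 20621041728), (nat_lit 23, nat_lit 20620783680), (nat_lit 94, nat_lit 20604268608), (nat_lit 98, nat_lit 21694779456), (nat_lit 81, nat_lit 21694521408), (nat_lit 2, nat_lit 21694263360), (nat_lit 47, nat_lit 21678006336), (nat_lit 82, nat_lit 21677748288), (nat_lit 38, nat_lit 22768259136), (nat_lit 55, nat_lit 22768001088), (nat_lit 113, nat_lit 22751744064), (nat_lit 48, nat_lit 22751486016), (nat_lit 26, nat_lit 22751227968), (nat_lit 73, nat_lit 23841738816), (nat_lit 95, nat_lit 23825223744), (nat_lit 85, nat_lit 23824965696), (nat_lit 8, nat_lit 24898703424)]⟩,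
   ⟨V6_18439999488, [(nat_lit 73, nat_lit 19547304000), (nat_lit 95, nat_lit 20621045760), (nat_lit 94, nat_lit 20621041728), (nat_lit 96, nat_lit 20604268608), (nat_lit 105, nat_lit 21694783488), (nat_lit 23, nat_lit 21694779456), (nat_lit 39, nat_lit 21678010368), (nat_lit 20, nat_lit 21678006336), (nat_lit 121, nat_lit 21661233216), (nat_lit 91, nat_lit 22768521216), (nat_lit 27, nat_lit 22751748096), (nat_lit 35, nat_lit 22751744064), (nat_lit 42, nat_lit 22734974976), (nat_lit 8, nat_lit 22734970944), (nat_lit 63, nat_lit 23825485824), (nat_lit 64, nat_lit 23808712704), (nat_lit 126, nat_lit 23808708672), (nat_lit 74, nat_lit 24882450432)]⟩,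
   ⟨V6_17383034880, [(nat_lit 3, nat_lit 19547304000), (nat_lit 60, nat_lit 20621045760), (nat_lit 103, nat_lit 20621041728), (nat_lit 91, nat_lit 20604268608), (nat_lit 95, nat_lit 21694783488), (nat_lit 104, nat_lit 21694779456), (nat_lit 66, nat_lit 21678010368), (nat_lit 52, nat_lit 21678006336), (nat_lit 72, nat_lit 22768521216), (nat_lit 115, nat_lit 22751748096), (nat_lit 113, nat_lit 22751744064), (nat_lit 102, nat_lit 23825485824)]⟩],
  [W_19546247168, W_19529732096, W_19529474048, W_19512700928, W_19496185856, W_19495923776, W_19463413760, W_19463409728, W_19463155712, W_19446640640, W_19446636608, W_18472509440, W_18455736320, W_18438959168, W_18389676032, W_18372898880, W_17398771712, W_17382256640, W_17381994560, W_16325029952, W_16308514880, W_15251812352, W_15251550272, W_15235551296, W_15235297280, W_15235035200, W_14178590720, W_14178586688, W_14178332672, W_14178328640, W_14178070592, W_14161817600, W_14161813568, W_14161555520]⟩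
theorem C_19547304000 : chkRec R_19547304000 = true := by decide +kernel

noncomputable def R_19547308032 : Rec := ⟨nat_lit 19547308032, nat_lit 249,
  [⟨V6_19496189952, [(nat_lit 61, nat_lit 19547308032), (nat_lit 61, nat_lit 20620787712), (nat_lit 4, nat_lit 20604272640), (nat_lit 102, nat_lit 21694267392), (nat_lit 57, nat_lit 21677752320), (nat_lit 90, nat_lit 21661237248), (nat_lit 74, nat_lit 22767747072), (nat_lit 65, nat_lit 22751232000), (nat_lit 31, nat_lit 22734716928), (nat_lit 42, nat_lit 22718201856), (nat_lit 23, nat_lit 23824711680), (nat_lit 91, nat_lit 23808196608), (nat_lit 38, nat_lit 23791681536), (nat_lit 44, nat_lit 24881676288), (nat_lit 109, nat_lit 24865161216), (nat_lit 123, nat_lit 25938640896)]⟩,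
   ⟨V6_19446644736, [(nat_lit 99, nat_lit 19547308032), (nat_lit 17, nat_lit 20604272640), (nat_lit 66, nat_lit 21661237248), (nat_lit 77, nat_lit 22718201856), (nat_lit 2, nat_lit 23775166464), (nat_lit 57, nat_lit 24832131072), (nat_lit 113, nat_lit 25889095680)]⟩,
   ⟨V6_18456772608, [(nat_lit 83, nat_lit 19547308032), (nat_lit 114, nat_lit 20621045760), (nat_lit 61, nat_lit 20604272640), (nat_lit 82, nat_lit 21694783488), (nat_lit 74, nat_lit 21678010368), (nat_lit 64, nat_lit 22768521216), (nat_lit 78, nat_lit 22751748096), (nat_lit 79, nat_lit 23842258944), (nat_lit 40, nat_lit 23825485824), (nat_lit 48, nat_lit 24899223552)]⟩,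
   ⟨V6_17399549952, [(nat_lit 33, nat_lit 19547308032), (nat_lit 81, nat_lit 20621045760), (nat_lit 34, nat_lit 20620787712), (nat_lit 35, nat_lit 21694783488), (nat_lit 59, nat_lit 21694525440), (nat_lit 57, nat_lit 22768521216), (nat_lit 70, nat_lit 22768263168), (nat_lit 110, nat_lit 23842000896)]⟩,
   ⟨V6_17383034880, [(nat_lit 57, nat_lit 19547308032), (nat_lit 9, nat_lit 20621045760), (nat_lit 74, nat_lit 20604272640), (nat_lit 100, nat_lit 21694783488), (nat_lit 95, nat_lit 21678010368), (nat_lit 52, nat_lit 22768521216), (nat_lit 102, nat_lit 22751748096), (nat_lit 92, nat_lit 23825485824)]⟩,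
   ⟨V6_17382260736, [(nat_lit 102, nat_lit 19547308032), (nat_lit 22, nat_lit 20620787712), (nat_lit 23, nat_lit 20604272640), (nat_lit 10, nat_lit 21694267392), (nat_lit 24, nat_lit 21677752320), (nat_lit 7, nat_lit 22767747072), (nat_lit 93, nat_lit 22751232000), (nat_lit 121, nat_lit 23824711680)]⟩,
   ⟨V6_16325296128, [(nat_lit 50, nat_lit 19547308032), (nat_lit 38, nat_lit 20620787712), (nat_lit 6, nat_lit 21694267392), (nat_lit 62, nat_lit 22767747072)]⟩],
  [W_19529732096, W_19479412736, W_19463413760, W_19463155712, W_19446640640, W_19446382592, W_18472767488, W_18372902912, W_17382256640, W_17315938304, W_16308518912, W_15235297280, W_15235039232, W_15218524160, W_15202009088, W_14178590720, W_14178332672, W_14161817600, W_14161559552, W_14145044480]⟩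
theorem C_19547308032 : chkRec R_19547308032 = true := by decide +kernel

noncomputable def R_19547557953 : Rec := ⟨nat_lit 19547557953, nat_lit 27,
  [⟨V6_15252328512, [(nat_lit 60, nat_lit 19547557953), (nat_lit 24, nat_lit 20621299776), (nat_lit 18, nat_lit 20621037633), (nat_lit 65, nat_lit 21694779456)]⟩,
   ⟨V6_14178848832, [(nat_lit 112, nat_lit 19547557953), (nat_lit 116, nat_lit 20621299776)]⟩],
  [W_19545985088, W_19529470016, W_19512954944, W_19496439872, W_19479924800, W_19463409728]⟩
theorem C_19547557953 : chkRec R_19547557953 = true := by decide +kernel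

noncomputable def R_19547562048 : Rec := ⟨nat_lit 19547562048, nat_lit 229,
  [⟨V6_19546247232, [(nat_lit 106, nat_lit 19547562048), (nat_lit 120, nat_lit 20621299776), (nat_lit 101, nat_lit 20621041728), (nat_lit 67, nat_lit 21694779456), (nat_lit 14, nat_lit 21694521408), (nat_lit 43, nat_lit 22768259136), (nat_lit 91, nat_lit 22768001088), (nat_lit 98, nat_lit 23841738816), (nat_lit 33, nat_lit 23841480768), (nat_lit 34, nat_lit 24915218496), (nat_lit 47, nat_lit 24914960448), (nat_lit 92, nat_lit 25988698176)]⟩,
   ⟨V6_18406707264, [(nat_lit 79, nat_lit 19547562048), (nat_lit 26, nat_lit 20621299776), (nat_lit 50, nat_lit 20604526656), (nat_lit 107, nat_lit 21678264384), (nat_lit 74, nat_lit 21661491264), (nat_lit 13, nat_lit 22735228992), (nat_lit 21, nat_lit 22718455872), (nat_lit 113, nat_lit 23792193600), (nat_lit 3, nat_lit 23775420480), (nat_lit 116, nat_lit 24849158208)]⟩,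
   ⟨V6_17399549952, [(nat_lit 76, nat_lit 19547562048), (nat_lit 122, nat_lit 20621303808), (nat_lit 85, nat_lit 20621299776), (nat_lit 68, nat_lit 20621041728), (nat_lit 124, nat_lit 21695041536), (nat_lit 102, nat_lit 21694783488), (nat_lit 36, nat_lit 21694779456), (nat_lit 84, nat_lit 21694521408), (nat_lit 72, nat_lit 22768521216), (nat_lit 1, nat_lit 22768263168), (nat_lit 107, nat_lit 22768259136), (nat_lit 40, nat_lit 23842000896)]⟩,
   ⟨V6_17382776832, [(nat_lit 40, nat_lit 19547562048), (nat_lit 4, nat_lit 20621303808), (nat_lit 74, nat_lit 20621041728), (nat_lit 32, nat_lit 20604526656), (nat_lit 4, nat_lit 21694783488), (nat_lit 17, nat_lit 21694521408), (nat_lit 103, nat_lit 21678268416), (nat_lit 95, nat_lit 21678006336), (nat_lit 54, nat_lit 22768263168), (nat_lit 37, nat_lit 22751748096), (nat_lit 60, nat_lit 22751486016), (nat_lit 117, nat_lit 23825227776)]⟩,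
   ⟨V6_15252328512, [(nat_lit 18, nat_lit 19547562048), (nat_lit 61, nat_lit 20621299776), (nat_lit 32, nat_lit 20621041728), (nat_lit 106, nat_lit 21694779456)]⟩,
   ⟨V6_15235813440, [(nat_lit 59, nat_lit 19547562048), (nat_lit 8, nat_lit 20621299776), (nat_lit 60, nat_lit 20604526656), (nat_lit 58, nat_lit 21678264384)]⟩],
  [W_19546247168, W_19545989120, W_19545985088, W_19529732096, W_19529474048, W_19529470016, W_19529211968, W_19463671808, W_19463413760, W_19463409728, W_19463151680, W_18472767488, W_18472509440, W_18472505408, W_18472247360, W_18406707200, W_18389934080, W_18389930048, W_17398767680, W_17332965440, W_17316192320, W_15235551296, W_14178848768, W_14178590720, W_14178586688, W_14178328640, W_14162071616, W_14161813568]⟩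
theorem C_19547562048 : chkRec R_19547562048 = true := by decide +kernel

noncomputable def R_19547566080 : Rec := ⟨nat_lit 19547566080, nat_lit 258,
  [⟨V6_18456772608, [(nat_lit 75, nat_lit 19547566080), (nat_lit 81, nat_lit 20621303808), (nat_lit 55, nat_lit 20621045760), (nat_lit 33, nat_lit 20604530688), (nat_lit 95, nat_lit 21695041536), (nat_lit 64, nat_lit 21694783488), (nat_lit 82, nat_lit 21678268416), (nat_lit 59, nat_lit 21678010368), (nat_lit 28, nat_lit 22768779264), (nat_lit 16, nat_lit 22768521216), (nat_lit 75, nat_lit 22752006144), (nat_lit 36, nat_lit 22751748096), (nat_lit 14, nat_lit 23842258944), (nat_lit 105, nat_lit 23825743872), (nat_lit 34, nat_lit 23825485824), (nat_lit 54, nat_lit 24899223552)]⟩,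
   ⟨V6_18423484416, [(nat_lit 123, nat_lit 19547566080), (nat_lit 119, nat_lit 20621303808), (nat_lit 10, nat_lit 20604530688), (nat_lit 120, nat_lit 21695041536), (nat_lit 53, nat_lit 21678268416), (nat_lit 20, nat_lit 21661495296), (nat_lit 87, nat_lit 22752006144), (nat_lit 109, nat_lit 22735233024), (nat_lit 22, nat_lit 22718459904), (nat_lit 36, nat_lit 23808970752), (nat_lit 107, nat_lit 23792197632), (nat_lit 125, nat_lit 24865935360)]⟩,
   ⟨V6_17399549952, [(nat_lit 48, nat_lit 19547566080), (nat_lit 33, nat_lit 20621303808), (nat_lit 9, nat_lit 20621045760), (nat_lit 24, nat_lit 21695041536), (nat_lit 49, nat_lit 21694783488), (nat_lit 103, nat_lit 21694525440), (nat_lit 46, nat_lit 22768521216), (nat_lit 5, nat_lit 22768263168), (nat_lit 50, nat_lit 23842000896)]⟩,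
   ⟨V6_17383034880, [(nat_lit 89, nat_lit 19547566080), (nat_lit 63, nat_lit 20621303808), (nat_lit 1, nat_lit 20621045760), (nat_lit 86, nat_lit 20604530688), (nat_lit 98, nat_lit 21695041536), (nat_lit 13, nat_lit 21694783488), (nat_lit 67, nat_lit 21678268416), (nat_lit 50, nat_lit 21678010368), (nat_lit 13, nat_lit 22768521216), (nat_lit 19, nat_lit 22752006144), (nat_lit 8, nat_lit 22751748096), (nat_lit 2, nat_lit 23825485824)]⟩,
   ⟨V6_17366519808, [(nat_lit 23, nat_lit 19547566080), (nat_lit 117, nat_lit 20621303808), (nat_lit 54, nat_lit 20604530688), (nat_lit 50, nat_lit 21695041536), (nat_lit 120, nat_lit 21678268416), (nat_lit 45, nat_lit 21661495296), (nat_lit 104, nat_lit 22752006144), (nat_lit 122, nat_lit 22735233024), (nat_lit 88, nat_lit 23808970752)]⟩,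
   ⟨V6_16326328320, [(nat_lit 26, nat_lit 19547566080), (nat_lit 32, nat_lit 20621303808), (nat_lit 76, nat_lit 21695041536), (nat_lit 44, nat_lit 22768779264)]⟩],
  [W_19546247168, W_19529732096, W_19529474048, W_19512700928, W_19496185856, W_19463671808, W_19463413760, W_19463155712, W_18472509440, W_18455736320, W_18389934080, W_18389676032, W_17398771712, W_17382256640, W_17316196352, W_16325292032, W_15251812352, W_15235297280, W_14178848768, W_14178590720, W_14178332672, W_14161817600]⟩
theorem C_19547566080 : chkRec R_19547566080 = true := by decide +kernel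

noncomputable def R_19547820096 : Rec := ⟨nat_lit 19547820096, nat_lit 99,
  [⟨V6_17399549952, [(nat_lit 39, nat_lit 19547820096), (nat_lit 104, nat_lit 20621561856), (nat_lit 40, nat_lit 20621299776), (nat_lit 121, nat_lit 21695041536), (nat_lit 19, nat_lit 21694779456), (nat_lit 98, nat_lit 22768521216), (nat_lit 118, nat_lit 22768259136), (nat_lit 13, nat_lit 23842000896)]⟩,
   ⟨V6_16276262976, [(nat_lit 125, nat_lit 19547820096), (nat_lit 57, nat_lit 20604784704), (nat_lit 35, nat_lit 21661749312), (nat_lit 97, nat_lit 22718713920)]⟩,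
   ⟨V6_15252328512, [(nat_lit 112, nat_lit 19547820096), (nat_lit 81, nat_lit 20621299776), (nat_lit 63, nat_lit 21694779456)]⟩,
   ⟨V6_14178848832, [(nat_lit 106, nat_lit 19547820096), (nat_lit 74, nat_lit 20621299776)]⟩],
  [W_19545985088, W_19529732096, W_19529470016, W_19480186880, W_19479924800, W_18472767488, W_18472505408, W_18406707200, W_17333227520]⟩
theorem C_19547820096 : chkRec R_19547820096 = true := by decide +kernel

noncomputable def R_19547824128 : Rec := ⟨nat_lit 19547824128, nat_lit 193,
  [⟨V6_17382776832, [(nat_lit 36, nat_lit 19547824128), (nat_lit 113, nat_lit 20621303808), (nat_lit 7, nat_lit 20604788736), (nat_lit 22, nat_lit 21694783488), (nat_lit 98, nat_lit 21678268416), (nat_lit 78, nat_lit 22768263168), (nat_lit 121, nat_lit 22751748096), (nat_lit 49, nat_lit 23825227776)]⟩,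
   ⟨V6_17349746688, [(nat_lit 30, nat_lit 19547824128), (nat_lit 118, nat_lit 20621303808), (nat_lit 29, nat_lit 20604788736), (nat_lit 110, nat_lit 21678268416), (nat_lit 21, nat_lit 21661753344), (nat_lit 120, nat_lit 22735233024), (nat_lit 22, nat_lit 22718717952), (nat_lit 87, nat_lit 23792197632)]⟩,
   ⟨V6_16326328320, [(nat_lit 72, nat_lit 19547824128), (nat_lit 77, nat_lit 20621561856), (nat_lit 67, nat_lit 20621303808), (nat_lit 104, nat_lit 21695299584), (nat_lit 43, nat_lit 21695041536), (nat_lit 56, nat_lit 22768779264)]⟩,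
   ⟨V6_14179110912, [(nat_lit 38, nat_lit 19547824128), (nat_lit 75, nat_lit 20621561856)]⟩],
  [W_19546505216, W_19546247168, W_19545989120, W_19529732096, W_19529474048, W_19480444928, W_19480186880, W_18472767488, W_18472509440, W_18406965248, W_18406707200, W_17333227520, W_16276262912, W_15219298304, W_14178848768, W_14178590720, W_14162333696]⟩
theorem C_19547824128 : chkRec R_19547824128 = true := by decide +kernel

noncomputable def R_19548082176 : Rec := ⟨nat_lit 19548082176, nat_lit 107,
  [⟨V6_18423742464, [(nat_lit 29, nat_lit 19548082176), (nat_lit 50, nat_lit 20621819904), (nat_lit 3, nat_lit 20621561856), (nat_lit 59, nat_lit 20605046784), (nat_lit 81, nat_lit 21695299584), (nat_lit 100, nat_lit 21678784512), (nat_lit 123, nat_lit 21678526464), (nat_lit 83, nat_lit 21662011392), (nat_lit 122, nat_lit 22752264192), (nat_lit 61, nat_lit 22735749120), (nat_lit 83, nat_lit 22735491072), (nat_lit 35, nat_lit 22718976000), (nat_lit 18, nat_lit 23809228800), (nat_lit 28, nat_lit 23792713728), (nat_lit 89, nat_lit 23792455680), (nat_lit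 36, nat_lit 24866193408)]⟩,
   ⟨V6_17399549952, [(nat_lit 99, nat_lit 19548082176), (nat_lit 93, nat_lit 20621561856), (nat_lit 70, nat_lit 21695041536), (nat_lit 39, nat_lit 22768521216), (nat_lit 108, nat_lit 23842000896)]⟩,
   ⟨V6_16326328320, [(nat_lit 110, nat_lit 19548082176), (nat_lit 86, nat_lit 20621819904), (nat_lit 100, nat_lit 20621561856), (nat_lit 49, nat_lit 21695299584), (nat_lit 10, nat_lit 21695041536), (nat_lit 61, nat_lit 22768779264)]⟩,
   ⟨V6_15236333568, [(nat_lit 62, nat_lit 19548082176), (nat_lit 84, nat_lit 20621819904), (nat_lit 51, nat_lit 20605046784), (nat_lit 23, nat_lit 21678784512)]⟩,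
   ⟨V6_14179110912, [(nat_lit 76, nat_lit 19548082176), (nat_lit 104, nat_lit 20621561856)]⟩],
  [W_19546505216, W_19546247168, W_19529732096, W_19513475072, W_19496960000, W_18472767488, W_14162591744, W_14162333696]⟩
theorem C_19548082176 : chkRec R_19548082176 = true := by decide +kernel

noncomputable def R_19548340224 : Rec := ⟨nat_lit 19548340224, nat_lit 31,
  [⟨V6_18456772608, [(nat_lit 68, nat_lit 19548340224), (nat_lit 92, nat_lit 20621819904), (nat_lit 56, nat_lit 20605304832), (nat_lit 25, nat_lit 21695299584), (nat_lit 18, nat_lit 21678784512), (nat_lit 3, nat_lit 22768779264), (nat_lit 77, nat_lit 22752264192), (nat_lit 30, nat_lit 23842258944), (nat_lit 89, nat_lit 23825743872), (nat_lit 99, nat_lit 24899223552)]⟩],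
  [W_19546505216, W_18456510464]⟩
theorem C_19548340224 : chkRec R_19548340224 = true := by decide +kernel

noncomputable def R_19563032706 : Rec := ⟨nat_lit 19563032706, nat_lit 1,
  [⟨V6_15268061313, [(nat_lit 55, nat_lit 19563032706), (nat_lit 14, nat_lit 20636774529), (nat_lit 44, nat_lit 20636770434), (nat_lit 38, nat_lit 21710512257)]⟩],
  [W_19479146624]⟩
theorem C_19563032706 : chkRec R_19563032706 = true := by decide +kernel

noncomputable def R_19563032769 : Rec := ⟨nat_lit 19563032769, nat_lit 2,
  [⟨V6_15268065345, [(nat_lit 28, nat_lit 19563032769), (nat_lit 85, nat_lit 20636774529), (nat_lit 16, nat_lit 21710516289)]⟩],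
  [W_19495923776, W_19479146624]⟩
theorem C_19563032769 : chkRec R_19563032769 = true := by decide +kernel

noncomputable def R_19563290754 : Rec := ⟨nat_lit 19563290754, nat_lit 8,
  [⟨V6_18472247424, [(nat_lit 64, nat_lit 19563290754), (nat_lit 50, nat_lit 20637032577), (nat_lit 60, nat_lit 20636770434), (nat_lit 1, nat_lit 20620255362), (nat_lit 75, nat_lit 21710774400), (nat_lit 27, nat_lit 21710512257), (nat_lit 48, nat_lit 21710250114), (nat_lit 73, nat_lit 21693997185), (nat_lit 121, nat_lit 21693735042), (nat_lit 9, nat_lit 22784254080), (nat_lit 84, nat_lit 22783991937), (nat_lit 10, nat_lit 22767739008), (nat_lit 20, nat_lit 22767476865), (nat_lit 33, nat_lit 22767214722), (nat_lit 8, nat_lit 23857733760), (nat_lit 99, nat_lit 23841218688), (nat_lit 52, nat_lit 23840956545), (nat_lit 30, nat_lit 24914698368)]⟩,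
   ⟨V6_16308248706, [(nat_lit 1, nat_lit 19563290754), (nat_lit 106, nat_lit 20636770434), (nat_lit 57, nat_lit 20620255362), (nat_lit 117, nat_lit 21693735042), (nat_lit 80, nat_lit 21677219970), (nat_lit 81, nat_lit 22750699650)]⟩],
  [W_19479404672, W_15268061312, W_15251546240]⟩
theorem C_19563290754 : chkRec R_19563290754 = true := by decide +kernel

noncomputable def R_19563294849 : Rec := ⟨nat_lit 19563294849, nat_lit 29,
  [⟨V6_18455732352, [(nat_lit 58, nat_lit 19563294849), (nat_lit 17, nat_lit 20637036672), (nat_lit 93, nat_lit 20637032577), (nat_lit 105, nat_lit 20636774529), (nat_lit 89, nat_lit 20620259457), (nat_lit 79, nat_lit 21710774400), (nat_lit 1, nat_lit 21710516352), (nat_lit 115, nat_lit 21710512257), (nat_lit 17, nat_lit 21694001280), (nat_lit 126, nat_lit 21693997185), (nat_lit 33, nat_lit 21693739137), (nat_lit 107, nat_lit 21677224065), (nat_lit 56, nat_lit 22784254080), (nat_lit 115, nat_lit 22767739008), (nat_lit 19, nat_lit 22767480960), (nat_lit 68, nat_lit 22767476865), (nat_lit 58, nat_lit 22750965888), (nat_lit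 22, nat_lit 22750961793), (nat_lit 22, nat_lit 22750703745), (nat_lit 12, nat_lit 23841218688), (nat_lit 20, nat_lit 23824703616), (nat_lit 110, nat_lit 23824445568), (nat_lit 27, nat_lit 23824441473), (nat_lit 17, nat_lit 24898183296)]⟩,
   ⟨V6_18439217217, [(nat_lit 7, nat_lit 19563294849), (nat_lit 116, nat_lit 20637036609), (nat_lit 1, nat_lit 20637032577), (nat_lit 51, nat_lit 20620259457), (nat_lit 10, nat_lit 21710774337), (nat_lit 84, nat_lit 21694001217), (nat_lit 88, nat_lit 21693997185), (nat_lit 98, nat_lit 21677224065), (nat_lit 4, nat_lit 22767738945), (nat_lit 57, nat_lit 22750965825), (nat_lit 95, nat_lit 22750961793), (nat_lit 92, nat_lit 22734188673), (nat_lit 97, nat_lit 23824703553), (nat_lit 38, nat_lit 23807930433), (nat_lit 72, nat_lit 23807926401), (nat_lit 1, nat_lit 24881668161)]⟩],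
  [W_19496181824, W_19479408704, W_15268323392, W_15251550272, W_15251546240]⟩
theorem C_19563294849 : chkRec R_19563294849 = true := by decide +kernel

noncomputable def R_19563294912 : Rec := ⟨nat_lit 19563294912, nat_lit 22,
  [⟨V6_16342069248, [(nat_lit 59, nat_lit 19563294912), (nat_lit 87, nat_lit 20637036672), (nat_lit 111, nat_lit 21710778432), (nat_lit 39, nat_lit 22784520192)]⟩,
   ⟨V6_15251288256, [(nat_lit 10, nat_lit 19563294912), (nat_lit 107, nat_lit 20636774592), (nat_lit 79, nat_lit 20620259520), (nat_lit 46, nat_lit 21693739200)]⟩],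
  [W_19496185856, W_19479408704, W_19479146624, W_19462631552]⟩
theorem C_19563294912 : chkRec R_19563294912 = true := by decide +kernel

noncomputable def R_19563298881 : Rec := ⟨nat_lit 19563298881, nat_lit 20,
  [⟨V6_18405670977, [(nat_lit 79, nat_lit 19563298881), (nat_lit 33, nat_lit 20620263489), (nat_lit 98, nat_lit 21677228097), (nat_lit 117, nat_lit 22734192705), (nat_lit 18, nat_lit 23791157313), (nat_lit 53, nat_lit 24848121921)]⟩,
   ⟨V6_17348706369, [(nat_lit 47, nat_lit 19563298881), (nat_lit 33, nat_lit 20620263489), (nat_lit 8, nat_lit 21677228097), (nat_lit 39, nat_lit 22734192705), (nat_lit 57, nat_lit 23791157313)]⟩,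
   ⟨V6_16291741761, [(nat_lit 18, nat_lit 19563298881), (nat_lit 109, nat_lit 20620263489), (nat_lit 44, nat_lit 21677228097), (nat_lit 35, nat_lit 22734192705)]⟩],
  [W_19512954944, W_18455990336, W_17399025728, W_15268323392]⟩
theorem C_19563298881 : chkRec R_19563298881 = true := by decide +kernel

noncomputable def R_19563298944 : Rec := ⟨nat_lit 19563298944, nat_lit 68,
  [⟨V6_16291741824, [(nat_lit 40, nat_lit 19563298944), (nat_lit 87, nat_lit 20620263552), (nat_lit 126, nat_lit 21677228160), (nat_lit 106, nat_lit 22734192768)]⟩,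
   ⟨V6_15268331520, [(nat_lit 90, nat_lit 19563298944), (nat_lit 8, nat_lit 20637040704), (nat_lit 20, nat_lit 21710782464)]⟩,
   ⟨V6_15234777216, [(nat_lit 123, nat_lit 19563298944), (nat_lit 86, nat_lit 20620263552), (nat_lit 24, nat_lit 21677228160)]⟩],
  [W_19512958976, W_19479404672, W_19462635584, W_18455994368, W_17399029760, W_16342065152]⟩
theorem C_19563298944 : chkRec R_19563298944 = true := by decide +kernel

noncomputable def R_19563552897 : Rec := ⟨nat_lit 19563552897, nat_lit 34,
  [⟨V6_18439217217, [(nat_lit 113, nat_lit 19563552897), (nat_lit 86, nat_lit 20637294657), (nat_lit 103, nat_lit 20637032577), (nat_lit 21, nat_lit 20620517505), (nat_lit 81, nat_lit 21710774337), (nat_lit 15, nat_lit 21694259265), (nat_lit 71, nat_lit 21693997185), (nat_lit 91, nat_lit 21677482113), (nat_lit 43, nat_lit 22767738945), (nat_lit 23, nat_lit 22751223873), (nat_lit 21, nat_lit 22750961793), (nat_lit 28, nat_lit 22734446721), (nat_lit 102, nat_lit 23824703553), (nat_lit 119, nat_lit 23808188481), (nat_lit 101, nat_lit 23807926401), (nat_lit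 41, nat_lit 24881668161)]⟩,
   ⟨V6_16291995777, [(nat_lit 38, nat_lit 19563552897), (nat_lit 89, nat_lit 20620517505), (nat_lit 107, nat_lit 21677482113), (nat_lit 88, nat_lit 22734446721)]⟩,
   ⟨V6_15235031169, [(nat_lit 24, nat_lit 19563552897), (nat_lit 119, nat_lit 20620517505), (nat_lit 110, nat_lit 21677482113)]⟩],
  [W_19529211968, W_19512696896, W_19496181824, W_19462889600, W_17415282752, W_16341540992, W_15268061312]⟩
theorem C_19563552897 : chkRec R_19563552897 = true := by decide +kernel

noncomputable def R_19563556929 : Rec := ⟨nat_lit 19563556929, nat_lit 49,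
  [⟨V6_19512954945, [(nat_lit 51, nat_lit 19563556929), (nat_lit 25, nat_lit 20637294657), (nat_lit 99, nat_lit 20637036609), (nat_lit 36, nat_lit 20620521537), (nat_lit 84, nat_lit 21711032385), (nat_lit 63, nat_lit 21710774337), (nat_lit 109, nat_lit 21694259265), (nat_lit 93, nat_lit 21694001217), (nat_lit 87, nat_lit 21677486145), (nat_lit 112, nat_lit 22784512065), (nat_lit 48, nat_lit 22767996993), (nat_lit 35, nat_lit 22767738945), (nat_lit 53, nat_lit 22751223873), (nat_lit 70, nat_lit 22750965825), (nat_lit 92, nat_lit 22734450753), (nat_lit 98, nat_lit 23841476673), (nat_lit 7, nat_lit 23824961601), (nat_lit 106, nat_lit 23824703553), (nat_lit 8, nat_lit 23808188481), (nat_lit 34, nat_lit 23807930433), (nat_lit 125, nat_lit 24898441281), (nat_lit 79, nat_lit 24881926209), (nat_lit 111, nat_lit 24881668161), (nat_lit 77, nat_lit 25955405889)]⟩,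
   ⟨V6_18456252480, [(nat_lit 32, nat_lit 19563556929), (nat_lit 4, nat_lit 20637298752), (nat_lit 87, nat_lit 20637294657), (nat_lit 72, nat_lit 20620521537), (nat_lit 37, nat_lit 21711036480), (nat_lit 75, nat_lit 21711032385), (nat_lit 13, nat_lit 21694263360), (nat_lit 41, nat_lit 21694259265), (nat_lit 111, nat_lit 21677486145), (nat_lit 43, nat_lit 22784774208), (nat_lit 38, nat_lit 22768001088), (nat_lit 123, nat_lit 22767996993), (nat_lit 93, nat_lit 22751227968), (nat_lit 45, nat_lit 22751223873), (nat_lit 33, nat_lit 23841738816), (nat_lit 102, nat_lit 23824965696), (nat_lit 2, nat_lit 23824961601), (nat_lit 94, nat_lit 24898703424)]⟩,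
   ⟨V6_17382510657, [(nat_lit 25, nat_lit 19563556929), (nat_lit 96, nat_lit 20637294657), (nat_lit 20, nat_lit 20620521537), (nat_lit 63, nat_lit 21711032385), (nat_lit 70, nat_lit 21694259265), (nat_lit 78, nat_lit 21677486145), (nat_lit 117, nat_lit 22767996993), (nat_lit 44, nat_lit 22751223873), (nat_lit 71, nat_lit 23824961601)]⟩],
  [W_19512696896, W_19495923776, W_19479408704, W_18438959168, W_17398767680, W_16341803072, W_16325029952, W_16308514880, W_15251550272, W_15235035200]⟩
theorem C_19563556929 : chkRec R_19563556929 = true := by decide +kernel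

noncomputable def R_19563556992 : Rec := ⟨nat_lit 19563556992, nat_lit 113,
  [⟨V6_18456256512, [(nat_lit 67, nat_lit 19563556992), (nat_lit 41, nat_lit 20637298752), (nat_lit 60, nat_lit 20637294720), (nat_lit 26, nat_lit 20620521600), (nat_lit 94, nat_lit 21711040512), (nat_lit 30, nat_lit 21711036480), (nat_lit 38, nat_lit 21694263360), (nat_lit 57, nat_lit 21694259328), (nat_lit 106, nat_lit 21677486208), (nat_lit 113, nat_lit 22784778240), (nat_lit 103, nat_lit 22768005120), (nat_lit 72, nat_lit 22768001088), (nat_lit 96, nat_lit 22751227968), (nat_lit 79, nat_lit 22751223936), (nat_lit 9, nat_lit 23841742848), (nat_lit 47, nat_lit 23824969728), (nat_lit 93, nat_lit 23824965696), (nat_lit 16, nat_lit 24898707456)]⟩,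
   ⟨V6_18455998464, [(nat_lit 68, nat_lit 19563556992), (nat_lit 117, nat_lit 20637298752), (nat_lit 101, nat_lit 20637036672), (nat_lit 23, nat_lit 20620521600), (nat_lit 24, nat_lit 21711040512), (nat_lit 79, nat_lit 21710778432), (nat_lit 87, nat_lit 21694263360), (nat_lit 17, nat_lit 21694001280), (nat_lit 8, nat_lit 21677486208), (nat_lit 51, nat_lit 22784520192), (nat_lit 65, nat_lit 22768005120), (nat_lit 87, nat_lit 22767743040), (nat_lit 83, nat_lit 22751227968), (nat_lit 22, nat_lit 22750965888), (nat_lit 85, nat_lit 23841484800), (nat_lit 67, nat_lit 23824969728), (nat_lit 38, nat_lit 23824707648), (nat_lit 50, nat_lit 24898449408)]⟩],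
  [W_19529474048, W_19512696896, W_19496185856, W_19479404672, W_19462889600, W_19446116480, W_18472509440, W_18422440064, W_17415544832, W_17365475456, W_16342065152, W_16341803072, W_15268585472, W_15268061312, W_15251812352, W_15251546240]⟩
theorem C_19563556992 : chkRec R_19563556992 = true := by decide +kernel

noncomputable def R_19563561024 : Rec := ⟨nat_lit 19563561024, nat_lit 148,
  [⟨V6_17382260736, [(nat_lit 44, nat_lit 19563561024), (nat_lit 94, nat_lit 20637302784), (nat_lit 64, nat_lit 20637040704), (nat_lit 47, nat_lit 20620525632), (nat_lit 74, nat_lit 21710782464), (nat_lit 120, nat_lit 21694267392), (nat_lit 122, nat_lit 21694005312), (nat_lit 58, nat_lit 21677490240), (nat_lit 44, nat_lit 22767747072), (nat_lit 81, nat_lit 22751232000), (nat_lit 38, nat_lit 22750969920), (nat_lit 95, nat_lit 23824711680)]⟩,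
   ⟨V6_17365483584, [(nat_lit 45, nat_lit 19563561024), (nat_lit 26, nat_lit 20637040704), (nat_lit 21, nat_lit 20620525632), (nat_lit 126, nat_lit 21694005312), (nat_lit 29, nat_lit 21677490240), (nat_lit 46, nat_lit 22750969920), (nat_lit 19, nat_lit 22734454848), (nat_lit 110, nat_lit 23807934528)]⟩,
   ⟨V6_16325296128, [(nat_lit 34, nat_lit 19563561024), (nat_lit 93, nat_lit 20637302784), (nat_lit 78, nat_lit 20637040704), (nat_lit 91, nat_lit 20620525632), (nat_lit 25, nat_lit 21710782464), (nat_lit 72, nat_lit 21694267392), (nat_lit 121, nat_lit 21694005312), (nat_lit 45, nat_lit 22767747072)]⟩,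
   ⟨V6_16308518976, [(nat_lit 23, nat_lit 19563561024), (nat_lit 37, nat_lit 20637040704), (nat_lit 17, nat_lit 20620525632), (nat_lit 109, nat_lit 21694005312), (nat_lit 2, nat_lit 21677490240), (nat_lit 120, nat_lit 22750969920)]⟩,
   ⟨V6_15268331520, [(nat_lit 57, nat_lit 19563561024), (nat_lit 47, nat_lit 20637302784), (nat_lit 117, nat_lit 20637040704), (nat_lit 66, nat_lit 21710782464)]⟩],
  [W_19529732096, W_19496185856, W_19479412736, W_18472767488, W_18456252416, W_18455990336, W_18439221248, W_17415802880, W_15268585472, W_15251812352, W_15235039232]⟩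
theorem C_19563561024 : chkRec R_19563561024 = true := by decide +kernel

noncomputable def R_19563565056 : Rec := ⟨nat_lit 19563565056, nat_lit 59,
  [⟨V6_16292007936, [(nat_lit 8, nat_lit 19563565056), (nat_lit 119, nat_lit 20620529664), (nat_lit 76, nat_lit 21677494272), (nat_lit 72, nat_lit 22734458880)]⟩,
   ⟨V6_15251816448, [(nat_lit 25, nat_lit 19563565056), (nat_lit 77, nat_lit 20637302784), (nat_lit 7, nat_lit 20620529664), (nat_lit 115, nat_lit 21694267392)]⟩,
   ⟨V6_15235043328, [(nat_lit 109, nat_lit 19563565056), (nat_lit 6, nat_lit 20620529664), (nat_lit 108, nat_lit 21677494272)]⟩],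
  [W_19513217024, W_19462897664, W_18473025536, W_17416060928, W_15268585472]⟩
theorem C_19563565056 : chkRec R_19563565056 = true := by decide +kernel

noncomputable def R_19563814977 : Rec := ⟨nat_lit 19563814977, nat_lit 50,
  [⟨V6_18439737408, [(nat_lit 113, nat_lit 19563814977), (nat_lit 122, nat_lit 20637556800), (nat_lit 64, nat_lit 20637552705), (nat_lit 99, nat_lit 20620779585), (nat_lit 62, nat_lit 21711294528), (nat_lit 42, nat_lit 21694521408), (nat_lit 100, nat_lit 21694517313), (nat_lit 18, nat_lit 21677744193), (nat_lit 117, nat_lit 22768259136), (nat_lit 73, nat_lit 22751486016), (nat_lit 120, nat_lit 22751481921), (nat_lit 71, nat_lit 22734708801), (nat_lit 103, nat_lit 23825223744), (nat_lit 10, nat_lit 23808450624), (nat_lit 69, nat_lit 23808446529), (nat_lit 40, nat_lit 24882188352)]⟩,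
   ⟨V6_15268843584, [(nat_lit 123, nat_lit 19563814977), (nat_lit 107, nat_lit 20637556800), (nat_lit 4, nat_lit 20637552705), (nat_lit 86, nat_lit 21711294528)]⟩],
  [W_19545985088, W_19529211968, W_19512696896, W_19463151680, W_18472505408, W_18472247360, W_17415540800, W_17415282752, W_17398767680, W_16342061120, W_16341803072]⟩
theorem C_19563814977 : chkRec R_19563814977 = true := by decide +kernel

noncomputable def R_19563815040 : Rec := ⟨nat_lit 19563815040, nat_lit 118,
  [⟨V6_17382776832, [(nat_lit 64, nat_lit 19563815040), (nat_lit 119, nat_lit 20637556800), (nat_lit 46, nat_lit 20620779648), (nat_lit 29, nat_lit 21711298560), (nat_lit 59, nat_lit 21694521408), (nat_lit 42, nat_lit 21677744256), (nat_lit 112, nat_lit 22768263168), (nat_lit 64, nat_lit 22751486016), (nat_lit 51, nat_lit 23825227776)]⟩,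
   ⟨V6_16325812224, [(nat_lit 84, nat_lit 19563815040), (nat_lit 17, nat_lit 20637556800), (nat_lit 36, nat_lit 20620779648), (nat_lit 66, nat_lit 21711298560), (nat_lit 27, nat_lit 21694521408), (nat_lit 120, nat_lit 22768263168)]⟩],
  [W_19545989120, W_19529474048, W_19529211968, W_19512696896, W_19496181824, W_19495919744, W_19479404672, W_19463151680, W_19462889600, W_19446374528, W_18489024512, W_18472509440, W_18472247360, W_18422440064, W_18405924992, W_17415544832, W_15268585472, W_15268061312]⟩
theorem C_19563815040 : chkRec R_19563815040 = true := by decide +kernel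

noncomputable def R_19563819072 : Rec := ⟨nat_lit 19563819072, nat_lit 220,
  [⟨V6_18456514560, [(nat_lit 110, nat_lit 19563819072), (nat_lit 119, nat_lit 20637560832), (nat_lit 65, nat_lit 20637556800), (nat_lit 40, nat_lit 20620783680), (nat_lit 12, nat_lit 21711298560), (nat_lit 103, nat_lit 21711294528), (nat_lit 75, nat_lit 21694525440), (nat_lit 29, nat_lit 21694521408), (nat_lit 81, nat_lit 21677748288), (nat_lit 125, nat_lit 22785036288), (nat_lit 83, nat_lit 22768263168), (nat_lit 82, nat_lit 22768259136), (nat_lit 123, nat_lit 22751490048), (nat_lit 11, nat_lit 22751486016), (nat_lit 56, nat_lit 23842000896), (nat_lit 77, nat_lit 23825227776), (nat_lit 45, nat_lit 23825223744), (nat_lit 39, nat_lit 24898965504)]⟩,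
   ⟨V6_17399549952, [(nat_lit 84, nat_lit 19563819072), (nat_lit 100, nat_lit 20637560832), (nat_lit 48, nat_lit 20637556800), (nat_lit 23, nat_lit 20620783680), (nat_lit 28, nat_lit 21711298560), (nat_lit 75, nat_lit 21711294528), (nat_lit 85, nat_lit 21694525440), (nat_lit 94, nat_lit 21694521408), (nat_lit 16, nat_lit 22785036288), (nat_lit 25, nat_lit 22768263168), (nat_lit 19, nat_lit 22768259136), (nat_lit 86, nat_lit 23842000896)]⟩,
   ⟨V6_17382776832, [(nat_lit 71, nat_lit 19563819072), (nat_lit 59, nat_lit 20637560832), (nat_lit 70, nat_lit 20637556800), (nat_lit 25, nat_lit 20620783680), (nat_lit 48, nat_lit 21711298560), (nat_lit 97, nat_lit 21694525440), (nat_lit 16, nat_lit 21694521408), (nat_lit 24, nat_lit 21677748288), (nat_lit 80, nat_lit 22768263168), (nat_lit 89, nat_lit 22751490048), (nat_lit 123, nat_lit 22751486016), (nat_lit 23, nat_lit 23825227776)]⟩,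
   ⟨V6_15268843584, [(nat_lit 123, nat_lit 19563819072), (nat_lit 46, nat_lit 20637556800), (nat_lit 78, nat_lit 21711294528)]⟩],
  [W_19546247168, W_19529732096, W_19529474048, W_19529470016, W_19512700928, W_19496185856, W_19495923776, W_19463155712, W_19463151680, W_19446378560, W_18489282560, W_18472767488, W_18472509440, W_18472505408, W_18455736320, W_18438959168, W_17398771712, W_17382256640, W_15268843520, W_15235297280]⟩
theorem C_19563819072 : chkRec R_19563819072 = true := by decide +kernel

noncomputable def R_19563823104 : Rec := ⟨nat_lit 19563823104, nat_lit 202,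
  [⟨V6_17399549952, [(nat_lit 95, nat_lit 19563823104), (nat_lit 31, nat_lit 20637560832), (nat_lit 20, nat_lit 20620787712), (nat_lit 52, nat_lit 21711298560), (nat_lit 32, nat_lit 21694525440), (nat_lit 22, nat_lit 22785036288), (nat_lit 38, nat_lit 22768263168), (nat_lit 113, nat_lit 23842000896)]⟩,
   ⟨V6_17382776832, [(nat_lit 42, nat_lit 19563823104), (nat_lit 111, nat_lit 20637560832), (nat_lit 78, nat_lit 20620787712), (nat_lit 71, nat_lit 21711298560), (nat_lit 41, nat_lit 21694525440), (nat_lit 5, nat_lit 21677752320), (nat_lit 20, nat_lit 22768263168), (nat_lit 19, nat_lit 22751490048), (nat_lit 102, nat_lit 23825227776)]⟩,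
   ⟨V6_17382260736, [(nat_lit 94, nat_lit 19563823104), (nat_lit 58, nat_lit 20637302784), (nat_lit 125, nat_lit 20620787712), (nat_lit 51, nat_lit 21710782464), (nat_lit 33, nat_lit 21694267392), (nat_lit 37, nat_lit 21677752320), (nat_lit 95, nat_lit 22767747072), (nat_lit 39, nat_lit 22751232000), (nat_lit 61, nat_lit 23824711680)]⟩,
   ⟨V6_16325296128, [(nat_lit 83, nat_lit 19563823104), (nat_lit 79, nat_lit 20637302784), (nat_lit 112, nat_lit 20620787712), (nat_lit 67, nat_lit 21710782464), (nat_lit 96, nat_lit 21694267392), (nat_lit 25, nat_lit 22767747072)]⟩],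
  [W_19546505216, W_19529732096, W_19496185856, W_19479412736, W_19463155712, W_19446382592, W_18489540608, W_18472767488, W_18439221248, W_18422448128, W_15268843520, W_15235297280, W_15218524160]⟩
theorem C_19563823104 : chkRec R_19563823104 = true := by decide +kernel

noncomputable def R_19564073025 : Rec := ⟨nat_lit 19564073025, nat_lit 24,
  [⟨V6_15268581441, [(nat_lit 107, nat_lit 19564073025), (nat_lit 62, nat_lit 20637552705), (nat_lit 64, nat_lit 21711032385)]⟩,
   ⟨V6_15252328512, [(nat_lit 117, nat_lit 19564073025), (nat_lit 34, nat_lit 20637814848), (nat_lit 69, nat_lit 20621037633), (nat_lit 76, nat_lit 21694779456)]⟩],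
  [W_19545985088, W_19512954944, W_19479924800, W_19463409728, W_18489020480]⟩
theorem C_19564073025 : chkRec R_19564073025 = true := by decide +kernel

noncomputable def R_19564077120 : Rec := ⟨nat_lit 19564077120, nat_lit 208,
  [⟨V6_18423222336, [(nat_lit 23, nat_lit 19564077120), (nat_lit 85, nat_lit 20637814848), (nat_lit 25, nat_lit 20621041728), (nat_lit 62, nat_lit 21694779456), (nat_lit 20, nat_lit 21678006336), (nat_lit 114, nat_lit 22751744064), (nat_lit 95, nat_lit 22734970944), (nat_lit 111, nat_lit 23808708672), (nat_lit 103, nat_lit 23791935552), (nat_lit 26, nat_lit 24865673280)]⟩,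
   ⟨V6_17383034880, [(nat_lit 84, nat_lit 19564077120), (nat_lit 13, nat_lit 20637818880), (nat_lit 86, nat_lit 20637814848), (nat_lit 79, nat_lit 20621041728), (nat_lit 50, nat_lit 21711556608), (nat_lit 94, nat_lit 21694783488), (nat_lit 75, nat_lit 21694779456), (nat_lit 90, nat_lit 21678006336), (nat_lit 37, nat_lit 22768521216), (nat_lit 36, nat_lit 22751748096), (nat_lit 72, nat_lit 22751744064), (nat_lit 13, nat_lit 23825485824)]⟩,
   ⟨V6_17382776832, [(nat_lit 33, nat_lit 19564077120), (nat_lit 1, nat_lit 20637818880), (nat_lit 30, nat_lit 20637556800), (nat_lit 31, nat_lit 20621041728), (nat_lit 103, nat_lit 21711298560), (nat_lit 75, nat_lit 21694783488), (nat_lit 18, nat_lit 21694521408), (nat_lit 7, nat_lit 21678006336), (nat_lit 22, nat_lit 22768263168), (nat_lit 43, nat_lit 22751748096), (nat_lit 19, nat_lit 22751486016), (nat_lit 101, nat_lit 23825227776)]⟩,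
   ⟨V6_15252328512, [(nat_lit 89, nat_lit 19564077120), (nat_lit 31, nat_lit 20637814848), (nat_lit 34, nat_lit 20621041728), (nat_lit 27, nat_lit 21694779456)]⟩],
  [W_19546247168, W_19545989120, W_19545985088, W_19529732096, W_19529474048, W_19529470016, W_19529211968, W_19512696896, W_19480186880, W_19463413760, W_19463409728, W_19446636608, W_18489282560, W_18489024512, W_18489020480, W_18472767488, W_18472509440, W_18472505408, W_18472247360, W_17415544832, W_17398767680, W_15268843520, W_15268585472, W_15235551296]⟩
theorem C_19564077120 : chkRec R_19564077120 = true := by decide +kernel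

noncomputable def R_19564081152 : Rec := ⟨nat_lit 19564081152, nat_lit 226,
  [⟨V6_19496964096, [(nat_lit 100, nat_lit 19564081152), (nat_lit 111, nat_lit 20637818880), (nat_lit 55, nat_lit 20621045760), (nat_lit 78, nat_lit 21711556608), (nat_lit 74, nat_lit 21694783488), (nat_lit 108, nat_lit 21678010368), (nat_lit 120, nat_lit 22768521216), (nat_lit 17, nat_lit 22751748096), (nat_lit 41, nat_lit 22734974976), (nat_lit 103, nat_lit 23825485824), (nat_lit 65, nat_lit 23808712704), (nat_lit 6, nat_lit 23791939584), (nat_lit 93, nat_lit 24882450432), (nat_lit 74, nat_lit 24865677312), (nat_lit 50, nat_lit 25939415040)]⟩,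
   ⟨V6_18456772608, [(nat_lit 42, nat_lit 19564081152), (nat_lit 64, nat_lit 20637818880), (nat_lit 19, nat_lit 20621045760), (nat_lit 74, nat_lit 21711556608), (nat_lit 104, nat_lit 21694783488), (nat_lit 21, nat_lit 21678010368), (nat_lit 41, nat_lit 22785294336), (nat_lit 87, nat_lit 22768521216), (nat_lit 72, nat_lit 22751748096), (nat_lit 101, nat_lit 23842258944), (nat_lit 81, nat_lit 23825485824), (nat_lit 58, nat_lit 24899223552)]⟩,
   ⟨V6_17383034880, [(nat_lit 113, nat_lit 19564081152), (nat_lit 58, nat_lit 20637818880), (nat_lit 65, nat_lit 20621045760), (nat_lit 46, nat_lit 21711556608), (nat_lit 37, nat_lit 21694783488), (nat_lit 63, nat_lit 21678010368), (nat_lit 31, nat_lit 22768521216), (nat_lit 16, nat_lit 22751748096), (nat_lit 72, nat_lit 23825485824)]⟩,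
   ⟨V6_17382776832, [(nat_lit 95, nat_lit 19564081152), (nat_lit 24, nat_lit 20637818880), (nat_lit 19, nat_lit 20637560832), (nat_lit 29, nat_lit 20621045760), (nat_lit 5, nat_lit 21711298560), (nat_lit 66, nat_lit 21694783488), (nat_lit 45, nat_lit 21694525440), (nat_lit 77, nat_lit 21678010368), (nat_lit 18, nat_lit 22768263168), (nat_lit 5, nat_lit 22751748096), (nat_lit 79, nat_lit 22751490048), (nat_lit 5, nat_lit 23825227776)]⟩],
  [W_19563020288, W_19546247168, W_19529732096, W_19529474048, W_19512700928, W_19496185856, W_19463413760, W_19463155712, W_19446640640, W_18472767488, W_18472509440, W_18455736320, W_18389676032, W_17398771712, W_17382256640, W_16341807104, W_15269101568, W_15235297280]⟩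
theorem C_19564081152 : chkRec R_19564081152 = true := by decide +kernel

noncomputable def R_19564335168 : Rec := ⟨nat_lit 19564335168, nat_lit 97,
  [⟨V6_17366519808, [(nat_lit 11, nat_lit 19564335168), (nat_lit 28, nat_lit 20638076928), (nat_lit 42, nat_lit 20621299776), (nat_lit 6, nat_lit 21695041536), (nat_lit 76, nat_lit 21678264384), (nat_lit 100, nat_lit 22752006144), (nat_lit 42, nat_lit 22735228992), (nat_lit 72, nat_lit 23808970752)]⟩,
   ⟨V6_15268843584, [(nat_lit 111, nat_lit 19564335168), (nat_lit 49, nat_lit 20637814848), (nat_lit 16, nat_lit 21711294528)]⟩,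
   ⟨V6_15252328512, [(nat_lit 26, nat_lit 19564335168), (nat_lit 77, nat_lit 20637814848), (nat_lit 116, nat_lit 20621299776), (nat_lit 45, nat_lit 21694779456)]⟩,
   ⟨V6_15235813440, [(nat_lit 123, nat_lit 19564335168), (nat_lit 86, nat_lit 20621299776), (nat_lit 24, nat_lit 21678264384)]⟩],
  [W_19562762240, W_19546247168, W_19529732096, W_19529470016, W_19479924800, W_19463671808, W_19463409728, W_18489282560, W_18489020480, W_18472767488, W_17415540800]⟩
theorem C_19564335168 : chkRec R_19564335168 = true := by decide +kernel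

noncomputable def R_19564339200 : Rec := ⟨nat_lit 19564339200, nat_lit 218,
  [⟨V6_18439741440, [(nat_lit 62, nat_lit 19564339200), (nat_lit 81, nat_lit 20637818880), (nat_lit 22, nat_lit 20621303808), (nat_lit 35, nat_lit 21711298560), (nat_lit 89, nat_lit 21694783488), (nat_lit 100, nat_lit 21678268416), (nat_lit 76, nat_lit 22768263168), (nat_lit 45, nat_lit 22751748096), (nat_lit 92, nat_lit 22735233024), (nat_lit 51, nat_lit 23825227776), (nat_lit 59, nat_lit 23808712704), (nat_lit 92, nat_lit 24882192384)]⟩,
   ⟨V6_18423484416, [(nat_lit 102, nat_lit 19564339200), (nat_lit 7, nat_lit 20638076928), (nat_lit 17, nat_lit 20621303808), (nat_lit 32, nat_lit 21695041536), (nat_lit 39, nat_lit 21678268416), (nat_lit 108, nat_lit 22752006144), (nat_lit 90, nat_lit 22735233024), (nat_lit 45, nat_lit 23808970752), (nat_lit 4, nat_lit 23792197632), (nat_lit 38, nat_lit 24865935360)]⟩,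
   ⟨V6_17382776832, [(nat_lit 113, nat_lit 19564339200), (nat_lit 74, nat_lit 20637818880), (nat_lit 18, nat_lit 20621303808), (nat_lit 112, nat_lit 21711298560), (nat_lit 14, nat_lit 21694783488), (nat_lit 102, nat_lit 21678268416), (nat_lit 20, nat_lit 22768263168), (nat_lit 107, nat_lit 22751748096), (nat_lit 119, nat_lit 23825227776)]⟩],
  [W_19563020288, W_19562762240, W_19546505216, W_19546247168, W_19545989120, W_19529732096, W_19529474048, W_19480444928, W_19463671808, W_19463413760, W_18489282560, W_18489024512, W_18472767488, W_18472509440, W_18406707200, W_18389934080, W_15269101568, W_15268843520, W_15268585472]⟩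
theorem C_19564339200 : chkRec R_19564339200 = true := by decide +kernel

noncomputable def R_19564597248 : Rec := ⟨nat_lit 19564597248, nat_lit 125,
  [⟨V6_19480707072, [(nat_lit 42, nat_lit 19564597248), (nat_lit 58, nat_lit 20638334976), (nat_lit 25, nat_lit 20621561856), (nat_lit 113, nat_lit 21695299584), (nat_lit 107, nat_lit 21678526464), (nat_lit 104, nat_lit 22752264192), (nat_lit 97, nat_lit 22735491072), (nat_lit 39, nat_lit 23809228800), (nat_lit 85, nat_lit 23792455680), (nat_lit 85, nat_lit 24866193408), (nat_lit 108, nat_lit 24849420288), (nat_lit 20, nat_lit 25923158016)]⟩,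
   ⟨V6_18423742464, [(nat_lit 89, nat_lit 19564597248), (nat_lit 49, nat_lit 20638334976), (nat_lit 46, nat_lit 20621561856), (nat_lit 114, nat_lit 21695299584), (nat_lit 104, nat_lit 21678526464), (nat_lit 15, nat_lit 22752264192), (nat_lit 71, nat_lit 22735491072), (nat_lit 103, nat_lit 23809228800), (nat_lit 80, nat_lit 23792455680), (nat_lit 109, nat_lit 24866193408)]⟩,
   ⟨V6_18423484416, [(nat_lit 63, nat_lit 19564597248), (nat_lit 46, nat_lit 20638076928), (nat_lit 58, nat_lit 20621561856), (nat_lit 56, nat_lit 21695041536), (nat_lit 125, nat_lit 21678526464), (nat_lit 52, nat_lit 22752006144), (nat_lit 33, nat_lit 22735491072), (nat_lit 50, nat_lit 23808970752), (nat_lit 62, nat_lit 23792455680), (nat_lit 123, nat_lit 24865935360)]⟩,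
   ⟨V6_17366519808, [(nat_lit 33, nat_lit 19564597248), (nat_lit 67, nat_lit 20638076928), (nat_lit 101, nat_lit 20621561856), (nat_lit 108, nat_lit 21695041536), (nat_lit 65, nat_lit 21678526464), (nat_lit 68, nat_lit 22752006144), (nat_lit 77, nat_lit 22735491072), (nat_lit 94, nat_lit 23808970752)]⟩],
  [W_19563020288, W_19562762240, W_19546247168, W_19529732096, W_18489540608, W_18489282560, W_18472767488, W_18406965248, W_17416060928, W_15269101568, W_15268843520]⟩
theorem C_19564597248 : chkRec R_19564597248 = true := by decide +kernel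

noncomputable def R_19564855296 : Rec := ⟨nat_lit 19564855296, nat_lit 52,
  [⟨V6_18423742464, [(nat_lit 65, nat_lit 19564855296), (nat_lit 24, nat_lit 20638334976), (nat_lit 46, nat_lit 20621819904), (nat_lit 47, nat_lit 21695299584), (nat_lit 79, nat_lit 21678784512), (nat_lit 78, nat_lit 22752264192), (nat_lit 32, nat_lit 22735749120), (nat_lit 5, nat_lit 23809228800), (nat_lit 33, nat_lit 23792713728), (nat_lit 118, nat_lit 24866193408)]⟩,
   ⟨V6_17350262784, [(nat_lit 49, nat_lit 19564855296), (nat_lit 29, nat_lit 20621819904), (nat_lit 84, nat_lit 21678784512), (nat_lit 92, nat_lit 22735749120), (nat_lit 27, nat_lit 23792713728)]⟩,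
   ⟨V6_16326328320, [(nat_lit 1, nat_lit 19564855296), (nat_lit 29, nat_lit 20638334976), (nat_lit 8, nat_lit 20621819904), (nat_lit 126, nat_lit 21711814656), (nat_lit 30, nat_lit 21695299584), (nat_lit 64, nat_lit 22768779264)]⟩,
   ⟨V6_15236333568, [(nat_lit 12, nat_lit 19564855296), (nat_lit 123, nat_lit 20621819904), (nat_lit 55, nat_lit 21678784512)]⟩],
  [W_19563020288, W_19546505216, W_18489540608, W_17416060928]⟩
theorem C_19564855296 : chkRec R_19564855296 = true := by decide +kernel

noncomputable def R_19579805826 : Rec := ⟨nat_lit 19579805826, nat_lit 3,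
  [⟨V6_16358318208, [(nat_lit 13, nat_lit 19579805826), (nat_lit 36, nat_lit 20653547649), (nat_lit 6, nat_lit 20653285506), (nat_lit 114, nat_lit 21727289472), (nat_lit 6, nat_lit 21727027329), (nat_lit 78, nat_lit 22800769152)]⟩,
   ⟨V6_16308248706, [(nat_lit 49, nat_lit 19579805826), (nat_lit 123, nat_lit 20636770434), (nat_lit 86, nat_lit 21693735042), (nat_lit 24, nat_lit 22750699650)]⟩],
  [W_19495919744]⟩
theorem C_19579805826 : chkRec R_19579805826 = true := by decide +kernel

noncomputable def R_19579809921 : Rec := ⟨nat_lit 19579809921, nat_lit 7,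
  [⟨V6_19495923777, [(nat_lit 35, nat_lit 19579809921), (nat_lit 30, nat_lit 20653551681), (nat_lit 10, nat_lit 20636774529), (nat_lit 126, nat_lit 21710516289), (nat_lit 81, nat_lit 21693739137), (nat_lit 29, nat_lit 22767480897), (nat_lit 120, nat_lit 22750703745), (nat_lit 110, nat_lit 23824445505), (nat_lit 90, nat_lit 23807668353), (nat_lit 100, nat_lit 24881410113), (nat_lit 25, nat_lit 24864632961), (nat_lit 123, nat_lit 25938374721)]⟩,
   ⟨V6_16341803073, [(nat_lit 43, nat_lit 19579809921), (nat_lit 16, nat_lit 20653551681), (nat_lit 79, nat_lit 20653547649), (nat_lit 35, nat_lit 20636774529), (nat_lit 115, nat_lit 21727289409), (nat_lit 29, nat_lit 21710516289), (nat_lit 95, nat_lit 21710512257), (nat_lit 111, nat_lit 22784254017)]⟩],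
  [W_18455732288]⟩
theorem C_19579809921 : chkRec R_19579809921 = true := by decide +kernel

noncomputable def R_19579809984 : Rec := ⟨nat_lit 19579809984, nat_lit 5,
  [⟨V6_16358584320, [(nat_lit 55, nat_lit 19579809984), (nat_lit 122, nat_lit 20653551744), (nat_lit 125, nat_lit 21727293504), (nat_lit 116, nat_lit 22801035264)]⟩],
  [W_19512700928, W_19479146624]⟩
theorem C_19579809984 : chkRec R_19579809984 = true := by decide +kernel

noncomputable def R_19580067969 : Rec := ⟨nat_lit 19580067969, nat_lit 20,
  [⟨V6_18439217217, [(nat_lit 81, nat_lit 19580067969), (nat_lit 4, nat_lit 20653809729), (nat_lit 3, nat_lit 20637032577), (nat_lit 5, nat_lit 21710774337), (nat_lit 73, nat_lit 21693997185), (nat_lit 40, nat_lit 22767738945), (nat_lit 12, nat_lit 22750961793), (nat_lit 113, nat_lit 23824703553), (nat_lit 22, nat_lit 23807926401), (nat_lit 110, nat_lit 24881668161)]⟩,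
   ⟨V6_16358318208, [(nat_lit 49, nat_lit 19580067969), (nat_lit 54, nat_lit 20653809792), (nat_lit 57, nat_lit 20653547649), (nat_lit 1, nat_lit 21727289472), (nat_lit 75, nat_lit 21727027329), (nat_lit 93, nat_lit 22800769152)]⟩,
   ⟨V6_16358318145, [(nat_lit 42, nat_lit 19580067969), (nat_lit 110, nat_lit 20653809729), (nat_lit 99, nat_lit 20653547649), (nat_lit 77, nat_lit 21727289409), (nat_lit 118, nat_lit 21727027329), (nat_lit 8, nat_lit 22800769089)]⟩,
   ⟨V6_16341540993, [(nat_lit 46, nat_lit 19580067969), (nat_lit 65, nat_lit 20653547649), (nat_lit 57, nat_lit 20637032577), (nat_lit 19, nat_lit 21727027329), (nat_lit 54, nat_lit 21710512257), (nat_lit 44, nat_lit 22783991937)]⟩],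
  [W_19496181824, W_19479404672, W_17415282752]⟩
theorem C_19580067969 : chkRec R_19580067969 = true := by decide +kernel

noncomputable def R_19580072001 : Rec := ⟨nat_lit 19580072001, nat_lit 24,
  [⟨V6_19495923777, [(nat_lit 69, nat_lit 19580072001), (nat_lit 119, nat_lit 20653551681), (nat_lit 82, nat_lit 20637036609), (nat_lit 58, nat_lit 21710516289), (nat_lit 1, nat_lit 21694001217), (nat_lit 63, nat_lit 22767480897), (nat_lit 68, nat_lit 22750965825), (nat_lit 67, nat_lit 23824445505), (nat_lit 101, nat_lit 23807930433), (nat_lit 97, nat_lit 24881410113), (nat_lit 56, nat_lit 24864895041), (nat_lit 121, nat_lit 25938374721)]⟩,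
   ⟨V6_18472505409, [(nat_lit 104, nat_lit 19580072001), (nat_lit 10, nat_lit 20653809729), (nat_lit 116, nat_lit 20653551681), (nat_lit 114, nat_lit 20637036609), (nat_lit 99, nat_lit 21727547457), (nat_lit 80, nat_lit 21727289409), (nat_lit 2, nat_lit 21710774337), (nat_lit 60, nat_lit 21710516289), (nat_lit 17, nat_lit 21694001217), (nat_lit 2, nat_lit 22801027137), (nat_lit 42, nat_lit 22784512065), (nat_lit 17, nat_lit 22784254017), (nat_lit 14, nat_lit 22767738945), (nat_lit 43, nat_lit 22767480897), (nat_lit 100, nat_lit 23857991745), (nat_lit 63, nat_lit 23841476673), (nat_lit 102, nat_lit 23841218625), (nat_lit 56, nat_lit 24914956353)]⟩,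
   ⟨V6_18439217217, [(nat_lit 9, nat_lit 19580072001), (nat_lit 63, nat_lit 20653809729), (nat_lit 122, nat_lit 20637036609), (nat_lit 56, nat_lit 21710774337), (nat_lit 64, nat_lit 21694001217), (nat_lit 24, nat_lit 22767738945), (nat_lit 96, nat_lit 22750965825), (nat_lit 70, nat_lit 23824703553), (nat_lit 15, nat_lit 23807930433), (nat_lit 57, nat_lit 24881668161)]⟩],
  [W_19496181824, W_19479408704, W_16358576192, W_16342061120]⟩
theorem C_19580072001 : chkRec R_19580072001 = true := by decide +kernel

noncomputable def R_19580072064 : Rec := ⟨nat_lit 19580072064, nat_lit 59,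
  [⟨V6_18455998464, [(nat_lit 49, nat_lit 19580072064), (nat_lit 92, nat_lit 20653813824), (nat_lit 50, nat_lit 20637036672), (nat_lit 62, nat_lit 21727555584), (nat_lit 110, nat_lit 21710778432), (nat_lit 61, nat_lit 21694001280), (nat_lit 31, nat_lit 22784520192), (nat_lit 73, nat_lit 22767743040), (nat_lit 5, nat_lit 22750965888), (nat_lit 55, nat_lit 23841484800), (nat_lit 5, nat_lit 23824707648), (nat_lit 77, nat_lit 24898449408)]⟩,
   ⟨V6_16358584320, [(nat_lit 126, nat_lit 19580072064), (nat_lit 101, nat_lit 20653813824), (nat_lit 102, nat_lit 20653551744), (nat_lit 57, nat_lit 21727555584), (nat_lit 111, nat_lit 21727293504), (nat_lit 17, nat_lit 22801035264)]⟩],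
  [W_19529474048, W_19512696896, W_19495919744, W_19479404672, W_18472509440, W_18422440064, W_17415544832, W_17381990528, W_16325025920]⟩
theorem C_19580072064 : chkRec R_19580072064 = true := by decide +kernel

noncomputable def R_19580076096 : Rec := ⟨nat_lit 19580076096, nat_lit 64,
  [⟨V6_17365483584, [(nat_lit 7, nat_lit 19580076096), (nat_lit 65, nat_lit 20637040704), (nat_lit 110, nat_lit 21694005312), (nat_lit 73, nat_lit 22750969920), (nat_lit 64, nat_lit 23807934528)]⟩,
   ⟨V6_16308518976, [(nat_lit 121, nat_lit 19580076096), (nat_lit 29, nat_lit 20637040704), (nat_lit 75, nat_lit 21694005312), (nat_lit 80, nat_lit 22750969920)]⟩],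
  [W_19529732096, W_19512954944, W_19479412736, W_18455990336, W_17415802880, W_16358838272, W_16342061120]⟩
theorem C_19580076096 : chkRec R_19580076096 = true := by decide +kernel

noncomputable def R_19580330049 : Rec := ⟨nat_lit 19580330049, nat_lit 34,
  [⟨V6_19512954945, [(nat_lit 42, nat_lit 19580330049), (nat_lit 46, nat_lit 20654067777), (nat_lit 78, nat_lit 20653809729), (nat_lit 111, nat_lit 20637294657), (nat_lit 50, nat_lit 21727547457), (nat_lit 77, nat_lit 21711032385), (nat_lit 16, nat_lit 21710774337), (nat_lit 78, nat_lit 21694259265), (nat_lit 11, nat_lit 22784512065), (nat_lit 118, nat_lit 22767996993), (nat_lit 79, nat_lit 22767738945), (nat_lit 116, nat_lit 22751223873), (nat_lit 2, nat_lit 23841476673), (nat_lit 109, nat_lit 23824961601), (nat_lit 43, nat_lit 23824703553), (nat_lit 42, nat_lit 23808188481), (nat_lit 112, nat_lit 24898441281), (nat_lit 99, nat_lit 24881926209), (nat_lit 118, nat_lit 24881668161), (nat_lit 108, nat_lit 25955405889)]⟩,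
   ⟨V6_18505797696, [(nat_lit 55, nat_lit 19580330049), (nat_lit 14, nat_lit 20654071872), (nat_lit 47, nat_lit 20654067777), (nat_lit 16, nat_lit 20653809729), (nat_lit 81, nat_lit 21727809600), (nat_lit 125, nat_lit 21727551552), (nat_lit 66, nat_lit 21727547457), (nat_lit 115, nat_lit 21727289409), (nat_lit 82, nat_lit 22801289280), (nat_lit 85, nat_lit 22801031232), (nat_lit 111, nat_lit 22801027137), (nat_lit 108, nat_lit 22800769089), (nat_lit 64, nat_lit 23874768960), (nat_lit 108, nat_lit 23874510912), (nat_lit 65, nat_lit 23874506817), (nat_lit 89, nat_lit 24948248640)]⟩,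
   ⟨V6_18439217217, [(nat_lit 45, nat_lit 19580330049), (nat_lit 37, nat_lit 20653809729), (nat_lit 90, nat_lit 20637294657), (nat_lit 9, nat_lit 21710774337), (nat_lit 28, nat_lit 21694259265), (nat_lit 117, nat_lit 22767738945), (nat_lit 4, nat_lit 22751223873), (nat_lit 87, nat_lit 23824703553), (nat_lit 19, nat_lit 23808188481), (nat_lit 63, nat_lit 24881668161)]⟩,
   ⟨V6_17382510657, [(nat_lit 48, nat_lit 19580330049), (nat_lit 8, nat_lit 20654067777), (nat_lit 30, nat_lit 20637294657), (nat_lit 26, nat_lit 21711032385), (nat_lit 120, nat_lit 21694259265), (nat_lit 113, nat_lit 22767996993), (nat_lit 34, nat_lit 22751223873), (nat_lit 17, nat_lit 23824961601)]⟩],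
  [W_19529211968, W_19512696896, W_19496181824, W_16341803072, W_16325546048]⟩
theorem C_19580330049 : chkRec R_19580330049 = true := by decide +kernel

noncomputable def R_19580330112 : Rec := ⟨nat_lit 19580330112, nat_lit 71,
  [⟨V6_18455732352, [(nat_lit 98, nat_lit 19580330112), (nat_lit 60, nat_lit 20653809792), (nat_lit 64, nat_lit 20637294720), (nat_lit 81, nat_lit 21727289472), (nat_lit 11, nat_lit 21710774400), (nat_lit 25, nat_lit 21694259328), (nat_lit 13, nat_lit 22784254080), (nat_lit 104, nat_lit 22767739008), (nat_lit 70, nat_lit 22751223936), (nat_lit 107, nat_lit 23841218688), (nat_lit 51, nat_lit 23824703616), (nat_lit 12, nat_lit 24898183296)]⟩,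
   ⟨V6_17365737600, [(nat_lit 9, nat_lit 19580330112), (nat_lit 11, nat_lit 20637294720), (nat_lit 87, nat_lit 21694259328), (nat_lit 112, nat_lit 22751223936), (nat_lit 46, nat_lit 23808188544)]⟩,
   ⟨V6_16358842368, [(nat_lit 56, nat_lit 19580330112), (nat_lit 46, nat_lit 20654071872), (nat_lit 119, nat_lit 20653809792), (nat_lit 94, nat_lit 21727813632), (nat_lit 37, nat_lit 21727551552), (nat_lit 53, nat_lit 22801293312)]⟩],
  [W_19545989120, W_19529474048, W_19462889600, W_18489024512, W_18472509440, W_17399029760, W_16358580224, W_16342065152]⟩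
theorem C_19580330112 : chkRec R_19580330112 = true := by decide +kernel

noncomputable def R_19580334144 : Rec := ⟨nat_lit 19580334144, nat_lit 133,
  [⟨V6_18456256512, [(nat_lit 7, nat_lit 19580334144), (nat_lit 102, nat_lit 20654075904), (nat_lit 38, nat_lit 20654071872), (nat_lit 38, nat_lit 20637298752), (nat_lit 124, nat_lit 21727813632), (nat_lit 62, nat_lit 21711040512), (nat_lit 109, nat_lit 21711036480), (nat_lit 28, nat_lit 21694263360), (nat_lit 109, nat_lit 22784778240), (nat_lit 78, nat_lit 22768005120), (nat_lit 117, nat_lit 22768001088), (nat_lit 124, nat_lit 22751227968), (nat_lit 107, nat_lit 23841742848), (nat_lit 40, nat_lit 23824969728), (nat_lit 55, nat_lit 23824965696), (nat_lit 64, nat_lit 24898707456)]⟩,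
   ⟨V6_18456252480, [(nat_lit 126, nat_lit 19580334144), (nat_lit 10, nat_lit 20654071872), (nat_lit 71, nat_lit 20637298752), (nat_lit 98, nat_lit 21727809600), (nat_lit 120, nat_lit 21711036480), (nat_lit 4, nat_lit 21694263360), (nat_lit 70, nat_lit 22784774208), (nat_lit 16, nat_lit 22768001088), (nat_lit 13, nat_lit 22751227968), (nat_lit 2, nat_lit 23841738816), (nat_lit 87, nat_lit 23824965696), (nat_lit 94, nat_lit 24898703424)]⟩,
   ⟨V6_16358842368, [(nat_lit 90, nat_lit 19580334144), (nat_lit 63, nat_lit 20654075904), (nat_lit 124, nat_lit 20654071872), (nat_lit 22, nat_lit 20653813824), (nat_lit 104, nat_lit 21727813632), (nat_lit 26, nat_lit 21727555584), (nat_lit 123, nat_lit 21727551552), (nat_lit 12, nat_lit 22801293312)]⟩,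
   ⟨V6_16358584320, [(nat_lit 48, nat_lit 19580334144), (nat_lit 20, nat_lit 20654075904), (nat_lit 43, nat_lit 20653813824), (nat_lit 91, nat_lit 21727555584), (nat_lit 49, nat_lit 21727293504), (nat_lit 6, nat_lit 22801035264)]⟩],
  [W_19546247168, W_19529732096, W_19529474048, W_19512700928, W_19496185856, W_18489282560, W_18472767488, W_18439221248, W_17398771712, W_16358838272, W_16358576192, W_16341807104, W_16325292032]⟩
theorem C_19580334144 : chkRec R_19580334144 = true := by decide +kernel

noncomputable def R_19580338176 : Rec := ⟨nat_lit 19580338176, nat_lit 105,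
  [⟨V6_17382260736, [(nat_lit 79, nat_lit 19580338176), (nat_lit 63, nat_lit 20653817856), (nat_lit 79, nat_lit 20637302784), (nat_lit 54, nat_lit 21710782464), (nat_lit 1, nat_lit 21694267392), (nat_lit 97, nat_lit 22767747072), (nat_lit 69, nat_lit 22751232000), (nat_lit 79, nat_lit 23824711680)]⟩,
   ⟨V6_16325296128, [(nat_lit 71, nat_lit 19580338176), (nat_lit 69, nat_lit 20653817856), (nat_lit 66, nat_lit 20637302784), (nat_lit 56, nat_lit 21710782464), (nat_lit 26, nat_lit 21694267392), (nat_lit 79, nat_lit 22767747072)]⟩,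
   ⟨V6_16308781056, [(nat_lit 17, nat_lit 19580338176), (nat_lit 66, nat_lit 20637302784), (nat_lit 105, nat_lit 21694267392), (nat_lit 112, nat_lit 22751232000)]⟩],
  [W_19546505216, W_19529732096, W_18489540608, W_18472767488, W_17416060928, W_17415802880, W_16358838272, W_16342065152]⟩
theorem C_19580338176 : chkRec R_19580338176 = true := by decide +kernel

noncomputable def R_19580588097 : Rec := ⟨nat_lit 19580588097, nat_lit 18,
  [⟨V6_19579277376, [(nat_lit 69, nat_lit 19580588097), (nat_lit 7, nat_lit 20654329920), (nat_lit 114, nat_lit 20654067777), (nat_lit 5, nat_lit 21727809600), (nat_lit 46, nat_lit 21727547457), (nat_lit 124, nat_lit 22801289280), (nat_lit 74, nat_lit 22801027137), (nat_lit 102, nat_lit 23874768960), (nat_lit 102, nat_lit 23874506817), (nat_lit 125, nat_lit 24948248640), (nat_lit 36, nat_lit 24947986497), (nat_lit 62, nat_lit 26021728320)]⟩,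
   ⟨V6_19479924801, [(nat_lit 1, nat_lit 19580588097), (nat_lit 46, nat_lit 20637552705), (nat_lit 10, nat_lit 21694517313), (nat_lit 43, nat_lit 22751481921), (nat_lit 71, nat_lit 23808446529), (nat_lit 82, nat_lit 24865411137), (nat_lit 102, nat_lit 25922375745)]⟩,
   ⟨V6_17365995585, [(nat_lit 124, nat_lit 19580588097), (nat_lit 81, nat_lit 20637552705), (nat_lit 98, nat_lit 21694517313), (nat_lit 5, nat_lit 22751481921), (nat_lit 27, nat_lit 23808446529)]⟩],
  [W_18472505408, W_16358576192, W_16342061120, W_16325546048]⟩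
theorem C_19580588097 : chkRec R_19580588097 = true := by decide +kernel

noncomputable def R_19580592192 : Rec := ⟨nat_lit 19580592192, nat_lit 155,
  [⟨V6_19496706048, [(nat_lit 104, nat_lit 19580592192), (nat_lit 61, nat_lit 20654333952), (nat_lit 75, nat_lit 20637556800), (nat_lit 90, nat_lit 21711298560), (nat_lit 18, nat_lit 21694521408), (nat_lit 94, nat_lit 22768263168), (nat_lit 67, nat_lit 22751486016), (nat_lit 64, nat_lit 23825227776), (nat_lit 44, nat_lit 23808450624), (nat_lit 48, nat_lit 24882192384), (nat_lit 63, nat_lit 24865415232), (nat_lit 98, nat_lit 25939156992)]⟩,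
   ⟨V6_17399549952, [(nat_lit 118, nat_lit 19580592192), (nat_lit 98, nat_lit 20654333952), (nat_lit 69, nat_lit 20654329920), (nat_lit 67, nat_lit 20637556800), (nat_lit 113, nat_lit 21728071680), (nat_lit 50, nat_lit 21711298560), (nat_lit 106, nat_lit 21711294528), (nat_lit 63, nat_lit 21694521408), (nat_lit 108, nat_lit 22785036288), (nat_lit 22, nat_lit 22768263168), (nat_lit 46, nat_lit 22768259136), (nat_lit 53, nat_lit 23842000896)]⟩],
  [W_19562762240, W_19546247168, W_19545989120, W_19545985088, W_19529732096, W_19529474048, W_19529470016, W_19529211968, W_18489282560, W_18489024512, W_18489020480, W_18472767488, W_18472509440, W_18472505408, W_18472247360, W_17415544832, W_17398767680, W_16358580224, W_16341803072]⟩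
theorem C_19580592192 : chkRec R_19580592192 = true := by decide +kernel

noncomputable def R_19580596224 : Rec := ⟨nat_lit 19580596224, nat_lit 171,
  [⟨V6_19496706048, [(nat_lit 94, nat_lit 19580596224), (nat_lit 1, nat_lit 20654333952), (nat_lit 87, nat_lit 20637560832), (nat_lit 25, nat_lit 21711298560), (nat_lit 49, nat_lit 21694525440), (nat_lit 36, nat_lit 22768263168), (nat_lit 18, nat_lit 22751490048), (nat_lit 62, nat_lit 23825227776), (nat_lit 78, nat_lit 23808454656), (nat_lit 67, nat_lit 24882192384), (nat_lit 22, nat_lit 24865419264), (nat_lit 73, nat_lit 25939156992)]⟩,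
   ⟨V6_17399549952, [(nat_lit 106, nat_lit 19580596224), (nat_lit 37, nat_lit 20654333952), (nat_lit 70, nat_lit 20637560832), (nat_lit 103, nat_lit 21728071680), (nat_lit 28, nat_lit 21711298560), (nat_lit 14, nat_lit 21694525440), (nat_lit 71, nat_lit 22785036288), (nat_lit 103, nat_lit 22768263168), (nat_lit 101, nat_lit 23842000896)]⟩,
   ⟨V6_16359358464, [(nat_lit 84, nat_lit 19580596224), (nat_lit 35, nat_lit 20654333952), (nat_lit 99, nat_lit 21728071680), (nat_lit 64, nat_lit 22801809408)]⟩,
   ⟨V6_16358584320, [(nat_lit 63, nat_lit 19580596224), (nat_lit 90, nat_lit 20654075904), (nat_lit 123, nat_lit 21727555584), (nat_lit 6, nat_lit 22801035264)]⟩],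
  [W_19563020288, W_19546247168, W_19529732096, W_19529474048, W_19496185856, W_19463155712, W_18489540608, W_18472767488, W_18439221248, W_17398771712, W_17382256640]⟩
theorem C_19580596224 : chkRec R_19580596224 = true := by decide +kernel

noncomputable def R_19580850240 : Rec := ⟨nat_lit 19580850240, nat_lit 85,
  [⟨V6_19579277376, [(nat_lit 57, nat_lit 19580850240), (nat_lit 9, nat_lit 20654329920), (nat_lit 106, nat_lit 21727809600), (nat_lit 58, nat_lit 22801289280), (nat_lit 101, nat_lit 23874768960), (nat_lit 7, nat_lit 24948248640), (nat_lit 39, nat_lit 26021728320)]⟩,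
   ⟨V6_19496964096, [(nat_lit 81, nat_lit 19580850240), (nat_lit 122, nat_lit 20654592000), (nat_lit 23, nat_lit 20637814848), (nat_lit 53, nat_lit 21711556608), (nat_lit 36, nat_lit 21694779456), (nat_lit 61, nat_lit 22768521216), (nat_lit 7, nat_lit 22751744064), (nat_lit 1, nat_lit 23825485824), (nat_lit 88, nat_lit 23808708672), (nat_lit 96, nat_lit 24882450432), (nat_lit 126, nat_lit 24865673280), (nat_lit 69, nat_lit 25939415040)]⟩,
   ⟨V6_18423222336, [(nat_lit 65, nat_lit 19580850240), (nat_lit 59, nat_lit 20637814848), (nat_lit 6, nat_lit 21694779456), (nat_lit 32, nat_lit 22751744064), (nat_lit 115, nat_lit 23808708672), (nat_lit 95, nat_lit 24865673280)]⟩],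
  [W_19579277312, W_19562762240, W_19546247168, W_19545985088, W_18505797632, W_18489282560, W_18472505408, W_17432317952, W_17432055872, W_17415802880, W_16358838272, W_16358576192, W_16325546048]⟩
theorem C_19580850240 : chkRec R_19580850240 = true := by decide +kernel

noncomputable def R_19580854272 : Rec := ⟨nat_lit 19580854272, nat_lit 173,
  [⟨V6_18456772608, [(nat_lit 91, nat_lit 19580854272), (nat_lit 62, nat_lit 20654592000), (nat_lit 109, nat_lit 20637818880), (nat_lit 125, nat_lit 21728329728), (nat_lit 85, nat_lit 21711556608), (nat_lit 50, nat_lit 21694783488), (nat_lit 15, nat_lit 22785294336), (nat_lit 25, nat_lit 22768521216), (nat_lit 70, nat_lit 22751748096), (nat_lit 8, nat_lit 23842258944), (nat_lit 104, nat_lit 23825485824), (nat_lit 26, nat_lit 24899223552)]⟩,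
   ⟨V6_18423226368, [(nat_lit 8, nat_lit 19580854272), (nat_lit 103, nat_lit 20637818880), (nat_lit 32, nat_lit 21694783488), (nat_lit 86, nat_lit 22751748096), (nat_lit 63, nat_lit 23808712704), (nat_lit 41, nat_lit 24865677312)]⟩,
   ⟨V6_16309297152, [(nat_lit 25, nat_lit 19580854272), (nat_lit 112, nat_lit 20637818880), (nat_lit 5, nat_lit 21694783488), (nat_lit 90, nat_lit 22751748096)]⟩],
  [W_19579535360, W_19563020288, W_19562762240, W_19546505216, W_19546247168, W_19545989120, W_19529732096, W_19529474048, W_18489282560, W_18489024512, W_18472767488, W_18472509440, W_17416060928, W_17415544832]⟩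
theorem C_19580854272 : chkRec R_19580854272 = true := by decide +kernel

noncomputable def R_19581112320 : Rec := ⟨nat_lit 19581112320, nat_lit 119,
  [⟨V6_17383034880, [(nat_lit 103, nat_lit 19581112320), (nat_lit 119, nat_lit 20654592000), (nat_lit 7, nat_lit 20638076928), (nat_lit 40, nat_lit 21711556608), (nat_lit 123, nat_lit 21695041536), (nat_lit 19, nat_lit 22768521216), (nat_lit 15, nat_lit 22752006144), (nat_lit 90, nat_lit 23825485824)]⟩,
   ⟨V6_17366519808, [(nat_lit 51, nat_lit 19581112320), (nat_lit 20, nat_lit 20638076928), (nat_lit 112, nat_lit 21695041536), (nat_lit 42, nat_lit 22752006144), (nat_lit 49, nat_lit 23808970752)]⟩,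
   ⟨V6_16359358464, [(nat_lit 100, nat_lit 19581112320), (nat_lit 30, nat_lit 20654850048), (nat_lit 108, nat_lit 20654592000), (nat_lit 120, nat_lit 21728329728), (nat_lit 57, nat_lit 21728071680), (nat_lit 77, nat_lit 22801809408)]⟩,
   ⟨V6_16326328320, [(nat_lit 12, nat_lit 19581112320), (nat_lit 55, nat_lit 20654850048), (nat_lit 33, nat_lit 20638076928), (nat_lit 112, nat_lit 21711814656), (nat_lit 28, nat_lit 21695041536), (nat_lit 107, nat_lit 22768779264)]⟩],
  [W_19563020288, W_19562762240, W_19546505216, W_19546247168, W_19529732096, W_19463671808, W_18506055680, W_18505797632, W_18489540608, W_17432317952, W_16359096320, W_16358838272]⟩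
theorem C_19581112320 : chkRec R_19581112320 = true := by decide +kernel

noncomputable def R_19581370368 : Rec := ⟨nat_lit 19581370368, nat_lit 50,
  [⟨V6_18456772608, [(nat_lit 20, nat_lit 19581370368), (nat_lit 114, nat_lit 20654850048), (nat_lit 117, nat_lit 20638334976), (nat_lit 59, nat_lit 21728329728), (nat_lit 45, nat_lit 21711814656), (nat_lit 23, nat_lit 21695299584), (nat_lit 87, nat_lit 22785294336), (nat_lit 104, nat_lit 22768779264), (nat_lit 77, nat_lit 22752264192), (nat_lit 122, nat_lit 23842258944), (nat_lit 105, nat_lit 23825743872), (nat_lit 29, nat_lit 24899223552)]⟩,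
   ⟨V6_16359358464, [(nat_lit 46, nat_lit 19581370368), (nat_lit 35, nat_lit 20654850048), (nat_lit 93, nat_lit 21728329728), (nat_lit 123, nat_lit 22801809408)]⟩,
   ⟨V6_16326328320, [(nat_lit 24, nat_lit 19581370368), (nat_lit 43, nat_lit 20654850048), (nat_lit 87, nat_lit 20638334976), (nat_lit 90, nat_lit 21711814656), (nat_lit 36, nat_lit 21695299584), (nat_lit 109, nat_lit 22768779264)]⟩],
  [W_19579535360, W_19563020288, W_19480444928, W_17432576000, W_17416060928, W_16359096320]⟩
theorem C_19581370368 : chkRec R_19581370368 = true := by decide +kernel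

noncomputable def R_19596320898 : Rec := ⟨nat_lit 19596320898, nat_lit 2,
  [⟨V6_18472247424, [(nat_lit 117, nat_lit 19596320898), (nat_lit 19, nat_lit 20670062721), (nat_lit 59, nat_lit 20653285506), (nat_lit 70, nat_lit 21743804544), (nat_lit 28, nat_lit 21727027329), (nat_lit 71, nat_lit 21710250114), (nat_lit 47, nat_lit 22800769152), (nat_lit 69, nat_lit 22783991937), (nat_lit 14, nat_lit 22767214722), (nat_lit 54, nat_lit 23857733760), (nat_lit 29, nat_lit 23840956545), (nat_lit 88, nat_lit 24914698368)]⟩],
  [W_19512434816]⟩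
theorem C_19596320898 : chkRec R_19596320898 = true := by decide +kernel

noncomputable def R_19596583041 : Rec := ⟨nat_lit 19596583041, nat_lit 7,
  [⟨V6_18472247424, [(nat_lit 87, nat_lit 19596583041), (nat_lit 65, nat_lit 20670324864), (nat_lit 94, nat_lit 20670062721), (nat_lit 103, nat_lit 20653547649), (nat_lit 38, nat_lit 21743804544), (nat_lit 19, nat_lit 21727289472), (nat_lit 52, nat_lit 21727027329), (nat_lit 32, nat_lit 21710512257), (nat_lit 85, nat_lit 22800769152), (nat_lit 124, nat_lit 22784254080), (nat_lit 25, nat_lit 22783991937), (nat_lit 79, nat_lit 22767476865), (nat_lit 5, nat_lit 23857733760), (nat_lit 70, nat_lit 23841218688), (nat_lit 107, nat_lit 23840956545), (nat_lit 93, nat_lit 24914698368)]⟩],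
  [W_19512696896]⟩
theorem C_19596583041 : chkRec R_19596583041 = true := by decide +kernel

noncomputable def R_19596587073 : Rec := ⟨nat_lit 19596587073, nat_lit 8,
  [⟨V6_19495923777, [(nat_lit 22, nat_lit 19596587073), (nat_lit 28, nat_lit 20653551681), (nat_lit 71, nat_lit 21710516289), (nat_lit 34, nat_lit 22767480897), (nat_lit 87, nat_lit 23824445505), (nat_lit 14, nat_lit 24881410113), (nat_lit 92, nat_lit 25938374721)]⟩,
   ⟨V6_18472505409, [(nat_lit 67, nat_lit 19596587073), (nat_lit 126, nat_lit 20670324801), (nat_lit 102, nat_lit 20653551681), (nat_lit 123, nat_lit 21744062529), (nat_lit 19, nat_lit 21727289409), (nat_lit 126, nat_lit 21710516289), (nat_lit 25, nat_lit 22801027137), (nat_lit 76, nat_lit 22784254017), (nat_lit 124, nat_lit 22767480897), (nat_lit 12, nat_lit 23857991745), (nat_lit 57, nat_lit 23841218625), (nat_lit 11, nat_lit 24914956353)]⟩],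
  [W_19512696896]⟩
theorem C_19596587073 : chkRec R_19596587073 = true := by decide +kernel

noncomputable def R_19596587136 : Rec := ⟨nat_lit 19596587136, nat_lit 13,
  [⟨V6_18455732352, [(nat_lit 19, nat_lit 19596587136), (nat_lit 123, nat_lit 20670324864), (nat_lit 78, nat_lit 20653551744), (nat_lit 63, nat_lit 21727289472), (nat_lit 79, nat_lit 21710516352), (nat_lit 21, nat_lit 22784254080), (nat_lit 36, nat_lit 22767480960), (nat_lit 4, nat_lit 23841218688), (nat_lit 52, nat_lit 23824445568), (nat_lit 52, nat_lit 24898183296)]⟩],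
  [W_17415544832, W_17398771712]⟩
theorem C_19596587136 : chkRec R_19596587136 = true := by decide +kernel

noncomputable def R_19596845121 : Rec := ⟨nat_lit 19596845121, nat_lit 16,
  [⟨V6_19512954945, [(nat_lit 29, nat_lit 19596845121), (nat_lit 14, nat_lit 20670582849), (nat_lit 69, nat_lit 20653809729), (nat_lit 71, nat_lit 21727547457), (nat_lit 121, nat_lit 21710774337), (nat_lit 96, nat_lit 22784512065), (nat_lit 87, nat_lit 22767738945), (nat_lit 119, nat_lit 23841476673), (nat_lit 38, nat_lit 23824703553), (nat_lit 40, nat_lit 24898441281), (nat_lit 60, nat_lit 24881668161), (nat_lit 27, nat_lit 25955405889)]⟩,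
   ⟨V6_18439217217, [(nat_lit 110, nat_lit 19596845121), (nat_lit 106, nat_lit 20653809729), (nat_lit 76, nat_lit 21710774337), (nat_lit 34, nat_lit 22767738945), (nat_lit 6, nat_lit 23824703553), (nat_lit 88, nat_lit 24881668161)]⟩],
  [W_19529211968, W_18489020480, W_18472505408, W_17415282752]⟩
theorem C_19596845121 : chkRec R_19596845121 = true := by decide +kernel

noncomputable def R_19596845184 : Rec := ⟨nat_lit 19596845184, nat_lit 42,
  [⟨V6_19562766336, [(nat_lit 98, nat_lit 19596845184), (nat_lit 82, nat_lit 20670586944), (nat_lit 44, nat_lit 20670324864), (nat_lit 115, nat_lit 20653809792), (nat_lit 23, nat_lit 21744328704), (nat_lit 121, nat_lit 21744066624), (nat_lit 57, nat_lit 21743804544), (nat_lit 122, nat_lit 21727551552), (nat_lit 79, nat_lit 21727289472), (nat_lit 19, nat_lit 21710774400), (nat_lit 42, nat_lit 22817808384), (nat_lit 93, nat_lit 22817546304), (nat_lit 12, nat_lit 22801293312), (nat_lit 21, nat_lit 22801031232), (nat_lit 51, nat_lit 22800769152), (nat_lit 37, nat_lit 22784516160), (nat_lit 49, nat_lit 22784254080),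 (nat_lit 93, nat_lit 23891288064), (nat_lit 11, nat_lit 23874772992), (nat_lit 89, nat_lit 23874510912), (nat_lit 58, nat_lit 23858257920), (nat_lit 100, nat_lit 23857995840), (nat_lit 112, nat_lit 23857733760), (nat_lit 59, nat_lit 24948252672), (nat_lit 34, nat_lit 24931737600), (nat_lit 112, nat_lit 24931475520), (nat_lit 86, nat_lit 26005217280)]⟩,
   ⟨V6_18455732352, [(nat_lit 98, nat_lit 19596845184), (nat_lit 43, nat_lit 20670324864), (nat_lit 82, nat_lit 20653809792), (nat_lit 55, nat_lit 21727289472), (nat_lit 28, nat_lit 21710774400), (nat_lit 73, nat_lit 22784254080), (nat_lit 48, nat_lit 22767739008), (nat_lit 1, nat_lit 23841218688), (nat_lit 45, nat_lit 23824703616), (nat_lit 25, nat_lit 24898183296)]⟩,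
   ⟨V6_17448837120, [(nat_lit 12, nat_lit 19596845184), (nat_lit 26, nat_lit 20670586944), (nat_lit 60, nat_lit 20670324864), (nat_lit 66, nat_lit 21744328704), (nat_lit 54, nat_lit 21744066624), (nat_lit 43, nat_lit 21743804544), (nat_lit 28, nat_lit 22817808384), (nat_lit 61, nat_lit 22817546304), (nat_lit 19, nat_lit 23891288064)]⟩],
  [W_19529474048, W_19479404672, W_18472509440, W_17415544832]⟩
theorem C_19596845184 : chkRec R_19596845184 = true := by decide +kernel

noncomputable def R_19596849216 : Rec := ⟨nat_lit 19596849216, nat_lit 62,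
  [⟨V6_19512963072, [(nat_lit 90, nat_lit 19596849216), (nat_lit 13, nat_lit 20670590976), (nat_lit 120, nat_lit 20653813824), (nat_lit 109, nat_lit 21727555584), (nat_lit 103, nat_lit 21710778432), (nat_lit 56, nat_lit 22784520192), (nat_lit 53, nat_lit 22767743040), (nat_lit 49, nat_lit 23841484800), (nat_lit 81, nat_lit 23824707648), (nat_lit 41, nat_lit 24898449408), (nat_lit 88, nat_lit 24881672256), (nat_lit 25, nat_lit 25955414016)]⟩,
   ⟨V6_18455998464, [(nat_lit 93, nat_lit 19596849216), (nat_lit 42, nat_lit 20670590976), (nat_lit 100, nat_lit 20653813824), (nat_lit 53, nat_lit 21727555584), (nat_lit 84, nat_lit 21710778432), (nat_lit 66, nat_lit 22784520192), (nat_lit 45, nat_lit 22767743040), (nat_lit 107, nat_lit 23841484800), (nat_lit 64, nat_lit 23824707648), (nat_lit 44, nat_lit 24898449408)]⟩],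
  [W_19546247168, W_19529732096, W_18489282560, W_18472505408, W_17432317952, W_17415544832, W_17415540800]⟩
theorem C_19596849216 : chkRec R_19596849216 = true := by decide +kernel

noncomputable def R_19596853248 : Rec := ⟨nat_lit 19596853248, nat_lit 49,
  [⟨V6_17449353216, [(nat_lit 20, nat_lit 19596853248), (nat_lit 18, nat_lit 20670590976), (nat_lit 4, nat_lit 21744328704), (nat_lit 57, nat_lit 22818066432), (nat_lit 15, nat_lit 23891804160)]⟩,
   ⟨V6_17382260736, [(nat_lit 34, nat_lit 19596853248), (nat_lit 93, nat_lit 20653817856), (nat_lit 122, nat_lit 21710782464), (nat_lit 44, nat_lit 22767747072), (nat_lit 30, nat_lit 23824711680)]⟩],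
  [W_19529732096, W_18489540608, W_17415802880]⟩
theorem C_19596853248 : chkRec R_19596853248 = true := by decide +kernel

noncomputable def R_19597103169 : Rec := ⟨nat_lit 19597103169, nat_lit 11,
  [⟨V6_19496439873, [(nat_lit 76, nat_lit 19597103169), (nat_lit 39, nat_lit 20654067777), (nat_lit 49, nat_lit 21711032385), (nat_lit 2, nat_lit 22767996993), (nat_lit 35, nat_lit 23824961601), (nat_lit 83, nat_lit 24881926209), (nat_lit 110, nat_lit 25938890817)]⟩,
   ⟨V6_17382510657, [(nat_lit 121, nat_lit 19597103169), (nat_lit 6, nat_lit 20654067777), (nat_lit 98, nat_lit 21711032385), (nat_lit 52, nat_lit 22767996993), (nat_lit 47, nat_lit 23824961601)]⟩],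
  [W_19545985088, W_18505535552, W_18472505408, W_17432055872]⟩
theorem C_19597103169 : chkRec R_19597103169 = true := by decide +kernel

noncomputable def R_19597107264 : Rec := ⟨nat_lit 19597107264, nat_lit 92,
  [⟨V6_19513221120, [(nat_lit 102, nat_lit 19597107264), (nat_lit 74, nat_lit 20670849024), (nat_lit 9, nat_lit 20654071872), (nat_lit 5, nat_lit 21727813632), (nat_lit 49, nat_lit 21711036480), (nat_lit 55, nat_lit 22784778240), (nat_lit 77, nat_lit 22768001088), (nat_lit 64, nat_lit 23841742848), (nat_lit 41, nat_lit 23824965696), (nat_lit 38, nat_lit 24898707456), (nat_lit 32, nat_lit 24881930304), (nat_lit 113, nat_lit 25955672064)]⟩,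
   ⟨V6_17448837120, [(nat_lit 6, nat_lit 19597107264), (nat_lit 84, nat_lit 20670849024), (nat_lit 102, nat_lit 20670586944), (nat_lit 21, nat_lit 21744328704), (nat_lit 77, nat_lit 21744066624), (nat_lit 12, nat_lit 22817808384), (nat_lit 35, nat_lit 22817546304), (nat_lit 52, nat_lit 23891288064)]⟩],
  [W_19562762240, W_19546247168, W_19545985088, W_18489282560, W_18489024512, W_18472767488, W_18472505408, W_18472247360, W_17432317952, W_17415802880, W_17399025728]⟩
theorem C_19597107264 : chkRec R_19597107264 = true := by decide +kernel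

noncomputable def R_19597111296 : Rec := ⟨nat_lit 19597111296, nat_lit 92,
  [⟨V6_19513221120, [(nat_lit 113, nat_lit 19597111296), (nat_lit 69, nat_lit 20670849024), (nat_lit 56, nat_lit 20654075904), (nat_lit 38, nat_lit 21727813632), (nat_lit 31, nat_lit 21711040512), (nat_lit 126, nat_lit 22784778240), (nat_lit 8, nat_lit 22768005120), (nat_lit 45, nat_lit 23841742848), (nat_lit 87, nat_lit 23824969728), (nat_lit 7, nat_lit 24898707456), (nat_lit 100, nat_lit 24881934336), (nat_lit 112, nat_lit 25955672064)]⟩,
   ⟨V6_17449353216, [(nat_lit 33, nat_lit 19597111296), (nat_lit 38, nat_lit 20670849024), (nat_lit 121, nat_lit 20670590976), (nat_lit 125, nat_lit 21744586752), (nat_lit 125, nat_lit 21744328704), (nat_lit 44, nat_lit 22818324480), (nat_lit 42, nat_lit 22818066432), (nat_lit 117, nat_lit 23891804160)]⟩],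
  [W_19563020288, W_19546247168, W_18489282560, W_18472767488, W_18455736320, W_17432576000, W_17432317952, W_17416060928, W_17398771712]⟩
theorem C_19597111296 : chkRec R_19597111296 = true := by decide +kernel

noncomputable def R_19597365312 : Rec := ⟨nat_lit 19597365312, nat_lit 55,
  [⟨V6_18522574848, [(nat_lit 109, nat_lit 19597365312), (nat_lit 40, nat_lit 20671107072), (nat_lit 6, nat_lit 20670844992), (nat_lit 64, nat_lit 21744586752), (nat_lit 94, nat_lit 21744324672), (nat_lit 77, nat_lit 22818066432), (nat_lit 98, nat_lit 22817804352), (nat_lit 104, nat_lit 23891546112), (nat_lit 1, nat_lit 23891284032), (nat_lit 115, nat_lit 24965025792)]⟩,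
   ⟨V6_17399549952, [(nat_lit 7, nat_lit 19597365312), (nat_lit 121, nat_lit 20671107072), (nat_lit 95, nat_lit 20654329920), (nat_lit 72, nat_lit 21728071680), (nat_lit 27, nat_lit 21711294528), (nat_lit 71, nat_lit 22785036288), (nat_lit 23, nat_lit 22768259136), (nat_lit 41, nat_lit 23842000896)]⟩],
  [W_19562762240, W_19546247168, W_19529732096, W_19479924800, W_18472505408]⟩
theorem C_19597365312 : chkRec R_19597365312 = true := by decide +kernel

noncomputable def R_19597369344 : Rec := ⟨nat_lit 19597369344, nat_lit 129,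
  [⟨V6_19496706048, [(nat_lit 78, nat_lit 19597369344), (nat_lit 30, nat_lit 20654333952), (nat_lit 67, nat_lit 21711298560), (nat_lit 109, nat_lit 22768263168), (nat_lit 66, nat_lit 23825227776), (nat_lit 15, nat_lit 24882192384), (nat_lit 26, nat_lit 25939156992)]⟩,
   ⟨V6_17382776832, [(nat_lit 62, nat_lit 19597369344), (nat_lit 65, nat_lit 20654333952), (nat_lit 88, nat_lit 21711298560), (nat_lit 13, nat_lit 22768263168), (nat_lit 107, nat_lit 23825227776)]⟩],
  [W_19579535360, W_19563020288, W_19562762240, W_19546247168, W_19545989120, W_18522570752, W_18505797632, W_18489540608, W_18489282560, W_18489024512, W_18472767488, W_17449091072, W_17448833024, W_17416060928]⟩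
theorem C_19597369344 : chkRec R_19597369344 = true := by decide +kernel

noncomputable def R_19597627392 : Rec := ⟨nat_lit 19597627392, nat_lit 91,
  [⟨V6_19496964096, [(nat_lit 106, nat_lit 19597627392), (nat_lit 31, nat_lit 20654592000), (nat_lit 65, nat_lit 21711556608), (nat_lit 83, nat_lit 22768521216), (nat_lit 119, nat_lit 23825485824), (nat_lit 79, nat_lit 24882450432), (nat_lit 120, nat_lit 25939415040)]⟩,
   ⟨V6_17449353216, [(nat_lit 33, nat_lit 19597627392), (nat_lit 59, nat_lit 20671365120), (nat_lit 7, nat_lit 20671107072), (nat_lit 60, nat_lit 21744844800), (nat_lit 112, nat_lit 21744586752), (nat_lit 44, nat_lit 22818324480), (nat_lit 116, nat_lit 22818066432), (nat_lit 83, nat_lit 23891804160)]⟩,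
   ⟨V6_17383034880, [(nat_lit 78, nat_lit 19597627392), (nat_lit 49, nat_lit 20654592000), (nat_lit 123, nat_lit 21711556608), (nat_lit 86, nat_lit 22768521216), (nat_lit 24, nat_lit 23825485824)]⟩],
  [W_19596050432, W_19579535360, W_19579277312, W_19563020288, W_19562762240, W_19546247168, W_19529732096, W_18522570752, W_17449091072, W_17448833024, W_17416060928]⟩
theorem C_19597627392 : chkRec R_19597627392 = true := by decide +kernel

noncomputable def R_19597885440 : Rec := ⟨nat_lit 19597885440, nat_lit 50,
  [⟨V6_19596312576, [(nat_lit 74, nat_lit 19597885440), (nat_lit 20, nat_lit 20671365120), (nat_lit 8, nat_lit 21744844800), (nat_lit 86, nat_lit 22818324480), (nat_lit 7, nat_lit 23891804160), (nat_lit 90, nat_lit 24965283840), (nat_lit 7, nat_lit 26038763520)]⟩,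
   ⟨V6_18456772608, [(nat_lit 108, nat_lit 19597885440), (nat_lit 86, nat_lit 20671365120), (nat_lit 14, nat_lit 20654850048), (nat_lit 124, nat_lit 21728329728), (nat_lit 116, nat_lit 21711814656), (nat_lit 43, nat_lit 22785294336), (nat_lit 58, nat_lit 22768779264), (nat_lit 100, nat_lit 23842258944), (nat_lit 62, nat_lit 23825743872), (nat_lit 33, nat_lit 24899223552)]⟩,
   ⟨V6_17449353216, [(nat_lit 98, nat_lit 19597885440), (nat_lit 99, nat_lit 20671365120), (nat_lit 33, nat_lit 21744844800), (nat_lit 84, nat_lit 22818324480), (nat_lit 102, nat_lit 23891804160)]⟩],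
  [W_19579535360, W_19563020288, W_19480444928, W_17449091072, W_17432576000, W_17416060928]⟩
theorem C_19597885440 : chkRec R_19597885440 = true := by decide +kernel

noncomputable def R_19613098113 : Rec := ⟨nat_lit 19613098113, nat_lit 2,
  [⟨V6_18472247424, [(nat_lit 86, nat_lit 19613098113), (nat_lit 94, nat_lit 20686839936), (nat_lit 32, nat_lit 20670062721), (nat_lit 53, nat_lit 21743804544), (nat_lit 75, nat_lit 21727027329), (nat_lit 48, nat_lit 22800769152), (nat_lit 53, nat_lit 22783991937), (nat_lit 23, nat_lit 23857733760), (nat_lit 28, nat_lit 23840956545), (nat_lit 29, nat_lit 24914698368)]⟩],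
  [W_19529211968]⟩
theorem C_19613098113 : chkRec R_19613098113 = true := by decide +kernel

noncomputable def R_19613360193 : Rec := ⟨nat_lit 19613360193, nat_lit 7,
  [⟨V6_18505797696, [(nat_lit 71, nat_lit 19613360193), (nat_lit 95, nat_lit 20687102016), (nat_lit 67, nat_lit 20687097921), (nat_lit 15, nat_lit 20686839873), (nat_lit 12, nat_lit 20670324801), (nat_lit 34, nat_lit 21760839744), (nat_lit 18, nat_lit 21760581696), (nat_lit 94, nat_lit 21760577601), (nat_lit 104, nat_lit 21744066624), (nat_lit 73, nat_lit 21744062529), (nat_lit 74, nat_lit 21743804481), (nat_lit 87, nat_lit 21727289409), (nat_lit 38, nat_lit 22834319424), (nat_lit 45, nat_lit 22817804352), (nat_lit 26, nat_lit 22817546304), (nat_lit 64, nat_lit 22817542209), (nat_lit 71, nat_lit 22801031232), (nat_lit 106, nat_lit 22801027137), (nat_lit 56, nat_lit 22800769089), (nat_lit 15, nat_lit 23891284032), (nat_lit 59, nat_lit 23874768960), (nat_lit 124, nat_lit 23874510912), (nat_lit 90, nat_lit 23874506817), (nat_lit 104, nat_lit 24948248640)]⟩,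
   ⟨V6_18472505409, [(nat_lit 41, nat_lit 19613360193), (nat_lit 107, nat_lit 20687097921), (nat_lit 99, nat_lit 20670324801), (nat_lit 113, nat_lit 21744062529), (nat_lit 62, nat_lit 21727289409), (nat_lit 62, nat_lit 22801027137), (nat_lit 87, nat_lit 22784254017), (nat_lit 46, nat_lit 23857991745), (nat_lit 116, nat_lit 23841218625), (nat_lit 122, nat_lit 24914956353)]⟩],
  [W_19512696896]⟩
theorem C_19613360193 : chkRec R_19613360193 = true := by decide +kernel

noncomputable def R_19613360256 : Rec := ⟨nat_lit 19613360256, nat_lit 13,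
  [⟨V6_18455732352, [(nat_lit 112, nat_lit 19613360256), (nat_lit 25, nat_lit 20670324864), (nat_lit 102, nat_lit 21727289472), (nat_lit 15, nat_lit 22784254080), (nat_lit 122, nat_lit 23841218688), (nat_lit 37, nat_lit 24898183296)]⟩],
  [W_19545989120, W_18489024512]⟩
theorem C_19613360256 : chkRec R_19613360256 = true := by decide +kernel

noncomputable def R_19613364288 : Rec := ⟨nat_lit 19613364288, nat_lit 15,
  [⟨V6_19546247232, [(nat_lit 39, nat_lit 19613364288), (nat_lit 105, nat_lit 20687102016), (nat_lit 10, nat_lit 20670328896), (nat_lit 101, nat_lit 21760839744), (nat_lit 5, nat_lit 21744066624), (nat_lit 19, nat_lit 21727293504), (nat_lit 56, nat_lit 22817804352), (nat_lit 24, nat_lit 22801031232), (nat_lit 113, nat_lit 22784258112), (nat_lit 55, nat_lit 23874768960), (nat_lit 43, nat_lit 23857995840), (nat_lit 40, nat_lit 23841222720), (nat_lit 15, nat_lit 24931733568), (nat_lit 60, nat_lit 24914960448), (nat_lit 126, nat_lit 25988698176)]⟩],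
  [W_19529474048]⟩
theorem C_19613364288 : chkRec R_19613364288 = true := by decide +kernel

noncomputable def R_19613618241 : Rec := ⟨nat_lit 19613618241, nat_lit 4,
  [⟨V6_19512954945, [(nat_lit 16, nat_lit 19613618241), (nat_lit 63, nat_lit 20670582849), (nat_lit 120, nat_lit 21727547457), (nat_lit 126, nat_lit 22784512065), (nat_lit 80, nat_lit 23841476673), (nat_lit 27, nat_lit 24898441281), (nat_lit 4, nat_lit 25955405889)]⟩],
  [W_19545985088, W_18489020480]⟩
theorem C_19613618241 : chkRec R_19613618241 = true := by decide +kernel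

noncomputable def R_19613622336 : Rec := ⟨nat_lit 19613622336, nat_lit 44,
  [⟨V6_19546247232, [(nat_lit 93, nat_lit 19613622336), (nat_lit 8, nat_lit 20687360064), (nat_lit 97, nat_lit 20687102016), (nat_lit 121, nat_lit 20670586944), (nat_lit 120, nat_lit 21760839744), (nat_lit 12, nat_lit 21744324672), (nat_lit 1, nat_lit 21744066624), (nat_lit 41, nat_lit 21727551552), (nat_lit 93, nat_lit 22817804352), (nat_lit 90, nat_lit 22801289280), (nat_lit 120, nat_lit 22801031232), (nat_lit 107, nat_lit 22784516160), (nat_lit 95, nat_lit 23874768960), (nat_lit 35, nat_lit 23858253888), (nat_lit 71, nat_lit 23857995840), (nat_lit 56, nat_lit 23841480768), (nat_lit 15, nat_lit 24931733568), (nat_lit 106, nat_lit 24915218496), (nat_lit 109, nat_lit 24914960448), (nat_lit 83, nat_lit 25988698176)]⟩,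
   ⟨V6_19529732160, [(nat_lit 38, nat_lit 19613622336), (nat_lit 106, nat_lit 20687360064), (nat_lit 90, nat_lit 20670586944), (nat_lit 122, nat_lit 21744324672), (nat_lit 55, nat_lit 21727551552), (nat_lit 8, nat_lit 22801289280), (nat_lit 97, nat_lit 22784516160), (nat_lit 102, nat_lit 23858253888), (nat_lit 27, nat_lit 23841480768), (nat_lit 91, nat_lit 24915218496), (nat_lit 38, nat_lit 24898445376), (nat_lit 72, nat_lit 25972183104)]⟩,
   ⟨V6_18505797696, [(nat_lit 123, nat_lit 19613622336), (nat_lit 16, nat_lit 20687360064), (nat_lit 7, nat_lit 20687102016), (nat_lit 79, nat_lit 20670586944), (nat_lit 32, nat_lit 21760839744), (nat_lit 27, nat_lit 21760581696), (nat_lit 108, nat_lit 21744324672), (nat_lit 18, nat_lit 21744066624), (nat_lit 66, nat_lit 21727551552), (nat_lit 92, nat_lit 22834319424), (nat_lit 10, nat_lit 22817804352), (nat_lit 78, nat_lit 22817546304), (nat_lit 84, nat_lit 22801289280), (nat_lit 97, nat_lit 22801031232), (nat_lit 86, nat_lit 23891284032), (nat_lit 9, nat_lit 23874768960), (nat_lit 81, nat_lit 23874510912),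 (nat_lit 120, nat_lit 24948248640)]⟩],
  [W_19529732096, W_19529474048, W_18489024512]⟩
theorem C_19613622336 : chkRec R_19613622336 = true := by decide +kernel

noncomputable def R_19613626368 : Rec := ⟨nat_lit 19613626368, nat_lit 40,
  [⟨V6_18455998464, [(nat_lit 3, nat_lit 19613626368), (nat_lit 122, nat_lit 20670590976), (nat_lit 5, nat_lit 21727555584), (nat_lit 124, nat_lit 22784520192), (nat_lit 1, nat_lit 23841484800), (nat_lit 18, nat_lit 24898449408)]⟩],
  [W_19563020288, W_19546247168, W_18506055680, W_18489282560]⟩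
theorem C_19613626368 : chkRec R_19613626368 = true := by decide +kernel

noncomputable def R_19613880384 : Rec := ⟨nat_lit 19613880384, nat_lit 30,
  [⟨V6_18456252480, [(nat_lit 10, nat_lit 19613880384), (nat_lit 68, nat_lit 20670844992), (nat_lit 59, nat_lit 21727809600), (nat_lit 117, nat_lit 22784774208), (nat_lit 88, nat_lit 23841738816), (nat_lit 60, nat_lit 24898703424)]⟩],
  [W_19562762240, W_19546247168, W_19545985088, W_18505797632]⟩
theorem C_19613880384 : chkRec R_19613880384 = true := by decide +kernel

noncomputable def R_19613884416 : Rec := ⟨nat_lit 19613884416, nat_lit 64,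
  [⟨V6_18456256512, [(nat_lit 103, nat_lit 19613884416), (nat_lit 40, nat_lit 20670849024), (nat_lit 87, nat_lit 21727813632), (nat_lit 24, nat_lit 22784778240), (nat_lit 119, nat_lit 23841742848), (nat_lit 110, nat_lit 24898707456)]⟩],
  [W_19579535360, W_19562762240, W_19546505216, W_19546247168, W_19545989120, W_18522570752, W_18489024512]⟩
theorem C_19613884416 : chkRec R_19613884416 = true := by decide +kernel

noncomputable def R_19614142464 : Rec := ⟨nat_lit 19614142464, nat_lit 56,
  [⟨V6_18456514560, [(nat_lit 69, nat_lit 19614142464), (nat_lit 12, nat_lit 20671107072), (nat_lit 115, nat_lit 21728071680), (nat_lit 58, nat_lit 22785036288), (nat_lit 23, nat_lit 23842000896), (nat_lit 33, nat_lit 24898965504)]⟩],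
  [W_19596050432, W_19579535360, W_19579277312, W_19563020288, W_19546505216, W_19546247168, W_18522570752]⟩
theorem C_19614142464 : chkRec R_19614142464 = true := by decide +kernel

noncomputable def R_19614400512 : Rec := ⟨nat_lit 19614400512, nat_lit 28,
  [⟨V6_18539347968, [(nat_lit 106, nat_lit 19614400512), (nat_lit 90, nat_lit 20687880192), (nat_lit 98, nat_lit 21761359872), (nat_lit 73, nat_lit 22834839552), (nat_lit 106, nat_lit 23908319232), (nat_lit 63, nat_lit 24981798912)]⟩,
   ⟨V6_18456772608, [(nat_lit 118, nat_lit 19614400512), (nat_lit 15, nat_lit 20671365120), (nat_lit 112, nat_lit 21728329728), (nat_lit 9, nat_lit 22785294336), (nat_lit 124, nat_lit 23842258944), (nat_lit 73, nat_lit 24899223552)]⟩],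
  [W_19579535360, W_19546505216, W_18522570752]⟩
theorem C_19614400512 : chkRec R_19614400512 = true := by decide +kernel

noncomputable def R_19629875328 : Rec := ⟨nat_lit 19629875328, nat_lit 5,
  [⟨V6_19562766336, [(nat_lit 16, nat_lit 19629875328), (nat_lit 17, nat_lit 20703617088), (nat_lit 105, nat_lit 20686839936), (nat_lit 42, nat_lit 21777358848), (nat_lit 11, nat_lit 21760581696), (nat_lit 95, nat_lit 21743804544), (nat_lit 76, nat_lit 22834323456), (nat_lit 42, nat_lit 22817546304), (nat_lit 115, nat_lit 22800769152), (nat_lit 57, nat_lit 23891288064), (nat_lit 118, nat_lit 23874510912), (nat_lit 117, nat_lit 23857733760), (nat_lit 87, nat_lit 24948252672), (nat_lit 112, nat_lit 24931475520), (nat_lit 26, nat_lit 26005217280)]⟩],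
  [W_19529211968]⟩
theorem C_19629875328 : chkRec R_19629875328 = true := by decide +kernel

noncomputable def R_19630133313 : Rec := ⟨nat_lit 19630133313, nat_lit 2,
  [⟨V6_19546247232, [(nat_lit 56, nat_lit 19630133313), (nat_lit 123, nat_lit 20703875136), (nat_lit 65, nat_lit 20687097921), (nat_lit 74, nat_lit 21760839744), (nat_lit 36, nat_lit 21744062529), (nat_lit 12, nat_lit 22817804352), (nat_lit 5, nat_lit 22801027137), (nat_lit 54, nat_lit 23874768960), (nat_lit 12, nat_lit 23857991745), (nat_lit 10, nat_lit 24931733568), (nat_lit 95, nat_lit 24914956353), (nat_lit 112, nat_lit 25988698176)]⟩],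
  [W_19529470016]⟩
theorem C_19630133313 : chkRec R_19630133313 = true := by decide +kernel

noncomputable def R_19630137408 : Rec := ⟨nat_lit 19630137408, nat_lit 11,
  [⟨V6_19546247232, [(nat_lit 106, nat_lit 19630137408), (nat_lit 7, nat_lit 20703875136), (nat_lit 66, nat_lit 20687102016), (nat_lit 101, nat_lit 21760839744), (nat_lit 116, nat_lit 21744066624), (nat_lit 58, nat_lit 22817804352), (nat_lit 106, nat_lit 22801031232), (nat_lit 106, nat_lit 23874768960), (nat_lit 75, nat_lit 23857995840), (nat_lit 9, nat_lit 24931733568), (nat_lit 100, nat_lit 24914960448), (nat_lit 57, nat_lit 25988698176)]⟩],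
  [W_19562762240, W_19545989120]⟩
theorem C_19630137408 : chkRec R_19630137408 = true := by decide +kernel

noncomputable def R_19630141440 : Rec := ⟨nat_lit 19630141440, nat_lit 5,
  [⟨V6_19579797504, [(nat_lit 78, nat_lit 19630141440), (nat_lit 62, nat_lit 20703879168), (nat_lit 79, nat_lit 20687106048), (nat_lit 25, nat_lit 21777616896), (nat_lit 86, nat_lit 21760843776), (nat_lit 38, nat_lit 21744070656), (nat_lit 40, nat_lit 22851354624), (nat_lit 111, nat_lit 22834581504), (nat_lit 12, nat_lit 22817808384), (nat_lit 14, nat_lit 22801035264), (nat_lit 24, nat_lit 23908319232), (nat_lit 46, nat_lit 23891546112), (nat_lit 27, nat_lit 23874772992), (nat_lit 57, nat_lit 24965283840), (nat_lit 80, nat_lit 24948510720), (nat_lit 53, nat_lit 26022248448)]⟩],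
  [W_19512700928]⟩
theorem C_19630141440 : chkRec R_19630141440 = true := by decide +kernel

noncomputable def R_19630395456 : Rec := ⟨nat_lit 19630395456, nat_lit 9,
  [⟨V6_19529732160, [(nat_lit 18, nat_lit 19630395456), (nat_lit 73, nat_lit 20687360064), (nat_lit 90, nat_lit 21744324672), (nat_lit 37, nat_lit 22801289280), (nat_lit 54, nat_lit 23858253888), (nat_lit 109, nat_lit 24915218496), (nat_lit 57, nat_lit 25972183104)]⟩],
  [W_19579277312, W_19562762240]⟩
theorem C_19630395456 : chkRec R_19630395456 = true := by decide +kernel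

noncomputable def R_19630399488 : Rec := ⟨nat_lit 19630399488, nat_lit 27,
  [⟨V6_19596312576, [(nat_lit 69, nat_lit 19630399488), (nat_lit 43, nat_lit 20704137216), (nat_lit 39, nat_lit 20703879168), (nat_lit 26, nat_lit 20687364096), (nat_lit 58, nat_lit 21777874944), (nat_lit 115, nat_lit 21777616896), (nat_lit 108, nat_lit 21777358848), (nat_lit 66, nat_lit 21761101824), (nat_lit 72, nat_lit 21760843776), (nat_lit 80, nat_lit 21744328704), (nat_lit 4, nat_lit 22851354624), (nat_lit 112, nat_lit 22851096576), (nat_lit 62, nat_lit 22834839552), (nat_lit 20, nat_lit 22834581504), (nat_lit 8, nat_lit 22834323456), (nat_lit 124, nat_lit 22818066432), (nat_lit 7, nat_lit 22817808384), (nat_lit 85, nat_lit 23924834304), (nat_lit 38, nat_lit 23908319232), (nat_lit 50, nat_lit 23908061184), (nat_lit 46, nat_lit 23891804160), (nat_lit 13, nat_lit 23891546112), (nat_lit 100, nat_lit 23891288064), (nat_lit 91, nat_lit 24981798912), (nat_lit 95, nat_lit 24965283840), (nat_lit 42, nat_lit 24965025792), (nat_lit 40, nat_lit 26038763520)]⟩,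
   ⟨V6_19562766336, [(nat_lit 32, nat_lit 19630399488), (nat_lit 39, nat_lit 20703879168), (nat_lit 46, nat_lit 20687364096), (nat_lit 10, nat_lit 21777358848), (nat_lit 28, nat_lit 21760843776), (nat_lit 20, nat_lit 21744328704), (nat_lit 86, nat_lit 22834323456), (nat_lit 102, nat_lit 22817808384), (nat_lit 8, nat_lit 22801293312), (nat_lit 18, nat_lit 23891288064), (nat_lit 61, nat_lit 23874772992), (nat_lit 32, nat_lit 23858257920), (nat_lit 53, nat_lit 24948252672), (nat_lit 37, nat_lit 24931737600), (nat_lit 96, nat_lit 26005217280)]⟩],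
  [W_19529732096, W_19529474048]⟩
theorem C_19630399488 : chkRec R_19630399488 = true := by decide +kernel

noncomputable def R_19630657536 : Rec := ⟨nat_lit 19630657536, nat_lit 21,
  [⟨V6_19612827648, [(nat_lit 31, nat_lit 19630657536), (nat_lit 3, nat_lit 20704395264), (nat_lit 2, nat_lit 20704137216), (nat_lit 43, nat_lit 20687622144), (nat_lit 34, nat_lit 21777874944), (nat_lit 49, nat_lit 21777616896), (nat_lit 66, nat_lit 21761359872), (nat_lit 48, nat_lit 21761101824), (nat_lit 8, nat_lit 22851354624), (nat_lit 12, nat_lit 22851096576), (nat_lit 124, nat_lit 22834839552), (nat_lit 70, nat_lit 22834581504), (nat_lit 67, nat_lit 23924834304), (nat_lit 53, nat_lit 23924576256), (nat_lit 80, nat_lit 23908319232), (nat_lit 125, nat_lit 23908061184), (nat_lit 70, nat_lit 24998313984), (nat_lit 70, nat_lit 24981798912), (nat_lit 126, nat_lit 24981540864), (nat_lit 89, nat_lit 26055278592)]⟩,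
   ⟨V6_19596312576, [(nat_lit 103, nat_lit 19630657536), (nat_lit 12, nat_lit 20704395264), (nat_lit 15, nat_lit 20704137216), (nat_lit 45, nat_lit 20687622144), (nat_lit 16, nat_lit 21777874944), (nat_lit 37, nat_lit 21777616896), (nat_lit 33, nat_lit 21761359872), (nat_lit 45, nat_lit 21761101824), (nat_lit 101, nat_lit 21744586752), (nat_lit 50, nat_lit 22851354624), (nat_lit 26, nat_lit 22851096576), (nat_lit 82, nat_lit 22834839552), (nat_lit 120, nat_lit 22834581504), (nat_lit 96, nat_lit 22818324480), (nat_lit 57, nat_lit 22818066432), (nat_lit 79, nat_lit 23924834304), (nat_lit 126, nat_lit 23908319232), (nat_lit 100, nat_lit 23908061184), (nat_lit 25, nat_lit 23891804160), (nat_lit 87, nat_lit 23891546112), (nat_lit 7, nat_lit 24981798912), (nat_lit 112, nat_lit 24965283840), (nat_lit 123, nat_lit 24965025792), (nat_lit 38, nat_lit 26038763520)]⟩,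
   ⟨V6_19579797504, [(nat_lit 74, nat_lit 19630657536), (nat_lit 15, nat_lit 20704395264), (nat_lit 37, nat_lit 20704137216), (nat_lit 88, nat_lit 20687622144), (nat_lit 111, nat_lit 21777874944), (nat_lit 5, nat_lit 21777616896), (nat_lit 118, nat_lit 21761359872), (nat_lit 82, nat_lit 21761101824), (nat_lit 74, nat_lit 21744586752), (nat_lit 16, nat_lit 22851354624), (nat_lit 71, nat_lit 22834839552), (nat_lit 13, nat_lit 22834581504), (nat_lit 101, nat_lit 22818324480), (nat_lit 36, nat_lit 22818066432), (nat_lit 78, nat_lit 22801551360), (nat_lit 88, nat_lit 23908319232), (nat_lit 16, nat_lit 23891804160), (nat_lit 103, nat_lit 23891546112), (nat_lit 100, nat_lit 23875289088), (nat_lit 12, nat_lit 23875031040), (nat_lit 62, nat_lit 24965283840), (nat_lit 3, nat_lit 24948768768), (nat_lit 125, nat_lit 24948510720), (nat_lit 118, nat_lit 26022248448)]⟩],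
  [W_19529732096]⟩
theorem C_19630657536 : chkRec R_19630657536 = true := by decide +kernel

noncomputable def R_19630915584 : Rec := ⟨nat_lit 19630915584, nat_lit 19,
  [⟨V6_19596312576, [(nat_lit 54, nat_lit 19630915584), (nat_lit 101, nat_lit 20704395264), (nat_lit 115, nat_lit 20687880192), (nat_lit 20, nat_lit 21777874944), (nat_lit 72, nat_lit 21761359872), (nat_lit 90, nat_lit 21744844800), (nat_lit 63, nat_lit 22851354624), (nat_lit 30, nat_lit 22834839552), (nat_lit 93, nat_lit 22818324480), (nat_lit 112, nat_lit 23924834304), (nat_lit 85, nat_lit 23908319232), (nat_lit 97, nat_lit 23891804160), (nat_lit 20, nat_lit 24981798912), (nat_lit 9, nat_lit 24965283840), (nat_lit 14, nat_lit 26038763520)]⟩,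
   ⟨V6_19579797504, [(nat_lit 99, nat_lit 19630915584), (nat_lit 31, nat_lit 20704395264), (nat_lit 81, nat_lit 20687880192), (nat_lit 107, nat_lit 21777874944), (nat_lit 15, nat_lit 21761359872), (nat_lit 123, nat_lit 21744844800), (nat_lit 10, nat_lit 22851354624), (nat_lit 122, nat_lit 22834839552), (nat_lit 78, nat_lit 22818324480), (nat_lit 59, nat_lit 22801809408), (nat_lit 13, nat_lit 23908319232), (nat_lit 57, nat_lit 23891804160), (nat_lit 48, nat_lit 23875289088), (nat_lit 39, nat_lit 24965283840), (nat_lit 91, nat_lit 24948768768), (nat_lit 54, nat_lit 26022248448)]⟩],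
  [W_19579535360, W_19563020288]⟩
theorem C_19630915584 : chkRec R_19630915584 = true := by decide +kernel

noncomputable def R_20503347459 : Rec := ⟨nat_lit 20503347459, nat_lit 1,
  [⟨V6_14060896515, [(nat_lit 72, nat_lit 20503347459)]⟩],
  [W_19429081280]⟩
theorem C_20503347459 : chkRec R_20503347459 = true := by decide +kernel

noncomputable def R_20503351554 : Rec := ⟨nat_lit 20503351554, nat_lit 1,
  [⟨V6_14060900610, [(nat_lit 30, nat_lit 20503351554)]⟩],
  [W_19429343360]⟩
theorem C_20503351554 : chkRec R_20503351554 = true := by decide +kernel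

noncomputable def R_20503355586 : Rec := ⟨nat_lit 20503355586, nat_lit 2,
  [⟨V6_14060904642, [(nat_lit 93, nat_lit 20503355586)]⟩],
  [W_19429601408]⟩
theorem C_20503355586 : chkRec R_20503355586 = true := by decide +kernel

noncomputable def R_20503355649 : Rec := ⟨nat_lit 20503355649, nat_lit 4,
  [⟨V6_16208380161, [(nat_lit 88, nat_lit 20503355649), (nat_lit 70, nat_lit 21577093377), (nat_lit 10, nat_lit 22650831105)]⟩],
  [W_17282129984, W_16208388224]⟩
theorem C_20503355649 : chkRec R_20503355649 = true := by decide +kernel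

noncomputable def R_20503355712 : Rec := ⟨nat_lit 20503355712, nat_lit 3,
  [⟨V6_14060904768, [(nat_lit 114, nat_lit 20503355712)]⟩],
  [W_19429609472]⟩
theorem C_20503355712 : chkRec R_20503355712 = true := by decide +kernel

noncomputable def R_20519600388 : Rec := ⟨nat_lit 20519600388, nat_lit 1,
  [⟨V6_17248043268, [(nat_lit 64, nat_lit 20519600388), (nat_lit 8, nat_lit 21576564996), (nat_lit 28, nat_lit 22633529604), (nat_lit 120, nat_lit 23690494212)]⟩],
  [W_20469268736]⟩
theorem C_20519600388 : chkRec R_20519600388 = true := by decide +kernel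

noncomputable def R_20519862531 : Rec := ⟨nat_lit 20519862531, nat_lit 1,
  [⟨V6_16207855875, [(nat_lit 13, nat_lit 20519862531), (nat_lit 91, nat_lit 21593342211), (nat_lit 7, nat_lit 21576827139), (nat_lit 71, nat_lit 22650306819)]⟩],
  [W_19429081280]⟩
theorem C_20519862531 : chkRec R_20519862531 = true := by decide +kernel

noncomputable def R_20520124611 : Rec := ⟨nat_lit 20520124611, nat_lit 1,
  [⟨V6_18355859649, [(nat_lit 106, nat_lit 20520124611), (nat_lit 76, nat_lit 21593866434), (nat_lit 57, nat_lit 21593862339), (nat_lit 120, nat_lit 21577089219), (nat_lit 70, nat_lit 22667608257), (nat_lit 31, nat_lit 22667604162), (nat_lit 17, nat_lit 22650831042), (nat_lit 78, nat_lit 22650826947), (nat_lit 26, nat_lit 23741345985), (nat_lit 24, nat_lit 23724572865), (nat_lit 118, nat_lit 23724568770), (nat_lit 100, nat_lit 24798310593)]⟩],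
  [W_19429081280]⟩
theorem C_20520124611 : chkRec R_20520124611 = true := by decide +kernel

noncomputable def R_20520124674 : Rec := ⟨nat_lit 20520124674, nat_lit 5,
  [⟨V6_16208380161, [(nat_lit 35, nat_lit 20520124674), (nat_lit 64, nat_lit 21593866497), (nat_lit 102, nat_lit 21577089282), (nat_lit 117, nat_lit 22650831105)]⟩,
   ⟨V6_15134638338, [(nat_lit 40, nat_lit 20520124674), (nat_lit 86, nat_lit 21577089282)]⟩],
  [W_20502823040, W_19445858432, W_19429081280]⟩
theorem C_20520124674 : chkRec R_20520124674 = true := by decide +kernel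

noncomputable def R_20520128706 : Rec := ⟨nat_lit 20520128706, nat_lit 5,
  [⟨V6_15151419522, [(nat_lit 113, nat_lit 20520128706), (nat_lit 10, nat_lit 21593870466)]⟩,
   ⟨V6_15151157442, [(nat_lit 5, nat_lit 20520128706), (nat_lit 108, nat_lit 21593608386)]⟩,
   ⟨V6_15134642370, [(nat_lit 61, nat_lit 20520128706), (nat_lit 74, nat_lit 21577093314)]⟩],
  [W_20503081088, W_19429601408, W_19429343360, W_18372374720]⟩
theorem C_20520128706 : chkRec R_20520128706 = true := by decide +kernel

noncomputable def R_20520128769 : Rec := ⟨nat_lit 20520128769, nat_lit 6,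
  [⟨V6_16208380161, [(nat_lit 52, nat_lit 20520128769), (nat_lit 120, nat_lit 21593866497), (nat_lit 58, nat_lit 21577093377), (nat_lit 6, nat_lit 22650831105)]⟩,
   ⟨V6_15151157505, [(nat_lit 96, nat_lit 20520128769), (nat_lit 67, nat_lit 21593608449)]⟩,
   ⟨V6_15134642433, [(nat_lit 6, nat_lit 20520128769), (nat_lit 51, nat_lit 21577093377)]⟩],
  [W_20503085120, W_19446120512, W_18372382784]⟩
theorem C_20520128769 : chkRec R_20520128769 = true := by decide +kernel

noncomputable def R_20520128832 : Rec := ⟨nat_lit 20520128832, nat_lit 2,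
  [⟨V6_14077677888, [(nat_lit 28, nat_lit 20520128832)]⟩],
  [W_19429609472]⟩
theorem C_20520128832 : chkRec R_20520128832 = true := by decide +kernel

noncomputable def R_20520132738 : Rec := ⟨nat_lit 20520132738, nat_lit 5,
  [⟨V6_15134646402, [(nat_lit 107, nat_lit 20520132738), (nat_lit 84, nat_lit 21577097346)]⟩,
   ⟨V6_14077681794, [(nat_lit 32, nat_lit 20520132738)]⟩],
  [W_20503339136, W_19429601408]⟩
theorem C_20520132738 : chkRec R_20520132738 = true := by decide +kernel

noncomputable def R_20520132801 : Rec := ⟨nat_lit 20520132801, nat_lit 9,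
  [⟨V6_16225165377, [(nat_lit 100, nat_lit 20520132801), (nat_lit 23, nat_lit 21593874561), (nat_lit 121, nat_lit 22667616321)]⟩,
   ⟨V6_15134646465, [(nat_lit 5, nat_lit 20520132801), (nat_lit 106, nat_lit 21577097409)]⟩],
  [W_19446378560, W_19429601408, W_17298895040]⟩
theorem C_20520132801 : chkRec R_20520132801 = true := by decide +kernel

noncomputable def R_20520132864 : Rec := ⟨nat_lit 20520132864, nat_lit 14,
  [⟨V6_19429613568, [(nat_lit 27, nat_lit 20520132864), (nat_lit 46, nat_lit 21593874624), (nat_lit 34, nat_lit 21577097472), (nat_lit 102, nat_lit 22667616384), (nat_lit 62, nat_lit 22650839232), (nat_lit 96, nat_lit 23741358144), (nat_lit 101, nat_lit 23724580992), (nat_lit 102, nat_lit 24815099904), (nat_lit 17, nat_lit 24798322752), (nat_lit 93, nat_lit 25872064512)]⟩,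
   ⟨V6_15134646528, [(nat_lit 4, nat_lit 20520132864), (nat_lit 34, nat_lit 21577097472)]⟩],
  [W_19446382592, W_17298899072]⟩
theorem C_20520132864 : chkRec R_20520132864 = true := by decide +kernel

noncomputable def R_20520382659 : Rec := ⟨nat_lit 20520382659, nat_lit 1,
  [⟨V6_14077931715, [(nat_lit 80, nat_lit 20520382659)]⟩],
  [W_18372374720]⟩
theorem C_20520382659 : chkRec R_20520382659 = true := by decide +kernel

noncomputable def R_20520386754 : Rec := ⟨nat_lit 20520386754, nat_lit 4,
  [⟨V6_15151677633, [(nat_lit 10, nat_lit 20520386754), (nat_lit 92, nat_lit 21594128577)]⟩],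
  [W_20519596160, W_19445858432]⟩
theorem C_20520386754 : chkRec R_20520386754 = true := by decide +kernel

noncomputable def R_20520386817 : Rec := ⟨nat_lit 20520386817, nat_lit 6,
  [⟨V6_15151677633, [(nat_lit 116, nat_lit 20520386817), (nat_lit 122, nat_lit 21594128577)]⟩],
  [W_20519600192, W_19446120512, W_17298374912]⟩
theorem C_20520386817 : chkRec R_20520386817 = true := by decide +kernel

noncomputable def R_20520390786 : Rec := ⟨nat_lit 20520390786, nat_lit 2,
  [⟨V6_15151419522, [(nat_lit 66, nat_lit 20520390786), (nat_lit 62, nat_lit 21593870466)]⟩],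
  [W_19446374528]⟩
theorem C_20520390786 : chkRec R_20520390786 = true := by decide +kernel

noncomputable def R_20520390849 : Rec := ⟨nat_lit 20520390849, nat_lit 9,
  [⟨V6_16225415361, [(nat_lit 108, nat_lit 20520390849), (nat_lit 98, nat_lit 21594128577), (nat_lit 4, nat_lit 22667866305)]⟩,
   ⟨V6_14077939905, [(nat_lit 71, nat_lit 20520390849)]⟩],
  [W_19446378560, W_19446120512]⟩
theorem C_20520390849 : chkRec R_20520390849 = true := by decide +kernel

noncomputable def R_20520390912 : Rec := ⟨nat_lit 20520390912, nat_lit 9,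
  [⟨V6_15151681728, [(nat_lit 114, nat_lit 20520390912), (nat_lit 98, nat_lit 21594132672)]⟩],
  [W_19446382592, W_19446120512]⟩
theorem C_20520390912 : chkRec R_20520390912 = true := by decide +kernel

noncomputable def R_20520394881 : Rec := ⟨nat_lit 20520394881, nat_lit 8,
  [⟨V6_15151685697, [(nat_lit 25, nat_lit 20520394881), (nat_lit 28, nat_lit 21594136641)]⟩,
   ⟨V6_15151681665, [(nat_lit 26, nat_lit 20520394881), (nat_lit 28, nat_lit 21594132609)]⟩],
  [W_20520116288, W_19446378560]⟩
theorem C_20520394881 : chkRec R_20520394881 = true := by decide +kernel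

noncomputable def R_20520394944 : Rec := ⟨nat_lit 20520394944, nat_lit 14,
  [⟨V6_17299169280, [(nat_lit 91, nat_lit 20520394944), (nat_lit 33, nat_lit 21594136704), (nat_lit 100, nat_lit 22667878464), (nat_lit 24, nat_lit 23741620224)]⟩,
   ⟨V6_15151681728, [(nat_lit 102, nat_lit 20520394944), (nat_lit 61, nat_lit 21594132672)]⟩],
  [W_19446382592, W_19446378560]⟩
theorem C_20520394944 : chkRec R_20520394944 = true := by decide +kernel

noncomputable def R_20520398913 : Rec := ⟨nat_lit 20520398913, nat_lit 3,
  [⟨V6_15151685697, [(nat_lit 21, nat_lit 20520398913), (nat_lit 98, nat_lit 21594136641)]⟩],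
  [W_20520374336]⟩
theorem C_20520398913 : chkRec R_20520398913 = true := by decide +kernel

noncomputable def R_20520398976 : Rec := ⟨nat_lit 20520398976, nat_lit 3,
  [⟨V6_16225431552, [(nat_lit 21, nat_lit 20520398976), (nat_lit 83, nat_lit 21594140736), (nat_lit 89, nat_lit 22667882496)]⟩,
   ⟨V6_14077948032, [(nat_lit 49, nat_lit 20520398976)]⟩],
  [W_20520378368, W_19446636608]⟩
theorem C_20520398976 : chkRec R_20520398976 = true := by decide +kernel

noncomputable def R_20536377603 : Rec := ⟨nat_lit 20536377603, nat_lit 2,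
  [⟨V6_19395526914, [(nat_lit 70, nat_lit 20536377603), (nat_lit 125, nat_lit 21610119426), (nat_lit 32, nat_lit 21593342211), (nat_lit 76, nat_lit 22667084034), (nat_lit 117, nat_lit 22650306819), (nat_lit 119, nat_lit 23724048642), (nat_lit 57, nat_lit 23707271427), (nat_lit 91, nat_lit 24781013250), (nat_lit 43, nat_lit 24764236035), (nat_lit 92, nat_lit 25837977858)]⟩,
   ⟨V6_16207855875, [(nat_lit 30, nat_lit 20536377603), (nat_lit 51, nat_lit 21593342211), (nat_lit 97, nat_lit 22650306819)]⟩],
  [W_17315152064]⟩
theorem C_20536377603 : chkRec R_20536377603 = true := by decide +kernel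

noncomputable def R_20536639683 : Rec := ⟨nat_lit 20536639683, nat_lit 1,
  [⟨V6_16241668290, [(nat_lit 60, nat_lit 20536639683), (nat_lit 73, nat_lit 21610381506), (nat_lit 48, nat_lit 21610377411), (nat_lit 53, nat_lit 22684119234)]⟩],
  [W_19429081280]⟩
theorem C_20536639683 : chkRec R_20536639683 = true := by decide +kernel

noncomputable def R_20536639746 : Rec := ⟨nat_lit 20536639746, nat_lit 5,
  [⟨V6_17315152065, [(nat_lit 86, nat_lit 20536639746), (nat_lit 9, nat_lit 21610381569), (nat_lit 111, nat_lit 21610381506), (nat_lit 33, nat_lit 21610119426), (nat_lit 69, nat_lit 22684123329), (nat_lit 113, nat_lit 22683861249), (nat_lit 126, nat_lit 22683861186), (nat_lit 38, nat_lit 23757603009)]⟩],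
  [W_20502823040, W_19445858432, W_18355339520]⟩
theorem C_20536639746 : chkRec R_20536639746 = true := by decide +kernel

noncomputable def R_20536643778 : Rec := ⟨nat_lit 20536643778, nat_lit 2,
  [⟨V6_16241668290, [(nat_lit 104, nat_lit 20536643778), (nat_lit 5, nat_lit 21610381506), (nat_lit 65, nat_lit 22684119234)]⟩,
   ⟨V6_15151157442, [(nat_lit 123, nat_lit 20536643778), (nat_lit 51, nat_lit 21593608386)]⟩],
  [W_20503081088, W_19429343360]⟩
theorem C_20536643778 : chkRec R_20536643778 = true := by decide +kernel

noncomputable def R_20536643841 : Rec := ⟨nat_lit 20536643841, nat_lit 4,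
  [⟨V6_19429347393, [(nat_lit 27, nat_lit 20536643841), (nat_lit 84, nat_lit 21610385601), (nat_lit 38, nat_lit 21593608449), (nat_lit 70, nat_lit 22684127361), (nat_lit 76, nat_lit 22667350209), (nat_lit 30, nat_lit 22650573057), (nat_lit 16, nat_lit 23757869121), (nat_lit 106, nat_lit 23741091969), (nat_lit 98, nat_lit 23724314817), (nat_lit 18, nat_lit 24814833729), (nat_lit 11, nat_lit 24798056577), (nat_lit 82, nat_lit 25871798337)]⟩,
   ⟨V6_16224899265, [(nat_lit 87, nat_lit 20536643841), (nat_lit 62, nat_lit 21610385601), (nat_lit 70, nat_lit 21593608449), (nat_lit 89, nat_lit 22667350209)]⟩],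
  [W_20503085120, W_17315418176]⟩
theorem C_20536643841 : chkRec R_20536643841 = true := by decide +kernel

noncomputable def R_20536901826 : Rec := ⟨nat_lit 20536901826, nat_lit 12,
  [⟨V6_19462631616, [(nat_lit 119, nat_lit 20536901826), (nat_lit 52, nat_lit 21610643649), (nat_lit 37, nat_lit 21610639554), (nat_lit 24, nat_lit 21610381506), (nat_lit 100, nat_lit 22684385472), (nat_lit 116, nat_lit 22684381377), (nat_lit 63, nat_lit 22684123329), (nat_lit 18, nat_lit 22684119234), (nat_lit 61, nat_lit 22683861186), (nat_lit 107, nat_lit 23758123200), (nat_lit 84, nat_lit 23757865152), (nat_lit 25, nat_lit 23757861057), (nat_lit 25, nat_lit 23757603009), (nat_lit 61, nat_lit 23757598914), (nat_lit 70, nat_lit 24831602880), (nat_lit 94, nat_lit 24831344832), (nat_lit 69, nat_lit 24831340737), (nat_lit 48, nat_lit 25905082560)]⟩,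
   ⟨V6_17315152065, [(nat_lit 122, nat_lit 20536901826), (nat_lit 70, nat_lit 21610643649), (nat_lit 63, nat_lit 21610381506), (nat_lit 68, nat_lit 22684123329), (nat_lit 41, nat_lit 22683861186), (nat_lit 45, nat_lit 23757603009)]⟩,
   ⟨V6_16241668290, [(nat_lit 64, nat_lit 20536901826), (nat_lit 51, nat_lit 21610639554), (nat_lit 26, nat_lit 21610381506), (nat_lit 126, nat_lit 22684119234)]⟩],
  [W_20519596160, W_20502823040, W_19446116480, W_19429601408, W_18355863680, W_17282121920]⟩
theorem C_20536901826 : chkRec R_20536901826 = true := by decide +kernel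

noncomputable def R_20536901889 : Rec := ⟨nat_lit 20536901889, nat_lit 18,
  [⟨V6_19462635585, [(nat_lit 93, nat_lit 20536901889), (nat_lit 84, nat_lit 21610643649), (nat_lit 120, nat_lit 21610381569), (nat_lit 56, nat_lit 22684385409), (nat_lit 5, nat_lit 22684123329), (nat_lit 51, nat_lit 22683861249), (nat_lit 40, nat_lit 23758127169), (nat_lit 7, nat_lit 23757865089), (nat_lit 52, nat_lit 23757603009), (nat_lit 114, nat_lit 24831606849), (nat_lit 15, nat_lit 24831344769), (nat_lit 5, nat_lit 25905086529)]⟩,
   ⟨V6_18372116736, [(nat_lit 93, nat_lit 20536901889), (nat_lit 91, nat_lit 21610643712), (nat_lit 97, nat_lit 21610381569), (nat_lit 44, nat_lit 21593866497), (nat_lit 99, nat_lit 22684123392), (nat_lit 33, nat_lit 22683861249), (nat_lit 41, nat_lit 22667608320), (nat_lit 25, nat_lit 22667346177), (nat_lit 96, nat_lit 23757603072), (nat_lit 20, nat_lit 23741088000), (nat_lit 13, nat_lit 23740825857), (nat_lit 72, nat_lit 24814567680)]⟩,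
   ⟨V6_17315152065, [(nat_lit 59, nat_lit 20536901889), (nat_lit 78, nat_lit 21610643649), (nat_lit 64, nat_lit 21610381569), (nat_lit 98, nat_lit 22684123329), (nat_lit 62, nat_lit 22683861249), (nat_lit 82, nat_lit 23757603009)]⟩],
  [W_20519600192, W_19429605440, W_18372640832, W_18355863680, W_17282121920, W_16208380160]⟩
theorem C_20536901889 : chkRec R_20536901889 = true := by decide +kernel

noncomputable def R_20536905858 : Rec := ⟨nat_lit 20536905858, nat_lit 12,
  [⟨V6_18389409921, [(nat_lit 29, nat_lit 20536905858), (nat_lit 12, nat_lit 21610647681), (nat_lit 40, nat_lit 21610643586), (nat_lit 26, nat_lit 22684385409), (nat_lit 125, nat_lit 22684381314), (nat_lit 2, nat_lit 23758123137), (nat_lit 108, nat_lit 23758119042), (nat_lit 69, nat_lit 24831860865)]⟩],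
  [W_20503339136, W_20503081088, W_19462889600, W_19429601408, W_19429343360]⟩
theorem C_20536905858 : chkRec R_20536905858 = true := by decide +kernel

noncomputable def R_20536905921 : Rec := ⟨nat_lit 20536905921, nat_lit 22,
  [⟨V6_17282125953, [(nat_lit 116, nat_lit 20536905921), (nat_lit 111, nat_lit 21610647681), (nat_lit 44, nat_lit 21593870529), (nat_lit 63, nat_lit 22667612289), (nat_lit 122, nat_lit 22650835137), (nat_lit 69, nat_lit 23724576897)]⟩,
   ⟨V6_16225161408, [(nat_lit 74, nat_lit 20536905921), (nat_lit 118, nat_lit 21610647744), (nat_lit 64, nat_lit 21593870529), (nat_lit 10, nat_lit 22667612352)]⟩,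
   ⟨V6_16208384193, [(nat_lit 98, nat_lit 20536905921), (nat_lit 65, nat_lit 21593870529), (nat_lit 29, nat_lit 22650835137)]⟩],
  [W_20519858240, W_20503343168, W_20503085120, W_20503081088, W_19446378560, W_18389413952]⟩
theorem C_20536905921 : chkRec R_20536905921 = true := by decide +kernel

noncomputable def R_20536905984 : Rec := ⟨nat_lit 20536905984, nat_lit 28,
  [⟨V6_18389422080, [(nat_lit 55, nat_lit 20536905984), (nat_lit 67, nat_lit 21610647744), (nat_lit 59, nat_lit 22684389504), (nat_lit 43, nat_lit 23758131264), (nat_lit 79, nat_lit 24831873024)]⟩],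
  [W_20519862272, W_20503347200, W_20503085120, W_19462897664, W_18355863680, W_16208380160, W_15167930624, W_14094450944]⟩
theorem C_20536905984 : chkRec R_20536905984 = true := by decide +kernel

noncomputable def R_20536909953 : Rec := ⟨nat_lit 20536909953, nat_lit 23,
  [⟨V6_18389409921, [(nat_lit 6, nat_lit 20536909953), (nat_lit 40, nat_lit 21610647681), (nat_lit 77, nat_lit 22684385409), (nat_lit 86, nat_lit 23758123137), (nat_lit 23, nat_lit 24831860865)]⟩,
   ⟨V6_17282125953, [(nat_lit 51, nat_lit 20536909953), (nat_lit 44, nat_lit 21610647681), (nat_lit 112, nat_lit 21593874561), (nat_lit 36, nat_lit 22667612289), (nat_lit 116, nat_lit 22650839169), (nat_lit 17, nat_lit 23724576897)]⟩,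
   ⟨V6_16225165377, [(nat_lit 38, nat_lit 20536909953), (nat_lit 56, nat_lit 21610651713), (nat_lit 50, nat_lit 21593874561), (nat_lit 98, nat_lit 22667616321)]⟩],
  [W_19463151680, W_19446378560, W_15168200768]⟩
theorem C_20536909953 : chkRec R_20536909953 = true := by decide +kernel

noncomputable def R_20536910016 : Rec := ⟨nat_lit 20536910016, nat_lit 38,
  [⟨V6_17315684352, [(nat_lit 104, nat_lit 20536910016), (nat_lit 74, nat_lit 21610651776), (nat_lit 78, nat_lit 22684393536), (nat_lit 100, nat_lit 23758135296)]⟩,
   ⟨V6_16225161408, [(nat_lit 109, nat_lit 20536910016), (nat_lit 17, nat_lit 21610647744), (nat_lit 92, nat_lit 21593874624), (nat_lit 87, nat_lit 22667612352)]⟩],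
  [W_20520120320, W_20503347200, W_20503343168, W_19463155712, W_19446382592, W_19429601408, W_18355871744, W_17282129984]⟩
theorem C_20536910016 : chkRec R_20536910016 = true := by decide +kernel

noncomputable def R_20537159874 : Rec := ⟨nat_lit 20537159874, nat_lit 4,
  [⟨V6_16225415361, [(nat_lit 107, nat_lit 20537159874), (nat_lit 119, nat_lit 21610901697), (nat_lit 121, nat_lit 21594124482), (nat_lit 63, nat_lit 22667866305)]⟩],
  [W_20519596160, W_19462631552]⟩
theorem C_20537159874 : chkRec R_20537159874 = true := by decide +kernel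

noncomputable def R_20537163906 : Rec := ⟨nat_lit 20537163906, nat_lit 14,
  [⟨V6_18372894849, [(nat_lit 92, nat_lit 20537163906), (nat_lit 91, nat_lit 21610905729), (nat_lit 77, nat_lit 21610901634), (nat_lit 46, nat_lit 21594128514), (nat_lit 54, nat_lit 22684643457), (nat_lit 115, nat_lit 22684639362), (nat_lit 28, nat_lit 22667870337), (nat_lit 65, nat_lit 22667866242), (nat_lit 73, nat_lit 23758381185), (nat_lit 33, nat_lit 23741608065), (nat_lit 108, nat_lit 23741603970), (nat_lit 6, nat_lit 24815345793)]⟩,
   ⟨V6_17315930241, [(nat_lit 118, nat_lit 20537163906), (nat_lit 12, nat_lit 21610905729), (nat_lit 108, nat_lit 21610901634), (nat_lit 75, nat_lit 22684643457), (nat_lit 44, nat_lit 22684639362), (nat_lit 82, nat_lit 23758381185)]⟩],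
  [W_20536369280, W_20519596160, W_19462889600, W_19446116480, W_18372378752]⟩
theorem C_20537163906 : chkRec R_20537163906 = true := by decide +kernel

noncomputable def R_20537163969 : Rec := ⟨nat_lit 20537163969, nat_lit 28,
  [⟨V6_17299161153, [(nat_lit 80, nat_lit 20537163969), (nat_lit 56, nat_lit 21610905729), (nat_lit 48, nat_lit 21594128577), (nat_lit 72, nat_lit 22684647489), (nat_lit 68, nat_lit 22667870337), (nat_lit 35, nat_lit 23741612097)]⟩,
   ⟨V6_16225419456, [(nat_lit 71, nat_lit 20537163969), (nat_lit 48, nat_lit 21610905792), (nat_lit 82, nat_lit 21594128577), (nat_lit 116, nat_lit 22667870400)]⟩,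
   ⟨V6_15151677633, [(nat_lit 110, nat_lit 20537163969), (nat_lit 58, nat_lit 21594128577)]⟩],
  [W_20536373312, W_20519858240, W_20519596160, W_19462635584, W_19462631552, W_19446378560, W_19446120512, W_18372374720]⟩
theorem C_20537163969 : chkRec R_20537163969 = true := by decide +kernel

noncomputable def R_20537164032 : Rec := ⟨nat_lit 20537164032, nat_lit 31,
  [⟨V6_19446644736, [(nat_lit 68, nat_lit 20537164032), (nat_lit 124, nat_lit 21610905792), (nat_lit 31, nat_lit 21594128640), (nat_lit 75, nat_lit 22684647552), (nat_lit 23, nat_lit 22667870400), (nat_lit 34, nat_lit 23758389312), (nat_lit 67, nat_lit 23741612160), (nat_lit 59, nat_lit 24832131072), (nat_lit 102, nat_lit 24815353920), (nat_lit 21, nat_lit 25889095680)]⟩,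
   ⟨V6_18372116736, [(nat_lit 6, nat_lit 20537164032), (nat_lit 69, nat_lit 21610643712), (nat_lit 8, nat_lit 21594128640), (nat_lit 42, nat_lit 22684123392), (nat_lit 38, nat_lit 22667608320), (nat_lit 81, nat_lit 23757603072), (nat_lit 84, nat_lit 23741088000), (nat_lit 122, nat_lit 24814567680)]⟩,
   ⟨V6_16225419456, [(nat_lit 14, nat_lit 20537164032), (nat_lit 118, nat_lit 21610905792), (nat_lit 39, nat_lit 21594128640), (nat_lit 26, nat_lit 22667870400)]⟩],
  [W_19462635584, W_18389417984, W_17315938304]⟩
theorem C_20537164032 : chkRec R_20537164032 = true := by decide +kernel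

noncomputable def R_20537168001 : Rec := ⟨nat_lit 20537168001, nat_lit 34,
  [⟨V6_17299161153, [(nat_lit 61, nat_lit 20537168001), (nat_lit 36, nat_lit 21610909761), (nat_lit 9, nat_lit 21610905729), (nat_lit 100, nat_lit 21594132609), (nat_lit 4, nat_lit 22684647489), (nat_lit 66, nat_lit 22667874369), (nat_lit 6, nat_lit 22667870337), (nat_lit 117, nat_lit 23741612097)]⟩,
   ⟨V6_16225423488, [(nat_lit 44, nat_lit 20537168001), (nat_lit 53, nat_lit 21610909824), (nat_lit 117, nat_lit 21594132609), (nat_lit 54, nat_lit 22667874432)]⟩,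
   ⟨V6_16225423425, [(nat_lit 53, nat_lit 20537168001), (nat_lit 38, nat_lit 21610909761), (nat_lit 43, nat_lit 21594132609), (nat_lit 3, nat_lit 22667874369)]⟩,
   ⟨V6_15151681665, [(nat_lit 43, nat_lit 20537168001), (nat_lit 55, nat_lit 21594132609)]⟩],
  [W_20536631360, W_20519858240, W_19463151680, W_19462889600, W_19446378560, W_19446120512]⟩
theorem C_20537168001 : chkRec R_20537168001 = true := by decide +kernel

noncomputable def R_20537168064 : Rec := ⟨nat_lit 20537168064, nat_lit 52,
  [⟨V6_17315942400, [(nat_lit 112, nat_lit 20537168064), (nat_lit 109, nat_lit 21610909824), (nat_lit 84, nat_lit 22684651584), (nat_lit 10, nat_lit 23758393344)]⟩,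
   ⟨V6_16225161408, [(nat_lit 3, nat_lit 20537168064), (nat_lit 126, nat_lit 21610647744), (nat_lit 7, nat_lit 21594132672), (nat_lit 11, nat_lit 22667612352)]⟩,
   ⟨V6_15151681728, [(nat_lit 53, nat_lit 20537168064), (nat_lit 118, nat_lit 21594132672)]⟩],
  [W_20519858240, W_19463155712, W_19462897664, W_19446640640, W_19446382592, W_19446120512, W_19446116480, W_18372374720]⟩
theorem C_20537168064 : chkRec R_20537168064 = true := by decide +kernel

noncomputable def R_20537172033 : Rec := ⟨nat_lit 20537172033, nat_lit 21,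
  [⟨V6_20520374337, [(nat_lit 12, nat_lit 20537172033), (nat_lit 122, nat_lit 21610909761), (nat_lit 63, nat_lit 21594136641), (nat_lit 64, nat_lit 22684647489), (nat_lit 99, nat_lit 22667874369), (nat_lit 23, nat_lit 23758385217), (nat_lit 77, nat_lit 23741612097), (nat_lit 75, nat_lit 24832122945), (nat_lit 11, nat_lit 24815349825), (nat_lit 51, nat_lit 25905860673), (nat_lit 126, nat_lit 25889087553), (nat_lit 21, nat_lit 26962825281)]⟩,
   ⟨V6_16225427520, [(nat_lit 19, nat_lit 20537172033), (nat_lit 20, nat_lit 21610913856), (nat_lit 13, nat_lit 21594136641), (nat_lit 6, nat_lit 22667878464)]⟩,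
   ⟨V6_16225165377, [(nat_lit 55, nat_lit 20537172033), (nat_lit 24, nat_lit 21610651713), (nat_lit 86, nat_lit 21594136641), (nat_lit 117, nat_lit 22667616321)]⟩,
   ⟨V6_15151685697, [(nat_lit 124, nat_lit 20537172033), (nat_lit 70, nat_lit 21594136641)]⟩],
  [W_20520374336, W_20520116288, W_19463151680, W_14094721088]⟩
theorem C_20537172033 : chkRec R_20537172033 = true := by decide +kernel

noncomputable def R_20537172096 : Rec := ⟨nat_lit 20537172096, nat_lit 59,
  [⟨V6_17315684352, [(nat_lit 58, nat_lit 20537172096), (nat_lit 44, nat_lit 21610913856), (nat_lit 7, nat_lit 21610651776), (nat_lit 118, nat_lit 22684655616), (nat_lit 91, nat_lit 22684393536), (nat_lit 85, nat_lit 23758135296)]⟩,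
   ⟨V6_16225427520, [(nat_lit 109, nat_lit 20537172096), (nat_lit 47, nat_lit 21610913856), (nat_lit 110, nat_lit 21594136704), (nat_lit 114, nat_lit 22667878464)]⟩,
   ⟨V6_16225165440, [(nat_lit 105, nat_lit 20537172096), (nat_lit 92, nat_lit 21610651776), (nat_lit 118, nat_lit 21594136704), (nat_lit 4, nat_lit 22667616384)]⟩,
   ⟨V6_15151685760, [(nat_lit 79, nat_lit 20537172096), (nat_lit 104, nat_lit 21594136704)]⟩],
  [W_20520120320, W_20520116288, W_19463413760, W_19463155712, W_19446636608, W_19446382592, W_19446374528, W_18372902912, W_18372644864]⟩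
theorem C_20537172096 : chkRec R_20537172096 = true := by decide +kernel

noncomputable def R_20537176128 : Rec := ⟨nat_lit 20537176128, nat_lit 22,
  [⟨V6_16242204672, [(nat_lit 89, nat_lit 20537176128), (nat_lit 46, nat_lit 21610917888), (nat_lit 48, nat_lit 21610913856), (nat_lit 61, nat_lit 22684655616)]⟩,
   ⟨V6_14094725184, [(nat_lit 70, nat_lit 20537176128)]⟩],
  [W_20537151488, W_20520374336, W_19463409728, W_19446640640, W_14094725120]⟩
theorem C_20537176128 : chkRec R_20537176128 = true := by decide +kernel

noncomputable def R_20537421954 : Rec := ⟨nat_lit 20537421954, nat_lit 8,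
  [⟨V6_16242450561, [(nat_lit 9, nat_lit 20537421954), (nat_lit 45, nat_lit 21611163777), (nat_lit 118, nat_lit 21611159682), (nat_lit 124, nat_lit 22684901505)]⟩],
  [W_19462889600, W_19462631552]⟩
theorem C_20537421954 : chkRec R_20537421954 = true := by decide +kernel

noncomputable def R_20537422017 : Rec := ⟨nat_lit 20537422017, nat_lit 8,
  [⟨V6_20536111233, [(nat_lit 87, nat_lit 20537422017), (nat_lit 80, nat_lit 21611163777), (nat_lit 36, nat_lit 21610901697), (nat_lit 117, nat_lit 22684643457), (nat_lit 74, nat_lit 22684381377), (nat_lit 124, nat_lit 23758123137), (nat_lit 12, nat_lit 23757861057), (nat_lit 69, nat_lit 24831602817), (nat_lit 105, nat_lit 24831340737), (nat_lit 9, nat_lit 25905082497), (nat_lit 30, nat_lit 25904820417), (nat_lit 80, nat_lit 26978562177)]⟩,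
   ⟨V6_18388889793, [(nat_lit 123, nat_lit 20537422017), (nat_lit 67, nat_lit 21610901697), (nat_lit 72, nat_lit 22684381377), (nat_lit 88, nat_lit 23757861057), (nat_lit 79, nat_lit 24831340737)]⟩,
   ⟨V6_15168712896, [(nat_lit 107, nat_lit 20537422017), (nat_lit 15, nat_lit 21611163840)]⟩],
  [W_20536373312, W_19462893632]⟩
theorem C_20537422017 : chkRec R_20537422017 = true := by decide +kernel

noncomputable def R_20537426049 : Rec := ⟨nat_lit 20537426049, nat_lit 32,
  [⟨V6_17316192384, [(nat_lit 17, nat_lit 20537426049), (nat_lit 55, nat_lit 21611167872), (nat_lit 48, nat_lit 21611163777), (nat_lit 102, nat_lit 22684905600), (nat_lit 103, nat_lit 22684901505), (nat_lit 98, nat_lit 23758643328)]⟩,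
   ⟨V6_16242450561, [(nat_lit 29, nat_lit 20537426049), (nat_lit 111, nat_lit 21611163777), (nat_lit 6, nat_lit 22684901505)]⟩],
  [W_20536373312, W_19463151680, W_19462635584, W_18388893824, W_15168716864]⟩
theorem C_20537426049 : chkRec R_20537426049 = true := by decide +kernel

noncomputable def R_20537426112 : Rec := ⟨nat_lit 20537426112, nat_lit 43,
  [⟨V6_19462631616, [(nat_lit 9, nat_lit 20537426112), (nat_lit 104, nat_lit 21611163840), (nat_lit 119, nat_lit 21610905792), (nat_lit 26, nat_lit 22684643520), (nat_lit 13, nat_lit 22684385472), (nat_lit 65, nat_lit 23758123200), (nat_lit 4, nat_lit 23757865152), (nat_lit 86, nat_lit 24831602880), (nat_lit 107, nat_lit 24831344832), (nat_lit 104, nat_lit 25905082560)]⟩,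
   ⟨V6_17316200448, [(nat_lit 109, nat_lit 20537426112), (nat_lit 80, nat_lit 21611167872), (nat_lit 50, nat_lit 22684909632), (nat_lit 12, nat_lit 23758651392)]⟩],
  [W_19463155712, W_18389417984, W_15168716864, W_15168712832, W_13021233344]⟩
theorem C_20537426112 : chkRec R_20537426112 = true := by decide +kernel

noncomputable def R_20537430081 : Rec := ⟨nat_lit 20537430081, nat_lit 21,
  [⟨V6_20536889409, [(nat_lit 65, nat_lit 20537430081), (nat_lit 103, nat_lit 21611167809), (nat_lit 67, nat_lit 21610909761), (nat_lit 98, nat_lit 22684905537), (nat_lit 8, nat_lit 22684647489), (nat_lit 23, nat_lit 22684389441), (nat_lit 32, nat_lit 23758643265), (nat_lit 33, nat_lit 23758385217), (nat_lit 41, nat_lit 23758127169), (nat_lit 87, nat_lit 24832380993), (nat_lit 43, nat_lit 24832122945), (nat_lit 28, nat_lit 24831864897), (nat_lit 4, nat_lit 25905860673), (nat_lit 72, nat_lit 25905602625), (nat_lit 96, nat_lit 26979340353)]⟩,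
   ⟨V6_15168720960, [(nat_lit 87, nat_lit 20537430081), (nat_lit 30, nat_lit 21611171904)]⟩,
   ⟨V6_14094979137, [(nat_lit 23, nat_lit 20537430081)]⟩],
  [W_19463151680, W_19462893632, W_18389930048]⟩
theorem C_20537430081 : chkRec R_20537430081 = true := by decide +kernel

noncomputable def R_20537430144 : Rec := ⟨nat_lit 20537430144, nat_lit 66,
  [⟨V6_17316200448, [(nat_lit 107, nat_lit 20537430144), (nat_lit 13, nat_lit 21611171904), (nat_lit 108, nat_lit 21611167872), (nat_lit 20, nat_lit 22684913664), (nat_lit 108, nat_lit 22684909632), (nat_lit 7, nat_lit 23758651392)]⟩,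
   ⟨V6_17316192384, [(nat_lit 24, nat_lit 20537430144), (nat_lit 71, nat_lit 21611167872), (nat_lit 91, nat_lit 22684905600), (nat_lit 35, nat_lit 23758643328)]⟩,
   ⟨V6_16242462720, [(nat_lit 121, nat_lit 20537430144), (nat_lit 67, nat_lit 21611171904), (nat_lit 29, nat_lit 22684913664)]⟩],
  [W_20536893440, W_20536635392, W_19463155712, W_19463151680, W_19462889600, W_18389159936, W_16242450560]⟩
theorem C_20537430144 : chkRec R_20537430144 = true := by decide +kernel

end Crest.Agent.R187.SN.Top
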