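import Crest.Agent.R187.SN.Top
import Crest.Agent.R187.SN.TD.X6_0
import Crest.Agent.R187.SN.TD.X6_1
import Crest.Agent.R187.SN.TD.X6_2
import Crest.Agent.R187.SN.TD.X6_3
import Crest.Agent.R187.SN.TD.X6_4
import Crest.Agent.R187.SN.TD.X6_5
import Crest.Agent.R187.SN.TD.X6_6
import Crest.Agent.R187.SN.TD.X6_7
import Crest.Agent.R187.SN.TD.X6_8
import Crest.Agent.R187.SN.TD.X6_9
import Crest.Agent.R187.SN.TD.X6_10
import Crest.Agent.R187.SN.TD.X6_11
import Crest.Agent.R187.SN.TD.W7_0
import Crest.Agent.R187.SN.TD.W7_1
import Crest.Agent.R187.SN.TD.W7_2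
import Crest.Agent.R187.SN.TD.W7_3

/-!
# Row 187, PLAN S, generated certificate data (mod 127): rank records and checks, chunk 12

Written by a C++ program (helper824).  The tables are only data: every property is checked by
the kernel.
-/

set_option autoImplicit false
set_option maxRecDepth 100000
set_option Elab.async false

namespace Crest.Agent.R187.SN.Top

noncomputable def R_20537434176 : Rec := ⟨nat_lit 20537434176, nat_lit 55,
  [⟨V6_17315684352, [(nat_lit 94, nat_lit 20537434176), (nat_lit 12, nat_lit 21611175936), (nat_lit 4, nat_lit 21610913856), (nat_lit 17, nat_lit 22684655616), (nat_lit 119, nat_lit 22684393536), (nat_lit 34, nat_lit 23758135296)]⟩,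
   ⟨V6_16242204672, [(nat_lit 88, nat_lit 20537434176), (nat_lit 121, nat_lit 21611175936), (nat_lit 46, nat_lit 21610913856), (nat_lit 120, nat_lit 22684655616)]⟩,
   ⟨V6_15168724992, [(nat_lit 38, nat_lit 20537434176), (nat_lit 121, nat_lit 21611175936)]⟩],
  [W_20537151488, W_20536893440, W_19463409728, W_19463151680, W_18389934080]⟩
theorem C_20537434176 : chkRec R_20537434176 = true := by decide +kernel

noncomputable def R_20537438208 : Rec := ⟨nat_lit 20537438208, nat_lit 24,
  [⟨V6_17316200448, [(nat_lit 97, nat_lit 20537438208), (nat_lit 4, nat_lit 21611175936), (nat_lit 109, nat_lit 22684913664), (nat_lit 47, nat_lit 23758651392)]⟩],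
  [W_20537409536, W_20537151488, W_19463671808, W_13021245440]⟩
theorem C_20537438208 : chkRec R_20537438208 = true := by decide +kernel

noncomputable def R_20553154755 : Rec := ⟨nat_lit 20553154755, nat_lit 1,
  [⟨V6_18388889793, [(nat_lit 73, nat_lit 20553154755), (nat_lit 116, nat_lit 21626896578), (nat_lit 43, nat_lit 21626892483), (nat_lit 12, nat_lit 21610119363), (nat_lit 64, nat_lit 22700638401), (nat_lit 76, nat_lit 22700634306), (nat_lit 84, nat_lit 22683861186), (nat_lit 12, nat_lit 22683857091), (nat_lit 111, nat_lit 23774376129), (nat_lit 66, nat_lit 23757603009), (nat_lit 31, nat_lit 23757598914), (nat_lit 3, nat_lit 24831340737)]⟩],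
  [W_19429081280]⟩
theorem C_20553154755 : chkRec R_20553154755 = true := by decide +kernel

noncomputable def R_20553154818 : Rec := ⟨nat_lit 20553154818, nat_lit 5,
  [⟨V6_16258187520, [(nat_lit 19, nat_lit 20553154818), (nat_lit 31, nat_lit 21626896641), (nat_lit 38, nat_lit 22700638464)]⟩],
  [W_20502823040, W_20469268736, W_19429081280, W_18355339520]⟩
theorem C_20553154818 : chkRec R_20553154818 = true := by decide +kernel

noncomputable def R_20553416898 : Rec := ⟨nat_lit 20553416898, nat_lit 10,
  [⟨V6_17331929280, [(nat_lit 100, nat_lit 20553416898), (nat_lit 120, nat_lit 21627158721), (nat_lit 35, nat_lit 21626896578), (nat_lit 66, nat_lit 22700900544), (nat_lit 94, nat_lit 22700638401), (nat_lit 16, nat_lit 23774380224)]⟩],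
  [W_20519596160, W_20503081088, W_20502823040, W_19446116480, W_19429343360, W_19429081280, W_18372374720]⟩
theorem C_20553416898 : chkRec R_20553416898 = true := by decide +kernel

noncomputable def R_20553416961 : Rec := ⟨nat_lit 20553416961, nat_lit 13,
  [⟨V6_18405670977, [(nat_lit 5, nat_lit 20553416961), (nat_lit 55, nat_lit 21627158721), (nat_lit 59, nat_lit 21626896641), (nat_lit 10, nat_lit 22700900481), (nat_lit 111, nat_lit 22700638401), (nat_lit 117, nat_lit 23774642241), (nat_lit 40, nat_lit 23774380161), (nat_lit 43, nat_lit 24848121921)]⟩,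
   ⟨V6_16258187520, [(nat_lit 25, nat_lit 20553416961), (nat_lit 42, nat_lit 21627158784), (nat_lit 46, nat_lit 21626896641), (nat_lit 70, nat_lit 22700638464)]⟩],
  [W_20519600192, W_20503085120, W_20502823040, W_19446120512, W_19429343360, W_18355339520, W_17298374912]⟩
theorem C_20553416961 : chkRec R_20553416961 = true := by decide +kernel

noncomputable def R_20553420930 : Rec := ⟨nat_lit 20553420930, nat_lit 5,
  [⟨V6_18372382848, [(nat_lit 125, nat_lit 20553420930), (nat_lit 42, nat_lit 21627162753), (nat_lit 119, nat_lit 21610385538), (nat_lit 72, nat_lit 22700904576), (nat_lit 17, nat_lit 22684127361), (nat_lit 33, nat_lit 22667350146), (nat_lit 99, nat_lit 23757869184), (nat_lit 35, nat_lit 23741091969), (nat_lit 100, nat_lit 24814833792)]⟩],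
  [W_19462889600, W_18405924992]⟩
theorem C_20553420930 : chkRec R_20553420930 = true := by decide +kernel

noncomputable def R_20553420993 : Rec := ⟨nat_lit 20553420993, nat_lit 12,
  [⟨V6_18372382785, [(nat_lit 89, nat_lit 20553420993), (nat_lit 93, nat_lit 21627162753), (nat_lit 112, nat_lit 21610385601), (nat_lit 51, nat_lit 22700904513), (nat_lit 52, nat_lit 22684127361), (nat_lit 122, nat_lit 22667350209), (nat_lit 79, nat_lit 23757869121), (nat_lit 25, nat_lit 23741091969), (nat_lit 67, nat_lit 24814833729)]⟩,
   ⟨V6_17298641088, [(nat_lit 5, nat_lit 20553420993), (nat_lit 120, nat_lit 21627162816), (nat_lit 21, nat_lit 21610385601), (nat_lit 91, nat_lit 22684127424), (nat_lit 72, nat_lit 22667350209), (nat_lit 86, nat_lit 23741092032)]⟩,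
   ⟨V6_16224899265, [(nat_lit 59, nat_lit 20553420993), (nat_lit 37, nat_lit 21610385601), (nat_lit 57, nat_lit 22667350209)]⟩],
  [W_20519858240, W_20503085120, W_20503081088, W_18389151872, W_14110970048]⟩
theorem C_20553420993 : chkRec R_20553420993 = true := by decide +kernel

noncomputable def R_20553421056 : Rec := ⟨nat_lit 20553421056, nat_lit 12,
  [⟨V6_18405937152, [(nat_lit 62, nat_lit 20553421056), (nat_lit 94, nat_lit 21627162816), (nat_lit 115, nat_lit 22700904576), (nat_lit 30, nat_lit 23774646336), (nat_lit 126, nat_lit 24848388096)]⟩],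
  [W_20503085120, W_19462897664, W_15167930624]⟩
theorem C_20553421056 : chkRec R_20553421056 = true := by decide +kernel

noncomputable def R_20553674946 : Rec := ⟨nat_lit 20553674946, nat_lit 7,
  [⟨V6_20502818946, [(nat_lit 82, nat_lit 20553674946), (nat_lit 126, nat_lit 21627416706), (nat_lit 65, nat_lit 21627154626), (nat_lit 111, nat_lit 21610639554), (nat_lit 75, nat_lit 22700896386), (nat_lit 37, nat_lit 22700634306), (nat_lit 86, nat_lit 22684381314), (nat_lit 35, nat_lit 22684119234), (nat_lit 57, nat_lit 22667604162), (nat_lit 26, nat_lit 23774376066), (nat_lit 105, nat_lit 23757860994), (nat_lit 35, nat_lit 23757598914), (nat_lit 100, nat_lit 23741345922), (nat_lit 79, nat_lit 23741083842), (nat_lit 110, nat_lit 23724568770), (nat_lit 112, nat_lit 24831340674), (nat_lit 17, nat_lit 24814825602), (nat_lit 25, nat_lit 24814563522), (nat_lit 83, nat_lit 24798310530), (nat_lit 28, nat_lit 24798048450), (nat_lit 47, nat_lit 25888305282), (nat_lit 73, nat_lit 25871790210), (nat_lit 59, nat_lit 25871528130), (nat_lit 2, nat_lit 26945269890)]⟩,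
   ⟨V6_19429601472, [(nat_lit 95, nat_lit 20553674946), (nat_lit 43, nat_lit 21627416769), (nat_lit 83, nat_lit 21610639554), (nat_lit 13, nat_lit 22701158592), (nat_lit 28, nat_lit 22684381377), (nat_lit 31, nat_lit 22667604162), (nat_lit 88, nat_lit 23758123200), (nat_lit 82, nat_lit 23741345985), (nat_lit 94, nat_lit 23724568770), (nat_lit 125, nat_lit 24815087808), (nat_lit 59, nat_lit 24798310593), (nat_lit 37, nat_lit 25872052416)]⟩,
   ⟨V6_18405404802, [(nat_lit 82, nat_lit 20553674946), (nat_lit 88, nat_lit 21627416706), (nat_lit 84, nat_lit 21627154626), (nat_lit 97, nat_lit 22700896386), (nat_lit 48, nat_lit 22700634306), (nat_lit 18, nat_lit 23774376066), (nat_lit 81, nat_lit 23774113986), (nat_lit 56, nat_lit 24847855746)]⟩,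
   ⟨V6_18355859649, [(nat_lit 11, nat_lit 20553674946), (nat_lit 109, nat_lit 21627416769), (nat_lit 100, nat_lit 21610639554), (nat_lit 89, nat_lit 22684381377), (nat_lit 101, nat_lit 22667604162), (nat_lit 1, nat_lit 23741345985), (nat_lit 105, nat_lit 23724568770), (nat_lit 53, nat_lit 24798310593)]⟩,
   ⟨V6_16241668290, [(nat_lit 86, nat_lit 20553674946), (nat_lit 39, nat_lit 21627154626), (nat_lit 59, nat_lit 21610639554), (nat_lit 12, nat_lit 22684119234)]⟩],
  [W_20519596160, W_19479146624, W_19462631552, W_18372374720, W_17331925184]⟩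
theorem C_20553674946 : chkRec R_20553674946 = true := by decide +kernel

noncomputable def R_20553678978 : Rec := ⟨nat_lit 20553678978, nat_lit 22,
  [⟨V6_18405671040, [(nat_lit 18, nat_lit 20553678978), (nat_lit 51, nat_lit 21627420801), (nat_lit 103, nat_lit 21627158658), (nat_lit 17, nat_lit 22701162624), (nat_lit 47, nat_lit 22700900481), (nat_lit 58, nat_lit 22700638338), (nat_lit 69, nat_lit 23774642304), (nat_lit 90, nat_lit 23774380161), (nat_lit 17, nat_lit 24848121984)]⟩],
  [W_20503339136, W_19462889600, W_19446374528, W_19446116480, W_19429601408, W_18389409920, W_18355863680]⟩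
theorem C_20553678978 : chkRec R_20553678978 = true := by decide +kernel

noncomputable def R_20553679041 : Rec := ⟨nat_lit 20553679041, nat_lit 42,
  [⟨V6_18405671040, [(nat_lit 91, nat_lit 20553679041), (nat_lit 111, nat_lit 21627420864), (nat_lit 90, nat_lit 21627420801), (nat_lit 25, nat_lit 21627158721), (nat_lit 45, nat_lit 22701162624), (nat_lit 3, nat_lit 22700900544), (nat_lit 91, nat_lit 22700900481), (nat_lit 60, nat_lit 22700638401), (nat_lit 18, nat_lit 23774642304), (nat_lit 1, nat_lit 23774380224), (nat_lit 45, nat_lit 23774380161), (nat_lit 108, nat_lit 24848121984)]⟩,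
   ⟨V6_17331929280, [(nat_lit 25, nat_lit 20553679041), (nat_lit 32, nat_lit 21627420864), (nat_lit 61, nat_lit 21627158721), (nat_lit 54, nat_lit 22700900544), (nat_lit 79, nat_lit 22700638401), (nat_lit 17, nat_lit 23774380224)]⟩],
  [W_20536373312, W_20519858240, W_20503343168, W_20503085120, W_20503081088, W_19479408704, W_19446378560, W_19446116480, W_19429605440, W_19429601408, W_18372640832, W_18355863680, W_17282121920]⟩
theorem C_20553679041 : chkRec R_20553679041 = true := by decide +kernel

noncomputable def R_20553679104 : Rec := ⟨nat_lit 20553679104, nat_lit 45,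
  [⟨V6_20553154560, [(nat_lit 36, nat_lit 20553679104), (nat_lit 84, nat_lit 21627420864), (nat_lit 119, nat_lit 21627158784), (nat_lit 55, nat_lit 22701162624), (nat_lit 45, nat_lit 22700900544), (nat_lit 81, nat_lit 22700638464), (nat_lit 19, nat_lit 23774904384), (nat_lit 46, nat_lit 23774642304), (nat_lit 49, nat_lit 23774380224), (nat_lit 50, nat_lit 24848646144), (nat_lit 100, nat_lit 24848384064), (nat_lit 38, nat_lit 24848121984), (nat_lit 67, nat_lit 25922125824), (nat_lit 52, nat_lit 25921863744), (nat_lit 10, nat_lit 26995605504)]⟩,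
   ⟨V6_17331929280, [(nat_lit 41, nat_lit 20553679104), (nat_lit 9, nat_lit 21627420864), (nat_lit 66, nat_lit 21627158784), (nat_lit 109, nat_lit 22700900544), (nat_lit 56, nat_lit 22700638464), (nat_lit 29, nat_lit 23774380224)]⟩],
  [W_20503347200, W_19446382592, W_19429605440, W_19429343360, W_18389417984, W_18372640832, W_18355863680, W_17282121920, W_16208380160, W_15151415552]⟩
theorem C_20553679104 : chkRec R_20553679104 = true := by decide +kernel

noncomputable def R_20553683073 : Rec := ⟨nat_lit 20553683073, nat_lit 48,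
  [⟨V6_18406187136, [(nat_lit 51, nat_lit 20553683073), (nat_lit 65, nat_lit 21627424896), (nat_lit 10, nat_lit 21627420801), (nat_lit 59, nat_lit 22701162624), (nat_lit 30, nat_lit 22701158529), (nat_lit 105, nat_lit 23774900352), (nat_lit 37, nat_lit 23774896257), (nat_lit 45, nat_lit 24848638080)]⟩,
   ⟨V6_17282125953, [(nat_lit 13, nat_lit 20553683073), (nat_lit 101, nat_lit 21610647681), (nat_lit 18, nat_lit 22667612289), (nat_lit 32, nat_lit 23724576897)]⟩],
  [W_20519858240, W_20503343168, W_20503339136, W_20503085120, W_19463151680, W_19446378560, W_19429605440, W_18406187072, W_16258453568]⟩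
theorem C_20553683073 : chkRec R_20553683073 = true := by decide +kernel

noncomputable def R_20553683136 : Rec := ⟨nat_lit 20553683136, nat_lit 72,
  [⟨V6_19446386688, [(nat_lit 76, nat_lit 20553683136), (nat_lit 23, nat_lit 21627424896), (nat_lit 71, nat_lit 21610647744), (nat_lit 41, nat_lit 22701166656), (nat_lit 107, nat_lit 22684389504), (nat_lit 57, nat_lit 22667612352), (nat_lit 43, nat_lit 23774908416), (nat_lit 80, nat_lit 23758131264), (nat_lit 25, nat_lit 23741354112), (nat_lit 2, nat_lit 24831873024), (nat_lit 121, nat_lit 24815095872), (nat_lit 123, nat_lit 25888837632)]⟩,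
   ⟨V6_18405937152, [(nat_lit 40, nat_lit 20553683136), (nat_lit 81, nat_lit 21627424896), (nat_lit 75, nat_lit 21627162816), (nat_lit 112, nat_lit 22701166656), (nat_lit 57, nat_lit 22700904576), (nat_lit 55, nat_lit 23774908416), (nat_lit 98, nat_lit 23774646336), (nat_lit 23, nat_lit 24848388096)]⟩,
   ⟨V6_18389422080, [(nat_lit 52, nat_lit 20553683136), (nat_lit 117, nat_lit 21627424896), (nat_lit 75, nat_lit 21610647744), (nat_lit 2, nat_lit 22701166656), (nat_lit 26, nat_lit 22684389504), (nat_lit 91, nat_lit 23774908416), (nat_lit 73, nat_lit 23758131264), (nat_lit 53, nat_lit 24831873024)]⟩],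
  [W_20536635392, W_20520120320, W_20519858240, W_19463155712, W_18389417984, W_18372374720, W_15184973888, W_15184969856]⟩
theorem C_20553683136 : chkRec R_20553683136 = true := by decide +kernel

noncomputable def R_20553687105 : Rec := ⟨nat_lit 20553687105, nat_lit 24,
  [⟨V6_20536889409, [(nat_lit 88, nat_lit 20553687105), (nat_lit 102, nat_lit 21627424833), (nat_lit 8, nat_lit 21610651713), (nat_lit 37, nat_lit 22701162561), (nat_lit 1, nat_lit 22684389441), (nat_lit 96, nat_lit 23774900289), (nat_lit 77, nat_lit 23758127169), (nat_lit 49, nat_lit 24848638017), (nat_lit 125, nat_lit 24831864897), (nat_lit 114, nat_lit 25922375745), (nat_lit 46, nat_lit 25905602625), (nat_lit 3, nat_lit 26979340353)]⟩,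
   ⟨V6_19479924801, [(nat_lit 55, nat_lit 20553687105), (nat_lit 101, nat_lit 21627424833), (nat_lit 18, nat_lit 22701162561), (nat_lit 24, nat_lit 23774900289), (nat_lit 40, nat_lit 24848638017), (nat_lit 23, nat_lit 25922375745)]⟩,
   ⟨V6_18355871808, [(nat_lit 16, nat_lit 20553687105), (nat_lit 53, nat_lit 21627428928), (nat_lit 88, nat_lit 21610651713), (nat_lit 20, nat_lit 22684393536), (nat_lit 102, nat_lit 22667616321), (nat_lit 71, nat_lit 23741358144), (nat_lit 45, nat_lit 23724580929), (nat_lit 21, nat_lit 24798322752)]⟩,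
   ⟨V6_16225165377, [(nat_lit 57, nat_lit 20553687105), (nat_lit 124, nat_lit 21610651713), (nat_lit 40, nat_lit 22667616321)]⟩],
  [W_19463151680, W_17282129984, W_15184973888, W_14111236160]⟩
theorem C_20553687105 : chkRec R_20553687105 = true := by decide +kernel

noncomputable def R_20553687168 : Rec := ⟨nat_lit 20553687168, nat_lit 74,
  [⟨V6_20503351296, [(nat_lit 96, nat_lit 20553687168), (nat_lit 53, nat_lit 21627428928), (nat_lit 77, nat_lit 21627424896), (nat_lit 11, nat_lit 21610651776), (nat_lit 119, nat_lit 22701170688), (nat_lit 73, nat_lit 22701166656), (nat_lit 42, nat_lit 22684393536), (nat_lit 111, nat_lit 22684389504), (nat_lit 118, nat_lit 22667616384), (nat_lit 9, nat_lit 23774908416), (nat_lit 100, nat_lit 23758135296), (nat_lit 98, nat_lit 23758131264), (nat_lit 100, nat_lit 23741358144), (nat_lit 74, nat_lit 23741354112), (nat_lit 50, nat_lit 23724580992), (nat_lit 113, nat_lit 24831873024), (nat_lit 100, nat_lit 24815099904), (nat_lit 9, nat_lit 24815095872), (nat_lit 104, nat_lit 24798322752), (nat_lit 109, nat_lit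 24798318720), (nat_lit 2, nat_lit 25888837632), (nat_lit 118, nat_lit 25872064512), (nat_lit 88, nat_lit 25872060480), (nat_lit 96, nat_lit 26945802240)]⟩,
   ⟨V6_19429613568, [(nat_lit 107, nat_lit 20553687168), (nat_lit 37, nat_lit 21627428928), (nat_lit 60, nat_lit 21610651776), (nat_lit 60, nat_lit 22701170688), (nat_lit 88, nat_lit 22684393536), (nat_lit 91, nat_lit 22667616384), (nat_lit 113, nat_lit 23758135296), (nat_lit 71, nat_lit 23741358144), (nat_lit 31, nat_lit 23724580992), (nat_lit 49, nat_lit 24815099904), (nat_lit 107, nat_lit 24798322752), (nat_lit 109, nat_lit 25872064512)]⟩,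
   ⟨V6_17315684352, [(nat_lit 74, nat_lit 20553687168), (nat_lit 115, nat_lit 21627428928), (nat_lit 17, nat_lit 21610651776), (nat_lit 3, nat_lit 22701170688), (nat_lit 2, nat_lit 22684393536), (nat_lit 54, nat_lit 23758135296)]⟩,
   ⟨V6_16258719744, [(nat_lit 64, nat_lit 20553687168), (nat_lit 5, nat_lit 21627428928), (nat_lit 114, nat_lit 22701170688)]⟩],
  [W_20536893440, W_20503339136, W_19463155712, W_19446374528, W_18389417984, W_15184969856, W_14111232128]⟩
theorem C_20553687168 : chkRec R_20553687168 = true := by decide +kernel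

noncomputable def R_20553937026 : Rec := ⟨nat_lit 20553937026, nat_lit 15,
  [⟨V6_18372894849, [(nat_lit 42, nat_lit 20553937026), (nat_lit 87, nat_lit 21627678849), (nat_lit 104, nat_lit 21627674754), (nat_lit 67, nat_lit 21610901634), (nat_lit 70, nat_lit 22701416577), (nat_lit 106, nat_lit 22684643457), (nat_lit 76, nat_lit 22684639362), (nat_lit 96, nat_lit 22667866242), (nat_lit 122, nat_lit 23758381185), (nat_lit 7, nat_lit 23741608065), (nat_lit 96, nat_lit 23741603970), (nat_lit 119, nat_lit 24815345793)]⟩,
   ⟨V6_17315930241, [(nat_lit 121, nat_lit 20553937026), (nat_lit 2, nat_lit 21627678849), (nat_lit 31, nat_lit 21627674754), (nat_lit 28, nat_lit 21610901634), (nat_lit 36, nat_lit 22701416577), (nat_lit 119, nat_lit 22684643457), (nat_lit 60, nat_lit 22684639362), (nat_lit 17, nat_lit 23758381185)]⟩],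
  [W_20519596160, W_19479404672, W_19479146624, W_19462889600, W_19446374528]⟩
theorem C_20553937026 : chkRec R_20553937026 = true := by decide +kernel

noncomputable def R_20553937089 : Rec := ⟨nat_lit 20553937089, nat_lit 24,
  [⟨V6_18388889793, [(nat_lit 12, nat_lit 20553937089), (nat_lit 57, nat_lit 21627416769), (nat_lit 109, nat_lit 21610901697), (nat_lit 126, nat_lit 22700896449), (nat_lit 7, nat_lit 22684381377), (nat_lit 56, nat_lit 23774376129), (nat_lit 78, nat_lit 23757861057), (nat_lit 22, nat_lit 24831340737)]⟩,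
   ⟨V6_18372898881, [(nat_lit 62, nat_lit 20553937089), (nat_lit 2, nat_lit 21627678849), (nat_lit 98, nat_lit 21610901697), (nat_lit 124, nat_lit 22701420609), (nat_lit 109, nat_lit 22684643457), (nat_lit 75, nat_lit 22667866305), (nat_lit 85, nat_lit 23758385217), (nat_lit 6, nat_lit 23741608065), (nat_lit 11, nat_lit 24815349825)]⟩,
   ⟨V6_17299157184, [(nat_lit 125, nat_lit 20553937089), (nat_lit 79, nat_lit 21627678912), (nat_lit 17, nat_lit 21610901697), (nat_lit 116, nat_lit 22684643520), (nat_lit 22, nat_lit 22667866305), (nat_lit 118, nat_lit 23741608128)]⟩,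
   ⟨V6_16225415361, [(nat_lit 18, nat_lit 20553937089), (nat_lit 106, nat_lit 21610901697), (nat_lit 26, nat_lit 22667866305)]⟩],
  [W_20552888384, W_20536373312, W_19479408704, W_19479146624, W_19446378560, W_14111486144]⟩
theorem C_20553937089 : chkRec R_20553937089 = true := by decide +kernel

noncomputable def R_20553941121 : Rec := ⟨nat_lit 20553941121, nat_lit 67,
  [⟨V6_18405671040, [(nat_lit 21, nat_lit 20553941121), (nat_lit 83, nat_lit 21627682944), (nat_lit 71, nat_lit 21627420801), (nat_lit 68, nat_lit 22701162624), (nat_lit 75, nat_lit 22700900481), (nat_lit 82, nat_lit 23774642304), (nat_lit 96, nat_lit 23774380161), (nat_lit 119, nat_lit 24848121984)]⟩,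
   ⟨V6_18405670977, [(nat_lit 61, nat_lit 20553941121), (nat_lit 87, nat_lit 21627682881), (nat_lit 25, nat_lit 21627420801), (nat_lit 112, nat_lit 22701162561), (nat_lit 57, nat_lit 22700900481), (nat_lit 94, nat_lit 23774642241), (nat_lit 38, nat_lit 23774380161), (nat_lit 30, nat_lit 24848121921)]⟩,
   ⟨V6_18372894849, [(nat_lit 69, nat_lit 20553941121), (nat_lit 65, nat_lit 21627678849), (nat_lit 3, nat_lit 21610905729), (nat_lit 15, nat_lit 22701416577), (nat_lit 3, nat_lit 22684643457), (nat_lit 18, nat_lit 22667870337), (nat_lit 97, nat_lit 23758381185), (nat_lit 4, nat_lit 23741608065), (nat_lit 65, nat_lit 24815345793)]⟩,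
   ⟨V6_17315930241, [(nat_lit 107, nat_lit 20553941121), (nat_lit 92, nat_lit 21627678849), (nat_lit 126, nat_lit 21610905729), (nat_lit 44, nat_lit 22701416577), (nat_lit 110, nat_lit 22684643457), (nat_lit 102, nat_lit 23758381185)]⟩,
   ⟨V6_17299161153, [(nat_lit 42, nat_lit 20553941121), (nat_lit 21, nat_lit 21627682881), (nat_lit 40, nat_lit 21610905729), (nat_lit 110, nat_lit 22684647489), (nat_lit 53, nat_lit 22667870337), (nat_lit 17, nat_lit 23741612097)]⟩],
  [W_20520116288, W_20519858240, W_19463151680, W_19446378560, W_18406187072, W_17315934272, W_16242196544, W_15185231936]⟩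
theorem C_20553941121 : chkRec R_20553941121 = true := by decide +kernel

noncomputable def R_20553941184 : Rec := ⟨nat_lit 20553941184, nat_lit 95,
  [⟨V6_20553154560, [(nat_lit 53, nat_lit 20553941184), (nat_lit 15, nat_lit 21627682944), (nat_lit 6, nat_lit 21627420864), (nat_lit 38, nat_lit 22701424704), (nat_lit 113, nat_lit 22701162624), (nat_lit 118, nat_lit 22700900544), (nat_lit 32, nat_lit 23775166464), (nat_lit 28, nat_lit 23774904384), (nat_lit 6, nat_lit 23774642304), (nat_lit 117, nat_lit 23774380224), (nat_lit 70, nat_lit 24848646144), (nat_lit 82, nat_lit 24848384064), (nat_lit 120, nat_lit 24848121984), (nat_lit 32, nat_lit 25922125824), (nat_lit 15, nat_lit 25921863744), (nat_lit 87, nat_lit 26995605504)]⟩,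
   ⟨V6_19446644736, [(nat_lit 38, nat_lit 20553941184), (nat_lit 75, nat_lit 21627682944), (nat_lit 99, nat_lit 21610905792), (nat_lit 84, nat_lit 22701424704), (nat_lit 117, nat_lit 22684647552), (nat_lit 92, nat_lit 22667870400), (nat_lit 85, nat_lit 23775166464), (nat_lit 40, nat_lit 23758389312), (nat_lit 76, nat_lit 23741612160), (nat_lit 1, nat_lit 24832131072), (nat_lit 124, nat_lit 24815353920), (nat_lit 125, nat_lit 25889095680)]⟩,
   ⟨V6_18405671040, [(nat_lit 108, nat_lit 20553941184), (nat_lit 117, nat_lit 21627682944), (nat_lit 104, nat_lit 21627420864), (nat_lit 105, nat_lit 22701162624), (nat_lit 51, nat_lit 22700900544), (nat_lit 66, nat_lit 23774642304), (nat_lit 46, nat_lit 23774380224), (nat_lit 63, nat_lit 24848121984)]⟩,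
   ⟨V6_17331929280, [(nat_lit 83, nat_lit 20553941184), (nat_lit 46, nat_lit 21627420864), (nat_lit 29, nat_lit 22700900544), (nat_lit 20, nat_lit 23774380224)]⟩],
  [W_20553150464, W_20520120320, W_19463155712, W_19446640640, W_19446382592, W_19446116480, W_18389676032, W_17315938304, W_17299157120, W_16242196544, W_15185231936]⟩
theorem C_20553941184 : chkRec R_20553941184 = true := by decide +kernel

noncomputable def R_20553945153 : Rec := ⟨nat_lit 20553945153, nat_lit 48,
  [⟨V6_19480186944, [(nat_lit 73, nat_lit 20553945153), (nat_lit 80, nat_lit 21627686976), (nat_lit 97, nat_lit 21627682881), (nat_lit 82, nat_lit 22701424704), (nat_lit 55, nat_lit 22701420609), (nat_lit 78, nat_lit 23775162432), (nat_lit 54, nat_lit 23775158337), (nat_lit 90, nat_lit 24848900160), (nat_lit 20, nat_lit 24848896065), (nat_lit 101, nat_lit 25922637888)]⟩,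
   ⟨V6_17299161153, [(nat_lit 34, nat_lit 20553945153), (nat_lit 20, nat_lit 21627682881), (nat_lit 60, nat_lit 21610909761), (nat_lit 95, nat_lit 22684647489), (nat_lit 63, nat_lit 22667874369), (nat_lit 92, nat_lit 23741612097)]⟩,
   ⟨V6_16225423425, [(nat_lit 109, nat_lit 20553945153), (nat_lit 21, nat_lit 21610909761), (nat_lit 101, nat_lit 22667874369)]⟩],
  [W_20520116288, W_20519858240, W_19463151680, W_19446378560, W_18372640832, W_18372382784, W_16258453568, W_15185231936]⟩
theorem C_20553945153 : chkRec R_20553945153 = true := by decide +kernel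

noncomputable def R_20553945216 : Rec := ⟨nat_lit 20553945216, nat_lit 127,
  [⟨V6_20520382464, [(nat_lit 75, nat_lit 20553945216), (nat_lit 12, nat_lit 21627686976), (nat_lit 70, nat_lit 21627682944), (nat_lit 34, nat_lit 21610909824), (nat_lit 27, nat_lit 22701428736), (nat_lit 100, nat_lit 22701424704), (nat_lit 14, nat_lit 22701420672), (nat_lit 35, nat_lit 22684651584), (nat_lit 119, nat_lit 22684647552), (nat_lit 50, nat_lit 22667874432), (nat_lit 28, nat_lit 23775166464), (nat_lit 86, nat_lit 23775162432), (nat_lit 4, nat_lit 23758393344), (nat_lit 46, nat_lit 23758389312), (nat_lit 28, nat_lit 23758385280), (nat_lit 89, nat_lit 23741616192), (nat_lit 50, nat_lit 23741612160), (nat_lit 88, nat_lit 24848904192), (nat_lit 72, nat_lit 24832131072), (nat_lit 57, nat_lit 24832127040), (nat_lit 114, nat_lit 24815357952), (nat_lit 78, nat_lit 24815353920), (nat_lit 74, nat_lit 24815349888), (nat_lit 104, nat_lit 25905868800), (nat_lit 42, nat_lit 25889095680), (nat_lit 27, nat_lit 25889091648), (nat_lit 37, nat_lit 26962833408)]⟩,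
   ⟨V6_20519866368, [(nat_lit 48, nat_lit 20553945216), (nat_lit 40, nat_lit 21627686976), (nat_lit 114, nat_lit 21627424896), (nat_lit 78, nat_lit 21610909824), (nat_lit 49, nat_lit 22701428736), (nat_lit 52, nat_lit 22701166656), (nat_lit 12, nat_lit 22700904576), (nat_lit 40, nat_lit 22684651584), (nat_lit 6, nat_lit 22684389504), (nat_lit 39, nat_lit 22667874432), (nat_lit 76, nat_lit 23774908416), (nat_lit 74, nat_lit 23774646336), (nat_lit 42, nat_lit 23758393344), (nat_lit 122, nat_lit 23758131264), (nat_lit 125, nat_lit 23757869184), (nat_lit 52, nat_lit 23741616192), (nat_lit 4, nat_lit 23741354112), (nat_lit 110, nat_lit 24848388096), (nat_lit 37, nat_lit 24831873024), (nat_lit 38, nat_lit 24831610944), (nat_lit 59, nat_lit 24815357952), (nat_lit 76, nat_lit 24815095872), (nat_lit 62, nat_lit 24814833792), (nat_lit 95, nat_lit 25905352704), (nat_lit 31, nat_lit 25888837632), (nat_lit 36, nat_lit 25888575552), (nat_lit 114, nat_lit 26962317312)]⟩,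
   ⟨V6_19446644736, [(nat_lit 116, nat_lit 20553945216), (nat_lit 12, nat_lit 21627686976), (nat_lit 38, nat_lit 21627682944), (nat_lit 68, nat_lit 21610909824), (nat_lit 69, nat_lit 22701428736), (nat_lit 62, nat_lit 22701424704), (nat_lit 100, nat_lit 22684651584), (nat_lit 112, nat_lit 22684647552), (nat_lit 6, nat_lit 22667874432), (nat_lit 120, nat_lit 23775166464), (nat_lit 3, nat_lit 23758393344), (nat_lit 96, nat_lit 23758389312), (nat_lit 8, nat_lit 23741616192), (nat_lit 85, nat_lit 23741612160), (nat_lit 3, nat_lit 24832131072), (nat_lit 108, nat_lit 24815357952), (nat_lit 8, nat_lit 24815353920), (nat_lit 49, nat_lit 25889095680)]⟩,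
   ⟨V6_19446386688, [(nat_lit 34, nat_lit 20553945216), (nat_lit 111, nat_lit 21627686976), (nat_lit 118, nat_lit 21627424896), (nat_lit 121, nat_lit 21610909824), (nat_lit 74, nat_lit 22701428736), (nat_lit 23, nat_lit 22701166656), (nat_lit 23, nat_lit 22684651584), (nat_lit 27, nat_lit 22684389504), (nat_lit 117, nat_lit 22667874432), (nat_lit 27, nat_lit 23774908416), (nat_lit 122, nat_lit 23758393344), (nat_lit 65, nat_lit 23758131264), (nat_lit 15, nat_lit 23741616192), (nat_lit 60, nat_lit 23741354112), (nat_lit 108, nat_lit 24831873024), (nat_lit 29, nat_lit 24815357952), (nat_lit 51, nat_lit 24815095872), (nat_lit 3, nat_lit 25888837632)]⟩,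
   ⟨V6_18372907008, [(nat_lit 11, nat_lit 20553945216), (nat_lit 61, nat_lit 21627686976), (nat_lit 31, nat_lit 21610909824), (nat_lit 29, nat_lit 22701428736), (nat_lit 120, nat_lit 22684651584), (nat_lit 107, nat_lit 22667874432), (nat_lit 95, nat_lit 23758393344), (nat_lit 65, nat_lit 23741616192), (nat_lit 74, nat_lit 24815357952)]⟩,
   ⟨V6_17315942400, [(nat_lit 117, nat_lit 20553945216), (nat_lit 84, nat_lit 21627686976), (nat_lit 8, nat_lit 21610909824), (nat_lit 106, nat_lit 22701428736), (nat_lit 113, nat_lit 22684651584), (nat_lit 3, nat_lit 23758393344)]⟩,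
   ⟨V6_17299165248, [(nat_lit 105, nat_lit 20553945216), (nat_lit 116, nat_lit 21627686976), (nat_lit 100, nat_lit 21610909824), (nat_lit 21, nat_lit 22684651584), (nat_lit 69, nat_lit 22667874432), (nat_lit 106, nat_lit 23741616192)]⟩],
  [W_20536893440, W_20536635392, W_20520120320, W_20520116288, W_19463413760, W_19463155712, W_19462889600, W_19446374528, W_18405924992, W_18389676032, W_17332195328, W_17315938304, W_16242196544]⟩
theorem C_20553945216 : chkRec R_20553945216 = true := by decide +kernel

noncomputable def R_20553949248 : Rec := ⟨nat_lit 20553949248, nat_lit 104,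
  [⟨V6_17315942400, [(nat_lit 107, nat_lit 20553949248), (nat_lit 93, nat_lit 21627691008), (nat_lit 84, nat_lit 21627686976), (nat_lit 29, nat_lit 21610913856), (nat_lit 91, nat_lit 22701428736), (nat_lit 35, nat_lit 22684655616), (nat_lit 16, nat_lit 22684651584), (nat_lit 33, nat_lit 23758393344)]⟩,
   ⟨V6_17315684352, [(nat_lit 50, nat_lit 20553949248), (nat_lit 121, nat_lit 21627691008), (nat_lit 36, nat_lit 21627428928), (nat_lit 117, nat_lit 21610913856), (nat_lit 111, nat_lit 22701170688), (nat_lit 99, nat_lit 22684655616), (nat_lit 30, nat_lit 22684393536), (nat_lit 43, nat_lit 23758135296)]⟩,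
   ⟨V6_16258719744, [(nat_lit 20, nat_lit 20553949248), (nat_lit 36, nat_lit 21627691008), (nat_lit 112, nat_lit 21627428928), (nat_lit 27, nat_lit 22701170688)]⟩,
   ⟨V6_16242204672, [(nat_lit 90, nat_lit 20553949248), (nat_lit 71, nat_lit 21627691008), (nat_lit 12, nat_lit 21610913856), (nat_lit 19, nat_lit 22684655616)]⟩],
  [W_20537151488, W_20536893440, W_20520374336, W_20520120320, W_20520116288, W_19480186880, W_19463409728, W_19463155712, W_19446640640, W_19446636608, W_19446382592, W_17298907136, W_14111236160]⟩
theorem C_20553949248 : chkRec R_20553949248 = true := by decide +kernel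

noncomputable def R_20553953280 : Rec := ⟨nat_lit 20553953280, nat_lit 28,
  [⟨V6_18372907008, [(nat_lit 38, nat_lit 20553953280), (nat_lit 112, nat_lit 21627691008), (nat_lit 105, nat_lit 21610917888), (nat_lit 56, nat_lit 22701428736), (nat_lit 36, nat_lit 22684655616), (nat_lit 89, nat_lit 22667882496), (nat_lit 114, nat_lit 23758393344), (nat_lit 18, nat_lit 23741620224), (nat_lit 10, nat_lit 24815357952)]⟩,
   ⟨V6_16242204672, [(nat_lit 104, nat_lit 20553953280), (nat_lit 121, nat_lit 21627691008), (nat_lit 30, nat_lit 21610917888), (nat_lit 47, nat_lit 22684655616)]⟩],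
  [W_20537151488, W_19480186880, W_16225427456, W_14094725120]⟩
theorem C_20553953280 : chkRec R_20553953280 = true := by decide +kernel

noncomputable def R_20554195074 : Rec := ⟨nat_lit 20554195074, nat_lit 8,
  [⟨V6_16242450561, [(nat_lit 40, nat_lit 20554195074), (nat_lit 88, nat_lit 21627936897), (nat_lit 90, nat_lit 21611159682), (nat_lit 79, nat_lit 22684901505)]⟩],
  [W_20536369280, W_19479404672]⟩
theorem C_20554195074 : chkRec R_20554195074 = true := by decide +kernel

noncomputable def R_20554199169 : Rec := ⟨nat_lit 20554199169, nat_lit 47,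
  [⟨V6_16259231808, [(nat_lit 111, nat_lit 20554199169), (nat_lit 91, nat_lit 21627940992), (nat_lit 7, nat_lit 21627940929), (nat_lit 21, nat_lit 22701682752)]⟩],
  [W_20553146432, W_20552888384, W_20536373312, W_20536369280, W_19479404672, W_19463151680, W_19462889600, W_19462631552, W_18389409920]⟩
theorem C_20554199169 : chkRec R_20554199169 = true := by decide +kernel

noncomputable def R_20554199232 : Rec := ⟨nat_lit 20554199232, nat_lit 47,
  [⟨V6_16259231808, [(nat_lit 49, nat_lit 20554199232), (nat_lit 10, nat_lit 21627940992), (nat_lit 25, nat_lit 22701682752)]⟩],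
  [W_20552888384, W_20536635392, W_19479408704, W_19463155712, W_17316196352]⟩
theorem C_20554199232 : chkRec R_20554199232 = true := by decide +kernel

noncomputable def R_20554203201 : Rec := ⟨nat_lit 20554203201, nat_lit 50,
  [⟨V6_16259231808, [(nat_lit 65, nat_lit 20554203201), (nat_lit 107, nat_lit 21627945024), (nat_lit 123, nat_lit 21627940929), (nat_lit 112, nat_lit 22701682752)]⟩],
  [W_20536889408, W_20536373312, W_19479924800, W_19463409728, W_19463151680, W_19462635584, W_18389930048, W_17316192320]⟩
theorem C_20554203201 : chkRec R_20554203201 = true := by decide +kernel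

noncomputable def R_20554203264 : Rec := ⟨nat_lit 20554203264, nat_lit 138,
  [⟨V6_18406711296, [(nat_lit 55, nat_lit 20554203264), (nat_lit 53, nat_lit 21627945024), (nat_lit 35, nat_lit 21627940992), (nat_lit 121, nat_lit 22701686784), (nat_lit 100, nat_lit 22701682752), (nat_lit 2, nat_lit 22701678720), (nat_lit 67, nat_lit 23775424512), (nat_lit 56, nat_lit 23775420480), (nat_lit 13, nat_lit 24849162240)]⟩,
   ⟨V6_18405671040, [(nat_lit 90, nat_lit 20554203264), (nat_lit 80, nat_lit 21627682944), (nat_lit 31, nat_lit 22701162624), (nat_lit 52, nat_lit 23774642304), (nat_lit 64, nat_lit 24848121984)]⟩,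
   ⟨V6_17316200448, [(nat_lit 1, nat_lit 20554203264), (nat_lit 17, nat_lit 21627945024), (nat_lit 50, nat_lit 21611167872), (nat_lit 91, nat_lit 22701686784), (nat_lit 103, nat_lit 22684909632), (nat_lit 114, nat_lit 23758651392)]⟩,
   ⟨V6_17316192384, [(nat_lit 13, nat_lit 20554203264), (nat_lit 118, nat_lit 21627940992), (nat_lit 7, nat_lit 21611167872), (nat_lit 73, nat_lit 22701678720), (nat_lit 119, nat_lit 22684905600), (nat_lit 48, nat_lit 23758643328)]⟩],
  [W_20553150464, W_20536893440, W_20536635392, W_19479412736, W_19463413760, W_19463155712, W_18389934080, W_18389676032, W_17315938304, W_16242450560, W_15185494016, W_15168716864]⟩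
theorem C_20554203264 : chkRec R_20554203264 = true := by decide +kernel

noncomputable def R_20554207296 : Rec := ⟨nat_lit 20554207296, nat_lit 137,
  [⟨V6_18406711296, [(nat_lit 5, nat_lit 20554207296), (nat_lit 59, nat_lit 21627949056), (nat_lit 112, nat_lit 21627945024), (nat_lit 22, nat_lit 22701686784), (nat_lit 96, nat_lit 22701682752), (nat_lit 31, nat_lit 23775424512), (nat_lit 23, nat_lit 23775420480), (nat_lit 117, nat_lit 24849162240)]⟩,
   ⟨V6_18406707264, [(nat_lit 28, nat_lit 20554207296), (nat_lit 76, nat_lit 21627945024), (nat_lit 31, nat_lit 22701682752), (nat_lit 29, nat_lit 23775420480), (nat_lit 21, nat_lit 24849158208)]⟩,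
   ⟨V6_17316200448, [(nat_lit 88, nat_lit 20554207296), (nat_lit 41, nat_lit 21627949056), (nat_lit 115, nat_lit 21627945024), (nat_lit 10, nat_lit 21611171904), (nat_lit 5, nat_lit 22701686784), (nat_lit 51, nat_lit 22684913664), (nat_lit 119, nat_lit 22684909632), (nat_lit 21, nat_lit 23758651392)]⟩,
   ⟨V6_16242462720, [(nat_lit 113, nat_lit 20554207296), (nat_lit 20, nat_lit 21627949056), (nat_lit 32, nat_lit 21611171904), (nat_lit 93, nat_lit 22684913664)]⟩],
  [W_20537151488, W_20536893440, W_20536635392, W_19480186880, W_19463671808, W_19463413760, W_19463409728, W_19463155712, W_19463151680, W_19462897664, W_17332195328, W_15168720896]⟩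
theorem C_20554207296 : chkRec R_20554207296 = true := by decide +kernel

noncomputable def R_20554211328 : Rec := ⟨nat_lit 20554211328, nat_lit 84,
  [⟨V6_20554186752, [(nat_lit 46, nat_lit 20554211328), (nat_lit 54, nat_lit 21627949056), (nat_lit 63, nat_lit 22701686784), (nat_lit 14, nat_lit 23775424512), (nat_lit 44, nat_lit 24849162240), (nat_lit 80, nat_lit 25922899968), (nat_lit 45, nat_lit 26996637696)]⟩,
   ⟨V6_17315684352, [(nat_lit 86, nat_lit 20554211328), (nat_lit 120, nat_lit 21627691008), (nat_lit 97, nat_lit 21611175936), (nat_lit 13, nat_lit 22701170688), (nat_lit 83, nat_lit 22684655616), (nat_lit 101, nat_lit 23758135296)]⟩,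
   ⟨V6_16258719744, [(nat_lit 52, nat_lit 20554211328), (nat_lit 42, nat_lit 21627691008), (nat_lit 113, nat_lit 22701170688)]⟩,
   ⟨V6_15168724992, [(nat_lit 97, nat_lit 20554211328), (nat_lit 15, nat_lit 21611175936)]⟩],
  [W_20537409536, W_20536893440, W_19480186880, W_19463671808, W_19463413760, W_18389934080]⟩
theorem C_20554211328 : chkRec R_20554211328 = true := by decide +kernel

noncomputable def R_20554457217 : Rec := ⟨nat_lit 20554457217, nat_lit 13,
  [⟨V6_20553146433, [(nat_lit 96, nat_lit 20554457217), (nat_lit 17, nat_lit 21628198977), (nat_lit 45, nat_lit 21627936897), (nat_lit 112, nat_lit 22701678657), (nat_lit 67, nat_lit 22701416577), (nat_lit 107, nat_lit 23775158337), (nat_lit 64, nat_lit 23774896257), (nat_lit 50, nat_lit 24848638017), (nat_lit 92, nat_lit 24848375937), (nat_lit 83, nat_lit 25922117697), (nat_lit 111, nat_lit 25921855617), (nat_lit 100, nat_lit 26995597377)]⟩,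
   ⟨V6_14112006273, [(nat_lit 14, nat_lit 20554457217)]⟩],
  [W_20553146432, W_18405924992]⟩
theorem C_20554457217 : chkRec R_20554457217 = true := by decide +kernel

noncomputable def R_20554461249 : Rec := ⟨nat_lit 20554461249, nat_lit 25,
  [⟨V6_20553146433, [(nat_lit 29, nat_lit 20554461249), (nat_lit 52, nat_lit 21628198977), (nat_lit 48, nat_lit 21627940929), (nat_lit 101, nat_lit 22701678657), (nat_lit 23, nat_lit 22701420609), (nat_lit 116, nat_lit 23775158337), (nat_lit 86, nat_lit 23774900289), (nat_lit 34, nat_lit 24848638017), (nat_lit 27, nat_lit 24848379969), (nat_lit 74, nat_lit 25922117697), (nat_lit 50, nat_lit 25921859649), (nat_lit 6, nat_lit 26995597377)]⟩,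
   ⟨V6_17332965441, [(nat_lit 125, nat_lit 20554461249), (nat_lit 10, nat_lit 21628198977), (nat_lit 59, nat_lit 21627940929), (nat_lit 97, nat_lit 22701936705), (nat_lit 19, nat_lit 22701678657), (nat_lit 57, nat_lit 23775416385)]⟩,
   ⟨V6_15185748033, [(nat_lit 80, nat_lit 20554461249), (nat_lit 71, nat_lit 21628198977)]⟩],
  [W_18406187072, W_15185489984, W_14112010304]⟩
theorem C_20554461249 : chkRec R_20554461249 = true := by decide +kernel

noncomputable def R_20554461312 : Rec := ⟨nat_lit 20554461312, nat_lit 57,
  [⟨V6_16259231808, [(nat_lit 122, nat_lit 20554461312), (nat_lit 6, nat_lit 21628203072), (nat_lit 87, nat_lit 21627940992), (nat_lit 74, nat_lit 22701682752)]⟩],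
  [W_20553408512, W_20553150464, W_20553146432, W_20552888384, W_19479408704, W_19479404672, W_19479146624, W_16259489792, W_15185752064]⟩
theorem C_20554461312 : chkRec R_20554461312 = true := by decide +kernel

noncomputable def R_20554465344 : Rec := ⟨nat_lit 20554465344, nat_lit 82,
  [⟨V6_20553154560, [(nat_lit 59, nat_lit 20554465344), (nat_lit 27, nat_lit 21628207104), (nat_lit 101, nat_lit 21627945024), (nat_lit 96, nat_lit 22701686784), (nat_lit 98, nat_lit 22701424704), (nat_lit 126, nat_lit 23775166464), (nat_lit 113, nat_lit 23774904384), (nat_lit 18, nat_lit 24848646144), (nat_lit 71, nat_lit 24848384064), (nat_lit 10, nat_lit 25922125824), (nat_lit 88, nat_lit 25921863744), (nat_lit 59, nat_lit 26995605504)]⟩,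
   ⟨V6_19480186944, [(nat_lit 96, nat_lit 20554465344), (nat_lit 2, nat_lit 21628203072), (nat_lit 108, nat_lit 21627945024), (nat_lit 35, nat_lit 22701940800), (nat_lit 64, nat_lit 22701682752), (nat_lit 111, nat_lit 22701424704), (nat_lit 45, nat_lit 23775678528), (nat_lit 85, nat_lit 23775420480), (nat_lit 45, nat_lit 23775162432), (nat_lit 54, nat_lit 24849158208), (nat_lit 49, nat_lit 24848900160), (nat_lit 23, nat_lit 25922637888)]⟩,
   ⟨V6_18406707264, [(nat_lit 28, nat_lit 20554465344), (nat_lit 48, nat_lit 21628203072), (nat_lit 124, nat_lit 21627945024), (nat_lit 63, nat_lit 22701940800), (nat_lit 17, nat_lit 22701682752), (nat_lit 16, nat_lit 23775678528), (nat_lit 58, nat_lit 23775420480), (nat_lit 78, nat_lit 24849158208)]⟩],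
  [W_20553150464, W_19480186880, W_18406707200, W_15185752064, W_15185494016, W_15185489984, W_15185231936, W_14112014336]⟩
theorem C_20554465344 : chkRec R_20554465344 = true := by decide +kernel

noncomputable def R_20554469376 : Rec := ⟨nat_lit 20554469376, nat_lit 55,
  [⟨V6_20554186752, [(nat_lit 89, nat_lit 20554469376), (nat_lit 73, nat_lit 21628207104), (nat_lit 119, nat_lit 21627949056), (nat_lit 112, nat_lit 22701944832), (nat_lit 55, nat_lit 22701686784), (nat_lit 112, nat_lit 23775682560), (nat_lit 52, nat_lit 23775424512), (nat_lit 38, nat_lit 24849420288), (nat_lit 106, nat_lit 24849162240), (nat_lit 99, nat_lit 25923158016), (nat_lit 23, nat_lit 25922899968), (nat_lit 107, nat_lit 26996637696)]⟩,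
   ⟨V6_18405937152, [(nat_lit 116, nat_lit 20554469376), (nat_lit 112, nat_lit 21627949056), (nat_lit 122, nat_lit 22701428736), (nat_lit 45, nat_lit 23774908416), (nat_lit 100, nat_lit 24848388096)]⟩,
   ⟨V6_14112018432, [(nat_lit 29, nat_lit 20554469376)]⟩],
  [W_19480444928, W_19480186880, W_18406965248, W_18406707200, W_15185494016]⟩
theorem C_20554469376 : chkRec R_20554469376 = true := by decide +kernel

noncomputable def R_20569931970 : Rec := ⟨nat_lit 20569931970, nat_lit 7,
  [⟨V6_20502818946, [(nat_lit 42, nat_lit 20569931970), (nat_lit 115, nat_lit 21643673730), (nat_lit 37, nat_lit 21643669698), (nat_lit 65, nat_lit 21626896578), (nat_lit 125, nat_lit 22717411458), (nat_lit 43, nat_lit 22700638338), (nat_lit 103, nat_lit 22700634306), (nat_lit 76, nat_lit 22683861186), (nat_lit 14, nat_lit 23774376066), (nat_lit 85, nat_lit 23757602946), (nat_lit 71, nat_lit 23757598914), (nat_lit 7, nat_lit 23740825794), (nat_lit 68, nat_lit 24831340674), (nat_lit 54, nat_lit 24814567554), (nat_lit 111, nat_lit 24814563522), (nat_lit 103, nat_lit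 24797790402), (nat_lit 35, nat_lit 25888305282), (nat_lit 65, nat_lit 25871532162), (nat_lit 39, nat_lit 25871528130), (nat_lit 92, nat_lit 26945269890)]⟩,
   ⟨V6_16274960577, [(nat_lit 49, nat_lit 20569931970), (nat_lit 101, nat_lit 21643673793), (nat_lit 5, nat_lit 21643669698), (nat_lit 30, nat_lit 22717411521)]⟩,
   ⟨V6_14127481026, [(nat_lit 88, nat_lit 20569931970)]⟩],
  [W_20519596160, W_19445858432, W_19429081280, W_18372116672]⟩
theorem C_20569931970 : chkRec R_20569931970 = true := by decide +kernel

noncomputable def R_20569932033 : Rec := ⟨nat_lit 20569932033, nat_lit 12,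
  [⟨V6_20469268737, [(nat_lit 69, nat_lit 20569932033), (nat_lit 97, nat_lit 21626896641), (nat_lit 37, nat_lit 22683861249), (nat_lit 101, nat_lit 23740825857), (nat_lit 68, nat_lit 24797790465), (nat_lit 105, nat_lit 25854755073), (nat_lit 59, nat_lit 26911719681)]⟩,
   ⟨V6_15201222912, [(nat_lit 84, nat_lit 20569932033), (nat_lit 64, nat_lit 21643673856)]⟩],
  [W_20519600192, W_20502823040, W_20469268736, W_19462635584, W_19429081280]⟩
theorem C_20569932033 : chkRec R_20569932033 = true := by decide +kernel

noncomputable def R_20570190018 : Rec := ⟨nat_lit 20570190018, nat_lit 5,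
  [⟨V6_16274960577, [(nat_lit 113, nat_lit 20570190018), (nat_lit 103, nat_lit 21643931841), (nat_lit 19, nat_lit 21643669698), (nat_lit 104, nat_lit 22717411521)]⟩,
   ⟨V6_15201218754, [(nat_lit 6, nat_lit 20570190018), (nat_lit 26, nat_lit 21643669698)]⟩],
  [W_20519596160, W_20503081088, W_19446116480]⟩
theorem C_20570190018 : chkRec R_20570190018 = true := by decide +kernel

noncomputable def R_20570194050 : Rec := ⟨nat_lit 20570194050, nat_lit 17,
  [⟨V6_18405671040, [(nat_lit 101, nat_lit 20570194050), (nat_lit 10, nat_lit 21643935873), (nat_lit 13, nat_lit 21643673730), (nat_lit 36, nat_lit 21627158658), (nat_lit 104, nat_lit 22717677696), (nat_lit 13, nat_lit 22717415553), (nat_lit 61, nat_lit 22700900481), (nat_lit 123, nat_lit 22700638338), (nat_lit 47, nat_lit 23791157376), (nat_lit 57, nat_lit 23774642304), (nat_lit 91, nat_lit 23774380161), (nat_lit 114, nat_lit 24848121984)]⟩],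
  [W_20519854208, W_20503081088, W_19462889600, W_18422440064, W_17348960384]⟩
theorem C_20570194050 : chkRec R_20570194050 = true := by decide +kernel

noncomputable def R_20570194113 : Rec := ⟨nat_lit 20570194113, nat_lit 32,
  [⟨V6_17348706369, [(nat_lit 58, nat_lit 20570194113), (nat_lit 111, nat_lit 21643935873), (nat_lit 53, nat_lit 21643673793), (nat_lit 123, nat_lit 22717677633), (nat_lit 39, nat_lit 22717415553), (nat_lit 30, nat_lit 23791157313)]⟩,
   ⟨V6_16274964672, [(nat_lit 86, nat_lit 20570194113), (nat_lit 114, nat_lit 21643935936), (nat_lit 16, nat_lit 21643673793), (nat_lit 63, nat_lit 22717415616)]⟩,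
   ⟨V6_16274960577, [(nat_lit 52, nat_lit 20570194113), (nat_lit 41, nat_lit 21643931841), (nat_lit 57, nat_lit 21643673793), (nat_lit 99, nat_lit 22717411521)]⟩],
  [W_20536373312, W_20519858240, W_20519600192, W_20519596160, W_20503085120, W_20503081088, W_20502823040, W_19479408704, W_19446120512, W_19446116480, W_19429343360, W_18372374720]⟩
theorem C_20570194113 : chkRec R_20570194113 = true := by decide +kernel

noncomputable def R_20570194176 : Rec := ⟨nat_lit 20570194176, nat_lit 34,
  [⟨V6_19496189952, [(nat_lit 91, nat_lit 20570194176), (nat_lit 61, nat_lit 21643935936), (nat_lit 104, nat_lit 21643673856), (nat_lit 108, nat_lit 22717677696), (nat_lit 24, nat_lit 22717415616), (nat_lit 40, nat_lit 23791419456), (nat_lit 32, nat_lit 23791157376), (nat_lit 20, nat_lit 24865161216), (nat_lit 39, nat_lit 24864899136), (nat_lit 89, nat_lit 25938640896)]⟩],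
  [W_19479412736, W_18422448128, W_18355339520, W_17348706368, W_15167930624, W_13054001408]⟩
theorem C_20570194176 : chkRec R_20570194176 = true := by decide +kernel

noncomputable def R_20570198145 : Rec := ⟨nat_lit 20570198145, nat_lit 25,
  [⟨V6_20503089216, [(nat_lit 81, nat_lit 20570198145), (nat_lit 58, nat_lit 21643939968), (nat_lit 12, nat_lit 21643939905), (nat_lit 13, nat_lit 21627162753), (nat_lit 24, nat_lit 22717681728), (nat_lit 116, nat_lit 22700904576), (nat_lit 46, nat_lit 22700904513), (nat_lit 59, nat_lit 22684127361), (nat_lit 23, nat_lit 23774646336), (nat_lit 88, nat_lit 23757869184), (nat_lit 15, nat_lit 23757869121), (nat_lit 30, nat_lit 23741091969), (nat_lit 4, nat_lit 24831610944), (nat_lit 114, nat_lit 24814833792), (nat_lit 121, nat_lit 24814833729), (nat_lit 58, nat_lit 24798056577), (nat_lit 122, nat_lit 25888575552), (nat_lit 120, nat_lit 25871798400), (nat_lit 37, nat_lit 25871798337), (nat_lit 32, nat_lit 26945540160)]⟩,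
   ⟨V6_20503085121, [(nat_lit 108, nat_lit 20570198145), (nat_lit 8, nat_lit 21643939905), (nat_lit 27, nat_lit 21643935873), (nat_lit 59, nat_lit 21627162753), (nat_lit 36, nat_lit 22717677633), (nat_lit 36, nat_lit 22700904513), (nat_lit 107, nat_lit 22700900481), (nat_lit 102, nat_lit 22684127361), (nat_lit 86, nat_lit 23774642241), (nat_lit 84, nat_lit 23757869121), (nat_lit 49, nat_lit 23757865089), (nat_lit 14, nat_lit 23741091969), (nat_lit 54, nat_lit 24831606849), (nat_lit 24, nat_lit 24814833729), (nat_lit 109, nat_lit 24814829697), (nat_lit 50, nat_lit 24798056577), (nat_lit 7, nat_lit 25888571457), (nat_lit 5, nat_lit 25871798337), (nat_lit 4, nat_lit 25871794305), (nat_lit 58, nat_lit 26945536065)]⟩,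
   ⟨V6_19446124608, [(nat_lit 38, nat_lit 20570198145), (nat_lit 125, nat_lit 21643939968), (nat_lit 125, nat_lit 21643939905), (nat_lit 2, nat_lit 21627162753), (nat_lit 116, nat_lit 22717681728), (nat_lit 10, nat_lit 22700904576), (nat_lit 125, nat_lit 22700904513), (nat_lit 28, nat_lit 22684127361), (nat_lit 29, nat_lit 23774646336), (nat_lit 117, nat_lit 23757869184), (nat_lit 100, nat_lit 23757869121), (nat_lit 112, nat_lit 23741091969), (nat_lit 31, nat_lit 24831610944), (nat_lit 2, nat_lit 24814833792), (nat_lit 24, nat_lit 24814833729), (nat_lit 55, nat_lit 25888575552)]⟩,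
   ⟨V6_19429347456, [(nat_lit 124, nat_lit 20570198145), (nat_lit 19, nat_lit 21643939968), (nat_lit 31, nat_lit 21627162753), (nat_lit 25, nat_lit 22700904576), (nat_lit 3, nat_lit 22684127361), (nat_lit 116, nat_lit 23757869184), (nat_lit 47, nat_lit 23741091969), (nat_lit 70, nat_lit 24814833792), (nat_lit 37, nat_lit 24798056577), (nat_lit 68, nat_lit 25871798400)]⟩,
   ⟨V6_19429347393, [(nat_lit 45, nat_lit 20570198145), (nat_lit 17, nat_lit 21643939905), (nat_lit 65, nat_lit 21627162753), (nat_lit 15, nat_lit 22700904513), (nat_lit 117, nat_lit 22684127361), (nat_lit 85, nat_lit 23757869121), (nat_lit 96, nat_lit 23741091969), (nat_lit 12, nat_lit 24814833729), (nat_lit 122, nat_lit 24798056577), (nat_lit 80, nat_lit 25871798337)]⟩],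
  [W_19462889600, W_18405924992, W_17348960384, W_16258453568, W_15201488960, W_15201484928]⟩
theorem C_20570198145 : chkRec R_20570198145 = true := by decide +kernel

noncomputable def R_20570198208 : Rec := ⟨nat_lit 20570198208, nat_lit 34,
  [⟨V6_18405937152, [(nat_lit 99, nat_lit 20570198208), (nat_lit 14, nat_lit 21643939968), (nat_lit 8, nat_lit 21627162816), (nat_lit 10, nat_lit 22717681728), (nat_lit 105, nat_lit 22700904576), (nat_lit 9, nat_lit 23791423488), (nat_lit 28, nat_lit 23774646336), (nat_lit 49, nat_lit 24848388096)]⟩,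
   ⟨V6_17348972544, [(nat_lit 24, nat_lit 20570198208), (nat_lit 105, nat_lit 21643939968), (nat_lit 18, nat_lit 22717681728), (nat_lit 111, nat_lit 23791423488)]⟩],
  [W_20536635392, W_20519862272, W_20519858240, W_20503085120, W_20503081088, W_19462897664, W_19446116480, W_19429343360, W_18372374720, W_14110970048]⟩
theorem C_20570198208 : chkRec R_20570198208 = true := by decide +kernel

noncomputable def R_20570452098 : Rec := ⟨nat_lit 20570452098, nat_lit 21,
  [⟨V6_19446374529, [(nat_lit 4, nat_lit 20570452098), (nat_lit 81, nat_lit 21644193921), (nat_lit 73, nat_lit 21644189826), (nat_lit 69, nat_lit 21627416706), (nat_lit 16, nat_lit 22717931649), (nat_lit 34, nat_lit 22701158529), (nat_lit 80, nat_lit 22701154434), (nat_lit 42, nat_lit 22684381314), (nat_lit 83, nat_lit 23774896257), (nat_lit 84, nat_lit 23758123137), (nat_lit 1, nat_lit 23758119042), (nat_lit 32, nat_lit 23741345922), (nat_lit 34, nat_lit 24831860865), (nat_lit 98, nat_lit 24815087745), (nat_lit 29, nat_lit 24815083650), (nat_lit 89, nat_lit 25888825473)]⟩,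
   ⟨V6_18389409921, [(nat_lit 30, nat_lit 20570452098), (nat_lit 26, nat_lit 21644193921), (nat_lit 30, nat_lit 21644189826), (nat_lit 95, nat_lit 21627416706), (nat_lit 61, nat_lit 22717931649), (nat_lit 106, nat_lit 22701158529), (nat_lit 120, nat_lit 22701154434), (nat_lit 84, nat_lit 22684381314), (nat_lit 37, nat_lit 23774896257), (nat_lit 79, nat_lit 23758123137), (nat_lit 61, nat_lit 23758119042), (nat_lit 115, nat_lit 24831860865)]⟩],
  [W_20503339136, W_19495919744, W_19479404672, W_19479146624, W_19429601408, W_18422182016, W_17348960384]⟩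
theorem C_20570452098 : chkRec R_20570452098 = true := by decide +kernel

noncomputable def R_20570452161 : Rec := ⟨nat_lit 20570452161, nat_lit 27,
  [⟨V6_20503343169, [(nat_lit 84, nat_lit 20570452161), (nat_lit 31, nat_lit 21644193921), (nat_lit 26, nat_lit 21627416769), (nat_lit 47, nat_lit 22717935681), (nat_lit 18, nat_lit 22701158529), (nat_lit 108, nat_lit 22684381377), (nat_lit 31, nat_lit 23774900289), (nat_lit 42, nat_lit 23758123137), (nat_lit 83, nat_lit 23741345985), (nat_lit 38, nat_lit 24831864897), (nat_lit 3, nat_lit 24815087745), (nat_lit 87, nat_lit 24798310593), (nat_lit 76, nat_lit 25888829505), (nat_lit 10, nat_lit 25872052353), (nat_lit 43, nat_lit 26945794113)]⟩,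
   ⟨V6_19495923777, [(nat_lit 104, nat_lit 20570452161), (nat_lit 36, nat_lit 21644193921), (nat_lit 75, nat_lit 21643931841), (nat_lit 38, nat_lit 22717935681), (nat_lit 13, nat_lit 22717673601), (nat_lit 24, nat_lit 22717411521), (nat_lit 25, nat_lit 23791415361), (nat_lit 19, nat_lit 23791153281), (nat_lit 54, nat_lit 23790891201), (nat_lit 23, nat_lit 24864895041), (nat_lit 60, nat_lit 24864632961), (nat_lit 24, nat_lit 25938374721)]⟩,
   ⟨V6_19429601472, [(nat_lit 30, nat_lit 20570452161), (nat_lit 64, nat_lit 21644193984), (nat_lit 71, nat_lit 21627416769), (nat_lit 4, nat_lit 22701158592), (nat_lit 97, nat_lit 22684381377), (nat_lit 110, nat_lit 23758123200), (nat_lit 38, nat_lit 23741345985), (nat_lit 62, nat_lit 24815087808), (nat_lit 11, nat_lit 24798310593), (nat_lit 82, nat_lit 25872052416)]⟩,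
   ⟨V6_18388889793, [(nat_lit 51, nat_lit 20570452161), (nat_lit 36, nat_lit 21643931841), (nat_lit 37, nat_lit 21627416769), (nat_lit 20, nat_lit 22717411521), (nat_lit 16, nat_lit 22700896449), (nat_lit 3, nat_lit 22684381377), (nat_lit 118, nat_lit 23774376129), (nat_lit 92, nat_lit 23757861057), (nat_lit 85, nat_lit 24831340737)]⟩,
   ⟨V6_17348702400, [(nat_lit 117, nat_lit 20570452161), (nat_lit 38, nat_lit 21644193984), (nat_lit 1, nat_lit 21643931841), (nat_lit 80, nat_lit 22717673664), (nat_lit 70, nat_lit 22717411521), (nat_lit 44, nat_lit 23791153344)]⟩,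
   ⟨V6_16274960577, [(nat_lit 49, nat_lit 20570452161), (nat_lit 12, nat_lit 21643931841), (nat_lit 63, nat_lit 22717411521)]⟩],
  [W_20552888384, W_20536373312, W_20519858240, W_19479408704, W_19446378560, W_19429601408, W_14128001216]⟩
theorem C_20570452161 : chkRec R_20570452161 = true := by decide +kernel

noncomputable def R_20570456193 : Rec := ⟨nat_lit 20570456193, nat_lit 84,
  [⟨V6_18422448192, [(nat_lit 19, nat_lit 20570456193), (nat_lit 91, nat_lit 21644198016), (nat_lit 24, nat_lit 21644197953), (nat_lit 20, nat_lit 21643935873), (nat_lit 53, nat_lit 22717939776), (nat_lit 78, nat_lit 22717677696), (nat_lit 68, nat_lit 22717677633), (nat_lit 41, nat_lit 22717415553), (nat_lit 125, nat_lit 23791419456), (nat_lit 91, nat_lit 23791157376), (nat_lit 87, nat_lit 23791157313), (nat_lit 84, nat_lit 24864899136)]⟩,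
   ⟨V6_18405671040, [(nat_lit 87, nat_lit 20570456193), (nat_lit 34, nat_lit 21644198016), (nat_lit 122, nat_lit 21643935873), (nat_lit 11, nat_lit 21627420801), (nat_lit 91, nat_lit 22717677696), (nat_lit 119, nat_lit 22717415553), (nat_lit 31, nat_lit 22701162624), (nat_lit 14, nat_lit 22700900481), (nat_lit 119, nat_lit 23791157376), (nat_lit 76, nat_lit 23774642304), (nat_lit 84, nat_lit 23774380161), (nat_lit 21, nat_lit 24848121984)]⟩,
   ⟨V6_17348706369, [(nat_lit 125, nat_lit 20570456193), (nat_lit 105, nat_lit 21644197953), (nat_lit 67, nat_lit 21643935873), (nat_lit 65, nat_lit 22717677633), (nat_lit 35, nat_lit 22717415553), (nat_lit 95, nat_lit 23791157313)]⟩],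
  [W_20520116288, W_20503343168, W_20503339136, W_20503085120, W_19496181824, W_19463151680, W_19462889600, W_19446378560, W_19446374528, W_19429605440, W_19429601408, W_18389409920, W_18372640832, W_18355863680, W_15201747008]⟩
theorem C_20570456193 : chkRec R_20570456193 = true := by decide +kernel

noncomputable def R_20570456256 : Rec := ⟨nat_lit 20570456256, nat_lit 116,
  [⟨V6_19496189952, [(nat_lit 9, nat_lit 20570456256), (nat_lit 18, nat_lit 21644198016), (nat_lit 51, nat_lit 21643935936), (nat_lit 93, nat_lit 22717939776), (nat_lit 11, nat_lit 22717677696), (nat_lit 40, nat_lit 22717415616), (nat_lit 35, nat_lit 23791681536), (nat_lit 102, nat_lit 23791419456), (nat_lit 103, nat_lit 23791157376), (nat_lit 123, nat_lit 24865161216), (nat_lit 103, nat_lit 24864899136), (nat_lit 11, nat_lit 25938640896)]⟩,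
   ⟨V6_18422448192, [(nat_lit 72, nat_lit 20570456256), (nat_lit 111, nat_lit 21644198016), (nat_lit 14, nat_lit 21643935936), (nat_lit 20, nat_lit 22717939776), (nat_lit 112, nat_lit 22717677696), (nat_lit 81, nat_lit 22717415616), (nat_lit 110, nat_lit 23791419456), (nat_lit 107, nat_lit 23791157376), (nat_lit 54, nat_lit 24864899136)]⟩,
   ⟨V6_17331929280, [(nat_lit 7, nat_lit 20570456256), (nat_lit 17, nat_lit 21643935936), (nat_lit 3, nat_lit 21627420864), (nat_lit 111, nat_lit 22717415616), (nat_lit 28, nat_lit 22700900544), (nat_lit 73, nat_lit 23774380224)]⟩,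
   ⟨V6_16274964672, [(nat_lit 124, nat_lit 20570456256), (nat_lit 20, nat_lit 21643935936), (nat_lit 105, nat_lit 22717415616)]⟩],
  [W_20553150464, W_20536635392, W_20520120320, W_20503347200, W_20503343168, W_20503081088, W_19496185856, W_19463155712, W_19446382592, W_19429605440, W_18422448128, W_18372640832, W_18355863680, W_15201747008]⟩
theorem C_20570456256 : chkRec R_20570456256 = true := by decide +kernel

noncomputable def R_20570460225 : Rec := ⟨nat_lit 20570460225, nat_lit 49,
  [⟨V6_20536889409, [(nat_lit 82, nat_lit 20570460225), (nat_lit 67, nat_lit 21644197953), (nat_lit 56, nat_lit 21627424833), (nat_lit 84, nat_lit 22717935681), (nat_lit 48, nat_lit 22701162561), (nat_lit 56, nat_lit 22684389441), (nat_lit 32, nat_lit 23791673409), (nat_lit 118, nat_lit 23774900289), (nat_lit 53, nat_lit 23758127169), (nat_lit 6, nat_lit 24865411137), (nat_lit 31, nat_lit 24848638017), (nat_lit 35, nat_lit 24831864897), (nat_lit 28, nat_lit 25922375745), (nat_lit 50, nat_lit 25905602625), (nat_lit 15, nat_lit 26979340353)]⟩,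
   ⟨V6_19496702016, [(nat_lit 75, nat_lit 20570460225), (nat_lit 30, nat_lit 21644202048), (nat_lit 84, nat_lit 21644197953), (nat_lit 126, nat_lit 22717939776), (nat_lit 100, nat_lit 22717935681), (nat_lit 61, nat_lit 23791677504), (nat_lit 52, nat_lit 23791673409), (nat_lit 2, nat_lit 24865415232), (nat_lit 71, nat_lit 24865411137), (nat_lit 22, nat_lit 25939152960)]⟩,
   ⟨V6_19479924801, [(nat_lit 23, nat_lit 20570460225), (nat_lit 69, nat_lit 21644197953), (nat_lit 43, nat_lit 21627424833), (nat_lit 89, nat_lit 22717935681), (nat_lit 92, nat_lit 22701162561), (nat_lit 88, nat_lit 23791673409), (nat_lit 93, nat_lit 23774900289), (nat_lit 22, nat_lit 24865411137), (nat_lit 59, nat_lit 24848638017), (nat_lit 97, nat_lit 25922375745)]⟩],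
  [W_20520116288, W_20519858240, W_20503343168, W_20503085120, W_18372640832, W_17298903104, W_16258453568, W_15201747008, W_15201488960, W_15184973888]⟩
theorem C_20570460225 : chkRec R_20570460225 = true := by decide +kernel

noncomputable def R_20570460288 : Rec := ⟨nat_lit 20570460288, nat_lit 144,
  [⟨V6_20519866368, [(nat_lit 62, nat_lit 20570460288), (nat_lit 92, nat_lit 21644202048), (nat_lit 96, nat_lit 21643939968), (nat_lit 10, nat_lit 21627424896), (nat_lit 8, nat_lit 22717943808), (nat_lit 18, nat_lit 22717681728), (nat_lit 73, nat_lit 22701166656), (nat_lit 53, nat_lit 22700904576), (nat_lit 18, nat_lit 22684389504), (nat_lit 72, nat_lit 23791423488), (nat_lit 24, nat_lit 23774908416), (nat_lit 38, nat_lit 23774646336), (nat_lit 75, nat_lit 23758131264), (nat_lit 117, nat_lit 23757869184), (nat_lit 4, nat_lit 23741354112), (nat_lit 98, nat_lit 24848388096), (nat_lit 44, nat_lit 24831873024), (nat_lit 66, nat_lit 24831610944), (nat_lit 1, nat_lit 24815095872), (nat_lit 61, nat_lit 24814833792), (nat_lit 59, nat_lit 25905352704),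 (nat_lit 10, nat_lit 25888837632), (nat_lit 81, nat_lit 25888575552), (nat_lit 49, nat_lit 26962317312)]⟩,
   ⟨V6_20503351296, [(nat_lit 73, nat_lit 20570460288), (nat_lit 74, nat_lit 21644202048), (nat_lit 19, nat_lit 21627424896), (nat_lit 85, nat_lit 22717943808), (nat_lit 18, nat_lit 22701166656), (nat_lit 102, nat_lit 22684389504), (nat_lit 114, nat_lit 23774908416), (nat_lit 97, nat_lit 23758131264), (nat_lit 34, nat_lit 23741354112), (nat_lit 73, nat_lit 24831873024), (nat_lit 101, nat_lit 24815095872), (nat_lit 116, nat_lit 24798318720), (nat_lit 22, nat_lit 25888837632), (nat_lit 14, nat_lit 25872060480), (nat_lit 20, nat_lit 26945802240)]⟩,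
   ⟨V6_19496706048, [(nat_lit 121, nat_lit 20570460288), (nat_lit 72, nat_lit 21644202048), (nat_lit 24, nat_lit 21644198016), (nat_lit 126, nat_lit 22717943808), (nat_lit 23, nat_lit 22717939776), (nat_lit 11, nat_lit 22717935744), (nat_lit 75, nat_lit 23791681536), (nat_lit 121, nat_lit 23791677504), (nat_lit 95, nat_lit 23791673472), (nat_lit 73, nat_lit 24865419264), (nat_lit 81, nat_lit 24865415232), (nat_lit 74, nat_lit 25939156992)]⟩,
   ⟨V6_19446386688, [(nat_lit 67, nat_lit 20570460288), (nat_lit 51, nat_lit 21644202048), (nat_lit 46, nat_lit 21627424896), (nat_lit 84, nat_lit 22717943808), (nat_lit 108, nat_lit 22701166656), (nat_lit 81, nat_lit 22684389504), (nat_lit 62, nat_lit 23774908416), (nat_lit 41, nat_lit 23758131264), (nat_lit 60, nat_lit 23741354112), (nat_lit 125, nat_lit 24831873024), (nat_lit 126, nat_lit 24815095872), (nat_lit 87, nat_lit 25888837632)]⟩],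
  [W_20536893440, W_20536635392, W_20520120320, W_20520116288, W_20519854208, W_20503347200, W_20503339136, W_20503081088, W_19463155712, W_19462889600, W_19446382592, W_19446374528, W_19429609472, W_18405924992, W_16275230720, W_15201747008, W_15201488960, W_15201484928, W_15184969856, W_14127747200, W_14111232128, W_13054267520]⟩
theorem C_20570460288 : chkRec R_20570460288 = true := by decide +kernel

noncomputable def R_20570464320 : Rec := ⟨nat_lit 20570464320, nat_lit 98,
  [⟨V6_20570443776, [(nat_lit 81, nat_lit 20570464320), (nat_lit 92, nat_lit 21644206080), (nat_lit 11, nat_lit 21644202048), (nat_lit 108, nat_lit 22717943808), (nat_lit 119, nat_lit 22717939776), (nat_lit 126, nat_lit 23791681536), (nat_lit 83, nat_lit 23791677504), (nat_lit 28, nat_lit 24865419264), (nat_lit 121, nat_lit 24865415232), (nat_lit 88, nat_lit 25939156992), (nat_lit 38, nat_lit 25939152960), (nat_lit 33, nat_lit 27012894720)]⟩,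
   ⟨V6_15201755136, [(nat_lit 105, nat_lit 20570464320), (nat_lit 77, nat_lit 21644206080)]⟩],
  [W_20503347200, W_19463155712, W_19446382592, W_19429609472, W_19429605440, W_18389417984, W_18372640832, W_18355871744, W_17298907136, W_17298903104, W_17282129984, W_16225165376, W_15201747008, W_15184973888]⟩
theorem C_20570464320 : chkRec R_20570464320 = true := by decide +kernel

noncomputable def R_20570710146 : Rec := ⟨nat_lit 20570710146, nat_lit 14,
  [⟨V6_18372894849, [(nat_lit 120, nat_lit 20570710146), (nat_lit 115, nat_lit 21644451969), (nat_lit 5, nat_lit 21627674754), (nat_lit 59, nat_lit 22701416577), (nat_lit 19, nat_lit 22684639362), (nat_lit 18, nat_lit 23758381185), (nat_lit 50, nat_lit 23741603970), (nat_lit 60, nat_lit 24815345793)]⟩,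
   ⟨V6_17315930241, [(nat_lit 99, nat_lit 20570710146), (nat_lit 34, nat_lit 21644451969), (nat_lit 54, nat_lit 21627674754), (nat_lit 63, nat_lit 22701416577), (nat_lit 15, nat_lit 22684639362), (nat_lit 15, nat_lit 23758381185)]⟩],
  [W_20569399424, W_19495919744, W_19479404672, W_15202001024]⟩
theorem C_20570710146 : chkRec R_20570710146 = true := by decide +kernel

noncomputable def R_20570714241 : Rec := ⟨nat_lit 20570714241, nat_lit 70,
  [⟨V6_19446636609, [(nat_lit 70, nat_lit 20570714241), (nat_lit 1, nat_lit 21644456001), (nat_lit 64, nat_lit 21644451969), (nat_lit 9, nat_lit 21627678849), (nat_lit 75, nat_lit 22718193729), (nat_lit 124, nat_lit 22701420609), (nat_lit 78, nat_lit 22701416577), (nat_lit 82, nat_lit 22684643457), (nat_lit 50, nat_lit 23775158337), (nat_lit 19, nat_lit 23758385217), (nat_lit 9, nat_lit 23758381185), (nat_lit 11, nat_lit 23741608065), (nat_lit 105, nat_lit 24832122945), (nat_lit 28, nat_lit 24815349825), (nat_lit 102, nat_lit 24815345793), (nat_lit 46, nat_lit 25889087553)]⟩,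
   ⟨V6_18389672064, [(nat_lit 120, nat_lit 20570714241), (nat_lit 97, nat_lit 21644456064), (nat_lit 49, nat_lit 21644451969), (nat_lit 123, nat_lit 21627678849), (nat_lit 97, nat_lit 22718193792), (nat_lit 32, nat_lit 22701420672), (nat_lit 22, nat_lit 22701416577), (nat_lit 107, nat_lit 22684643457), (nat_lit 7, nat_lit 23775158400), (nat_lit 43, nat_lit 23758385280), (nat_lit 17, nat_lit 23758381185), (nat_lit 66, nat_lit 24832123008)]⟩,
   ⟨V6_18389409921, [(nat_lit 55, nat_lit 20570714241), (nat_lit 33, nat_lit 21644451969), (nat_lit 126, nat_lit 21644193921), (nat_lit 30, nat_lit 21627678849), (nat_lit 47, nat_lit 22717931649), (nat_lit 123, nat_lit 22701416577), (nat_lit 71, nat_lit 22701158529), (nat_lit 126, nat_lit 22684643457), (nat_lit 36, nat_lit 23774896257), (nat_lit 93, nat_lit 23758381185), (nat_lit 91, nat_lit 23758123137), (nat_lit 122, nat_lit 24831860865)]⟩,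
   ⟨V6_18372898881, [(nat_lit 97, nat_lit 20570714241), (nat_lit 1, nat_lit 21644456001), (nat_lit 84, nat_lit 21627678849), (nat_lit 23, nat_lit 22701420609), (nat_lit 45, nat_lit 22684643457), (nat_lit 2, nat_lit 23758385217), (nat_lit 23, nat_lit 23741608065), (nat_lit 102, nat_lit 24815349825)]⟩,
   ⟨V6_17315930241, [(nat_lit 112, nat_lit 20570714241), (nat_lit 94, nat_lit 21644451969), (nat_lit 52, nat_lit 21627678849), (nat_lit 79, nat_lit 22701416577), (nat_lit 44, nat_lit 22684643457), (nat_lit 109, nat_lit 23758381185)]⟩],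
  [W_20569661504, W_20552888384, W_20520116288, W_20519858240, W_19496181824, W_19495923776, W_19479408704, W_19463151680, W_18406187072, W_15202001024]⟩
theorem C_20570714241 : chkRec R_20570714241 = true := by decide +kernel

noncomputable def R_20570714304 : Rec := ⟨nat_lit 20570714304, nat_lit 73,
  [⟨V6_20569927680, [(nat_lit 2, nat_lit 20570714304), (nat_lit 106, nat_lit 21644456064), (nat_lit 17, nat_lit 21644193984), (nat_lit 23, nat_lit 22718197824), (nat_lit 45, nat_lit 22717935744), (nat_lit 38, nat_lit 22717673664), (nat_lit 6, nat_lit 23791939584), (nat_lit 37, nat_lit 23791677504), (nat_lit 17, nat_lit 23791415424), (nat_lit 14, nat_lit 23791153344), (nat_lit 29, nat_lit 24865419264), (nat_lit 63, nat_lit 24865157184), (nat_lit 86, nat_lit 24864895104), (nat_lit 6, nat_lit 25938898944), (nat_lit 106, nat_lit 25938636864), (nat_lit 56, nat_lit 27012378624)]⟩,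
   ⟨V6_20520382464, [(nat_lit 54, nat_lit 20570714304), (nat_lit 19, nat_lit 21644456064), (nat_lit 51, nat_lit 21627678912), (nat_lit 12, nat_lit 22718197824), (nat_lit 74, nat_lit 22701420672), (nat_lit 107, nat_lit 22684643520), (nat_lit 91, nat_lit 23791939584), (nat_lit 126, nat_lit 23775162432), (nat_lit 64, nat_lit 23758385280), (nat_lit 28, nat_lit 23741608128), (nat_lit 27, nat_lit 24848904192), (nat_lit 33, nat_lit 24832127040), (nat_lit 115, nat_lit 24815349888), (nat_lit 89, nat_lit 25905868800), (nat_lit 49, nat_lit 25889091648), (nat_lit 113, nat_lit 26962833408)]⟩,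
   ⟨V6_17348702400, [(nat_lit 72, nat_lit 20570714304), (nat_lit 121, nat_lit 21644193984), (nat_lit 68, nat_lit 22717673664), (nat_lit 25, nat_lit 23791153344)]⟩],
  [W_20569665536, W_19496185856, W_19463155712, W_19446640640, W_18422182016, W_18389676032, W_18372898880, W_17299157120, W_16225415360, W_15168450752, W_14128263296, W_14111486144]⟩
theorem C_20570714304 : chkRec R_20570714304 = true := by decide +kernel

noncomputable def R_20570718273 : Rec := ⟨nat_lit 20570718273, nat_lit 79,
  [⟨V6_20520374337, [(nat_lit 124, nat_lit 20570718273), (nat_lit 7, nat_lit 21644456001), (nat_lit 43, nat_lit 21627682881), (nat_lit 76, nat_lit 22718193729), (nat_lit 58, nat_lit 22701420609), (nat_lit 110, nat_lit 22684647489), (nat_lit 96, nat_lit 23791931457), (nat_lit 106, nat_lit 23775158337), (nat_lit 38, nat_lit 23758385217), (nat_lit 86, nat_lit 23741612097), (nat_lit 68, nat_lit 24848896065), (nat_lit 5, nat_lit 24832122945), (nat_lit 71, nat_lit 24815349825), (nat_lit 97, nat_lit 25905860673), (nat_lit 22, nat_lit 25889087553), (nat_lit 5,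 nat_lit 26962825281)]⟩,
   ⟨V6_18422448192, [(nat_lit 93, nat_lit 20570718273), (nat_lit 41, nat_lit 21644460096), (nat_lit 6, nat_lit 21644197953), (nat_lit 29, nat_lit 22717939776), (nat_lit 60, nat_lit 22717677633), (nat_lit 91, nat_lit 23791419456), (nat_lit 26, nat_lit 23791157313), (nat_lit 19, nat_lit 24864899136)]⟩,
   ⟨V6_18405670977, [(nat_lit 91, nat_lit 20570718273), (nat_lit 14, nat_lit 21644197953), (nat_lit 92, nat_lit 21627682881), (nat_lit 29, nat_lit 22717677633), (nat_lit 118, nat_lit 22701162561), (nat_lit 44, nat_lit 23791157313), (nat_lit 18, nat_lit 23774642241), (nat_lit 63, nat_lit 24848121921)]⟩,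
   ⟨V6_17348706369, [(nat_lit 66, nat_lit 20570718273), (nat_lit 58, nat_lit 21644197953), (nat_lit 20, nat_lit 22717677633), (nat_lit 97, nat_lit 23791157313)]⟩,
   ⟨V6_17299161153, [(nat_lit 38, nat_lit 20570718273), (nat_lit 66, nat_lit 21627682881), (nat_lit 83, nat_lit 22684647489), (nat_lit 59, nat_lit 23741612097)]⟩],
  [W_20520374336, W_20520116288, W_19496181824, W_19463409728, W_19463151680, W_19446636608, W_17315934272, W_16242196544, W_15201747008, W_15185231936]⟩
theorem C_20570718273 : chkRec R_20570718273 = true := by decide +kernel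

noncomputable def R_20570718336 : Rec := ⟨nat_lit 20570718336, nat_lit 214,
  [⟨V6_19496706048, [(nat_lit 103, nat_lit 20570718336), (nat_lit 57, nat_lit 21644460096), (nat_lit 47, nat_lit 21644456064), (nat_lit 51, nat_lit 21644198016), (nat_lit 122, nat_lit 22718201856), (nat_lit 55, nat_lit 22718197824), (nat_lit 83, nat_lit 22718193792), (nat_lit 48, nat_lit 22717939776), (nat_lit 12, nat_lit 22717935744), (nat_lit 107, nat_lit 23791939584), (nat_lit 125, nat_lit 23791935552), (nat_lit 51, nat_lit 23791681536), (nat_lit 65, nat_lit 23791677504), (nat_lit 118, nat_lit 23791673472), (nat_lit 47, nat_lit 24865677312), (nat_lit 116, nat_lit 24865419264), (nat_lit 62, nat_lit 24865415232), (nat_lit 60, nat_lit 25939156992)]⟩,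
   ⟨V6_19496189952, [(nat_lit 123, nat_lit 20570718336), (nat_lit 19, nat_lit 21644460096), (nat_lit 17, nat_lit 21644198016), (nat_lit 46, nat_lit 22718201856), (nat_lit 32, nat_lit 22717939776), (nat_lit 86, nat_lit 22717677696), (nat_lit 103, nat_lit 23791681536), (nat_lit 114, nat_lit 23791419456), (nat_lit 114, nat_lit 23791157376), (nat_lit 4, nat_lit 24865161216), (nat_lit 9, nat_lit 24864899136), (nat_lit 58, nat_lit 25938640896)]⟩,
   ⟨V6_18422448192, [(nat_lit 89, nat_lit 20570718336), (nat_lit 27, nat_lit 21644460096), (nat_lit 126, nat_lit 21644198016), (nat_lit 26, nat_lit 22717939776), (nat_lit 79, nat_lit 22717677696), (nat_lit 108, nat_lit 23791419456), (nat_lit 95, nat_lit 23791157376), (nat_lit 75, nat_lit 24864899136)]⟩,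
   ⟨V6_18405671040, [(nat_lit 52, nat_lit 20570718336), (nat_lit 8, nat_lit 21644198016), (nat_lit 107, nat_lit 21627682944), (nat_lit 71, nat_lit 22717677696), (nat_lit 13, nat_lit 22701162624), (nat_lit 7, nat_lit 23791157376), (nat_lit 101, nat_lit 23774642304), (nat_lit 36, nat_lit 24848121984)]⟩],
  [W_20569923584, W_20553150464, W_20536893440, W_20520120320, W_19496185856, W_19463413760, W_19463155712, W_19446636608, W_19446382592, W_18389676032, W_17315938304, W_16242196544, W_15202009088, W_15202001024, W_15185231936, W_14128267328, W_14128263296, W_13054525568]⟩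
theorem C_20570718336 : chkRec R_20570718336 = true := by decide +kernel

noncomputable def R_20570722368 : Rec := ⟨nat_lit 20570722368, nat_lit 200,
  [⟨V6_19496964096, [(nat_lit 124, nat_lit 20570722368), (nat_lit 90, nat_lit 21644464128), (nat_lit 89, nat_lit 21644460096), (nat_lit 108, nat_lit 22718201856), (nat_lit 32, nat_lit 22718197824), (nat_lit 34, nat_lit 23791939584), (nat_lit 76, nat_lit 23791935552), (nat_lit 71, nat_lit 24865677312), (nat_lit 74, nat_lit 24865673280), (nat_lit 110, nat_lit 25939415040)]⟩,
   ⟨V6_19480186944, [(nat_lit 47, nat_lit 20570722368), (nat_lit 14, nat_lit 21644460096), (nat_lit 121, nat_lit 21627686976), (nat_lit 88, nat_lit 22718197824), (nat_lit 61, nat_lit 22701424704), (nat_lit 97, nat_lit 23791935552), (nat_lit 52, nat_lit 23775162432), (nat_lit 56, nat_lit 24865673280), (nat_lit 104, nat_lit 24848900160), (nat_lit 16, nat_lit 25922637888)]⟩,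
   ⟨V6_18423226368, [(nat_lit 92, nat_lit 20570722368), (nat_lit 95, nat_lit 21644464128), (nat_lit 105, nat_lit 21644460096), (nat_lit 100, nat_lit 22718201856), (nat_lit 90, nat_lit 22718197824), (nat_lit 37, nat_lit 23791939584), (nat_lit 93, nat_lit 23791935552), (nat_lit 70, nat_lit 24865677312)]⟩,
   ⟨V6_18423222336, [(nat_lit 67, nat_lit 20570722368), (nat_lit 73, nat_lit 21644460096), (nat_lit 115, nat_lit 22718197824), (nat_lit 83, nat_lit 23791935552), (nat_lit 82, nat_lit 24865673280)]⟩],
  [W_20537151488, W_20536893440, W_20520120320, W_20520116288, W_19463413760, W_19463155712, W_19446382592, W_18389676032, W_18372640832, W_17315938304, W_17299165184, W_16242196544, W_15202009088, W_15201747008, W_15201488960, W_15185231936, W_15168458816, W_14128267328]⟩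
theorem C_20570722368 : chkRec R_20570722368 = true := by decide +kernel

noncomputable def R_20570726400 : Rec := ⟨nat_lit 20570726400, nat_lit 115,
  [⟨V6_18423226368, [(nat_lit 79, nat_lit 20570726400), (nat_lit 61, nat_lit 21644464128), (nat_lit 19, nat_lit 22718201856), (nat_lit 74, nat_lit 23791939584), (nat_lit 70, nat_lit 24865677312)]⟩,
   ⟨V6_16258719744, [(nat_lit 56, nat_lit 20570726400), (nat_lit 99, nat_lit 21644206080), (nat_lit 8, nat_lit 21627691008), (nat_lit 55, nat_lit 22701170688)]⟩],
  [W_20537151488, W_20536893440, W_20520120320, W_19480186880, W_19463155712, W_19446382592, W_18389417984]⟩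
theorem C_20570726400 : chkRec R_20570726400 = true := by decide +kernel

noncomputable def R_20570972289 : Rec := ⟨nat_lit 20570972289, nat_lit 44,
  [⟨V6_18389409921, [(nat_lit 99, nat_lit 20570972289), (nat_lit 57, nat_lit 21644451969), (nat_lit 14, nat_lit 21627936897), (nat_lit 14, nat_lit 22717931649), (nat_lit 87, nat_lit 22701416577), (nat_lit 53, nat_lit 22684901505), (nat_lit 17, nat_lit 23774896257), (nat_lit 40, nat_lit 23758381185), (nat_lit 92, nat_lit 24831860865)]⟩,
   ⟨V6_15202263168, [(nat_lit 29, nat_lit 20570972289), (nat_lit 10, nat_lit 21644714112)]⟩],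
  [W_20569661504, W_20569399424, W_19496181824, W_19495919744, W_19479404672, W_18406187072]⟩
theorem C_20570972289 : chkRec R_20570972289 = true := by decide +kernel

noncomputable def R_20570976321 : Rec := ⟨nat_lit 20570976321, nat_lit 63,
  [⟨V6_16276004928, [(nat_lit 32, nat_lit 20570976321), (nat_lit 108, nat_lit 21644718144), (nat_lit 97, nat_lit 21644714049), (nat_lit 19, nat_lit 22718455872)]⟩],
  [W_20569661504, W_20552888384, W_20536889408, W_20536373312, W_19479408704, W_19463409728, W_19463151680, W_19462893632, W_18389413952]⟩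
theorem C_20570976321 : chkRec R_20570976321 = true := by decide +kernel

noncomputable def R_20570976384 : Rec := ⟨nat_lit 20570976384, nat_lit 168,
  [⟨V6_18423226368, [(nat_lit 78, nat_lit 20570976384), (nat_lit 6, nat_lit 21644718144), (nat_lit 80, nat_lit 21644714112), (nat_lit 117, nat_lit 21644456064), (nat_lit 123, nat_lit 22718459904), (nat_lit 31, nat_lit 22718455872), (nat_lit 118, nat_lit 22718197824), (nat_lit 69, nat_lit 22718193792), (nat_lit 72, nat_lit 23792197632), (nat_lit 41, nat_lit 23791939584), (nat_lit 32, nat_lit 23791935552), (nat_lit 90, nat_lit 24865677312)]⟩,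
   ⟨V6_18406711296, [(nat_lit 11, nat_lit 20570976384), (nat_lit 26, nat_lit 21644718144), (nat_lit 37, nat_lit 21644714112), (nat_lit 19, nat_lit 21627940992), (nat_lit 125, nat_lit 22718459904), (nat_lit 5, nat_lit 22718455872), (nat_lit 22, nat_lit 22701682752), (nat_lit 23, nat_lit 22701678720), (nat_lit 13, nat_lit 23792197632), (nat_lit 102, nat_lit 23775424512), (nat_lit 11, nat_lit 23775420480), (nat_lit 105, nat_lit 24849162240)]⟩,
   ⟨V6_17349746688, [(nat_lit 31, nat_lit 20570976384), (nat_lit 67, nat_lit 21644718144), (nat_lit 52, nat_lit 21644714112), (nat_lit 11, nat_lit 22718459904), (nat_lit 1, nat_lit 22718455872), (nat_lit 126, nat_lit 23792197632)]⟩],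
  [W_20569923584, W_20569665536, W_20569661504, W_20553150464, W_20536893440, W_20536635392, W_19496185856, W_19495923776, W_19495919744, W_19479404672, W_19479146624, W_19463413760, W_19463155712, W_19463151680, W_19462889600, W_16242450560, W_16242192512, W_15168712832, W_14128263296]⟩
theorem C_20570976384 : chkRec R_20570976384 = true := by decide +kernel

noncomputable def R_20570980416 : Rec := ⟨nat_lit 20570980416, nat_lit 241,
  [⟨V6_19496964096, [(nat_lit 19, nat_lit 20570980416), (nat_lit 44, nat_lit 21644722176), (nat_lit 76, nat_lit 21644718144), (nat_lit 92, nat_lit 21644460096), (nat_lit 120, nat_lit 22718459904), (nat_lit 51, nat_lit 22718455872), (nat_lit 70, nat_lit 22718201856), (nat_lit 87, nat_lit 22718197824), (nat_lit 119, nat_lit 23792197632), (nat_lit 115, nat_lit 23792193600), (nat_lit 43, nat_lit 23791939584), (nat_lit 23, nat_lit 23791935552), (nat_lit 5, nat_lit 24865935360), (nat_lit 21, nat_lit 24865677312), (nat_lit 20, nat_lit 24865673280), (nat_lit 63, nat_lit 25939415040)]⟩,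
   ⟨V6_19496189952, [(nat_lit 102, nat_lit 20570980416), (nat_lit 9, nat_lit 21644722176), (nat_lit 65, nat_lit 21644460096), (nat_lit 56, nat_lit 22718201856), (nat_lit 24, nat_lit 22717939776), (nat_lit 120, nat_lit 23791681536), (nat_lit 111, nat_lit 23791419456), (nat_lit 3, nat_lit 24865161216), (nat_lit 34, nat_lit 24864899136), (nat_lit 115, nat_lit 25938640896)]⟩,
   ⟨V6_18423484416, [(nat_lit 68, nat_lit 20570980416), (nat_lit 57, nat_lit 21644722176), (nat_lit 66, nat_lit 21644718144), (nat_lit 62, nat_lit 22718459904), (nat_lit 103, nat_lit 22718455872), (nat_lit 67, nat_lit 23792197632), (nat_lit 101, nat_lit 23792193600), (nat_lit 125, nat_lit 24865935360)]⟩,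
   ⟨V6_18422448192, [(nat_lit 73, nat_lit 20570980416), (nat_lit 79, nat_lit 21644460096), (nat_lit 83, nat_lit 22717939776), (nat_lit 45, nat_lit 23791419456), (nat_lit 114, nat_lit 24864899136)]⟩,
   ⟨V6_18406707264, [(nat_lit 34, nat_lit 20570980416), (nat_lit 112, nat_lit 21644718144), (nat_lit 93, nat_lit 21627945024), (nat_lit 96, nat_lit 22718455872), (nat_lit 112, nat_lit 22701682752), (nat_lit 37, nat_lit 23792193600), (nat_lit 21, nat_lit 23775420480), (nat_lit 110, nat_lit 24849158208)]⟩,
   ⟨V6_17349742656, [(nat_lit 44, nat_lit 20570980416), (nat_lit 103, nat_lit 21644718144), (nat_lit 70, nat_lit 22718455872), (nat_lit 94, nat_lit 23792193600)]⟩],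
  [W_20569923584, W_20537151488, W_20536893440, W_19463413760, W_19463155712, W_18389934080, W_18389676032, W_17316196352, W_17316192320, W_17315938304, W_16242458624, W_16242454592, W_16242196544, W_15202009088, W_15185494016, W_15185231936, W_15168716864, W_14128529408, W_14128267328]⟩
theorem C_20570980416 : chkRec R_20570980416 = true := by decide +kernel

noncomputable def R_20570984448 : Rec := ⟨nat_lit 20570984448, nat_lit 170,
  [⟨V6_18423484416, [(nat_lit 3, nat_lit 20570984448), (nat_lit 117, nat_lit 21644722176), (nat_lit 26, nat_lit 22718459904), (nat_lit 53, nat_lit 23792197632), (nat_lit 34, nat_lit 24865935360)]⟩,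
   ⟨V6_18406711296, [(nat_lit 62, nat_lit 20570984448), (nat_lit 103, nat_lit 21644722176), (nat_lit 23, nat_lit 21627949056), (nat_lit 11, nat_lit 22718459904), (nat_lit 37, nat_lit 22701686784), (nat_lit 112, nat_lit 23792197632), (nat_lit 54, nat_lit 23775424512), (nat_lit 51, nat_lit 24849162240)]⟩,
   ⟨V6_17349746688, [(nat_lit 125, nat_lit 20570984448), (nat_lit 47, nat_lit 21644722176), (nat_lit 3, nat_lit 22718459904), (nat_lit 50, nat_lit 23792197632)]⟩],
  [W_20537409536, W_20537151488, W_20536893440, W_20536635392, W_19463413760, W_19463155712, W_19462897664, W_18389676032, W_18389159936, W_17315938304, W_16242458624, W_15202009088, W_15168720896]⟩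
theorem C_20570984448 : chkRec R_20570984448 = true := by decide +kernel

noncomputable def R_20571234369 : Rec := ⟨nat_lit 20571234369, nat_lit 34,
  [⟨V6_20569661505, [(nat_lit 78, nat_lit 20571234369), (nat_lit 76, nat_lit 21644714049), (nat_lit 5, nat_lit 22718193729), (nat_lit 22, nat_lit 23791673409), (nat_lit 52, nat_lit 24865153089), (nat_lit 88, nat_lit 25938632769), (nat_lit 52, nat_lit 27012112449)]⟩,
   ⟨V6_16276262976, [(nat_lit 52, nat_lit 20571234369), (nat_lit 29, nat_lit 21644976192), (nat_lit 52, nat_lit 21644972097), (nat_lit 112, nat_lit 22718713920)]⟩,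
   ⟨V6_15185748033, [(nat_lit 69, nat_lit 20571234369), (nat_lit 61, nat_lit 21628198977)]⟩],
  [W_19496181824, W_19479924800, W_18406187072]⟩
theorem C_20571234369 : chkRec R_20571234369 = true := by decide +kernel

noncomputable def R_20571234432 : Rec := ⟨nat_lit 20571234432, nat_lit 73,
  [⟨V6_16276267008, [(nat_lit 30, nat_lit 20571234432), (nat_lit 46, nat_lit 21644976192), (nat_lit 109, nat_lit 22718717952)]⟩,
   ⟨V6_16276004928, [(nat_lit 23, nat_lit 20571234432), (nat_lit 74, nat_lit 21644976192), (nat_lit 57, nat_lit 21644714112), (nat_lit 66, nat_lit 22718455872)]⟩],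
  [W_20569923584, W_20569661504, W_20569399424, W_20552884352, W_19495919744, W_19479404672, W_18422440064, W_18406449152, W_18405924992]⟩
theorem C_20571234432 : chkRec R_20571234432 = true := by decide +kernel

noncomputable def R_20571238464 : Rec := ⟨nat_lit 20571238464, nat_lit 156,
  [⟨V6_18423484416, [(nat_lit 32, nat_lit 20571238464), (nat_lit 80, nat_lit 21644980224), (nat_lit 112, nat_lit 21644976192), (nat_lit 88, nat_lit 21644718144), (nat_lit 61, nat_lit 22718717952), (nat_lit 64, nat_lit 22718713920), (nat_lit 67, nat_lit 22718459904), (nat_lit 71, nat_lit 22718455872), (nat_lit 113, nat_lit 23792455680), (nat_lit 118, nat_lit 23792197632), (nat_lit 32, nat_lit 23792193600), (nat_lit 25, nat_lit 24865935360)]⟩,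
   ⟨V6_17349746688, [(nat_lit 5, nat_lit 20571238464), (nat_lit 119, nat_lit 21644980224), (nat_lit 68, nat_lit 21644976192), (nat_lit 11, nat_lit 21644718144), (nat_lit 30, nat_lit 22718717952), (nat_lit 81, nat_lit 22718459904), (nat_lit 49, nat_lit 22718455872), (nat_lit 61, nat_lit 23792197632)]⟩,
   ⟨V6_17349742656, [(nat_lit 14, nat_lit 20571238464), (nat_lit 57, nat_lit 21644976192), (nat_lit 95, nat_lit 21644718144), (nat_lit 83, nat_lit 22718713920), (nat_lit 121, nat_lit 22718455872), (nat_lit 109, nat_lit 23792193600)]⟩],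
  [W_20570181632, W_20569923584, W_20569665536, W_20569661504, W_20553150464, W_20552888384, W_19496185856, W_19495923776, W_19480186880, W_18406707200, W_15202525184, W_15185752064, W_15185489984, W_14128787456]⟩
theorem C_20571238464 : chkRec R_20571238464 = true := by decide +kernel

noncomputable def R_20571242496 : Rec := ⟨nat_lit 20571242496, nat_lit 145,
  [⟨V6_19496189952, [(nat_lit 14, nat_lit 20571242496), (nat_lit 58, nat_lit 21644722176), (nat_lit 82, nat_lit 22718201856), (nat_lit 39, nat_lit 23791681536), (nat_lit 102, nat_lit 24865161216), (nat_lit 109, nat_lit 25938640896)]⟩,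
   ⟨V6_19480707072, [(nat_lit 46, nat_lit 20571242496), (nat_lit 3, nat_lit 21644980224), (nat_lit 59, nat_lit 21628207104), (nat_lit 98, nat_lit 22718717952), (nat_lit 21, nat_lit 22701944832), (nat_lit 23, nat_lit 23792455680), (nat_lit 31, nat_lit 23775682560), (nat_lit 117, nat_lit 24866193408), (nat_lit 29, nat_lit 24849420288), (nat_lit 31, nat_lit 25923158016)]⟩,
   ⟨V6_18423742464, [(nat_lit 33, nat_lit 20571242496), (nat_lit 76, nat_lit 21644980224), (nat_lit 119, nat_lit 22718717952), (nat_lit 59, nat_lit 23792455680), (nat_lit 32, nat_lit 24866193408)]⟩,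
   ⟨V6_17349746688, [(nat_lit 62, nat_lit 20571242496), (nat_lit 12, nat_lit 21644980224), (nat_lit 60, nat_lit 21644722176), (nat_lit 112, nat_lit 22718717952), (nat_lit 105, nat_lit 22718459904), (nat_lit 122, nat_lit 23792197632)]⟩],
  [W_20569923584, W_20553150464, W_19496185856, W_19480444928, W_19480186880, W_18406965248, W_18406707200, W_15202009088, W_15185752064, W_15185494016, W_14128787456, W_14112014336]⟩
theorem C_20571242496 : chkRec R_20571242496 = true := by decide +kernel

noncomputable def R_20571492417 : Rec := ⟨nat_lit 20571492417, nat_lit 7,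
  [⟨V6_20569919553, [(nat_lit 74, nat_lit 20571492417), (nat_lit 101, nat_lit 21644972097), (nat_lit 60, nat_lit 22718451777), (nat_lit 89, nat_lit 23791931457), (nat_lit 52, nat_lit 24865411137), (nat_lit 44, nat_lit 25938890817), (nat_lit 18, nat_lit 27012370497)]⟩,
   ⟨V6_15202783296, [(nat_lit 5, nat_lit 20571492417), (nat_lit 28, nat_lit 21645234240)]⟩],
  [W_19496439872]⟩
theorem C_20571492417 : chkRec R_20571492417 = true := by decide +kernel

noncomputable def R_20571496512 : Rec := ⟨nat_lit 20571496512, nat_lit 65,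
  [⟨V6_17349742656, [(nat_lit 60, nat_lit 20571496512), (nat_lit 61, nat_lit 21645234240), (nat_lit 24, nat_lit 21644976192), (nat_lit 99, nat_lit 22718713920), (nat_lit 103, nat_lit 22718455872), (nat_lit 99, nat_lit 23792193600)]⟩,
   ⟨V6_16276262976, [(nat_lit 5, nat_lit 20571496512), (nat_lit 88, nat_lit 21645234240), (nat_lit 112, nat_lit 21644976192), (nat_lit 101, nat_lit 22718713920)]⟩,
   ⟨V6_15202787328, [(nat_lit 32, nat_lit 20571496512), (nat_lit 15, nat_lit 21645238272)]⟩],
  [W_20570181632, W_20569923584, W_19496439872, W_19496181824, W_15202783232]⟩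
theorem C_20571496512 : chkRec R_20571496512 = true := by decide +kernel

noncomputable def R_20571500544 : Rec := ⟨nat_lit 20571500544, nat_lit 80,
  [⟨V6_18423742464, [(nat_lit 70, nat_lit 20571500544), (nat_lit 74, nat_lit 21645238272), (nat_lit 31, nat_lit 21644980224), (nat_lit 119, nat_lit 22718976000), (nat_lit 116, nat_lit 22718717952), (nat_lit 9, nat_lit 23792713728), (nat_lit 23, nat_lit 23792455680), (nat_lit 72, nat_lit 24866193408)]⟩,
   ⟨V6_16276008960, [(nat_lit 3, nat_lit 20571500544), (nat_lit 60, nat_lit 21644980224), (nat_lit 89, nat_lit 22718459904)]⟩],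
  [W_20570181632, W_20569923584, W_19496960000, W_19496185856, W_13055307776]⟩
theorem C_20571500544 : chkRec R_20571500544 = true := by decide +kernel

noncomputable def R_20586705090 : Rec := ⟨nat_lit 20586705090, nat_lit 3,
  [⟨V6_20502818946, [(nat_lit 51, nat_lit 20586705090), (nat_lit 117, nat_lit 21660446850), (nat_lit 96, nat_lit 21643669698), (nat_lit 113, nat_lit 22717411458), (nat_lit 62, nat_lit 22700634306), (nat_lit 27, nat_lit 23774376066), (nat_lit 125, nat_lit 23757598914), (nat_lit 119, nat_lit 24831340674), (nat_lit 45, nat_lit 24814563522), (nat_lit 74, nat_lit 25888305282), (nat_lit 6, nat_lit 25871528130), (nat_lit 39, nat_lit 26945269890)]⟩,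
   ⟨V6_15201218754, [(nat_lit 94, nat_lit 20586705090), (nat_lit 64, nat_lit 21643669698)]⟩,
   ⟨V6_14144254146, [(nat_lit 49, nat_lit 20586705090)]⟩],
  [W_19462631552]⟩
theorem C_20586705090 : chkRec R_20586705090 = true := by decide +kernel

noncomputable def R_20586709122 : Rec := ⟨nat_lit 20586709122, nat_lit 11,
  [⟨V6_16291741824, [(nat_lit 71, nat_lit 20586709122), (nat_lit 49, nat_lit 21660450945), (nat_lit 15, nat_lit 22734192768)]⟩],
  [W_20536369280, W_20519596160, W_20502823040, W_19479404672]⟩
theorem C_20586709122 : chkRec R_20586709122 = true := by decide +kernel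

noncomputable def R_20586709185 : Rec := ⟨nat_lit 20586709185, nat_lit 20,
  [⟨V6_16291741761, [(nat_lit 103, nat_lit 20586709185), (nat_lit 91, nat_lit 21660450945), (nat_lit 37, nat_lit 22734192705)]⟩,
   ⟨V6_15218000064, [(nat_lit 109, nat_lit 20586709185), (nat_lit 77, nat_lit 21660451008)]⟩],
  [W_20536373312, W_20519600192, W_20519596160, W_20502823040, W_19462635584, W_19462631552, W_19429081280]⟩
theorem C_20586709185 : chkRec R_20586709185 = true := by decide +kernel

noncomputable def R_20586709248 : Rec := ⟨nat_lit 20586709248, nat_lit 21,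
  [⟨V6_16258187520, [(nat_lit 30, nat_lit 20586709248), (nat_lit 97, nat_lit 21643673856), (nat_lit 89, nat_lit 22700638464)]⟩,
   ⟨V6_15201222912, [(nat_lit 92, nat_lit 20586709248), (nat_lit 14, nat_lit 21643673856)]⟩,
   ⟨V6_14144258304, [(nat_lit 15, nat_lit 20586709248)]⟩],
  [W_19479412736, W_18422448128]⟩
theorem C_20586709248 : chkRec R_20586709248 = true := by decide +kernel

noncomputable def R_20586967170 : Rec := ⟨nat_lit 20586967170, nat_lit 15,
  [⟨V6_16291995777, [(nat_lit 52, nat_lit 20586967170), (nat_lit 6, nat_lit 21660708993), (nat_lit 75, nat_lit 21660704898), (nat_lit 25, nat_lit 22734446721)]⟩],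
  [W_20552884352, W_20536369280, W_20519854208, W_20519596160, W_20503081088, W_19479146624, W_19462631552, W_19446116480]⟩
theorem C_20586967170 : chkRec R_20586967170 = true := by decide +kernel

noncomputable def R_20586967233 : Rec := ⟨nat_lit 20586967233, nat_lit 20,
  [⟨V6_19495923777, [(nat_lit 3, nat_lit 20586967233), (nat_lit 80, nat_lit 21660708993), (nat_lit 6, nat_lit 21660446913), (nat_lit 30, nat_lit 21643931841), (nat_lit 107, nat_lit 22734450753), (nat_lit 86, nat_lit 22734188673), (nat_lit 109, nat_lit 22733926593), (nat_lit 87, nat_lit 22717673601), (nat_lit 93, nat_lit 22717411521), (nat_lit 12, nat_lit 23807930433), (nat_lit 59, nat_lit 23807668353), (nat_lit 90, nat_lit 23791415361), (nat_lit 54, nat_lit 23791153281), (nat_lit 25, nat_lit 23790891201), (nat_lit 33, nat_lit 24881410113), (nat_lit 56, nat_lit 24864895041), (nat_lit 87, nat_lit 24864632961), (nat_lit 100, nat_lit 25938374721)]⟩,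
   ⟨V6_17348702400, [(nat_lit 94, nat_lit 20586967233), (nat_lit 18, nat_lit 21660709056), (nat_lit 104, nat_lit 21660446913), (nat_lit 102, nat_lit 21643931841), (nat_lit 46, nat_lit 22734188736), (nat_lit 59, nat_lit 22717673664), (nat_lit 49, nat_lit 22717411521), (nat_lit 106, nat_lit 23791153344)]⟩,
   ⟨V6_16274960577, [(nat_lit 17, nat_lit 20586967233), (nat_lit 26, nat_lit 21660446913), (nat_lit 81, nat_lit 21643931841), (nat_lit 6, nat_lit 22717411521)]⟩],
  [W_20536373312, W_20519858240, W_20503081088, W_19479408704, W_19446116480, W_18372374720]⟩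
theorem C_20586967233 : chkRec R_20586967233 = true := by decide +kernel

noncomputable def R_20586971265 : Rec := ⟨nat_lit 20586971265, nat_lit 59,
  [⟨V6_16291995777, [(nat_lit 18, nat_lit 20586971265), (nat_lit 47, nat_lit 21660708993), (nat_lit 30, nat_lit 22734446721)]⟩,
   ⟨V6_16291741824, [(nat_lit 29, nat_lit 20586971265), (nat_lit 3, nat_lit 21660713088), (nat_lit 94, nat_lit 21660450945), (nat_lit 5, nat_lit 22734192768)]⟩,
   ⟨V6_16291741761, [(nat_lit 63, nat_lit 20586971265), (nat_lit 125, nat_lit 21660713025), (nat_lit 108, nat_lit 21660450945), (nat_lit 69, nat_lit 22734192705)]⟩],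
  [W_20536631360, W_20519858240, W_20519854208, W_20519600192, W_20503085120, W_20503081088, W_19496181824, W_19462893632, W_19462889600, W_19446120512, W_19429343360, W_18439217216]⟩
theorem C_20586971265 : chkRec R_20586971265 = true := by decide +kernel

noncomputable def R_20586971328 : Rec := ⟨nat_lit 20586971328, nat_lit 79,
  [⟨V6_18439225344, [(nat_lit 6, nat_lit 20586971328), (nat_lit 61, nat_lit 21660713088), (nat_lit 81, nat_lit 21660451008), (nat_lit 71, nat_lit 22734454848), (nat_lit 91, nat_lit 22734192768), (nat_lit 35, nat_lit 23808196608), (nat_lit 49, nat_lit 23807934528), (nat_lit 32, nat_lit 24881676288)]⟩,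
   ⟨V6_17365483584, [(nat_lit 64, nat_lit 20586971328), (nat_lit 13, nat_lit 21660713088), (nat_lit 76, nat_lit 21660451008), (nat_lit 35, nat_lit 22734454848), (nat_lit 8, nat_lit 22734192768), (nat_lit 55, nat_lit 23807934528)]⟩,
   ⟨V6_16274964672, [(nat_lit 7, nat_lit 20586971328), (nat_lit 63, nat_lit 21660451008), (nat_lit 123, nat_lit 21643935936), (nat_lit 122, nat_lit 22717415616)]⟩],
  [W_20553150464, W_20536635392, W_20519596160, W_20503085120, W_20503081088, W_19496185856, W_19479412736, W_19446116480, W_19429343360, W_18439221248, W_18422448128]⟩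
theorem C_20586971328 : chkRec R_20586971328 = true := by decide +kernel

noncomputable def R_20586975297 : Rec := ⟨nat_lit 20586975297, nat_lit 27,
  [⟨V6_20553404481, [(nat_lit 67, nat_lit 20586975297), (nat_lit 43, nat_lit 21660713025), (nat_lit 35, nat_lit 21643939905), (nat_lit 26, nat_lit 22734450753), (nat_lit 78, nat_lit 22717677633), (nat_lit 102, nat_lit 22700904513), (nat_lit 19, nat_lit 23808188481), (nat_lit 86, nat_lit 23791415361), (nat_lit 86, nat_lit 23774642241), (nat_lit 120, nat_lit 24881926209), (nat_lit 77, nat_lit 24865153089), (nat_lit 68, nat_lit 24848379969), (nat_lit 96, nat_lit 25938890817), (nat_lit 101, nat_lit 25922117697), (nat_lit 112, nat_lit 26995855425)]⟩,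
   ⟨V6_20503089216, [(nat_lit 58, nat_lit 20586975297), (nat_lit 89, nat_lit 21660717120), (nat_lit 56, nat_lit 21643939905), (nat_lit 106, nat_lit 22717681728), (nat_lit 36, nat_lit 22700904513), (nat_lit 76, nat_lit 23774646336), (nat_lit 123, nat_lit 23757869121), (nat_lit 51, nat_lit 24831610944), (nat_lit 18, nat_lit 24814833729), (nat_lit 21, nat_lit 25888575552), (nat_lit 62, nat_lit 25871798337), (nat_lit 38, nat_lit 26945540160)]⟩,
   ⟨V6_19496439873, [(nat_lit 123, nat_lit 20586975297), (nat_lit 83, nat_lit 21660713025), (nat_lit 81, nat_lit 21643939905), (nat_lit 77, nat_lit 22734450753), (nat_lit 125, nat_lit 22717677633), (nat_lit 27, nat_lit 23808188481), (nat_lit 98, nat_lit 23791415361), (nat_lit 53, nat_lit 24881926209), (nat_lit 62, nat_lit 24865153089), (nat_lit 64, nat_lit 25938890817)]⟩,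
   ⟨V6_19429347393, [(nat_lit 86, nat_lit 20586975297), (nat_lit 37, nat_lit 21643939905), (nat_lit 78, nat_lit 22700904513), (nat_lit 62, nat_lit 23757869121), (nat_lit 91, nat_lit 24814833729), (nat_lit 86, nat_lit 25871798337)]⟩,
   ⟨V6_18439475265, [(nat_lit 44, nat_lit 20586975297), (nat_lit 65, nat_lit 21660713025), (nat_lit 85, nat_lit 22734450753), (nat_lit 100, nat_lit 23808188481), (nat_lit 33, nat_lit 24881926209)]⟩],
  [W_20503085120, W_19496439872, W_18372382784, W_16258453568, W_15218262080, W_15201488960, W_14144524352]⟩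
theorem C_20586975297 : chkRec R_20586975297 = true := by decide +kernel

noncomputable def R_20586975360 : Rec := ⟨nat_lit 20586975360, nat_lit 69,
  [⟨V6_17365737600, [(nat_lit 82, nat_lit 20586975360), (nat_lit 105, nat_lit 21660713088), (nat_lit 4, nat_lit 22734450816), (nat_lit 109, nat_lit 23808188544)]⟩,
   ⟨V6_16292007936, [(nat_lit 23, nat_lit 20586975360), (nat_lit 103, nat_lit 21660717120), (nat_lit 37, nat_lit 22734458880)]⟩],
  [W_20553408512, W_20536635392, W_20519862272, W_20519858240, W_20519854208, W_20503085120, W_20503081088, W_19462897664, W_19462889600, W_19446124544, W_15218266112, W_15218262080]⟩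
theorem C_20586975360 : chkRec R_20586975360 = true := by decide +kernel

noncomputable def R_20587225218 : Rec := ⟨nat_lit 20587225218, nat_lit 15,
  [⟨V6_19446374529, [(nat_lit 84, nat_lit 20587225218), (nat_lit 79, nat_lit 21660967041), (nat_lit 29, nat_lit 21644189826), (nat_lit 14, nat_lit 22717931649), (nat_lit 87, nat_lit 22701154434), (nat_lit 124, nat_lit 23774896257), (nat_lit 5, nat_lit 23758119042), (nat_lit 23, nat_lit 24831860865), (nat_lit 66, nat_lit 24815083650), (nat_lit 95, nat_lit 25888825473)]⟩,
   ⟨V6_16291995777, [(nat_lit 60, nat_lit 20587225218), (nat_lit 41, nat_lit 21660967041), (nat_lit 98, nat_lit 21660704898), (nat_lit 24, nat_lit 22734446721)]⟩],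
  [W_20569399424, W_20536369280, W_20503339136, W_19495919744, W_19446374528]⟩
theorem C_20587225218 : chkRec R_20587225218 = true := by decide +kernel

noncomputable def R_20587229313 : Rec := ⟨nat_lit 20587229313, nat_lit 76,
  [⟨V6_18439217217, [(nat_lit 8, nat_lit 20587229313), (nat_lit 117, nat_lit 21660971073), (nat_lit 33, nat_lit 21660967041), (nat_lit 71, nat_lit 21660708993), (nat_lit 72, nat_lit 22734708801), (nat_lit 72, nat_lit 22734450753), (nat_lit 33, nat_lit 22734446721), (nat_lit 10, nat_lit 22734188673), (nat_lit 16, nat_lit 23808188481), (nat_lit 100, nat_lit 23807930433), (nat_lit 113, nat_lit 23807926401), (nat_lit 25, nat_lit 24881668161)]⟩,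
   ⟨V6_17365737600, [(nat_lit 105, nat_lit 20587229313), (nat_lit 16, nat_lit 21660971136), (nat_lit 80, nat_lit 21660967041), (nat_lit 49, nat_lit 21660708993), (nat_lit 38, nat_lit 22734708864), (nat_lit 1, nat_lit 22734450816), (nat_lit 37, nat_lit 22734446721), (nat_lit 11, nat_lit 23808188544)]⟩,
   ⟨V6_16291995777, [(nat_lit 56, nat_lit 20587229313), (nat_lit 32, nat_lit 21660967041), (nat_lit 63, nat_lit 21660708993), (nat_lit 13, nat_lit 22734446721)]⟩],
  [W_20552888384, W_20536373312, W_20520116288, W_20519858240, W_20503343168, W_20503339136, W_20503081088, W_19512696896, W_19496181824, W_19495923776, W_19463151680, W_19462889600, W_19446378560, W_19446374528, W_19429601408, W_18438959168]⟩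
theorem C_20587229313 : chkRec R_20587229313 = true := by decide +kernel

noncomputable def R_20587229376 : Rec := ⟨nat_lit 20587229376, nat_lit 75,
  [⟨V6_19512963072, [(nat_lit 84, nat_lit 20587229376), (nat_lit 41, nat_lit 21660971136), (nat_lit 95, nat_lit 21660709056), (nat_lit 106, nat_lit 22734712896), (nat_lit 18, nat_lit 22734450816), (nat_lit 77, nat_lit 22734188736), (nat_lit 115, nat_lit 23808454656), (nat_lit 63, nat_lit 23808192576), (nat_lit 30, nat_lit 23807930496), (nat_lit 5, nat_lit 24881934336), (nat_lit 30, nat_lit 24881672256), (nat_lit 18, nat_lit 25955414016)]⟩,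
   ⟨V6_17366003712, [(nat_lit 24, nat_lit 20587229376), (nat_lit 105, nat_lit 21660971136), (nat_lit 18, nat_lit 22734712896), (nat_lit 111, nat_lit 23808454656)]⟩],
  [W_20553150464, W_20552888384, W_20536635392, W_20520120320, W_20519858240, W_20519596160, W_20503343168, W_20503081088, W_19512700928, W_19496185856, W_19479408704, W_19446116480, W_19429601408, W_14144516288, W_13071036608]⟩
theorem C_20587229376 : chkRec R_20587229376 = true := by decide +kernel

noncomputable def R_20587233345 : Rec := ⟨nat_lit 20587233345, nat_lit 80,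
  [⟨V6_19512954945, [(nat_lit 5, nat_lit 20587233345), (nat_lit 49, nat_lit 21660971073), (nat_lit 46, nat_lit 21660713025), (nat_lit 124, nat_lit 22734708801), (nat_lit 69, nat_lit 22734450753), (nat_lit 80, nat_lit 22734192705), (nat_lit 84, nat_lit 23808446529), (nat_lit 38, nat_lit 23808188481), (nat_lit 33, nat_lit 23807930433), (nat_lit 77, nat_lit 24881926209), (nat_lit 66, nat_lit 24881668161), (nat_lit 21, nat_lit 25955405889)]⟩,
   ⟨V6_18405670977, [(nat_lit 66, nat_lit 20587233345), (nat_lit 119, nat_lit 21660713025), (nat_lit 80, nat_lit 21644197953), (nat_lit 92, nat_lit 22734192705), (nat_lit 56, nat_lit 22717677633), (nat_lit 17, nat_lit 22701162561), (nat_lit 94, nat_lit 23791157313), (nat_lit 105, nat_lit 23774642241), (nat_lit 18, nat_lit 24848121921)]⟩,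
   ⟨V6_17365483584, [(nat_lit 68, nat_lit 20587233345), (nat_lit 21, nat_lit 21660975168), (nat_lit 44, nat_lit 21660713025), (nat_lit 91, nat_lit 22734454848), (nat_lit 32, nat_lit 22734192705), (nat_lit 31, nat_lit 23807934528)]⟩,
   ⟨V6_17348706369, [(nat_lit 3, nat_lit 20587233345), (nat_lit 28, nat_lit 21660713025), (nat_lit 23, nat_lit 21644197953), (nat_lit 73, nat_lit 22734192705), (nat_lit 43, nat_lit 22717677633), (nat_lit 86, nat_lit 23791157313)]⟩,
   ⟨V6_16291741761, [(nat_lit 60, nat_lit 20587233345), (nat_lit 108, nat_lit 21660713025), (nat_lit 59, nat_lit 22734192705)]⟩],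
  [W_20520116288, W_20519858240, W_20503343168, W_20503085120, W_19496181824, W_19479924800, W_19463151680, W_19446378560, W_18372640832, W_15201747008, W_14144782400]⟩
theorem C_20587233345 : chkRec R_20587233345 = true := by decide +kernel

noncomputable def R_20587233408 : Rec := ⟨nat_lit 20587233408, nat_lit 220,
  [⟨V6_19496189952, [(nat_lit 119, nat_lit 20587233408), (nat_lit 23, nat_lit 21660975168), (nat_lit 72, nat_lit 21660713088), (nat_lit 41, nat_lit 21644198016), (nat_lit 81, nat_lit 22734716928), (nat_lit 81, nat_lit 22734454848), (nat_lit 59, nat_lit 22734192768), (nat_lit 98, nat_lit 22717939776), (nat_lit 45, nat_lit 22717677696), (nat_lit 41, nat_lit 23808196608), (nat_lit 87, nat_lit 23807934528), (nat_lit 78, nat_lit 23791681536), (nat_lit 27, nat_lit 23791419456), (nat_lit 77, nat_lit 23791157376), (nat_lit 84, nat_lit 24881676288), (nat_lit 14, nat_lit 24865161216), (nat_lit 64, nat_lit 24864899136), (nat_lit 68, nat_lit 25938640896)]⟩,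
   ⟨V6_18439741440, [(nat_lit 116, nat_lit 20587233408), (nat_lit 91, nat_lit 21660975168), (nat_lit 120, nat_lit 21660971136), (nat_lit 52, nat_lit 22734716928), (nat_lit 107, nat_lit 22734712896), (nat_lit 25, nat_lit 22734708864), (nat_lit 12, nat_lit 23808454656), (nat_lit 65, nat_lit 23808450624), (nat_lit 99, nat_lit 24882192384)]⟩,
   ⟨V6_18439225344, [(nat_lit 106, nat_lit 20587233408), (nat_lit 105, nat_lit 21660975168), (nat_lit 109, nat_lit 21660713088), (nat_lit 122, nat_lit 22734716928), (nat_lit 20, nat_lit 22734454848), (nat_lit 106, nat_lit 22734192768), (nat_lit 59, nat_lit 23808196608), (nat_lit 49, nat_lit 23807934528), (nat_lit 42, nat_lit 24881676288)]⟩,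
   ⟨V6_17365483584, [(nat_lit 59, nat_lit 20587233408), (nat_lit 14, nat_lit 21660975168), (nat_lit 119, nat_lit 21660713088), (nat_lit 51, nat_lit 22734454848), (nat_lit 47, nat_lit 22734192768), (nat_lit 55, nat_lit 23807934528)]⟩],
  [W_20569923584, W_20553150464, W_20536893440, W_20520120320, W_20520116288, W_20519854208, W_20503347200, W_20503343168, W_20503339136, W_20503081088, W_19496185856, W_19479412736, W_19479404672, W_19463155712, W_19446382592, W_19446374528, W_19429605440, W_19429343360, W_18422448128, W_18372640832, W_18355863680, W_17365483520, W_17348706368, W_15218524160, W_14144782400]⟩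
theorem C_20587233408 : chkRec R_20587233408 = true := by decide +kernel

noncomputable def R_20587237440 : Rec := ⟨nat_lit 20587237440, nat_lit 186,
  [⟨V6_20570443776, [(nat_lit 72, nat_lit 20587237440), (nat_lit 73, nat_lit 21660979200), (nat_lit 70, nat_lit 21660975168), (nat_lit 36, nat_lit 21644202048), (nat_lit 112, nat_lit 22734716928), (nat_lit 90, nat_lit 22734712896), (nat_lit 25, nat_lit 22717943808), (nat_lit 92, nat_lit 22717939776), (nat_lit 52, nat_lit 23808454656), (nat_lit 84, nat_lit 23808450624), (nat_lit 113, nat_lit 23791681536), (nat_lit 10, nat_lit 23791677504), (nat_lit 80, nat_lit 24882192384), (nat_lit 42, nat_lit 24882188352), (nat_lit 72, nat_lit 24865419264), (nat_lit 9, nat_lit 24865415232), (nat_lit 11, nat_lit 25955930112), (nat_lit 111, nat_lit 25939156992), (nat_lit 22, nat_lit 25939152960), (nat_lit 9, nat_lit 27012894720)]⟩,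
   ⟨V6_19513479168, [(nat_lit 92, nat_lit 20587237440), (nat_lit 34, nat_lit 21660979200), (nat_lit 107, nat_lit 21660975168), (nat_lit 117, nat_lit 22734716928), (nat_lit 77, nat_lit 22734712896), (nat_lit 58, nat_lit 23808454656), (nat_lit 40, nat_lit 23808450624), (nat_lit 24, nat_lit 24882192384), (nat_lit 59, nat_lit 24882188352), (nat_lit 98, nat_lit 25955930112)]⟩,
   ⟨V6_18439741440, [(nat_lit 83, nat_lit 20587237440), (nat_lit 65, nat_lit 21660979200), (nat_lit 5, nat_lit 21660975168), (nat_lit 35, nat_lit 22734716928), (nat_lit 95, nat_lit 22734712896), (nat_lit 32, nat_lit 23808454656), (nat_lit 77, nat_lit 23808450624), (nat_lit 88, nat_lit 24882192384)]⟩],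
  [W_20536893440, W_20536635392, W_20520120320, W_20520116288, W_20503347200, W_20503343168, W_20503085120, W_19463155712, W_19446382592, W_19429609472, W_19429605440, W_18389159936, W_18372644864, W_18372640832, W_17298903104, W_16258453568, W_15218524160, W_15218266112, W_15218262080, W_15201747008, W_15201488960, W_15184973888, W_14144782400, W_14144524352, W_13071044672]⟩
theorem C_20587237440 : chkRec R_20587237440 = true := by decide +kernel

noncomputable def R_20587241472 : Rec := ⟨nat_lit 20587241472, nat_lit 89,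
  [⟨V6_20503351296, [(nat_lit 3, nat_lit 20587241472), (nat_lit 12, nat_lit 21660979200), (nat_lit 39, nat_lit 21644206080), (nat_lit 64, nat_lit 22717943808), (nat_lit 102, nat_lit 22701170688), (nat_lit 22, nat_lit 23774908416), (nat_lit 91, nat_lit 23758135296), (nat_lit 33, nat_lit 24831873024), (nat_lit 11, nat_lit 24815099904), (nat_lit 9, nat_lit 25888837632), (nat_lit 13, nat_lit 25872064512), (nat_lit 100, nat_lit 26945802240)]⟩,
   ⟨V6_17315684352, [(nat_lit 80, nat_lit 20587241472), (nat_lit 110, nat_lit 21644206080), (nat_lit 57, nat_lit 22701170688), (nat_lit 72, nat_lit 23758135296)]⟩,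
   ⟨V6_16258719744, [(nat_lit 68, nat_lit 20587241472), (nat_lit 59, nat_lit 21644206080), (nat_lit 7, nat_lit 22701170688)]⟩,
   ⟨V6_15201755136, [(nat_lit 94, nat_lit 20587241472), (nat_lit 64, nat_lit 21644206080)]⟩,
   ⟨V6_14144790528, [(nat_lit 34, nat_lit 20587241472)]⟩],
  [W_20570439680, W_20536893440, W_20520120320, W_20503347200, W_19513475072, W_19463155712, W_18355871744]⟩
theorem C_20587241472 : chkRec R_20587241472 = true := by decide +kernel

noncomputable def R_20587487361 : Rec := ⟨nat_lit 20587487361, nat_lit 53,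
  [⟨V6_18389672064, [(nat_lit 46, nat_lit 20587487361), (nat_lit 16, nat_lit 21661229184), (nat_lit 87, nat_lit 21644451969), (nat_lit 83, nat_lit 22718193792), (nat_lit 26, nat_lit 22701416577), (nat_lit 77, nat_lit 23775158400), (nat_lit 30, nat_lit 23758381185), (nat_lit 106, nat_lit 24832123008)]⟩,
   ⟨V6_17315930241, [(nat_lit 17, nat_lit 20587487361), (nat_lit 71, nat_lit 21644451969), (nat_lit 1, nat_lit 22701416577), (nat_lit 28, nat_lit 23758381185)]⟩,
   ⟨V6_16291995777, [(nat_lit 74, nat_lit 20587487361), (nat_lit 113, nat_lit 21660967041), (nat_lit 108, nat_lit 22734446721)]⟩],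
  [W_20569661504, W_20569399424, W_19512696896, W_19512434816, W_19496181824, W_19495919744, W_19463151680, W_17365475456]⟩
theorem C_20587487361 : chkRec R_20587487361 = true := by decide +kernel

noncomputable def R_20587491393 : Rec := ⟨nat_lit 20587491393, nat_lit 84,
  [⟨V6_20520374337, [(nat_lit 10, nat_lit 20587491393), (nat_lit 14, nat_lit 21661229121), (nat_lit 33, nat_lit 21644456001), (nat_lit 15, nat_lit 22734966849), (nat_lit 89, nat_lit 22718193729), (nat_lit 72, nat_lit 22701420609), (nat_lit 61, nat_lit 23791931457), (nat_lit 80, nat_lit 23775158337), (nat_lit 72, nat_lit 23758385217), (nat_lit 49, nat_lit 24848896065), (nat_lit 47, nat_lit 24832122945), (nat_lit 54, nat_lit 24815349825), (nat_lit 25, nat_lit 25905860673), (nat_lit 34, nat_lit 25889087553), (nat_lit 90, nat_lit 26962825281)]⟩,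
   ⟨V6_19480186944, [(nat_lit 39, nat_lit 20587491393), (nat_lit 89, nat_lit 21661233216), (nat_lit 6, nat_lit 21661229121), (nat_lit 25, nat_lit 21644456001), (nat_lit 12, nat_lit 22734970944), (nat_lit 96, nat_lit 22734966849), (nat_lit 52, nat_lit 22718197824), (nat_lit 70, nat_lit 22718193729), (nat_lit 94, nat_lit 22701420609), (nat_lit 89, nat_lit 23808708672), (nat_lit 30, nat_lit 23791935552), (nat_lit 71, nat_lit 23791931457), (nat_lit 120, nat_lit 23775162432), (nat_lit 29, nat_lit 23775158337), (nat_lit 100, nat_lit 24865673280), (nat_lit 53, nat_lit 24848900160), (nat_lit 101, nat_lit 24848896065), (nat_lit 125, nat_lit 25922637888)]⟩,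
   ⟨V6_19446636609, [(nat_lit 52, nat_lit 20587491393), (nat_lit 104, nat_lit 21661229121), (nat_lit 10, nat_lit 21644456001), (nat_lit 110, nat_lit 22718193729), (nat_lit 21, nat_lit 22701420609), (nat_lit 118, nat_lit 23775158337), (nat_lit 98, nat_lit 23758385217), (nat_lit 42, nat_lit 24832122945), (nat_lit 74, nat_lit 24815349825), (nat_lit 80, nat_lit 25889087553)]⟩,
   ⟨V6_18423222336, [(nat_lit 66, nat_lit 20587491393), (nat_lit 124, nat_lit 21661233216), (nat_lit 23, nat_lit 21661229121), (nat_lit 93, nat_lit 21644456001), (nat_lit 62, nat_lit 22734970944), (nat_lit 120, nat_lit 22734966849), (nat_lit 16, nat_lit 22718197824), (nat_lit 83, nat_lit 22718193729), (nat_lit 5, nat_lit 23808708672), (nat_lit 44, nat_lit 23791935552), (nat_lit 17, nat_lit 23791931457), (nat_lit 92, nat_lit 24865673280)]⟩],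
  [W_20586434624, W_20569661504, W_20552888384, W_20536373312, W_20520374336, W_20520116288, W_20519858240, W_19512696896, W_19495923776, W_19463409728, W_19463151680, W_19446378560, W_18438959168, W_18372898880, W_17315934272]⟩
theorem C_20587491393 : chkRec R_20587491393 = true := by decide +kernel

noncomputable def R_20587491456 : Rec := ⟨nat_lit 20587491456, nat_lit 204,
  [⟨V6_19512963072, [(nat_lit 60, nat_lit 20587491456), (nat_lit 96, nat_lit 21661233216), (nat_lit 126, nat_lit 21660971136), (nat_lit 72, nat_lit 22734974976), (nat_lit 28, nat_lit 22734712896), (nat_lit 107, nat_lit 22734450816), (nat_lit 106, nat_lit 23808454656), (nat_lit 68, nat_lit 23808192576), (nat_lit 68, nat_lit 23807930496), (nat_lit 67, nat_lit 24881934336), (nat_lit 119, nat_lit 24881672256), (nat_lit 19, nat_lit 25955414016)]⟩,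
   ⟨V6_18439741440, [(nat_lit 83, nat_lit 20587491456), (nat_lit 87, nat_lit 21661233216), (nat_lit 70, nat_lit 21661229184), (nat_lit 71, nat_lit 21660971136), (nat_lit 58, nat_lit 22734974976), (nat_lit 81, nat_lit 22734970944), (nat_lit 25, nat_lit 22734712896), (nat_lit 37, nat_lit 22734708864), (nat_lit 29, nat_lit 23808712704), (nat_lit 68, nat_lit 23808454656), (nat_lit 108, nat_lit 23808450624), (nat_lit 46, nat_lit 24882192384)]⟩,
   ⟨V6_17366261760, [(nat_lit 18, nat_lit 20587491456), (nat_lit 43, nat_lit 21661233216), (nat_lit 22, nat_lit 21661229184), (nat_lit 117, nat_lit 22734974976), (nat_lit 103, nat_lit 22734970944), (nat_lit 24, nat_lit 23808712704)]⟩],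
  [W_20586438656, W_20569923584, W_20569665536, W_20569661504, W_20553150464, W_20536893440, W_20520120320, W_20520116288, W_20519854208, W_19512700928, W_19512696896, W_19496185856, W_19463413760, W_19463155712, W_19446640640, W_19446636608, W_19446374528, W_18439221248, W_18422182016, W_18389676032, W_18372898880, W_16242192512, W_15202001024]⟩
theorem C_20587491456 : chkRec R_20587491456 = true := by decide +kernel

noncomputable def R_20587495488 : Rec := ⟨nat_lit 20587495488, nat_lit 294,
  [⟨V6_19513479168, [(nat_lit 118, nat_lit 20587495488), (nat_lit 81, nat_lit 21661237248), (nat_lit 125, nat_lit 21661233216), (nat_lit 86, nat_lit 21660975168), (nat_lit 70, nat_lit 22734974976), (nat_lit 7, nat_lit 22734970944), (nat_lit 12, nat_lit 22734716928), (nat_lit 90, nat_lit 22734712896), (nat_lit 26, nat_lit 23808712704), (nat_lit 15, nat_lit 23808708672), (nat_lit 102, nat_lit 23808454656), (nat_lit 37, nat_lit 23808450624), (nat_lit 38, nat_lit 24882450432), (nat_lit 44, nat_lit 24882192384), (nat_lit 66, nat_lit 24882188352), (nat_lit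 36, nat_lit 25955930112)]⟩,
   ⟨V6_19496964096, [(nat_lit 116, nat_lit 20587495488), (nat_lit 117, nat_lit 21661237248), (nat_lit 64, nat_lit 21661233216), (nat_lit 96, nat_lit 21644460096), (nat_lit 89, nat_lit 22734974976), (nat_lit 2, nat_lit 22734970944), (nat_lit 68, nat_lit 22718201856), (nat_lit 51, nat_lit 22718197824), (nat_lit 83, nat_lit 23808712704), (nat_lit 69, nat_lit 23808708672), (nat_lit 47, nat_lit 23791939584), (nat_lit 106, nat_lit 23791935552), (nat_lit 8, nat_lit 24882450432), (nat_lit 52, nat_lit 24865677312), (nat_lit 14, nat_lit 24865673280), (nat_lit 109, nat_lit 25939415040)]⟩,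
   ⟨V6_19496189952, [(nat_lit 14, nat_lit 20587495488), (nat_lit 78, nat_lit 21661237248), (nat_lit 79, nat_lit 21660975168), (nat_lit 112, nat_lit 21644460096), (nat_lit 86, nat_lit 22734716928), (nat_lit 40, nat_lit 22734454848), (nat_lit 29, nat_lit 22718201856), (nat_lit 108, nat_lit 22717939776), (nat_lit 90, nat_lit 23808196608), (nat_lit 48, nat_lit 23807934528), (nat_lit 31, nat_lit 23791681536), (nat_lit 107, nat_lit 23791419456), (nat_lit 24, nat_lit 24881676288), (nat_lit 84, nat_lit 24865161216), (nat_lit 39, nat_lit 24864899136), (nat_lit 116, nat_lit 25938640896)]⟩,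
   ⟨V6_19446644736, [(nat_lit 65, nat_lit 20587495488), (nat_lit 108, nat_lit 21661237248), (nat_lit 30, nat_lit 21644460096), (nat_lit 32, nat_lit 22718201856), (nat_lit 90, nat_lit 22701424704), (nat_lit 102, nat_lit 23775166464), (nat_lit 84, nat_lit 23758389312), (nat_lit 107, nat_lit 24832131072), (nat_lit 42, nat_lit 24815353920), (nat_lit 72, nat_lit 25889095680)]⟩,
   ⟨V6_18439999488, [(nat_lit 89, nat_lit 20587495488), (nat_lit 69, nat_lit 21661237248), (nat_lit 120, nat_lit 21661233216), (nat_lit 55, nat_lit 22734974976), (nat_lit 118, nat_lit 22734970944), (nat_lit 41, nat_lit 23808712704), (nat_lit 22, nat_lit 23808708672), (nat_lit 31, nat_lit 24882450432)]⟩,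
   ⟨V6_18439225344, [(nat_lit 83, nat_lit 20587495488), (nat_lit 46, nat_lit 21661237248), (nat_lit 68, nat_lit 21660975168), (nat_lit 48, nat_lit 22734716928), (nat_lit 82, nat_lit 22734454848), (nat_lit 18, nat_lit 23808196608), (nat_lit 119, nat_lit 23807934528), (nat_lit 12, nat_lit 24881676288)]⟩],
  [W_20586696704, W_20569923584, W_20537151488, W_20536893440, W_20520374336, W_20520116288, W_19479412736, W_19446640640, W_19446636608, W_19446382592, W_18422448128, W_18372902912, W_18372898880, W_18372640832, W_17365483520, W_17348706368, W_17315938304, W_16291741760, W_16242196544, W_15218524160, W_15218262080, W_15202009088, W_15201747008, W_15185231936, W_14145044480, W_14144782400, W_14128267328, W_13071302720]⟩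
theorem C_20587495488 : chkRec R_20587495488 = true := by decide +kernel

noncomputable def R_20587499520 : Rec := ⟨nat_lit 20587499520, nat_lit 191,
  [⟨V6_19496964096, [(nat_lit 94, nat_lit 20587499520), (nat_lit 18, nat_lit 21661237248), (nat_lit 65, nat_lit 21644464128), (nat_lit 32, nat_lit 22734974976), (nat_lit 47, nat_lit 22718201856), (nat_lit 64, nat_lit 23808712704), (nat_lit 110, nat_lit 23791939584), (nat_lit 88, nat_lit 24882450432), (nat_lit 67, nat_lit 24865677312), (nat_lit 20, nat_lit 25939415040)]⟩,
   ⟨V6_18439999488, [(nat_lit 116, nat_lit 20587499520), (nat_lit 79, nat_lit 21661237248), (nat_lit 74, nat_lit 22734974976), (nat_lit 102, nat_lit 23808712704), (nat_lit 87, nat_lit 24882450432)]⟩,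
   ⟨V6_17366261760, [(nat_lit 69, nat_lit 20587499520), (nat_lit 93, nat_lit 21661237248), (nat_lit 87, nat_lit 22734974976), (nat_lit 53, nat_lit 23808712704)]⟩],
  [W_20537151488, W_20536893440, W_20536635392, W_20520120320, W_19463413760, W_19463155712, W_19446382592, W_18389676032, W_18372644864, W_17315938304, W_15218524160, W_15202009088, W_14145044480, W_13071306752]⟩
theorem C_20587499520 : chkRec R_20587499520 = true := by decide +kernel

noncomputable def R_20587749441 : Rec := ⟨nat_lit 20587749441, nat_lit 61,
  [⟨V6_18439217217, [(nat_lit 113, nat_lit 20587749441), (nat_lit 44, nat_lit 21661229121), (nat_lit 125, nat_lit 22734708801), (nat_lit 54, nat_lit 23808188481), (nat_lit 86, nat_lit 24881668161)]⟩,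
   ⟨V6_16276004928, [(nat_lit 86, nat_lit 20587749441), (nat_lit 60, nat_lit 21661491264), (nat_lit 90, nat_lit 21644714049), (nat_lit 124, nat_lit 22718455872)]⟩],
  [W_20586434624, W_20569661504, W_19512954944, W_19512696896, W_19496439872, W_19479924800, W_19463409728, W_19463151680, W_18389930048]⟩
theorem C_20587749441 : chkRec R_20587749441 = true := by decide +kernel

noncomputable def R_20587749504 : Rec := ⟨nat_lit 20587749504, nat_lit 129,
  [⟨V6_17349746688, [(nat_lit 44, nat_lit 20587749504), (nat_lit 61, nat_lit 21661491264), (nat_lit 20, nat_lit 21644714112), (nat_lit 91, nat_lit 22735233024), (nat_lit 111, nat_lit 22718455872), (nat_lit 44, nat_lit 23792197632)]⟩,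
   ⟨V6_16292782080, [(nat_lit 74, nat_lit 20587749504), (nat_lit 105, nat_lit 21661491264), (nat_lit 108, nat_lit 22735233024)]⟩],
  [W_20586438656, W_20569923584, W_20569661504, W_20569399424, W_20536893440, W_20536369280, W_19512696896, W_19495919744, W_19479404672, W_19463413760, W_19463151680, W_19462889600, W_18389934080]⟩
theorem C_20587749504 : chkRec R_20587749504 = true := by decide +kernel

noncomputable def R_20587753536 : Rec := ⟨nat_lit 20587753536, nat_lit 270,
  [⟨V6_19513479168, [(nat_lit 109, nat_lit 20587753536), (nat_lit 65, nat_lit 21661495296), (nat_lit 105, nat_lit 21661491264), (nat_lit 82, nat_lit 21661233216), (nat_lit 10, nat_lit 22735233024), (nat_lit 126, nat_lit 22735228992), (nat_lit 105, nat_lit 22734974976), (nat_lit 16, nat_lit 22734970944), (nat_lit 45, nat_lit 22734712896), (nat_lit 16, nat_lit 23808970752), (nat_lit 85, nat_lit 23808712704), (nat_lit 45, nat_lit 23808708672), (nat_lit 105, nat_lit 23808454656), (nat_lit 68, nat_lit 23808450624), (nat_lit 33, nat_lit 24882450432), (nat_lit 115, nat_lit 24882192384),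 (nat_lit 106, nat_lit 24882188352), (nat_lit 117, nat_lit 25955930112)]⟩,
   ⟨V6_18439999488, [(nat_lit 105, nat_lit 20587753536), (nat_lit 57, nat_lit 21661495296), (nat_lit 98, nat_lit 21661491264), (nat_lit 33, nat_lit 21661233216), (nat_lit 117, nat_lit 22735233024), (nat_lit 73, nat_lit 22735228992), (nat_lit 19, nat_lit 22734974976), (nat_lit 52, nat_lit 22734970944), (nat_lit 54, nat_lit 23808970752), (nat_lit 51, nat_lit 23808712704), (nat_lit 66, nat_lit 23808708672), (nat_lit 57, nat_lit 24882450432)]⟩,
   ⟨V6_18423484416, [(nat_lit 76, nat_lit 20587753536), (nat_lit 6, nat_lit 21661495296), (nat_lit 38, nat_lit 21661491264), (nat_lit 18, nat_lit 21644718144), (nat_lit 51, nat_lit 22735233024), (nat_lit 85, nat_lit 22735228992), (nat_lit 119, nat_lit 22718459904), (nat_lit 113, nat_lit 22718455872), (nat_lit 112, nat_lit 23808970752), (nat_lit 7, nat_lit 23792197632), (nat_lit 40, nat_lit 23792193600), (nat_lit 58, nat_lit 24865935360)]⟩,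
   ⟨V6_18423222336, [(nat_lit 67, nat_lit 20587753536), (nat_lit 13, nat_lit 21661491264), (nat_lit 29, nat_lit 21661233216), (nat_lit 63, nat_lit 21644718144), (nat_lit 72, nat_lit 22735228992), (nat_lit 32, nat_lit 22734970944), (nat_lit 17, nat_lit 22718455872), (nat_lit 125, nat_lit 22718197824), (nat_lit 93, nat_lit 23808708672), (nat_lit 50, nat_lit 23792193600), (nat_lit 1, nat_lit 23791935552), (nat_lit 83, nat_lit 24865673280)]⟩,
   ⟨V6_17366519808, [(nat_lit 88, nat_lit 20587753536), (nat_lit 77, nat_lit 21661495296), (nat_lit 7, nat_lit 21661491264), (nat_lit 120, nat_lit 22735233024), (nat_lit 91, nat_lit 22735228992), (nat_lit 48, nat_lit 23808970752)]⟩],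
  [W_20586696704, W_20586438656, W_20569923584, W_20569665536, W_20569661504, W_20553150464, W_20552888384, W_20537151488, W_20536893440, W_20536635392, W_20536373312, W_19512700928, W_19496185856, W_19495923776, W_19463671808, W_19463413760, W_19463409728, W_19463155712, W_18438959168, W_18389934080, W_18389676032, W_17316196352, W_17316192320, W_16242454592, W_14128525376, W_13071560768]⟩
theorem C_20587753536 : chkRec R_20587753536 = true := by decide +kernel

noncomputable def R_20587757568 : Rec := ⟨nat_lit 20587757568, nat_lit 245,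
  [⟨V6_19496189952, [(nat_lit 67, nat_lit 20587757568), (nat_lit 118, nat_lit 21661237248), (nat_lit 96, nat_lit 21644722176), (nat_lit 50, nat_lit 22734716928), (nat_lit 56, nat_lit 22718201856), (nat_lit 78, nat_lit 23808196608), (nat_lit 24, nat_lit 23791681536), (nat_lit 13, nat_lit 24881676288), (nat_lit 115, nat_lit 24865161216), (nat_lit 35, nat_lit 25938640896)]⟩,
   ⟨V6_18439999488, [(nat_lit 6, nat_lit 20587757568), (nat_lit 36, nat_lit 21661495296), (nat_lit 36, nat_lit 21661237248), (nat_lit 38, nat_lit 22735233024), (nat_lit 98, nat_lit 22734974976), (nat_lit 84, nat_lit 23808970752), (nat_lit 81, nat_lit 23808712704), (nat_lit 75, nat_lit 24882450432)]⟩,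
   ⟨V6_18439225344, [(nat_lit 27, nat_lit 20587757568), (nat_lit 24, nat_lit 21661237248), (nat_lit 22, nat_lit 22734716928), (nat_lit 41, nat_lit 23808196608), (nat_lit 70, nat_lit 24881676288)]⟩,
   ⟨V6_18423484416, [(nat_lit 38, nat_lit 20587757568), (nat_lit 84, nat_lit 21661495296), (nat_lit 100, nat_lit 21644722176), (nat_lit 111, nat_lit 22735233024), (nat_lit 40, nat_lit 22718459904), (nat_lit 19, nat_lit 23808970752), (nat_lit 73, nat_lit 23792197632), (nat_lit 123, nat_lit 24865935360)]⟩,
   ⟨V6_17366519808, [(nat_lit 98, nat_lit 20587757568), (nat_lit 62, nat_lit 21661495296), (nat_lit 52, nat_lit 22735233024), (nat_lit 117, nat_lit 23808970752)]⟩],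
  [W_20586696704, W_20569923584, W_20537151488, W_20536893440, W_19463413760, W_19463155712, W_18389934080, W_17316196352, W_17315938304, W_16242458624, W_15218524160, W_15202009088, W_15185494016, W_14145044480, W_14128529408, W_13071564800]⟩
theorem C_20587757568 : chkRec R_20587757568 = true := by decide +kernel

noncomputable def R_20588007489 : Rec := ⟨nat_lit 20588007489, nat_lit 21,
  [⟨V6_17332965441, [(nat_lit 65, nat_lit 20588007489), (nat_lit 112, nat_lit 21661487169), (nat_lit 23, nat_lit 21644972097), (nat_lit 27, nat_lit 22718451777), (nat_lit 15, nat_lit 22701936705), (nat_lit 29, nat_lit 23775416385)]⟩,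
   ⟨V6_16276262976, [(nat_lit 45, nat_lit 20588007489), (nat_lit 120, nat_lit 21661749312), (nat_lit 53, nat_lit 21644972097), (nat_lit 121, nat_lit 22718713920)]⟩],
  [W_20586434624, W_19512954944, W_19479924800]⟩
theorem C_20588007489 : chkRec R_20588007489 = true := by decide +kernel

noncomputable def R_20588011584 : Rec := ⟨nat_lit 20588011584, nat_lit 169,
  [⟨V6_17366261760, [(nat_lit 94, nat_lit 20588011584), (nat_lit 45, nat_lit 21661753344), (nat_lit 19, nat_lit 21661491264), (nat_lit 48, nat_lit 22735233024), (nat_lit 61, nat_lit 22734970944), (nat_lit 17, nat_lit 23808712704)]⟩,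
   ⟨V6_17349742656, [(nat_lit 88, nat_lit 20588011584), (nat_lit 28, nat_lit 21661749312), (nat_lit 52, nat_lit 21661491264), (nat_lit 101, nat_lit 21644976192), (nat_lit 122, nat_lit 22735228992), (nat_lit 16, nat_lit 22718713920), (nat_lit 39, nat_lit 22718455872), (nat_lit 24, nat_lit 23792193600)]⟩,
   ⟨V6_16292782080, [(nat_lit 39, nat_lit 20588011584), (nat_lit 41, nat_lit 21661753344), (nat_lit 126, nat_lit 21661491264), (nat_lit 74, nat_lit 22735233024)]⟩],
  [W_20586696704, W_20586438656, W_20586434624, W_20586176576, W_20570181632, W_20569923584, W_20569661504, W_19512696896, W_19480186880, W_18406707200, W_17333227520, W_16276262912, W_15219298304, W_15202525184]⟩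
theorem C_20588011584 : chkRec R_20588011584 = true := by decide +kernel

noncomputable def R_20588015616 : Rec := ⟨nat_lit 20588015616, nat_lit 190,
  [⟨V6_20554186752, [(nat_lit 108, nat_lit 20588015616), (nat_lit 56, nat_lit 21661753344), (nat_lit 120, nat_lit 21661495296), (nat_lit 105, nat_lit 21644980224), (nat_lit 8, nat_lit 22735491072), (nat_lit 40, nat_lit 22735233024), (nat_lit 116, nat_lit 22718717952), (nat_lit 36, nat_lit 22718459904), (nat_lit 20, nat_lit 22701944832), (nat_lit 49, nat_lit 23809228800), (nat_lit 85, nat_lit 23808970752), (nat_lit 79, nat_lit 23792455680), (nat_lit 66, nat_lit 23792197632), (nat_lit 26, nat_lit 23775682560), (nat_lit 118, nat_lit 23775424512), (nat_lit 36, nat_lit 24882708480), (nat_lit 21, nat_lit 24866193408), (nat_lit 93, nat_lit 24865935360), (nat_lit 116, nat_lit 24849420288), (nat_lit 46, nat_lit 24849162240), (nat_lit 99, nat_lit 25939673088), (nat_lit 20, nat_lit 25923158016), (nat_lit 39, nat_lit 25922899968), (nat_lit 35, nat_lit 26996637696)]⟩,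
   ⟨V6_19512963072, [(nat_lit 119, nat_lit 20588015616), (nat_lit 112, nat_lit 21661495296), (nat_lit 62, nat_lit 22734974976), (nat_lit 14, nat_lit 23808454656), (nat_lit 105, nat_lit 24881934336), (nat_lit 101, nat_lit 25955414016)]⟩,
   ⟨V6_17366519808, [(nat_lit 112, nat_lit 20588015616), (nat_lit 75, nat_lit 21661753344), (nat_lit 125, nat_lit 21661495296), (nat_lit 29, nat_lit 22735491072), (nat_lit 79, nat_lit 22735233024), (nat_lit 110, nat_lit 23808970752)]⟩,
   ⟨V6_16292782080, [(nat_lit 120, nat_lit 20588015616), (nat_lit 68, nat_lit 21661753344), (nat_lit 44, nat_lit 21661495296), (nat_lit 114, nat_lit 22735233024)]⟩],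
  [W_20586696704, W_20586438656, W_20569923584, W_20569665536, W_20553150464, W_19496185856, W_19480444928, W_19480186880, W_18439221248, W_18406965248, W_18406707200, W_16276262912, W_15185752064, W_14145302528]⟩
theorem C_20588015616 : chkRec R_20588015616 = true := by decide +kernel

noncomputable def R_20588269632 : Rec := ⟨nat_lit 20588269632, nat_lit 57,
  [⟨V6_17366519808, [(nat_lit 70, nat_lit 20588269632), (nat_lit 32, nat_lit 21662011392), (nat_lit 106, nat_lit 21661749312), (nat_lit 97, nat_lit 22735491072), (nat_lit 29, nat_lit 22735228992), (nat_lit 119, nat_lit 23808970752)]⟩,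
   ⟨V6_15202783296, [(nat_lit 49, nat_lit 20588269632), (nat_lit 82, nat_lit 21645234240)]⟩],
  [W_20586696704, W_20570181632, W_19512954944, W_19496439872, W_14145818624]⟩
theorem C_20588269632 : chkRec R_20588269632 = true := by decide +kernel

noncomputable def R_20588273664 : Rec := ⟨nat_lit 20588273664, nat_lit 115,
  [⟨V6_18423742464, [(nat_lit 120, nat_lit 20588273664), (nat_lit 2, nat_lit 21662011392), (nat_lit 72, nat_lit 21661753344), (nat_lit 82, nat_lit 21645238272), (nat_lit 112, nat_lit 22735749120), (nat_lit 59, nat_lit 22735491072), (nat_lit 81, nat_lit 22718976000), (nat_lit 91, nat_lit 22718717952), (nat_lit 11, nat_lit 23809228800), (nat_lit 57, nat_lit 23792713728), (nat_lit 11, nat_lit 23792455680), (nat_lit 12, nat_lit 24866193408)]⟩,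
   ⟨V6_16292782080, [(nat_lit 91, nat_lit 20588273664), (nat_lit 42, nat_lit 21661753344), (nat_lit 75, nat_lit 22735233024)]⟩,
   ⟨V6_15219302400, [(nat_lit 120, nat_lit 20588273664), (nat_lit 67, nat_lit 21661753344)]⟩],
  [W_20586696704, W_20586438656, W_20570181632, W_20569923584, W_19513475072, W_19496960000, W_16276520960, W_13072080896]⟩
theorem C_20588273664 : chkRec R_20588273664 = true := by decide +kernel

noncomputable def R_20588531712 : Rec := ⟨nat_lit 20588531712, nat_lit 33,
  [⟨V6_17366519808, [(nat_lit 27, nat_lit 20588531712), (nat_lit 87, nat_lit 21662011392), (nat_lit 69, nat_lit 22735491072), (nat_lit 72, nat_lit 23808970752)]⟩],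
  [W_20586696704, W_19513475072]⟩
theorem C_20588531712 : chkRec R_20588531712 = true := by decide +kernel

noncomputable def R_20603482242 : Rec := ⟨nat_lit 20603482242, nat_lit 10,
  [⟨V6_18455732352, [(nat_lit 37, nat_lit 20603482242), (nat_lit 89, nat_lit 21677224065), (nat_lit 32, nat_lit 21677219970), (nat_lit 94, nat_lit 21676961922), (nat_lit 60, nat_lit 22750965888), (nat_lit 66, nat_lit 22750961793), (nat_lit 19, nat_lit 22750703745), (nat_lit 10, nat_lit 22750699650), (nat_lit 76, nat_lit 23824703616), (nat_lit 78, nat_lit 23824445568), (nat_lit 83, nat_lit 23824441473), (nat_lit 64, nat_lit 24898183296)]⟩],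
  [W_20536369280, W_20519596160, W_19479404672]⟩
theorem C_20603482242 : chkRec R_20603482242 = true := by decide +kernel

noncomputable def R_20603482305 : Rec := ⟨nat_lit 20603482305, nat_lit 11,
  [⟨V6_16274960577, [(nat_lit 82, nat_lit 20603482305), (nat_lit 40, nat_lit 21660446913), (nat_lit 117, nat_lit 22717411521)]⟩,
   ⟨V6_15234773184, [(nat_lit 88, nat_lit 20603482305), (nat_lit 61, nat_lit 21677224128)]⟩,
   ⟨V6_15234511041, [(nat_lit 10, nat_lit 20603482305), (nat_lit 78, nat_lit 21676961985)]⟩],
  [W_20552888384, W_20536373312, W_20519596160, W_19495923776, W_19479146624]⟩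
theorem C_20603482305 : chkRec R_20603482305 = true := by decide +kernel

noncomputable def R_20603486337 : Rec := ⟨nat_lit 20603486337, nat_lit 34,
  [⟨V6_17348706369, [(nat_lit 68, nat_lit 20603486337), (nat_lit 119, nat_lit 21677228097), (nat_lit 63, nat_lit 21660450945), (nat_lit 99, nat_lit 22734192705), (nat_lit 97, nat_lit 22717415553), (nat_lit 120, nat_lit 23791157313)]⟩,
   ⟨V6_15234777216, [(nat_lit 82, nat_lit 20603486337), (nat_lit 2, nat_lit 21677228160)]⟩],
  [W_20553146432, W_20536373312, W_20536369280, W_20519600192, W_20519596160, W_20502823040, W_19479404672, W_18422440064]⟩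
theorem C_20603486337 : chkRec R_20603486337 = true := by decide +kernel

noncomputable def R_20603486400 : Rec := ⟨nat_lit 20603486400, nat_lit 44,
  [⟨V6_17382260736, [(nat_lit 57, nat_lit 20603486400), (nat_lit 43, nat_lit 21677228160), (nat_lit 11, nat_lit 22750969920), (nat_lit 89, nat_lit 23824711680)]⟩,
   ⟨V6_14161035456, [(nat_lit 21, nat_lit 20603486400)]⟩],
  [W_20553150464, W_20519600192, W_20519596160, W_20502823040, W_19496185856, W_19462635584, W_19429081280]⟩
theorem C_20603486400 : chkRec R_20603486400 = true := by decide +kernel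

noncomputable def R_20603740290 : Rec := ⟨nat_lit 20603740290, nat_lit 12,
  [⟨V6_16291995777, [(nat_lit 26, nat_lit 20603740290), (nat_lit 45, nat_lit 21677482113), (nat_lit 36, nat_lit 21660704898), (nat_lit 125, nat_lit 22734446721)]⟩],
  [W_20536369280, W_20519854208, W_19462889600]⟩
theorem C_20603740290 : chkRec R_20603740290 = true := by decide +kernel

noncomputable def R_20603744385 : Rec := ⟨nat_lit 20603744385, nat_lit 56,
  [⟨V6_17365737600, [(nat_lit 50, nat_lit 20603744385), (nat_lit 119, nat_lit 21677486208), (nat_lit 70, nat_lit 21677482113), (nat_lit 78, nat_lit 21660708993), (nat_lit 27, nat_lit 22751223936), (nat_lit 119, nat_lit 22734450816), (nat_lit 119, nat_lit 22734446721), (nat_lit 5, nat_lit 23808188544)]⟩,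
   ⟨V6_16291995777, [(nat_lit 122, nat_lit 20603744385), (nat_lit 90, nat_lit 21677482113), (nat_lit 64, nat_lit 21660708993), (nat_lit 83, nat_lit 22734446721)]⟩],
  [W_20569661504, W_20552888384, W_20536373312, W_20519858240, W_20519596160, W_20503081088, W_19512696896, W_19496181824, W_19495923776, W_19479408704, W_19479146624, W_18438959168, W_17381994560]⟩
theorem C_20603744385 : chkRec R_20603744385 = true := by decide +kernel

noncomputable def R_20603744448 : Rec := ⟨nat_lit 20603744448, nat_lit 50,
  [⟨V6_18455998464, [(nat_lit 22, nat_lit 20603744448), (nat_lit 12, nat_lit 21677486208), (nat_lit 43, nat_lit 21677224128), (nat_lit 91, nat_lit 22751227968), (nat_lit 122, nat_lit 22750965888), (nat_lit 86, nat_lit 23824969728), (nat_lit 95, nat_lit 23824707648), (nat_lit 75, nat_lit 24898449408)]⟩],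
  [W_20569665536, W_20553150464, W_20552888384, W_20536635392, W_20519858240, W_20519596160, W_20503081088, W_19479408704, W_19446116480, W_18372374720, W_14144516288]⟩
theorem C_20603744448 : chkRec R_20603744448 = true := by decide +kernel

noncomputable def R_20603748417 : Rec := ⟨nat_lit 20603748417, nat_lit 54,
  [⟨V6_17348706369, [(nat_lit 105, nat_lit 20603748417), (nat_lit 106, nat_lit 21677228097), (nat_lit 91, nat_lit 21660713025), (nat_lit 69, nat_lit 22734192705), (nat_lit 45, nat_lit 22717677633), (nat_lit 33, nat_lit 23791157313)]⟩,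
   ⟨V6_16308518976, [(nat_lit 53, nat_lit 20603748417), (nat_lit 23, nat_lit 21677490240), (nat_lit 1, nat_lit 21677228097), (nat_lit 123, nat_lit 22750969920)]⟩,
   ⟨V6_16291741761, [(nat_lit 60, nat_lit 20603748417), (nat_lit 75, nat_lit 21677228097), (nat_lit 97, nat_lit 21660713025), (nat_lit 101, nat_lit 22734192705)]⟩],
  [W_20536631360, W_20536373312, W_20519858240, W_20503085120, W_19512954944, W_19496181824, W_19462635584, W_19446120512]⟩
theorem C_20603748417 : chkRec R_20603748417 = true := by decide +kernel

noncomputable def R_20603748480 : Rec := ⟨nat_lit 20603748480, nat_lit 147,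
  [⟨V6_18456256512, [(nat_lit 112, nat_lit 20603748480), (nat_lit 101, nat_lit 21677490240), (nat_lit 2, nat_lit 21677486208), (nat_lit 94, nat_lit 22751232000), (nat_lit 42, nat_lit 22751227968), (nat_lit 11, nat_lit 22751223936), (nat_lit 51, nat_lit 23824969728), (nat_lit 54, nat_lit 23824965696), (nat_lit 8, nat_lit 24898707456)]⟩,
   ⟨V6_17382260736, [(nat_lit 17, nat_lit 20603748480), (nat_lit 17, nat_lit 21677490240), (nat_lit 58, nat_lit 21677228160), (nat_lit 94, nat_lit 22751232000), (nat_lit 71, nat_lit 22750969920), (nat_lit 64, nat_lit 23824711680)]⟩,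
   ⟨V6_16308518976, [(nat_lit 10, nat_lit 20603748480), (nat_lit 40, nat_lit 21677490240), (nat_lit 126, nat_lit 21677228160), (nat_lit 17, nat_lit 22750969920)]⟩],
  [W_20569923584, W_20553150464, W_20536635392, W_20519854208, W_20519600192, W_20519596160, W_20503085120, W_20503081088, W_20502823040, W_19496185856, W_19479412736, W_19479404672, W_19462889600, W_19462635584, W_19446116480, W_18439221248, W_18422448128, W_15235039232]⟩
theorem C_20603748480 : chkRec R_20603748480 = true := by decide +kernel

noncomputable def R_20603752512 : Rec := ⟨nat_lit 20603752512, nat_lit 88,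
  [⟨V6_18456252480, [(nat_lit 116, nat_lit 20603752512), (nat_lit 79, nat_lit 21677490240), (nat_lit 74, nat_lit 22751227968), (nat_lit 102, nat_lit 23824965696), (nat_lit 87, nat_lit 24898703424)]⟩,
   ⟨V6_16308781056, [(nat_lit 110, nat_lit 20603752512), (nat_lit 25, nat_lit 21677494272), (nat_lit 74, nat_lit 21677490240), (nat_lit 18, nat_lit 22751232000)]⟩,
   ⟨V6_15235043328, [(nat_lit 122, nat_lit 20603752512), (nat_lit 81, nat_lit 21677494272)]⟩],
  [W_20570181632, W_20536635392, W_20519862272, W_20519858240, W_20503085120, W_19462897664, W_19446120512, W_18389159936, W_17332195328, W_16275230720, W_15235039232, W_15218266112]⟩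
theorem C_20603752512 : chkRec R_20603752512 = true := by decide +kernel

noncomputable def R_20604002433 : Rec := ⟨nat_lit 20604002433, nat_lit 55,
  [⟨V6_19446374529, [(nat_lit 90, nat_lit 20604002433), (nat_lit 31, nat_lit 21660967041), (nat_lit 52, nat_lit 22717931649), (nat_lit 96, nat_lit 23774896257), (nat_lit 87, nat_lit 24831860865), (nat_lit 124, nat_lit 25888825473)]⟩,
   ⟨V6_16291995777, [(nat_lit 37, nat_lit 20604002433), (nat_lit 112, nat_lit 21677482113), (nat_lit 82, nat_lit 21660967041), (nat_lit 36, nat_lit 22734446721)]⟩,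
   ⟨V6_15235293312, [(nat_lit 15, nat_lit 20604002433), (nat_lit 84, nat_lit 21677744256)]⟩],
  [W_20569661504, W_20569399424, W_19529211968, W_19512696896, W_19512434816, W_19496181824, W_19463151680, W_18455732288, W_18455470208]⟩
theorem C_20604002433 : chkRec R_20604002433 = true := by decide +kernel

noncomputable def R_20604006465 : Rec := ⟨nat_lit 20604006465, nat_lit 76,
  [⟨V6_20603211840, [(nat_lit 110, nat_lit 20604006465), (nat_lit 59, nat_lit 21677748288), (nat_lit 22, nat_lit 21677744193), (nat_lit 104, nat_lit 21677486145), (nat_lit 60, nat_lit 22751486016), (nat_lit 69, nat_lit 22751481921), (nat_lit 92, nat_lit 22751227968), (nat_lit 95, nat_lit 22751223873), (nat_lit 64, nat_lit 22750965825), (nat_lit 1, nat_lit 23825223744), (nat_lit 18, nat_lit 23824965696), (nat_lit 34, nat_lit 23824961601), (nat_lit 35, nat_lit 23824707648), (nat_lit 56, nat_lit 23824703553), (nat_lit 11, nat_lit 23824445505), (nat_lit 40, nat_lit 24898703424), (nat_lit 75, nat_lit 24898445376), (nat_lit 72, nat_lit 24898441281), (nat_lit 30, nat_lit 24898187328),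 (nat_lit 34, nat_lit 24898183233), (nat_lit 79, nat_lit 25972183104), (nat_lit 122, nat_lit 25971925056), (nat_lit 90, nat_lit 25971920961), (nat_lit 29, nat_lit 27045662784)]⟩,
   ⟨V6_19529732160, [(nat_lit 52, nat_lit 20604006465), (nat_lit 125, nat_lit 21677748288), (nat_lit 5, nat_lit 21677744193), (nat_lit 29, nat_lit 21677486145), (nat_lit 104, nat_lit 22751486016), (nat_lit 101, nat_lit 22751481921), (nat_lit 6, nat_lit 22751227968), (nat_lit 16, nat_lit 22751223873), (nat_lit 45, nat_lit 22750965825), (nat_lit 52, nat_lit 23825223744), (nat_lit 99, nat_lit 23824965696), (nat_lit 125, nat_lit 23824961601), (nat_lit 21, nat_lit 23824707648), (nat_lit 98, nat_lit 23824703553), (nat_lit 123, nat_lit 24898703424), (nat_lit 112, nat_lit 24898445376), (nat_lit 97, nat_lit 24898441281), (nat_lit 34, nat_lit 25972183104)]⟩,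
   ⟨V6_18456252480, [(nat_lit 62, nat_lit 20604006465), (nat_lit 10, nat_lit 21677748288), (nat_lit 52, nat_lit 21677744193), (nat_lit 41, nat_lit 21677486145), (nat_lit 110, nat_lit 22751486016), (nat_lit 125, nat_lit 22751481921), (nat_lit 104, nat_lit 22751227968), (nat_lit 70, nat_lit 22751223873), (nat_lit 16, nat_lit 23825223744), (nat_lit 18, nat_lit 23824965696), (nat_lit 9, nat_lit 23824961601), (nat_lit 72, nat_lit 24898703424)]⟩],
  [W_20536373312, W_20520116288, W_20519858240, W_20503343168, W_19529470016, W_19512696896, W_19495923776, W_19463151680, W_19446378560, W_18438959168, W_17381994560, W_16308514880, W_15235035200, W_14161555520]⟩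
theorem C_20604006465 : chkRec R_20604006465 = true := by decide +kernel

noncomputable def R_20604006528 : Rec := ⟨nat_lit 20604006528, nat_lit 199,
  [⟨V6_18455998464, [(nat_lit 34, nat_lit 20604006528), (nat_lit 84, nat_lit 21677748288), (nat_lit 11, nat_lit 21677486208), (nat_lit 123, nat_lit 22751490048), (nat_lit 16, nat_lit 22751227968), (nat_lit 34, nat_lit 22750965888), (nat_lit 98, nat_lit 23824969728), (nat_lit 90, nat_lit 23824707648), (nat_lit 59, nat_lit 24898449408)]⟩,
   ⟨V6_18439741440, [(nat_lit 11, nat_lit 20604006528), (nat_lit 1, nat_lit 21677748288), (nat_lit 110, nat_lit 21677744256), (nat_lit 108, nat_lit 21660971136), (nat_lit 56, nat_lit 22751490048), (nat_lit 98, nat_lit 22751486016), (nat_lit 14, nat_lit 22734712896), (nat_lit 73, nat_lit 22734708864), (nat_lit 78, nat_lit 23825227776), (nat_lit 41, nat_lit 23808454656), (nat_lit 33, nat_lit 23808450624), (nat_lit 1, nat_lit 24882192384)]⟩,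
   ⟨V6_17382776832, [(nat_lit 73, nat_lit 20604006528), (nat_lit 125, nat_lit 21677748288), (nat_lit 61, nat_lit 21677744256), (nat_lit 30, nat_lit 22751490048), (nat_lit 72, nat_lit 22751486016), (nat_lit 55, nat_lit 23825227776)]⟩],
  [W_20586438656, W_20569923584, W_20569665536, W_20569661504, W_20553150464, W_20536893440, W_20520120320, W_20520116288, W_20503343168, W_20503339136, W_20503081088, W_19529474048, W_19496185856, W_19479404672, W_19463155712, W_19463151680, W_19462889600, W_19446378560, W_19446374528, W_19446116480, W_15235297280]⟩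
theorem C_20604006528 : chkRec R_20604006528 = true := by decide +kernel

noncomputable def R_20604010560 : Rec := ⟨nat_lit 20604010560, nat_lit 273,
  [⟨V6_20553154560, [(nat_lit 71, nat_lit 20604010560), (nat_lit 105, nat_lit 21677752320), (nat_lit 123, nat_lit 21677490240), (nat_lit 115, nat_lit 21660975168), (nat_lit 91, nat_lit 22751232000), (nat_lit 96, nat_lit 22750969920), (nat_lit 91, nat_lit 22734716928), (nat_lit 15, nat_lit 22734454848), (nat_lit 37, nat_lit 22717939776), (nat_lit 65, nat_lit 23824711680), (nat_lit 38, nat_lit 23808196608), (nat_lit 106, nat_lit 23807934528), (nat_lit 123, nat_lit 23791681536), (nat_lit 25, nat_lit 23791419456), (nat_lit 76, nat_lit 23774904384), (nat_lit 118, nat_lit 24881676288), (nat_lit 37, nat_lit 24865161216), (nat_lit 41, nat_lit 24864899136), (nat_lit 5, nat_lit 24848646144), (nat_lit 125, nat_lit 24848384064), (nat_lit 18, nat_lit 25938640896), (nat_lit 14, nat_lit 25922125824), (nat_lit 102, nat_lit 25921863744), (nat_lit 53, nat_lit 26995605504)]⟩,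
   ⟨V6_19529732160, [(nat_lit 110, nat_lit 20604010560), (nat_lit 62, nat_lit 21677748288), (nat_lit 123, nat_lit 21677490240), (nat_lit 61, nat_lit 22751486016), (nat_lit 121, nat_lit 22751227968), (nat_lit 109, nat_lit 22750969920), (nat_lit 70, nat_lit 23825223744), (nat_lit 74, nat_lit 23824965696), (nat_lit 91, nat_lit 23824707648), (nat_lit 43, nat_lit 24898703424), (nat_lit 55, nat_lit 24898445376), (nat_lit 81, nat_lit 25972183104)]⟩,
   ⟨V6_19513479168, [(nat_lit 63, nat_lit 20604010560), (nat_lit 124, nat_lit 21677752320), (nat_lit 93, nat_lit 21677748288), (nat_lit 27, nat_lit 21660975168), (nat_lit 11, nat_lit 22751490048), (nat_lit 14, nat_lit 22751486016), (nat_lit 71, nat_lit 22734716928), (nat_lit 65, nat_lit 22734712896), (nat_lit 50, nat_lit 23825227776), (nat_lit 33, nat_lit 23825223744), (nat_lit 71, nat_lit 23808454656), (nat_lit 119, nat_lit 23808450624), (nat_lit 12, nat_lit 24898965504), (nat_lit 82, nat_lit 24882192384), (nat_lit 48, nat_lit 24882188352), (nat_lit 106, nat_lit 25955930112)]⟩,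
   ⟨V6_19496189952, [(nat_lit 98, nat_lit 20604010560), (nat_lit 17, nat_lit 21677752320), (nat_lit 114, nat_lit 21677490240), (nat_lit 44, nat_lit 21660975168), (nat_lit 44, nat_lit 22751232000), (nat_lit 97, nat_lit 22750969920), (nat_lit 22, nat_lit 22734716928), (nat_lit 84, nat_lit 22734454848), (nat_lit 62, nat_lit 22717939776), (nat_lit 117, nat_lit 23824711680), (nat_lit 27, nat_lit 23808196608), (nat_lit 109, nat_lit 23807934528), (nat_lit 103, nat_lit 23791681536), (nat_lit 34, nat_lit 23791419456), (nat_lit 35, nat_lit 24881676288), (nat_lit 5, nat_lit 24865161216), (nat_lit 64, nat_lit 24864899136), (nat_lit 110, nat_lit 25938640896)]⟩,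
   ⟨V6_18456252480, [(nat_lit 65, nat_lit 20604010560), (nat_lit 71, nat_lit 21677748288), (nat_lit 69, nat_lit 21677490240), (nat_lit 23, nat_lit 22751486016), (nat_lit 23, nat_lit 22751227968), (nat_lit 2, nat_lit 23825223744), (nat_lit 25, nat_lit 23824965696), (nat_lit 115, nat_lit 24898703424)]⟩,
   ⟨V6_18439225344, [(nat_lit 50, nat_lit 20604010560), (nat_lit 31, nat_lit 21677752320), (nat_lit 50, nat_lit 21677490240), (nat_lit 107, nat_lit 21660975168), (nat_lit 29, nat_lit 22751232000), (nat_lit 54, nat_lit 22750969920), (nat_lit 30, nat_lit 22734716928), (nat_lit 96, nat_lit 22734454848), (nat_lit 73, nat_lit 23824711680), (nat_lit 107, nat_lit 23808196608), (nat_lit 3, nat_lit 23807934528), (nat_lit 81, nat_lit 24881676288)]⟩,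
   ⟨V6_17382260736, [(nat_lit 31, nat_lit 20604010560), (nat_lit 74, nat_lit 21677752320), (nat_lit 92, nat_lit 21677490240), (nat_lit 61, nat_lit 22751232000), (nat_lit 76, nat_lit 22750969920), (nat_lit 102, nat_lit 23824711680)]⟩],
  [W_20586696704, W_20569923584, W_20536893440, W_20520116288, W_19529732096, W_19446382592, W_18422448128, W_18372640832, W_17382256640, W_17365483520, W_16308518912, W_15235297280, W_15235039232, W_15235035200, W_15218524160, W_15218262080, W_15201747008, W_14161559552, W_14161555520, W_14161297472, W_14144782400, W_13087817792]⟩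
theorem C_20604010560 : chkRec R_20604010560 = true := by decide +kernel

noncomputable def R_20604014592 : Rec := ⟨nat_lit 20604014592, nat_lit 165,
  [⟨V6_18456514560, [(nat_lit 9, nat_lit 20604014592), (nat_lit 97, nat_lit 21677752320), (nat_lit 78, nat_lit 22751490048), (nat_lit 32, nat_lit 23825227776), (nat_lit 102, nat_lit 24898965504)]⟩,
   ⟨V6_17382776832, [(nat_lit 14, nat_lit 20604014592), (nat_lit 52, nat_lit 21677752320), (nat_lit 106, nat_lit 22751490048), (nat_lit 31, nat_lit 23825227776)]⟩],
  [W_20536893440, W_20536635392, W_20520120320, W_20519862272, W_20503347200, W_19463155712, W_19462897664, W_19446382592, W_19446124544, W_19429609472, W_18389159936, W_18372644864, W_15235297280, W_15218524160, W_15218266112, W_14161559552, W_13087821824]⟩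
theorem C_20604014592 : chkRec R_20604014592 = true := by decide +kernel

noncomputable def R_20604264513 : Rec := ⟨nat_lit 20604264513, nat_lit 68,
  [⟨V6_20520374337, [(nat_lit 92, nat_lit 20604264513), (nat_lit 90, nat_lit 21678002241), (nat_lit 18, nat_lit 21661229121), (nat_lit 37, nat_lit 22734966849), (nat_lit 27, nat_lit 22718193729), (nat_lit 102, nat_lit 23791931457), (nat_lit 100, nat_lit 23775158337), (nat_lit 74, nat_lit 24848896065), (nat_lit 109, nat_lit 24832122945), (nat_lit 69, nat_lit 25905860673), (nat_lit 35, nat_lit 25889087553), (nat_lit 113, nat_lit 26962825281)]⟩,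
   ⟨V6_19446636609, [(nat_lit 47, nat_lit 20604264513), (nat_lit 43, nat_lit 21661229121), (nat_lit 109, nat_lit 22718193729), (nat_lit 84, nat_lit 23775158337), (nat_lit 92, nat_lit 24832122945), (nat_lit 45, nat_lit 25889087553)]⟩,
   ⟨V6_18439217217, [(nat_lit 91, nat_lit 20604264513), (nat_lit 72, nat_lit 21677744193), (nat_lit 36, nat_lit 21661229121), (nat_lit 95, nat_lit 22751223873), (nat_lit 111, nat_lit 22734708801), (nat_lit 55, nat_lit 23824703553), (nat_lit 59, nat_lit 23808188481), (nat_lit 26, nat_lit 24881668161)]⟩,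
   ⟨V6_17382510657, [(nat_lit 36, nat_lit 20604264513), (nat_lit 35, nat_lit 21678002241), (nat_lit 40, nat_lit 21677744193), (nat_lit 40, nat_lit 22751481921), (nat_lit 109, nat_lit 22751223873), (nat_lit 13, nat_lit 23824961601)]⟩,
   ⟨V6_16309293120, [(nat_lit 35, nat_lit 20604264513), (nat_lit 105, nat_lit 21678006336), (nat_lit 35, nat_lit 21678002241), (nat_lit 7, nat_lit 22751744064)]⟩],
  [W_20602949696, W_20586434624, W_20569661504, W_19512696896, W_19496181824, W_19463151680, W_18406187072, W_14161813568]⟩
theorem C_20604264513 : chkRec R_20604264513 = true := by decide +kernel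

noncomputable def R_20604264576 : Rec := ⟨nat_lit 20604264576, nat_lit 146,
  [⟨V6_17366261760, [(nat_lit 81, nat_lit 20604264576), (nat_lit 113, nat_lit 21678006336), (nat_lit 36, nat_lit 21661229184), (nat_lit 102, nat_lit 22751748096), (nat_lit 69, nat_lit 22734970944), (nat_lit 75, nat_lit 23808712704)]⟩,
   ⟨V6_16309297152, [(nat_lit 111, nat_lit 20604264576), (nat_lit 94, nat_lit 21678006336), (nat_lit 35, nat_lit 22751748096)]⟩],
  [W_20586438656, W_20569923584, W_20569661504, W_20536893440, W_20536369280, W_20520116288, W_20519854208, W_19529211968, W_19512696896, W_19495919744, W_19479404672, W_19463413760, W_19463151680, W_19462889600, W_19446636608, W_19446374528, W_18422440064, W_13088071808]⟩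
theorem C_20604264576 : chkRec R_20604264576 = true := by decide +kernel

noncomputable def R_20604268608 : Rec := ⟨nat_lit 20604268608, nat_lit 296,
  [⟨V6_19513479168, [(nat_lit 50, nat_lit 20604268608), (nat_lit 96, nat_lit 21678010368), (nat_lit 109, nat_lit 21678006336), (nat_lit 86, nat_lit 21677748288), (nat_lit 92, nat_lit 21661233216), (nat_lit 17, nat_lit 22751748096), (nat_lit 15, nat_lit 22751744064), (nat_lit 33, nat_lit 22751490048), (nat_lit 63, nat_lit 22751486016), (nat_lit 11, nat_lit 22734974976), (nat_lit 87, nat_lit 22734970944), (nat_lit 60, nat_lit 22734712896), (nat_lit 94, nat_lit 23825485824), (nat_lit 123, nat_lit 23825227776), (nat_lit 73, nat_lit 23825223744), (nat_lit 123, nat_lit 23808712704), (nat_lit 46, nat_lit 23808708672), (nat_lit 37, nat_lit 23808454656), (nat_lit 17, nat_lit 23808450624), (nat_lit 59, nat_lit 24898965504), (nat_lit 40, nat_lit 24882450432), (nat_lit 11, nat_lit 24882192384), (nat_lit 14, nat_lit 24882188352), (nat_lit 32, nat_lit 25955930112)]⟩,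
   ⟨V6_19496964096, [(nat_lit 125, nat_lit 20604268608), (nat_lit 122, nat_lit 21678010368), (nat_lit 124, nat_lit 21678006336), (nat_lit 104, nat_lit 21661233216), (nat_lit 63, nat_lit 22751748096), (nat_lit 72, nat_lit 22751744064), (nat_lit 92, nat_lit 22734974976), (nat_lit 43, nat_lit 22734970944), (nat_lit 58, nat_lit 22718197824), (nat_lit 16, nat_lit 23825485824), (nat_lit 124, nat_lit 23808712704), (nat_lit 110, nat_lit 23808708672), (nat_lit 69, nat_lit 23791939584), (nat_lit 11, nat_lit 23791935552), (nat_lit 102, nat_lit 24882450432), (nat_lit 67, nat_lit 24865677312), (nat_lit 68, nat_lit 24865673280), (nat_lit 25, nat_lit 25939415040)]⟩,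
   ⟨V6_18456252480, [(nat_lit 4, nat_lit 20604268608), (nat_lit 1, nat_lit 21678006336), (nat_lit 52, nat_lit 21677748288), (nat_lit 36, nat_lit 22751744064), (nat_lit 40, nat_lit 22751486016), (nat_lit 8, nat_lit 22751227968), (nat_lit 66, nat_lit 23825223744), (nat_lit 101, nat_lit 23824965696), (nat_lit 122, nat_lit 24898703424)]⟩,
   ⟨V6_18439999488, [(nat_lit 23, nat_lit 20604268608), (nat_lit 18, nat_lit 21678010368), (nat_lit 95, nat_lit 21678006336), (nat_lit 68, nat_lit 21661233216), (nat_lit 16, nat_lit 22751748096), (nat_lit 37, nat_lit 22751744064), (nat_lit 54, nat_lit 22734974976), (nat_lit 124, nat_lit 22734970944), (nat_lit 60, nat_lit 23825485824), (nat_lit 23, nat_lit 23808712704), (nat_lit 59, nat_lit 23808708672), (nat_lit 46, nat_lit 24882450432)]⟩,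
   ⟨V6_17383034880, [(nat_lit 39, nat_lit 20604268608), (nat_lit 50, nat_lit 21678010368), (nat_lit 120, nat_lit 21678006336), (nat_lit 7, nat_lit 22751748096), (nat_lit 36, nat_lit 22751744064), (nat_lit 79, nat_lit 23825485824)]⟩],
  [W_20603211776, W_20586696704, W_20586438656, W_20569923584, W_20569665536, W_20569661504, W_20553150464, W_20552888384, W_20537151488, W_20536893440, W_20536635392, W_20536373312, W_20520378368, W_20520374336, W_20520120320, W_20520116288, W_20519858240, W_19529474048, W_19446640640, W_19446636608, W_18455736320, W_18438959168, W_18372898880, W_17382256640, W_17381994560, W_16308514880, W_15235551296, W_15235297280, W_15235035200, W_14161817600, W_14161813568, W_14161555520, W_13088075840]⟩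
theorem C_20604268608 : chkRec R_20604268608 = true := by decide +kernel

noncomputable def R_20604272640 : Rec := ⟨nat_lit 20604272640, nat_lit 268,
  [⟨V6_19496189952, [(nat_lit 30, nat_lit 20604272640), (nat_lit 75, nat_lit 21677752320), (nat_lit 57, nat_lit 21661237248), (nat_lit 96, nat_lit 22751232000), (nat_lit 74, nat_lit 22734716928), (nat_lit 121, nat_lit 22718201856), (nat_lit 61, nat_lit 23824711680), (nat_lit 95, nat_lit 23808196608), (nat_lit 120, nat_lit 23791681536), (nat_lit 105, nat_lit 24881676288), (nat_lit 80, nat_lit 24865161216), (nat_lit 117, nat_lit 25938640896)]⟩,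
   ⟨V6_18456772608, [(nat_lit 13, nat_lit 20604272640), (nat_lit 3, nat_lit 21678010368), (nat_lit 120, nat_lit 22751748096), (nat_lit 4, nat_lit 23825485824), (nat_lit 28, nat_lit 24899223552)]⟩,
   ⟨V6_18439999488, [(nat_lit 97, nat_lit 20604272640), (nat_lit 115, nat_lit 21678010368), (nat_lit 26, nat_lit 21661237248), (nat_lit 67, nat_lit 22751748096), (nat_lit 108, nat_lit 22734974976), (nat_lit 52, nat_lit 23825485824), (nat_lit 100, nat_lit 23808712704), (nat_lit 109, nat_lit 24882450432)]⟩,
   ⟨V6_18439225344, [(nat_lit 25, nat_lit 20604272640), (nat_lit 77, nat_lit 21677752320), (nat_lit 102, nat_lit 21661237248), (nat_lit 121, nat_lit 22751232000), (nat_lit 124, nat_lit 22734716928), (nat_lit 50, nat_lit 23824711680), (nat_lit 19, nat_lit 23808196608), (nat_lit 116, nat_lit 24881676288)]⟩,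
   ⟨V6_17383034880, [(nat_lit 47, nat_lit 20604272640), (nat_lit 9, nat_lit 21678010368), (nat_lit 69, nat_lit 22751748096), (nat_lit 60, nat_lit 23825485824)]⟩,
   ⟨V6_17382260736, [(nat_lit 109, nat_lit 20604272640), (nat_lit 65, nat_lit 21677752320), (nat_lit 110, nat_lit 22751232000), (nat_lit 89, nat_lit 23824711680)]⟩],
  [W_20586696704, W_20569923584, W_20537151488, W_20536893440, W_19529732096, W_19463413760, W_19446382592, W_17382256640, W_17315938304, W_15235297280, W_15235039232, W_15218524160, W_15202009088, W_14161817600, W_14161559552, W_14145044480, W_13088079872]⟩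
theorem C_20604272640 : chkRec R_20604272640 = true := by decide +kernel

noncomputable def R_20604522561 : Rec := ⟨nat_lit 20604522561, nat_lit 25,
  [⟨V6_17382510657, [(nat_lit 70, nat_lit 20604522561), (nat_lit 104, nat_lit 21678002241), (nat_lit 110, nat_lit 22751481921), (nat_lit 36, nat_lit 23824961601)]⟩,
   ⟨V6_17332965441, [(nat_lit 106, nat_lit 20604522561), (nat_lit 35, nat_lit 21661487169), (nat_lit 106, nat_lit 22718451777), (nat_lit 16, nat_lit 23775416385)]⟩,
   ⟨V6_15235813440, [(nat_lit 47, nat_lit 20604522561), (nat_lit 60, nat_lit 21678264384)]⟩],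
  [W_20602949696, W_20586434624, W_20536889408, W_19512954944, W_19463409728]⟩
theorem C_20604522561 : chkRec R_20604522561 = true := by decide +kernel

noncomputable def R_20604526656 : Rec := ⟨nat_lit 20604526656, nat_lit 239,
  [⟨V6_18456256512, [(nat_lit 34, nat_lit 20604526656), (nat_lit 76, nat_lit 21678268416), (nat_lit 44, nat_lit 21678006336), (nat_lit 57, nat_lit 22751748096), (nat_lit 62, nat_lit 22751486016), (nat_lit 64, nat_lit 23825227776), (nat_lit 5, nat_lit 23824965696), (nat_lit 8, nat_lit 24898707456)]⟩,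
   ⟨V6_18406707264, [(nat_lit 16, nat_lit 20604526656), (nat_lit 26, nat_lit 21678264384), (nat_lit 50, nat_lit 21661491264), (nat_lit 1, nat_lit 22735228992), (nat_lit 8, nat_lit 22718455872), (nat_lit 64, nat_lit 23792193600), (nat_lit 91, nat_lit 23775420480), (nat_lit 67, nat_lit 24849158208)]⟩,
   ⟨V6_17383034880, [(nat_lit 78, nat_lit 20604526656), (nat_lit 91, nat_lit 21678268416), (nat_lit 51, nat_lit 21678264384), (nat_lit 115, nat_lit 21678006336), (nat_lit 37, nat_lit 22752006144), (nat_lit 116, nat_lit 22751748096), (nat_lit 108, nat_lit 22751744064), (nat_lit 5, nat_lit 23825485824)]⟩,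
   ⟨V6_17382776832, [(nat_lit 122, nat_lit 20604526656), (nat_lit 48, nat_lit 21678268416), (nat_lit 16, nat_lit 21678006336), (nat_lit 68, nat_lit 22751748096), (nat_lit 95, nat_lit 22751486016), (nat_lit 9, nat_lit 23825227776)]⟩],
  [W_20603211776, W_20602949696, W_20586696704, W_20586438656, W_20586434624, W_20569923584, W_20569661504, W_20537151488, W_20536893440, W_19529732096, W_19529474048, W_19529211968, W_19463671808, W_19463413760, W_19463409728, W_18389934080, W_18389930048, W_17332965440, W_17316192320, W_15235551296, W_14162071616, W_14161813568, W_13088333888]⟩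
theorem C_20604526656 : chkRec R_20604526656 = true := by decide +kernel

noncomputable def R_20604530688 : Rec := ⟨nat_lit 20604530688, nat_lit 272,
  [⟨V6_20554186752, [(nat_lit 85, nat_lit 20604530688), (nat_lit 124, nat_lit 21678268416), (nat_lit 4, nat_lit 21661495296), (nat_lit 111, nat_lit 22752006144), (nat_lit 78, nat_lit 22735233024), (nat_lit 102, nat_lit 22718459904), (nat_lit 35, nat_lit 23825743872), (nat_lit 61, nat_lit 23808970752), (nat_lit 81, nat_lit 23792197632), (nat_lit 55, nat_lit 23775424512), (nat_lit 48, nat_lit 24882708480), (nat_lit 85, nat_lit 24865935360), (nat_lit 65, nat_lit 24849162240), (nat_lit 44, nat_lit 25939673088), (nat_lit 31, nat_lit 25922899968), (nat_lit 24, nat_lit 26996637696)]⟩,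
   ⟨V6_18456772608, [(nat_lit 93, nat_lit 20604530688), (nat_lit 104, nat_lit 21678268416), (nat_lit 31, nat_lit 21678010368), (nat_lit 48, nat_lit 22752006144), (nat_lit 3, nat_lit 22751748096), (nat_lit 11, nat_lit 23825743872), (nat_lit 93, nat_lit 23825485824), (nat_lit 66, nat_lit 24899223552)]⟩,
   ⟨V6_18439999488, [(nat_lit 96, nat_lit 20604530688), (nat_lit 38, nat_lit 21678268416), (nat_lit 3, nat_lit 21678010368), (nat_lit 27, nat_lit 21661495296), (nat_lit 52, nat_lit 22752006144), (nat_lit 62, nat_lit 22751748096), (nat_lit 84, nat_lit 22735233024), (nat_lit 49, nat_lit 22734974976), (nat_lit 66, nat_lit 23825485824), (nat_lit 72, nat_lit 23808970752), (nat_lit 106, nat_lit 23808712704), (nat_lit 61, nat_lit 24882450432)]⟩,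
   ⟨V6_18423484416, [(nat_lit 109, nat_lit 20604530688), (nat_lit 92, nat_lit 21678268416), (nat_lit 63, nat_lit 21661495296), (nat_lit 76, nat_lit 22752006144), (nat_lit 105, nat_lit 22735233024), (nat_lit 98, nat_lit 22718459904), (nat_lit 107, nat_lit 23808970752), (nat_lit 94, nat_lit 23792197632), (nat_lit 65, nat_lit 24865935360)]⟩,
   ⟨V6_17383034880, [(nat_lit 23, nat_lit 20604530688), (nat_lit 54, nat_lit 21678268416), (nat_lit 93, nat_lit 21678010368), (nat_lit 2, nat_lit 22752006144), (nat_lit 43, nat_lit 22751748096), (nat_lit 125, nat_lit 23825485824)]⟩,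
   ⟨V6_17366519808, [(nat_lit 106, nat_lit 20604530688), (nat_lit 19, nat_lit 21678268416), (nat_lit 110, nat_lit 21661495296), (nat_lit 31, nat_lit 22752006144), (nat_lit 8, nat_lit 22735233024), (nat_lit 64, nat_lit 23808970752)]⟩],
  [W_20569665536, W_20553150464, W_20537151488, W_20536893440, W_20536635392, W_19529732096, W_19529474048, W_19512700928, W_19496185856, W_19463671808, W_19463413760, W_19463155712, W_18455736320, W_18389934080, W_18389676032, W_17382256640, W_17316196352, W_15235297280, W_14161817600, W_13088337920]⟩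
theorem C_20604530688 : chkRec R_20604530688 = true := by decide +kernel

noncomputable def R_20604784704 : Rec := ⟨nat_lit 20604784704, nat_lit 96,
  [⟨V6_17383034880, [(nat_lit 122, nat_lit 20604784704), (nat_lit 53, nat_lit 21678526464), (nat_lit 76, nat_lit 21678264384), (nat_lit 65, nat_lit 22752006144), (nat_lit 117, nat_lit 22751744064), (nat_lit 68, nat_lit 23825485824)]⟩,
   ⟨V6_16276262976, [(nat_lit 126, nat_lit 20604784704), (nat_lit 15, nat_lit 21661749312), (nat_lit 28, nat_lit 22718713920)]⟩,
   ⟨V6_15235813440, [(nat_lit 16, nat_lit 20604784704), (nat_lit 50, nat_lit 21678264384)]⟩],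
  [W_20603211776, W_20602949696, W_20586696704, W_20586434624, W_20570181632, W_19529732096, W_18406707200, W_16259485760]⟩
theorem C_20604784704 : chkRec R_20604784704 = true := by decide +kernel

noncomputable def R_20604788736 : Rec := ⟨nat_lit 20604788736, nat_lit 202,
  [⟨V6_18456772608, [(nat_lit 82, nat_lit 20604788736), (nat_lit 76, nat_lit 21678526464), (nat_lit 67, nat_lit 21678268416), (nat_lit 122, nat_lit 22752264192), (nat_lit 68, nat_lit 22752006144), (nat_lit 64, nat_lit 22751748096), (nat_lit 102, nat_lit 23825743872), (nat_lit 84, nat_lit 23825485824), (nat_lit 1, nat_lit 24899223552)]⟩,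
   ⟨V6_18456256512, [(nat_lit 58, nat_lit 20604788736), (nat_lit 56, nat_lit 21678268416), (nat_lit 61, nat_lit 22751748096), (nat_lit 86, nat_lit 23825227776), (nat_lit 50, nat_lit 24898707456)]⟩,
   ⟨V6_17382776832, [(nat_lit 107, nat_lit 20604788736), (nat_lit 22, nat_lit 21678268416), (nat_lit 75, nat_lit 22751748096), (nat_lit 24, nat_lit 23825227776)]⟩],
  [W_20603211776, W_20586696704, W_20586438656, W_20569923584, W_19529732096, W_19529474048, W_19480444928, W_19480186880, W_18406707200, W_17333227520, W_16276262912, W_15219298304, W_15202525184, W_13088595968]⟩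
theorem C_20604788736 : chkRec R_20604788736 = true := by decide +kernel

noncomputable def R_20605046784 : Rec := ⟨nat_lit 20605046784, nat_lit 105,
  [⟨V6_20603473920, [(nat_lit 37, nat_lit 20605046784), (nat_lit 114, nat_lit 21678526464), (nat_lit 30, nat_lit 22752006144), (nat_lit 108, nat_lit 23825485824), (nat_lit 26, nat_lit 24898965504), (nat_lit 22, nat_lit 25972445184), (nat_lit 9, nat_lit 27045924864)]⟩,
   ⟨V6_18456772608, [(nat_lit 56, nat_lit 20605046784), (nat_lit 107, nat_lit 21678784512), (nat_lit 90, nat_lit 21678526464), (nat_lit 50, nat_lit 22752264192), (nat_lit 11, nat_lit 22752006144), (nat_lit 30, nat_lit 23825743872), (nat_lit 75, nat_lit 23825485824), (nat_lit 61, nat_lit 24899223552)]⟩,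
   ⟨V6_17350262784, [(nat_lit 116, nat_lit 20605046784), (nat_lit 76, nat_lit 21678784512), (nat_lit 100, nat_lit 21662011392), (nat_lit 12, nat_lit 22735749120), (nat_lit 31, nat_lit 22718976000), (nat_lit 3, nat_lit 23792713728)]⟩,
   ⟨V6_15236333568, [(nat_lit 17, nat_lit 20605046784), (nat_lit 80, nat_lit 21678784512)]⟩],
  [W_20603211776, W_20586696704, W_19529732096, W_16276520960, W_16276262912, W_15219298304, W_15202783232, W_14162333696, W_14145818624, W_13088854016]⟩
theorem C_20605046784 : chkRec R_20605046784 = true := by decide +kernel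

noncomputable def R_20605304832 : Rec := ⟨nat_lit 20605304832, nat_lit 29,
  [⟨V6_18456772608, [(nat_lit 121, nat_lit 20605304832), (nat_lit 29, nat_lit 21678784512), (nat_lit 15, nat_lit 22752264192), (nat_lit 90, nat_lit 23825743872), (nat_lit 5, nat_lit 24899223552)]⟩],
  [W_18456510464, W_15236071424, W_13089112064]⟩
theorem C_20605304832 : chkRec R_20605304832 = true := by decide +kernel

noncomputable def R_20619997314 : Rec := ⟨nat_lit 20619997314, nat_lit 2,
  [⟨V6_16291475586, [(nat_lit 10, nat_lit 20619997314), (nat_lit 56, nat_lit 21676961922), (nat_lit 44, nat_lit 22733926530)]⟩,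
   ⟨V6_14177546370, [(nat_lit 97, nat_lit 20619997314)]⟩],
  [W_19495919744]⟩
theorem C_20619997314 : chkRec R_20619997314 = true := by decide +kernel

noncomputable def R_20619997377 : Rec := ⟨nat_lit 20619997377, nat_lit 2,
  [⟨V6_15251288256, [(nat_lit 117, nat_lit 20619997377), (nat_lit 71, nat_lit 21693739200)]⟩,
   ⟨V6_15234511041, [(nat_lit 49, nat_lit 20619997377), (nat_lit 83, nat_lit 21676961985)]⟩],
  [W_20552888384]⟩
theorem C_20619997377 : chkRec R_20619997377 = true := by decide +kernel

noncomputable def R_20620255362 : Rec := ⟨nat_lit 20620255362, nat_lit 9,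
  [⟨V6_18472247424, [(nat_lit 79, nat_lit 20620255362), (nat_lit 28, nat_lit 21693997185), (nat_lit 112, nat_lit 21693735042), (nat_lit 13, nat_lit 22767739008), (nat_lit 66, nat_lit 22767476865), (nat_lit 83, nat_lit 22767214722), (nat_lit 31, nat_lit 23841218688), (nat_lit 5, nat_lit 23840956545), (nat_lit 54, nat_lit 24914698368)]⟩,
   ⟨V6_16308248706, [(nat_lit 58, nat_lit 20620255362), (nat_lit 102, nat_lit 21693735042), (nat_lit 11, nat_lit 21677219970), (nat_lit 21, nat_lit 22750699650)]⟩],
  [W_20536369280, W_19479404672]⟩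
theorem C_20620255362 : chkRec R_20620255362 = true := by decide +kernel

noncomputable def R_20620259457 : Rec := ⟨nat_lit 20620259457, nat_lit 33,
  [⟨V6_18455732352, [(nat_lit 120, nat_lit 20620259457), (nat_lit 126, nat_lit 21694001280), (nat_lit 13, nat_lit 21693997185), (nat_lit 33, nat_lit 21693739137), (nat_lit 37, nat_lit 21677224065), (nat_lit 106, nat_lit 22767739008), (nat_lit 122, nat_lit 22767480960), (nat_lit 9, nat_lit 22767476865), (nat_lit 65, nat_lit 22750965888), (nat_lit 71, nat_lit 22750961793), (nat_lit 102, nat_lit 22750703745), (nat_lit 114, nat_lit 23841218688), (nat_lit 93, nat_lit 23824703616), (nat_lit 73, nat_lit 23824445568), (nat_lit 31, nat_lit 23824441473), (nat_lit 108, nat_lit 24898183296)]⟩,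
   ⟨V6_18439217217, [(nat_lit 113, nat_lit 20620259457), (nat_lit 86, nat_lit 21694001217), (nat_lit 126, nat_lit 21693997185), (nat_lit 60, nat_lit 21677224065), (nat_lit 111, nat_lit 22767738945), (nat_lit 118, nat_lit 22750965825), (nat_lit 93, nat_lit 22750961793), (nat_lit 44, nat_lit 22734188673), (nat_lit 83, nat_lit 23824703553), (nat_lit 119, nat_lit 23807930433), (nat_lit 102, nat_lit 23807926401), (nat_lit 33, nat_lit 24881668161)]⟩],
  [W_20519596160, W_19496181824, W_19479408704, W_16308514880, W_15251550272]⟩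
theorem C_20620259457 : chkRec R_20620259457 = true := by decide +kernel

noncomputable def R_20620259520 : Rec := ⟨nat_lit 20620259520, nat_lit 29,
  [⟨V6_18455998464, [(nat_lit 37, nat_lit 20620259520), (nat_lit 95, nat_lit 21694001280), (nat_lit 79, nat_lit 21677224128), (nat_lit 57, nat_lit 22767743040), (nat_lit 55, nat_lit 22750965888), (nat_lit 49, nat_lit 23841484800), (nat_lit 125, nat_lit 23824707648), (nat_lit 53, nat_lit 24898449408)]⟩],
  [W_20553150464, W_20552888384, W_17382256640]⟩
theorem C_20620259520 : chkRec R_20620259520 = true := by decide +kernel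

noncomputable def R_20620263489 : Rec := ⟨nat_lit 20620263489, nat_lit 29,
  [⟨V6_19512954945, [(nat_lit 49, nat_lit 20620263489), (nat_lit 68, nat_lit 21694001217), (nat_lit 45, nat_lit 21677228097), (nat_lit 76, nat_lit 22767738945), (nat_lit 85, nat_lit 22750965825), (nat_lit 9, nat_lit 22734192705), (nat_lit 60, nat_lit 23841476673), (nat_lit 93, nat_lit 23824703553), (nat_lit 30, nat_lit 23807930433), (nat_lit 10, nat_lit 24898441281), (nat_lit 26, nat_lit 24881668161), (nat_lit 103, nat_lit 25955405889)]⟩,
   ⟨V6_18405670977, [(nat_lit 27, nat_lit 20620263489), (nat_lit 123, nat_lit 21677228097), (nat_lit 4, nat_lit 22734192705), (nat_lit 32, nat_lit 23791157313), (nat_lit 75, nat_lit 24848121921)]⟩,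
   ⟨V6_16291741761, [(nat_lit 43, nat_lit 20620263489), (nat_lit 63, nat_lit 21677228097), (nat_lit 113, nat_lit 22734192705)]⟩],
  [W_19496181824, W_18455990336, W_17399025728, W_15251550272]⟩
theorem C_20620263489 : chkRec R_20620263489 = true := by decide +kernel

noncomputable def R_20620263552 : Rec := ⟨nat_lit 20620263552, nat_lit 76,
  [⟨V6_17382260736, [(nat_lit 119, nat_lit 20620263552), (nat_lit 27, nat_lit 21694005312), (nat_lit 59, nat_lit 21677228160), (nat_lit 68, nat_lit 22767747072), (nat_lit 90, nat_lit 22750969920), (nat_lit 78, nat_lit 23824711680)]⟩,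
   ⟨V6_16325296128, [(nat_lit 115, nat_lit 20620263552), (nat_lit 7, nat_lit 21694005312), (nat_lit 58, nat_lit 22767747072)]⟩,
   ⟨V6_15234777216, [(nat_lit 115, nat_lit 20620263552), (nat_lit 3, nat_lit 21677228160)]⟩],
  [W_20569923584, W_20553150464, W_20519600192, W_20519596160, W_20502823040, W_19496181824, W_19479404672, W_19462635584, W_18422440064]⟩
theorem C_20620263552 : chkRec R_20620263552 = true := by decide +kernel

noncomputable def R_20620517505 : Rec := ⟨nat_lit 20620517505, nat_lit 40,
  [⟨V6_18439217217, [(nat_lit 77, nat_lit 20620517505), (nat_lit 56, nat_lit 21694259265), (nat_lit 21, nat_lit 21693997185), (nat_lit 23, nat_lit 21677482113), (nat_lit 39, nat_lit 22767738945), (nat_lit 91, nat_lit 22751223873), (nat_lit 14, nat_lit 22750961793), (nat_lit 42, nat_lit 22734446721), (nat_lit 60, nat_lit 23824703553), (nat_lit 94, nat_lit 23808188481), (nat_lit 118, nat_lit 23807926401), (nat_lit 72, nat_lit 24881668161)]⟩,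
   ⟨V6_16291995777, [(nat_lit 30, nat_lit 20620517505), (nat_lit 41, nat_lit 21677482113), (nat_lit 5, nat_lit 22734446721)]⟩,
   ⟨V6_15235031169, [(nat_lit 13, nat_lit 20620517505), (nat_lit 92, nat_lit 21677482113)]⟩],
  [W_20586176576, W_20569661504, W_20569399424, W_20519854208, W_19529211968, W_19512434816, W_19496181824, W_19462889600, W_18472247360]⟩
theorem C_20620517505 : chkRec R_20620517505 = true := by decide +kernel

noncomputable def R_20620521537 : Rec := ⟨nat_lit 20620521537, nat_lit 55,
  [⟨V6_18456252480, [(nat_lit 34, nat_lit 20620521537), (nat_lit 120, nat_lit 21694263360), (nat_lit 74, nat_lit 21694259265), (nat_lit 15, nat_lit 21677486145), (nat_lit 47, nat_lit 22768001088), (nat_lit 14, nat_lit 22767996993), (nat_lit 76, nat_lit 22751227968), (nat_lit 122, nat_lit 22751223873), (nat_lit 7, nat_lit 23841738816), (nat_lit 52, nat_lit 23824965696), (nat_lit 83, nat_lit 23824961601), (nat_lit 83, nat_lit 24898703424)]⟩,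
   ⟨V6_18439217217, [(nat_lit 52, nat_lit 20620521537), (nat_lit 46, nat_lit 21694259265), (nat_lit 35, nat_lit 21694001217), (nat_lit 37, nat_lit 21677486145), (nat_lit 33, nat_lit 22767738945), (nat_lit 65, nat_lit 22751223873), (nat_lit 33, nat_lit 22750965825), (nat_lit 83, nat_lit 22734450753), (nat_lit 124, nat_lit 23824703553), (nat_lit 124, nat_lit 23808188481), (nat_lit 77, nat_lit 23807930433), (nat_lit 121, nat_lit 24881668161)]⟩,
   ⟨V6_17382510657, [(nat_lit 80, nat_lit 20620521537), (nat_lit 52, nat_lit 21694259265), (nat_lit 38, nat_lit 21677486145), (nat_lit 35, nat_lit 22767996993), (nat_lit 108, nat_lit 22751223873), (nat_lit 89, nat_lit 23824961601)]⟩],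
  [W_20569661504, W_20552888384, W_20536373312, W_20519858240, W_19512696896, W_19479408704, W_16325029952, W_16308514880, W_15251550272, W_14178070592]⟩
theorem C_20620521537 : chkRec R_20620521537 = true := by decide +kernel

noncomputable def R_20620521600 : Rec := ⟨nat_lit 20620521600, nat_lit 136,
  [⟨V6_18456256512, [(nat_lit 126, nat_lit 20620521600), (nat_lit 101, nat_lit 21694263360), (nat_lit 64, nat_lit 21694259328), (nat_lit 93, nat_lit 21677486208), (nat_lit 69, nat_lit 22768005120), (nat_lit 102, nat_lit 22768001088), (nat_lit 119, nat_lit 22751227968), (nat_lit 26, nat_lit 22751223936), (nat_lit 107, nat_lit 23841742848), (nat_lit 85, nat_lit 23824969728), (nat_lit 48, nat_lit 23824965696), (nat_lit 93, nat_lit 24898707456)]⟩,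
   ⟨V6_18455998464, [(nat_lit 4, nat_lit 20620521600), (nat_lit 14, nat_lit 21694263360), (nat_lit 13, nat_lit 21694001280), (nat_lit 19, nat_lit 21677486208), (nat_lit 83, nat_lit 22768005120), (nat_lit 13, nat_lit 22767743040), (nat_lit 46, nat_lit 22751227968), (nat_lit 78, nat_lit 22750965888), (nat_lit 1, nat_lit 23841484800), (nat_lit 32, nat_lit 23824969728), (nat_lit 53, nat_lit 23824707648), (nat_lit 72, nat_lit 24898449408)]⟩],
  [W_20586438656, W_20569923584, W_20569661504, W_20553150464, W_20536635392, W_20503081088, W_19529474048, W_19512696896, W_19496185856, W_19495919744, W_19479404672, W_19462889600, W_18472509440, W_17381990528, W_15251546240, W_14178070592]⟩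
theorem C_20620521600 : chkRec R_20620521600 = true := by decide +kernel

noncomputable def R_20620525632 : Rec := ⟨nat_lit 20620525632, nat_lit 175,
  [⟨V6_18422448192, [(nat_lit 123, nat_lit 20620525632), (nat_lit 52, nat_lit 21694005312), (nat_lit 93, nat_lit 21677490240), (nat_lit 57, nat_lit 22750969920), (nat_lit 89, nat_lit 22734454848), (nat_lit 11, nat_lit 23807934528), (nat_lit 44, nat_lit 23791419456), (nat_lit 9, nat_lit 24864899136)]⟩,
   ⟨V6_17382260736, [(nat_lit 104, nat_lit 20620525632), (nat_lit 43, nat_lit 21694267392), (nat_lit 65, nat_lit 21694005312), (nat_lit 103, nat_lit 21677490240), (nat_lit 73, nat_lit 22767747072), (nat_lit 50, nat_lit 22751232000), (nat_lit 88, nat_lit 22750969920), (nat_lit 11, nat_lit 23824711680)]⟩,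
   ⟨V6_17365483584, [(nat_lit 87, nat_lit 20620525632), (nat_lit 13, nat_lit 21694005312), (nat_lit 115, nat_lit 21677490240), (nat_lit 33, nat_lit 22750969920), (nat_lit 99, nat_lit 22734454848), (nat_lit 50, nat_lit 23807934528)]⟩,
   ⟨V6_16325296128, [(nat_lit 123, nat_lit 20620525632), (nat_lit 102, nat_lit 21694267392), (nat_lit 78, nat_lit 21694005312), (nat_lit 66, nat_lit 22767747072)]⟩,
   ⟨V6_16308518976, [(nat_lit 16, nat_lit 20620525632), (nat_lit 107, nat_lit 21694005312), (nat_lit 78, nat_lit 21677490240), (nat_lit 64, nat_lit 22750969920)]⟩],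
  [W_20586696704, W_20570181632, W_20569923584, W_20553150464, W_20536635392, W_19529732096, W_19496185856, W_19479412736, W_18472767488, W_18456252416, W_15251812352, W_15251554304]⟩
theorem C_20620525632 : chkRec R_20620525632 = true := by decide +kernel

noncomputable def R_20620529664 : Rec := ⟨nat_lit 20620529664, nat_lit 74,
  [⟨V6_20519866368, [(nat_lit 61, nat_lit 20620529664), (nat_lit 29, nat_lit 21677494272), (nat_lit 119, nat_lit 22734458880), (nat_lit 35, nat_lit 23791423488), (nat_lit 5, nat_lit 24848388096), (nat_lit 104, nat_lit 25905352704), (nat_lit 111, nat_lit 26962317312)]⟩,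
   ⟨V6_16308781056, [(nat_lit 107, nat_lit 20620529664), (nat_lit 13, nat_lit 21694267392), (nat_lit 40, nat_lit 21677494272), (nat_lit 111, nat_lit 22751232000)]⟩,
   ⟨V6_15235043328, [(nat_lit 15, nat_lit 20620529664), (nat_lit 28, nat_lit 21677494272)]⟩,
   ⟨V6_14178078720, [(nat_lit 103, nat_lit 20620529664)]⟩],
  [W_20536635392, W_19529990144, W_18473025536, W_18456252416, W_15251812352]⟩
theorem C_20620529664 : chkRec R_20620529664 = true := by decide +kernel

noncomputable def R_20620779585 : Rec := ⟨nat_lit 20620779585, nat_lit 62,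
  [⟨V6_19545985089, [(nat_lit 68, nat_lit 20620779585), (nat_lit 1, nat_lit 21694517313), (nat_lit 70, nat_lit 21694259265), (nat_lit 75, nat_lit 22767996993), (nat_lit 28, nat_lit 22767738945), (nat_lit 32, nat_lit 23841476673), (nat_lit 50, nat_lit 23841218625), (nat_lit 28, nat_lit 24914956353), (nat_lit 25, nat_lit 24914698305), (nat_lit 61, nat_lit 25988436033)]⟩,
   ⟨V6_18472505409, [(nat_lit 22, nat_lit 20620779585), (nat_lit 36, nat_lit 21694517313), (nat_lit 69, nat_lit 21694259265), (nat_lit 57, nat_lit 22767996993), (nat_lit 112, nat_lit 22767738945), (nat_lit 42, nat_lit 23841476673), (nat_lit 62, nat_lit 23841218625), (nat_lit 46, nat_lit 24914956353)]⟩,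
   ⟨V6_18456252480, [(nat_lit 29, nat_lit 20620779585), (nat_lit 97, nat_lit 21694521408), (nat_lit 28, nat_lit 21694517313), (nat_lit 114, nat_lit 21694259265), (nat_lit 64, nat_lit 21677744193), (nat_lit 55, nat_lit 22768259136), (nat_lit 61, nat_lit 22768001088), (nat_lit 84, nat_lit 22767996993), (nat_lit 34, nat_lit 22751486016), (nat_lit 68, nat_lit 22751481921), (nat_lit 90, nat_lit 22751223873), (nat_lit 89, nat_lit 23841738816), (nat_lit 122, nat_lit 23825223744), (nat_lit 103, nat_lit 23824965696), (nat_lit 50, nat_lit 23824961601), (nat_lit 112, nat_lit 24898703424)]⟩,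
   ⟨V6_18439217217, [(nat_lit 81, nat_lit 20620779585), (nat_lit 64, nat_lit 21694259265), (nat_lit 56, nat_lit 21677744193), (nat_lit 65, nat_lit 22767738945), (nat_lit 100, nat_lit 22751223873), (nat_lit 103, nat_lit 22734708801), (nat_lit 18, nat_lit 23824703553), (nat_lit 115, nat_lit 23808188481), (nat_lit 119, nat_lit 24881668161)]⟩,
   ⟨V6_17382510657, [(nat_lit 107, nat_lit 20620779585), (nat_lit 125, nat_lit 21694517313), (nat_lit 111, nat_lit 21694259265), (nat_lit 17, nat_lit 21677744193), (nat_lit 83, nat_lit 22767996993), (nat_lit 29, nat_lit 22751481921), (nat_lit 88, nat_lit 22751223873), (nat_lit 124, nat_lit 23824961601)]⟩],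
  [W_20586434624, W_20569661504, W_20520116288, W_19529211968, W_19512696896, W_19479924800, W_19463151680, W_16325546048, W_14178328640]⟩
theorem C_20620779585 : chkRec R_20620779585 = true := by decide +kernel

noncomputable def R_20620779648 : Rec := ⟨nat_lit 20620779648, nat_lit 132,
  [⟨V6_17382776832, [(nat_lit 4, nat_lit 20620779648), (nat_lit 50, nat_lit 21694521408), (nat_lit 34, nat_lit 21677744256), (nat_lit 93, nat_lit 22768263168), (nat_lit 82, nat_lit 22751486016), (nat_lit 88, nat_lit 23825227776)]⟩,
   ⟨V6_16325812224, [(nat_lit 97, nat_lit 20620779648), (nat_lit 81, nat_lit 21694521408), (nat_lit 18, nat_lit 22768263168)]⟩],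
  [W_20586438656, W_20569923584, W_20569661504, W_20536893440, W_20536369280, W_20520116288, W_20519854208, W_20503339136, W_19545989120, W_19529211968, W_19512696896, W_19479404672, W_19463151680, W_19462889600, W_19446374528, W_18472247360, W_15251546240]⟩
theorem C_20620779648 : chkRec R_20620779648 = true := by decide +kernel

noncomputable def R_20620783680 : Rec := ⟨nat_lit 20620783680, nat_lit 262,
  [⟨V6_19546247232, [(nat_lit 6, nat_lit 20620783680), (nat_lit 10, nat_lit 21694521408), (nat_lit 24, nat_lit 21694263360), (nat_lit 101, nat_lit 22768259136), (nat_lit 85, nat_lit 22768001088), (nat_lit 17, nat_lit 22767743040), (nat_lit 82, nat_lit 23841738816), (nat_lit 34, nat_lit 23841480768), (nat_lit 84, nat_lit 23841222720), (nat_lit 57, nat_lit 24915218496), (nat_lit 97, nat_lit 24914960448), (nat_lit 34, nat_lit 25988698176)]⟩,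
   ⟨V6_19529732160, [(nat_lit 71, nat_lit 20620783680), (nat_lit 97, nat_lit 21694521408), (nat_lit 81, nat_lit 21694263360), (nat_lit 93, nat_lit 21677748288), (nat_lit 108, nat_lit 22768259136), (nat_lit 10, nat_lit 22768001088), (nat_lit 89, nat_lit 22767743040), (nat_lit 81, nat_lit 22751486016), (nat_lit 37, nat_lit 22751227968), (nat_lit 26, nat_lit 23841738816), (nat_lit 30, nat_lit 23841480768), (nat_lit 16, nat_lit 23825223744), (nat_lit 27, nat_lit 23824965696), (nat_lit 11, nat_lit 23824707648), (nat_lit 7, nat_lit 24915218496), (nat_lit 62, nat_lit 24898703424), (nat_lit 109, nat_lit 24898445376), (nat_lit 18, nat_lit 25972183104)]⟩,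
   ⟨V6_19513479168, [(nat_lit 50, nat_lit 20620783680), (nat_lit 77, nat_lit 21694525440), (nat_lit 27, nat_lit 21694521408), (nat_lit 76, nat_lit 21677748288), (nat_lit 49, nat_lit 22768263168), (nat_lit 63, nat_lit 22768259136), (nat_lit 62, nat_lit 22751490048), (nat_lit 29, nat_lit 22751486016), (nat_lit 28, nat_lit 22734712896), (nat_lit 96, nat_lit 23842000896), (nat_lit 78, nat_lit 23825227776), (nat_lit 91, nat_lit 23825223744), (nat_lit 45, nat_lit 23808454656), (nat_lit 76, nat_lit 23808450624), (nat_lit 103, nat_lit 24898965504), (nat_lit 117, nat_lit 24882192384), (nat_lit 18, nat_lit 24882188352), (nat_lit 57, nat_lit 25955930112)]⟩,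
   ⟨V6_18456514560, [(nat_lit 56, nat_lit 20620783680), (nat_lit 37, nat_lit 21694525440), (nat_lit 5, nat_lit 21694521408), (nat_lit 27, nat_lit 21677748288), (nat_lit 4, nat_lit 22768263168), (nat_lit 71, nat_lit 22768259136), (nat_lit 110, nat_lit 22751490048), (nat_lit 92, nat_lit 22751486016), (nat_lit 8, nat_lit 23842000896), (nat_lit 83, nat_lit 23825227776), (nat_lit 98, nat_lit 23825223744), (nat_lit 105, nat_lit 24898965504)]⟩,
   ⟨V6_18456252480, [(nat_lit 77, nat_lit 20620783680), (nat_lit 114, nat_lit 21694521408), (nat_lit 94, nat_lit 21694263360), (nat_lit 43, nat_lit 21677748288), (nat_lit 15, nat_lit 22768259136), (nat_lit 64, nat_lit 22768001088), (nat_lit 93, nat_lit 22751486016), (nat_lit 91, nat_lit 22751227968), (nat_lit 11, nat_lit 23841738816), (nat_lit 44, nat_lit 23825223744), (nat_lit 28, nat_lit 23824965696), (nat_lit 27, nat_lit 24898703424)]⟩,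
   ⟨V6_17399549952, [(nat_lit 83, nat_lit 20620783680), (nat_lit 25, nat_lit 21694525440), (nat_lit 60, nat_lit 21694521408), (nat_lit 67, nat_lit 22768263168), (nat_lit 18, nat_lit 22768259136), (nat_lit 103, nat_lit 23842000896)]⟩],
  [W_20586696704, W_20586438656, W_20569923584, W_20569665536, W_20553150464, W_20536893440, W_20536635392, W_20536373312, W_20520120320, W_20520116288, W_20519858240, W_19529474048, W_19512700928, W_19496185856, W_19463155712, W_17382256640, W_16325292032, W_15235297280, W_14178332672, W_14178070592, W_14161555520]⟩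
theorem C_20620783680 : chkRec R_20620783680 = true := by decide +kernel

noncomputable def R_20620787712 : Rec := ⟨nat_lit 20620787712, nat_lit 229,
  [⟨V6_18439225344, [(nat_lit 10, nat_lit 20620787712), (nat_lit 91, nat_lit 21694267392), (nat_lit 32, nat_lit 21677752320), (nat_lit 19, nat_lit 22767747072), (nat_lit 39, nat_lit 22751232000), (nat_lit 77, nat_lit 22734716928), (nat_lit 101, nat_lit 23824711680), (nat_lit 102, nat_lit 23808196608), (nat_lit 68, nat_lit 24881676288)]⟩,
   ⟨V6_17399549952, [(nat_lit 71, nat_lit 20620787712), (nat_lit 19, nat_lit 21694525440), (nat_lit 61, nat_lit 22768263168), (nat_lit 42, nat_lit 23842000896)]⟩,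
   ⟨V6_17382776832, [(nat_lit 61, nat_lit 20620787712), (nat_lit 68, nat_lit 21694525440), (nat_lit 39, nat_lit 21677752320), (nat_lit 119, nat_lit 22768263168), (nat_lit 114, nat_lit 22751490048), (nat_lit 81, nat_lit 23825227776)]⟩,
   ⟨V6_17382260736, [(nat_lit 31, nat_lit 20620787712), (nat_lit 126, nat_lit 21694267392), (nat_lit 60, nat_lit 21677752320), (nat_lit 2, nat_lit 22767747072), (nat_lit 47, nat_lit 22751232000), (nat_lit 35, nat_lit 23824711680)]⟩,
   ⟨V6_16325296128, [(nat_lit 42, nat_lit 20620787712), (nat_lit 101, nat_lit 21694267392), (nat_lit 54, nat_lit 22767747072)]⟩],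
  [W_20586696704, W_20569923584, W_20553150464, W_20536893440, W_20520120320, W_19529732096, W_19496185856, W_19479412736, W_19463155712, W_19446382592, W_18472767488, W_15218524160, W_14161559552]⟩
theorem C_20620787712 : chkRec R_20620787712 = true := by decide +kernel

noncomputable def R_20621037633 : Rec := ⟨nat_lit 20621037633, nat_lit 29,
  [⟨V6_20520374337, [(nat_lit 3, nat_lit 20621037633), (nat_lit 16, nat_lit 21678002241), (nat_lit 35, nat_lit 22734966849), (nat_lit 85, nat_lit 23791931457), (nat_lit 121, nat_lit 24848896065), (nat_lit 53, nat_lit 25905860673), (nat_lit 70, nat_lit 26962825281)]⟩,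
   ⟨V6_17382510657, [(nat_lit 6, nat_lit 20621037633), (nat_lit 36, nat_lit 21694517313), (nat_lit 105, nat_lit 21678002241), (nat_lit 12, nat_lit 22767996993), (nat_lit 24, nat_lit 22751481921), (nat_lit 119, nat_lit 23824961601)]⟩,
   ⟨V6_15252328512, [(nat_lit 94, nat_lit 20621037633), (nat_lit 120, nat_lit 21694779456)]⟩],
  [W_20586434624, W_20536889408, W_20520374336, W_19545985088, W_19529470016, W_19479924800]⟩
theorem C_20621037633 : chkRec R_20621037633 = true := by decide +kernel

noncomputable def R_20621041728 : Rec := ⟨nat_lit 20621041728, nat_lit 242,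
  [⟨V6_19480186944, [(nat_lit 47, nat_lit 20621041728), (nat_lit 85, nat_lit 21694779456), (nat_lit 24, nat_lit 21678006336), (nat_lit 73, nat_lit 22751744064), (nat_lit 12, nat_lit 22734970944), (nat_lit 11, nat_lit 23808708672), (nat_lit 90, nat_lit 23791935552), (nat_lit 107, nat_lit 24865673280), (nat_lit 75, nat_lit 24848900160), (nat_lit 120, nat_lit 25922637888)]⟩,
   ⟨V6_18439999488, [(nat_lit 48, nat_lit 20621041728), (nat_lit 4, nat_lit 21694783488), (nat_lit 5, nat_lit 21694779456), (nat_lit 19, nat_lit 21678006336), (nat_lit 57, nat_lit 22768521216), (nat_lit 4, nat_lit 22751748096), (nat_lit 21, nat_lit 22751744064), (nat_lit 69, nat_lit 22734970944), (nat_lit 46, nat_lit 23825485824), (nat_lit 69, nat_lit 23808712704), (nat_lit 38, nat_lit 23808708672), (nat_lit 93, nat_lit 24882450432)]⟩,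
   ⟨V6_18423222336, [(nat_lit 28, nat_lit 20621041728), (nat_lit 89, nat_lit 21694779456), (nat_lit 90, nat_lit 21678006336), (nat_lit 101, nat_lit 22751744064), (nat_lit 62, nat_lit 22734970944), (nat_lit 42, nat_lit 23808708672), (nat_lit 5, nat_lit 23791935552), (nat_lit 7, nat_lit 24865673280)]⟩,
   ⟨V6_17399549952, [(nat_lit 86, nat_lit 20621041728), (nat_lit 69, nat_lit 21694783488), (nat_lit 43, nat_lit 21694779456), (nat_lit 22, nat_lit 21694521408), (nat_lit 46, nat_lit 22768521216), (nat_lit 68, nat_lit 22768263168), (nat_lit 73, nat_lit 22768259136), (nat_lit 43, nat_lit 23842000896)]⟩,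
   ⟨V6_17383034880, [(nat_lit 58, nat_lit 20621041728), (nat_lit 52, nat_lit 21694783488), (nat_lit 122, nat_lit 21694779456), (nat_lit 24, nat_lit 21678006336), (nat_lit 13, nat_lit 22768521216), (nat_lit 97, nat_lit 22751748096), (nat_lit 17, nat_lit 22751744064), (nat_lit 14, nat_lit 23825485824)]⟩],
  [W_20603211776, W_20586696704, W_20586438656, W_20569923584, W_20569661504, W_20537151488, W_20536893440, W_20520374336, W_20520116288, W_19546247168, W_19529732096, W_19529474048, W_19463413760, W_19446636608, W_18472767488, W_18472509440, W_14178590720, W_14178586688, W_14161813568]⟩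
theorem C_20621041728 : chkRec R_20621041728 = true := by decide +kernel

noncomputable def R_20621045760 : Rec := ⟨nat_lit 20621045760, nat_lit 270,
  [⟨V6_19513479168, [(nat_lit 73, nat_lit 20621045760), (nat_lit 14, nat_lit 21694783488), (nat_lit 123, nat_lit 21694525440), (nat_lit 108, nat_lit 21678010368), (nat_lit 84, nat_lit 22768521216), (nat_lit 5, nat_lit 22768263168), (nat_lit 2, nat_lit 22751748096), (nat_lit 114, nat_lit 22751490048), (nat_lit 46, nat_lit 22734974976), (nat_lit 49, nat_lit 23842000896), (nat_lit 3, nat_lit 23825485824), (nat_lit 51, nat_lit 23825227776), (nat_lit 35, nat_lit 23808712704), (nat_lit 108, nat_lit 23808454656), (nat_lit 17, nat_lit 24898965504), (nat_lit 28, nat_lit 24882450432), (nat_lit 29, nat_lit 24882192384), (nat_lit 87, nat_lit 25955930112)]⟩,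
   ⟨V6_19496964096, [(nat_lit 111, nat_lit 20621045760), (nat_lit 47, nat_lit 21694783488), (nat_lit 42, nat_lit 21678010368), (nat_lit 19, nat_lit 22768521216), (nat_lit 112, nat_lit 22751748096), (nat_lit 73, nat_lit 22734974976), (nat_lit 114, nat_lit 23825485824), (nat_lit 58, nat_lit 23808712704), (nat_lit 63, nat_lit 23791939584), (nat_lit 46, nat_lit 24882450432), (nat_lit 30, nat_lit 24865677312), (nat_lit 1, nat_lit 25939415040)]⟩,
   ⟨V6_18456772608, [(nat_lit 103, nat_lit 20621045760), (nat_lit 18, nat_lit 21694783488), (nat_lit 114, nat_lit 21678010368), (nat_lit 36, nat_lit 22768521216), (nat_lit 56, nat_lit 22751748096), (nat_lit 58, nat_lit 23842258944), (nat_lit 28, nat_lit 23825485824), (nat_lit 52, nat_lit 24899223552)]⟩,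
   ⟨V6_18439999488, [(nat_lit 124, nat_lit 20621045760), (nat_lit 36, nat_lit 21694783488), (nat_lit 52, nat_lit 21678010368), (nat_lit 33, nat_lit 22768521216), (nat_lit 99, nat_lit 22751748096), (nat_lit 18, nat_lit 22734974976), (nat_lit 110, nat_lit 23825485824), (nat_lit 21, nat_lit 23808712704), (nat_lit 83, nat_lit 24882450432)]⟩,
   ⟨V6_17383034880, [(nat_lit 85, nat_lit 20621045760), (nat_lit 87, nat_lit 21694783488), (nat_lit 88, nat_lit 21678010368), (nat_lit 61, nat_lit 22768521216), (nat_lit 83, nat_lit 22751748096), (nat_lit 39, nat_lit 23825485824)]⟩],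
  [W_20603211776, W_20586438656, W_20569923584, W_20569665536, W_20553150464, W_20536893440, W_20536635392, W_20520378368, W_20520120320, W_19529474048, W_19496185856, W_19463155712, W_19446640640, W_18472509440, W_18455736320, W_17398771712, W_17382256640, W_15251812352, W_15235297280, W_14178590720, W_14178332672, W_14161817600]⟩
theorem C_20621045760 : chkRec R_20621045760 = true := by decide +kernel

noncomputable def R_20621299776 : Rec := ⟨nat_lit 20621299776, nat_lit 118,
  [⟨V6_19546247232, [(nat_lit 67, nat_lit 20621299776), (nat_lit 112, nat_lit 21694779456), (nat_lit 26, nat_lit 22768259136), (nat_lit 9, nat_lit 23841738816), (nat_lit 67, nat_lit 24915218496), (nat_lit 53, nat_lit 25988698176)]⟩,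
   ⟨V6_17366519808, [(nat_lit 1, nat_lit 20621299776), (nat_lit 88, nat_lit 21695041536), (nat_lit 109, nat_lit 21678264384), (nat_lit 69, nat_lit 22752006144), (nat_lit 87, nat_lit 22735228992), (nat_lit 51, nat_lit 23808970752)]⟩,
   ⟨V6_15252328512, [(nat_lit 33, nat_lit 20621299776), (nat_lit 90, nat_lit 21694779456)]⟩,
   ⟨V6_15235813440, [(nat_lit 123, nat_lit 20621299776), (nat_lit 1, nat_lit 21678264384)]⟩,
   ⟨V6_14178848832, [(nat_lit 96, nat_lit 20621299776)]⟩],
  [W_20619464768, W_20603211776, W_20586696704, W_20537151488, W_19546247168, W_19529732096, W_19480186880, W_19463671808, W_18406707200]⟩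
theorem C_20621299776 : chkRec R_20621299776 = true := by decide +kernel

noncomputable def R_20621303808 : Rec := ⟨nat_lit 20621303808, nat_lit 243,
  [⟨V6_18456256512, [(nat_lit 18, nat_lit 20621303808), (nat_lit 10, nat_lit 21694783488), (nat_lit 126, nat_lit 21678268416), (nat_lit 102, nat_lit 22768263168), (nat_lit 72, nat_lit 22751748096), (nat_lit 81, nat_lit 23841742848), (nat_lit 102, nat_lit 23825227776), (nat_lit 46, nat_lit 24898707456)]⟩,
   ⟨V6_18423484416, [(nat_lit 41, nat_lit 20621303808), (nat_lit 26, nat_lit 21695041536), (nat_lit 32, nat_lit 21678268416), (nat_lit 98, nat_lit 22752006144), (nat_lit 118, nat_lit 22735233024), (nat_lit 125, nat_lit 23808970752), (nat_lit 30, nat_lit 23792197632), (nat_lit 42, nat_lit 24865935360)]⟩,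
   ⟨V6_17399549952, [(nat_lit 69, nat_lit 20621303808), (nat_lit 56, nat_lit 21695041536), (nat_lit 61, nat_lit 21694783488), (nat_lit 76, nat_lit 22768521216), (nat_lit 24, nat_lit 22768263168), (nat_lit 58, nat_lit 23842000896)]⟩,
   ⟨V6_17366519808, [(nat_lit 83, nat_lit 20621303808), (nat_lit 32, nat_lit 21695041536), (nat_lit 106, nat_lit 21678268416), (nat_lit 50, nat_lit 22752006144), (nat_lit 61, nat_lit 22735233024), (nat_lit 108, nat_lit 23808970752)]⟩,
   ⟨V6_16326328320, [(nat_lit 90, nat_lit 20621303808), (nat_lit 8, nat_lit 21695041536), (nat_lit 20, nat_lit 22768779264)]⟩],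
  [W_20619984896, W_20603211776, W_20586696704, W_20586438656, W_20569923584, W_20537409536, W_20537151488, W_20536893440, W_19546247168, W_19529732096, W_19463671808, W_19463413760, W_18472767488, W_18389934080, W_14178848768]⟩
theorem C_20621303808 : chkRec R_20621303808 = true := by decide +kernel

noncomputable def R_20621561856 : Rec := ⟨nat_lit 20621561856, nat_lit 143,
  [⟨V6_18423742464, [(nat_lit 36, nat_lit 20621561856), (nat_lit 30, nat_lit 21695299584), (nat_lit 32, nat_lit 21678526464), (nat_lit 42, nat_lit 22752264192), (nat_lit 91, nat_lit 22735491072), (nat_lit 12, nat_lit 23809228800), (nat_lit 98, nat_lit 23792455680), (nat_lit 87, nat_lit 24866193408)]⟩,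
   ⟨V6_17399549952, [(nat_lit 100, nat_lit 20621561856), (nat_lit 17, nat_lit 21695041536), (nat_lit 6, nat_lit 22768521216), (nat_lit 7, nat_lit 23842000896)]⟩,
   ⟨V6_17366519808, [(nat_lit 68, nat_lit 20621561856), (nat_lit 46, nat_lit 21695041536), (nat_lit 20, nat_lit 21678526464), (nat_lit 6, nat_lit 22752006144), (nat_lit 113, nat_lit 22735491072), (nat_lit 26, nat_lit 23808970752)]⟩,
   ⟨V6_16326328320, [(nat_lit 57, nat_lit 20621561856), (nat_lit 84, nat_lit 21695299584), (nat_lit 75, nat_lit 21695041536), (nat_lit 20, nat_lit 22768779264)]⟩,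
   ⟨V6_14179110912, [(nat_lit 105, nat_lit 20621561856)]⟩],
  [W_20619984896, W_20603211776, W_20586696704, W_20570181632, W_19546505216, W_19546247168, W_19529732096, W_19480444928, W_14178848768]⟩
theorem C_20621561856 : chkRec R_20621561856 = true := by decide +kernel

noncomputable def R_20621819904 : Rec := ⟨nat_lit 20621819904, nat_lit 54,
  [⟨V6_20620247040, [(nat_lit 11, nat_lit 20621819904), (nat_lit 3, nat_lit 21695299584), (nat_lit 81, nat_lit 22768779264), (nat_lit 63, nat_lit 23842258944), (nat_lit 121, nat_lit 24915738624), (nat_lit 34, nat_lit 25989218304), (nat_lit 37, nat_lit 27062697984)]⟩,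
   ⟨V6_16326328320, [(nat_lit 112, nat_lit 20621819904), (nat_lit 81, nat_lit 21695299584), (nat_lit 63, nat_lit 22768779264)]⟩,
   ⟨V6_15236333568, [(nat_lit 71, nat_lit 20621819904), (nat_lit 14, nat_lit 21678784512)]⟩],
  [W_20619984896, W_18456510464, W_17350000640, W_16276520960, W_15252586496, W_14162591744]⟩
theorem C_20621819904 : chkRec R_20621819904 = true := by decide +kernel

noncomputable def R_20636770434 : Rec := ⟨nat_lit 20636770434, nat_lit 4,
  [⟨V6_16341540993, [(nat_lit 44, nat_lit 20636770434), (nat_lit 57, nat_lit 21710512257), (nat_lit 33, nat_lit 21710250114), (nat_lit 71, nat_lit 22783991937)]⟩,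
   ⟨V6_16308248706, [(nat_lit 98, nat_lit 20636770434), (nat_lit 71, nat_lit 21693735042), (nat_lit 74, nat_lit 22750699650)]⟩,
   ⟨V6_15268061313, [(nat_lit 80, nat_lit 20636770434), (nat_lit 101, nat_lit 21710512257)]⟩],
  [W_20569399424, W_20552884352]⟩
theorem C_20636770434 : chkRec R_20636770434 = true := by decide +kernel

noncomputable def R_20636774529 : Rec := ⟨nat_lit 20636774529, nat_lit 9,
  [⟨V6_20536111233, [(nat_lit 111, nat_lit 20636774529), (nat_lit 46, nat_lit 21693739137), (nat_lit 74, nat_lit 22750703745), (nat_lit 44, nat_lit 23807668353), (nat_lit 110, nat_lit 24864632961), (nat_lit 87, nat_lit 25921597569), (nat_lit 119, nat_lit 26978562177)]⟩,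
   ⟨V6_16341803073, [(nat_lit 100, nat_lit 20636774529), (nat_lit 123, nat_lit 21710516289), (nat_lit 78, nat_lit 21710512257), (nat_lit 6, nat_lit 22784254017)]⟩,
   ⟨V6_15268065345, [(nat_lit 113, nat_lit 20636774529), (nat_lit 91, nat_lit 21710516289)]⟩],
  [W_20569661504, W_16325025920, W_16308252800, W_15268061312]⟩
theorem C_20636774529 : chkRec R_20636774529 = true := by decide +kernel

noncomputable def R_20636774592 : Rec := ⟨nat_lit 20636774592, nat_lit 5,
  [⟨V6_19479146688, [(nat_lit 27, nat_lit 20636774592), (nat_lit 85, nat_lit 21693739200), (nat_lit 63, nat_lit 22750703808), (nat_lit 78, nat_lit 23807668416), (nat_lit 45, nat_lit 24864633024), (nat_lit 85, nat_lit 25921597632)]⟩,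
   ⟨V6_17365217472, [(nat_lit 121, nat_lit 20636774592), (nat_lit 44, nat_lit 21693739200), (nat_lit 105, nat_lit 22750703808), (nat_lit 37, nat_lit 23807668416)]⟩,
   ⟨V6_15251288256, [(nat_lit 59, nat_lit 20636774592), (nat_lit 46, nat_lit 21693739200)]⟩],
  [W_17398771712]⟩
theorem C_20636774592 : chkRec R_20636774592 = true := by decide +kernel

noncomputable def R_20637032577 : Rec := ⟨nat_lit 20637032577, nat_lit 27,
  [⟨V6_20553146433, [(nat_lit 48, nat_lit 20637032577), (nat_lit 108, nat_lit 21710774337), (nat_lit 89, nat_lit 21693997185), (nat_lit 38, nat_lit 22767738945), (nat_lit 103, nat_lit 22750961793), (nat_lit 114, nat_lit 23824703553), (nat_lit 36, nat_lit 23807926401), (nat_lit 116, nat_lit 24881668161), (nat_lit 65, nat_lit 24864891009), (nat_lit 107, nat_lit 25938632769), (nat_lit 6, nat_lit 25921855617), (nat_lit 4, nat_lit 26995597377)]⟩,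
   ⟨V6_18439217217, [(nat_lit 85, nat_lit 20637032577), (nat_lit 126, nat_lit 21710774337), (nat_lit 26, nat_lit 21693997185), (nat_lit 77, nat_lit 22767738945), (nat_lit 3, nat_lit 22750961793), (nat_lit 19, nat_lit 23824703553), (nat_lit 110, nat_lit 23807926401), (nat_lit 26, nat_lit 24881668161)]⟩,
   ⟨V6_16341540993, [(nat_lit 91, nat_lit 20637032577), (nat_lit 52, nat_lit 21710512257), (nat_lit 41, nat_lit 22783991937)]⟩],
  [W_20569399424, W_19529211968, W_19512434816, W_17415282752, W_17398767680, W_16341803072, W_15268323392, W_15268061312, W_15251546240]⟩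
theorem C_20637032577 : chkRec R_20637032577 = true := by decide +kernel

noncomputable def R_20637036609 : Rec := ⟨nat_lit 20637036609, nat_lit 31,
  [⟨V6_20569919553, [(nat_lit 99, nat_lit 20637036609), (nat_lit 72, nat_lit 21710774337), (nat_lit 101, nat_lit 21694001217), (nat_lit 74, nat_lit 22784512065), (nat_lit 53, nat_lit 22767738945), (nat_lit 16, nat_lit 22750965825), (nat_lit 85, nat_lit 23841476673), (nat_lit 107, nat_lit 23824703553), (nat_lit 88, nat_lit 23807930433), (nat_lit 107, nat_lit 24898441281), (nat_lit 69, nat_lit 24881668161), (nat_lit 88, nat_lit 24864895041), (nat_lit 113, nat_lit 25955405889), (nat_lit 62, nat_lit 25938632769), (nat_lit 61, nat_lit 27012370497)]⟩,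
   ⟨V6_19512954945, [(nat_lit 64, nat_lit 20637036609), (nat_lit 97, nat_lit 21710774337), (nat_lit 19, nat_lit 21694001217), (nat_lit 126, nat_lit 22784512065), (nat_lit 96, nat_lit 22767738945), (nat_lit 31, nat_lit 22750965825), (nat_lit 66, nat_lit 23841476673), (nat_lit 6, nat_lit 23824703553), (nat_lit 23, nat_lit 23807930433), (nat_lit 5, nat_lit 24898441281), (nat_lit 60, nat_lit 24881668161), (nat_lit 69, nat_lit 25955405889)]⟩,
   ⟨V6_19495923777, [(nat_lit 81, nat_lit 20637036609), (nat_lit 35, nat_lit 21710516289), (nat_lit 84, nat_lit 21694001217), (nat_lit 17, nat_lit 22767480897), (nat_lit 4, nat_lit 22750965825), (nat_lit 74, nat_lit 23824445505), (nat_lit 74, nat_lit 23807930433), (nat_lit 105, nat_lit 24881410113), (nat_lit 104, nat_lit 24864895041), (nat_lit 103, nat_lit 25938374721)]⟩,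
   ⟨V6_18439217217, [(nat_lit 9, nat_lit 20637036609), (nat_lit 126, nat_lit 21710774337), (nat_lit 42, nat_lit 21694001217), (nat_lit 20, nat_lit 22767738945), (nat_lit 43, nat_lit 22750965825), (nat_lit 21, nat_lit 23824703553), (nat_lit 55, nat_lit 23807930433), (nat_lit 88, nat_lit 24881668161)]⟩],
  [W_19496181824, W_18472505408, W_16341803072, W_16308514880, W_15251550272]⟩
theorem C_20637036609 : chkRec R_20637036609 = true := by decide +kernel

noncomputable def R_20637036672 : Rec := ⟨nat_lit 20637036672, nat_lit 78,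
  [⟨V6_20569927680, [(nat_lit 84, nat_lit 20637036672), (nat_lit 111, nat_lit 21710778432), (nat_lit 80, nat_lit 21694001280), (nat_lit 72, nat_lit 22784520192), (nat_lit 78, nat_lit 22767743040), (nat_lit 7, nat_lit 22750965888), (nat_lit 60, nat_lit 23841484800), (nat_lit 111, nat_lit 23824707648), (nat_lit 56, nat_lit 23807930496), (nat_lit 63, nat_lit 24898449408), (nat_lit 95, nat_lit 24881672256), (nat_lit 125, nat_lit 24864895104), (nat_lit 27, nat_lit 25955414016), (nat_lit 101, nat_lit 25938636864), (nat_lit 67, nat_lit 27012378624)]⟩,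
   ⟨V6_18455998464, [(nat_lit 8, nat_lit 20637036672), (nat_lit 75, nat_lit 21710778432), (nat_lit 61, nat_lit 21694001280), (nat_lit 75, nat_lit 22784520192), (nat_lit 21, nat_lit 22767743040), (nat_lit 78, nat_lit 22750965888), (nat_lit 42, nat_lit 23841484800), (nat_lit 12, nat_lit 23824707648), (nat_lit 74, nat_lit 24898449408)]⟩],
  [W_20569923584, W_19529474048, W_19512696896, W_18472509440, W_17415544832, W_16342065152, W_15268327424, W_15268061312]⟩
theorem C_20637036672 : chkRec R_20637036672 = true := by decide +kernel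

noncomputable def R_20637040704 : Rec := ⟨nat_lit 20637040704, nat_lit 85,
  [⟨V6_17382260736, [(nat_lit 126, nat_lit 20637040704), (nat_lit 87, nat_lit 21710782464), (nat_lit 44, nat_lit 21694005312), (nat_lit 91, nat_lit 22767747072), (nat_lit 56, nat_lit 22750969920), (nat_lit 55, nat_lit 23824711680)]⟩,
   ⟨V6_16308518976, [(nat_lit 53, nat_lit 20637040704), (nat_lit 6, nat_lit 21694005312), (nat_lit 110, nat_lit 22750969920)]⟩,
   ⟨V6_15268331520, [(nat_lit 20, nat_lit 20637040704), (nat_lit 57, nat_lit 21710782464)]⟩],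
  [W_20586696704, W_20569923584, W_20553150464, W_19529732096, W_19512954944, W_18455990336]⟩
theorem C_20637040704 : chkRec R_20637040704 = true := by decide +kernel

noncomputable def R_20637294657 : Rec := ⟨nat_lit 20637294657, nat_lit 44,
  [⟨V6_18456252480, [(nat_lit 92, nat_lit 20637294657), (nat_lit 117, nat_lit 21711036480), (nat_lit 125, nat_lit 21711032385), (nat_lit 87, nat_lit 21694259265), (nat_lit 81, nat_lit 22784774208), (nat_lit 48, nat_lit 22768001088), (nat_lit 98, nat_lit 22767996993), (nat_lit 43, nat_lit 22751223873), (nat_lit 109, nat_lit 23841738816), (nat_lit 100, nat_lit 23824965696), (nat_lit 7, nat_lit 23824961601), (nat_lit 70, nat_lit 24898703424)]⟩,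
   ⟨V6_17382510657, [(nat_lit 84, nat_lit 20637294657), (nat_lit 105, nat_lit 21711032385), (nat_lit 68, nat_lit 21694259265), (nat_lit 118, nat_lit 22767996993), (nat_lit 11, nat_lit 22751223873), (nat_lit 58, nat_lit 23824961601)]⟩],
  [W_20586434624, W_20586176576, W_20569661504, W_19529211968, W_19512696896, W_18472247360, W_17415282752, W_17398767680, W_16341803072, W_15268581440]⟩
theorem C_20637294657 : chkRec R_20637294657 = true := by decide +kernel

noncomputable def R_20637294720 : Rec := ⟨nat_lit 20637294720, nat_lit 96,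
  [⟨V6_19513221120, [(nat_lit 27, nat_lit 20637294720), (nat_lit 30, nat_lit 21711036480), (nat_lit 7, nat_lit 21694259328), (nat_lit 61, nat_lit 22784778240), (nat_lit 111, nat_lit 22768001088), (nat_lit 121, nat_lit 22751223936), (nat_lit 45, nat_lit 23841742848), (nat_lit 47, nat_lit 23824965696), (nat_lit 106, nat_lit 23808188544), (nat_lit 27, nat_lit 24898707456), (nat_lit 57, nat_lit 24881930304), (nat_lit 13, nat_lit 25955672064)]⟩,
   ⟨V6_18456256512, [(nat_lit 60, nat_lit 20637294720), (nat_lit 118, nat_lit 21711036480), (nat_lit 13, nat_lit 21694259328), (nat_lit 118, nat_lit 22784778240), (nat_lit 94, nat_lit 22768001088), (nat_lit 77, nat_lit 22751223936), (nat_lit 61, nat_lit 23841742848), (nat_lit 90, nat_lit 23824965696), (nat_lit 47, nat_lit 24898707456)]⟩],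
  [W_20586438656, W_20569923584, W_20569399424, W_19545989120, W_19529211968, W_18489024512, W_17415544832, W_16342065152, W_16341803072, W_16341540992, W_15268585472, W_15268061312, W_15251546240]⟩
theorem C_20637294720 : chkRec R_20637294720 = true := by decide +kernel

noncomputable def R_20637298752 : Rec := ⟨nat_lit 20637298752, nat_lit 174,
  [⟨V6_19513221120, [(nat_lit 99, nat_lit 20637298752), (nat_lit 116, nat_lit 21711040512), (nat_lit 104, nat_lit 21711036480), (nat_lit 54, nat_lit 21694263360), (nat_lit 114, nat_lit 22784778240), (nat_lit 115, nat_lit 22768005120), (nat_lit 95, nat_lit 22768001088), (nat_lit 4, nat_lit 22751227968), (nat_lit 8, nat_lit 23841742848), (nat_lit 49, nat_lit 23824969728), (nat_lit 21, nat_lit 23824965696), (nat_lit 95, nat_lit 23808192576), (nat_lit 87, nat_lit 24898707456), (nat_lit 43, nat_lit 24881934336), (nat_lit 110, nat_lit 24881930304), (nat_lit 51, nat_lit 25955672064)]⟩,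
   ⟨V6_18456256512, [(nat_lit 76, nat_lit 20637298752), (nat_lit 59, nat_lit 21711040512), (nat_lit 45, nat_lit 21711036480), (nat_lit 96, nat_lit 21694263360), (nat_lit 4, nat_lit 22784778240), (nat_lit 2, nat_lit 22768005120), (nat_lit 61, nat_lit 22768001088), (nat_lit 50, nat_lit 22751227968), (nat_lit 56, nat_lit 23841742848), (nat_lit 16, nat_lit 23824969728), (nat_lit 24, nat_lit 23824965696), (nat_lit 95, nat_lit 24898707456)]⟩,
   ⟨V6_18456252480, [(nat_lit 15, nat_lit 20637298752), (nat_lit 81, nat_lit 21711036480), (nat_lit 50, nat_lit 21694263360), (nat_lit 48, nat_lit 22784774208), (nat_lit 4, nat_lit 22768001088), (nat_lit 122, nat_lit 22751227968), (nat_lit 63, nat_lit 23841738816), (nat_lit 98, nat_lit 23824965696), (nat_lit 116, nat_lit 24898703424)]⟩],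
  [W_20603211776, W_20586696704, W_20586438656, W_20569923584, W_20553150464, W_19546247168, W_19529732096, W_19496185856, W_18489282560, W_18472767488, W_16341807104, W_16325292032, W_15268585472, W_15268581440, W_15268327424]⟩
theorem C_20637298752 : chkRec R_20637298752 = true := by decide +kernel

noncomputable def R_20637302784 : Rec := ⟨nat_lit 20637302784, nat_lit 141,
  [⟨V6_20553154560, [(nat_lit 26, nat_lit 20637302784), (nat_lit 55, nat_lit 21710782464), (nat_lit 77, nat_lit 21694267392), (nat_lit 107, nat_lit 22767747072), (nat_lit 69, nat_lit 22751232000), (nat_lit 87, nat_lit 23824711680), (nat_lit 58, nat_lit 23808196608), (nat_lit 87, nat_lit 24881676288), (nat_lit 50, nat_lit 24865161216), (nat_lit 21, nat_lit 25938640896), (nat_lit 101, nat_lit 25922125824), (nat_lit 67, nat_lit 26995605504)]⟩,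
   ⟨V6_19496189952, [(nat_lit 114, nat_lit 20637302784), (nat_lit 104, nat_lit 21710782464), (nat_lit 59, nat_lit 21694267392), (nat_lit 71, nat_lit 22767747072), (nat_lit 85, nat_lit 22751232000), (nat_lit 55, nat_lit 23824711680), (nat_lit 88, nat_lit 23808196608), (nat_lit 85, nat_lit 24881676288), (nat_lit 96, nat_lit 24865161216), (nat_lit 86, nat_lit 25938640896)]⟩,
   ⟨V6_17382260736, [(nat_lit 102, nat_lit 20637302784), (nat_lit 90, nat_lit 21710782464), (nat_lit 78, nat_lit 21694267392), (nat_lit 5, nat_lit 22767747072), (nat_lit 63, nat_lit 22751232000), (nat_lit 74, nat_lit 23824711680)]⟩,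
   ⟨V6_16325296128, [(nat_lit 82, nat_lit 20637302784), (nat_lit 51, nat_lit 21710782464), (nat_lit 123, nat_lit 21694267392), (nat_lit 8, nat_lit 22767747072)]⟩,
   ⟨V6_15268331520, [(nat_lit 51, nat_lit 20637302784), (nat_lit 94, nat_lit 21710782464)]⟩],
  [W_20586696704, W_19546505216, W_19529732096, W_18489540608, W_18472767488, W_17416060928, W_17415802880, W_15268585472, W_15268327424, W_15251812352]⟩
theorem C_20637302784 : chkRec R_20637302784 = true := by decide +kernel

noncomputable def R_20637552705 : Rec := ⟨nat_lit 20637552705, nat_lit 22,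
  [⟨V6_20536889409, [(nat_lit 47, nat_lit 20637552705), (nat_lit 103, nat_lit 21694517313), (nat_lit 116, nat_lit 22751481921), (nat_lit 93, nat_lit 23808446529), (nat_lit 42, nat_lit 24865411137), (nat_lit 54, nat_lit 25922375745), (nat_lit 87, nat_lit 26979340353)]⟩,
   ⟨V6_17365995585, [(nat_lit 60, nat_lit 20637552705), (nat_lit 68, nat_lit 21694517313), (nat_lit 93, nat_lit 22751481921), (nat_lit 11, nat_lit 23808446529)]⟩,
   ⟨V6_15268843584, [(nat_lit 66, nat_lit 20637552705), (nat_lit 14, nat_lit 21711294528)]⟩,
   ⟨V6_15268581441, [(nat_lit 95, nat_lit 20637552705), (nat_lit 20, nat_lit 21711032385)]⟩],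
  [W_20619464768, W_20602949696, W_20586434624, W_19545985088, W_18489020480, W_18472505408, W_17415540800]⟩
theorem C_20637552705 : chkRec R_20637552705 = true := by decide +kernel

noncomputable def R_20637556800 : Rec := ⟨nat_lit 20637556800, nat_lit 206,
  [⟨V6_19496706048, [(nat_lit 18, nat_lit 20637556800), (nat_lit 7, nat_lit 21711298560), (nat_lit 27, nat_lit 21694521408), (nat_lit 21, nat_lit 22768263168), (nat_lit 120, nat_lit 22751486016), (nat_lit 62, nat_lit 23825227776), (nat_lit 18, nat_lit 23808450624), (nat_lit 41, nat_lit 24882192384), (nat_lit 86, nat_lit 24865415232), (nat_lit 116, nat_lit 25939156992)]⟩,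
   ⟨V6_17382776832, [(nat_lit 106, nat_lit 20637556800), (nat_lit 49, nat_lit 21711298560), (nat_lit 35, nat_lit 21694521408), (nat_lit 6, nat_lit 22768263168), (nat_lit 33, nat_lit 22751486016), (nat_lit 12, nat_lit 23825227776)]⟩,
   ⟨V6_15268843584, [(nat_lit 37, nat_lit 20637556800), (nat_lit 28, nat_lit 21711294528)]⟩],
  [W_20603211776, W_20602949696, W_20586696704, W_20586438656, W_20569923584, W_20536893440, W_19546247168, W_19545985088, W_19529732096, W_18489282560, W_18489024512, W_18489020480, W_18472767488, W_18472509440, W_18472505408, W_17415544832, W_15268581440]⟩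
theorem C_20637556800 : chkRec R_20637556800 = true := by decide +kernel

noncomputable def R_20637560832 : Rec := ⟨nat_lit 20637560832, nat_lit 226,
  [⟨V6_18439741440, [(nat_lit 56, nat_lit 20637560832), (nat_lit 22, nat_lit 21711298560), (nat_lit 92, nat_lit 21694525440), (nat_lit 68, nat_lit 22768263168), (nat_lit 70, nat_lit 22751490048), (nat_lit 46, nat_lit 23825227776), (nat_lit 60, nat_lit 23808454656), (nat_lit 96, nat_lit 24882192384)]⟩,
   ⟨V6_17399549952, [(nat_lit 11, nat_lit 20637560832), (nat_lit 58, nat_lit 21711298560), (nat_lit 109, nat_lit 21694525440), (nat_lit 116, nat_lit 22785036288), (nat_lit 34, nat_lit 22768263168), (nat_lit 69, nat_lit 23842000896)]⟩,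
   ⟨V6_17382776832, [(nat_lit 23, nat_lit 20637560832), (nat_lit 45, nat_lit 21711298560), (nat_lit 96, nat_lit 21694525440), (nat_lit 58, nat_lit 22768263168), (nat_lit 101, nat_lit 22751490048), (nat_lit 65, nat_lit 23825227776)]⟩],
  [W_20619984896, W_20603211776, W_20586696704, W_20586438656, W_20569923584, W_20569665536, W_20553150464, W_20536893440, W_20520120320, W_19563020288, W_19546247168, W_19529732096, W_19529474048, W_19463155712, W_16341807104]⟩
theorem C_20637560832 : chkRec R_20637560832 = true := by decide +kernel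

noncomputable def R_20637814848 : Rec := ⟨nat_lit 20637814848, nat_lit 110,
  [⟨V6_19546247232, [(nat_lit 79, nat_lit 20637814848), (nat_lit 44, nat_lit 21711294528), (nat_lit 124, nat_lit 21694779456), (nat_lit 118, nat_lit 22784774208), (nat_lit 29, nat_lit 22768259136), (nat_lit 72, nat_lit 23858253888), (nat_lit 111, nat_lit 23841738816), (nat_lit 124, nat_lit 24931733568), (nat_lit 69, nat_lit 24915218496), (nat_lit 120, nat_lit 25988698176)]⟩,
   ⟨V6_18423222336, [(nat_lit 56, nat_lit 20637814848), (nat_lit 126, nat_lit 21694779456), (nat_lit 120, nat_lit 22751744064), (nat_lit 116, nat_lit 23808708672), (nat_lit 94, nat_lit 24865673280)]⟩,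
   ⟨V6_17383034880, [(nat_lit 97, nat_lit 20637814848), (nat_lit 70, nat_lit 21711556608), (nat_lit 50, nat_lit 21694779456), (nat_lit 63, nat_lit 22768521216), (nat_lit 29, nat_lit 22751744064), (nat_lit 126, nat_lit 23825485824)]⟩],
  [W_20619464768, W_20603211776, W_20586696704, W_20537151488, W_20520374336, W_19562762240, W_19546247168, W_19545985088, W_18489282560, W_17415802880, W_15268843520]⟩
theorem C_20637814848 : chkRec R_20637814848 = true := by decide +kernel

noncomputable def R_20637818880 : Rec := ⟨nat_lit 20637818880, nat_lit 232,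
  [⟨V6_18439741440, [(nat_lit 100, nat_lit 20637818880), (nat_lit 77, nat_lit 21711298560), (nat_lit 43, nat_lit 21694783488), (nat_lit 85, nat_lit 22768263168), (nat_lit 60, nat_lit 22751748096), (nat_lit 110, nat_lit 23825227776), (nat_lit 55, nat_lit 23808712704), (nat_lit 13, nat_lit 24882192384)]⟩,
   ⟨V6_17383034880, [(nat_lit 18, nat_lit 20637818880), (nat_lit 86, nat_lit 21711556608), (nat_lit 69, nat_lit 21694783488), (nat_lit 116, nat_lit 22768521216), (nat_lit 84, nat_lit 22751748096), (nat_lit 85, nat_lit 23825485824)]⟩,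
   ⟨V6_17382776832, [(nat_lit 60, nat_lit 20637818880), (nat_lit 94, nat_lit 21711298560), (nat_lit 51, nat_lit 21694783488), (nat_lit 9, nat_lit 22768263168), (nat_lit 58, nat_lit 22751748096), (nat_lit 45, nat_lit 23825227776)]⟩],
  [W_20636499968, W_20619984896, W_20603211776, W_20586696704, W_20586438656, W_20569923584, W_20537151488, W_20536893440, W_19546247168, W_19529732096, W_19529474048, W_19463413760, W_18472767488]⟩
theorem C_20637818880 : chkRec R_20637818880 = true := by decide +kernel

noncomputable def R_20638076928 : Rec := ⟨nat_lit 20638076928, nat_lit 158,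
  [⟨V6_18423484416, [(nat_lit 78, nat_lit 20638076928), (nat_lit 112, nat_lit 21695041536), (nat_lit 22, nat_lit 22752006144), (nat_lit 89, nat_lit 23808970752), (nat_lit 13, nat_lit 24865935360)]⟩,
   ⟨V6_17399549952, [(nat_lit 76, nat_lit 20638076928), (nat_lit 78, nat_lit 21711556608), (nat_lit 124, nat_lit 21695041536), (nat_lit 48, nat_lit 22785036288), (nat_lit 99, nat_lit 22768521216), (nat_lit 27, nat_lit 23842000896)]⟩,
   ⟨V6_17366519808, [(nat_lit 86, nat_lit 20638076928), (nat_lit 89, nat_lit 21695041536), (nat_lit 19, nat_lit 22752006144), (nat_lit 20, nat_lit 23808970752)]⟩,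
   ⟨V6_16326328320, [(nat_lit 53, nat_lit 20638076928), (nat_lit 78, nat_lit 21711814656), (nat_lit 54, nat_lit 21695041536), (nat_lit 15, nat_lit 22768779264)]⟩],
  [W_20636499968, W_20619984896, W_20603211776, W_20586696704, W_20537409536, W_20537151488, W_19563020288, W_19562762240, W_19546505216, W_19546247168, W_19463671808, W_18489540608, W_15269101568]⟩
theorem C_20638076928 : chkRec R_20638076928 = true := by decide +kernel

noncomputable def R_20638334976 : Rec := ⟨nat_lit 20638334976, nat_lit 67,
  [⟨V6_20620247040, [(nat_lit 78, nat_lit 20638334976), (nat_lit 81, nat_lit 21711814656), (nat_lit 77, nat_lit 21695299584), (nat_lit 81, nat_lit 22785294336), (nat_lit 8, nat_lit 22768779264), (nat_lit 118, nat_lit 23858774016), (nat_lit 114, nat_lit 23842258944), (nat_lit 99, nat_lit 24932253696), (nat_lit 55, nat_lit 24915738624), (nat_lit 92, nat_lit 26005733376), (nat_lit 78, nat_lit 25989218304), (nat_lit 60, nat_lit 27062697984)]⟩,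
   ⟨V6_20554186752, [(nat_lit 59, nat_lit 20638334976), (nat_lit 30, nat_lit 21711814656), (nat_lit 86, nat_lit 21695299584), (nat_lit 9, nat_lit 22768779264), (nat_lit 48, nat_lit 22752264192), (nat_lit 20, nat_lit 23825743872), (nat_lit 116, nat_lit 23809228800), (nat_lit 108, nat_lit 24882708480), (nat_lit 32, nat_lit 24866193408), (nat_lit 16, nat_lit 25939673088), (nat_lit 49, nat_lit 25923158016), (nat_lit 75, nat_lit 26996637696)]⟩,
   ⟨V6_18423742464, [(nat_lit 76, nat_lit 20638334976), (nat_lit 44, nat_lit 21695299584), (nat_lit 54, nat_lit 22752264192), (nat_lit 103, nat_lit 23809228800), (nat_lit 55, nat_lit 24866193408)]⟩,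
   ⟨V6_16326328320, [(nat_lit 113, nat_lit 20638334976), (nat_lit 43, nat_lit 21711814656), (nat_lit 47, nat_lit 21695299584), (nat_lit 105, nat_lit 22768779264)]⟩],
  [W_20619984896, W_19563020288, W_18456510464, W_17416060928, W_17350000640, W_15269101568]⟩
theorem C_20638334976 : chkRec R_20638334976 = true := by decide +kernel

noncomputable def R_20653285506 : Rec := ⟨nat_lit 20653285506, nat_lit 1,
  [⟨V6_16358318208, [(nat_lit 90, nat_lit 20653285506), (nat_lit 80, nat_lit 21727027329), (nat_lit 53, nat_lit 22800769152)]⟩],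
  [W_20569399424]⟩
theorem C_20653285506 : chkRec R_20653285506 = true := by decide +kernel

noncomputable def R_20653547649 : Rec := ⟨nat_lit 20653547649, nat_lit 12,
  [⟨V6_20569661505, [(nat_lit 2, nat_lit 20653547649), (nat_lit 86, nat_lit 21727289409), (nat_lit 52, nat_lit 21710512257), (nat_lit 27, nat_lit 22784254017), (nat_lit 119, nat_lit 22767476865), (nat_lit 80, nat_lit 23841218625), (nat_lit 71, nat_lit 23824441473), (nat_lit 120, nat_lit 24898183233), (nat_lit 42, nat_lit 24881406081), (nat_lit 41, nat_lit 25955147841), (nat_lit 115, nat_lit 25938370689), (nat_lit 76, nat_lit 27012112449)]⟩,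
   ⟨V6_16341803073, [(nat_lit 73, nat_lit 20653547649), (nat_lit 112, nat_lit 21727289409), (nat_lit 81, nat_lit 21710512257), (nat_lit 45, nat_lit 22784254017)]⟩,
   ⟨V6_16341540993, [(nat_lit 7, nat_lit 20653547649), (nat_lit 41, nat_lit 21727027329), (nat_lit 2, nat_lit 21710512257), (nat_lit 12, nat_lit 22783991937)]⟩],
  [W_20569399424, W_19529211968, W_17415282752, W_16341540992]⟩
theorem C_20653547649 : chkRec R_20653547649 = true := by decide +kernel

noncomputable def R_20653551681 : Rec := ⟨nat_lit 20653551681, nat_lit 9,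
  [⟨V6_19495923777, [(nat_lit 114, nat_lit 20653551681), (nat_lit 1, nat_lit 21710516289), (nat_lit 53, nat_lit 22767480897), (nat_lit 119, nat_lit 23824445505), (nat_lit 116, nat_lit 24881410113), (nat_lit 17, nat_lit 25938374721)]⟩,
   ⟨V6_16341803073, [(nat_lit 10, nat_lit 20653551681), (nat_lit 52, nat_lit 21727289409), (nat_lit 98, nat_lit 21710516289), (nat_lit 33, nat_lit 22784254017)]⟩],
  [W_20586434624, W_18472505408, W_17415540800]⟩
theorem C_20653551681 : chkRec R_20653551681 = true := by decide +kernel

noncomputable def R_20653551744 : Rec := ⟨nat_lit 20653551744, nat_lit 22,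
  [⟨V6_18455732352, [(nat_lit 101, nat_lit 20653551744), (nat_lit 60, nat_lit 21727289472), (nat_lit 69, nat_lit 21710516352), (nat_lit 118, nat_lit 22784254080), (nat_lit 65, nat_lit 22767480960), (nat_lit 60, nat_lit 23841218688), (nat_lit 126, nat_lit 23824445568), (nat_lit 21, nat_lit 24898183296)]⟩,
   ⟨V6_16358584320, [(nat_lit 87, nat_lit 20653551744), (nat_lit 108, nat_lit 21727293504), (nat_lit 24, nat_lit 22801035264)]⟩],
  [W_20586438656, W_20569665536, W_20552888384, W_19512700928]⟩
theorem C_20653551744 : chkRec R_20653551744 = true := by decide +kernel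

noncomputable def R_20653809729 : Rec := ⟨nat_lit 20653809729, nat_lit 27,
  [⟨V6_20569919553, [(nat_lit 6, nat_lit 20653809729), (nat_lit 99, nat_lit 21727547457), (nat_lit 58, nat_lit 21710774337), (nat_lit 125, nat_lit 22784512065), (nat_lit 106, nat_lit 22767738945), (nat_lit 33, nat_lit 23841476673), (nat_lit 32, nat_lit 23824703553), (nat_lit 60, nat_lit 24898441281), (nat_lit 121, nat_lit 24881668161), (nat_lit 121, nat_lit 25955405889), (nat_lit 88, nat_lit 25938632769), (nat_lit 21, nat_lit 27012370497)]⟩,
   ⟨V6_20553146433, [(nat_lit 8, nat_lit 20653809729), (nat_lit 87, nat_lit 21710774337), (nat_lit 122, nat_lit 22767738945), (nat_lit 27, nat_lit 23824703553), (nat_lit 109, nat_lit 24881668161), (nat_lit 103, nat_lit 25938632769), (nat_lit 96, nat_lit 26995597377)]⟩,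
   ⟨V6_18439217217, [(nat_lit 108, nat_lit 20653809729), (nat_lit 38, nat_lit 21710774337), (nat_lit 40, nat_lit 22767738945), (nat_lit 68, nat_lit 23824703553), (nat_lit 31, nat_lit 24881668161)]⟩],
  [W_20602949696, W_19545985088, W_18489020480, W_18472505408, W_17415282752, W_17399025728, W_16358576192, W_16342061120]⟩
theorem C_20653809729 : chkRec R_20653809729 = true := by decide +kernel

noncomputable def R_20653809792 : Rec := ⟨nat_lit 20653809792, nat_lit 58,
  [⟨V6_20586700800, [(nat_lit 42, nat_lit 20653809792), (nat_lit 38, nat_lit 21727551552), (nat_lit 33, nat_lit 21710774400), (nat_lit 117, nat_lit 22801293312), (nat_lit 96, nat_lit 22784516160), (nat_lit 39, nat_lit 22767739008), (nat_lit 66, nat_lit 23858257920), (nat_lit 15, nat_lit 23841480768), (nat_lit 101, nat_lit 23824703616), (nat_lit 100, nat_lit 24915222528), (nat_lit 16, nat_lit 24898445376), (nat_lit 49, nat_lit 24881668224), (nat_lit 89, nat_lit 25972187136), (nat_lit 12, nat_lit 25955409984), (nat_lit 71, nat_lit 27029151744)]⟩],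
  [W_20569399424, W_19545989120, W_19529474048, W_18489024512, W_18472247360, W_17415544832, W_16358580224, W_16342065152, W_16341540992]⟩
theorem C_20653809792 : chkRec R_20653809792 = true := by decide +kernel

noncomputable def R_20653813824 : Rec := ⟨nat_lit 20653813824, nat_lit 97,
  [⟨V6_20569927680, [(nat_lit 98, nat_lit 20653813824), (nat_lit 29, nat_lit 21727555584), (nat_lit 113, nat_lit 21710778432), (nat_lit 119, nat_lit 22784520192), (nat_lit 89, nat_lit 22767743040), (nat_lit 11, nat_lit 23841484800), (nat_lit 27, nat_lit 23824707648), (nat_lit 77, nat_lit 24898449408), (nat_lit 96, nat_lit 24881672256), (nat_lit 101, nat_lit 25955414016), (nat_lit 108, nat_lit 25938636864), (nat_lit 80, nat_lit 27012378624)]⟩,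
   ⟨V6_18455998464, [(nat_lit 31, nat_lit 20653813824), (nat_lit 21, nat_lit 21727555584), (nat_lit 18, nat_lit 21710778432), (nat_lit 34, nat_lit 22784520192), (nat_lit 107, nat_lit 22767743040), (nat_lit 122, nat_lit 23841484800), (nat_lit 75, nat_lit 23824707648), (nat_lit 34, nat_lit 24898449408)]⟩],
  [W_20603211776, W_20586696704, W_19546247168, W_19529474048, W_18489282560, W_18472505408, W_17432317952, W_17415802880, W_17415540800, W_16358576192, W_16341803072]⟩
theorem C_20653813824 : chkRec R_20653813824 = true := by decide +kernel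

noncomputable def R_20653817856 : Rec := ⟨nat_lit 20653817856, nat_lit 63,
  [⟨V6_17382260736, [(nat_lit 32, nat_lit 20653817856), (nat_lit 95, nat_lit 21710782464), (nat_lit 50, nat_lit 22767747072), (nat_lit 34, nat_lit 23824711680)]⟩,
   ⟨V6_16358842368, [(nat_lit 66, nat_lit 20653817856), (nat_lit 3, nat_lit 21727555584), (nat_lit 110, nat_lit 22801293312)]⟩,
   ⟨V6_16325296128, [(nat_lit 29, nat_lit 20653817856), (nat_lit 75, nat_lit 21710782464), (nat_lit 80, nat_lit 22767747072)]⟩],
  [W_20586696704, W_20553150464, W_19546505216, W_18489540608]⟩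
theorem C_20653817856 : chkRec R_20653817856 = true := by decide +kernel

noncomputable def R_20654067777 : Rec := ⟨nat_lit 20654067777, nat_lit 15,
  [⟨V6_16342323264, [(nat_lit 10, nat_lit 20654067777), (nat_lit 106, nat_lit 21727809600), (nat_lit 10, nat_lit 21711032385), (nat_lit 56, nat_lit 22784774208)]⟩],
  [W_20602949696, W_20586434624, W_19545985088, W_18489020480, W_17432055872]⟩
theorem C_20654067777 : chkRec R_20654067777 = true := by decide +kernel

noncomputable def R_20654071872 : Rec := ⟨nat_lit 20654071872, nat_lit 140,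
  [⟨V6_19513221120, [(nat_lit 69, nat_lit 20654071872), (nat_lit 34, nat_lit 21727813632), (nat_lit 104, nat_lit 21711036480), (nat_lit 73, nat_lit 22784778240), (nat_lit 122, nat_lit 22768001088), (nat_lit 98, nat_lit 23841742848), (nat_lit 45, nat_lit 23824965696), (nat_lit 11, nat_lit 24898707456), (nat_lit 70, nat_lit 24881930304), (nat_lit 46, nat_lit 25955672064)]⟩,
   ⟨V6_18456256512, [(nat_lit 14, nat_lit 20654071872), (nat_lit 116, nat_lit 21727813632), (nat_lit 45, nat_lit 21711036480), (nat_lit 85, nat_lit 22784778240), (nat_lit 77, nat_lit 22768001088), (nat_lit 51, nat_lit 23841742848), (nat_lit 124, nat_lit 23824965696), (nat_lit 85, nat_lit 24898707456)]⟩],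
  [W_20603211776, W_20602949696, W_20586696704, W_20569923584, W_19562762240, W_19546247168, W_19545989120, W_19545985088, W_19529732096, W_18489282560, W_18489020480, W_18472505408, W_16358576192]⟩
theorem C_20654071872 : chkRec R_20654071872 = true := by decide +kernel

noncomputable def R_20654075904 : Rec := ⟨nat_lit 20654075904, nat_lit 144,
  [⟨V6_18456256512, [(nat_lit 8, nat_lit 20654075904), (nat_lit 89, nat_lit 21727813632), (nat_lit 96, nat_lit 21711040512), (nat_lit 120, nat_lit 22784778240), (nat_lit 107, nat_lit 22768005120), (nat_lit 89, nat_lit 23841742848), (nat_lit 98, nat_lit 23824969728), (nat_lit 101, nat_lit 24898707456)]⟩,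
   ⟨V6_18455998464, [(nat_lit 85, nat_lit 20654075904), (nat_lit 53, nat_lit 21727555584), (nat_lit 11, nat_lit 21711040512), (nat_lit 84, nat_lit 22784520192), (nat_lit 33, nat_lit 22768005120), (nat_lit 116, nat_lit 23841484800), (nat_lit 10, nat_lit 23824969728), (nat_lit 76, nat_lit 24898449408)]⟩,
   ⟨V6_16358584320, [(nat_lit 19, nat_lit 20654075904), (nat_lit 18, nat_lit 21727555584), (nat_lit 57, nat_lit 22801035264)]⟩],
  [W_20619984896, W_20603211776, W_20586696704, W_20569923584, W_20569665536, W_19563020288, W_19546505216, W_19546247168, W_17416060928, W_16358838272, W_16358580224, W_16341807104]⟩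
theorem C_20654075904 : chkRec R_20654075904 = true := by decide +kernel

noncomputable def R_20654329920 : Rec := ⟨nat_lit 20654329920, nat_lit 87,
  [⟨V6_18456252480, [(nat_lit 80, nat_lit 20654329920), (nat_lit 18, nat_lit 21727809600), (nat_lit 122, nat_lit 21711294528), (nat_lit 97, nat_lit 22784774208), (nat_lit 108, nat_lit 22768259136), (nat_lit 110, nat_lit 23841738816), (nat_lit 62, nat_lit 23825223744), (nat_lit 125, nat_lit 24898703424)]⟩,
   ⟨V6_17399549952, [(nat_lit 19, nat_lit 20654329920), (nat_lit 30, nat_lit 21728071680), (nat_lit 9, nat_lit 21711294528), (nat_lit 74, nat_lit 22785036288), (nat_lit 28, nat_lit 22768259136), (nat_lit 23, nat_lit 23842000896)]⟩],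
  [W_20619464768, W_20603211776, W_20586696704, W_20570181632, W_19579277312, W_19546247168, W_17432317952, W_16358838272, W_16358576192]⟩
theorem C_20654329920 : chkRec R_20654329920 = true := by decide +kernel

noncomputable def R_20654333952 : Rec := ⟨nat_lit 20654333952, nat_lit 184,
  [⟨V6_19496706048, [(nat_lit 88, nat_lit 20654333952), (nat_lit 3, nat_lit 21711298560), (nat_lit 32, nat_lit 22768263168), (nat_lit 103, nat_lit 23825227776), (nat_lit 94, nat_lit 24882192384), (nat_lit 51, nat_lit 25939156992)]⟩,
   ⟨V6_17399549952, [(nat_lit 81, nat_lit 20654333952), (nat_lit 23, nat_lit 21728071680), (nat_lit 44, nat_lit 21711298560), (nat_lit 38, nat_lit 22785036288), (nat_lit 21, nat_lit 22768263168), (nat_lit 1, nat_lit 23842000896)]⟩,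
   ⟨V6_17382776832, [(nat_lit 106, nat_lit 20654333952), (nat_lit 21, nat_lit 21711298560), (nat_lit 118, nat_lit 22768263168), (nat_lit 65, nat_lit 23825227776)]⟩],
  [W_20636499968, W_20619984896, W_20603211776, W_20586696704, W_20586438656, W_19579535360, W_19563020288, W_19546247168, W_19529732096, W_18489540608, W_18489282560, W_18489024512, W_18472767488]⟩
theorem C_20654333952 : chkRec R_20654333952 = true := by decide +kernel

noncomputable def R_20654592000 : Rec := ⟨nat_lit 20654592000, nat_lit 139,
  [⟨V6_19496964096, [(nat_lit 10, nat_lit 20654592000), (nat_lit 9, nat_lit 21711556608), (nat_lit 96, nat_lit 22768521216), (nat_lit 55, nat_lit 23825485824), (nat_lit 28, nat_lit 24882450432), (nat_lit 26, nat_lit 25939415040)]⟩,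
   ⟨V6_18456772608, [(nat_lit 109, nat_lit 20654592000), (nat_lit 35, nat_lit 21728329728), (nat_lit 116, nat_lit 21711556608), (nat_lit 71, nat_lit 22785294336), (nat_lit 95, nat_lit 22768521216), (nat_lit 125, nat_lit 23842258944), (nat_lit 116, nat_lit 23825485824), (nat_lit 90, nat_lit 24899223552)]⟩,
   ⟨V6_18439999488, [(nat_lit 124, nat_lit 20654592000), (nat_lit 6, nat_lit 21711556608), (nat_lit 13, nat_lit 22768521216), (nat_lit 111, nat_lit 23825485824), (nat_lit 45, nat_lit 24882450432)]⟩,
   ⟨V6_16359358464, [(nat_lit 57, nat_lit 20654592000), (nat_lit 81, nat_lit 21728329728), (nat_lit 11, nat_lit 21728071680), (nat_lit 64, nat_lit 22801809408)]⟩],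
  [W_20653015040, W_20636499968, W_20619984896, W_20603211776, W_20586696704, W_19579535360, W_19579277312, W_19563020288, W_19562762240, W_19546247168, W_18489282560, W_17416060928, W_16358838272]⟩
theorem C_20654592000 : chkRec R_20654592000 = true := by decide +kernel

noncomputable def R_20654850048 : Rec := ⟨nat_lit 20654850048, nat_lit 64,
  [⟨V6_20554186752, [(nat_lit 63, nat_lit 20654850048), (nat_lit 66, nat_lit 21711814656), (nat_lit 40, nat_lit 22768779264), (nat_lit 38, nat_lit 23825743872), (nat_lit 17, nat_lit 24882708480), (nat_lit 65, nat_lit 25939673088), (nat_lit 121, nat_lit 26996637696)]⟩,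
   ⟨V6_18456772608, [(nat_lit 35, nat_lit 20654850048), (nat_lit 86, nat_lit 21728329728), (nat_lit 60, nat_lit 21711814656), (nat_lit 34, nat_lit 22785294336), (nat_lit 93, nat_lit 22768779264), (nat_lit 62, nat_lit 23842258944), (nat_lit 70, nat_lit 23825743872), (nat_lit 48, nat_lit 24899223552)]⟩,
   ⟨V6_16359358464, [(nat_lit 23, nat_lit 20654850048), (nat_lit 43, nat_lit 21728329728), (nat_lit 28, nat_lit 22801809408)]⟩,
   ⟨V6_16326328320, [(nat_lit 21, nat_lit 20654850048), (nat_lit 120, nat_lit 21711814656), (nat_lit 1, nat_lit 22768779264)]⟩],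
  [W_20653015040, W_20636499968, W_20619984896, W_19579535360, W_19563020288, W_17432576000, W_17416060928]⟩
theorem C_20654850048 : chkRec R_20654850048 = true := by decide +kernel

noncomputable def R_20670062721 : Rec := ⟨nat_lit 20670062721, nat_lit 5,
  [⟨V6_18472247424, [(nat_lit 116, nat_lit 20670062721), (nat_lit 95, nat_lit 21743804544), (nat_lit 54, nat_lit 21727027329), (nat_lit 49, nat_lit 22800769152), (nat_lit 35, nat_lit 22783991937), (nat_lit 116, nat_lit 23857733760), (nat_lit 105, nat_lit 23840956545), (nat_lit 37, nat_lit 24914698368)]⟩],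
  [W_19529211968]⟩
theorem C_20670062721 : chkRec R_20670062721 = true := by decide +kernel

noncomputable def R_20670324801 : Rec := ⟨nat_lit 20670324801, nat_lit 11,
  [⟨V6_20569661505, [(nat_lit 64, nat_lit 20670324801), (nat_lit 23, nat_lit 21727289409), (nat_lit 5, nat_lit 22784254017), (nat_lit 85, nat_lit 23841218625), (nat_lit 99, nat_lit 24898183233), (nat_lit 41, nat_lit 25955147841), (nat_lit 51, nat_lit 27012112449)]⟩,
   ⟨V6_19545985089, [(nat_lit 95, nat_lit 20670324801), (nat_lit 42, nat_lit 21744062529), (nat_lit 113, nat_lit 21743804481), (nat_lit 120, nat_lit 21727289409), (nat_lit 88, nat_lit 22817542209), (nat_lit 66, nat_lit 22801027137), (nat_lit 43, nat_lit 22800769089), (nat_lit 110, nat_lit 22784254017), (nat_lit 40, nat_lit 23874506817), (nat_lit 86, nat_lit 23857991745), (nat_lit 76, nat_lit 23857733697), (nat_lit 102, nat_lit 23841218625), (nat_lit 90, nat_lit 24931471425), (nat_lit 89, nat_lit 24914956353), (nat_lit 87, nat_lit 24914698305), (nat_lit 29, nat_lit 25988436033)]⟩,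
   ⟨V6_18472505409, [(nat_lit 3, nat_lit 20670324801), (nat_lit 41, nat_lit 21744062529), (nat_lit 120, nat_lit 21727289409), (nat_lit 105, nat_lit 22801027137), (nat_lit 63, nat_lit 22784254017), (nat_lit 39, nat_lit 23857991745), (nat_lit 96, nat_lit 23841218625), (nat_lit 119, nat_lit 24914956353)]⟩,
   ⟨V6_17415282753, [(nat_lit 101, nat_lit 20670324801), (nat_lit 9, nat_lit 21743804481), (nat_lit 120, nat_lit 21727289409), (nat_lit 86, nat_lit 22800769089), (nat_lit 125, nat_lit 22784254017), (nat_lit 115, nat_lit 23857733697)]⟩],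
  [W_19512696896, W_17415282752]⟩
theorem C_20670324801 : chkRec R_20670324801 = true := by decide +kernel

noncomputable def R_20670324864 : Rec := ⟨nat_lit 20670324864, nat_lit 25,
  [⟨V6_18455732352, [(nat_lit 50, nat_lit 20670324864), (nat_lit 47, nat_lit 21727289472), (nat_lit 60, nat_lit 22784254080), (nat_lit 86, nat_lit 23841218688), (nat_lit 58, nat_lit 24898183296)]⟩,
   ⟨V6_17448837120, [(nat_lit 55, nat_lit 20670324864), (nat_lit 67, nat_lit 21744066624), (nat_lit 68, nat_lit 21743804544), (nat_lit 60, nat_lit 22817808384), (nat_lit 32, nat_lit 22817546304), (nat_lit 59, nat_lit 23891288064)]⟩],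
  [W_20586438656, W_19545989120, W_18489024512]⟩
theorem C_20670324864 : chkRec R_20670324864 = true := by decide +kernel

noncomputable def R_20670328896 : Rec := ⟨nat_lit 20670328896, nat_lit 28,
  [⟨V6_20603211840, [(nat_lit 109, nat_lit 20670328896), (nat_lit 20, nat_lit 21744066624), (nat_lit 111, nat_lit 21727293504), (nat_lit 11, nat_lit 22817804352), (nat_lit 36, nat_lit 22801031232), (nat_lit 41, nat_lit 22784258112), (nat_lit 65, nat_lit 23874768960), (nat_lit 46, nat_lit 23857995840), (nat_lit 26, nat_lit 23841222720), (nat_lit 65, nat_lit 24931733568), (nat_lit 125, nat_lit 24914960448), (nat_lit 82, nat_lit 24898187328), (nat_lit 126, nat_lit 25988698176), (nat_lit 80, nat_lit 25971925056), (nat_lit 10, nat_lit 27045662784)]⟩,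
   ⟨V6_19546247232, [(nat_lit 100, nat_lit 20670328896), (nat_lit 110, nat_lit 21744066624), (nat_lit 50, nat_lit 21727293504), (nat_lit 62, nat_lit 22817804352), (nat_lit 32, nat_lit 22801031232), (nat_lit 101, nat_lit 22784258112), (nat_lit 43, nat_lit 23874768960), (nat_lit 114, nat_lit 23857995840), (nat_lit 116, nat_lit 23841222720), (nat_lit 6, nat_lit 24931733568), (nat_lit 78, nat_lit 24914960448), (nat_lit 83, nat_lit 25988698176)]⟩],
  [W_20586438656, W_17415544832, W_17398771712]⟩
theorem C_20670328896 : chkRec R_20670328896 = true := by decide +kernel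

noncomputable def R_20670582849 : Rec := ⟨nat_lit 20670582849, nat_lit 9,
  [⟨V6_20569919553, [(nat_lit 38, nat_lit 20670582849), (nat_lit 97, nat_lit 21727547457), (nat_lit 126, nat_lit 22784512065), (nat_lit 110, nat_lit 23841476673), (nat_lit 31, nat_lit 24898441281), (nat_lit 68, nat_lit 25955405889), (nat_lit 66, nat_lit 27012370497)]⟩,
   ⟨V6_17448570945, [(nat_lit 52, nat_lit 20670582849), (nat_lit 48, nat_lit 21744062529), (nat_lit 49, nat_lit 22817542209), (nat_lit 97, nat_lit 23891021889)]⟩,
   ⟨V6_17399025729, [(nat_lit 66, nat_lit 20670582849), (nat_lit 62, nat_lit 21727547457), (nat_lit 64, nat_lit 22784512065), (nat_lit 9, nat_lit 23841476673)]⟩],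
  [W_20619464768, W_18505535552, W_18472505408, W_17432055872]⟩
theorem C_20670582849 : chkRec R_20670582849 = true := by decide +kernel

noncomputable def R_20670586944 : Rec := ⟨nat_lit 20670586944, nat_lit 81,
  [⟨V6_20586700800, [(nat_lit 80, nat_lit 20670586944), (nat_lit 111, nat_lit 21744328704), (nat_lit 15, nat_lit 21727551552), (nat_lit 8, nat_lit 22801293312), (nat_lit 108, nat_lit 22784516160), (nat_lit 7, nat_lit 23858257920), (nat_lit 74, nat_lit 23841480768), (nat_lit 19, nat_lit 24915222528), (nat_lit 84, nat_lit 24898445376), (nat_lit 3, nat_lit 25972187136), (nat_lit 111, nat_lit 25955409984), (nat_lit 88, nat_lit 27029151744)]⟩,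
   ⟨V6_18522574848, [(nat_lit 87, nat_lit 20670586944), (nat_lit 27, nat_lit 21744328704), (nat_lit 126, nat_lit 21744324672), (nat_lit 22, nat_lit 21744066624), (nat_lit 39, nat_lit 22818066432), (nat_lit 52, nat_lit 22817808384), (nat_lit 3, nat_lit 22817804352), (nat_lit 123, nat_lit 22817546304), (nat_lit 21, nat_lit 23891546112), (nat_lit 3, nat_lit 23891288064), (nat_lit 57, nat_lit 23891284032), (nat_lit 70, nat_lit 24965025792)]⟩,
   ⟨V6_17448837120, [(nat_lit 14, nat_lit 20670586944), (nat_lit 3, nat_lit 21744328704), (nat_lit 67, nat_lit 21744066624), (nat_lit 100, nat_lit 22817808384), (nat_lit 53, nat_lit 22817546304), (nat_lit 61, nat_lit 23891288064)]⟩],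
  [W_20586696704, W_19529732096, W_18472767488, W_17415802880]⟩
theorem C_20670586944 : chkRec R_20670586944 = true := by decide +kernel

noncomputable def R_20670590976 : Rec := ⟨nat_lit 20670590976, nat_lit 78,
  [⟨V6_20569927680, [(nat_lit 18, nat_lit 20670590976), (nat_lit 66, nat_lit 21727555584), (nat_lit 53, nat_lit 22784520192), (nat_lit 12, nat_lit 23841484800), (nat_lit 8, nat_lit 24898449408), (nat_lit 79, nat_lit 25955414016), (nat_lit 58, nat_lit 27012378624)]⟩,
   ⟨V6_18455998464, [(nat_lit 61, nat_lit 20670590976), (nat_lit 4, nat_lit 21727555584), (nat_lit 124, nat_lit 22784520192), (nat_lit 110, nat_lit 23841484800), (nat_lit 86, nat_lit 24898449408)]⟩],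
  [W_20619984896, W_20603211776, W_19563020288, W_19546247168, W_18489282560, W_17449091072, W_17432317952]⟩
theorem C_20670590976 : chkRec R_20670590976 = true := by decide +kernel

noncomputable def R_20670844992 : Rec := ⟨nat_lit 20670844992, nat_lit 56,
  [⟨V6_19546247232, [(nat_lit 54, nat_lit 20670844992), (nat_lit 63, nat_lit 21744324672), (nat_lit 39, nat_lit 21727809600), (nat_lit 125, nat_lit 22817804352), (nat_lit 92, nat_lit 22801289280), (nat_lit 27, nat_lit 22784774208), (nat_lit 92, nat_lit 23874768960), (nat_lit 116, nat_lit 23858253888), (nat_lit 83, nat_lit 23841738816), (nat_lit 28, nat_lit 24931733568), (nat_lit 108, nat_lit 24915218496), (nat_lit 53, nat_lit 25988698176)]⟩,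
   ⟨V6_18505797696, [(nat_lit 96, nat_lit 20670844992), (nat_lit 59, nat_lit 21744324672), (nat_lit 79, nat_lit 21727809600), (nat_lit 23, nat_lit 22817804352), (nat_lit 52, nat_lit 22801289280), (nat_lit 107, nat_lit 23891284032), (nat_lit 117, nat_lit 23874768960), (nat_lit 91, nat_lit 24948248640)]⟩,
   ⟨V6_18456252480, [(nat_lit 107, nat_lit 20670844992), (nat_lit 32, nat_lit 21727809600), (nat_lit 103, nat_lit 22784774208), (nat_lit 118, nat_lit 23841738816), (nat_lit 53, nat_lit 24898703424)]⟩],
  [W_20586696704, W_19529732096, W_17448833024, W_17432317952]⟩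
theorem C_20670844992 : chkRec R_20670844992 = true := by decide +kernel

noncomputable def R_20670849024 : Rec := ⟨nat_lit 20670849024, nat_lit 121,
  [⟨V6_19513221120, [(nat_lit 83, nat_lit 20670849024), (nat_lit 5, nat_lit 21727813632), (nat_lit 78, nat_lit 22784778240), (nat_lit 35, nat_lit 23841742848), (nat_lit 98, nat_lit 24898707456), (nat_lit 92, nat_lit 25955672064)]⟩,
   ⟨V6_18456256512, [(nat_lit 107, nat_lit 20670849024), (nat_lit 32, nat_lit 21727813632), (nat_lit 103, nat_lit 22784778240), (nat_lit 118, nat_lit 23841742848), (nat_lit 53, nat_lit 24898707456)]⟩],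
  [W_20636499968, W_20619984896, W_20603211776, W_19579535360, W_19563020288, W_19562762240, W_19546247168, W_18522570752, W_18489282560, W_17449091072, W_17448833024, W_17432317952, W_17416060928]⟩
theorem C_20670849024 : chkRec R_20670849024 = true := by decide +kernel

noncomputable def R_20671107072 : Rec := ⟨nat_lit 20671107072, nat_lit 107,
  [⟨V6_20570443776, [(nat_lit 17, nat_lit 20671107072), (nat_lit 20, nat_lit 21728071680), (nat_lit 43, nat_lit 22785036288), (nat_lit 96, nat_lit 23842000896), (nat_lit 64, nat_lit 24898965504), (nat_lit 124, nat_lit 25955930112), (nat_lit 83, nat_lit 27012894720)]⟩,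
   ⟨V6_17449353216, [(nat_lit 35, nat_lit 20671107072), (nat_lit 4, nat_lit 21744844800), (nat_lit 34, nat_lit 21744586752), (nat_lit 69, nat_lit 22818324480), (nat_lit 86, nat_lit 22818066432), (nat_lit 52, nat_lit 23891804160)]⟩,
   ⟨V6_17399549952, [(nat_lit 78, nat_lit 20671107072), (nat_lit 4, nat_lit 21728071680), (nat_lit 41, nat_lit 22785036288), (nat_lit 103, nat_lit 23842000896)]⟩],
  [W_20653015040, W_20636499968, W_20636241920, W_20619984896, W_19596050432, W_19579535360, W_19579277312, W_19563020288, W_19562762240, W_18522570752, W_18522312704, W_18489540608, W_18489282560, W_17449091072, W_17448833024, W_17416060928]⟩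
theorem C_20671107072 : chkRec R_20671107072 = true := by decide +kernel

noncomputable def R_20671365120 : Rec := ⟨nat_lit 20671365120, nat_lit 58,
  [⟨V6_19596312576, [(nat_lit 65, nat_lit 20671365120), (nat_lit 57, nat_lit 21744844800), (nat_lit 59, nat_lit 22818324480), (nat_lit 60, nat_lit 23891804160), (nat_lit 58, nat_lit 24965283840), (nat_lit 7, nat_lit 26038763520)]⟩,
   ⟨V6_18522832896, [(nat_lit 121, nat_lit 20671365120), (nat_lit 70, nat_lit 21744844800), (nat_lit 2, nat_lit 22818324480), (nat_lit 101, nat_lit 23891804160), (nat_lit 16, nat_lit 24965283840)]⟩,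
   ⟨V6_18456772608, [(nat_lit 89, nat_lit 20671365120), (nat_lit 10, nat_lit 21728329728), (nat_lit 56, nat_lit 22785294336), (nat_lit 21, nat_lit 23842258944), (nat_lit 88, nat_lit 24899223552)]⟩,
   ⟨V6_17449353216, [(nat_lit 36, nat_lit 20671365120), (nat_lit 124, nat_lit 21744844800), (nat_lit 34, nat_lit 22818324480), (nat_lit 76, nat_lit 23891804160)]⟩],
  [W_20619984896, W_19563020288, W_18456510464, W_17416060928]⟩
theorem C_20671365120 : chkRec R_20671365120 = true := by decide +kernel

noncomputable def R_20686839873 : Rec := ⟨nat_lit 20686839873, nat_lit 4,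
  [⟨V6_18505797696, [(nat_lit 84, nat_lit 20686839873), (nat_lit 121, nat_lit 21760581696), (nat_lit 117, nat_lit 21760577601), (nat_lit 31, nat_lit 21743804481), (nat_lit 121, nat_lit 22834319424), (nat_lit 104, nat_lit 22817546304), (nat_lit 79, nat_lit 22817542209), (nat_lit 95, nat_lit 22800769089), (nat_lit 122, nat_lit 23891284032), (nat_lit 31, nat_lit 23874510912), (nat_lit 95, nat_lit 23874506817), (nat_lit 19, nat_lit 24948248640)]⟩],
  [W_19529211968]⟩
theorem C_20686839873 : chkRec R_20686839873 = true := by decide +kernel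

noncomputable def R_20686839936 : Rec := ⟨nat_lit 20686839936, nat_lit 8,
  [⟨V6_19562766336, [(nat_lit 91, nat_lit 20686839936), (nat_lit 43, nat_lit 21760581696), (nat_lit 60, nat_lit 21743804544), (nat_lit 125, nat_lit 22834323456), (nat_lit 50, nat_lit 22817546304), (nat_lit 27, nat_lit 22800769152), (nat_lit 93, nat_lit 23891288064), (nat_lit 96, nat_lit 23874510912), (nat_lit 25, nat_lit 23857733760), (nat_lit 42, nat_lit 24948252672), (nat_lit 79, nat_lit 24931475520), (nat_lit 12, nat_lit 26005217280)]⟩],
  [W_19545989120]⟩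
theorem C_20686839936 : chkRec R_20686839936 = true := by decide +kernel

noncomputable def R_20687097921 : Rec := ⟨nat_lit 20687097921, nat_lit 3,
  [⟨V6_19545985089, [(nat_lit 56, nat_lit 20687097921), (nat_lit 35, nat_lit 21760577601), (nat_lit 16, nat_lit 21744062529), (nat_lit 52, nat_lit 22817542209), (nat_lit 39, nat_lit 22801027137), (nat_lit 102, nat_lit 23874506817), (nat_lit 66, nat_lit 23857991745), (nat_lit 92, nat_lit 24931471425), (nat_lit 53, nat_lit 24914956353), (nat_lit 53, nat_lit 25988436033)]⟩,
   ⟨V6_18472505409, [(nat_lit 63, nat_lit 20687097921), (nat_lit 64, nat_lit 21744062529), (nat_lit 114, nat_lit 22801027137), (nat_lit 89, nat_lit 23857991745), (nat_lit 78, nat_lit 24914956353)]⟩],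
  [W_18505535552, W_18489020480]⟩
theorem C_20687097921 : chkRec R_20687097921 = true := by decide +kernel

noncomputable def R_20687102016 : Rec := ⟨nat_lit 20687102016, nat_lit 33,
  [⟨V6_19562766336, [(nat_lit 93, nat_lit 20687102016), (nat_lit 26, nat_lit 21760843776), (nat_lit 124, nat_lit 21760581696), (nat_lit 84, nat_lit 21744066624), (nat_lit 116, nat_lit 22834323456), (nat_lit 21, nat_lit 22817808384), (nat_lit 49, nat_lit 22817546304), (nat_lit 70, nat_lit 22801031232), (nat_lit 30, nat_lit 23891288064), (nat_lit 38, nat_lit 23874772992), (nat_lit 104, nat_lit 23874510912), (nat_lit 88, nat_lit 23857995840), (nat_lit 22, nat_lit 24948252672), (nat_lit 94, nat_lit 24931737600), (nat_lit 98, nat_lit 24931475520), (nat_lit 37, nat_lit 26005217280)]⟩,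
   ⟨V6_18522574848, [(nat_lit 50, nat_lit 20687102016), (nat_lit 11, nat_lit 21760843776), (nat_lit 69, nat_lit 21760839744), (nat_lit 60, nat_lit 21760581696), (nat_lit 74, nat_lit 21744066624), (nat_lit 5, nat_lit 22834581504), (nat_lit 9, nat_lit 22834323456), (nat_lit 85, nat_lit 22834319424), (nat_lit 53, nat_lit 22817808384), (nat_lit 73, nat_lit 22817804352), (nat_lit 96, nat_lit 22817546304), (nat_lit 17, nat_lit 23908061184), (nat_lit 72, nat_lit 23891546112), (nat_lit 50, nat_lit 23891288064), (nat_lit 13, nat_lit 23891284032), (nat_lit 69, nat_lit 24965025792)]⟩,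
   ⟨V6_18505797696, [(nat_lit 1, nat_lit 20687102016), (nat_lit 85, nat_lit 21760839744), (nat_lit 35, nat_lit 21760581696), (nat_lit 110, nat_lit 21744066624), (nat_lit 72, nat_lit 22834319424), (nat_lit 100, nat_lit 22817804352), (nat_lit 81, nat_lit 22817546304), (nat_lit 60, nat_lit 22801031232), (nat_lit 52, nat_lit 23891284032), (nat_lit 86, nat_lit 23874768960), (nat_lit 54, nat_lit 23874510912), (nat_lit 27, nat_lit 24948248640)]⟩],
  [W_20603211776, W_20586438656, W_20569661504]⟩
theorem C_20687102016 : chkRec R_20687102016 = true := by decide +kernel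

end Crest.Agent.R187.SN.Top
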