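import Crest.Agent.R187.SN.Top
import Crest.Agent.R187.SN.TD.X6_0
import Crest.Agent.R187.SN.TD.X6_1
import Crest.Agent.R187.SN.TD.X6_2
import Crest.Agent.R187.SN.TD.X6_3
import Crest.Agent.R187.SN.TD.X6_4
import Crest.Agent.R187.SN.TD.X6_5
import Crest.Agent.R187.SN.TD.X6_6
import Crest.Agent.R187.SN.TD.X6_7
import Crest.Agent.R187.SN.TD.X6_8
import Crest.Agent.R187.SN.TD.X6_9
import Crest.Agent.R187.SN.TD.X6_10
import Crest.Agent.R187.SN.TD.X6_11
import Crest.Agent.R187.SN.TD.X6_12
import Crest.Agent.R187.SN.TD.W7_0
import Crest.Agent.R187.SN.TD.W7_1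
import Crest.Agent.R187.SN.TD.W7_2
import Crest.Agent.R187.SN.TD.W7_3

/-!
# Row 187, PLAN S, generated certificate data (mod 127): rank records and checks, chunk 13

Written by a C++ program (helper824).  The tables are only data: every property is checked by
the kernel.
-/

set_option autoImplicit false
set_option maxRecDepth 100000
set_option Elab.async false

namespace Crest.Agent.R187.SN.Top

noncomputable def R_20687106048 : Rec := ⟨nat_lit 20687106048, nat_lit 24,
  [⟨V6_20636762112, [(nat_lit 76, nat_lit 20687106048), (nat_lit 105, nat_lit 21760843776), (nat_lit 43, nat_lit 21744070656), (nat_lit 82, nat_lit 22834581504), (nat_lit 62, nat_lit 22817808384), (nat_lit 40, nat_lit 22801035264), (nat_lit 61, nat_lit 23908319232), (nat_lit 10, nat_lit 23891546112), (nat_lit 40, nat_lit 23874772992), (nat_lit 49, nat_lit 23857999872), (nat_lit 102, nat_lit 24965283840), (nat_lit 17, nat_lit 24948510720), (nat_lit 74, nat_lit 24931737600), (nat_lit 115, nat_lit 26022248448), (nat_lit 34, nat_lit 26005475328), (nat_lit 79, nat_lit 27079213056)]⟩,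
   ⟨V6_18522832896, [(nat_lit 124, nat_lit 20687106048), (nat_lit 29, nat_lit 21760843776), (nat_lit 114, nat_lit 21744070656), (nat_lit 94, nat_lit 22834581504), (nat_lit 82, nat_lit 22817808384), (nat_lit 76, nat_lit 23908319232), (nat_lit 109, nat_lit 23891546112), (nat_lit 28, nat_lit 24965283840)]⟩],
  [W_20586438656, W_20569665536, W_18455736320]⟩
theorem C_20687106048 : chkRec R_20687106048 = true := by decide +kernel

noncomputable def R_20687360064 : Rec := ⟨nat_lit 20687360064, nat_lit 32,
  [⟨V6_20586696768, [(nat_lit 62, nat_lit 20687360064), (nat_lit 102, nat_lit 21744324672), (nat_lit 50, nat_lit 22801289280), (nat_lit 15, nat_lit 23858253888), (nat_lit 72, nat_lit 24915218496), (nat_lit 51, nat_lit 25972183104), (nat_lit 63, nat_lit 27029147712)]⟩,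
   ⟨V6_18539089920, [(nat_lit 28, nat_lit 20687360064), (nat_lit 51, nat_lit 21761101824), (nat_lit 43, nat_lit 21760839744), (nat_lit 47, nat_lit 22834581504), (nat_lit 55, nat_lit 22834319424), (nat_lit 72, nat_lit 23908061184), (nat_lit 78, nat_lit 23907799104), (nat_lit 71, nat_lit 24981540864)]⟩],
  [W_20636241920, W_19562762240, W_18472767488]⟩
theorem C_20687360064 : chkRec R_20687360064 = true := by decide +kernel

noncomputable def R_20687364096 : Rec := ⟨nat_lit 20687364096, nat_lit 64,
  [⟨V6_20586700800, [(nat_lit 37, nat_lit 20687364096), (nat_lit 24, nat_lit 21744328704), (nat_lit 79, nat_lit 22801293312), (nat_lit 11, nat_lit 23858257920), (nat_lit 2, nat_lit 24915222528), (nat_lit 12, nat_lit 25972187136), (nat_lit 97, nat_lit 27029151744)]⟩,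
   ⟨V6_18539347968, [(nat_lit 33, nat_lit 20687364096), (nat_lit 90, nat_lit 21761101824), (nat_lit 120, nat_lit 21760843776), (nat_lit 122, nat_lit 22834839552), (nat_lit 68, nat_lit 22834581504), (nat_lit 46, nat_lit 22834323456), (nat_lit 59, nat_lit 23908319232), (nat_lit 15, nat_lit 23908061184), (nat_lit 126, nat_lit 24981798912)]⟩],
  [W_20636499968, W_20619984896, W_19563020288, W_19562762240, W_18522570752, W_18489282560, W_18489024512]⟩
theorem C_20687364096 : chkRec R_20687364096 = true := by decide +kernel

noncomputable def R_20687622144 : Rec := ⟨nat_lit 20687622144, nat_lit 65,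
  [⟨V6_20603473920, [(nat_lit 28, nat_lit 20687622144), (nat_lit 124, nat_lit 21761101824), (nat_lit 53, nat_lit 21744586752), (nat_lit 36, nat_lit 22818066432), (nat_lit 69, nat_lit 22801551360), (nat_lit 48, nat_lit 23875031040), (nat_lit 122, nat_lit 23858515968), (nat_lit 83, nat_lit 24931995648), (nat_lit 84, nat_lit 24915480576), (nat_lit 27, nat_lit 25988960256), (nat_lit 26, nat_lit 25972445184), (nat_lit 107, nat_lit 27045924864)]⟩,
   ⟨V6_19612827648, [(nat_lit 94, nat_lit 20687622144), (nat_lit 6, nat_lit 21761359872), (nat_lit 80, nat_lit 21761101824), (nat_lit 108, nat_lit 22834839552), (nat_lit 36, nat_lit 22834581504), (nat_lit 62, nat_lit 23908319232), (nat_lit 85, nat_lit 23908061184), (nat_lit 125, nat_lit 24981798912), (nat_lit 11, nat_lit 24981540864), (nat_lit 39, nat_lit 26055278592)]⟩,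
   ⟨V6_18539089920, [(nat_lit 83, nat_lit 20687622144), (nat_lit 3, nat_lit 21761101824), (nat_lit 28, nat_lit 22834581504), (nat_lit 89, nat_lit 23908061184), (nat_lit 43, nat_lit 24981540864)]⟩,
   ⟨V6_18522574848, [(nat_lit 78, nat_lit 20687622144), (nat_lit 106, nat_lit 21761101824), (nat_lit 103, nat_lit 21744586752), (nat_lit 48, nat_lit 22834581504), (nat_lit 70, nat_lit 22818066432), (nat_lit 122, nat_lit 23908061184), (nat_lit 2, nat_lit 23891546112), (nat_lit 73, nat_lit 24965025792)]⟩],
  [W_20636499968, W_20619984896, W_20586696704, W_19579535360, W_19563020288]⟩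
theorem C_20687622144 : chkRec R_20687622144 = true := by decide +kernel

noncomputable def R_20687880192 : Rec := ⟨nat_lit 20687880192, nat_lit 38,
  [⟨V6_20620247040, [(nat_lit 50, nat_lit 20687880192), (nat_lit 1, nat_lit 21761359872), (nat_lit 79, nat_lit 21744844800), (nat_lit 83, nat_lit 22834839552), (nat_lit 32, nat_lit 22818324480), (nat_lit 75, nat_lit 22801809408), (nat_lit 29, nat_lit 23891804160), (nat_lit 66, nat_lit 23875289088), (nat_lit 77, nat_lit 23858774016), (nat_lit 70, nat_lit 24948768768), (nat_lit 12, nat_lit 24932253696), (nat_lit 1, nat_lit 24915738624), (nat_lit 34, nat_lit 26005733376), (nat_lit 39, nat_lit 25989218304), (nat_lit 68, nat_lit 27062697984)]⟩,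
   ⟨V6_19596312576, [(nat_lit 13, nat_lit 20687880192), (nat_lit 80, nat_lit 21761359872), (nat_lit 76, nat_lit 21744844800), (nat_lit 8, nat_lit 22834839552), (nat_lit 28, nat_lit 22818324480), (nat_lit 89, nat_lit 23908319232), (nat_lit 115, nat_lit 23891804160), (nat_lit 118, nat_lit 24981798912), (nat_lit 112, nat_lit 24965283840), (nat_lit 35, nat_lit 26038763520)]⟩],
  [W_19612565504, W_19563020288, W_18522570752, W_18456510464]⟩
theorem C_20687880192 : chkRec R_20687880192 = true := by decide +kernel

noncomputable def R_20703612993 : Rec := ⟨nat_lit 20703612993, nat_lit 1,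
  [⟨V6_19545985089, [(nat_lit 112, nat_lit 20703612993), (nat_lit 25, nat_lit 21760577601), (nat_lit 102, nat_lit 22817542209), (nat_lit 15, nat_lit 23874506817), (nat_lit 122, nat_lit 24931471425), (nat_lit 37, nat_lit 25988436033)]⟩],
  [W_20619464768]⟩
theorem C_20703612993 : chkRec R_20703612993 = true := by decide +kernel

noncomputable def R_20703617088 : Rec := ⟨nat_lit 20703617088, nat_lit 10,
  [⟨V6_19562766336, [(nat_lit 89, nat_lit 20703617088), (nat_lit 115, nat_lit 21777358848), (nat_lit 104, nat_lit 21760581696), (nat_lit 77, nat_lit 22834323456), (nat_lit 85, nat_lit 22817546304), (nat_lit 29, nat_lit 23891288064), (nat_lit 77, nat_lit 23874510912), (nat_lit 43, nat_lit 24948252672), (nat_lit 91, nat_lit 24931475520), (nat_lit 126, nat_lit 26005217280)]⟩],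
  [W_20602949696, W_19562762240]⟩
theorem C_20703617088 : chkRec R_20703617088 = true := by decide +kernel

noncomputable def R_20703875136 : Rec := ⟨nat_lit 20703875136, nat_lit 11,
  [⟨V6_19546247232, [(nat_lit 13, nat_lit 20703875136), (nat_lit 63, nat_lit 21760839744), (nat_lit 64, nat_lit 22817804352), (nat_lit 114, nat_lit 23874768960), (nat_lit 89, nat_lit 24931733568), (nat_lit 78, nat_lit 25988698176)]⟩],
  [W_20636241920, W_19562762240]⟩
theorem C_20703875136 : chkRec R_20703875136 = true := by decide +kernel

noncomputable def R_20703879168 : Rec := ⟨nat_lit 20703879168, nat_lit 25,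
  [⟨V6_19596312576, [(nat_lit 95, nat_lit 20703879168), (nat_lit 17, nat_lit 21777616896), (nat_lit 10, nat_lit 21777358848), (nat_lit 44, nat_lit 21760843776), (nat_lit 12, nat_lit 22851354624), (nat_lit 67, nat_lit 22851096576), (nat_lit 20, nat_lit 22834581504), (nat_lit 36, nat_lit 22834323456), (nat_lit 85, nat_lit 22817808384), (nat_lit 42, nat_lit 23924834304), (nat_lit 54, nat_lit 23908319232), (nat_lit 68, nat_lit 23908061184), (nat_lit 34, nat_lit 23891546112), (nat_lit 73, nat_lit 23891288064), (nat_lit 124, nat_lit 24981798912), (nat_lit 60, nat_lit 24965283840), (nat_lit 22, nat_lit 24965025792), (nat_lit 25, nat_lit 26038763520)]⟩,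
   ⟨V6_19562766336, [(nat_lit 95, nat_lit 20703879168), (nat_lit 95, nat_lit 21777358848), (nat_lit 3, nat_lit 21760843776), (nat_lit 6, nat_lit 22834323456), (nat_lit 23, nat_lit 22817808384), (nat_lit 36, nat_lit 23891288064), (nat_lit 99, nat_lit 23874772992), (nat_lit 90, nat_lit 24948252672), (nat_lit 119, nat_lit 24931737600), (nat_lit 79, nat_lit 26005217280)]⟩],
  [W_20603211776, W_20586438656]⟩
theorem C_20703879168 : chkRec R_20703879168 = true := by decide +kernel

noncomputable def R_20704137216 : Rec := ⟨nat_lit 20704137216, nat_lit 33,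
  [⟨V6_20603473920, [(nat_lit 38, nat_lit 20704137216), (nat_lit 102, nat_lit 21761101824), (nat_lit 31, nat_lit 22818066432), (nat_lit 77, nat_lit 23875031040), (nat_lit 63, nat_lit 24931995648), (nat_lit 80, nat_lit 25988960256), (nat_lit 73, nat_lit 27045924864)]⟩],
  [W_20653015040, W_20636499968, W_20636241920, W_19596050432, W_19563020288]⟩
theorem C_20704137216 : chkRec R_20704137216 = true := by decide +kernel

noncomputable def R_20704395264 : Rec := ⟨nat_lit 20704395264, nat_lit 22,
  [⟨V6_20620247040, [(nat_lit 58, nat_lit 20704395264), (nat_lit 14, nat_lit 21777874944), (nat_lit 65, nat_lit 21761359872), (nat_lit 80, nat_lit 22834839552), (nat_lit 22, nat_lit 22818324480), (nat_lit 124, nat_lit 23891804160), (nat_lit 91, nat_lit 23875289088), (nat_lit 125, nat_lit 24948768768), (nat_lit 51, nat_lit 24932253696), (nat_lit 75, nat_lit 26005733376), (nat_lit 84, nat_lit 25989218304), (nat_lit 22, nat_lit 27062697984)]⟩],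
  [W_20636499968, W_19563020288]⟩
theorem C_20704395264 : chkRec R_20704395264 = true := by decide +kernel

noncomputable def R_20720390208 : Rec := ⟨nat_lit 20720390208, nat_lit 3,
  [⟨V6_20653019136, [(nat_lit 116, nat_lit 20720390208), (nat_lit 41, nat_lit 21794131968), (nat_lit 40, nat_lit 21793869888), (nat_lit 25, nat_lit 21777354816), (nat_lit 17, nat_lit 22867611648), (nat_lit 34, nat_lit 22851096576), (nat_lit 50, nat_lit 22850834496), (nat_lit 88, nat_lit 22834319424), (nat_lit 13, nat_lit 23924576256), (nat_lit 49, nat_lit 23908061184), (nat_lit 99, nat_lit 23907799104), (nat_lit 31, nat_lit 23891284032), (nat_lit 64, nat_lit 24981540864), (nat_lit 53, nat_lit 24965025792), (nat_lit 38, nat_lit 24964763712), (nat_lit 60, nat_lit 24948248640), (nat_lit 27, nat_lit 26038505472), (nat_lit 46, nat_lit 26021990400), (nat_lit 67, nat_lit 26021728320), (nat_lit 107, nat_lit 27095470080)]⟩],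
  [W_20602949696]⟩
theorem C_20720390208 : chkRec R_20720390208 = true := by decide +kernel

noncomputable def R_20720394240 : Rec := ⟨nat_lit 20720394240, nat_lit 3,
  [⟨V6_20653277184, [(nat_lit 11, nat_lit 20720394240), (nat_lit 99, nat_lit 21794131968), (nat_lit 96, nat_lit 21777358848), (nat_lit 13, nat_lit 22867869696), (nat_lit 79, nat_lit 22851096576), (nat_lit 105, nat_lit 22834323456), (nat_lit 84, nat_lit 23924834304), (nat_lit 13, nat_lit 23908061184), (nat_lit 87, nat_lit 23891288064), (nat_lit 63, nat_lit 24981798912), (nat_lit 97, nat_lit 24965025792), (nat_lit 9, nat_lit 24948252672), (nat_lit 36, nat_lit 26038763520), (nat_lit 77, nat_lit 26021990400), (nat_lit 2, nat_lit 27095728128)]⟩],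
  [W_20636499968]⟩
theorem C_20720394240 : chkRec R_20720394240 = true := by decide +kernel

noncomputable def R_20720652288 : Rec := ⟨nat_lit 20720652288, nat_lit 12,
  [⟨V6_20636762112, [(nat_lit 66, nat_lit 20720652288), (nat_lit 48, nat_lit 21794390016), (nat_lit 49, nat_lit 21777616896), (nat_lit 121, nat_lit 22851354624), (nat_lit 56, nat_lit 22834581504), (nat_lit 79, nat_lit 23908319232), (nat_lit 125, nat_lit 23891546112), (nat_lit 68, nat_lit 24965283840), (nat_lit 89, nat_lit 24948510720), (nat_lit 60, nat_lit 26022248448), (nat_lit 57, nat_lit 26005475328), (nat_lit 74, nat_lit 27079213056)]⟩],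
  [W_20603211776]⟩
theorem C_20720652288 : chkRec R_20720652288 = true := by decide +kernel

noncomputable def R_20720910336 : Rec := ⟨nat_lit 20720910336, nat_lit 7,
  [⟨V6_20620247040, [(nat_lit 38, nat_lit 20720910336), (nat_lit 13, nat_lit 21777874944), (nat_lit 63, nat_lit 22834839552), (nat_lit 64, nat_lit 23891804160), (nat_lit 114, nat_lit 24948768768), (nat_lit 89, nat_lit 26005733376), (nat_lit 78, nat_lit 27062697984)]⟩],
  [W_20636499968]⟩
theorem C_20720910336 : chkRec R_20720910336 = true := by decide +kernel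

noncomputable def R_21576564996 : Rec := ⟨nat_lit 21576564996, nat_lit 1,
  [⟨V6_15134114052, [(nat_lit 86, nat_lit 21576564996)]⟩],
  [W_20469268736]⟩
theorem C_21576564996 : chkRec R_21576564996 = true := by decide +kernel

noncomputable def R_21577089282 : Rec := ⟨nat_lit 21577089282, nat_lit 3,
  [⟨V6_15134638338, [(nat_lit 34, nat_lit 21577089282)]⟩],
  [W_20502823040, W_19429081280]⟩
theorem C_21577089282 : chkRec R_21577089282 = true := by decide +kernel

noncomputable def R_21577093314 : Rec := ⟨nat_lit 21577093314, nat_lit 1,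
  [⟨V6_15134642370, [(nat_lit 23, nat_lit 21577093314)]⟩],
  [W_20503081088]⟩
theorem C_21577093314 : chkRec R_21577093314 = true := by decide +kernel

noncomputable def R_21577093377 : Rec := ⟨nat_lit 21577093377, nat_lit 2,
  [⟨V6_15134642433, [(nat_lit 115, nat_lit 21577093377)]⟩],
  [W_20503085120]⟩
theorem C_21577093377 : chkRec R_21577093377 = true := by decide +kernel

noncomputable def R_21577097346 : Rec := ⟨nat_lit 21577097346, nat_lit 4,
  [⟨V6_15134646402, [(nat_lit 126, nat_lit 21577097346)]⟩],
  [W_20503339136, W_19429601408]⟩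
theorem C_21577097346 : chkRec R_21577097346 = true := by decide +kernel

noncomputable def R_21577097409 : Rec := ⟨nat_lit 21577097409, nat_lit 3,
  [⟨V6_15134646465, [(nat_lit 84, nat_lit 21577097409)]⟩],
  [W_20503343168, W_19429601408]⟩
theorem C_21577097409 : chkRec R_21577097409 = true := by decide +kernel

noncomputable def R_21577097472 : Rec := ⟨nat_lit 21577097472, nat_lit 7,
  [⟨V6_15134646528, [(nat_lit 90, nat_lit 21577097472)]⟩],
  [W_20503347200, W_19429609472]⟩
theorem C_21577097472 : chkRec R_21577097472 = true := by decide +kernel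

noncomputable def R_21593342211 : Rec := ⟨nat_lit 21593342211, nat_lit 1,
  [⟨V6_16207855875, [(nat_lit 76, nat_lit 21593342211), (nat_lit 56, nat_lit 22650306819)]⟩],
  [W_20469268736]⟩
theorem C_21593342211 : chkRec R_21593342211 = true := by decide +kernel

noncomputable def R_21593604291 : Rec := ⟨nat_lit 21593604291, nat_lit 1,
  [⟨V6_20502823104, [(nat_lit 52, nat_lit 21593604291), (nat_lit 3, nat_lit 22667346114), (nat_lit 57, nat_lit 22667083971), (nat_lit 98, nat_lit 22650568899), (nat_lit 45, nat_lit 23741087937), (nat_lit 77, nat_lit 23740825794), (nat_lit 9, nat_lit 23724310722), (nat_lit 14, nat_lit 23724048579), (nat_lit 112, nat_lit 24814829760), (nat_lit 45, nat_lit 24814567617), (nat_lit 97, nat_lit 24798052545), (nat_lit 117, nat_lit 24797790402), (nat_lit 72, nat_lit 25888309440), (nat_lit 55, nat_lit 25871794368), (nat_lit 125, nat_lit 25871532225), (nat_lit 84, nat_lit 26945274048)]⟩],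
  [W_18372374720]⟩
theorem C_21593604291 : chkRec R_21593604291 = true := by decide +kernel

noncomputable def R_21593604354 : Rec := ⟨nat_lit 21593604354, nat_lit 2,
  [⟨V6_18372116736, [(nat_lit 42, nat_lit 21593604354), (nat_lit 111, nat_lit 22667346177), (nat_lit 27, nat_lit 22667084034), (nat_lit 21, nat_lit 23741088000), (nat_lit 34, nat_lit 23740825857), (nat_lit 11, nat_lit 24814567680)]⟩],
  [W_21559787648, W_19429343360]⟩
theorem C_21593604354 : chkRec R_21593604354 = true := by decide +kernel

noncomputable def R_21593608386 : Rec := ⟨nat_lit 21593608386, nat_lit 1,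
  [⟨V6_15151157442, [(nat_lit 45, nat_lit 21593608386)]⟩],
  [W_20503081088]⟩
theorem C_21593608386 : chkRec R_21593608386 = true := by decide +kernel

noncomputable def R_21593608449 : Rec := ⟨nat_lit 21593608449, nat_lit 1,
  [⟨V6_15151157505, [(nat_lit 98, nat_lit 21593608449)]⟩],
  [W_20503085120]⟩
theorem C_21593608449 : chkRec R_21593608449 = true := by decide +kernel

noncomputable def R_21593866434 : Rec := ⟨nat_lit 21593866434, nat_lit 6,
  [⟨V6_20502823104, [(nat_lit 74, nat_lit 21593866434), (nat_lit 16, nat_lit 22667608257), (nat_lit 74, nat_lit 22667346114), (nat_lit 85, nat_lit 22650831042), (nat_lit 120, nat_lit 23741350080), (nat_lit 101, nat_lit 23741087937), (nat_lit 57, nat_lit 23740825794), (nat_lit 113, nat_lit 23724572865), (nat_lit 71, nat_lit 23724310722), (nat_lit 68, nat_lit 24814829760), (nat_lit 15, nat_lit 24814567617), (nat_lit 121, nat_lit 24798314688), (nat_lit 115, nat_lit 24798052545), (nat_lit 39, nat_lit 24797790402), (nat_lit 32, nat_lit 25888309440), (nat_lit 114, nat_lit 25871794368), (nat_lit 20, nat_lit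 25871532225), (nat_lit 23, nat_lit 26945274048)]⟩],
  [W_19429601408, W_18372374720, W_18355863680]⟩
theorem C_21593866434 : chkRec R_21593866434 = true := by decide +kernel

noncomputable def R_21593866497 : Rec := ⟨nat_lit 21593866497, nat_lit 9,
  [⟨V6_18372116736, [(nat_lit 24, nat_lit 21593866497), (nat_lit 56, nat_lit 22667608320), (nat_lit 11, nat_lit 22667346177), (nat_lit 59, nat_lit 23741088000), (nat_lit 108, nat_lit 23740825857), (nat_lit 92, nat_lit 24814567680)]⟩,
   ⟨V6_16208380161, [(nat_lit 64, nat_lit 21593866497), (nat_lit 114, nat_lit 22650831105)]⟩],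
  [W_20503085120, W_19429605440, W_18372640832]⟩
theorem C_21593866497 : chkRec R_21593866497 = true := by decide +kernel

noncomputable def R_21593870466 : Rec := ⟨nat_lit 21593870466, nat_lit 5,
  [⟨V6_17282125953, [(nat_lit 115, nat_lit 21593870466), (nat_lit 79, nat_lit 22667612289), (nat_lit 23, nat_lit 22650835074), (nat_lit 36, nat_lit 23724576897)]⟩],
  [W_21576818816, W_20503339136, W_20503081088]⟩
theorem C_21593870466 : chkRec R_21593870466 = true := by decide +kernel

noncomputable def R_21593870529 : Rec := ⟨nat_lit 21593870529, nat_lit 10,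
  [⟨V6_16225161408, [(nat_lit 93, nat_lit 21593870529), (nat_lit 36, nat_lit 22667612352)]⟩],
  [W_20519858240, W_20503085120, W_20503081088, W_19429601408]⟩
theorem C_21593870529 : chkRec R_21593870529 = true := by decide +kernel

noncomputable def R_21593870592 : Rec := ⟨nat_lit 21593870592, nat_lit 12,
  [⟨V6_16225161408, [(nat_lit 76, nat_lit 21593870592), (nat_lit 109, nat_lit 22667612352)]⟩],
  [W_21576826880, W_20503347200, W_20503085120, W_19429609472]⟩
theorem C_21593870592 : chkRec R_21593870592 = true := by decide +kernel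

noncomputable def R_21593874561 : Rec := ⟨nat_lit 21593874561, nat_lit 11,
  [⟨V6_17282125953, [(nat_lit 89, nat_lit 21593874561), (nat_lit 23, nat_lit 22667612289), (nat_lit 62, nat_lit 22650839169), (nat_lit 104, nat_lit 23724576897)]⟩,
   ⟨V6_16225165377, [(nat_lit 42, nat_lit 21593874561), (nat_lit 107, nat_lit 22667616321)]⟩],
  [W_21577080896, W_20520116288, W_20503343168, W_17282129984]⟩
theorem C_21593874561 : chkRec R_21593874561 = true := by decide +kernel

noncomputable def R_21593874624 : Rec := ⟨nat_lit 21593874624, nat_lit 18,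
  [⟨V6_19429613568, [(nat_lit 110, nat_lit 21593874624), (nat_lit 46, nat_lit 22667616384), (nat_lit 92, nat_lit 22650839232), (nat_lit 92, nat_lit 23741358144), (nat_lit 31, nat_lit 23724580992), (nat_lit 42, nat_lit 24815099904), (nat_lit 65, nat_lit 24798322752), (nat_lit 102, nat_lit 25872064512)]⟩,
   ⟨V6_16225165440, [(nat_lit 18, nat_lit 21593874624), (nat_lit 10, nat_lit 22667616384)]⟩],
  [W_20520120320, W_20503347200, W_19429601408]⟩
theorem C_21593874624 : chkRec R_21593874624 = true := by decide +kernel

noncomputable def R_21594124482 : Rec := ⟨nat_lit 21594124482, nat_lit 2,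
  [⟨V6_16225415361, [(nat_lit 67, nat_lit 21594124482), (nat_lit 45, nat_lit 22667866305)]⟩],
  [W_20519596160]⟩
theorem C_21594124482 : chkRec R_21594124482 = true := by decide +kernel

noncomputable def R_21594128514 : Rec := ⟨nat_lit 21594128514, nat_lit 3,
  [⟨V6_18372894849, [(nat_lit 15, nat_lit 21594128514), (nat_lit 89, nat_lit 22667870337), (nat_lit 97, nat_lit 22667866242), (nat_lit 98, nat_lit 23741608065), (nat_lit 119, nat_lit 23741603970), (nat_lit 4, nat_lit 24815345793)]⟩],
  [W_21593333888, W_20519596160]⟩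
theorem C_21594128514 : chkRec R_21594128514 = true := by decide +kernel

noncomputable def R_21594128577 : Rec := ⟨nat_lit 21594128577, nat_lit 11,
  [⟨V6_17299161153, [(nat_lit 4, nat_lit 21594128577), (nat_lit 40, nat_lit 22667870337), (nat_lit 23, nat_lit 23741612097)]⟩],
  [W_20519858240, W_20519600192, W_20519596160, W_18372116672]⟩
theorem C_21594128577 : chkRec R_21594128577 = true := by decide +kernel

noncomputable def R_21594128640 : Rec := ⟨nat_lit 21594128640, nat_lit 8,
  [⟨V6_16225419456, [(nat_lit 50, nat_lit 21594128640), (nat_lit 55, nat_lit 22667870400)]⟩],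
  [W_21593341952, W_19446382592]⟩
theorem C_21594128640 : chkRec R_21594128640 = true := by decide +kernel

noncomputable def R_21594132609 : Rec := ⟨nat_lit 21594132609, nat_lit 10,
  [⟨V6_18372894849, [(nat_lit 52, nat_lit 21594132609), (nat_lit 64, nat_lit 22667870337), (nat_lit 25, nat_lit 23741608065), (nat_lit 88, nat_lit 24815345793)]⟩,
   ⟨V6_16225423425, [(nat_lit 96, nat_lit 21594132609), (nat_lit 45, nat_lit 22667874369)]⟩],
  [W_21593595968, W_20519858240, W_20519854208, W_18372382784]⟩
theorem C_21594132609 : chkRec R_21594132609 = true := by decide +kernel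

noncomputable def R_21594132672 : Rec := ⟨nat_lit 21594132672, nat_lit 18,
  [⟨V6_17298641088, [(nat_lit 24, nat_lit 21594132672), (nat_lit 94, nat_lit 22667612352), (nat_lit 49, nat_lit 23741092032)]⟩,
   ⟨V6_16225419456, [(nat_lit 25, nat_lit 21594132672), (nat_lit 23, nat_lit 22667870400)]⟩],
  [W_21593600000, W_20520120320, W_19446640640, W_18372644864]⟩
theorem C_21594132672 : chkRec R_21594132672 = true := by decide +kernel

noncomputable def R_21594136641 : Rec := ⟨nat_lit 21594136641, nat_lit 8,
  [⟨V6_16225165377, [(nat_lit 64, nat_lit 21594136641), (nat_lit 87, nat_lit 22667616321)]⟩,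
   ⟨V6_15151685697, [(nat_lit 58, nat_lit 21594136641)]⟩],
  [W_20520374336, W_20520116288]⟩
theorem C_21594136641 : chkRec R_21594136641 = true := by decide +kernel

noncomputable def R_21594136704 : Rec := ⟨nat_lit 21594136704, nat_lit 15,
  [⟨V6_16225165440, [(nat_lit 119, nat_lit 21594136704), (nat_lit 5, nat_lit 22667616384)]⟩,
   ⟨V6_15151685760, [(nat_lit 36, nat_lit 21594136704)]⟩],
  [W_21593858048, W_20520378368, W_20520116288, W_19446636608, W_19446374528]⟩
theorem C_21594136704 : chkRec R_21594136704 = true := by decide +kernel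

noncomputable def R_21594140736 : Rec := ⟨nat_lit 21594140736, nat_lit 6,
  [⟨V6_16225427520, [(nat_lit 59, nat_lit 21594140736), (nat_lit 44, nat_lit 22667878464)]⟩],
  [W_21594116096, W_20520374336]⟩
theorem C_21594140736 : chkRec R_21594140736 = true := by decide +kernel

noncomputable def R_21610119426 : Rec := ⟨nat_lit 21610119426, nat_lit 5,
  [⟨V6_17315152065, [(nat_lit 112, nat_lit 21610119426), (nat_lit 82, nat_lit 22683861249), (nat_lit 112, nat_lit 22683861186), (nat_lit 124, nat_lit 23757603009)]⟩],
  [W_21559787648, W_20502823040, W_20469268736, W_18355339520]⟩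
theorem C_21610119426 : chkRec R_21610119426 = true := by decide +kernel

noncomputable def R_21610381506 : Rec := ⟨nat_lit 21610381506, nat_lit 6,
  [⟨V6_17315152065, [(nat_lit 14, nat_lit 21610381506), (nat_lit 116, nat_lit 22684123329), (nat_lit 47, nat_lit 22683861186), (nat_lit 18, nat_lit 23757603009)]⟩],
  [W_21559787648, W_20519596160, W_20503081088, W_19446116480]⟩
theorem C_21610381506 : chkRec R_21610381506 = true := by decide +kernel

noncomputable def R_21610381569 : Rec := ⟨nat_lit 21610381569, nat_lit 10,
  [⟨V6_19462635585, [(nat_lit 14, nat_lit 21610381569), (nat_lit 103, nat_lit 22684123329), (nat_lit 19, nat_lit 22683861249), (nat_lit 4, nat_lit 23757865089), (nat_lit 45, nat_lit 23757603009), (nat_lit 23, nat_lit 24831606849), (nat_lit 119, nat_lit 24831344769), (nat_lit 5, nat_lit 25905086529)]⟩,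
   ⟨V6_17315152065, [(nat_lit 126, nat_lit 21610381569), (nat_lit 63, nat_lit 22684123329), (nat_lit 48, nat_lit 22683861249), (nat_lit 27, nat_lit 23757603009)]⟩],
  [W_21576564800, W_21559787648, W_20519600192, W_20503085120, W_18355339520, W_15167930624]⟩
theorem C_21610381569 : chkRec R_21610381569 = true := by decide +kernel

noncomputable def R_21610385538 : Rec := ⟨nat_lit 21610385538, nat_lit 3,
  [⟨V6_19429347456, [(nat_lit 20, nat_lit 21610385538), (nat_lit 99, nat_lit 22684127361), (nat_lit 53, nat_lit 22667350146), (nat_lit 5, nat_lit 23757869184), (nat_lit 11, nat_lit 23741091969), (nat_lit 39, nat_lit 23724314754), (nat_lit 67, nat_lit 24814833792), (nat_lit 126, nat_lit 24798056577), (nat_lit 30, nat_lit 25871798400)]⟩],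
  [W_19462889600]⟩
theorem C_21610385538 : chkRec R_21610385538 = true := by decide +kernel

noncomputable def R_21610385601 : Rec := ⟨nat_lit 21610385601, nat_lit 7,
  [⟨V6_17298641088, [(nat_lit 109, nat_lit 21610385601), (nat_lit 117, nat_lit 22684127424), (nat_lit 72, nat_lit 22667350209), (nat_lit 125, nat_lit 23741092032)]⟩,
   ⟨V6_16224899265, [(nat_lit 59, nat_lit 21610385601), (nat_lit 57, nat_lit 22667350209)]⟩],
  [W_20519858240, W_20503085120, W_20503081088]⟩
theorem C_21610385601 : chkRec R_21610385601 = true := by decide +kernel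

noncomputable def R_21610385664 : Rec := ⟨nat_lit 21610385664, nat_lit 6,
  [⟨V6_17298641088, [(nat_lit 119, nat_lit 21610385664), (nat_lit 13, nat_lit 22684127424), (nat_lit 94, nat_lit 22667350272), (nat_lit 22, nat_lit 23741092032)]⟩],
  [W_20519862272, W_15167930624]⟩
theorem C_21610385664 : chkRec R_21610385664 = true := by decide +kernel

noncomputable def R_21610639554 : Rec := ⟨nat_lit 21610639554, nat_lit 3,
  [⟨V6_18388889793, [(nat_lit 110, nat_lit 21610639554), (nat_lit 122, nat_lit 22684381377), (nat_lit 66, nat_lit 22684119234), (nat_lit 116, nat_lit 23757861057), (nat_lit 90, nat_lit 23757598914), (nat_lit 39, nat_lit 24831340737)]⟩,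
   ⟨V6_16241668290, [(nat_lit 85, nat_lit 21610639554), (nat_lit 72, nat_lit 22684119234)]⟩],
  [W_21576560768, W_19429601408]⟩
theorem C_21610639554 : chkRec R_21610639554 = true := by decide +kernel

noncomputable def R_21610643586 : Rec := ⟨nat_lit 21610643586, nat_lit 17,
  [⟨V6_20502818946, [(nat_lit 14, nat_lit 21610643586), (nat_lit 48, nat_lit 22684381314), (nat_lit 121, nat_lit 22684123266), (nat_lit 38, nat_lit 22667608194), (nat_lit 122, nat_lit 23757860994), (nat_lit 2, nat_lit 23757602946), (nat_lit 35, nat_lit 23741345922), (nat_lit 86, nat_lit 23741087874), (nat_lit 57, nat_lit 23724572802), (nat_lit 101, nat_lit 24831340674), (nat_lit 110, nat_lit 24814825602), (nat_lit 119, nat_lit 24814567554), (nat_lit 15, nat_lit 24798310530), (nat_lit 45, nat_lit 24798052482), (nat_lit 9, nat_lit 25888305282), (nat_lit 81, nat_lit 25871790210), (nat_lit 109, nat_lit 25871532162), (nat_lit 33, nat_lit 26945269890)]⟩,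
   ⟨V6_18389409921, [(nat_lit 23, nat_lit 21610643586), (nat_lit 1, nat_lit 22684385409), (nat_lit 81, nat_lit 22684381314), (nat_lit 91, nat_lit 23758123137), (nat_lit 47, nat_lit 23758119042), (nat_lit 40, nat_lit 24831860865)]⟩],
  [W_21576560768, W_20503339136, W_20502823040, W_19462889600, W_19446374528, W_19429601408, W_19429343360]⟩
theorem C_21610643586 : chkRec R_21610643586 = true := by decide +kernel

noncomputable def R_21610643649 : Rec := ⟨nat_lit 21610643649, nat_lit 26,
  [⟨V6_21576564801, [(nat_lit 125, nat_lit 21610643649), (nat_lit 86, nat_lit 22684385409), (nat_lit 67, nat_lit 22684123329), (nat_lit 41, nat_lit 22667608257), (nat_lit 57, nat_lit 23758127169), (nat_lit 84, nat_lit 23757865089), (nat_lit 53, nat_lit 23757603009), (nat_lit 112, nat_lit 23741350017), (nat_lit 82, nat_lit 23741087937), (nat_lit 27, nat_lit 23724572865), (nat_lit 36, nat_lit 24831606849), (nat_lit 36, nat_lit 24831344769), (nat_lit 79, nat_lit 24815091777), (nat_lit 64, nat_lit 24814829697), (nat_lit 17, nat_lit 24814567617), (nat_lit 66, nat_lit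 24798314625), (nat_lit 72, nat_lit 24798052545), (nat_lit 7, nat_lit 25905086529), (nat_lit 6, nat_lit 25888571457), (nat_lit 22, nat_lit 25888309377), (nat_lit 119, nat_lit 25872056385), (nat_lit 14, nat_lit 25871794305), (nat_lit 71, nat_lit 25871532225), (nat_lit 21, nat_lit 26962051137), (nat_lit 86, nat_lit 26945536065), (nat_lit 58, nat_lit 26945273985), (nat_lit 37, nat_lit 28019015745)]⟩,
   ⟨V6_20503343169, [(nat_lit 117, nat_lit 21610643649), (nat_lit 53, nat_lit 22684385409), (nat_lit 12, nat_lit 22684381377), (nat_lit 25, nat_lit 22667608257), (nat_lit 112, nat_lit 23758127169), (nat_lit 93, nat_lit 23758123137), (nat_lit 69, nat_lit 23741350017), (nat_lit 78, nat_lit 23741345985), (nat_lit 74, nat_lit 23724572865), (nat_lit 27, nat_lit 24831864897), (nat_lit 93, nat_lit 24815091777), (nat_lit 94, nat_lit 24815087745), (nat_lit 58, nat_lit 24798314625), (nat_lit 50, nat_lit 24798310593), (nat_lit 39, nat_lit 25888829505), (nat_lit 93, nat_lit 25872056385), (nat_lit 82, nat_lit 25872052353), (nat_lit 120, nat_lit 26945794113)]⟩,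
   ⟨V6_20502823104, [(nat_lit 118, nat_lit 21610643649), (nat_lit 62, nat_lit 22684385472), (nat_lit 90, nat_lit 22684123329), (nat_lit 33, nat_lit 22667608257), (nat_lit 112, nat_lit 23757865152), (nat_lit 86, nat_lit 23757603009), (nat_lit 41, nat_lit 23741350080), (nat_lit 105, nat_lit 23741087937), (nat_lit 93, nat_lit 23724572865), (nat_lit 18, nat_lit 24831344832), (nat_lit 112, nat_lit 24814829760), (nat_lit 28, nat_lit 24814567617), (nat_lit 64, nat_lit 24798314688), (nat_lit 2, nat_lit 24798052545), (nat_lit 70, nat_lit 25888309440), (nat_lit 71, nat_lit 25871794368), (nat_lit 26, nat_lit 25871532225), (nat_lit 40, nat_lit 26945274048)]⟩,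
   ⟨V6_19462631616, [(nat_lit 104, nat_lit 21610643649), (nat_lit 3, nat_lit 22684385472), (nat_lit 51, nat_lit 22684381377), (nat_lit 12, nat_lit 22684123329), (nat_lit 118, nat_lit 23758123200), (nat_lit 112, nat_lit 23757865152), (nat_lit 17, nat_lit 23757861057), (nat_lit 64, nat_lit 23757603009), (nat_lit 3, nat_lit 24831602880), (nat_lit 3, nat_lit 24831344832), (nat_lit 8, nat_lit 24831340737), (nat_lit 50, nat_lit 25905082560)]⟩,
   ⟨V6_19429601472, [(nat_lit 107, nat_lit 21610643649), (nat_lit 42, nat_lit 22684385472), (nat_lit 39, nat_lit 22684381377), (nat_lit 40, nat_lit 22667608257), (nat_lit 2, nat_lit 23758123200), (nat_lit 55, nat_lit 23741350080), (nat_lit 25, nat_lit 23741345985), (nat_lit 50, nat_lit 23724572865), (nat_lit 96, nat_lit 24815087808), (nat_lit 13, nat_lit 24798314688), (nat_lit 18, nat_lit 24798310593), (nat_lit 116, nat_lit 25872052416)]⟩,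
   ⟨V6_18388889793, [(nat_lit 94, nat_lit 21610643649), (nat_lit 85, nat_lit 22684381377), (nat_lit 15, nat_lit 22684123329), (nat_lit 59, nat_lit 23757861057), (nat_lit 23, nat_lit 23757603009), (nat_lit 67, nat_lit 24831340737)]⟩,
   ⟨V6_17315152065, [(nat_lit 13, nat_lit 21610643649), (nat_lit 19, nat_lit 22684123329), (nat_lit 39, nat_lit 23757603009)]⟩],
  [W_20536373312, W_20519858240, W_20503343168, W_19446378560, W_18372640832, W_18372374720]⟩
theorem C_21610643649 : chkRec R_21610643649 = true := by decide +kernel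

noncomputable def R_21610643712 : Rec := ⟨nat_lit 21610643712, nat_lit 34,
  [⟨V6_21610119168, [(nat_lit 81, nat_lit 21610643712), (nat_lit 9, nat_lit 22684385472), (nat_lit 91, nat_lit 22684123392), (nat_lit 121, nat_lit 23758127232), (nat_lit 55, nat_lit 23757865152), (nat_lit 82, nat_lit 23757603072), (nat_lit 32, nat_lit 24831868992), (nat_lit 50, nat_lit 24831606912), (nat_lit 121, nat_lit 24831344832), (nat_lit 55, nat_lit 25905610752), (nat_lit 16, nat_lit 25905348672), (nat_lit 75, nat_lit 25905086592), (nat_lit 122, nat_lit 26979090432), (nat_lit 25, nat_lit 26978828352), (nat_lit 60, nat_lit 28052570112)]⟩,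
   ⟨V6_19429081344, [(nat_lit 2, nat_lit 21610643712), (nat_lit 101, nat_lit 22684123392), (nat_lit 25, nat_lit 22667608320), (nat_lit 16, nat_lit 23757603072), (nat_lit 63, nat_lit 23741088000), (nat_lit 107, nat_lit 23724572928), (nat_lit 113, nat_lit 24814567680), (nat_lit 9, nat_lit 24798052608), (nat_lit 93, nat_lit 25871532288)]⟩],
  [W_18389417984, W_18372640832, W_18355863680, W_18355339520, W_17298374912, W_17282121920, W_16241410304, W_16208380160, W_15167930624, W_15151415552]⟩
theorem C_21610643712 : chkRec R_21610643712 = true := by decide +kernel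

noncomputable def R_21610647681 : Rec := ⟨nat_lit 21610647681, nat_lit 31,
  [⟨V6_21577080897, [(nat_lit 52, nat_lit 21610647681), (nat_lit 48, nat_lit 22684389441), (nat_lit 83, nat_lit 22684385409), (nat_lit 42, nat_lit 22667612289), (nat_lit 70, nat_lit 23758127169), (nat_lit 119, nat_lit 23758123137), (nat_lit 50, nat_lit 23741354049), (nat_lit 68, nat_lit 23741350017), (nat_lit 90, nat_lit 23724576897), (nat_lit 124, nat_lit 24831864897), (nat_lit 20, nat_lit 24831860865), (nat_lit 42, nat_lit 24815091777), (nat_lit 81, nat_lit 24815087745), (nat_lit 38, nat_lit 24798318657), (nat_lit 101, nat_lit 24798314625), (nat_lit 10, nat_lit 25905602625), (nat_lit 25, nat_lit 25888829505), (nat_lit 83, nat_lit 25888825473), (nat_lit 31, nat_lit 25872056385), (nat_lit 84, nat_lit 25872052353), (nat_lit 19, nat_lit 26962567233), (nat_lit 7, nat_lit 26945794113), (nat_lit 97, nat_lit 26945790081), (nat_lit 39, nat_lit 28019531841)]⟩,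
   ⟨V6_19446374529, [(nat_lit 47, nat_lit 21610647681), (nat_lit 28, nat_lit 22684385409), (nat_lit 28, nat_lit 22667612289), (nat_lit 86, nat_lit 23758123137), (nat_lit 48, nat_lit 23741350017), (nat_lit 23, nat_lit 24831860865), (nat_lit 63, nat_lit 24815087745), (nat_lit 16, nat_lit 25888825473)]⟩,
   ⟨V6_18389409921, [(nat_lit 93, nat_lit 21610647681), (nat_lit 7, nat_lit 22684385409), (nat_lit 96, nat_lit 23758123137), (nat_lit 89, nat_lit 24831860865)]⟩,
   ⟨V6_17282125953, [(nat_lit 115, nat_lit 21610647681), (nat_lit 88, nat_lit 22667612289), (nat_lit 13, nat_lit 23724576897)]⟩],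
  [W_21593595968, W_20519858240, W_20503085120, W_19463151680, W_18372640832]⟩
theorem C_21610647681 : chkRec R_21610647681 = true := by decide +kernel

noncomputable def R_21610647744 : Rec := ⟨nat_lit 21610647744, nat_lit 44,
  [⟨V6_18389422080, [(nat_lit 32, nat_lit 21610647744), (nat_lit 60, nat_lit 22684389504), (nat_lit 94, nat_lit 23758131264), (nat_lit 115, nat_lit 24831873024)]⟩,
   ⟨V6_16225161408, [(nat_lit 79, nat_lit 21610647744), (nat_lit 100, nat_lit 22667612352)]⟩],
  [W_21577084928, W_21576826880, W_20536635392, W_20519862272, W_20519858240, W_20503343168, W_20503085120, W_20503081088, W_19446124544, W_19446116480, W_18389159936, W_18372374720]⟩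
theorem C_21610647744 : chkRec R_21610647744 = true := by decide +kernel

noncomputable def R_21610651713 : Rec := ⟨nat_lit 21610651713, nat_lit 12,
  [⟨V6_18355871808, [(nat_lit 105, nat_lit 21610651713), (nat_lit 71, nat_lit 22684393536), (nat_lit 125, nat_lit 22667616321), (nat_lit 88, nat_lit 23741358144), (nat_lit 66, nat_lit 23724580929), (nat_lit 30, nat_lit 24798322752)]⟩,
   ⟨V6_16225165377, [(nat_lit 96, nat_lit 21610651713), (nat_lit 54, nat_lit 22667616321)]⟩],
  [W_21593854016, W_19463151680]⟩
theorem C_21610651713 : chkRec R_21610651713 = true := by decide +kernel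

noncomputable def R_21610651776 : Rec := ⟨nat_lit 21610651776, nat_lit 52,
  [⟨V6_18389422080, [(nat_lit 28, nat_lit 21610651776), (nat_lit 16, nat_lit 22684393536), (nat_lit 57, nat_lit 22684389504), (nat_lit 65, nat_lit 23758135296), (nat_lit 43, nat_lit 23758131264), (nat_lit 30, nat_lit 24831873024)]⟩,
   ⟨V6_16225165440, [(nat_lit 123, nat_lit 21610651776), (nat_lit 93, nat_lit 22667616384)]⟩],
  [W_20536893440, W_20520120320, W_20503339136, W_19463151680, W_19446374528, W_18355871744]⟩
theorem C_21610651776 : chkRec R_21610651776 = true := by decide +kernel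

noncomputable def R_21610901634 : Rec := ⟨nat_lit 21610901634, nat_lit 9,
  [⟨V6_17315930241, [(nat_lit 73, nat_lit 21610901634), (nat_lit 92, nat_lit 22684643457), (nat_lit 73, nat_lit 22684639362), (nat_lit 40, nat_lit 23758381185)]⟩],
  [W_21609848960, W_21593333888, W_20519596160, W_19446116480]⟩
theorem C_21610901634 : chkRec R_21610901634 = true := by decide +kernel

noncomputable def R_21610901697 : Rec := ⟨nat_lit 21610901697, nat_lit 12,
  [⟨V6_17299157184, [(nat_lit 99, nat_lit 21610901697), (nat_lit 55, nat_lit 22684643520), (nat_lit 112, nat_lit 22667866305), (nat_lit 11, nat_lit 23741608128)]⟩,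
   ⟨V6_16225415361, [(nat_lit 57, nat_lit 21610901697), (nat_lit 40, nat_lit 22667866305)]⟩],
  [W_21593337920, W_20536373312, W_20519596160, W_19462631552]⟩
theorem C_21610901697 : chkRec R_21610901697 = true := by decide +kernel

noncomputable def R_21610905729 : Rec := ⟨nat_lit 21610905729, nat_lit 40,
  [⟨V6_18389409921, [(nat_lit 121, nat_lit 21610905729), (nat_lit 58, nat_lit 22684643457), (nat_lit 102, nat_lit 22684385409), (nat_lit 55, nat_lit 23758381185), (nat_lit 32, nat_lit 23758123137), (nat_lit 90, nat_lit 24831860865)]⟩,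
   ⟨V6_18372894849, [(nat_lit 103, nat_lit 21610905729), (nat_lit 32, nat_lit 22684643457), (nat_lit 41, nat_lit 22667870337), (nat_lit 20, nat_lit 23758381185), (nat_lit 49, nat_lit 23741608065), (nat_lit 107, nat_lit 24815345793)]⟩,
   ⟨V6_17315930241, [(nat_lit 8, nat_lit 21610905729), (nat_lit 115, nat_lit 22684643457), (nat_lit 59, nat_lit 23758381185)]⟩,
   ⟨V6_17299161153, [(nat_lit 61, nat_lit 21610905729), (nat_lit 68, nat_lit 22684647489), (nat_lit 29, nat_lit 22667870337), (nat_lit 37, nat_lit 23741612097)]⟩],
  [W_21593595968, W_21593337920, W_21593333888, W_20536373312, W_20519858240, W_20519600192, W_20519596160, W_19463151680, W_19446636608]⟩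
theorem C_21610905729 : chkRec R_21610905729 = true := by decide +kernel

noncomputable def R_21610905792 : Rec := ⟨nat_lit 21610905792, nat_lit 56,
  [⟨V6_21610119168, [(nat_lit 99, nat_lit 21610905792), (nat_lit 17, nat_lit 22684647552), (nat_lit 7, nat_lit 22684385472), (nat_lit 83, nat_lit 23758389312), (nat_lit 119, nat_lit 23758127232), (nat_lit 106, nat_lit 23757865152), (nat_lit 52, nat_lit 24832131072), (nat_lit 56, nat_lit 24831868992), (nat_lit 25, nat_lit 24831606912), (nat_lit 98, nat_lit 24831344832), (nat_lit 20, nat_lit 25905610752), (nat_lit 74, nat_lit 25905348672), (nat_lit 59, nat_lit 25905086592), (nat_lit 109, nat_lit 26979090432), (nat_lit 2, nat_lit 26978828352), (nat_lit 96, nat_lit 28052570112)]⟩,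
   ⟨V6_19446644736, [(nat_lit 40, nat_lit 21610905792), (nat_lit 19, nat_lit 22684647552), (nat_lit 111, nat_lit 22667870400), (nat_lit 89, nat_lit 23758389312), (nat_lit 33, nat_lit 23741612160), (nat_lit 83, nat_lit 24832131072), (nat_lit 57, nat_lit 24815353920), (nat_lit 109, nat_lit 25889095680)]⟩,
   ⟨V6_16225419456, [(nat_lit 120, nat_lit 21610905792), (nat_lit 4, nat_lit 22667870400)]⟩],
  [W_19463155712, W_18389676032, W_18389417984, W_18372898880, W_17315934272]⟩
theorem C_21610905792 : chkRec R_21610905792 = true := by decide +kernel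

noncomputable def R_21610909761 : Rec := ⟨nat_lit 21610909761, nat_lit 28,
  [⟨V6_20520374337, [(nat_lit 108, nat_lit 21610909761), (nat_lit 29, nat_lit 22684647489), (nat_lit 91, nat_lit 22667874369), (nat_lit 15, nat_lit 23758385217), (nat_lit 94, nat_lit 23741612097), (nat_lit 70, nat_lit 24832122945), (nat_lit 40, nat_lit 24815349825), (nat_lit 77, nat_lit 25905860673), (nat_lit 120, nat_lit 25889087553), (nat_lit 122, nat_lit 26962825281)]⟩,
   ⟨V6_17299165248, [(nat_lit 108, nat_lit 21610909761), (nat_lit 60, nat_lit 22684651584), (nat_lit 76, nat_lit 22667874369), (nat_lit 12, nat_lit 23741616192)]⟩,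
   ⟨V6_17299161153, [(nat_lit 124, nat_lit 21610909761), (nat_lit 90, nat_lit 22684647489), (nat_lit 64, nat_lit 22667874369), (nat_lit 32, nat_lit 23741612097)]⟩],
  [W_21593854016, W_21593595968, W_20520374336, W_19463409728, W_19463151680]⟩
theorem C_21610909761 : chkRec R_21610909761 = true := by decide +kernel

noncomputable def R_21610909824 : Rec := ⟨nat_lit 21610909824, nat_lit 74,
  [⟨V6_18389672064, [(nat_lit 80, nat_lit 21610909824), (nat_lit 118, nat_lit 22684647552), (nat_lit 58, nat_lit 23758385280), (nat_lit 67, nat_lit 24832123008)]⟩,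
   ⟨V6_17315942400, [(nat_lit 70, nat_lit 21610909824), (nat_lit 34, nat_lit 22684651584), (nat_lit 13, nat_lit 23758393344)]⟩,
   ⟨V6_17299165248, [(nat_lit 113, nat_lit 21610909824), (nat_lit 76, nat_lit 22684651584), (nat_lit 10, nat_lit 22667874432), (nat_lit 4, nat_lit 23741616192)]⟩],
  [W_21593858048, W_21593600000, W_21593595968, W_20536635392, W_20520120320, W_20519862272, W_20519858240, W_20519854208, W_19463155712, W_19446374528]⟩
theorem C_21610909824 : chkRec R_21610909824 = true := by decide +kernel

noncomputable def R_21610913856 : Rec := ⟨nat_lit 21610913856, nat_lit 61,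
  [⟨V6_17315684352, [(nat_lit 13, nat_lit 21610913856), (nat_lit 75, nat_lit 22684655616), (nat_lit 110, nat_lit 22684393536), (nat_lit 59, nat_lit 23758135296)]⟩,
   ⟨V6_17299165248, [(nat_lit 16, nat_lit 21610913856), (nat_lit 76, nat_lit 22684651584), (nat_lit 96, nat_lit 22667878464), (nat_lit 80, nat_lit 23741616192)]⟩,
   ⟨V6_16242204672, [(nat_lit 86, nat_lit 21610913856), (nat_lit 126, nat_lit 22684655616)]⟩],
  [W_21593858048, W_20537151488, W_20520374336, W_20520120320, W_20520116288, W_19463409728, W_19463151680]⟩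
theorem C_21610913856 : chkRec R_21610913856 = true := by decide +kernel

noncomputable def R_21610917888 : Rec := ⟨nat_lit 21610917888, nat_lit 14,
  [⟨V6_18372907008, [(nat_lit 47, nat_lit 21610917888), (nat_lit 99, nat_lit 22684655616), (nat_lit 65, nat_lit 22667882496), (nat_lit 114, nat_lit 23758393344), (nat_lit 101, nat_lit 23741620224), (nat_lit 73, nat_lit 24815357952)]⟩,
   ⟨V6_16242204672, [(nat_lit 86, nat_lit 21610917888), (nat_lit 34, nat_lit 22684655616)]⟩],
  [W_21594116096, W_20537151488]⟩
theorem C_21610917888 : chkRec R_21610917888 = true := by decide +kernel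

noncomputable def R_21611159682 : Rec := ⟨nat_lit 21611159682, nat_lit 8,
  [⟨V6_17316192384, [(nat_lit 22, nat_lit 21611159682), (nat_lit 71, nat_lit 22684901505), (nat_lit 124, nat_lit 23758643328)]⟩],
  [W_21609848960, W_19462889600]⟩
theorem C_21611159682 : chkRec R_21611159682 = true := by decide +kernel

noncomputable def R_21611163777 : Rec := ⟨nat_lit 21611163777, nat_lit 22,
  [⟨V6_17316192384, [(nat_lit 86, nat_lit 21611163777), (nat_lit 50, nat_lit 22684905600), (nat_lit 33, nat_lit 22684901505), (nat_lit 50, nat_lit 23758643328)]⟩],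
  [W_21609852992, W_21609848960, W_20536373312, W_19463151680]⟩
theorem C_21611163777 : chkRec R_21611163777 = true := by decide +kernel

noncomputable def R_21611163840 : Rec := ⟨nat_lit 21611163840, nat_lit 17,
  [⟨V6_18389938176, [(nat_lit 113, nat_lit 21611163840), (nat_lit 69, nat_lit 22684905600), (nat_lit 70, nat_lit 23758647360), (nat_lit 37, nat_lit 24832389120)]⟩],
  [W_19463155712, W_15168712832]⟩
theorem C_21611163840 : chkRec R_21611163840 = true := by decide +kernel

noncomputable def R_21611167809 : Rec := ⟨nat_lit 21611167809, nat_lit 20,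
  [⟨V6_21610631232, [(nat_lit 30, nat_lit 21611167809), (nat_lit 68, nat_lit 22684909632), (nat_lit 101, nat_lit 22684905537), (nat_lit 64, nat_lit 22684647489), (nat_lit 115, nat_lit 23758647360), (nat_lit 67, nat_lit 23758643265), (nat_lit 2, nat_lit 23758389312), (nat_lit 41, nat_lit 23758385217), (nat_lit 111, nat_lit 23758127169), (nat_lit 117, nat_lit 24832385088), (nat_lit 99, nat_lit 24832380993), (nat_lit 65, nat_lit 24832127040), (nat_lit 8, nat_lit 24832122945), (nat_lit 113, nat_lit 24831868992), (nat_lit 6, nat_lit 24831864897), (nat_lit 90, nat_lit 25906122816), (nat_lit 92, nat_lit 25905864768), (nat_lit 104, nat_lit 25905860673), (nat_lit 65, nat_lit 25905606720), (nat_lit 26, nat_lit 25905602625), (nat_lit 12, nat_lit 26979602496), (nat_lit 117, nat_lit 26979344448), (nat_lit 61, nat_lit 26979340353), (nat_lit 31, nat_lit 28053082176)]⟩,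
   ⟨V6_18389930049, [(nat_lit 53, nat_lit 21611167809), (nat_lit 76, nat_lit 22684905537), (nat_lit 5, nat_lit 23758643265), (nat_lit 91, nat_lit 24832380993)]⟩],
  [W_17315934272, W_16242454592, W_16242196544]⟩
theorem C_21611167809 : chkRec R_21611167809 = true := by decide +kernel

noncomputable def R_21611167872 : Rec := ⟨nat_lit 21611167872, nat_lit 74,
  [⟨V6_18389672064, [(nat_lit 89, nat_lit 21611167872), (nat_lit 8, nat_lit 22684905600), (nat_lit 17, nat_lit 22684647552), (nat_lit 86, nat_lit 23758643328), (nat_lit 62, nat_lit 23758385280), (nat_lit 7, nat_lit 24832123008)]⟩,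
   ⟨V6_17316200448, [(nat_lit 83, nat_lit 21611167872), (nat_lit 102, nat_lit 22684909632), (nat_lit 39, nat_lit 23758651392)]⟩,
   ⟨V6_17316192384, [(nat_lit 4, nat_lit 21611167872), (nat_lit 121, nat_lit 22684905600), (nat_lit 93, nat_lit 23758643328)]⟩],
  [W_20536893440, W_19463155712, W_19462635584, W_18389934080, W_18389417984]⟩
theorem C_21611167872 : chkRec R_21611167872 = true := by decide +kernel

noncomputable def R_21611171904 : Rec := ⟨nat_lit 21611171904, nat_lit 64,
  [⟨V6_19462901760, [(nat_lit 12, nat_lit 21611171904), (nat_lit 120, nat_lit 22684913664), (nat_lit 95, nat_lit 22684651584), (nat_lit 57, nat_lit 23758393344), (nat_lit 61, nat_lit 23758131264), (nat_lit 65, nat_lit 24831873024), (nat_lit 73, nat_lit 24831610944), (nat_lit 68, nat_lit 25905352704)]⟩,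
   ⟨V6_17316200448, [(nat_lit 59, nat_lit 21611171904), (nat_lit 60, nat_lit 22684913664), (nat_lit 12, nat_lit 22684909632), (nat_lit 45, nat_lit 23758651392)]⟩,
   ⟨V6_16242462720, [(nat_lit 11, nat_lit 21611171904), (nat_lit 87, nat_lit 22684913664)]⟩],
  [W_21610369088, W_20537151488, W_20536893440, W_19463413760, W_19463409728, W_18389930048]⟩
theorem C_21611171904 : chkRec R_21611171904 = true := by decide +kernel

noncomputable def R_21611175936 : Rec := ⟨nat_lit 21611175936, nat_lit 47,
  [⟨V6_21611151360, [(nat_lit 25, nat_lit 21611175936), (nat_lit 70, nat_lit 22684913664), (nat_lit 8, nat_lit 23758651392), (nat_lit 83, nat_lit 24832389120), (nat_lit 104, nat_lit 25906126848), (nat_lit 115, nat_lit 26979864576), (nat_lit 24, nat_lit 28053602304)]⟩,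
   ⟨V6_16242204672, [(nat_lit 90, nat_lit 21611175936), (nat_lit 73, nat_lit 22684655616)]⟩,
   ⟨V6_15168724992, [(nat_lit 90, nat_lit 21611175936)]⟩],
  [W_21610889216, W_20536893440, W_19463671808, W_14094983168]⟩
theorem C_21611175936 : chkRec R_21611175936 = true := by decide +kernel

noncomputable def R_21626896578 : Rec := ⟨nat_lit 21626896578, nat_lit 5,
  [⟨V6_17315152065, [(nat_lit 72, nat_lit 21626896578), (nat_lit 29, nat_lit 22700638401), (nat_lit 76, nat_lit 22683861186), (nat_lit 123, nat_lit 23757603009)]⟩],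
  [W_21576560768, W_18405666944]⟩
theorem C_21626896578 : chkRec R_21626896578 = true := by decide +kernel

noncomputable def R_21626896641 : Rec := ⟨nat_lit 21626896641, nat_lit 9,
  [⟨V6_20469268737, [(nat_lit 74, nat_lit 21626896641), (nat_lit 107, nat_lit 22683861249), (nat_lit 125, nat_lit 23740825857), (nat_lit 61, nat_lit 24797790465), (nat_lit 13, nat_lit 25854755073), (nat_lit 50, nat_lit 26911719681)]⟩,
   ⟨V6_16258187520, [(nat_lit 24, nat_lit 21626896641), (nat_lit 124, nat_lit 22700638464)]⟩],
  [W_21576564800, W_20519600192, W_20502823040, W_20469268736]⟩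
theorem C_21626896641 : chkRec R_21626896641 = true := by decide +kernel

noncomputable def R_21627154626 : Rec := ⟨nat_lit 21627154626, nat_lit 4,
  [⟨V6_19479146688, [(nat_lit 110, nat_lit 21627154626), (nat_lit 41, nat_lit 22700896449), (nat_lit 66, nat_lit 22700634306), (nat_lit 125, nat_lit 23774638272), (nat_lit 124, nat_lit 23774376129), (nat_lit 52, nat_lit 23774113986), (nat_lit 47, nat_lit 24848117952), (nat_lit 62, nat_lit 24847855809), (nat_lit 104, nat_lit 25921597632)]⟩,
   ⟨V6_18405404802, [(nat_lit 86, nat_lit 21627154626), (nat_lit 11, nat_lit 22700896386), (nat_lit 115, nat_lit 22700634306), (nat_lit 123, nat_lit 23774376066), (nat_lit 13, nat_lit 23774113986), (nat_lit 116, nat_lit 24847855746)]⟩,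
   ⟨V6_16241668290, [(nat_lit 49, nat_lit 21627154626), (nat_lit 42, nat_lit 22684119234)]⟩],
  [W_21576560768, W_20519596160, W_20503081088]⟩
theorem C_21627154626 : chkRec R_21627154626 = true := by decide +kernel

noncomputable def R_21627158658 : Rec := ⟨nat_lit 21627158658, nat_lit 12,
  [⟨V6_18405671040, [(nat_lit 98, nat_lit 21627158658), (nat_lit 5, nat_lit 22700900481), (nat_lit 63, nat_lit 22700638338), (nat_lit 49, nat_lit 23774642304), (nat_lit 37, nat_lit 23774380161), (nat_lit 68, nat_lit 24848121984)]⟩],
  [W_21576818816, W_21559787648, W_19479404672, W_19462889600]⟩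
theorem C_21627158658 : chkRec R_21627158658 = true := by decide +kernel

noncomputable def R_21627158721 : Rec := ⟨nat_lit 21627158721, nat_lit 24,
  [⟨V6_18388889793, [(nat_lit 50, nat_lit 21627158721), (nat_lit 1, nat_lit 22700896449), (nat_lit 38, nat_lit 22700638401), (nat_lit 120, nat_lit 22684123329), (nat_lit 106, nat_lit 23774376129), (nat_lit 85, nat_lit 23757861057), (nat_lit 95, nat_lit 23757603009), (nat_lit 125, nat_lit 24831340737)]⟩,
   ⟨V6_17331929280, [(nat_lit 101, nat_lit 21627158721), (nat_lit 65, nat_lit 22700900544), (nat_lit 90, nat_lit 22700638401), (nat_lit 64, nat_lit 23774380224)]⟩,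
   ⟨V6_17315152065, [(nat_lit 27, nat_lit 21627158721), (nat_lit 86, nat_lit 22700638401), (nat_lit 25, nat_lit 22684123329), (nat_lit 12, nat_lit 23757603009)]⟩],
  [W_21593337920, W_21576564800, W_21576560768, W_21559787648, W_20519858240, W_20503085120, W_20503081088, W_19479408704, W_18372374720]⟩
theorem C_21627158721 : chkRec R_21627158721 = true := by decide +kernel

noncomputable def R_21627158784 : Rec := ⟨nat_lit 21627158784, nat_lit 24,
  [⟨V6_17331929280, [(nat_lit 75, nat_lit 21627158784), (nat_lit 101, nat_lit 22700900544), (nat_lit 83, nat_lit 22700638464), (nat_lit 7, nat_lit 23774380224)]⟩,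
   ⟨V6_16258187520, [(nat_lit 83, nat_lit 21627158784), (nat_lit 114, nat_lit 22700638464)]⟩],
  [W_21576826880, W_21576564800, W_21559787648, W_20519862272, W_20503085120, W_19479412736, W_19429343360]⟩
theorem C_21627158784 : chkRec R_21627158784 = true := by decide +kernel

noncomputable def R_21627162753 : Rec := ⟨nat_lit 21627162753, nat_lit 18,
  [⟨V6_21576818817, [(nat_lit 46, nat_lit 21627162753), (nat_lit 75, nat_lit 22700900481), (nat_lit 102, nat_lit 22684127361), (nat_lit 50, nat_lit 23774638209), (nat_lit 48, nat_lit 23757865089), (nat_lit 19, nat_lit 23741091969), (nat_lit 107, nat_lit 24848375937), (nat_lit 75, nat_lit 24831602817), (nat_lit 89, nat_lit 24814829697), (nat_lit 8, nat_lit 24798056577), (nat_lit 30, nat_lit 25905340545), (nat_lit 75, nat_lit 25888567425), (nat_lit 93, nat_lit 25871794305), (nat_lit 110, nat_lit 26962305153), (nat_lit 44, nat_lit 26945532033), (nat_lit 115, nat_lit 28019269761)]⟩,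
   ⟨V6_18372382848, [(nat_lit 33, nat_lit 21627162753), (nat_lit 15, nat_lit 22700904576), (nat_lit 14, nat_lit 22684127361), (nat_lit 115, nat_lit 23757869184), (nat_lit 110, nat_lit 23741091969), (nat_lit 41, nat_lit 24814833792)]⟩,
   ⟨V6_18372382785, [(nat_lit 61, nat_lit 21627162753), (nat_lit 90, nat_lit 22700904513), (nat_lit 38, nat_lit 22684127361), (nat_lit 96, nat_lit 23757869121), (nat_lit 122, nat_lit 23741091969), (nat_lit 34, nat_lit 24814833729)]⟩],
  [W_21593595968, W_20519858240, W_20503085120, W_18405924992, W_16258453568]⟩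
theorem C_21627162753 : chkRec R_21627162753 = true := by decide +kernel

noncomputable def R_21627162816 : Rec := ⟨nat_lit 21627162816, nat_lit 25,
  [⟨V6_19429347456, [(nat_lit 116, nat_lit 21627162816), (nat_lit 91, nat_lit 22700904576), (nat_lit 51, nat_lit 22684127424), (nat_lit 113, nat_lit 23757869184), (nat_lit 108, nat_lit 23741092032), (nat_lit 67, nat_lit 24814833792), (nat_lit 7, nat_lit 24798056640), (nat_lit 61, nat_lit 25871798400)]⟩,
   ⟨V6_18405937152, [(nat_lit 67, nat_lit 21627162816), (nat_lit 78, nat_lit 22700904576), (nat_lit 46, nat_lit 23774646336), (nat_lit 86, nat_lit 24848388096)]⟩],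
  [W_21593600000, W_20536635392, W_20519862272, W_18372374720, W_17332195328, W_14110970048]⟩
theorem C_21627162816 : chkRec R_21627162816 = true := by decide +kernel

noncomputable def R_21627416706 : Rec := ⟨nat_lit 21627416706, nat_lit 16,
  [⟨V6_18389409921, [(nat_lit 95, nat_lit 21627416706), (nat_lit 88, nat_lit 22701158529), (nat_lit 2, nat_lit 22701154434), (nat_lit 116, nat_lit 22684381314), (nat_lit 97, nat_lit 23774896257), (nat_lit 35, nat_lit 23758123137), (nat_lit 39, nat_lit 23758119042), (nat_lit 61, nat_lit 24831860865)]⟩],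
  [W_21609848960, W_21593333888, W_21576818816, W_21576560768, W_20503339136, W_19479404672, W_19479146624]⟩
theorem C_21627416706 : chkRec R_21627416706 = true := by decide +kernel

noncomputable def R_21627416769 : Rec := ⟨nat_lit 21627416769, nat_lit 19,
  [⟨V6_21593075841, [(nat_lit 112, nat_lit 21627416769), (nat_lit 16, nat_lit 22701158529), (nat_lit 3, nat_lit 22700896449), (nat_lit 5, nat_lit 22684381377), (nat_lit 39, nat_lit 23774638209), (nat_lit 109, nat_lit 23774376129), (nat_lit 20, nat_lit 23758123137), (nat_lit 109, nat_lit 23757861057), (nat_lit 39, nat_lit 23741345985), (nat_lit 106, nat_lit 24848117889), (nat_lit 112, nat_lit 24847855809), (nat_lit 52, nat_lit 24831602817), (nat_lit 49, nat_lit 24831340737), (nat_lit 98, nat_lit 24815087745), (nat_lit 77, nat_lit 24814825665), (nat_lit 20, nat_lit 25921597569), (nat_lit 119, nat_lit 25905082497), (nat_lit 42, nat_lit 25904820417), (nat_lit 39, nat_lit 25888567425), (nat_lit 37, nat_lit 25888305345), (nat_lit 83, nat_lit 26978562177), (nat_lit 19, nat_lit 26962047105), (nat_lit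 92, nat_lit 26961785025), (nat_lit 48, nat_lit 28035526785)]⟩,
   ⟨V6_21576560769, [(nat_lit 18, nat_lit 21627416769), (nat_lit 37, nat_lit 22701158529), (nat_lit 75, nat_lit 22700896449), (nat_lit 83, nat_lit 22684381377), (nat_lit 38, nat_lit 23774638209), (nat_lit 104, nat_lit 23774376129), (nat_lit 64, nat_lit 23758123137), (nat_lit 2, nat_lit 23757861057), (nat_lit 63, nat_lit 23741345985), (nat_lit 29, nat_lit 24848117889), (nat_lit 47, nat_lit 24831602817), (nat_lit 17, nat_lit 24831340737), (nat_lit 57, nat_lit 24815087745), (nat_lit 61, nat_lit 24814825665), (nat_lit 6, nat_lit 24798310593), (nat_lit 79, nat_lit 25905082497), (nat_lit 27, nat_lit 25888567425), (nat_lit 62, nat_lit 25888305345), (nat_lit 32, nat_lit 25872052353), (nat_lit 40, nat_lit 25871790273), (nat_lit 63, nat_lit 26962047105), (nat_lit 67, nat_lit 26945532033), (nat_lit 27, nat_lit 26945269953), (nat_lit 33, nat_lit 28019011713)]⟩,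
   ⟨V6_20536111233, [(nat_lit 29, nat_lit 21627416769), (nat_lit 15, nat_lit 22701158529), (nat_lit 99, nat_lit 22700896449), (nat_lit 82, nat_lit 22684381377), (nat_lit 9, nat_lit 23774638209), (nat_lit 39, nat_lit 23774376129), (nat_lit 84, nat_lit 23758123137), (nat_lit 77, nat_lit 23757861057), (nat_lit 110, nat_lit 24848117889), (nat_lit 71, nat_lit 24847855809), (nat_lit 69, nat_lit 24831602817), (nat_lit 51, nat_lit 24831340737), (nat_lit 47, nat_lit 25921597569), (nat_lit 120, nat_lit 25905082497), (nat_lit 38, nat_lit 25904820417), (nat_lit 123, nat_lit 26978562177)]⟩,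
   ⟨V6_20503343169, [(nat_lit 21, nat_lit 21627416769), (nat_lit 90, nat_lit 22701158529), (nat_lit 13, nat_lit 22684381377), (nat_lit 101, nat_lit 23774900289), (nat_lit 36, nat_lit 23758123137), (nat_lit 104, nat_lit 23741345985), (nat_lit 19, nat_lit 24831864897), (nat_lit 93, nat_lit 24815087745), (nat_lit 92, nat_lit 24798310593), (nat_lit 62, nat_lit 25888829505), (nat_lit 33, nat_lit 25872052353), (nat_lit 105, nat_lit 26945794113)]⟩,
   ⟨V6_19462631616, [(nat_lit 32, nat_lit 21627416769), (nat_lit 67, nat_lit 22701158592), (nat_lit 90, nat_lit 22700896449), (nat_lit 87, nat_lit 22684381377), (nat_lit 10, nat_lit 23774638272), (nat_lit 2, nat_lit 23774376129), (nat_lit 40, nat_lit 23758123200), (nat_lit 7, nat_lit 23757861057), (nat_lit 109, nat_lit 24848117952), (nat_lit 7, nat_lit 24831602880), (nat_lit 96, nat_lit 24831340737), (nat_lit 98, nat_lit 25905082560)]⟩,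
   ⟨V6_19429601472, [(nat_lit 72, nat_lit 21627416769), (nat_lit 49, nat_lit 22701158592), (nat_lit 74, nat_lit 22684381377), (nat_lit 104, nat_lit 23758123200), (nat_lit 118, nat_lit 23741345985), (nat_lit 48, nat_lit 24815087808), (nat_lit 89, nat_lit 24798310593), (nat_lit 14, nat_lit 25872052416)]⟩,
   ⟨V6_18388889793, [(nat_lit 25, nat_lit 21627416769), (nat_lit 117, nat_lit 22700896449), (nat_lit 18, nat_lit 22684381377), (nat_lit 116, nat_lit 23774376129), (nat_lit 99, nat_lit 23757861057), (nat_lit 42, nat_lit 24831340737)]⟩,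
   ⟨V6_18355859649, [(nat_lit 88, nat_lit 21627416769), (nat_lit 81, nat_lit 22684381377), (nat_lit 51, nat_lit 23741345985), (nat_lit 123, nat_lit 24798310593)]⟩],
  [W_20552888384, W_20503343168, W_19479408704, W_19446378560]⟩
theorem C_21627416769 : chkRec R_21627416769 = true := by decide +kernel

noncomputable def R_21627420801 : Rec := ⟨nat_lit 21627420801, nat_lit 62,
  [⟨V6_18406187136, [(nat_lit 104, nat_lit 21627420801), (nat_lit 101, nat_lit 22701162624), (nat_lit 34, nat_lit 22701158529), (nat_lit 52, nat_lit 23774900352), (nat_lit 72, nat_lit 23774896257), (nat_lit 107, nat_lit 24848638080)]⟩,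
   ⟨V6_18389409921, [(nat_lit 19, nat_lit 21627420801), (nat_lit 32, nat_lit 22701158529), (nat_lit 11, nat_lit 22684385409), (nat_lit 31, nat_lit 23774896257), (nat_lit 10, nat_lit 23758123137), (nat_lit 30, nat_lit 24831860865)]⟩],
  [W_21593595968, W_21593337920, W_21577080896, W_21576564800, W_21576560768, W_20520116288, W_20519858240, W_20503085120, W_19479408704, W_19463151680, W_19446378560, W_19429605440, W_18372640832]⟩
theorem C_21627420801 : chkRec R_21627420801 = true := by decide +kernel

noncomputable def R_21627420864 : Rec := ⟨nat_lit 21627420864, nat_lit 85,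
  [⟨V6_21577089024, [(nat_lit 22, nat_lit 21627420864), (nat_lit 85, nat_lit 22701162624), (nat_lit 36, nat_lit 22684385472), (nat_lit 48, nat_lit 23774904384), (nat_lit 73, nat_lit 23758127232), (nat_lit 13, nat_lit 23741350080), (nat_lit 112, nat_lit 24848646144), (nat_lit 31, nat_lit 24831868992), (nat_lit 83, nat_lit 24815091840), (nat_lit 93, nat_lit 24798314688), (nat_lit 62, nat_lit 25905610752), (nat_lit 124, nat_lit 25888833600), (nat_lit 67, nat_lit 25872056448), (nat_lit 94, nat_lit 26962575360), (nat_lit 108, nat_lit 26945798208), (nat_lit 117, nat_lit 28019539968)]⟩,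
   ⟨V6_20553154560, [(nat_lit 97, nat_lit 21627420864), (nat_lit 26, nat_lit 22701162624), (nat_lit 10, nat_lit 22700900544), (nat_lit 67, nat_lit 23774904384), (nat_lit 58, nat_lit 23774642304), (nat_lit 91, nat_lit 23774380224), (nat_lit 1, nat_lit 24848646144), (nat_lit 94, nat_lit 24848384064), (nat_lit 77, nat_lit 24848121984), (nat_lit 38, nat_lit 25922125824), (nat_lit 5, nat_lit 25921863744), (nat_lit 65, nat_lit 26995605504)]⟩,
   ⟨V6_18405671040, [(nat_lit 115, nat_lit 21627420864), (nat_lit 59, nat_lit 22701162624), (nat_lit 28, nat_lit 22700900544), (nat_lit 3, nat_lit 23774642304), (nat_lit 64, nat_lit 23774380224), (nat_lit 69, nat_lit 24848121984)]⟩],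
  [W_21577084928, W_21576822848, W_20553150464, W_20536635392, W_20520120320, W_20503343168, W_19479412736, W_19463155712, W_19446382592, W_18372640832, W_18355863680]⟩
theorem C_21627420864 : chkRec R_21627420864 = true := by decide +kernel

noncomputable def R_21627424833 : Rec := ⟨nat_lit 21627424833, nat_lit 36,
  [⟨V6_21610631232, [(nat_lit 2, nat_lit 21627424833), (nat_lit 79, nat_lit 22701166656), (nat_lit 6, nat_lit 22701162561), (nat_lit 39, nat_lit 22684389441), (nat_lit 95, nat_lit 23774904384), (nat_lit 87, nat_lit 23774900289), (nat_lit 85, nat_lit 23758131264), (nat_lit 26, nat_lit 23758127169), (nat_lit 67, nat_lit 24848642112), (nat_lit 56, nat_lit 24848638017), (nat_lit 22, nat_lit 24831868992), (nat_lit 70, nat_lit 24831864897), (nat_lit 115, nat_lit 25922379840), (nat_lit 56, nat_lit 25922375745), (nat_lit 56, nat_lit 25905606720), (nat_lit 98, nat_lit 25905602625), (nat_lit 50, nat_lit 26996117568), (nat_lit 65, nat_lit 26979344448), (nat_lit 77, nat_lit 26979340353), (nat_lit 79, nat_lit 28053082176)]⟩,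
   ⟨V6_21610369089, [(nat_lit 86, nat_lit 21627424833), (nat_lit 38, nat_lit 22701162561), (nat_lit 42, nat_lit 22700904513), (nat_lit 30, nat_lit 22684389441), (nat_lit 38, nat_lit 23774900289), (nat_lit 72, nat_lit 23774642241), (nat_lit 63, nat_lit 23758127169), (nat_lit 119, nat_lit 23757869121), (nat_lit 90, nat_lit 24848638017), (nat_lit 81, nat_lit 24848379969), (nat_lit 104, nat_lit 24831864897), (nat_lit 3, nat_lit 24831606849), (nat_lit 54, nat_lit 25922375745), (nat_lit 91, nat_lit 25922117697), (nat_lit 1, nat_lit 25905602625), (nat_lit 60, nat_lit 25905344577), (nat_lit 41, nat_lit 26995855425), (nat_lit 93, nat_lit 26979340353), (nat_lit 69, nat_lit 26979082305), (nat_lit 1, nat_lit 28052820033)]⟩,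
   ⟨V6_20536889409, [(nat_lit 45, nat_lit 21627424833), (nat_lit 73, nat_lit 22701162561), (nat_lit 44, nat_lit 22684389441), (nat_lit 77, nat_lit 23774900289), (nat_lit 56, nat_lit 23758127169), (nat_lit 104, nat_lit 24848638017), (nat_lit 118, nat_lit 24831864897), (nat_lit 38, nat_lit 25922375745), (nat_lit 27, nat_lit 25905602625), (nat_lit 32, nat_lit 26979340353)]⟩,
   ⟨V6_20503343169, [(nat_lit 114, nat_lit 21627424833), (nat_lit 25, nat_lit 22701162561), (nat_lit 44, nat_lit 22684389441), (nat_lit 48, nat_lit 23774900289), (nat_lit 93, nat_lit 23758127169), (nat_lit 125, nat_lit 23741354049), (nat_lit 101, nat_lit 24831864897), (nat_lit 106, nat_lit 24815091777), (nat_lit 94, nat_lit 24798318657), (nat_lit 106, nat_lit 25888829505), (nat_lit 113, nat_lit 25872056385), (nat_lit 123, nat_lit 26945794113)]⟩,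
   ⟨V6_19479924801, [(nat_lit 123, nat_lit 21627424833), (nat_lit 87, nat_lit 22701162561), (nat_lit 51, nat_lit 23774900289), (nat_lit 116, nat_lit 24848638017), (nat_lit 50, nat_lit 25922375745)]⟩],
  [W_20520116288, W_20503085120, W_19463151680, W_18372640832, W_16258453568, W_15184973888]⟩
theorem C_21627424833 : chkRec R_21627424833 = true := by decide +kernel

noncomputable def R_21627424896 : Rec := ⟨nat_lit 21627424896, nat_lit 106,
  [⟨V6_20519866368, [(nat_lit 109, nat_lit 21627424896), (nat_lit 44, nat_lit 22701166656), (nat_lit 33, nat_lit 22700904576), (nat_lit 75, nat_lit 22684389504), (nat_lit 4, nat_lit 23774908416), (nat_lit 15, nat_lit 23774646336), (nat_lit 50, nat_lit 23758131264), (nat_lit 65, nat_lit 23757869184), (nat_lit 123, nat_lit 23741354112), (nat_lit 5, nat_lit 24848388096), (nat_lit 121, nat_lit 24831873024), (nat_lit 99, nat_lit 24831610944), (nat_lit 10, nat_lit 24815095872), (nat_lit 85, nat_lit 24814833792), (nat_lit 119, nat_lit 25905352704), (nat_lit 95, nat_lit 25888837632), (nat_lit 108, nat_lit 25888575552),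 (nat_lit 79, nat_lit 26962317312)]⟩,
   ⟨V6_20503351296, [(nat_lit 42, nat_lit 21627424896), (nat_lit 70, nat_lit 22701166656), (nat_lit 44, nat_lit 22684389504), (nat_lit 19, nat_lit 23774908416), (nat_lit 107, nat_lit 23758131264), (nat_lit 93, nat_lit 23741354112), (nat_lit 42, nat_lit 24831873024), (nat_lit 121, nat_lit 24815095872), (nat_lit 104, nat_lit 24798318720), (nat_lit 82, nat_lit 25888837632), (nat_lit 19, nat_lit 25872060480), (nat_lit 53, nat_lit 26945802240)]⟩,
   ⟨V6_19446386688, [(nat_lit 95, nat_lit 21627424896), (nat_lit 39, nat_lit 22701166656), (nat_lit 20, nat_lit 22684389504), (nat_lit 95, nat_lit 23774908416), (nat_lit 112, nat_lit 23758131264), (nat_lit 67, nat_lit 23741354112), (nat_lit 58, nat_lit 24831873024), (nat_lit 117, nat_lit 24815095872), (nat_lit 1, nat_lit 25888837632)]⟩,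
   ⟨V6_18405937152, [(nat_lit 64, nat_lit 21627424896), (nat_lit 26, nat_lit 22701166656), (nat_lit 124, nat_lit 22700904576), (nat_lit 27, nat_lit 23774908416), (nat_lit 50, nat_lit 23774646336), (nat_lit 122, nat_lit 24848388096)]⟩,
   ⟨V6_18389422080, [(nat_lit 36, nat_lit 21627424896), (nat_lit 5, nat_lit 22701166656), (nat_lit 101, nat_lit 22684389504), (nat_lit 77, nat_lit 23774908416), (nat_lit 26, nat_lit 23758131264), (nat_lit 13, nat_lit 24831873024)]⟩],
  [W_21577080896, W_21576818816, W_20536893440, W_20536635392, W_20503339136, W_19463155712, W_19462889600, W_18405924992, W_18389417984, W_15184973888, W_15184969856]⟩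
theorem C_21627424896 : chkRec R_21627424896 = true := by decide +kernel

noncomputable def R_21627428928 : Rec := ⟨nat_lit 21627428928, nat_lit 72,
  [⟨V6_20503351296, [(nat_lit 111, nat_lit 21627428928), (nat_lit 23, nat_lit 22701170688), (nat_lit 112, nat_lit 22701166656), (nat_lit 18, nat_lit 22684393536), (nat_lit 63, nat_lit 23774908416), (nat_lit 64, nat_lit 23758135296), (nat_lit 91, nat_lit 23758131264), (nat_lit 6, nat_lit 23741358144), (nat_lit 28, nat_lit 24831873024), (nat_lit 75, nat_lit 24815099904), (nat_lit 38, nat_lit 24815095872), (nat_lit 126, nat_lit 24798322752), (nat_lit 35, nat_lit 25888837632), (nat_lit 31, nat_lit 25872064512), (nat_lit 104, nat_lit 25872060480), (nat_lit 102, nat_lit 26945802240)]⟩,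
   ⟨V6_19429613568, [(nat_lit 8, nat_lit 21627428928), (nat_lit 18, nat_lit 22701170688), (nat_lit 74, nat_lit 22684393536), (nat_lit 52, nat_lit 23758135296), (nat_lit 83, nat_lit 23741358144), (nat_lit 5, nat_lit 24815099904), (nat_lit 93, nat_lit 24798322752), (nat_lit 62, nat_lit 25872064512)]⟩,
   ⟨V6_17315684352, [(nat_lit 18, nat_lit 21627428928), (nat_lit 39, nat_lit 22701170688), (nat_lit 19, nat_lit 22684393536), (nat_lit 126, nat_lit 23758135296)]⟩,
   ⟨V6_16258719744, [(nat_lit 56, nat_lit 21627428928), (nat_lit 85, nat_lit 22701170688)]⟩],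
  [W_21593858048, W_21593854016, W_20536893440, W_20520120320, W_20520116288, W_19463155712]⟩
theorem C_21627428928 : chkRec R_21627428928 = true := by decide +kernel

noncomputable def R_21627674754 : Rec := ⟨nat_lit 21627674754, nat_lit 8,
  [⟨V6_17315930241, [(nat_lit 76, nat_lit 21627674754), (nat_lit 80, nat_lit 22701416577), (nat_lit 52, nat_lit 22684639362), (nat_lit 24, nat_lit 23758381185)]⟩],
  [W_21609848960, W_21593333888, W_19446374528]⟩
theorem C_21627674754 : chkRec R_21627674754 = true := by decide +kernel

noncomputable def R_21627678849 : Rec := ⟨nat_lit 21627678849, nat_lit 50,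
  [⟨V6_18406187136, [(nat_lit 68, nat_lit 21627678849), (nat_lit 94, nat_lit 22701420672), (nat_lit 78, nat_lit 22701416577), (nat_lit 59, nat_lit 22701158529), (nat_lit 118, nat_lit 23775158400), (nat_lit 35, nat_lit 23774900352), (nat_lit 14, nat_lit 23774896257), (nat_lit 72, nat_lit 24848638080)]⟩,
   ⟨V6_18372894849, [(nat_lit 84, nat_lit 21627678849), (nat_lit 76, nat_lit 22701416577), (nat_lit 45, nat_lit 22684643457), (nat_lit 50, nat_lit 23758381185), (nat_lit 119, nat_lit 23741608065), (nat_lit 85, nat_lit 24815345793)]⟩],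
  [W_21626626112, W_21593595968, W_21593337920, W_20552888384, W_20520116288, W_20519858240, W_20519596160, W_19479408704, W_18372898880, W_17315934272]⟩
theorem C_21627678849 : chkRec R_21627678849 = true := by decide +kernel

noncomputable def R_21627678912 : Rec := ⟨nat_lit 21627678912, nat_lit 53,
  [⟨V6_21593862144, [(nat_lit 121, nat_lit 21627678912), (nat_lit 40, nat_lit 22701420672), (nat_lit 106, nat_lit 22701158592), (nat_lit 49, nat_lit 22684643520), (nat_lit 70, nat_lit 23775162432), (nat_lit 17, nat_lit 23774900352), (nat_lit 82, nat_lit 23758385280), (nat_lit 58, nat_lit 23758123200), (nat_lit 90, nat_lit 23741608128), (nat_lit 6, nat_lit 24848904192), (nat_lit 35, nat_lit 24848642112), (nat_lit 59, nat_lit 24832127040), (nat_lit 40, nat_lit 24831864960), (nat_lit 36, nat_lit 24815349888), (nat_lit 28, nat_lit 24815087808), (nat_lit 124, nat_lit 25922383872), (nat_lit 9, nat_lit 25905868800), (nat_lit 57, nat_lit 25905606720), (nat_lit 50, nat_lit 25889091648), (nat_lit 42, nat_lit 25888829568), (nat_lit 114, nat_lit 26979348480),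 (nat_lit 85, nat_lit 26962833408), (nat_lit 101, nat_lit 26962571328), (nat_lit 95, nat_lit 28036313088)]⟩,
   ⟨V6_20520382464, [(nat_lit 49, nat_lit 21627678912), (nat_lit 50, nat_lit 22701420672), (nat_lit 49, nat_lit 22684643520), (nat_lit 96, nat_lit 23775162432), (nat_lit 3, nat_lit 23758385280), (nat_lit 114, nat_lit 23741608128), (nat_lit 103, nat_lit 24848904192), (nat_lit 52, nat_lit 24832127040), (nat_lit 63, nat_lit 24815349888), (nat_lit 7, nat_lit 25905868800), (nat_lit 96, nat_lit 25889091648), (nat_lit 32, nat_lit 26962833408)]⟩],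
  [W_21593337920, W_20553150464, W_19479408704, W_18389676032, W_17315934272, W_16225415360, W_14111486144]⟩
theorem C_21627678912 : chkRec R_21627678912 = true := by decide +kernel

noncomputable def R_21627682881 : Rec := ⟨nat_lit 21627682881, nat_lit 57,
  [⟨V6_19480186944, [(nat_lit 10, nat_lit 21627682881), (nat_lit 93, nat_lit 22701424704), (nat_lit 71, nat_lit 22701420609), (nat_lit 29, nat_lit 23775162432), (nat_lit 60, nat_lit 23775158337), (nat_lit 112, nat_lit 24848900160), (nat_lit 27, nat_lit 24848896065), (nat_lit 44, nat_lit 25922637888)]⟩,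
   ⟨V6_18405670977, [(nat_lit 51, nat_lit 21627682881), (nat_lit 44, nat_lit 22701162561), (nat_lit 56, nat_lit 23774642241), (nat_lit 9, nat_lit 24848121921)]⟩,
   ⟨V6_17299161153, [(nat_lit 78, nat_lit 21627682881), (nat_lit 31, nat_lit 22684647489), (nat_lit 49, nat_lit 23741612097)]⟩],
  [W_21593854016, W_21593595968, W_21593337920, W_20520116288, W_20519858240, W_19463151680, W_19446378560, W_16242196544, W_15185231936]⟩
theorem C_21627682881 : chkRec R_21627682881 = true := by decide +kernel

noncomputable def R_21627682944 : Rec := ⟨nat_lit 21627682944, nat_lit 146,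
  [⟨V6_21610119168, [(nat_lit 91, nat_lit 21627682944), (nat_lit 96, nat_lit 22701424704), (nat_lit 114, nat_lit 22701162624), (nat_lit 27, nat_lit 22684647552), (nat_lit 72, nat_lit 23775166464), (nat_lit 113, nat_lit 23774904384), (nat_lit 72, nat_lit 23774642304), (nat_lit 112, nat_lit 23758389312), (nat_lit 7, nat_lit 23758127232), (nat_lit 74, nat_lit 24848646144), (nat_lit 27, nat_lit 24848384064), (nat_lit 105, nat_lit 24848121984), (nat_lit 72, nat_lit 24832131072), (nat_lit 61, nat_lit 24831868992), (nat_lit 113, nat_lit 24831606912), (nat_lit 21, nat_lit 25922125824), (nat_lit 43, nat_lit 25921863744), (nat_lit 115, nat_lit 25905610752), (nat_lit 114, nat_lit 25905348672), (nat_lit 100, nat_lit 25905086592), (nat_lit 9, nat_lit 26995605504), (nat_lit 76, nat_lit 26979090432), (nat_lit 68, nat_lit 26978828352), (nat_lit 43, nat_lit 28052570112)]⟩,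
   ⟨V6_21594120192, [(nat_lit 48, nat_lit 21627682944), (nat_lit 23, nat_lit 22701424704), (nat_lit 91, nat_lit 22701420672), (nat_lit 117, nat_lit 22684647552), (nat_lit 81, nat_lit 23775166464), (nat_lit 56, nat_lit 23775162432), (nat_lit 62, nat_lit 23775158400), (nat_lit 98, nat_lit 23758389312), (nat_lit 91, nat_lit 23758385280), (nat_lit 105, nat_lit 23741612160), (nat_lit 16, nat_lit 24848904192), (nat_lit 116, nat_lit 24848900160), (nat_lit 86, nat_lit 24832131072), (nat_lit 54, nat_lit 24832127040), (nat_lit 65, nat_lit 24832123008), (nat_lit 17, nat_lit 24815353920), (nat_lit 84, nat_lit 24815349888), (nat_lit 1, nat_lit 25922641920), (nat_lit 21, nat_lit 25905868800), (nat_lit 124, nat_lit 25905864768), (nat_lit 3, nat_lit 25889095680), (nat_lit 28, nat_lit 25889091648), (nat_lit 93, nat_lit 25889087616), (nat_lit 86, nat_lit 26979606528), (nat_lit 74, nat_lit 26962833408), (nat_lit 126, nat_lit 26962829376), (nat_lit 73, nat_lit 28036571136)]⟩,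
   ⟨V6_20553154560, [(nat_lit 103, nat_lit 21627682944), (nat_lit 14, nat_lit 22701424704), (nat_lit 81, nat_lit 22701162624), (nat_lit 37, nat_lit 23775166464), (nat_lit 49, nat_lit 23774904384), (nat_lit 84, nat_lit 23774642304), (nat_lit 61, nat_lit 24848646144), (nat_lit 120, nat_lit 24848384064), (nat_lit 47, nat_lit 24848121984), (nat_lit 89, nat_lit 25922125824), (nat_lit 14, nat_lit 25921863744), (nat_lit 31, nat_lit 26995605504)]⟩,
   ⟨V6_20520382464, [(nat_lit 53, nat_lit 21627682944), (nat_lit 29, nat_lit 22701424704), (nat_lit 43, nat_lit 22701420672), (nat_lit 40, nat_lit 22684647552), (nat_lit 99, nat_lit 23775166464), (nat_lit 7, nat_lit 23775162432), (nat_lit 106, nat_lit 23758389312), (nat_lit 115, nat_lit 23758385280), (nat_lit 32, nat_lit 23741612160), (nat_lit 36, nat_lit 24848904192), (nat_lit 13, nat_lit 24832131072), (nat_lit 69, nat_lit 24832127040), (nat_lit 63, nat_lit 24815353920), (nat_lit 91, nat_lit 24815349888), (nat_lit 102, nat_lit 25905868800), (nat_lit 103, nat_lit 25889095680), (nat_lit 81, nat_lit 25889091648),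 (nat_lit 7, nat_lit 26962833408)]⟩,
   ⟨V6_19446644736, [(nat_lit 7, nat_lit 21627682944), (nat_lit 51, nat_lit 22701424704), (nat_lit 75, nat_lit 22684647552), (nat_lit 7, nat_lit 23775166464), (nat_lit 39, nat_lit 23758389312), (nat_lit 29, nat_lit 23741612160), (nat_lit 27, nat_lit 24832131072), (nat_lit 26, nat_lit 24815353920), (nat_lit 99, nat_lit 25889095680)]⟩,
   ⟨V6_18405671040, [(nat_lit 16, nat_lit 21627682944), (nat_lit 91, nat_lit 22701162624), (nat_lit 35, nat_lit 23774642304), (nat_lit 85, nat_lit 24848121984)]⟩],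
  [W_20553150464, W_20536893440, W_20520116288, W_19479412736, W_19463413760, W_19463155712, W_19446382592, W_19446374528, W_18389676032, W_17315938304, W_17299157120, W_16242196544, W_15185231936]⟩
theorem C_21627682944 : chkRec R_21627682944 = true := by decide +kernel

noncomputable def R_21627686976 : Rec := ⟨nat_lit 21627686976, nat_lit 140,
  [⟨V6_21627408384, [(nat_lit 9, nat_lit 21627686976), (nat_lit 10, nat_lit 22701428736), (nat_lit 81, nat_lit 22701424704), (nat_lit 86, nat_lit 22701166656), (nat_lit 62, nat_lit 23775166464), (nat_lit 119, nat_lit 23775162432), (nat_lit 102, nat_lit 23774908416), (nat_lit 77, nat_lit 23774904384), (nat_lit 45, nat_lit 24848904192), (nat_lit 37, nat_lit 24848900160), (nat_lit 32, nat_lit 24848646144), (nat_lit 103, nat_lit 24848642112), (nat_lit 2, nat_lit 25922641920), (nat_lit 42, nat_lit 25922637888), (nat_lit 119, nat_lit 25922383872), (nat_lit 68, nat_lit 25922379840), (nat_lit 106, nat_lit 26996379648), (nat_lit 89, nat_lit 26996121600), (nat_lit 8, nat_lit 26996117568), (nat_lit 4, nat_lit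 28069859328)]⟩,
   ⟨V6_21610893312, [(nat_lit 14, nat_lit 21627686976), (nat_lit 88, nat_lit 22701428736), (nat_lit 94, nat_lit 22701424704), (nat_lit 44, nat_lit 22684651584), (nat_lit 47, nat_lit 23775166464), (nat_lit 81, nat_lit 23775162432), (nat_lit 66, nat_lit 23758393344), (nat_lit 110, nat_lit 23758389312), (nat_lit 94, nat_lit 24848904192), (nat_lit 67, nat_lit 24848900160), (nat_lit 29, nat_lit 24832131072), (nat_lit 26, nat_lit 24832127040), (nat_lit 91, nat_lit 25922641920), (nat_lit 123, nat_lit 25922637888), (nat_lit 1, nat_lit 25905868800), (nat_lit 71, nat_lit 25905864768), (nat_lit 73, nat_lit 26996379648), (nat_lit 22, nat_lit 26979606528), (nat_lit 14, nat_lit 26979602496), (nat_lit 35, nat_lit 28053344256)]⟩,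
   ⟨V6_20519866368, [(nat_lit 77, nat_lit 21627686976), (nat_lit 44, nat_lit 22701428736), (nat_lit 9, nat_lit 22701166656), (nat_lit 105, nat_lit 22684651584), (nat_lit 13, nat_lit 23774908416), (nat_lit 2, nat_lit 23774646336), (nat_lit 124, nat_lit 23758393344), (nat_lit 47, nat_lit 23758131264), (nat_lit 28, nat_lit 23741616192), (nat_lit 20, nat_lit 24848388096), (nat_lit 34, nat_lit 24831873024), (nat_lit 61, nat_lit 24831610944), (nat_lit 21, nat_lit 24815357952), (nat_lit 28, nat_lit 24815095872), (nat_lit 33, nat_lit 25905352704), (nat_lit 106, nat_lit 25888837632), (nat_lit 126, nat_lit 25888575552), (nat_lit 98, nat_lit 26962317312)]⟩,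
   ⟨V6_19480186944, [(nat_lit 125, nat_lit 21627686976), (nat_lit 107, nat_lit 22701424704), (nat_lit 89, nat_lit 23775162432), (nat_lit 58, nat_lit 24848900160), (nat_lit 25, nat_lit 25922637888)]⟩,
   ⟨V6_19446386688, [(nat_lit 20, nat_lit 21627686976), (nat_lit 82, nat_lit 22701428736), (nat_lit 109, nat_lit 22701166656), (nat_lit 108, nat_lit 22684651584), (nat_lit 23, nat_lit 23774908416), (nat_lit 82, nat_lit 23758393344), (nat_lit 24, nat_lit 23758131264), (nat_lit 96, nat_lit 23741616192), (nat_lit 10, nat_lit 24831873024), (nat_lit 34, nat_lit 24815357952), (nat_lit 99, nat_lit 24815095872), (nat_lit 84, nat_lit 25888837632)]⟩],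
  [W_20536893440, W_20536635392, W_19463413760, W_19463155712, W_19446382592, W_18389676032, W_18372898880, W_17315938304, W_16242196544, W_15185231936, W_15168458816, W_14111494208]⟩
theorem C_21627686976 : chkRec R_21627686976 = true := by decide +kernel

noncomputable def R_21627691008 : Rec := ⟨nat_lit 21627691008, nat_lit 76,
  [⟨V6_19446644736, [(nat_lit 69, nat_lit 21627691008), (nat_lit 58, nat_lit 22701428736), (nat_lit 37, nat_lit 22684655616), (nat_lit 6, nat_lit 23775166464), (nat_lit 62, nat_lit 23758393344), (nat_lit 112, nat_lit 23741620224), (nat_lit 35, nat_lit 24832131072), (nat_lit 59, nat_lit 24815357952), (nat_lit 30, nat_lit 25889095680)]⟩,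
   ⟨V6_17315684352, [(nat_lit 118, nat_lit 21627691008), (nat_lit 20, nat_lit 22701170688), (nat_lit 66, nat_lit 22684655616), (nat_lit 89, nat_lit 23758135296)]⟩,
   ⟨V6_16258719744, [(nat_lit 54, nat_lit 21627691008), (nat_lit 125, nat_lit 22701170688)]⟩,
   ⟨V6_16242204672, [(nat_lit 43, nat_lit 21627691008), (nat_lit 55, nat_lit 22684655616)]⟩],
  [W_21627404288, W_21594116096, W_20537151488, W_20536893440, W_20520378368, W_19480186880]⟩
theorem C_21627691008 : chkRec R_21627691008 = true := by decide +kernel

noncomputable def R_21627936897 : Rec := ⟨nat_lit 21627936897, nat_lit 28,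
  [⟨V6_18389409921, [(nat_lit 117, nat_lit 21627936897), (nat_lit 92, nat_lit 22701416577), (nat_lit 92, nat_lit 22684901505), (nat_lit 104, nat_lit 23774896257), (nat_lit 6, nat_lit 23758381185), (nat_lit 38, nat_lit 24831860865)]⟩,
   ⟨V6_17315930241, [(nat_lit 117, nat_lit 21627936897), (nat_lit 88, nat_lit 22701416577), (nat_lit 19, nat_lit 22684901505), (nat_lit 48, nat_lit 23758381185)]⟩,
   ⟨V6_16242450561, [(nat_lit 73, nat_lit 21627936897), (nat_lit 117, nat_lit 22684901505)]⟩],
  [W_21626626112, W_21609848960, W_19479404672, W_18406187072]⟩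
theorem C_21627936897 : chkRec R_21627936897 = true := by decide +kernel

noncomputable def R_21627940929 : Rec := ⟨nat_lit 21627940929, nat_lit 41,
  [⟨V6_19479924801, [(nat_lit 87, nat_lit 21627940929), (nat_lit 82, nat_lit 22701678657), (nat_lit 43, nat_lit 22701420609), (nat_lit 58, nat_lit 23775416385), (nat_lit 106, nat_lit 23775158337), (nat_lit 70, nat_lit 23774900289), (nat_lit 119, nat_lit 24848896065), (nat_lit 5, nat_lit 24848638017), (nat_lit 116, nat_lit 25922375745)]⟩,
   ⟨V6_16259231808, [(nat_lit 4, nat_lit 21627940929), (nat_lit 63, nat_lit 22701682752)]⟩],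
  [W_21626626112, W_21610111040, W_20552888384, W_20536889408, W_20536373312, W_19479924800, W_19463409728]⟩
theorem C_21627940929 : chkRec R_21627940929 = true := by decide +kernel

noncomputable def R_21627940992 : Rec := ⟨nat_lit 21627940992, nat_lit 108,
  [⟨V6_20537155584, [(nat_lit 61, nat_lit 21627940992), (nat_lit 81, nat_lit 22701682752), (nat_lit 13, nat_lit 22701678720), (nat_lit 47, nat_lit 22701420672), (nat_lit 11, nat_lit 22684905600), (nat_lit 107, nat_lit 23775424512), (nat_lit 48, nat_lit 23775420480), (nat_lit 75, nat_lit 23775162432), (nat_lit 36, nat_lit 23775158400), (nat_lit 21, nat_lit 23758647360), (nat_lit 108, nat_lit 23758643328), (nat_lit 46, nat_lit 23758385280), (nat_lit 29, nat_lit 24849162240), (nat_lit 13, nat_lit 24848904192), (nat_lit 82, nat_lit 24848900160), (nat_lit 52, nat_lit 24832389120), (nat_lit 44, nat_lit 24832385088), (nat_lit 120, nat_lit 24832127040), (nat_lit 8, nat_lit 24832123008), (nat_lit 96, nat_lit 25922641920), (nat_lit 50, nat_lit 25906126848), (nat_lit 65, nat_lit 25905868800), (nat_lit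 72, nat_lit 25905864768), (nat_lit 28, nat_lit 26979606528)]⟩,
   ⟨V6_18406711296, [(nat_lit 123, nat_lit 21627940992), (nat_lit 53, nat_lit 22701682752), (nat_lit 73, nat_lit 22701678720), (nat_lit 77, nat_lit 23775424512), (nat_lit 65, nat_lit 23775420480), (nat_lit 67, nat_lit 24849162240)]⟩,
   ⟨V6_17316192384, [(nat_lit 99, nat_lit 21627940992), (nat_lit 61, nat_lit 22701678720), (nat_lit 78, nat_lit 22684905600), (nat_lit 52, nat_lit 23758643328)]⟩],
  [W_20553150464, W_20536893440, W_20536635392, W_19463155712, W_19462889600, W_18389934080, W_17316196352, W_16242454592, W_15185489984]⟩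
theorem C_21627940992 : chkRec R_21627940992 = true := by decide +kernel

noncomputable def R_21627945024 : Rec := ⟨nat_lit 21627945024, nat_lit 154,
  [⟨V6_21610119168, [(nat_lit 38, nat_lit 21627945024), (nat_lit 93, nat_lit 22701686784), (nat_lit 67, nat_lit 22701424704), (nat_lit 117, nat_lit 22684909632), (nat_lit 46, nat_lit 23775166464), (nat_lit 99, nat_lit 23774904384), (nat_lit 43, nat_lit 23758651392), (nat_lit 1, nat_lit 23758389312), (nat_lit 114, nat_lit 24848646144), (nat_lit 30, nat_lit 24848384064), (nat_lit 32, nat_lit 24832131072), (nat_lit 118, nat_lit 24831868992), (nat_lit 42, nat_lit 25922125824), (nat_lit 71, nat_lit 25921863744), (nat_lit 34, nat_lit 25905610752), (nat_lit 101, nat_lit 25905348672), (nat_lit 87, nat_lit 26995605504), (nat_lit 45, nat_lit 26979090432), (nat_lit 107, nat_lit 26978828352), (nat_lit 37, nat_lit 28052570112)]⟩,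
   ⟨V6_20553154560, [(nat_lit 27, nat_lit 21627945024), (nat_lit 18, nat_lit 22701686784), (nat_lit 23, nat_lit 22701424704), (nat_lit 6, nat_lit 23775166464), (nat_lit 98, nat_lit 23774904384), (nat_lit 118, nat_lit 24848646144), (nat_lit 91, nat_lit 24848384064), (nat_lit 51, nat_lit 25922125824), (nat_lit 94, nat_lit 25921863744), (nat_lit 88, nat_lit 26995605504)]⟩,
   ⟨V6_19480186944, [(nat_lit 93, nat_lit 21627945024), (nat_lit 110, nat_lit 22701682752), (nat_lit 74, nat_lit 22701424704), (nat_lit 121, nat_lit 23775420480), (nat_lit 65, nat_lit 23775162432), (nat_lit 79, nat_lit 24849158208), (nat_lit 30, nat_lit 24848900160), (nat_lit 118, nat_lit 25922637888)]⟩,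
   ⟨V6_18406711296, [(nat_lit 92, nat_lit 21627945024), (nat_lit 4, nat_lit 22701686784), (nat_lit 70, nat_lit 22701682752), (nat_lit 110, nat_lit 23775424512), (nat_lit 61, nat_lit 23775420480), (nat_lit 33, nat_lit 24849162240)]⟩,
   ⟨V6_18406707264, [(nat_lit 8, nat_lit 21627945024), (nat_lit 57, nat_lit 22701682752), (nat_lit 99, nat_lit 23775420480), (nat_lit 100, nat_lit 24849158208)]⟩],
  [W_20536893440, W_19480186880, W_19463671808, W_19463413760, W_19463155712, W_18389934080, W_18389930048, W_17316196352, W_17315938304, W_16242458624, W_16242454592, W_15185494016, W_15168716864]⟩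
theorem C_21627945024 : chkRec R_21627945024 = true := by decide +kernel

noncomputable def R_21627949056 : Rec := ⟨nat_lit 21627949056, nat_lit 107,
  [⟨V6_18406711296, [(nat_lit 9, nat_lit 21627949056), (nat_lit 99, nat_lit 22701686784), (nat_lit 124, nat_lit 23775424512), (nat_lit 25, nat_lit 24849162240)]⟩,
   ⟨V6_17316200448, [(nat_lit 45, nat_lit 21627949056), (nat_lit 86, nat_lit 22701686784), (nat_lit 124, nat_lit 22684913664), (nat_lit 42, nat_lit 23758651392)]⟩,
   ⟨V6_16242462720, [(nat_lit 87, nat_lit 21627949056), (nat_lit 2, nat_lit 22684913664)]⟩],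
  [W_21627404288, W_21610889216, W_20537409536, W_20537151488, W_20536893440, W_20536635392, W_19480444928, W_19463671808, W_19462897664, W_18389159936]⟩
theorem C_21627949056 : chkRec R_21627949056 = true := by decide +kernel

noncomputable def R_21628198977 : Rec := ⟨nat_lit 21628198977, nat_lit 19,
  [⟨V6_20553146433, [(nat_lit 97, nat_lit 21628198977), (nat_lit 56, nat_lit 22701678657), (nat_lit 13, nat_lit 23775158337), (nat_lit 68, nat_lit 24848638017), (nat_lit 97, nat_lit 25922117697), (nat_lit 90, nat_lit 26995597377)]⟩,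
   ⟨V6_15185748033, [(nat_lit 3, nat_lit 21628198977)]⟩],
  [W_21626884160, W_19479924800, W_17332965440]⟩
theorem C_21628198977 : chkRec R_21628198977 = true := by decide +kernel

noncomputable def R_21628199040 : Rec := ⟨nat_lit 21628199040, nat_lit 29,
  [⟨V6_18406711296, [(nat_lit 47, nat_lit 21628199040), (nat_lit 50, nat_lit 22701940800), (nat_lit 90, nat_lit 22701678720), (nat_lit 13, nat_lit 23775682560), (nat_lit 76, nat_lit 23775420480), (nat_lit 2, nat_lit 24849162240)]⟩],
  [W_21626888192, W_21626626112, W_19479404672, W_18405924992]⟩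
theorem C_21628199040 : chkRec R_21628199040 = true := by decide +kernel

noncomputable def R_21628203072 : Rec := ⟨nat_lit 21628203072, nat_lit 76,
  [⟨V6_18406711296, [(nat_lit 81, nat_lit 21628203072), (nat_lit 23, nat_lit 22701944832), (nat_lit 8, nat_lit 22701940800), (nat_lit 75, nat_lit 22701682752), (nat_lit 59, nat_lit 23775682560), (nat_lit 16, nat_lit 23775424512), (nat_lit 35, nat_lit 23775420480), (nat_lit 110, nat_lit 24849162240)]⟩,
   ⟨V6_18406707264, [(nat_lit 124, nat_lit 21628203072), (nat_lit 56, nat_lit 22701940800), (nat_lit 52, nat_lit 22701682752), (nat_lit 55, nat_lit 23775678528), (nat_lit 11, nat_lit 23775420480), (nat_lit 123, nat_lit 24849158208)]⟩],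
  [W_21626884160, W_21626630144, W_21626626112, W_20553150464, W_19480186880, W_18406707200, W_15185489984, W_14112010304]⟩
theorem C_21628203072 : chkRec R_21628203072 = true := by decide +kernel

noncomputable def R_21628207104 : Rec := ⟨nat_lit 21628207104, nat_lit 60,
  [⟨V6_20553154560, [(nat_lit 79, nat_lit 21628207104), (nat_lit 115, nat_lit 22701686784), (nat_lit 97, nat_lit 23775166464), (nat_lit 58, nat_lit 24848646144), (nat_lit 79, nat_lit 25922125824), (nat_lit 17, nat_lit 26995605504)]⟩,
   ⟨V6_18406711296, [(nat_lit 79, nat_lit 21628207104), (nat_lit 64, nat_lit 22701944832), (nat_lit 82, nat_lit 22701686784), (nat_lit 40, nat_lit 23775682560), (nat_lit 98, nat_lit 23775424512), (nat_lit 87, nat_lit 24849162240)]⟩],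
  [W_21627404288, W_19480186880, W_19479412736, W_15185752064, W_15185494016, W_14112014336]⟩
theorem C_21628207104 : chkRec R_21628207104 = true := by decide +kernel

noncomputable def R_21643669698 : Rec := ⟨nat_lit 21643669698, nat_lit 2,
  [⟨V6_18405404802, [(nat_lit 44, nat_lit 21643669698), (nat_lit 80, nat_lit 22717411458), (nat_lit 9, nat_lit 22717149378), (nat_lit 49, nat_lit 22700634306), (nat_lit 105, nat_lit 23790891138), (nat_lit 109, nat_lit 23774376066), (nat_lit 5, nat_lit 23774113986), (nat_lit 88, nat_lit 24847855746)]⟩,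
   ⟨V6_15201218754, [(nat_lit 60, nat_lit 21643669698)]⟩],
  [W_20519596160]⟩
theorem C_21643669698 : chkRec R_21643669698 = true := by decide +kernel

noncomputable def R_21643673730 : Rec := ⟨nat_lit 21643673730, nat_lit 12,
  [⟨V6_18405671040, [(nat_lit 49, nat_lit 21643673730), (nat_lit 98, nat_lit 22717415553), (nat_lit 103, nat_lit 22700638338), (nat_lit 30, nat_lit 23791157376), (nat_lit 76, nat_lit 23774380161), (nat_lit 11, nat_lit 24848121984)]⟩],
  [W_21593333888, W_19479404672, W_18422440064]⟩
theorem C_21643673730 : chkRec R_21643673730 = true := by decide +kernel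

noncomputable def R_21643673793 : Rec := ⟨nat_lit 21643673793, nat_lit 16,
  [⟨V6_16274964672, [(nat_lit 95, nat_lit 21643673793), (nat_lit 4, nat_lit 22717415616)]⟩],
  [W_21593337920, W_21576564800, W_21559787648, W_20536373312, W_20519596160, W_20502823040]⟩
theorem C_21643673793 : chkRec R_21643673793 = true := by decide +kernel

noncomputable def R_21643673856 : Rec := ⟨nat_lit 21643673856, nat_lit 22,
  [⟨V6_19429081344, [(nat_lit 13, nat_lit 21643673856), (nat_lit 88, nat_lit 22700638464), (nat_lit 45, nat_lit 23757603072), (nat_lit 49, nat_lit 24814567680), (nat_lit 41, nat_lit 25871532288)]⟩,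
   ⟨V6_16258187520, [(nat_lit 35, nat_lit 21643673856), (nat_lit 46, nat_lit 22700638464)]⟩,
   ⟨V6_15201222912, [(nat_lit 26, nat_lit 21643673856)]⟩],
  [W_21593341952, W_21576564800, W_18422448128]⟩
theorem C_21643673856 : chkRec R_21643673856 = true := by decide +kernel

noncomputable def R_21643931778 : Rec := ⟨nat_lit 21643931778, nat_lit 12,
  [⟨V6_19496181888, [(nat_lit 43, nat_lit 21643931778), (nat_lit 124, nat_lit 22717673601), (nat_lit 80, nat_lit 22717669506), (nat_lit 68, nat_lit 22717411458), (nat_lit 15, nat_lit 23791415424), (nat_lit 103, nat_lit 23791411329), (nat_lit 59, nat_lit 23791153281), (nat_lit 36, nat_lit 23791149186), (nat_lit 1, nat_lit 24865153152), (nat_lit 19, nat_lit 24864895104), (nat_lit 23, nat_lit 24864891009), (nat_lit 30, nat_lit 25938632832)]⟩],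
  [W_21609848960, W_21576818816, W_21576560768, W_20503081088, W_19462889600]⟩
theorem C_21643931778 : chkRec R_21643931778 = true := by decide +kernel

noncomputable def R_21643931841 : Rec := ⟨nat_lit 21643931841, nat_lit 16,
  [⟨V6_18388889793, [(nat_lit 102, nat_lit 21643931841), (nat_lit 60, nat_lit 22717411521), (nat_lit 53, nat_lit 22700896449), (nat_lit 31, nat_lit 23774376129), (nat_lit 62, nat_lit 23757861057), (nat_lit 22, nat_lit 24831340737)]⟩,
   ⟨V6_17348702400, [(nat_lit 24, nat_lit 21643931841), (nat_lit 67, nat_lit 22717673664), (nat_lit 83, nat_lit 22717411521), (nat_lit 107, nat_lit 23791153344)]⟩,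
   ⟨V6_16274960577, [(nat_lit 34, nat_lit 21643931841), (nat_lit 62, nat_lit 22717411521)]⟩],
  [W_21593337920, W_21576560768, W_20552888384, W_20519858240, W_20503081088, W_19495923776, W_18372374720]⟩
theorem C_21643931841 : chkRec R_21643931841 = true := by decide +kernel

noncomputable def R_21643935873 : Rec := ⟨nat_lit 21643935873, nat_lit 51,
  [⟨V6_18422448192, [(nat_lit 91, nat_lit 21643935873), (nat_lit 79, nat_lit 22717677696), (nat_lit 39, nat_lit 22717677633), (nat_lit 13, nat_lit 22717415553), (nat_lit 27, nat_lit 23791419456), (nat_lit 120, nat_lit 23791157376), (nat_lit 126, nat_lit 23791157313), (nat_lit 17, nat_lit 24864899136)]⟩,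
   ⟨V6_17348706369, [(nat_lit 108, nat_lit 21643935873), (nat_lit 13, nat_lit 22717677633), (nat_lit 8, nat_lit 22717415553), (nat_lit 50, nat_lit 23791157313)]⟩],
  [W_21593595968, W_21593337920, W_21576822848, W_21576818816, W_21559787648, W_20519858240, W_20519854208, W_20503081088, W_19496181824, W_19479404672, W_19462889600, W_18422440064]⟩
theorem C_21643935873 : chkRec R_21643935873 = true := by decide +kernel

noncomputable def R_21643935936 : Rec := ⟨nat_lit 21643935936, nat_lit 67,
  [⟨V6_19496189952, [(nat_lit 8, nat_lit 21643935936), (nat_lit 123, nat_lit 22717677696), (nat_lit 73, nat_lit 22717415616), (nat_lit 58, nat_lit 23791419456), (nat_lit 105, nat_lit 23791157376), (nat_lit 30, nat_lit 24865161216), (nat_lit 73, nat_lit 24864899136), (nat_lit 77, nat_lit 25938640896)]⟩,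
   ⟨V6_17331929280, [(nat_lit 45, nat_lit 21643935936), (nat_lit 47, nat_lit 22717415616), (nat_lit 17, nat_lit 22700900544), (nat_lit 56, nat_lit 23774380224)]⟩,
   ⟨V6_16274964672, [(nat_lit 38, nat_lit 21643935936), (nat_lit 17, nat_lit 22717415616)]⟩],
  [W_21593341952, W_21593337920, W_21576826880, W_21576822848, W_21576564800, W_21576560768, W_21559787648, W_20536635392, W_20519858240, W_20503081088, W_19496185856, W_19479408704, W_19429343360]⟩
theorem C_21643935936 : chkRec R_21643935936 = true := by decide +kernel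

noncomputable def R_21643939905 : Rec := ⟨nat_lit 21643939905, nat_lit 23,
  [⟨V6_20503085121, [(nat_lit 87, nat_lit 21643939905), (nat_lit 86, nat_lit 22717677633), (nat_lit 104, nat_lit 22700904513), (nat_lit 103, nat_lit 23774642241), (nat_lit 100, nat_lit 23757869121), (nat_lit 60, nat_lit 24831606849), (nat_lit 4, nat_lit 24814833729), (nat_lit 66, nat_lit 25888571457), (nat_lit 73, nat_lit 25871798337), (nat_lit 91, nat_lit 26945536065)]⟩,
   ⟨V6_19496439873, [(nat_lit 13, nat_lit 21643939905), (nat_lit 3, nat_lit 22717677633), (nat_lit 120, nat_lit 23791415361), (nat_lit 4, nat_lit 24865153089), (nat_lit 28, nat_lit 25938890817)]⟩,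
   ⟨V6_19446124608, [(nat_lit 10, nat_lit 21643939905), (nat_lit 3, nat_lit 22717681728), (nat_lit 93, nat_lit 22700904513), (nat_lit 80, nat_lit 23774646336), (nat_lit 113, nat_lit 23757869121), (nat_lit 35, nat_lit 24831610944), (nat_lit 4, nat_lit 24814833729), (nat_lit 64, nat_lit 25888575552)]⟩],
  [W_21610369088, W_21593595968, W_19496439872, W_18372382784, W_16258453568, W_15201488960]⟩
theorem C_21643939905 : chkRec R_21643939905 = true := by decide +kernel

noncomputable def R_21643939968 : Rec := ⟨nat_lit 21643939968, nat_lit 54,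
  [⟨V6_20519866368, [(nat_lit 68, nat_lit 21643939968), (nat_lit 115, nat_lit 22717681728), (nat_lit 30, nat_lit 22700904576), (nat_lit 20, nat_lit 23791423488), (nat_lit 4, nat_lit 23774646336), (nat_lit 77, nat_lit 23757869184), (nat_lit 67, nat_lit 24848388096), (nat_lit 48, nat_lit 24831610944), (nat_lit 86, nat_lit 24814833792), (nat_lit 36, nat_lit 25905352704), (nat_lit 81, nat_lit 25888575552), (nat_lit 96, nat_lit 26962317312)]⟩,
   ⟨V6_18405937152, [(nat_lit 23, nat_lit 21643939968), (nat_lit 104, nat_lit 22717681728), (nat_lit 55, nat_lit 22700904576), (nat_lit 52, nat_lit 23791423488), (nat_lit 98, nat_lit 23774646336), (nat_lit 60, nat_lit 24848388096)]⟩,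
   ⟨V6_17348972544, [(nat_lit 109, nat_lit 21643939968), (nat_lit 111, nat_lit 22717681728), (nat_lit 91, nat_lit 23791423488)]⟩],
  [W_21593600000, W_21593595968, W_21576826880, W_21576822848, W_21576818816, W_20536635392, W_20519862272, W_20519854208, W_20503085120, W_20503081088, W_19462889600, W_18405924992]⟩
theorem C_21643939968 : chkRec R_21643939968 = true := by decide +kernel

noncomputable def R_21644189826 : Rec := ⟨nat_lit 21644189826, nat_lit 16,
  [⟨V6_18389409921, [(nat_lit 86, nat_lit 21644189826), (nat_lit 32, nat_lit 22717931649), (nat_lit 31, nat_lit 22701154434), (nat_lit 92, nat_lit 23774896257), (nat_lit 70, nat_lit 23758119042), (nat_lit 6, nat_lit 24831860865)]⟩],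
  [W_21576818816, W_20569399424, W_20503339136, W_19495919744, W_17348960384]⟩
theorem C_21644189826 : chkRec R_21644189826 = true := by decide +kernel

noncomputable def R_21644193921 : Rec := ⟨nat_lit 21644193921, nat_lit 64,
  [⟨V6_21577080897, [(nat_lit 39, nat_lit 21644193921), (nat_lit 82, nat_lit 22717935681), (nat_lit 90, nat_lit 22717931649), (nat_lit 123, nat_lit 22701158529), (nat_lit 96, nat_lit 23791673409), (nat_lit 117, nat_lit 23774900289), (nat_lit 103, nat_lit 23774896257), (nat_lit 43, nat_lit 23758123137), (nat_lit 47, nat_lit 24848638017), (nat_lit 115, nat_lit 24831864897), (nat_lit 123, nat_lit 24831860865), (nat_lit 62, nat_lit 24815087745), (nat_lit 96, nat_lit 25905602625), (nat_lit 121, nat_lit 25888829505), (nat_lit 33, nat_lit 25888825473), (nat_lit 8, nat_lit 25872052353), (nat_lit 49, nat_lit 26962567233), (nat_lit 95, nat_lit 26945794113), (nat_lit 102, nat_lit 26945790081), (nat_lit 91, nat_lit 28019531841)]⟩,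
   ⟨V6_18406187136, [(nat_lit 44, nat_lit 21644193921), (nat_lit 85, nat_lit 22717935744), (nat_lit 76, nat_lit 22717931649), (nat_lit 72, nat_lit 22701158529), (nat_lit 45, nat_lit 23791673472), (nat_lit 29, nat_lit 23774900352), (nat_lit 7, nat_lit 23774896257), (nat_lit 19, nat_lit 24848638080)]⟩,
   ⟨V6_18389409921, [(nat_lit 20, nat_lit 21644193921), (nat_lit 105, nat_lit 22717931649), (nat_lit 8, nat_lit 22701158529), (nat_lit 33, nat_lit 23774896257), (nat_lit 119, nat_lit 23758123137), (nat_lit 33, nat_lit 24831860865)]⟩],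
  [W_21626626112, W_21593337920, W_21576560768, W_20569661504, W_20552888384, W_20519858240, W_19496181824, W_19495923776, W_19495919744, W_19479408704, W_19463151680]⟩
theorem C_21644193921 : chkRec R_21644193921 = true := by decide +kernel

noncomputable def R_21644193984 : Rec := ⟨nat_lit 21644193984, nat_lit 58,
  [⟨V6_20569927680, [(nat_lit 93, nat_lit 21644193984), (nat_lit 21, nat_lit 22717935744), (nat_lit 96, nat_lit 22717673664), (nat_lit 59, nat_lit 23791677504), (nat_lit 125, nat_lit 23791415424), (nat_lit 10, nat_lit 23791153344), (nat_lit 35, nat_lit 24865419264), (nat_lit 115, nat_lit 24865157184), (nat_lit 28, nat_lit 24864895104), (nat_lit 60, nat_lit 25938898944), (nat_lit 48, nat_lit 25938636864), (nat_lit 116, nat_lit 27012378624)]⟩,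
   ⟨V6_17348702400, [(nat_lit 12, nat_lit 21644193984), (nat_lit 125, nat_lit 22717673664), (nat_lit 36, nat_lit 23791153344)]⟩],
  [W_21577084928, W_20569665536, W_20536635392, W_20520120320, W_19479408704, W_19463155712, W_19429601408, W_18422182016]⟩
theorem C_21644193984 : chkRec R_21644193984 = true := by decide +kernel

noncomputable def R_21644197953 : Rec := ⟨nat_lit 21644197953, nat_lit 62,
  [⟨V6_18422448192, [(nat_lit 1, nat_lit 21644197953), (nat_lit 87, nat_lit 22717939776), (nat_lit 101, nat_lit 22717677633), (nat_lit 103, nat_lit 23791419456), (nat_lit 68, nat_lit 23791157313), (nat_lit 25, nat_lit 24864899136)]⟩,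
   ⟨V6_18405670977, [(nat_lit 87, nat_lit 21644197953), (nat_lit 34, nat_lit 22717677633), (nat_lit 122, nat_lit 22701162561), (nat_lit 76, nat_lit 23791157313), (nat_lit 101, nat_lit 23774642241), (nat_lit 51, nat_lit 24848121921)]⟩,
   ⟨V6_17348706369, [(nat_lit 52, nat_lit 21644197953), (nat_lit 76, nat_lit 22717677633), (nat_lit 29, nat_lit 23791157313)]⟩],
  [W_21626884160, W_21593854016, W_21593595968, W_21577080896, W_21576822848, W_20520116288, W_20503343168, W_19479924800, W_19463151680, W_19429605440, W_15201747008]⟩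
theorem C_21644197953 : chkRec R_21644197953 = true := by decide +kernel

noncomputable def R_21644198016 : Rec := ⟨nat_lit 21644198016, nat_lit 194,
  [⟨V6_19496706048, [(nat_lit 71, nat_lit 21644198016), (nat_lit 84, nat_lit 22717939776), (nat_lit 74, nat_lit 22717935744), (nat_lit 61, nat_lit 23791681536), (nat_lit 18, nat_lit 23791677504), (nat_lit 118, nat_lit 23791673472), (nat_lit 72, nat_lit 24865419264), (nat_lit 52, nat_lit 24865415232), (nat_lit 107, nat_lit 25939156992)]⟩,
   ⟨V6_19496189952, [(nat_lit 66, nat_lit 21644198016), (nat_lit 56, nat_lit 22717939776), (nat_lit 124, nat_lit 22717677696), (nat_lit 46, nat_lit 23791681536), (nat_lit 2, nat_lit 23791419456), (nat_lit 97, nat_lit 23791157376), (nat_lit 3, nat_lit 24865161216), (nat_lit 42, nat_lit 24864899136), (nat_lit 14, nat_lit 25938640896)]⟩,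
   ⟨V6_18422448192, [(nat_lit 26, nat_lit 21644198016), (nat_lit 109, nat_lit 22717939776), (nat_lit 108, nat_lit 22717677696), (nat_lit 42, nat_lit 23791419456), (nat_lit 102, nat_lit 23791157376), (nat_lit 96, nat_lit 24864899136)]⟩],
  [W_21593341952, W_21577084928, W_21577080896, W_21576826880, W_21576822848, W_21576818816, W_20569923584, W_20553150464, W_20536893440, W_20520120320, W_20520116288, W_20519854208, W_20503347200, W_20503343168, W_20503339136, W_19496185856, W_19479412736, W_19463155712, W_19446382592, W_19446374528, W_18422448128, W_15201747008]⟩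
theorem C_21644198016 : chkRec R_21644198016 = true := by decide +kernel

noncomputable def R_21644202048 : Rec := ⟨nat_lit 21644202048, nat_lit 156,
  [⟨V6_20570443776, [(nat_lit 33, nat_lit 21644202048), (nat_lit 13, nat_lit 22717943808), (nat_lit 8, nat_lit 22717939776), (nat_lit 2, nat_lit 23791681536), (nat_lit 50, nat_lit 23791677504), (nat_lit 98, nat_lit 24865419264), (nat_lit 29, nat_lit 24865415232), (nat_lit 123, nat_lit 25939156992), (nat_lit 120, nat_lit 25939152960), (nat_lit 48, nat_lit 27012894720)]⟩,
   ⟨V6_19496706048, [(nat_lit 115, nat_lit 21644202048), (nat_lit 55, nat_lit 22717943808), (nat_lit 19, nat_lit 22717939776), (nat_lit 87, nat_lit 23791681536), (nat_lit 83, nat_lit 23791677504), (nat_lit 3, nat_lit 24865419264), (nat_lit 47, nat_lit 24865415232), (nat_lit 35, nat_lit 25939156992)]⟩],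
  [W_21577084928, W_21577080896, W_21576822848, W_20536893440, W_20536635392, W_20520120320, W_20520116288, W_20503347200, W_20503343168, W_20503085120, W_19463155712, W_19446382592, W_19429609472, W_19429605440, W_18389159936, W_18372644864, W_18372640832, W_17332195328, W_17298903104, W_16258453568, W_15201747008, W_15201488960, W_15184973888]⟩
theorem C_21644202048 : chkRec R_21644202048 = true := by decide +kernel

noncomputable def R_21644206080 : Rec := ⟨nat_lit 21644206080, nat_lit 83,
  [⟨V6_20503351296, [(nat_lit 2, nat_lit 21644206080), (nat_lit 117, nat_lit 22717943808), (nat_lit 91, nat_lit 22701170688), (nat_lit 40, nat_lit 23774908416), (nat_lit 90, nat_lit 23758135296), (nat_lit 44, nat_lit 24831873024), (nat_lit 99, nat_lit 24815099904), (nat_lit 33, nat_lit 25888837632), (nat_lit 73, nat_lit 25872064512), (nat_lit 75, nat_lit 26945802240)]⟩,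
   ⟨V6_17315684352, [(nat_lit 61, nat_lit 21644206080), (nat_lit 77, nat_lit 22701170688), (nat_lit 74, nat_lit 23758135296)]⟩,
   ⟨V6_16258719744, [(nat_lit 117, nat_lit 21644206080), (nat_lit 5, nat_lit 22701170688)]⟩,
   ⟨V6_15201755136, [(nat_lit 114, nat_lit 21644206080)]⟩],
  [W_21627404288, W_21593858048, W_21577084928, W_20570439680, W_20536893440, W_20520120320, W_20503347200]⟩
theorem C_21644206080 : chkRec R_21644206080 = true := by decide +kernel

noncomputable def R_21644451969 : Rec := ⟨nat_lit 21644451969, nat_lit 45,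
  [⟨V6_19446636609, [(nat_lit 113, nat_lit 21644451969), (nat_lit 46, nat_lit 22718193729), (nat_lit 69, nat_lit 22701416577), (nat_lit 83, nat_lit 23775158337), (nat_lit 10, nat_lit 23758381185), (nat_lit 68, nat_lit 24832122945), (nat_lit 28, nat_lit 24815345793), (nat_lit 48, nat_lit 25889087553)]⟩,
   ⟨V6_18389672064, [(nat_lit 25, nat_lit 21644451969), (nat_lit 119, nat_lit 22718193792), (nat_lit 39, nat_lit 22701416577), (nat_lit 68, nat_lit 23775158400), (nat_lit 33, nat_lit 23758381185), (nat_lit 88, nat_lit 24832123008)]⟩,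
   ⟨V6_17315930241, [(nat_lit 35, nat_lit 21644451969), (nat_lit 65, nat_lit 22701416577), (nat_lit 107, nat_lit 23758381185)]⟩],
  [W_21643141184, W_20569661504, W_20569399424, W_19496181824, W_19495919744, W_18406187072]⟩
theorem C_21644451969 : chkRec R_21644451969 = true := by decide +kernel

noncomputable def R_21644456001 : Rec := ⟨nat_lit 21644456001, nat_lit 66,
  [⟨V6_19480186944, [(nat_lit 112, nat_lit 21644456001), (nat_lit 10, nat_lit 22718197824), (nat_lit 83, nat_lit 22718193729), (nat_lit 49, nat_lit 22701420609), (nat_lit 20, nat_lit 23791935552), (nat_lit 99, nat_lit 23791931457), (nat_lit 13, nat_lit 23775162432), (nat_lit 96, nat_lit 23775158337), (nat_lit 124, nat_lit 24865673280), (nat_lit 93, nat_lit 24848900160), (nat_lit 82, nat_lit 24848896065), (nat_lit 9, nat_lit 25922637888)]⟩,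
   ⟨V6_18423222336, [(nat_lit 122, nat_lit 21644456001), (nat_lit 91, nat_lit 22718197824), (nat_lit 122, nat_lit 22718193729), (nat_lit 114, nat_lit 23791935552), (nat_lit 72, nat_lit 23791931457), (nat_lit 109, nat_lit 24865673280)]⟩],
  [W_21626884160, W_21609852992, W_21593595968, W_21593337920, W_20569661504, W_20552888384, W_20536373312, W_20520116288, W_20519858240, W_19495923776, W_19479408704, W_19463151680]⟩
theorem C_21644456001 : chkRec R_21644456001 = true := by decide +kernel

noncomputable def R_21644456064 : Rec := ⟨nat_lit 21644456064, nat_lit 169,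
  [⟨V6_19496706048, [(nat_lit 58, nat_lit 21644456064), (nat_lit 124, nat_lit 22718197824), (nat_lit 91, nat_lit 22718193792), (nat_lit 106, nat_lit 22717935744), (nat_lit 98, nat_lit 23791939584), (nat_lit 20, nat_lit 23791935552), (nat_lit 85, nat_lit 23791677504), (nat_lit 30, nat_lit 23791673472), (nat_lit 27, nat_lit 24865677312), (nat_lit 25, nat_lit 24865419264), (nat_lit 80, nat_lit 24865415232), (nat_lit 19, nat_lit 25939156992)]⟩,
   ⟨V6_18423226368, [(nat_lit 50, nat_lit 21644456064), (nat_lit 36, nat_lit 22718197824), (nat_lit 40, nat_lit 22718193792), (nat_lit 117, nat_lit 23791939584), (nat_lit 13, nat_lit 23791935552), (nat_lit 115, nat_lit 24865677312)]⟩],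
  [W_20569923584, W_20569665536, W_20553150464, W_20536893440, W_20520378368, W_20520120320, W_20520116288, W_20519854208, W_19496185856, W_19463413760, W_19463155712, W_18389676032, W_18372898880, W_16242192512, W_15202001024, W_14128263296]⟩
theorem C_21644456064 : chkRec R_21644456064 = true := by decide +kernel

noncomputable def R_21644460096 : Rec := ⟨nat_lit 21644460096, nat_lit 243,
  [⟨V6_20570443776, [(nat_lit 39, nat_lit 21644460096), (nat_lit 15, nat_lit 22718201856), (nat_lit 64, nat_lit 22718197824), (nat_lit 100, nat_lit 22717939776), (nat_lit 23, nat_lit 23791939584), (nat_lit 10, nat_lit 23791935552), (nat_lit 69, nat_lit 23791681536), (nat_lit 111, nat_lit 23791677504), (nat_lit 73, nat_lit 24865677312), (nat_lit 27, nat_lit 24865673280), (nat_lit 101, nat_lit 24865419264), (nat_lit 90, nat_lit 24865415232), (nat_lit 85, nat_lit 25939415040), (nat_lit 105, nat_lit 25939156992), (nat_lit 54, nat_lit 25939152960), (nat_lit 84, nat_lit 27012894720)]⟩,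
   ⟨V6_19496964096, [(nat_lit 65, nat_lit 21644460096), (nat_lit 85, nat_lit 22718201856), (nat_lit 23, nat_lit 22718197824), (nat_lit 92, nat_lit 23791939584), (nat_lit 10, nat_lit 23791935552), (nat_lit 45, nat_lit 24865677312), (nat_lit 13, nat_lit 24865673280), (nat_lit 78, nat_lit 25939415040)]⟩,
   ⟨V6_19496189952, [(nat_lit 97, nat_lit 21644460096), (nat_lit 68, nat_lit 22718201856), (nat_lit 116, nat_lit 22717939776), (nat_lit 119, nat_lit 23791681536), (nat_lit 100, nat_lit 23791419456), (nat_lit 55, nat_lit 24865161216), (nat_lit 104, nat_lit 24864899136), (nat_lit 24, nat_lit 25938640896)]⟩,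
   ⟨V6_19480186944, [(nat_lit 83, nat_lit 21644460096), (nat_lit 95, nat_lit 22718197824), (nat_lit 93, nat_lit 22701424704), (nat_lit 103, nat_lit 23791935552), (nat_lit 94, nat_lit 23775162432), (nat_lit 27, nat_lit 24865673280), (nat_lit 69, nat_lit 24848900160), (nat_lit 89, nat_lit 25922637888)]⟩,
   ⟨V6_18423222336, [(nat_lit 79, nat_lit 21644460096), (nat_lit 39, nat_lit 22718197824), (nat_lit 41, nat_lit 23791935552), (nat_lit 35, nat_lit 24865673280)]⟩],
  [W_20569923584, W_20553150464, W_20536893440, W_20520120320, W_20520116288, W_19479412736, W_19463413760, W_19463155712, W_19446636608, W_19446382592, W_18422448128, W_18372898880, W_18372640832, W_17348706368, W_17315938304, W_16242196544, W_15202009088, W_15201747008, W_15185231936, W_14128267328]⟩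
theorem C_21644460096 : chkRec R_21644460096 = true := by decide +kernel

noncomputable def R_21644464128 : Rec := ⟨nat_lit 21644464128, nat_lit 158,
  [⟨V6_19496964096, [(nat_lit 38, nat_lit 21644464128), (nat_lit 126, nat_lit 22718201856), (nat_lit 87, nat_lit 23791939584), (nat_lit 41, nat_lit 24865677312), (nat_lit 33, nat_lit 25939415040)]⟩,
   ⟨V6_19446644736, [(nat_lit 43, nat_lit 21644464128), (nat_lit 7, nat_lit 22718201856), (nat_lit 89, nat_lit 22701428736), (nat_lit 61, nat_lit 23775166464), (nat_lit 109, nat_lit 23758393344), (nat_lit 100, nat_lit 24832131072), (nat_lit 100, nat_lit 24815357952), (nat_lit 61, nat_lit 25889095680)]⟩,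
   ⟨V6_18423226368, [(nat_lit 26, nat_lit 21644464128), (nat_lit 32, nat_lit 22718201856), (nat_lit 76, nat_lit 23791939584), (nat_lit 44, nat_lit 24865677312)]⟩],
  [W_21627404288, W_21610889216, W_21594116096, W_20537151488, W_20536893440, W_20536635392, W_20520120320, W_19463155712, W_19446382592, W_19446124544, W_18389159936, W_17315938304, W_15202009088]⟩
theorem C_21644464128 : chkRec R_21644464128 = true := by decide +kernel

noncomputable def R_21644714049 : Rec := ⟨nat_lit 21644714049, nat_lit 44,
  [⟨V6_21643399233, [(nat_lit 37, nat_lit 21644714049), (nat_lit 13, nat_lit 22718451777), (nat_lit 99, nat_lit 22718193729), (nat_lit 28, nat_lit 23791931457), (nat_lit 93, nat_lit 23791673409), (nat_lit 64, nat_lit 24865411137), (nat_lit 13, nat_lit 24865153089), (nat_lit 104, nat_lit 25938890817), (nat_lit 62, nat_lit 25938632769), (nat_lit 38, nat_lit 27012370497), (nat_lit 110, nat_lit 27012112449), (nat_lit 40, nat_lit 28085850177)]⟩,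
   ⟨V6_17349742656, [(nat_lit 18, nat_lit 21644714049), (nat_lit 92, nat_lit 22718455872), (nat_lit 120, nat_lit 22718451777), (nat_lit 55, nat_lit 23792193600)]⟩,
   ⟨V6_16276004928, [(nat_lit 37, nat_lit 21644714049), (nat_lit 43, nat_lit 22718455872)]⟩],
  [W_21643399232, W_21643141184, W_21626884160, W_21626626112, W_20569661504, W_20536889408, W_19479924800, W_19463409728, W_18389930048]⟩
theorem C_21644714049 : chkRec R_21644714049 = true := by decide +kernel

noncomputable def R_21644714112 : Rec := ⟨nat_lit 21644714112, nat_lit 111,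
  [⟨V6_18406711296, [(nat_lit 37, nat_lit 21644714112), (nat_lit 90, nat_lit 22718455872), (nat_lit 94, nat_lit 22701678720), (nat_lit 45, nat_lit 23792197632), (nat_lit 119, nat_lit 23775420480), (nat_lit 91, nat_lit 24849162240)]⟩,
   ⟨V6_17349746688, [(nat_lit 52, nat_lit 21644714112), (nat_lit 18, nat_lit 22718455872), (nat_lit 104, nat_lit 23792197632)]⟩],
  [W_21643403264, W_21643141184, W_21626626112, W_20569923584, W_20569661504, W_20569399424, W_20536893440, W_19495919744, W_19463413760, W_19462889600, W_16242450560]⟩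
theorem C_21644714112 : chkRec R_21644714112 = true := by decide +kernel

noncomputable def R_21644718144 : Rec := ⟨nat_lit 21644718144, nat_lit 209,
  [⟨V6_19496706048, [(nat_lit 57, nat_lit 21644718144), (nat_lit 20, nat_lit 22718459904), (nat_lit 11, nat_lit 22718455872), (nat_lit 37, nat_lit 22718197824), (nat_lit 1, nat_lit 23792197632), (nat_lit 85, nat_lit 23791939584), (nat_lit 112, nat_lit 23791935552), (nat_lit 95, nat_lit 23791677504), (nat_lit 8, nat_lit 24865677312), (nat_lit 125, nat_lit 24865419264), (nat_lit 65, nat_lit 24865415232), (nat_lit 77, nat_lit 25939156992)]⟩,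
   ⟨V6_18423484416, [(nat_lit 113, nat_lit 21644718144), (nat_lit 18, nat_lit 22718459904), (nat_lit 2, nat_lit 22718455872), (nat_lit 47, nat_lit 23792197632), (nat_lit 120, nat_lit 23792193600), (nat_lit 77, nat_lit 24865935360)]⟩,
   ⟨V6_18406707264, [(nat_lit 84, nat_lit 21644718144), (nat_lit 119, nat_lit 22718455872), (nat_lit 115, nat_lit 22701682752), (nat_lit 93, nat_lit 23792193600), (nat_lit 32, nat_lit 23775420480), (nat_lit 113, nat_lit 24849158208)]⟩,
   ⟨V6_17349742656, [(nat_lit 109, nat_lit 21644718144), (nat_lit 100, nat_lit 22718455872), (nat_lit 123, nat_lit 23792193600)]⟩],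
  [W_20569923584, W_20569665536, W_20553150464, W_20537151488, W_20536893440, W_19496185856, W_19495923776, W_19463671808, W_19463413760, W_19463155712, W_18389934080, W_18389676032, W_17316196352, W_16242454592, W_15185489984, W_14128525376]⟩
theorem C_21644718144 : chkRec R_21644718144 = true := by decide +kernel

noncomputable def R_21644722176 : Rec := ⟨nat_lit 21644722176, nat_lit 208,
  [⟨V6_20553154560, [(nat_lit 68, nat_lit 21644722176), (nat_lit 15, nat_lit 22718201856), (nat_lit 23, nat_lit 22701686784), (nat_lit 15, nat_lit 23791681536), (nat_lit 118, nat_lit 23775166464), (nat_lit 105, nat_lit 24865161216), (nat_lit 92, nat_lit 24848646144), (nat_lit 37, nat_lit 25938640896), (nat_lit 57, nat_lit 25922125824), (nat_lit 98, nat_lit 26995605504)]⟩,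
   ⟨V6_19496189952, [(nat_lit 111, nat_lit 21644722176), (nat_lit 102, nat_lit 22718201856), (nat_lit 90, nat_lit 23791681536), (nat_lit 100, nat_lit 24865161216), (nat_lit 85, nat_lit 25938640896)]⟩,
   ⟨V6_18423484416, [(nat_lit 68, nat_lit 21644722176), (nat_lit 40, nat_lit 22718459904), (nat_lit 16, nat_lit 23792197632), (nat_lit 88, nat_lit 24865935360)]⟩,
   ⟨V6_17349746688, [(nat_lit 36, nat_lit 21644722176), (nat_lit 73, nat_lit 22718459904), (nat_lit 75, nat_lit 23792197632)]⟩],
  [W_21627404288, W_21610889216, W_20569923584, W_20537409536, W_20536893440, W_19480444928, W_19463671808, W_19463413760, W_19463155712, W_18389934080, W_18389676032, W_17315938304, W_16242458624, W_15202009088]⟩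
theorem C_21644722176 : chkRec R_21644722176 = true := by decide +kernel

noncomputable def R_21644972097 : Rec := ⟨nat_lit 21644972097, nat_lit 12,
  [⟨V6_21643399233, [(nat_lit 83, nat_lit 21644972097), (nat_lit 100, nat_lit 22718451777), (nat_lit 63, nat_lit 23791931457), (nat_lit 80, nat_lit 24865411137), (nat_lit 78, nat_lit 25938890817), (nat_lit 106, nat_lit 27012370497), (nat_lit 10, nat_lit 28085850177)]⟩,
   ⟨V6_16276262976, [(nat_lit 15, nat_lit 21644972097), (nat_lit 14, nat_lit 22718713920)]⟩],
  [W_21626884160, W_19479924800]⟩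
theorem C_21644972097 : chkRec R_21644972097 = true := by decide +kernel

noncomputable def R_21644976192 : Rec := ⟨nat_lit 21644976192, nat_lit 121,
  [⟨V6_17349746688, [(nat_lit 103, nat_lit 21644976192), (nat_lit 106, nat_lit 22718717952), (nat_lit 46, nat_lit 22718455872), (nat_lit 15, nat_lit 23792197632)]⟩,
   ⟨V6_17349742656, [(nat_lit 77, nat_lit 21644976192), (nat_lit 67, nat_lit 22718713920), (nat_lit 111, nat_lit 22718455872), (nat_lit 70, nat_lit 23792193600)]⟩,
   ⟨V6_16276262976, [(nat_lit 63, nat_lit 21644976192), (nat_lit 35, nat_lit 22718713920)]⟩],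
  [W_21643661312, W_21643403264, W_21643141184, W_21626884160, W_21626626112, W_20570181632, W_20569923584, W_20569661504, W_19480186880, W_16259485760]⟩
theorem C_21644976192 : chkRec R_21644976192 = true := by decide +kernel

noncomputable def R_21644980224 : Rec := ⟨nat_lit 21644980224, nat_lit 139,
  [⟨V6_19480707072, [(nat_lit 109, nat_lit 21644980224), (nat_lit 23, nat_lit 22718717952), (nat_lit 18, nat_lit 22701944832), (nat_lit 97, nat_lit 23792455680), (nat_lit 118, nat_lit 23775682560), (nat_lit 32, nat_lit 24866193408), (nat_lit 48, nat_lit 24849420288), (nat_lit 94, nat_lit 25923158016)]⟩,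
   ⟨V6_18423742464, [(nat_lit 52, nat_lit 21644980224), (nat_lit 37, nat_lit 22718717952), (nat_lit 39, nat_lit 23792455680), (nat_lit 50, nat_lit 24866193408)]⟩,
   ⟨V6_17349746688, [(nat_lit 55, nat_lit 21644980224), (nat_lit 117, nat_lit 22718717952), (nat_lit 84, nat_lit 22718459904), (nat_lit 71, nat_lit 23792197632)]⟩,
   ⟨V6_16276267008, [(nat_lit 71, nat_lit 21644980224), (nat_lit 40, nat_lit 22718717952)]⟩],
  [W_21643919360, W_21643403264, W_21627404288, W_21626630144, W_20569923584, W_20569665536, W_20553150464, W_19496185856, W_19480186880, W_15185752064]⟩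
theorem C_21644980224 : chkRec R_21644980224 = true := by decide +kernel

noncomputable def R_21645234240 : Rec := ⟨nat_lit 21645234240, nat_lit 27,
  [⟨V6_17349742656, [(nat_lit 23, nat_lit 21645234240), (nat_lit 1, nat_lit 22718713920), (nat_lit 104, nat_lit 23792193600)]⟩],
  [W_21643399232, W_20570181632]⟩
theorem C_21645234240 : chkRec R_21645234240 = true := by decide +kernel

noncomputable def R_21645238272 : Rec := ⟨nat_lit 21645238272, nat_lit 75,
  [⟨V6_17349746688, [(nat_lit 96, nat_lit 21645238272), (nat_lit 87, nat_lit 22718717952), (nat_lit 31, nat_lit 23792197632)]⟩],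
  [W_21643919360, W_20570181632, W_20569923584, W_16276520960]⟩
theorem C_21645238272 : chkRec R_21645238272 = true := by decide +kernel

noncomputable def R_21660446850 : Rec := ⟨nat_lit 21660446850, nat_lit 9,
  [⟨V6_21593075841, [(nat_lit 16, nat_lit 21660446850), (nat_lit 13, nat_lit 22734188673), (nat_lit 27, nat_lit 22733926530), (nat_lit 5, nat_lit 22717411458), (nat_lit 4, nat_lit 23807668353), (nat_lit 3, nat_lit 23791153281), (nat_lit 63, nat_lit 23790891138), (nat_lit 120, nat_lit 23774376066), (nat_lit 87, nat_lit 24864632961), (nat_lit 13, nat_lit 24848117889), (nat_lit 83, nat_lit 24847855746), (nat_lit 49, nat_lit 24831340674), (nat_lit 70, nat_lit 25921597569), (nat_lit 49, nat_lit 25905082497), (nat_lit 12, nat_lit 25904820354), (nat_lit 105, nat_lit 25888305282), (nat_lit 76, nat_lit 26978562177), (nat_lit 6, nat_lit 26962047105), (nat_lit 54, nat_lit 26961784962), (nat_lit 103, nat_lit 28035526785)]⟩,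
   ⟨V6_21576560769, [(nat_lit 62, nat_lit 21660446850), (nat_lit 123, nat_lit 22734188673), (nat_lit 18, nat_lit 22717411458), (nat_lit 12, nat_lit 23791153281), (nat_lit 123, nat_lit 23774376066), (nat_lit 103, nat_lit 24848117889), (nat_lit 36, nat_lit 24831340674), (nat_lit 40, nat_lit 25905082497), (nat_lit 56, nat_lit 25888305282), (nat_lit 60, nat_lit 26962047105), (nat_lit 58, nat_lit 26945269890), (nat_lit 89, nat_lit 28019011713)]⟩,
   ⟨V6_21576556674, [(nat_lit 54, nat_lit 21660446850), (nat_lit 65, nat_lit 22734184578), (nat_lit 111, nat_lit 22717411458), (nat_lit 54, nat_lit 23791149186), (nat_lit 42, nat_lit 23774376066), (nat_lit 95, nat_lit 24848113794), (nat_lit 15, nat_lit 24831340674), (nat_lit 84, nat_lit 25905078402), (nat_lit 5, nat_lit 25888305282), (nat_lit 18, nat_lit 26962043010), (nat_lit 61, nat_lit 26945269890), (nat_lit 125, nat_lit 28019007618)]⟩,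
   ⟨V6_20536111233, [(nat_lit 31, nat_lit 21660446850), (nat_lit 103, nat_lit 22734188673), (nat_lit 31, nat_lit 22733926530), (nat_lit 75, nat_lit 22717411458), (nat_lit 102, nat_lit 23807668353), (nat_lit 92, nat_lit 23791153281), (nat_lit 52, nat_lit 23790891138), (nat_lit 98, nat_lit 23774376066), (nat_lit 10, nat_lit 24864632961), (nat_lit 71, nat_lit 24848117889), (nat_lit 64, nat_lit 24847855746), (nat_lit 56, nat_lit 24831340674), (nat_lit 101, nat_lit 25921597569), (nat_lit 27, nat_lit 25905082497), (nat_lit 119, nat_lit 25904820354), (nat_lit 30, nat_lit 26978562177)]⟩,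
   ⟨V6_16291475586, [(nat_lit 62, nat_lit 21660446850), (nat_lit 118, nat_lit 22733926530)]⟩],
  [W_19495919744, W_17365475456, W_16291737728]⟩
theorem C_21660446850 : chkRec R_21660446850 = true := by decide +kernel

noncomputable def R_21660446913 : Rec := ⟨nat_lit 21660446913, nat_lit 10,
  [⟨V6_17348702400, [(nat_lit 125, nat_lit 21660446913), (nat_lit 16, nat_lit 22734188736), (nat_lit 49, nat_lit 22717411521), (nat_lit 43, nat_lit 23791153344)]⟩],
  [W_21593337920, W_21576560768, W_20552888384, W_20536373312]⟩
theorem C_21660446913 : chkRec R_21660446913 = true := by decide +kernel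

noncomputable def R_21660450945 : Rec := ⟨nat_lit 21660450945, nat_lit 32,
  [⟨V6_21576564801, [(nat_lit 47, nat_lit 21660450945), (nat_lit 52, nat_lit 22734192705), (nat_lit 113, nat_lit 22717415553), (nat_lit 120, nat_lit 23791157313), (nat_lit 28, nat_lit 23774380161), (nat_lit 12, nat_lit 24848121921), (nat_lit 38, nat_lit 24831344769), (nat_lit 17, nat_lit 25905086529), (nat_lit 57, nat_lit 25888309377), (nat_lit 79, nat_lit 26962051137), (nat_lit 2, nat_lit 26945273985), (nat_lit 122, nat_lit 28019015745)]⟩,
   ⟨V6_17348706369, [(nat_lit 76, nat_lit 21660450945), (nat_lit 78, nat_lit 22734192705), (nat_lit 59, nat_lit 22717415553), (nat_lit 47, nat_lit 23791157313)]⟩,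
   ⟨V6_16291741824, [(nat_lit 119, nat_lit 21660450945), (nat_lit 1, nat_lit 22734192768)]⟩],
  [W_21610111040, W_21593337920, W_21576564800, W_21559787648, W_20536373312, W_20536369280, W_20519596160, W_19479404672]⟩
theorem C_21660450945 : chkRec R_21660450945 = true := by decide +kernel

noncomputable def R_21660451008 : Rec := ⟨nat_lit 21660451008, nat_lit 41,
  [⟨V6_18439225344, [(nat_lit 24, nat_lit 21660451008), (nat_lit 45, nat_lit 22734192768), (nat_lit 7, nat_lit 23807934528), (nat_lit 118, nat_lit 24881676288)]⟩,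
   ⟨V6_16274964672, [(nat_lit 61, nat_lit 21660451008), (nat_lit 30, nat_lit 22717415616)]⟩],
  [W_21593341952, W_21593337920, W_21576564800, W_21576560768, W_21559787648, W_20553150464, W_20519596160, W_19479408704]⟩
theorem C_21660451008 : chkRec R_21660451008 = true := by decide +kernel

noncomputable def R_21660704898 : Rec := ⟨nat_lit 21660704898, nat_lit 12,
  [⟨V6_21576818817, [(nat_lit 124, nat_lit 21660704898), (nat_lit 119, nat_lit 22734446721), (nat_lit 36, nat_lit 22717669506), (nat_lit 24, nat_lit 23791411329), (nat_lit 119, nat_lit 23774634114), (nat_lit 79, nat_lit 24848375937), (nat_lit 72, nat_lit 24831598722), (nat_lit 80, nat_lit 25905340545), (nat_lit 112, nat_lit 25888563330), (nat_lit 120, nat_lit 26962305153), (nat_lit 116, nat_lit 26945527938), (nat_lit 51, nat_lit 28019269761)]⟩,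
   ⟨V6_16291995777, [(nat_lit 123, nat_lit 21660704898), (nat_lit 3, nat_lit 22734446721)]⟩],
  [W_21609848960, W_21576818816, W_20569399424, W_20536369280]⟩
theorem C_21660704898 : chkRec R_21660704898 = true := by decide +kernel

noncomputable def R_21660708993 : Rec := ⟨nat_lit 21660708993, nat_lit 51,
  [⟨V6_18439217217, [(nat_lit 52, nat_lit 21660708993), (nat_lit 80, nat_lit 22734450753), (nat_lit 97, nat_lit 22734446721), (nat_lit 51, nat_lit 22734188673), (nat_lit 85, nat_lit 23808188481), (nat_lit 28, nat_lit 23807930433), (nat_lit 42, nat_lit 23807926401), (nat_lit 93, nat_lit 24881668161)]⟩,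
   ⟨V6_17365737600, [(nat_lit 18, nat_lit 21660708993), (nat_lit 40, nat_lit 22734450816), (nat_lit 1, nat_lit 22734446721), (nat_lit 40, nat_lit 23808188544)]⟩],
  [W_21626626112, W_21609848960, W_21593595968, W_21593337920, W_21593333888, W_21576818816, W_21576560768, W_20552888384, W_20536373312, W_20519858240, W_20519596160, W_20503081088, W_19495923776, W_19479408704, W_19479146624]⟩
theorem C_21660708993 : chkRec R_21660708993 = true := by decide +kernel

noncomputable def R_21660709056 : Rec := ⟨nat_lit 21660709056, nat_lit 48,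
  [⟨V6_19512963072, [(nat_lit 15, nat_lit 21660709056), (nat_lit 56, nat_lit 22734450816), (nat_lit 121, nat_lit 22734188736), (nat_lit 77, nat_lit 23808192576), (nat_lit 54, nat_lit 23807930496), (nat_lit 88, nat_lit 24881934336), (nat_lit 121, nat_lit 24881672256), (nat_lit 65, nat_lit 25955414016)]⟩],
  [W_21593337920, W_21576822848, W_21576560768, W_20569665536, W_20553150464, W_20536635392, W_20519858240, W_20503081088, W_18372374720, W_14144516288]⟩
theorem C_21660709056 : chkRec R_21660709056 = true := by decide +kernel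

noncomputable def R_21660713025 : Rec := ⟨nat_lit 21660713025, nat_lit 52,
  [⟨V6_19512954945, [(nat_lit 41, nat_lit 21660713025), (nat_lit 116, nat_lit 22734450753), (nat_lit 31, nat_lit 22734192705), (nat_lit 97, nat_lit 23808188481), (nat_lit 87, nat_lit 23807930433), (nat_lit 44, nat_lit 24881926209), (nat_lit 62, nat_lit 24881668161), (nat_lit 65, nat_lit 25955405889)]⟩,
   ⟨V6_17365483584, [(nat_lit 111, nat_lit 21660713025), (nat_lit 40, nat_lit 22734454848), (nat_lit 114, nat_lit 22734192705), (nat_lit 98, nat_lit 23807934528)]⟩,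
   ⟨V6_16291741761, [(nat_lit 30, nat_lit 21660713025), (nat_lit 107, nat_lit 22734192705)]⟩],
  [W_21626884160, W_21593595968, W_21593337920, W_21576822848, W_21576564800, W_20536373312, W_20519858240, W_20519600192, W_20503085120, W_19512954944, W_19496439872]⟩
theorem C_21660713025 : chkRec R_21660713025 = true := by decide +kernel

noncomputable def R_21660713088 : Rec := ⟨nat_lit 21660713088, nat_lit 136,
  [⟨V6_19513221120, [(nat_lit 20, nat_lit 21660713088), (nat_lit 97, nat_lit 22734454848), (nat_lit 28, nat_lit 22734450816), (nat_lit 78, nat_lit 23808196608), (nat_lit 48, nat_lit 23808192576), (nat_lit 103, nat_lit 23808188544), (nat_lit 65, nat_lit 24881934336), (nat_lit 54, nat_lit 24881930304), (nat_lit 116, nat_lit 25955672064)]⟩,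
   ⟨V6_18439225344, [(nat_lit 46, nat_lit 21660713088), (nat_lit 117, nat_lit 22734454848), (nat_lit 12, nat_lit 22734192768), (nat_lit 7, nat_lit 23808196608), (nat_lit 116, nat_lit 23807934528), (nat_lit 13, nat_lit 24881676288)]⟩,
   ⟨V6_16291741824, [(nat_lit 38, nat_lit 21660713088), (nat_lit 17, nat_lit 22734192768)]⟩],
  [W_21593595968, W_21593341952, W_21593337920, W_21593333888, W_21576826880, W_21576822848, W_21576818816, W_21576564800, W_21576560768, W_21559787648, W_20569923584, W_20553150464, W_20536635392, W_20519854208, W_20503085120, W_20503081088, W_19496185856, W_19479412736, W_19462889600, W_19429343360, W_18422448128]⟩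
theorem C_21660713088 : chkRec R_21660713088 = true := by decide +kernel

noncomputable def R_21660717120 : Rec := ⟨nat_lit 21660717120, nat_lit 82,
  [⟨V6_19513221120, [(nat_lit 39, nat_lit 21660717120), (nat_lit 107, nat_lit 22734458880), (nat_lit 97, nat_lit 22734454848), (nat_lit 3, nat_lit 23808196608), (nat_lit 16, nat_lit 23808192576), (nat_lit 22, nat_lit 24881934336), (nat_lit 6, nat_lit 24881930304), (nat_lit 45, nat_lit 25955672064)]⟩],
  [W_21610369088, W_21593600000, W_21593595968, W_21576826880, W_21576822848, W_20536635392, W_20519862272, W_20519858240, W_20503085120, W_19446124544, W_18389159936, W_18372382784, W_17332195328, W_16275230720, W_16258453568, W_15218266112, W_15218262080, W_15201488960]⟩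
theorem C_21660717120 : chkRec R_21660717120 = true := by decide +kernel

noncomputable def R_21660967041 : Rec := ⟨nat_lit 21660967041, nat_lit 51,
  [⟨V6_21577080897, [(nat_lit 17, nat_lit 21660967041), (nat_lit 8, nat_lit 22734708801), (nat_lit 76, nat_lit 22717931649), (nat_lit 38, nat_lit 23791673409), (nat_lit 102, nat_lit 23774896257), (nat_lit 80, nat_lit 24848638017), (nat_lit 84, nat_lit 24831860865), (nat_lit 71, nat_lit 25905602625), (nat_lit 126, nat_lit 25888825473), (nat_lit 61, nat_lit 26962567233), (nat_lit 98, nat_lit 26945790081), (nat_lit 9, nat_lit 28019531841)]⟩,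
   ⟨V6_17365737600, [(nat_lit 50, nat_lit 21660967041), (nat_lit 92, nat_lit 22734708864), (nat_lit 35, nat_lit 22734446721), (nat_lit 88, nat_lit 23808188544)]⟩,
   ⟨V6_16291995777, [(nat_lit 20, nat_lit 21660967041), (nat_lit 2, nat_lit 22734446721)]⟩],
  [W_21643141184, W_21626626112, W_21609848960, W_21593595968, W_21577080896, W_21576818816, W_20586176576, W_20569399424, W_20520116288, W_20503339136, W_19463151680, W_19446374528]⟩
theorem C_21660967041 : chkRec R_21660967041 = true := by decide +kernel

noncomputable def R_21660971073 : Rec := ⟨nat_lit 21660971073, nat_lit 70,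
  [⟨V6_21660176448, [(nat_lit 59, nat_lit 21660971073), (nat_lit 122, nat_lit 22734712896), (nat_lit 107, nat_lit 22734708801), (nat_lit 70, nat_lit 22734450753), (nat_lit 108, nat_lit 23808450624), (nat_lit 109, nat_lit 23808446529), (nat_lit 21, nat_lit 23808192576), (nat_lit 12, nat_lit 23808188481), (nat_lit 34, nat_lit 23807930433), (nat_lit 103, nat_lit 24882188352), (nat_lit 14, nat_lit 24881930304), (nat_lit 43, nat_lit 24881926209), (nat_lit 12, nat_lit 24881672256), (nat_lit 12, nat_lit 24881668161), (nat_lit 122, nat_lit 24881410113), (nat_lit 112, nat_lit 25955668032), (nat_lit 9, nat_lit 25955409984), (nat_lit 12, nat_lit 25955405889), (nat_lit 27, nat_lit 25955151936), (nat_lit 35, nat_lit 25955147841), (nat_lit 26, nat_lit 27029147712), (nat_lit 27, nat_lit 27028889664), (nat_lit 87, nat_lit 27028885569), (nat_lit 56, nat_lit 28102627392)]⟩,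
   ⟨V6_21643399233, [(nat_lit 26, nat_lit 21660971073), (nat_lit 7, nat_lit 22734708801), (nat_lit 95, nat_lit 22734450753), (nat_lit 96, nat_lit 22717935681), (nat_lit 88, nat_lit 23808446529), (nat_lit 11, nat_lit 23808188481), (nat_lit 21, nat_lit 23807930433), (nat_lit 64, nat_lit 23791673409), (nat_lit 104, nat_lit 23791415361), (nat_lit 11, nat_lit 24881926209), (nat_lit 40, nat_lit 24881668161), (nat_lit 92, nat_lit 24881410113), (nat_lit 65, nat_lit 24865411137), (nat_lit 105, nat_lit 24865153089), (nat_lit 99, nat_lit 24864895041), (nat_lit 85, nat_lit 25955405889), (nat_lit 24, nat_lit 25955147841), (nat_lit 90, nat_lit 25938890817), (nat_lit 3, nat_lit 25938632769), (nat_lit 38, nat_lit 25938374721), (nat_lit 105, nat_lit 27028885569), (nat_lit 10, nat_lit 27012370497), (nat_lit 49, nat_lit 27012112449), (nat_lit 25, nat_lit 28085850177)]⟩,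
   ⟨V6_20586696768, [(nat_lit 74, nat_lit 21660971073), (nat_lit 24, nat_lit 22734712896), (nat_lit 4, nat_lit 22734708801), (nat_lit 99, nat_lit 22734450753), (nat_lit 92, nat_lit 23808450624), (nat_lit 114, nat_lit 23808446529), (nat_lit 64, nat_lit 23808192576), (nat_lit 62, nat_lit 23808188481), (nat_lit 19, nat_lit 23807930433), (nat_lit 124, nat_lit 24882188352), (nat_lit 98, nat_lit 24881930304), (nat_lit 15, nat_lit 24881926209), (nat_lit 125, nat_lit 24881672256), (nat_lit 74, nat_lit 24881668161), (nat_lit 104, nat_lit 25955668032), (nat_lit 67, nat_lit 25955409984), (nat_lit 15, nat_lit 25955405889), (nat_lit 85, nat_lit 27029147712)]⟩,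
   ⟨V6_19512954945, [(nat_lit 3, nat_lit 21660971073), (nat_lit 70, nat_lit 22734708801), (nat_lit 15, nat_lit 22734450753), (nat_lit 80, nat_lit 23808446529), (nat_lit 77, nat_lit 23808188481), (nat_lit 106, nat_lit 23807930433), (nat_lit 7, nat_lit 24881926209), (nat_lit 47, nat_lit 24881668161), (nat_lit 100, nat_lit 25955405889)]⟩,
   ⟨V6_18439217217, [(nat_lit 19, nat_lit 21660971073), (nat_lit 80, nat_lit 22734708801), (nat_lit 72, nat_lit 22734450753), (nat_lit 56, nat_lit 23808188481), (nat_lit 5, nat_lit 23807930433), (nat_lit 52, nat_lit 24881668161)]⟩],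
  [W_21609852992, W_21593854016, W_21593337920, W_21577080896, W_21576822848, W_20536373312, W_20520116288, W_20519858240, W_20503343168, W_19512696896, W_19479408704, W_19463151680, W_19446378560, W_18438959168]⟩
theorem C_21660971073 : chkRec R_21660971073 = true := by decide +kernel

noncomputable def R_21660971136 : Rec := ⟨nat_lit 21660971136, nat_lit 184,
  [⟨V6_19513221120, [(nat_lit 33, nat_lit 21660971136), (nat_lit 81, nat_lit 22734712896), (nat_lit 12, nat_lit 22734708864), (nat_lit 7, nat_lit 22734450816), (nat_lit 75, nat_lit 23808454656), (nat_lit 97, nat_lit 23808450624), (nat_lit 50, nat_lit 23808192576), (nat_lit 92, nat_lit 23808188544), (nat_lit 64, nat_lit 24882192384), (nat_lit 60, nat_lit 24881934336), (nat_lit 90, nat_lit 24881930304), (nat_lit 58, nat_lit 25955672064)]⟩,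
   ⟨V6_18439741440, [(nat_lit 86, nat_lit 21660971136), (nat_lit 67, nat_lit 22734712896), (nat_lit 18, nat_lit 22734708864), (nat_lit 59, nat_lit 23808454656), (nat_lit 63, nat_lit 23808450624), (nat_lit 20, nat_lit 24882192384)]⟩],
  [W_21609852992, W_21577084928, W_21577080896, W_21576822848, W_21576818816, W_21576560768, W_20586438656, W_20569923584, W_20569665536, W_20553150464, W_20536893440, W_20520120320, W_20520116288, W_20519854208, W_20503343168, W_20503339136, W_20503081088, W_19512700928, W_19496185856, W_19463155712, W_19446374528, W_18439221248, W_18438959168]⟩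
theorem C_21660971136 : chkRec R_21660971136 = true := by decide +kernel

noncomputable def R_21660975168 : Rec := ⟨nat_lit 21660975168, nat_lit 253,
  [⟨V6_20570443776, [(nat_lit 125, nat_lit 21660975168), (nat_lit 103, nat_lit 22734716928), (nat_lit 6, nat_lit 22734712896), (nat_lit 21, nat_lit 22717939776), (nat_lit 26, nat_lit 23808454656), (nat_lit 8, nat_lit 23808450624), (nat_lit 63, nat_lit 23791681536), (nat_lit 14, nat_lit 23791677504), (nat_lit 39, nat_lit 24882192384), (nat_lit 109, nat_lit 24882188352), (nat_lit 121, nat_lit 24865419264), (nat_lit 18, nat_lit 24865415232), (nat_lit 10, nat_lit 25955930112), (nat_lit 14, nat_lit 25939156992), (nat_lit 56, nat_lit 25939152960), (nat_lit 91, nat_lit 27012894720)]⟩,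
   ⟨V6_20553154560, [(nat_lit 32, nat_lit 21660975168), (nat_lit 26, nat_lit 22734716928), (nat_lit 5, nat_lit 22734454848), (nat_lit 90, nat_lit 22717939776), (nat_lit 44, nat_lit 23808196608), (nat_lit 64, nat_lit 23807934528), (nat_lit 54, nat_lit 23791681536), (nat_lit 19, nat_lit 23791419456), (nat_lit 86, nat_lit 23774904384), (nat_lit 80, nat_lit 24881676288), (nat_lit 118, nat_lit 24865161216), (nat_lit 62, nat_lit 24864899136), (nat_lit 58, nat_lit 24848646144), (nat_lit 83, nat_lit 24848384064), (nat_lit 67, nat_lit 25938640896), (nat_lit 94, nat_lit 25922125824), (nat_lit 3, nat_lit 25921863744), (nat_lit 64, nat_lit 26995605504)]⟩,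
   ⟨V6_19513479168, [(nat_lit 55, nat_lit 21660975168), (nat_lit 111, nat_lit 22734716928), (nat_lit 39, nat_lit 22734712896), (nat_lit 29, nat_lit 23808454656), (nat_lit 28, nat_lit 23808450624), (nat_lit 126, nat_lit 24882192384), (nat_lit 11, nat_lit 24882188352), (nat_lit 66, nat_lit 25955930112)]⟩,
   ⟨V6_19496189952, [(nat_lit 52, nat_lit 21660975168), (nat_lit 97, nat_lit 22734716928), (nat_lit 28, nat_lit 22734454848), (nat_lit 65, nat_lit 22717939776), (nat_lit 58, nat_lit 23808196608), (nat_lit 73, nat_lit 23807934528), (nat_lit 70, nat_lit 23791681536), (nat_lit 36, nat_lit 23791419456), (nat_lit 84, nat_lit 24881676288), (nat_lit 64, nat_lit 24865161216), (nat_lit 72, nat_lit 24864899136), (nat_lit 99, nat_lit 25938640896)]⟩,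
   ⟨V6_18439225344, [(nat_lit 11, nat_lit 21660975168), (nat_lit 63, nat_lit 22734716928), (nat_lit 32, nat_lit 22734454848), (nat_lit 37, nat_lit 23808196608), (nat_lit 9, nat_lit 23807934528), (nat_lit 42, nat_lit 24881676288)]⟩],
  [W_21577084928, W_21577080896, W_21576822848, W_20586696704, W_20569923584, W_20553150464, W_20536893440, W_20520120320, W_20520116288, W_20503347200, W_19479412736, W_19463155712, W_19446382592, W_18422448128, W_18372640832, W_17365483520, W_17348706368, W_16291741760, W_15218524160, W_15218262080, W_15201747008, W_14144782400]⟩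
theorem C_21660975168 : chkRec R_21660975168 = true := by decide +kernel

noncomputable def R_21660979200 : Rec := ⟨nat_lit 21660979200, nat_lit 153,
  [⟨V6_19513479168, [(nat_lit 17, nat_lit 21660979200), (nat_lit 43, nat_lit 22734716928), (nat_lit 69, nat_lit 23808454656), (nat_lit 15, nat_lit 24882192384), (nat_lit 105, nat_lit 25955930112)]⟩,
   ⟨V6_18439741440, [(nat_lit 96, nat_lit 21660979200), (nat_lit 40, nat_lit 22734716928), (nat_lit 95, nat_lit 23808454656), (nat_lit 55, nat_lit 24882192384)]⟩],
  [W_21627404288, W_21577084928, W_21576826880, W_20536893440, W_20536635392, W_20520120320, W_20503347200, W_19463155712, W_19446382592, W_19446124544, W_19429609472, W_18389159936, W_18372644864, W_17332195328, W_16275230720, W_15218524160, W_15218266112]⟩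
theorem C_21660979200 : chkRec R_21660979200 = true := by decide +kernel

noncomputable def R_21661229121 : Rec := ⟨nat_lit 21661229121, nat_lit 63,
  [⟨V6_19446636609, [(nat_lit 21, nat_lit 21661229121), (nat_lit 89, nat_lit 22718193729), (nat_lit 11, nat_lit 23775158337), (nat_lit 66, nat_lit 24832122945), (nat_lit 46, nat_lit 25889087553)]⟩,
   ⟨V6_18439217217, [(nat_lit 118, nat_lit 21661229121), (nat_lit 52, nat_lit 22734708801), (nat_lit 20, nat_lit 23808188481), (nat_lit 103, nat_lit 24881668161)]⟩,
   ⟨V6_18423222336, [(nat_lit 106, nat_lit 21661229121), (nat_lit 16, nat_lit 22734970944), (nat_lit 88, nat_lit 22734966849), (nat_lit 66, nat_lit 22718193729), (nat_lit 106, nat_lit 23808708672), (nat_lit 124, nat_lit 23791935552), (nat_lit 61, nat_lit 23791931457), (nat_lit 51, nat_lit 24865673280)]⟩],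
  [W_21643141184, W_21626884160, W_21593854016, W_21593595968, W_20586434624, W_20569661504, W_20520374336, W_20520116288, W_19512696896, W_19463151680]⟩
theorem C_21661229121 : chkRec R_21661229121 = true := by decide +kernel

noncomputable def R_21661229184 : Rec := ⟨nat_lit 21661229184, nat_lit 130,
  [⟨V6_18423226368, [(nat_lit 43, nat_lit 21661229184), (nat_lit 72, nat_lit 22734970944), (nat_lit 97, nat_lit 22718193792), (nat_lit 70, nat_lit 23808712704), (nat_lit 50, nat_lit 23791935552), (nat_lit 88, nat_lit 24865677312)]⟩,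
   ⟨V6_17366261760, [(nat_lit 43, nat_lit 21661229184), (nat_lit 10, nat_lit 22734970944), (nat_lit 86, nat_lit 23808712704)]⟩],
  [W_21643141184, W_21609848960, W_21593858048, W_21593595968, W_21593333888, W_20586438656, W_20569923584, W_20569661504, W_20569399424, W_20536893440, W_20520116288, W_20519854208, W_19512696896, W_19462889600, W_19446374528]⟩
theorem C_21661229184 : chkRec R_21661229184 = true := by decide +kernel

noncomputable def R_21661233216 : Rec := ⟨nat_lit 21661233216, nat_lit 273,
  [⟨V6_19513479168, [(nat_lit 110, nat_lit 21661233216), (nat_lit 5, nat_lit 22734974976), (nat_lit 71, nat_lit 22734970944), (nat_lit 16, nat_lit 22734712896), (nat_lit 26, nat_lit 23808712704), (nat_lit 36, nat_lit 23808708672), (nat_lit 57, nat_lit 23808454656), (nat_lit 30, nat_lit 23808450624), (nat_lit 14, nat_lit 24882450432), (nat_lit 23, nat_lit 24882192384), (nat_lit 32, nat_lit 24882188352), (nat_lit 44, nat_lit 25955930112)]⟩,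
   ⟨V6_19496964096, [(nat_lit 36, nat_lit 21661233216), (nat_lit 88, nat_lit 22734974976), (nat_lit 111, nat_lit 22734970944), (nat_lit 104, nat_lit 22718197824), (nat_lit 83, nat_lit 23808712704), (nat_lit 64, nat_lit 23808708672), (nat_lit 120, nat_lit 23791939584), (nat_lit 28, nat_lit 23791935552), (nat_lit 23, nat_lit 24882450432), (nat_lit 51, nat_lit 24865677312), (nat_lit 31, nat_lit 24865673280), (nat_lit 39, nat_lit 25939415040)]⟩,
   ⟨V6_19480186944, [(nat_lit 24, nat_lit 21661233216), (nat_lit 7, nat_lit 22734970944), (nat_lit 32, nat_lit 22718197824), (nat_lit 34, nat_lit 23808708672), (nat_lit 9, nat_lit 23791935552), (nat_lit 70, nat_lit 23775162432), (nat_lit 123, nat_lit 24865673280), (nat_lit 75, nat_lit 24848900160), (nat_lit 113, nat_lit 25922637888)]⟩,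
   ⟨V6_18439999488, [(nat_lit 4, nat_lit 21661233216), (nat_lit 13, nat_lit 22734974976), (nat_lit 72, nat_lit 22734970944), (nat_lit 41, nat_lit 23808712704), (nat_lit 2, nat_lit 23808708672), (nat_lit 105, nat_lit 24882450432)]⟩,
   ⟨V6_18423222336, [(nat_lit 42, nat_lit 21661233216), (nat_lit 15, nat_lit 22734970944), (nat_lit 88, nat_lit 22718197824), (nat_lit 49, nat_lit 23808708672), (nat_lit 64, nat_lit 23791935552), (nat_lit 103, nat_lit 24865673280)]⟩],
  [W_21609852992, W_20586696704, W_20586438656, W_20569923584, W_20569665536, W_20569661504, W_20553150464, W_20552888384, W_20537151488, W_20536893440, W_20536635392, W_20536373312, W_20520378368, W_20520120320, W_20520116288, W_20519858240, W_19512700928, W_19496185856, W_19463413760, W_19463155712, W_19446640640, W_19446636608, W_18438959168, W_18389676032, W_18372898880]⟩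
theorem C_21661233216 : chkRec R_21661233216 = true := by decide +kernel

noncomputable def R_21661237248 : Rec := ⟨nat_lit 21661237248, nat_lit 241,
  [⟨V6_19496189952, [(nat_lit 73, nat_lit 21661237248), (nat_lit 118, nat_lit 22734716928), (nat_lit 79, nat_lit 22718201856), (nat_lit 51, nat_lit 23808196608), (nat_lit 34, nat_lit 23791681536), (nat_lit 6, nat_lit 24881676288), (nat_lit 103, nat_lit 24865161216), (nat_lit 27, nat_lit 25938640896)]⟩,
   ⟨V6_18439999488, [(nat_lit 89, nat_lit 21661237248), (nat_lit 15, nat_lit 22734974976), (nat_lit 6, nat_lit 23808712704), (nat_lit 33, nat_lit 24882450432)]⟩,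
   ⟨V6_18439741440, [(nat_lit 2, nat_lit 21661237248), (nat_lit 23, nat_lit 22734974976), (nat_lit 93, nat_lit 22734716928), (nat_lit 24, nat_lit 23808712704), (nat_lit 74, nat_lit 23808454656), (nat_lit 97, nat_lit 24882192384)]⟩,
   ⟨V6_18439225344, [(nat_lit 17, nat_lit 21661237248), (nat_lit 57, nat_lit 22734716928), (nat_lit 61, nat_lit 23808196608), (nat_lit 3, nat_lit 24881676288)]⟩],
  [W_21660434432, W_21627404288, W_21610889216, W_21594116096, W_20586696704, W_20569923584, W_20537151488, W_20536893440, W_20520378368, W_20520120320, W_19463413760, W_19446382592, W_17315938304, W_15218524160, W_15202009088, W_14145044480]⟩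
theorem C_21661237248 : chkRec R_21661237248 = true := by decide +kernel

noncomputable def R_21661487169 : Rec := ⟨nat_lit 21661487169, nat_lit 24,
  [⟨V6_17365995585, [(nat_lit 100, nat_lit 21661487169), (nat_lit 36, nat_lit 22734966849), (nat_lit 67, nat_lit 23808446529)]⟩,
   ⟨V6_17349742656, [(nat_lit 50, nat_lit 21661487169), (nat_lit 108, nat_lit 22735228992), (nat_lit 45, nat_lit 22718451777), (nat_lit 68, nat_lit 23792193600)]⟩],
  [W_21626884160, W_21610369088, W_20586434624, W_20536889408, W_18389930048]⟩
theorem C_21661487169 : chkRec R_21661487169 = true := by decide +kernel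

noncomputable def R_21661491264 : Rec := ⟨nat_lit 21661491264, nat_lit 212,
  [⟨V6_18439741440, [(nat_lit 87, nat_lit 21661491264), (nat_lit 120, nat_lit 22735233024), (nat_lit 84, nat_lit 22734970944), (nat_lit 56, nat_lit 23808712704), (nat_lit 36, nat_lit 23808450624), (nat_lit 103, nat_lit 24882192384)]⟩,
   ⟨V6_18423484416, [(nat_lit 4, nat_lit 21661491264), (nat_lit 18, nat_lit 22735233024), (nat_lit 90, nat_lit 22735228992), (nat_lit 31, nat_lit 22718455872), (nat_lit 32, nat_lit 23808970752), (nat_lit 19, nat_lit 23792197632), (nat_lit 108, nat_lit 23792193600), (nat_lit 35, nat_lit 24865935360)]⟩,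
   ⟨V6_17366519808, [(nat_lit 101, nat_lit 21661491264), (nat_lit 5, nat_lit 22735233024), (nat_lit 59, nat_lit 22735228992), (nat_lit 50, nat_lit 23808970752)]⟩,
   ⟨V6_17349742656, [(nat_lit 108, nat_lit 21661491264), (nat_lit 6, nat_lit 22735228992), (nat_lit 26, nat_lit 22718455872), (nat_lit 98, nat_lit 23792193600)]⟩],
  [W_21659918336, W_21659914304, W_21643141184, W_20586696704, W_20586438656, W_20586434624, W_20569923584, W_20569661504, W_20537151488, W_20536893440, W_19480186880, W_19463671808, W_19463413760, W_19463409728, W_19463151680, W_18389934080]⟩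
theorem C_21661491264 : chkRec R_21661491264 = true := by decide +kernel

noncomputable def R_21661495296 : Rec := ⟨nat_lit 21661495296, nat_lit 242,
  [⟨V6_20554186752, [(nat_lit 21, nat_lit 21661495296), (nat_lit 56, nat_lit 22735233024), (nat_lit 50, nat_lit 22718459904), (nat_lit 78, nat_lit 23808970752), (nat_lit 56, nat_lit 23792197632), (nat_lit 71, nat_lit 23775424512), (nat_lit 52, nat_lit 24882708480), (nat_lit 85, nat_lit 24865935360), (nat_lit 32, nat_lit 24849162240), (nat_lit 2, nat_lit 25939673088), (nat_lit 122, nat_lit 25922899968), (nat_lit 65, nat_lit 26996637696)]⟩,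
   ⟨V6_19512963072, [(nat_lit 45, nat_lit 21661495296), (nat_lit 110, nat_lit 22734974976), (nat_lit 112, nat_lit 23808454656), (nat_lit 68, nat_lit 24881934336), (nat_lit 7, nat_lit 25955414016)]⟩,
   ⟨V6_18439999488, [(nat_lit 110, nat_lit 21661495296), (nat_lit 31, nat_lit 22735233024), (nat_lit 90, nat_lit 22734974976), (nat_lit 65, nat_lit 23808970752), (nat_lit 98, nat_lit 23808712704), (nat_lit 1, nat_lit 24882450432)]⟩,
   ⟨V6_18423484416, [(nat_lit 45, nat_lit 21661495296), (nat_lit 7, nat_lit 22735233024), (nat_lit 58, nat_lit 22718459904), (nat_lit 116, nat_lit 23808970752), (nat_lit 123, nat_lit 23792197632), (nat_lit 65, nat_lit 24865935360)]⟩,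
   ⟨V6_17366519808, [(nat_lit 6, nat_lit 21661495296), (nat_lit 9, nat_lit 22735233024), (nat_lit 86, nat_lit 23808970752)]⟩],
  [W_21660434432, W_21627404288, W_21610889216, W_20586696704, W_20586438656, W_20569923584, W_20569665536, W_20553150464, W_20537409536, W_20537151488, W_20536893440, W_19463671808, W_19463413760, W_18389934080, W_18389676032, W_17316196352]⟩
theorem C_21661495296 : chkRec R_21661495296 = true := by decide +kernel

noncomputable def R_21661749312 : Rec := ⟨nat_lit 21661749312, nat_lit 85,
  [⟨V6_21660176448, [(nat_lit 78, nat_lit 21661749312), (nat_lit 19, nat_lit 22735228992), (nat_lit 125, nat_lit 23808708672), (nat_lit 66, nat_lit 24882188352), (nat_lit 58, nat_lit 25955668032), (nat_lit 43, nat_lit 27029147712), (nat_lit 40, nat_lit 28102627392)]⟩,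
   ⟨V6_17366519808, [(nat_lit 94, nat_lit 21661749312), (nat_lit 114, nat_lit 22735491072), (nat_lit 95, nat_lit 22735228992), (nat_lit 100, nat_lit 23808970752)]⟩,
   ⟨V6_16276262976, [(nat_lit 44, nat_lit 21661749312), (nat_lit 107, nat_lit 22718713920)]⟩],
  [W_20586696704, W_19480186880, W_18406707200, W_17333227520, W_16276262912, W_15219298304, W_14145556544]⟩
theorem C_21661749312 : chkRec R_21661749312 = true := by decide +kernel

noncomputable def R_21661753344 : Rec := ⟨nat_lit 21661753344, nat_lit 164,
  [⟨V6_19480707072, [(nat_lit 25, nat_lit 21661753344), (nat_lit 14, nat_lit 22735491072), (nat_lit 20, nat_lit 22718717952), (nat_lit 98, nat_lit 23809228800), (nat_lit 35, nat_lit 23792455680), (nat_lit 118, nat_lit 23775682560), (nat_lit 46, nat_lit 24866193408), (nat_lit 88, nat_lit 24849420288), (nat_lit 53, nat_lit 25923158016)]⟩,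
   ⟨V6_17366519808, [(nat_lit 90, nat_lit 21661753344), (nat_lit 108, nat_lit 22735491072), (nat_lit 105, nat_lit 22735233024), (nat_lit 1, nat_lit 23808970752)]⟩,
   ⟨V6_17366261760, [(nat_lit 40, nat_lit 21661753344), (nat_lit 3, nat_lit 22735233024), (nat_lit 126, nat_lit 23808712704)]⟩,
   ⟨V6_16292782080, [(nat_lit 107, nat_lit 21661753344), (nat_lit 84, nat_lit 22735233024)]⟩],
  [W_21660434432, W_21660176384, W_21643919360, W_21643403264, W_21627404288, W_20586696704, W_20586438656, W_20569923584, W_19480444928, W_18406965248, W_17333227520, W_16259489792]⟩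
theorem C_21661753344 : chkRec R_21661753344 = true := by decide +kernel

noncomputable def R_21662011392 : Rec := ⟨nat_lit 21662011392, nat_lit 79,
  [⟨V6_18423484416, [(nat_lit 61, nat_lit 21662011392), (nat_lit 75, nat_lit 22735491072), (nat_lit 84, nat_lit 22718976000), (nat_lit 91, nat_lit 23808970752), (nat_lit 69, nat_lit 23792455680), (nat_lit 11, nat_lit 24865935360)]⟩,
   ⟨V6_17366519808, [(nat_lit 88, nat_lit 21662011392), (nat_lit 48, nat_lit 22735491072), (nat_lit 39, nat_lit 23808970752)]⟩],
  [W_21660434432, W_21660176384, W_21643919360, W_20586696704, W_16276520960, W_14145818624]⟩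
theorem C_21662011392 : chkRec R_21662011392 = true := by decide +kernel

noncomputable def R_21662269440 : Rec := ⟨nat_lit 21662269440, nat_lit 12,
  [⟨V6_17366777856, [(nat_lit 117, nat_lit 21662269440), (nat_lit 54, nat_lit 22735749120), (nat_lit 42, nat_lit 23809228800)]⟩],
  [W_21660434432, W_15219556352]⟩
theorem C_21662269440 : chkRec R_21662269440 = true := by decide +kernel

noncomputable def R_21676961922 : Rec := ⟨nat_lit 21676961922, nat_lit 2,
  [⟨V6_16308248706, [(nat_lit 67, nat_lit 21676961922), (nat_lit 61, nat_lit 22750699650)]⟩],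
  [W_21609848960]⟩
theorem C_21676961922 : chkRec R_21676961922 = true := by decide +kernel

noncomputable def R_21676961985 : Rec := ⟨nat_lit 21676961985, nat_lit 2,
  [⟨V6_16308252864, [(nat_lit 112, nat_lit 21676961985), (nat_lit 113, nat_lit 22750703808)]⟩],
  [W_20552888384]⟩
theorem C_21676961985 : chkRec R_21676961985 = true := by decide +kernel

noncomputable def R_21677219970 : Rec := ⟨nat_lit 21677219970, nat_lit 11,
  [⟨V6_18455732352, [(nat_lit 34, nat_lit 21677219970), (nat_lit 124, nat_lit 22750961793), (nat_lit 56, nat_lit 22750699650), (nat_lit 109, nat_lit 23824703616), (nat_lit 21, nat_lit 23824441473), (nat_lit 28, nat_lit 24898183296)]⟩],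
  [W_21609848960, W_21593333888, W_19479404672]⟩
theorem C_21677219970 : chkRec R_21677219970 = true := by decide +kernel

noncomputable def R_21677224065 : Rec := ⟨nat_lit 21677224065, nat_lit 34,
  [⟨V6_18455732352, [(nat_lit 9, nat_lit 21677224065), (nat_lit 81, nat_lit 22750965888), (nat_lit 34, nat_lit 22750961793), (nat_lit 26, nat_lit 22750703745), (nat_lit 47, nat_lit 23824703616), (nat_lit 52, nat_lit 23824445568), (nat_lit 51, nat_lit 23824441473), (nat_lit 58, nat_lit 24898183296)]⟩,
   ⟨V6_18439217217, [(nat_lit 121, nat_lit 21677224065), (nat_lit 66, nat_lit 22750965825), (nat_lit 66, nat_lit 22750961793), (nat_lit 114, nat_lit 22734188673), (nat_lit 48, nat_lit 23824703553), (nat_lit 4, nat_lit 23807930433), (nat_lit 50, nat_lit 23807926401), (nat_lit 113, nat_lit 24881668161)]⟩],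
  [W_21593337920, W_21593333888, W_21576560768, W_20552888384, W_20519596160, W_19496181824, W_19479408704]⟩
theorem C_21677224065 : chkRec R_21677224065 = true := by decide +kernel

noncomputable def R_21677224128 : Rec := ⟨nat_lit 21677224128, nat_lit 26,
  [⟨V6_18455998464, [(nat_lit 74, nat_lit 21677224128), (nat_lit 107, nat_lit 22750965888), (nat_lit 11, nat_lit 23824707648), (nat_lit 4, nat_lit 24898449408)]⟩],
  [W_21593337920, W_20569665536, W_20553150464, W_20552888384]⟩
theorem C_21677224128 : chkRec R_21677224128 = true := by decide +kernel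

noncomputable def R_21677228097 : Rec := ⟨nat_lit 21677228097, nat_lit 25,
  [⟨V6_21576564801, [(nat_lit 37, nat_lit 21677228097), (nat_lit 105, nat_lit 22734192705), (nat_lit 50, nat_lit 23791157313), (nat_lit 80, nat_lit 24848121921), (nat_lit 13, nat_lit 25905086529), (nat_lit 75, nat_lit 26962051137), (nat_lit 73, nat_lit 28019015745)]⟩,
   ⟨V6_18405670977, [(nat_lit 55, nat_lit 21677228097), (nat_lit 28, nat_lit 22734192705), (nat_lit 63, nat_lit 23791157313), (nat_lit 113, nat_lit 24848121921)]⟩,
   ⟨V6_17348706369, [(nat_lit 33, nat_lit 21677228097), (nat_lit 94, nat_lit 22734192705), (nat_lit 9, nat_lit 23791157313)]⟩,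
   ⟨V6_16291741761, [(nat_lit 118, nat_lit 21677228097), (nat_lit 29, nat_lit 22734192705)]⟩],
  [W_21626884160, W_21610111040, W_19512954944, W_18455990336]⟩
theorem C_21677228097 : chkRec R_21677228097 = true := by decide +kernel

noncomputable def R_21677228160 : Rec := ⟨nat_lit 21677228160, nat_lit 84,
  [⟨V6_18405671040, [(nat_lit 76, nat_lit 21677228160), (nat_lit 41, nat_lit 22734192768), (nat_lit 124, nat_lit 23791157376), (nat_lit 43, nat_lit 24848121984)]⟩,
   ⟨V6_16308518976, [(nat_lit 60, nat_lit 21677228160), (nat_lit 44, nat_lit 22750969920)]⟩,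
   ⟨V6_15234777216, [(nat_lit 34, nat_lit 21677228160)]⟩],
  [W_21593341952, W_21593337920, W_21593333888, W_21576564800, W_21559787648, W_20569923584, W_20553150464, W_19496181824, W_19479404672, W_18422440064]⟩
theorem C_21677228160 : chkRec R_21677228160 = true := by decide +kernel

noncomputable def R_21677482113 : Rec := ⟨nat_lit 21677482113, nat_lit 42,
  [⟨V6_18439217217, [(nat_lit 95, nat_lit 21677482113), (nat_lit 106, nat_lit 22751223873), (nat_lit 60, nat_lit 22750961793), (nat_lit 119, nat_lit 22734446721), (nat_lit 43, nat_lit 23824703553), (nat_lit 86, nat_lit 23808188481), (nat_lit 112, nat_lit 23807926401), (nat_lit 37, nat_lit 24881668161)]⟩,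
   ⟨V6_16291995777, [(nat_lit 81, nat_lit 21677482113), (nat_lit 120, nat_lit 22734446721)]⟩,
   ⟨V6_15235031169, [(nat_lit 126, nat_lit 21677482113)]⟩],
  [W_21643141184, W_21593595968, W_21593333888, W_21576818816, W_20569661504, W_20569399424, W_20519854208, W_19529211968, W_19479404672, W_19462889600]⟩
theorem C_21677482113 : chkRec R_21677482113 = true := by decide +kernel

noncomputable def R_21677486145 : Rec := ⟨nat_lit 21677486145, nat_lit 56,
  [⟨V6_18456252480, [(nat_lit 112, nat_lit 21677486145), (nat_lit 19, nat_lit 22751227968), (nat_lit 112, nat_lit 22751223873), (nat_lit 88, nat_lit 23824965696), (nat_lit 89, nat_lit 23824961601), (nat_lit 73, nat_lit 24898703424)]⟩,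
   ⟨V6_18439217217, [(nat_lit 90, nat_lit 21677486145), (nat_lit 68, nat_lit 22751223873), (nat_lit 3, nat_lit 22750965825), (nat_lit 3, nat_lit 22734450753), (nat_lit 47, nat_lit 23824703553), (nat_lit 60, nat_lit 23808188481), (nat_lit 38, nat_lit 23807930433), (nat_lit 93, nat_lit 24881668161)]⟩,
   ⟨V6_17382510657, [(nat_lit 89, nat_lit 21677486145), (nat_lit 70, nat_lit 22751223873), (nat_lit 48, nat_lit 23824961601)]⟩],
  [W_21626884160, W_21626626112, W_21593595968, W_21593337920, W_21576822848, W_20569661504, W_20552888384, W_20536373312, W_20519858240, W_19495923776, W_19479408704, W_17381994560]⟩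
theorem C_21677486145 : chkRec R_21677486145 = true := by decide +kernel

noncomputable def R_21677486208 : Rec := ⟨nat_lit 21677486208, nat_lit 137,
  [⟨V6_19512963072, [(nat_lit 84, nat_lit 21677486208), (nat_lit 96, nat_lit 22751227968), (nat_lit 73, nat_lit 22750965888), (nat_lit 58, nat_lit 22734450816), (nat_lit 31, nat_lit 23824969728), (nat_lit 99, nat_lit 23824707648), (nat_lit 71, nat_lit 23808192576), (nat_lit 1, nat_lit 23807930496), (nat_lit 105, nat_lit 24898449408), (nat_lit 12, nat_lit 24881934336), (nat_lit 26, nat_lit 24881672256), (nat_lit 29, nat_lit 25955414016)]⟩,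
   ⟨V6_18456256512, [(nat_lit 12, nat_lit 21677486208), (nat_lit 95, nat_lit 22751227968), (nat_lit 35, nat_lit 22751223936), (nat_lit 23, nat_lit 23824969728), (nat_lit 59, nat_lit 23824965696), (nat_lit 53, nat_lit 24898707456)]⟩],
  [W_21609848960, W_21593595968, W_21593337920, W_21593333888, W_21576822848, W_21576818816, W_21576560768, W_20586438656, W_20569923584, W_20569661504, W_20553150464, W_20536635392, W_20503081088, W_19529474048, W_19512696896, W_19479404672, W_19462889600, W_19446116480]⟩
theorem C_21677486208 : chkRec R_21677486208 = true := by decide +kernel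

noncomputable def R_21677490240 : Rec := ⟨nat_lit 21677490240, nat_lit 178,
  [⟨V6_18456256512, [(nat_lit 96, nat_lit 21677490240), (nat_lit 87, nat_lit 22751232000), (nat_lit 62, nat_lit 22751227968), (nat_lit 43, nat_lit 23824969728), (nat_lit 25, nat_lit 23824965696), (nat_lit 51, nat_lit 24898707456)]⟩,
   ⟨V6_18456252480, [(nat_lit 119, nat_lit 21677490240), (nat_lit 70, nat_lit 22751227968), (nat_lit 28, nat_lit 23824965696), (nat_lit 27, nat_lit 24898703424)]⟩,
   ⟨V6_17382260736, [(nat_lit 74, nat_lit 21677490240), (nat_lit 87, nat_lit 22751232000), (nat_lit 67, nat_lit 22750969920), (nat_lit 77, nat_lit 23824711680)]⟩,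
   ⟨V6_16308518976, [(nat_lit 77, nat_lit 21677490240), (nat_lit 118, nat_lit 22750969920)]⟩],
  [W_21593595968, W_21593341952, W_21593337920, W_21576826880, W_21576822848, W_21576564800, W_20586696704, W_20569923584, W_20553150464, W_20536635392, W_20519600192, W_20503085120, W_19529732096, W_19496185856, W_19479412736, W_19462635584, W_18422448128]⟩
theorem C_21677490240 : chkRec R_21677490240 = true := by decide +kernel

noncomputable def R_21677494272 : Rec := ⟨nat_lit 21677494272, nat_lit 70,
  [⟨V6_20519866368, [(nat_lit 64, nat_lit 21677494272), (nat_lit 125, nat_lit 22734458880), (nat_lit 61, nat_lit 23791423488), (nat_lit 55, nat_lit 24848388096), (nat_lit 50, nat_lit 25905352704), (nat_lit 64, nat_lit 26962317312)]⟩,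
   ⟨V6_19462901760, [(nat_lit 35, nat_lit 21677494272), (nat_lit 29, nat_lit 22734458880), (nat_lit 3, nat_lit 23791423488), (nat_lit 62, nat_lit 24848388096), (nat_lit 76, nat_lit 25905352704)]⟩,
   ⟨V6_16308781056, [(nat_lit 62, nat_lit 21677494272), (nat_lit 118, nat_lit 22751232000)]⟩],
  [W_21643919360, W_21627146240, W_21593600000, W_20536635392, W_20519862272, W_19529990144]⟩
theorem C_21677494272 : chkRec R_21677494272 = true := by decide +kernel

noncomputable def R_21677744193 : Rec := ⟨nat_lit 21677744193, nat_lit 58,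
  [⟨V6_18439737408, [(nat_lit 91, nat_lit 21677744193), (nat_lit 94, nat_lit 22751486016), (nat_lit 36, nat_lit 22751481921), (nat_lit 91, nat_lit 22734708801), (nat_lit 53, nat_lit 23825223744), (nat_lit 57, nat_lit 23808450624), (nat_lit 70, nat_lit 23808446529), (nat_lit 42, nat_lit 24882188352)]⟩,
   ⟨V6_17382510657, [(nat_lit 81, nat_lit 21677744193), (nat_lit 70, nat_lit 22751481921), (nat_lit 30, nat_lit 22751223873), (nat_lit 125, nat_lit 23824961601)]⟩,
   ⟨V6_17365995585, [(nat_lit 46, nat_lit 21677744193), (nat_lit 105, nat_lit 22751481921), (nat_lit 28, nat_lit 22734708801), (nat_lit 12, nat_lit 23808446529)]⟩],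
  [W_21643141184, W_21626884160, W_21626626112, W_21593595968, W_21577080896, W_20569661504, W_20520116288, W_19529211968, W_19512696896, W_19463151680]⟩
theorem C_21677744193 : chkRec R_21677744193 = true := by decide +kernel

noncomputable def R_21677744256 : Rec := ⟨nat_lit 21677744256, nat_lit 144,
  [⟨V6_18456256512, [(nat_lit 30, nat_lit 21677744256), (nat_lit 36, nat_lit 22751486016), (nat_lit 74, nat_lit 22751223936), (nat_lit 96, nat_lit 23825227776), (nat_lit 79, nat_lit 23824965696), (nat_lit 81, nat_lit 24898707456)]⟩,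
   ⟨V6_17382776832, [(nat_lit 102, nat_lit 21677744256), (nat_lit 6, nat_lit 22751486016), (nat_lit 77, nat_lit 23825227776)]⟩],
  [W_21659918336, W_21643141184, W_21609848960, W_21593858048, W_21593595968, W_21593333888, W_21577080896, W_21576818816, W_20586438656, W_20569923584, W_20569661504, W_20536893440, W_20520116288, W_20519854208, W_20503339136, W_19463151680, W_19446374528]⟩
theorem C_21677744256 : chkRec R_21677744256 = true := by decide +kernel

noncomputable def R_21677748288 : Rec := ⟨nat_lit 21677748288, nat_lit 262,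
  [⟨V6_20603473920, [(nat_lit 79, nat_lit 21677748288), (nat_lit 77, nat_lit 22751490048), (nat_lit 70, nat_lit 22751486016), (nat_lit 126, nat_lit 22751227968), (nat_lit 86, nat_lit 23825227776), (nat_lit 6, nat_lit 23825223744), (nat_lit 5, nat_lit 23824969728), (nat_lit 58, nat_lit 23824965696), (nat_lit 4, nat_lit 23824707648), (nat_lit 57, nat_lit 24898965504), (nat_lit 23, nat_lit 24898707456), (nat_lit 46, nat_lit 24898703424), (nat_lit 52, nat_lit 24898449408), (nat_lit 120, nat_lit 24898445376), (nat_lit 36, nat_lit 25972445184), (nat_lit 104, nat_lit 25972187136), (nat_lit 84, nat_lit 25972183104), (nat_lit 114, nat_lit 27045924864)]⟩,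
   ⟨V6_20603211840, [(nat_lit 95, nat_lit 21677748288), (nat_lit 81, nat_lit 22751486016), (nat_lit 15, nat_lit 22751227968), (nat_lit 43, nat_lit 23825223744), (nat_lit 23, nat_lit 23824965696), (nat_lit 6, nat_lit 23824707648), (nat_lit 12, nat_lit 24898703424), (nat_lit 4, nat_lit 24898445376), (nat_lit 90, nat_lit 24898187328), (nat_lit 21, nat_lit 25972183104), (nat_lit 80, nat_lit 25971925056), (nat_lit 28, nat_lit 27045662784)]⟩,
   ⟨V6_19529732160, [(nat_lit 14, nat_lit 21677748288), (nat_lit 115, nat_lit 22751486016), (nat_lit 70, nat_lit 22751227968), (nat_lit 77, nat_lit 23825223744), (nat_lit 63, nat_lit 23824965696), (nat_lit 29, nat_lit 23824707648), (nat_lit 75, nat_lit 24898703424), (nat_lit 50, nat_lit 24898445376), (nat_lit 1, nat_lit 25972183104)]⟩,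
   ⟨V6_19513479168, [(nat_lit 21, nat_lit 21677748288), (nat_lit 34, nat_lit 22751490048), (nat_lit 118, nat_lit 22751486016), (nat_lit 42, nat_lit 22734712896), (nat_lit 97, nat_lit 23825227776), (nat_lit 49, nat_lit 23825223744), (nat_lit 69, nat_lit 23808454656), (nat_lit 39, nat_lit 23808450624), (nat_lit 119, nat_lit 24898965504), (nat_lit 46, nat_lit 24882192384), (nat_lit 121, nat_lit 24882188352), (nat_lit 85, nat_lit 25955930112)]⟩,
   ⟨V6_18456514560, [(nat_lit 86, nat_lit 21677748288), (nat_lit 89, nat_lit 22751490048), (nat_lit 24, nat_lit 22751486016), (nat_lit 56, nat_lit 23825227776), (nat_lit 43, nat_lit 23825223744), (nat_lit 35, nat_lit 24898965504)]⟩,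
   ⟨V6_18456252480, [(nat_lit 57, nat_lit 21677748288), (nat_lit 85, nat_lit 22751486016), (nat_lit 28, nat_lit 22751227968), (nat_lit 53, nat_lit 23825223744), (nat_lit 23, nat_lit 23824965696), (nat_lit 47, nat_lit 24898703424)]⟩],
  [W_21609852992, W_21577084928, W_21577080896, W_21576822848, W_20569923584, W_20569665536, W_20553150464, W_20536893440, W_20536635392, W_20520120320, W_20520116288, W_19529732096, W_19529474048, W_19512700928, W_19496185856, W_19495923776, W_19463155712, W_18455736320, W_18438959168, W_17382256640, W_16308514880, W_15235297280, W_15235035200, W_14161555520]⟩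
theorem C_21677748288 : chkRec R_21677748288 = true := by decide +kernel

noncomputable def R_21677752320 : Rec := ⟨nat_lit 21677752320, nat_lit 245,
  [⟨V6_18456514560, [(nat_lit 7, nat_lit 21677752320), (nat_lit 34, nat_lit 22751490048), (nat_lit 39, nat_lit 23825227776), (nat_lit 24, nat_lit 24898965504)]⟩,
   ⟨V6_18456256512, [(nat_lit 120, nat_lit 21677752320), (nat_lit 126, nat_lit 22751490048), (nat_lit 116, nat_lit 22751232000), (nat_lit 57, nat_lit 23825227776), (nat_lit 64, nat_lit 23824969728), (nat_lit 122, nat_lit 24898707456)]⟩,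
   ⟨V6_18455998464, [(nat_lit 98, nat_lit 21677752320), (nat_lit 67, nat_lit 22751490048), (nat_lit 94, nat_lit 22751232000), (nat_lit 48, nat_lit 23824969728), (nat_lit 51, nat_lit 23824711680), (nat_lit 5, nat_lit 24898449408)]⟩,
   ⟨V6_17382260736, [(nat_lit 66, nat_lit 21677752320), (nat_lit 116, nat_lit 22751232000), (nat_lit 71, nat_lit 23824711680)]⟩],
  [W_21660434432, W_21627404288, W_21593858048, W_21593341952, W_21577084928, W_21576826880, W_20586696704, W_20536893440, W_20520120320, W_20503347200, W_19529732096, W_19479412736, W_19446382592, W_18422448128, W_15235297280, W_15235039232, W_15218524160, W_14161559552]⟩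
theorem C_21677752320 : chkRec R_21677752320 = true := by decide +kernel

noncomputable def R_21678002241 : Rec := ⟨nat_lit 21678002241, nat_lit 27,
  [⟨V6_20520374337, [(nat_lit 40, nat_lit 21678002241), (nat_lit 94, nat_lit 22734966849), (nat_lit 54, nat_lit 23791931457), (nat_lit 82, nat_lit 24848896065), (nat_lit 63, nat_lit 25905860673), (nat_lit 40, nat_lit 26962825281)]⟩,
   ⟨V6_16309293120, [(nat_lit 72, nat_lit 21678002241), (nat_lit 118, nat_lit 22751744064)]⟩],
  [W_21643399232, W_21626884160, W_21593854016, W_20602949696, W_20586434624, W_20536889408, W_20520374336]⟩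
theorem C_21678002241 : chkRec R_21678002241 = true := by decide +kernel

noncomputable def R_21678006336 : Rec := ⟨nat_lit 21678006336, nat_lit 244,
  [⟨V6_18456514560, [(nat_lit 13, nat_lit 21678006336), (nat_lit 113, nat_lit 22751748096), (nat_lit 30, nat_lit 22751744064), (nat_lit 13, nat_lit 22751486016), (nat_lit 123, nat_lit 23825485824), (nat_lit 14, nat_lit 23825227776), (nat_lit 49, nat_lit 23825223744), (nat_lit 15, nat_lit 24898965504)]⟩,
   ⟨V6_18456256512, [(nat_lit 122, nat_lit 21678006336), (nat_lit 19, nat_lit 22751748096), (nat_lit 64, nat_lit 22751486016), (nat_lit 40, nat_lit 23825227776), (nat_lit 35, nat_lit 23824965696), (nat_lit 22, nat_lit 24898707456)]⟩,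
   ⟨V6_18456252480, [(nat_lit 13, nat_lit 21678006336), (nat_lit 16, nat_lit 22751744064), (nat_lit 9, nat_lit 22751486016), (nat_lit 22, nat_lit 23825223744), (nat_lit 90, nat_lit 23824965696), (nat_lit 81, nat_lit 24898703424)]⟩,
   ⟨V6_17383034880, [(nat_lit 36, nat_lit 21678006336), (nat_lit 81, nat_lit 22751748096), (nat_lit 16, nat_lit 22751744064), (nat_lit 48, nat_lit 23825485824)]⟩],
  [W_21676691456, W_21659918336, W_21643141184, W_21594116096, W_21593858048, W_21593854016, W_21593595968, W_20603211776, W_20586696704, W_20586438656, W_20569923584, W_20537151488, W_20536893440, W_20520378368, W_20520374336, W_20520116288, W_19529732096, W_19463413760, W_19463409728, W_19446636608, W_15235551296, W_14161813568]⟩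
theorem C_21678006336 : chkRec R_21678006336 = true := by decide +kernel

noncomputable def R_21678010368 : Rec := ⟨nat_lit 21678010368, nat_lit 272,
  [⟨V6_19513479168, [(nat_lit 100, nat_lit 21678010368), (nat_lit 65, nat_lit 22751748096), (nat_lit 101, nat_lit 22751490048), (nat_lit 119, nat_lit 22734974976), (nat_lit 106, nat_lit 23825485824), (nat_lit 75, nat_lit 23825227776), (nat_lit 79, nat_lit 23808712704), (nat_lit 84, nat_lit 23808454656), (nat_lit 63, nat_lit 24898965504), (nat_lit 79, nat_lit 24882450432), (nat_lit 17, nat_lit 24882192384), (nat_lit 32, nat_lit 25955930112)]⟩,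
   ⟨V6_19496964096, [(nat_lit 53, nat_lit 21678010368), (nat_lit 84, nat_lit 22751748096), (nat_lit 37, nat_lit 22734974976), (nat_lit 91, nat_lit 23825485824), (nat_lit 91, nat_lit 23808712704), (nat_lit 97, nat_lit 23791939584), (nat_lit 30, nat_lit 24882450432), (nat_lit 61, nat_lit 24865677312), (nat_lit 29, nat_lit 25939415040)]⟩,
   ⟨V6_18456772608, [(nat_lit 35, nat_lit 21678010368), (nat_lit 42, nat_lit 22751748096), (nat_lit 58, nat_lit 23825485824), (nat_lit 19, nat_lit 24899223552)]⟩,
   ⟨V6_18439999488, [(nat_lit 114, nat_lit 21678010368), (nat_lit 106, nat_lit 22751748096), (nat_lit 30, nat_lit 22734974976), (nat_lit 119, nat_lit 23825485824), (nat_lit 22, nat_lit 23808712704), (nat_lit 21, nat_lit 24882450432)]⟩,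
   ⟨V6_17383034880, [(nat_lit 105, nat_lit 21678010368), (nat_lit 94, nat_lit 22751748096), (nat_lit 108, nat_lit 23825485824)]⟩],
  [W_20603211776, W_20586696704, W_20586438656, W_20569923584, W_20569665536, W_20553150464, W_20536893440, W_20536635392, W_20520378368, W_20520120320, W_19529474048, W_19496185856, W_19463155712, W_18455736320, W_18389676032, W_17382256640, W_15235297280, W_14161817600]⟩
theorem C_21678010368 : chkRec R_21678010368 = true := by decide +kernel

noncomputable def R_21678264384 : Rec := ⟨nat_lit 21678264384, nat_lit 109,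
  [⟨V6_17383034880, [(nat_lit 115, nat_lit 21678264384), (nat_lit 79, nat_lit 22752006144), (nat_lit 23, nat_lit 22751744064), (nat_lit 36, nat_lit 23825485824)]⟩,
   ⟨V6_17366519808, [(nat_lit 102, nat_lit 21678264384), (nat_lit 18, nat_lit 22752006144), (nat_lit 27, nat_lit 22735228992), (nat_lit 88, nat_lit 23808970752)]⟩],
  [W_21660176384, W_21659914304, W_21643661312, W_21643399232, W_20603211776, W_20602949696, W_20586696704, W_20586434624, W_20537151488, W_19529470016, W_19463409728]⟩
theorem C_21678264384 : chkRec R_21678264384 = true := by decide +kernel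

noncomputable def R_21678268416 : Rec := ⟨nat_lit 21678268416, nat_lit 255,
  [⟨V6_18456772608, [(nat_lit 96, nat_lit 21678268416), (nat_lit 121, nat_lit 22752006144), (nat_lit 51, nat_lit 22751748096), (nat_lit 7, nat_lit 23825743872), (nat_lit 28, nat_lit 23825485824), (nat_lit 75, nat_lit 24899223552)]⟩,
   ⟨V6_18456514560, [(nat_lit 92, nat_lit 21678268416), (nat_lit 32, nat_lit 22752006144), (nat_lit 101, nat_lit 22751748096), (nat_lit 92, nat_lit 23825485824), (nat_lit 59, nat_lit 23825227776), (nat_lit 111, nat_lit 24898965504)]⟩,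
   ⟨V6_18423484416, [(nat_lit 124, nat_lit 21678268416), (nat_lit 54, nat_lit 22752006144), (nat_lit 42, nat_lit 22735233024), (nat_lit 54, nat_lit 23808970752), (nat_lit 40, nat_lit 23792197632), (nat_lit 70, nat_lit 24865935360)]⟩,
   ⟨V6_17383034880, [(nat_lit 1, nat_lit 21678268416), (nat_lit 95, nat_lit 22752006144), (nat_lit 96, nat_lit 22751748096), (nat_lit 39, nat_lit 23825485824)]⟩,
   ⟨V6_17366519808, [(nat_lit 125, nat_lit 21678268416), (nat_lit 12, nat_lit 22752006144), (nat_lit 54, nat_lit 22735233024), (nat_lit 5, nat_lit 23808970752)]⟩],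
  [W_21676949504, W_21676691456, W_21659918336, W_21610889216, W_20603211776, W_20586696704, W_20586438656, W_20569923584, W_20537409536, W_20537151488, W_20536893440, W_19529732096, W_19529474048, W_19463671808, W_19463413760, W_18389934080]⟩
theorem C_21678268416 : chkRec R_21678268416 = true := by decide +kernel

noncomputable def R_21678526464 : Rec := ⟨nat_lit 21678526464, nat_lit 139,
  [⟨V6_18456514560, [(nat_lit 95, nat_lit 21678526464), (nat_lit 123, nat_lit 22752006144), (nat_lit 113, nat_lit 23825485824), (nat_lit 67, nat_lit 24898965504)]⟩,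
   ⟨V6_18423742464, [(nat_lit 84, nat_lit 21678526464), (nat_lit 84, nat_lit 22752264192), (nat_lit 122, nat_lit 22735491072), (nat_lit 94, nat_lit 23809228800), (nat_lit 109, nat_lit 23792455680), (nat_lit 23, nat_lit 24866193408)]⟩,
   ⟨V6_17383034880, [(nat_lit 11, nat_lit 21678526464), (nat_lit 4, nat_lit 22752006144), (nat_lit 41, nat_lit 23825485824)]⟩],
  [W_21676949504, W_21676691456, W_21660434432, W_21643919360, W_21627404288, W_20603211776, W_20586696704, W_19480444928, W_19480186880]⟩
theorem C_21678526464 : chkRec R_21678526464 = true := by decide +kernel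

noncomputable def R_21678784512 : Rec := ⟨nat_lit 21678784512, nat_lit 57,
  [⟨V6_18456772608, [(nat_lit 125, nat_lit 21678784512), (nat_lit 53, nat_lit 22752264192), (nat_lit 71, nat_lit 23825743872), (nat_lit 104, nat_lit 24899223552)]⟩,
   ⟨V6_17350262784, [(nat_lit 33, nat_lit 21678784512), (nat_lit 94, nat_lit 22735749120), (nat_lit 9, nat_lit 23792713728)]⟩,
   ⟨V6_15236333568, [(nat_lit 8, nat_lit 21678784512)]⟩],
  [W_21676949504, W_21660434432, W_21643919360, W_17350000640, W_15219556352, W_14162591744]⟩
theorem C_21678784512 : chkRec R_21678784512 = true := by decide +kernel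

noncomputable def R_21693735042 : Rec := ⟨nat_lit 21693735042, nat_lit 4,
  [⟨V6_17381990529, [(nat_lit 70, nat_lit 21693735042), (nat_lit 40, nat_lit 22767476865), (nat_lit 75, nat_lit 22750699650), (nat_lit 114, nat_lit 23824441473)]⟩],
  [W_21626364032, W_21609848960]⟩
theorem C_21693735042 : chkRec R_21693735042 = true := by decide +kernel

noncomputable def R_21693739137 : Rec := ⟨nat_lit 21693739137, nat_lit 10,
  [⟨V6_20569661505, [(nat_lit 100, nat_lit 21693739137), (nat_lit 58, nat_lit 22767480897), (nat_lit 125, nat_lit 22767476865), (nat_lit 89, nat_lit 22750703745), (nat_lit 12, nat_lit 23841218625), (nat_lit 82, nat_lit 23824445505), (nat_lit 17, nat_lit 23824441473), (nat_lit 116, nat_lit 23807668353), (nat_lit 87, nat_lit 24898183233), (nat_lit 31, nat_lit 24881410113), (nat_lit 30, nat_lit 24881406081), (nat_lit 102, nat_lit 24864632961), (nat_lit 72, nat_lit 25955147841), (nat_lit 103, nat_lit 25938374721), (nat_lit 121, nat_lit 25938370689), (nat_lit 99, nat_lit 27012112449)]⟩,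
   ⟨V6_19495923777, [(nat_lit 62, nat_lit 21693739137), (nat_lit 31, nat_lit 22767480897), (nat_lit 103, nat_lit 22750703745), (nat_lit 70, nat_lit 23824445505), (nat_lit 22, nat_lit 23807668353), (nat_lit 21, nat_lit 24881410113), (nat_lit 93, nat_lit 24864632961), (nat_lit 112, nat_lit 25938374721)]⟩],
  [W_17398767680, W_17381990528, W_16325029952]⟩
theorem C_21693739137 : chkRec R_21693739137 = true := by decide +kernel

noncomputable def R_21693739200 : Rec := ⟨nat_lit 21693739200, nat_lit 6,
  [⟨V6_21643407360, [(nat_lit 1, nat_lit 21693739200), (nat_lit 20, nat_lit 22767480960), (nat_lit 13, nat_lit 22750703808), (nat_lit 11, nat_lit 23841222720), (nat_lit 65, nat_lit 23824445568), (nat_lit 33, nat_lit 23807668416), (nat_lit 24, nat_lit 24914964480), (nat_lit 19, nat_lit 24898187328), (nat_lit 88, nat_lit 24881410176), (nat_lit 45, nat_lit 24864633024), (nat_lit 47, nat_lit 25971929088), (nat_lit 67, nat_lit 25955151936), (nat_lit 121, nat_lit 25938374784), (nat_lit 57, nat_lit 27028893696), (nat_lit 83, nat_lit 27012116544), (nat_lit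 93, nat_lit 28085858304)]⟩,
   ⟨V6_15251288256, [(nat_lit 102, nat_lit 21693739200)]⟩],
  [W_17398771712, W_16325029952]⟩
theorem C_21693739200 : chkRec R_21693739200 = true := by decide +kernel

noncomputable def R_21693997185 : Rec := ⟨nat_lit 21693997185, nat_lit 30,
  [⟨V6_21643141185, [(nat_lit 88, nat_lit 21693997185), (nat_lit 75, nat_lit 22767738945), (nat_lit 68, nat_lit 22767476865), (nat_lit 43, nat_lit 22750961793), (nat_lit 108, nat_lit 23841218625), (nat_lit 118, nat_lit 23840956545), (nat_lit 103, nat_lit 23824703553), (nat_lit 24, nat_lit 23824441473), (nat_lit 121, nat_lit 23807926401), (nat_lit 11, nat_lit 24914698305), (nat_lit 69, nat_lit 24898183233), (nat_lit 104, nat_lit 24897921153), (nat_lit 54, nat_lit 24881668161), (nat_lit 48, nat_lit 24881406081), (nat_lit 65, nat_lit 24864891009), (nat_lit 3, nat_lit 25971662913), (nat_lit 98, nat_lit 25955147841), (nat_lit 1, nat_lit 25954885761), (nat_lit 69, nat_lit 25938632769), (nat_lit 12, nat_lit 25938370689), (nat_lit 40, nat_lit 27028627521), (nat_lit 30, nat_lit 27012112449),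 (nat_lit 7, nat_lit 27011850369), (nat_lit 107, nat_lit 28085592129)]⟩,
   ⟨V6_20553146433, [(nat_lit 21, nat_lit 21693997185), (nat_lit 36, nat_lit 22767738945), (nat_lit 57, nat_lit 22750961793), (nat_lit 65, nat_lit 23824703553), (nat_lit 110, nat_lit 23807926401), (nat_lit 106, nat_lit 24881668161), (nat_lit 62, nat_lit 24864891009), (nat_lit 2, nat_lit 25938632769), (nat_lit 9, nat_lit 25921855617), (nat_lit 26, nat_lit 26995597377)]⟩,
   ⟨V6_18439217217, [(nat_lit 126, nat_lit 21693997185), (nat_lit 93, nat_lit 22767738945), (nat_lit 104, nat_lit 22750961793), (nat_lit 32, nat_lit 23824703553), (nat_lit 68, nat_lit 23807926401), (nat_lit 15, nat_lit 24881668161)]⟩],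
  [W_19512696896, W_18455732288, W_17398767680, W_17381990528, W_17365475456, W_15251546240]⟩
theorem C_21693997185 : chkRec R_21693997185 = true := by decide +kernel

noncomputable def R_21694001217 : Rec := ⟨nat_lit 21694001217, nat_lit 34,
  [⟨V6_19546247232, [(nat_lit 105, nat_lit 21694001217), (nat_lit 25, nat_lit 22767743040), (nat_lit 78, nat_lit 22767738945), (nat_lit 41, nat_lit 22767480897), (nat_lit 44, nat_lit 23841480768), (nat_lit 124, nat_lit 23841476673), (nat_lit 23, nat_lit 23841222720), (nat_lit 14, nat_lit 23841218625), (nat_lit 108, nat_lit 24915218496), (nat_lit 98, nat_lit 24914960448), (nat_lit 69, nat_lit 24914956353), (nat_lit 83, nat_lit 25988698176)]⟩,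
   ⟨V6_18472505409, [(nat_lit 4, nat_lit 21694001217), (nat_lit 27, nat_lit 22767738945), (nat_lit 114, nat_lit 22767480897), (nat_lit 85, nat_lit 23841476673), (nat_lit 10, nat_lit 23841218625), (nat_lit 46, nat_lit 24914956353)]⟩,
   ⟨V6_18439217217, [(nat_lit 30, nat_lit 21694001217), (nat_lit 10, nat_lit 22767738945), (nat_lit 105, nat_lit 22750965825), (nat_lit 61, nat_lit 23824703553), (nat_lit 58, nat_lit 23807930433), (nat_lit 4, nat_lit 24881668161)]⟩],
  [W_21626884160, W_21593337920, W_20552888384, W_20536373312, W_19479408704, W_16308514880, W_15251550272]⟩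
theorem C_21694001217 : chkRec R_21694001217 = true := by decide +kernel

noncomputable def R_21694001280 : Rec := ⟨nat_lit 21694001280, nat_lit 87,
  [⟨V6_19512963072, [(nat_lit 112, nat_lit 21694001280), (nat_lit 76, nat_lit 22767743040), (nat_lit 41, nat_lit 22750965888), (nat_lit 113, nat_lit 23841484800), (nat_lit 97, nat_lit 23824707648), (nat_lit 108, nat_lit 23807930496), (nat_lit 2, nat_lit 24898449408), (nat_lit 36, nat_lit 24881672256), (nat_lit 14, nat_lit 25955414016)]⟩,
   ⟨V6_18455998464, [(nat_lit 56, nat_lit 21694001280), (nat_lit 19, nat_lit 22767743040), (nat_lit 35, nat_lit 22750965888), (nat_lit 42, nat_lit 23841484800), (nat_lit 108, nat_lit 23824707648), (nat_lit 61, nat_lit 24898449408)]⟩],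
  [W_21609848960, W_21593333888, W_20586438656, W_20569923584, W_20569661504, W_19529474048, W_18472509440, W_17398767680, W_17381990528]⟩
theorem C_21694001280 : chkRec R_21694001280 = true := by decide +kernel

noncomputable def R_21694005312 : Rec := ⟨nat_lit 21694005312, nat_lit 94,
  [⟨V6_17382260736, [(nat_lit 83, nat_lit 21694005312), (nat_lit 120, nat_lit 22767747072), (nat_lit 98, nat_lit 22750969920), (nat_lit 88, nat_lit 23824711680)]⟩,
   ⟨V6_17365483584, [(nat_lit 42, nat_lit 21694005312), (nat_lit 5, nat_lit 22750969920), (nat_lit 94, nat_lit 23807934528)]⟩,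
   ⟨V6_16308518976, [(nat_lit 121, nat_lit 21694005312), (nat_lit 2, nat_lit 22750969920)]⟩],
  [W_21643661312, W_21626884160, W_21593341952, W_21593337920, W_21576564800, W_20586696704, W_20569923584, W_19512954944]⟩
theorem C_21694005312 : chkRec R_21694005312 = true := by decide +kernel

noncomputable def R_21694259265 : Rec := ⟨nat_lit 21694259265, nat_lit 49,
  [⟨V6_18456252480, [(nat_lit 102, nat_lit 21694259265), (nat_lit 29, nat_lit 22768001088), (nat_lit 98, nat_lit 22767996993), (nat_lit 76, nat_lit 22751223873), (nat_lit 8, nat_lit 23841738816), (nat_lit 98, nat_lit 23824965696), (nat_lit 83, nat_lit 23824961601), (nat_lit 125, nat_lit 24898703424)]⟩,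
   ⟨V6_18439217217, [(nat_lit 84, nat_lit 21694259265), (nat_lit 95, nat_lit 22767738945), (nat_lit 28, nat_lit 22751223873), (nat_lit 40, nat_lit 23824703553), (nat_lit 35, nat_lit 23808188481), (nat_lit 77, nat_lit 24881668161)]⟩],
  [W_21643141184, W_21626884160, W_21626626112, W_21593595968, W_20602949696, W_20569661504, W_19545985088, W_19529211968, W_19512696896, W_18472247360]⟩
theorem C_21694259265 : chkRec R_21694259265 = true := by decide +kernel

noncomputable def R_21694259328 : Rec := ⟨nat_lit 21694259328, nat_lit 105,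
  [⟨V6_21676695552, [(nat_lit 52, nat_lit 21694259328), (nat_lit 88, nat_lit 22768001088), (nat_lit 81, nat_lit 22767739008), (nat_lit 27, nat_lit 22751223936), (nat_lit 41, nat_lit 23841742848), (nat_lit 28, nat_lit 23841480768), (nat_lit 123, nat_lit 23841218688), (nat_lit 7, nat_lit 23824965696), (nat_lit 103, nat_lit 23824703616), (nat_lit 85, nat_lit 24915222528), (nat_lit 88, nat_lit 24914960448), (nat_lit 93, nat_lit 24914698368), (nat_lit 21, nat_lit 24898707456), (nat_lit 97, nat_lit 24898445376), (nat_lit 110, nat_lit 24898183296), (nat_lit 53, nat_lit 25988702208), (nat_lit 16, nat_lit 25988440128), (nat_lit 107, nat_lit 25972187136), (nat_lit 62, nat_lit 25971925056), (nat_lit 112, nat_lit 25971662976), (nat_lit 58, nat_lit 27062181888), (nat_lit 36, nat_lit 27045666816), (nat_lit 41, nat_lit 27045404736), (nat_lit 68, nat_lit 28119146496)]⟩,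
   ⟨V6_18456256512, [(nat_lit 50, nat_lit 21694259328), (nat_lit 85, nat_lit 22768001088), (nat_lit 63, nat_lit 22751223936), (nat_lit 101, nat_lit 23841742848), (nat_lit 42, nat_lit 23824965696), (nat_lit 59, nat_lit 24898707456)]⟩],
  [W_20586438656, W_20569923584, W_19529474048, W_19512696896, W_19479404672, W_19462889600, W_18472509440, W_18422440064, W_18405924992, W_17365475456, W_15251546240]⟩
theorem C_21694259328 : chkRec R_21694259328 = true := by decide +kernel

noncomputable def R_21694263360 : Rec := ⟨nat_lit 21694263360, nat_lit 194,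
  [⟨V6_20603211840, [(nat_lit 115, nat_lit 21694263360), (nat_lit 53, nat_lit 22768001088), (nat_lit 110, nat_lit 22767743040), (nat_lit 87, nat_lit 22751227968), (nat_lit 107, nat_lit 23841738816), (nat_lit 17, nat_lit 23841480768), (nat_lit 5, nat_lit 23841222720), (nat_lit 66, nat_lit 23824965696), (nat_lit 22, nat_lit 23824707648), (nat_lit 93, nat_lit 24915218496), (nat_lit 78, nat_lit 24914960448), (nat_lit 104, nat_lit 24898703424), (nat_lit 56, nat_lit 24898445376), (nat_lit 69, nat_lit 24898187328), (nat_lit 15, nat_lit 25988698176), (nat_lit 99, nat_lit 25972183104), (nat_lit 61, nat_lit 25971925056), (nat_lit 53, nat_lit 27045662784)]⟩,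
   ⟨V6_19546247232, [(nat_lit 64, nat_lit 21694263360), (nat_lit 36, nat_lit 22768001088), (nat_lit 48, nat_lit 22767743040), (nat_lit 125, nat_lit 23841738816), (nat_lit 78, nat_lit 23841480768), (nat_lit 120, nat_lit 23841222720), (nat_lit 49, nat_lit 24915218496), (nat_lit 6, nat_lit 24914960448), (nat_lit 25, nat_lit 25988698176)]⟩,
   ⟨V6_18456256512, [(nat_lit 19, nat_lit 21694263360), (nat_lit 56, nat_lit 22768005120), (nat_lit 125, nat_lit 22768001088), (nat_lit 27, nat_lit 22751227968), (nat_lit 107, nat_lit 23841742848), (nat_lit 105, nat_lit 23824969728), (nat_lit 68, nat_lit 23824965696), (nat_lit 107, nat_lit 24898707456)]⟩,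
   ⟨V6_18456252480, [(nat_lit 39, nat_lit 21694263360), (nat_lit 54, nat_lit 22768001088), (nat_lit 10, nat_lit 22751227968), (nat_lit 40, nat_lit 23841738816), (nat_lit 66, nat_lit 23824965696), (nat_lit 111, nat_lit 24898703424)]⟩,
   ⟨V6_18455998464, [(nat_lit 107, nat_lit 21694263360), (nat_lit 60, nat_lit 22768005120), (nat_lit 117, nat_lit 22767743040), (nat_lit 67, nat_lit 22751227968), (nat_lit 49, nat_lit 23841484800), (nat_lit 47, nat_lit 23824969728), (nat_lit 49, nat_lit 23824707648), (nat_lit 118, nat_lit 24898449408)]⟩],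
  [W_21593595968, W_21576822848, W_20586696704, W_20586438656, W_20569923584, W_20569665536, W_20553150464, W_19546247168, W_19529732096, W_19529474048, W_19496185856, W_18472767488, W_17382256640]⟩
theorem C_21694263360 : chkRec R_21694263360 = true := by decide +kernel

noncomputable def R_21694267392 : Rec := ⟨nat_lit 21694267392, nat_lit 156,
  [⟨V6_21610119168, [(nat_lit 78, nat_lit 21694267392), (nat_lit 19, nat_lit 22767747072), (nat_lit 104, nat_lit 22751232000), (nat_lit 32, nat_lit 23824711680), (nat_lit 18, nat_lit 23808196608), (nat_lit 14, nat_lit 24881676288), (nat_lit 105, nat_lit 24865161216), (nat_lit 116, nat_lit 25938640896), (nat_lit 10, nat_lit 25922125824), (nat_lit 114, nat_lit 26995605504), (nat_lit 31, nat_lit 26979090432), (nat_lit 3, nat_lit 28052570112)]⟩,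
   ⟨V6_18456256512, [(nat_lit 49, nat_lit 21694267392), (nat_lit 125, nat_lit 22768005120), (nat_lit 82, nat_lit 22751232000), (nat_lit 97, nat_lit 23841742848), (nat_lit 66, nat_lit 23824969728), (nat_lit 20, nat_lit 24898707456)]⟩,
   ⟨V6_17382260736, [(nat_lit 107, nat_lit 21694267392), (nat_lit 5, nat_lit 22767747072), (nat_lit 82, nat_lit 22751232000), (nat_lit 61, nat_lit 23824711680)]⟩],
  [W_21660434432, W_20586696704, W_20569923584, W_20553150464, W_19546505216, W_19529732096, W_18472767488, W_15251812352]⟩
theorem C_21694267392 : chkRec R_21694267392 = true := by decide +kernel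

noncomputable def R_21694517313 : Rec := ⟨nat_lit 21694517313, nat_lit 23,
  [⟨V6_20536889409, [(nat_lit 86, nat_lit 21694517313), (nat_lit 103, nat_lit 22751481921), (nat_lit 13, nat_lit 23808446529), (nat_lit 24, nat_lit 24865411137), (nat_lit 117, nat_lit 25922375745), (nat_lit 31, nat_lit 26979340353)]⟩,
   ⟨V6_16325808192, [(nat_lit 55, nat_lit 21694517313), (nat_lit 9, nat_lit 22768259136)]⟩],
  [W_21643399232, W_21626884160, W_21593854016, W_20619464768, W_20602949696, W_19545985088, W_19529470016]⟩
theorem C_21694517313 : chkRec R_21694517313 = true := by decide +kernel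

noncomputable def R_21694521408 : Rec := ⟨nat_lit 21694521408, nat_lit 228,
  [⟨V6_19546247232, [(nat_lit 17, nat_lit 21694521408), (nat_lit 38, nat_lit 22768259136), (nat_lit 102, nat_lit 22768001088), (nat_lit 47, nat_lit 23841738816), (nat_lit 116, nat_lit 23841480768), (nat_lit 103, nat_lit 24915218496), (nat_lit 16, nat_lit 24914960448), (nat_lit 97, nat_lit 25988698176)]⟩,
   ⟨V6_18456514560, [(nat_lit 72, nat_lit 21694521408), (nat_lit 99, nat_lit 22768263168), (nat_lit 33, nat_lit 22768259136), (nat_lit 55, nat_lit 22751486016), (nat_lit 124, nat_lit 23842000896), (nat_lit 44, nat_lit 23825227776), (nat_lit 87, nat_lit 23825223744), (nat_lit 42, nat_lit 24898965504)]⟩,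
   ⟨V6_17399549952, [(nat_lit 102, nat_lit 21694521408), (nat_lit 39, nat_lit 22768263168), (nat_lit 3, nat_lit 22768259136), (nat_lit 9, nat_lit 23842000896)]⟩,
   ⟨V6_17382776832, [(nat_lit 66, nat_lit 21694521408), (nat_lit 74, nat_lit 22768263168), (nat_lit 107, nat_lit 22751486016), (nat_lit 122, nat_lit 23825227776)]⟩],
  [W_21676691456, W_21659918336, W_21643141184, W_21593858048, W_21593854016, W_21593595968, W_21577080896, W_20603211776, W_20586696704, W_20586438656, W_20569923584, W_20569661504, W_20536893440, W_20520116288, W_19545989120, W_19529732096, W_19529474048, W_19529211968, W_14178328640]⟩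
theorem C_21694521408 : chkRec R_21694521408 = true := by decide +kernel

noncomputable def R_21694525440 : Rec := ⟨nat_lit 21694525440, nat_lit 251,
  [⟨V6_20570443776, [(nat_lit 10, nat_lit 21694525440), (nat_lit 59, nat_lit 22768263168), (nat_lit 1, nat_lit 22751490048), (nat_lit 22, nat_lit 23842000896), (nat_lit 15, nat_lit 23825227776), (nat_lit 36, nat_lit 23808454656), (nat_lit 24, nat_lit 24898965504), (nat_lit 100, nat_lit 24882192384), (nat_lit 9, nat_lit 24865419264), (nat_lit 43, nat_lit 25955930112), (nat_lit 74, nat_lit 25939156992), (nat_lit 28, nat_lit 27012894720)]⟩,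
   ⟨V6_19513479168, [(nat_lit 113, nat_lit 21694525440), (nat_lit 20, nat_lit 22768263168), (nat_lit 50, nat_lit 22751490048), (nat_lit 22, nat_lit 23842000896), (nat_lit 101, nat_lit 23825227776), (nat_lit 89, nat_lit 23808454656), (nat_lit 50, nat_lit 24898965504), (nat_lit 30, nat_lit 24882192384), (nat_lit 106, nat_lit 25955930112)]⟩,
   ⟨V6_18456514560, [(nat_lit 51, nat_lit 21694525440), (nat_lit 12, nat_lit 22768263168), (nat_lit 101, nat_lit 22751490048), (nat_lit 23, nat_lit 23842000896), (nat_lit 57, nat_lit 23825227776), (nat_lit 67, nat_lit 24898965504)]⟩,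
   ⟨V6_17399549952, [(nat_lit 7, nat_lit 21694525440), (nat_lit 74, nat_lit 22768263168), (nat_lit 58, nat_lit 23842000896)]⟩],
  [W_21577084928, W_20569923584, W_20569665536, W_20553150464, W_20536893440, W_20536635392, W_20520120320, W_19546247168, W_19529474048, W_19512700928, W_19496185856, W_19463155712, W_18472509440, W_18455736320, W_17382256640, W_16325292032, W_15251812352, W_15235297280, W_14178332672]⟩
theorem C_21694525440 : chkRec R_21694525440 = true := by decide +kernel

noncomputable def R_21694779456 : Rec := ⟨nat_lit 21694779456, nat_lit 123,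
  [⟨V6_17399549952, [(nat_lit 87, nat_lit 21694779456), (nat_lit 33, nat_lit 22768521216), (nat_lit 23, nat_lit 22768259136), (nat_lit 92, nat_lit 23842000896)]⟩,
   ⟨V6_17383034880, [(nat_lit 46, nat_lit 21694779456), (nat_lit 117, nat_lit 22768521216), (nat_lit 13, nat_lit 22751744064), (nat_lit 35, nat_lit 23825485824)]⟩,
   ⟨V6_15252328512, [(nat_lit 108, nat_lit 21694779456)]⟩],
  [W_21693206528, W_21676691456, W_21660176384, W_21643399232, W_21610369088, W_21594116096, W_21593854016, W_20586696704, W_20586434624, W_20570181632, W_20537151488, W_20520374336, W_19545985088]⟩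
theorem C_21694779456 : chkRec R_21694779456 = true := by decide +kernel

noncomputable def R_21694783488 : Rec := ⟨nat_lit 21694783488, nat_lit 253,
  [⟨V6_19496964096, [(nat_lit 82, nat_lit 21694783488), (nat_lit 37, nat_lit 22768521216), (nat_lit 9, nat_lit 22751748096), (nat_lit 68, nat_lit 23825485824), (nat_lit 117, nat_lit 23808712704), (nat_lit 82, nat_lit 24882450432), (nat_lit 116, nat_lit 24865677312), (nat_lit 12, nat_lit 25939415040)]⟩,
   ⟨V6_18456772608, [(nat_lit 26, nat_lit 21694783488), (nat_lit 30, nat_lit 22768521216), (nat_lit 68, nat_lit 22751748096), (nat_lit 108, nat_lit 23842258944), (nat_lit 88, nat_lit 23825485824), (nat_lit 57, nat_lit 24899223552)]⟩,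
   ⟨V6_18439999488, [(nat_lit 52, nat_lit 21694783488), (nat_lit 91, nat_lit 22768521216), (nat_lit 93, nat_lit 22751748096), (nat_lit 1, nat_lit 23825485824), (nat_lit 119, nat_lit 23808712704), (nat_lit 32, nat_lit 24882450432)]⟩,
   ⟨V6_17399549952, [(nat_lit 8, nat_lit 21694783488), (nat_lit 118, nat_lit 22768521216), (nat_lit 110, nat_lit 22768263168), (nat_lit 36, nat_lit 23842000896)]⟩,
   ⟨V6_17383034880, [(nat_lit 41, nat_lit 21694783488), (nat_lit 72, nat_lit 22768521216), (nat_lit 1, nat_lit 22751748096), (nat_lit 50, nat_lit 23825485824)]⟩],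
  [W_21693464576, W_21676949504, W_21676691456, W_21659918336, W_20603211776, W_20586696704, W_20586438656, W_20569923584, W_20536893440, W_20520378368, W_19546247168, W_19529732096, W_19529474048, W_19463413760, W_18472509440, W_14178590720]⟩
theorem C_21694783488 : chkRec R_21694783488 = true := by decide +kernel

noncomputable def R_21695041536 : Rec := ⟨nat_lit 21695041536, nat_lit 173,
  [⟨V6_21611151360, [(nat_lit 5, nat_lit 21695041536), (nat_lit 34, nat_lit 22768779264), (nat_lit 79, nat_lit 22752006144), (nat_lit 126, nat_lit 23825743872), (nat_lit 95, nat_lit 23808970752), (nat_lit 21, nat_lit 24882708480), (nat_lit 70, nat_lit 24865935360), (nat_lit 39, nat_lit 25939673088), (nat_lit 92, nat_lit 25922899968), (nat_lit 74, nat_lit 26996637696), (nat_lit 54, nat_lit 26979864576), (nat_lit 76, nat_lit 28053602304)]⟩,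
   ⟨V6_18423484416, [(nat_lit 21, nat_lit 21695041536), (nat_lit 92, nat_lit 22752006144), (nat_lit 21, nat_lit 23808970752), (nat_lit 111, nat_lit 24865935360)]⟩,
   ⟨V6_17399549952, [(nat_lit 55, nat_lit 21695041536), (nat_lit 96, nat_lit 22768521216), (nat_lit 94, nat_lit 23842000896)]⟩,
   ⟨V6_17366519808, [(nat_lit 104, nat_lit 21695041536), (nat_lit 91, nat_lit 22752006144), (nat_lit 9, nat_lit 23808970752)]⟩,
   ⟨V6_16326328320, [(nat_lit 26, nat_lit 21695041536), (nat_lit 36, nat_lit 22768779264)]⟩],
  [W_21693464576, W_21693206528, W_21676949504, W_21676691456, W_21660434432, W_21627404288, W_21610889216, W_20619984896, W_20603211776, W_20586696704, W_20537409536, W_20537151488, W_19546505216, W_14178848768]⟩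
theorem C_21695041536 : chkRec R_21695041536 = true := by decide +kernel

end Crest.Agent.R187.SN.Top
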