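import Crest.Agent.R187.SN.Top
import Crest.Agent.R187.SN.TD.X6_2
import Crest.Agent.R187.SN.TD.X6_3
import Crest.Agent.R187.SN.TD.X6_4
import Crest.Agent.R187.SN.TD.X6_5
import Crest.Agent.R187.SN.TD.X6_6
import Crest.Agent.R187.SN.TD.X6_7
import Crest.Agent.R187.SN.TD.X6_8
import Crest.Agent.R187.SN.TD.X6_9
import Crest.Agent.R187.SN.TD.X6_10
import Crest.Agent.R187.SN.TD.X6_11
import Crest.Agent.R187.SN.TD.X6_12
import Crest.Agent.R187.SN.TD.W7_0
import Crest.Agent.R187.SN.TD.W7_1
import Crest.Agent.R187.SN.TD.W7_2
import Crest.Agent.R187.SN.TD.W7_3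

/-!
# Row 187, PLAN S, generated certificate data (mod 127): rank records and checks, chunk 14

Written by a C++ program (helper824).  The tables are only data: every property is checked by
the kernel.
-/

set_option autoImplicit false
set_option maxRecDepth 100000
set_option Elab.async false

namespace Crest.Agent.R187.SN.Top

noncomputable def R_21695299584 : Rec := ⟨nat_lit 21695299584, nat_lit 68,
  [⟨V6_21693726720, [(nat_lit 55, nat_lit 21695299584), (nat_lit 2, nat_lit 22768779264), (nat_lit 80, nat_lit 23842258944), (nat_lit 27, nat_lit 24915738624), (nat_lit 93, nat_lit 25989218304), (nat_lit 58, nat_lit 27062697984), (nat_lit 51, nat_lit 28136177664)]⟩,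
   ⟨V6_20620247040, [(nat_lit 87, nat_lit 21695299584), (nat_lit 117, nat_lit 22768779264), (nat_lit 102, nat_lit 23842258944), (nat_lit 6, nat_lit 24915738624), (nat_lit 87, nat_lit 25989218304), (nat_lit 120, nat_lit 27062697984)]⟩,
   ⟨V6_19480707072, [(nat_lit 34, nat_lit 21695299584), (nat_lit 121, nat_lit 22752264192), (nat_lit 19, nat_lit 23809228800), (nat_lit 87, nat_lit 24866193408), (nat_lit 71, nat_lit 25923158016)]⟩,
   ⟨V6_16326328320, [(nat_lit 63, nat_lit 21695299584), (nat_lit 91, nat_lit 22768779264)]⟩],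
  [W_21676949504, W_20619984896, W_19480444928, W_18456510464, W_17350000640]⟩
theorem C_21695299584 : chkRec R_21695299584 = true := by decide +kernel

noncomputable def R_21710250114 : Rec := ⟨nat_lit 21710250114, nat_lit 4,
  [⟨V6_18472247424, [(nat_lit 99, nat_lit 21710250114), (nat_lit 12, nat_lit 22783991937), (nat_lit 111, nat_lit 22767214722), (nat_lit 35, nat_lit 23857733760), (nat_lit 50, nat_lit 23840956545), (nat_lit 86, nat_lit 24914698368)]⟩],
  [W_20569399424, W_16341540992]⟩
theorem C_21710250114 : chkRec R_21710250114 = true := by decide +kernel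

noncomputable def R_21710512257 : Rec := ⟨nat_lit 21710512257, nat_lit 14,
  [⟨V6_18455732352, [(nat_lit 22, nat_lit 21710512257), (nat_lit 33, nat_lit 22784254080), (nat_lit 29, nat_lit 22767476865), (nat_lit 84, nat_lit 23841218688), (nat_lit 118, nat_lit 23824441473), (nat_lit 88, nat_lit 24898183296)]⟩],
  [W_21643141184, W_21626626112, W_17415282752, W_16341540992]⟩
theorem C_21710512257 : chkRec R_21710512257 = true := by decide +kernel

noncomputable def R_21710516289 : Rec := ⟨nat_lit 21710516289, nat_lit 13,
  [⟨V6_19495923777, [(nat_lit 58, nat_lit 21710516289), (nat_lit 109, nat_lit 22767480897), (nat_lit 18, nat_lit 23824445505), (nat_lit 17, nat_lit 24881410113), (nat_lit 20, nat_lit 25938374721)]⟩,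
   ⟨V6_16341803073, [(nat_lit 96, nat_lit 21710516289), (nat_lit 4, nat_lit 22784254017)]⟩,
   ⟨V6_15268065345, [(nat_lit 102, nat_lit 21710516289)]⟩],
  [W_21643399232, W_18472505408, W_16325029952]⟩
theorem C_21710516289 : chkRec R_21710516289 = true := by decide +kernel

noncomputable def R_21710516352 : Rec := ⟨nat_lit 21710516352, nat_lit 24,
  [⟨V6_21643407360, [(nat_lit 34, nat_lit 21710516352), (nat_lit 62, nat_lit 22784258112), (nat_lit 26, nat_lit 22767480960), (nat_lit 69, nat_lit 23857999872), (nat_lit 3, nat_lit 23841222720), (nat_lit 39, nat_lit 23824445568), (nat_lit 105, nat_lit 24914964480), (nat_lit 69, nat_lit 24898187328), (nat_lit 100, nat_lit 24881410176), (nat_lit 112, nat_lit 25971929088), (nat_lit 54, nat_lit 25955151936), (nat_lit 62, nat_lit 25938374784), (nat_lit 74, nat_lit 27028893696), (nat_lit 27, nat_lit 27012116544), (nat_lit 41, nat_lit 28085858304)]⟩,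
   ⟨V6_18455732352, [(nat_lit 43, nat_lit 21710516352), (nat_lit 38, nat_lit 22784254080), (nat_lit 110, nat_lit 22767480960), (nat_lit 107, nat_lit 23841218688), (nat_lit 1, nat_lit 23824445568), (nat_lit 33, nat_lit 24898183296)]⟩],
  [W_18472509440, W_17415544832, W_16341803072, W_16325029952]⟩
theorem C_21710516352 : chkRec R_21710516352 = true := by decide +kernel

noncomputable def R_21710774337 : Rec := ⟨nat_lit 21710774337, nat_lit 30,
  [⟨V6_20553146433, [(nat_lit 61, nat_lit 21710774337), (nat_lit 57, nat_lit 22767738945), (nat_lit 123, nat_lit 23824703553), (nat_lit 54, nat_lit 24881668161), (nat_lit 1, nat_lit 25938632769), (nat_lit 21, nat_lit 26995597377)]⟩,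
   ⟨V6_19545985089, [(nat_lit 105, nat_lit 21710774337), (nat_lit 21, nat_lit 22784512065), (nat_lit 36, nat_lit 22784254017), (nat_lit 124, nat_lit 22767738945), (nat_lit 97, nat_lit 23857991745), (nat_lit 25, nat_lit 23857733697), (nat_lit 67, nat_lit 23841476673), (nat_lit 24, nat_lit 23841218625), (nat_lit 71, nat_lit 24931471425), (nat_lit 32, nat_lit 24914956353), (nat_lit 23, nat_lit 24914698305), (nat_lit 55, nat_lit 25988436033)]⟩,
   ⟨V6_19512954945, [(nat_lit 103, nat_lit 21710774337), (nat_lit 107, nat_lit 22784512065), (nat_lit 21, nat_lit 22767738945), (nat_lit 99, nat_lit 23841476673), (nat_lit 24, nat_lit 23824703553), (nat_lit 119, nat_lit 24898441281), (nat_lit 104, nat_lit 24881668161), (nat_lit 69, nat_lit 25955405889)]⟩,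
   ⟨V6_18472505409, [(nat_lit 29, nat_lit 21710774337), (nat_lit 15, nat_lit 22784512065), (nat_lit 16, nat_lit 22784254017), (nat_lit 115, nat_lit 22767738945), (nat_lit 75, nat_lit 23857991745), (nat_lit 80, nat_lit 23841476673), (nat_lit 45, nat_lit 23841218625), (nat_lit 107, nat_lit 24914956353)]⟩,
   ⟨V6_18439217217, [(nat_lit 50, nat_lit 21710774337), (nat_lit 52, nat_lit 22767738945), (nat_lit 84, nat_lit 23824703553), (nat_lit 34, nat_lit 24881668161)]⟩],
  [W_21659914304, W_21643141184, W_21626884160, W_19545985088, W_19529211968, W_18489020480, W_17415282752, W_16342061120]⟩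
theorem C_21710774337 : chkRec R_21710774337 = true := by decide +kernel

noncomputable def R_21710774400 : Rec := ⟨nat_lit 21710774400, nat_lit 77,
  [⟨V6_20586700800, [(nat_lit 75, nat_lit 21710774400), (nat_lit 34, nat_lit 22784516160), (nat_lit 31, nat_lit 22767739008), (nat_lit 115, nat_lit 23858257920), (nat_lit 47, nat_lit 23841480768), (nat_lit 43, nat_lit 23824703616), (nat_lit 49, nat_lit 24915222528), (nat_lit 112, nat_lit 24898445376), (nat_lit 104, nat_lit 24881668224), (nat_lit 70, nat_lit 25972187136), (nat_lit 50, nat_lit 25955409984), (nat_lit 77, nat_lit 27029151744)]⟩,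
   ⟨V6_18455732352, [(nat_lit 56, nat_lit 21710774400), (nat_lit 41, nat_lit 22784254080), (nat_lit 89, nat_lit 22767739008), (nat_lit 120, nat_lit 23841218688), (nat_lit 61, nat_lit 23824703616), (nat_lit 10, nat_lit 24898183296)]⟩],
  [W_21659918336, W_20569923584, W_20569399424, W_19545989120, W_18489024512, W_18472247360, W_17415544832, W_16342065152, W_16341540992]⟩
theorem C_21710774400 : chkRec R_21710774400 = true := by decide +kernel

noncomputable def R_21710778432 : Rec := ⟨nat_lit 21710778432, nat_lit 115,
  [⟨V6_19546247232, [(nat_lit 10, nat_lit 21710778432), (nat_lit 20, nat_lit 22784516160), (nat_lit 57, nat_lit 22784258112), (nat_lit 17, nat_lit 22767743040), (nat_lit 4, nat_lit 23858253888), (nat_lit 25, nat_lit 23857995840), (nat_lit 72, nat_lit 23841480768), (nat_lit 25, nat_lit 23841222720), (nat_lit 85, nat_lit 24931733568), (nat_lit 43, nat_lit 24915218496), (nat_lit 59, nat_lit 24914960448), (nat_lit 121, nat_lit 25988698176)]⟩,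
   ⟨V6_19512963072, [(nat_lit 120, nat_lit 21710778432), (nat_lit 2, nat_lit 22784520192), (nat_lit 7, nat_lit 22767743040), (nat_lit 123, nat_lit 23841484800), (nat_lit 43, nat_lit 23824707648), (nat_lit 21, nat_lit 24898449408), (nat_lit 21, nat_lit 24881672256), (nat_lit 110, nat_lit 25955414016)]⟩,
   ⟨V6_18455998464, [(nat_lit 88, nat_lit 21710778432), (nat_lit 84, nat_lit 22784520192), (nat_lit 97, nat_lit 22767743040), (nat_lit 12, nat_lit 23841484800), (nat_lit 23, nat_lit 23824707648), (nat_lit 69, nat_lit 24898449408)]⟩],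
  [W_21593337920, W_20603211776, W_20586696704, W_20586438656, W_20569923584, W_19529732096, W_17415544832, W_16341807104]⟩
theorem C_21710778432 : chkRec R_21710778432 = true := by decide +kernel

noncomputable def R_21710782464 : Rec := ⟨nat_lit 21710782464, nat_lit 87,
  [⟨V6_18439225344, [(nat_lit 112, nat_lit 21710782464), (nat_lit 86, nat_lit 22767747072), (nat_lit 51, nat_lit 23824711680), (nat_lit 66, nat_lit 24881676288)]⟩,
   ⟨V6_17382260736, [(nat_lit 57, nat_lit 21710782464), (nat_lit 116, nat_lit 22767747072), (nat_lit 73, nat_lit 23824711680)]⟩,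
   ⟨V6_16325296128, [(nat_lit 45, nat_lit 21710782464), (nat_lit 84, nat_lit 22767747072)]⟩,
   ⟨V6_15268331520, [(nat_lit 68, nat_lit 21710782464)]⟩],
  [W_21660434432, W_19546505216, W_19529732096, W_18489540608, W_18472767488, W_15268327424]⟩
theorem C_21710782464 : chkRec R_21710782464 = true := by decide +kernel

noncomputable def R_21711032385 : Rec := ⟨nat_lit 21711032385, nat_lit 19,
  [⟨V6_21610369089, [(nat_lit 58, nat_lit 21711032385), (nat_lit 13, nat_lit 22767996993), (nat_lit 84, nat_lit 23824961601), (nat_lit 77, nat_lit 24881926209), (nat_lit 11, nat_lit 25938890817), (nat_lit 51, nat_lit 26995855425), (nat_lit 41, nat_lit 28052820033)]⟩,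
   ⟨V6_16342323264, [(nat_lit 60, nat_lit 21711032385), (nat_lit 56, nat_lit 22784774208)]⟩],
  [W_21659914304, W_21626884160, W_21610369088, W_20586434624]⟩
theorem C_21711032385 : chkRec R_21711032385 = true := by decide +kernel

noncomputable def R_21711036480 : Rec := ⟨nat_lit 21711036480, nat_lit 169,
  [⟨V6_19513221120, [(nat_lit 65, nat_lit 21711036480), (nat_lit 54, nat_lit 22784778240), (nat_lit 62, nat_lit 22768001088), (nat_lit 19, nat_lit 23841742848), (nat_lit 18, nat_lit 23824965696), (nat_lit 59, nat_lit 24898707456), (nat_lit 59, nat_lit 24881930304), (nat_lit 49, nat_lit 25955672064)]⟩,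
   ⟨V6_18456256512, [(nat_lit 44, nat_lit 21711036480), (nat_lit 42, nat_lit 22784778240), (nat_lit 112, nat_lit 22768001088), (nat_lit 6, nat_lit 23841742848), (nat_lit 75, nat_lit 23824965696), (nat_lit 98, nat_lit 24898707456)]⟩],
  [W_21676691456, W_21659918336, W_21659914304, W_21643141184, W_20603211776, W_20602949696, W_20586696704, W_20569923584, W_19546247168, W_19545985088, W_19529732096, W_18489282560, W_18489024512, W_18489020480, W_18472505408, W_15268581440]⟩
theorem C_21711036480 : chkRec R_21711036480 = true := by decide +kernel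

noncomputable def R_21711040512 : Rec := ⟨nat_lit 21711040512, nat_lit 172,
  [⟨V6_19513221120, [(nat_lit 46, nat_lit 21711040512), (nat_lit 119, nat_lit 22784778240), (nat_lit 39, nat_lit 22768005120), (nat_lit 48, nat_lit 23841742848), (nat_lit 120, nat_lit 23824969728), (nat_lit 69, nat_lit 24898707456), (nat_lit 108, nat_lit 24881934336), (nat_lit 75, nat_lit 25955672064)]⟩,
   ⟨V6_18456256512, [(nat_lit 65, nat_lit 21711040512), (nat_lit 22, nat_lit 22784778240), (nat_lit 57, nat_lit 22768005120), (nat_lit 82, nat_lit 23841742848), (nat_lit 34, nat_lit 23824969728), (nat_lit 106, nat_lit 24898707456)]⟩,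
   ⟨V6_18455998464, [(nat_lit 22, nat_lit 21711040512), (nat_lit 23, nat_lit 22784520192), (nat_lit 52, nat_lit 22768005120), (nat_lit 45, nat_lit 23841484800), (nat_lit 89, nat_lit 23824969728), (nat_lit 105, nat_lit 24898449408)]⟩],
  [W_21676949504, W_21660434432, W_20619984896, W_20603211776, W_20586696704, W_20569923584, W_19563020288, W_19546247168, W_18489282560, W_17416060928, W_15268585472, W_15268327424]⟩
theorem C_21711040512 : chkRec R_21711040512 = true := by decide +kernel

noncomputable def R_21711294528 : Rec := ⟨nat_lit 21711294528, nat_lit 101,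
  [⟨V6_21627408384, [(nat_lit 123, nat_lit 21711294528), (nat_lit 41, nat_lit 22785036288), (nat_lit 94, nat_lit 22768259136), (nat_lit 105, nat_lit 23842000896), (nat_lit 40, nat_lit 23825223744), (nat_lit 54, nat_lit 24898965504), (nat_lit 34, nat_lit 24882188352), (nat_lit 18, nat_lit 25955930112), (nat_lit 10, nat_lit 25939152960), (nat_lit 20, nat_lit 27012894720), (nat_lit 28, nat_lit 26996117568), (nat_lit 123, nat_lit 28069859328)]⟩,
   ⟨V6_17399549952, [(nat_lit 104, nat_lit 21711294528), (nat_lit 26, nat_lit 22785036288), (nat_lit 30, nat_lit 22768259136), (nat_lit 15, nat_lit 23842000896)]⟩],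
  [W_21693206528, W_21676691456, W_20636241920, W_20603211776, W_19562762240, W_19546247168, W_19529732096, W_18489282560, W_18489020480, W_18472505408]⟩
theorem C_21711294528 : chkRec R_21711294528 = true := by decide +kernel

noncomputable def R_21711298560 : Rec := ⟨nat_lit 21711298560, nat_lit 236,
  [⟨V6_18439741440, [(nat_lit 76, nat_lit 21711298560), (nat_lit 13, nat_lit 22768263168), (nat_lit 21, nat_lit 23825227776), (nat_lit 72, nat_lit 24882192384)]⟩,
   ⟨V6_17399549952, [(nat_lit 108, nat_lit 21711298560), (nat_lit 66, nat_lit 22785036288), (nat_lit 70, nat_lit 22768263168), (nat_lit 115, nat_lit 23842000896)]⟩,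
   ⟨V6_17382776832, [(nat_lit 40, nat_lit 21711298560), (nat_lit 97, nat_lit 22768263168), (nat_lit 49, nat_lit 23825227776)]⟩],
  [W_21693464576, W_21676949504, W_21676691456, W_21660434432, W_21659918336, W_21627404288, W_21593858048, W_20636499968, W_20619984896, W_20603211776, W_20586696704, W_20586438656, W_20569923584, W_20536893440, W_19546247168]⟩
theorem C_21711298560 : chkRec R_21711298560 = true := by decide +kernel

noncomputable def R_21711556608 : Rec := ⟨nat_lit 21711556608, nat_lit 168,
  [⟨V6_18456772608, [(nat_lit 43, nat_lit 21711556608), (nat_lit 101, nat_lit 22785294336), (nat_lit 115, nat_lit 22768521216), (nat_lit 46, nat_lit 23842258944), (nat_lit 58, nat_lit 23825485824), (nat_lit 34, nat_lit 24899223552)]⟩,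
   ⟨V6_18439999488, [(nat_lit 92, nat_lit 21711556608), (nat_lit 116, nat_lit 22768521216), (nat_lit 119, nat_lit 23825485824), (nat_lit 27, nat_lit 24882450432)]⟩,
   ⟨V6_17399549952, [(nat_lit 110, nat_lit 21711556608), (nat_lit 39, nat_lit 22785036288), (nat_lit 29, nat_lit 22768521216), (nat_lit 74, nat_lit 23842000896)]⟩,
   ⟨V6_17383034880, [(nat_lit 13, nat_lit 21711556608), (nat_lit 22, nat_lit 22768521216), (nat_lit 108, nat_lit 23825485824)]⟩],
  [W_21693464576, W_21693206528, W_21676949504, W_21676691456, W_21660434432, W_21627404288, W_21610889216, W_21594116096, W_20636499968, W_20619984896, W_20603211776, W_19563020288, W_19562762240, W_19546505216, W_15269101568, W_15268843520]⟩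
theorem C_21711556608 : chkRec R_21711556608 = true := by decide +kernel

noncomputable def R_21711814656 : Rec := ⟨nat_lit 21711814656, nat_lit 89,
  [⟨V6_21693726720, [(nat_lit 35, nat_lit 21711814656), (nat_lit 114, nat_lit 22785294336), (nat_lit 11, nat_lit 22768779264), (nat_lit 63, nat_lit 23858774016), (nat_lit 8, nat_lit 23842258944), (nat_lit 22, nat_lit 24932253696), (nat_lit 29, nat_lit 24915738624), (nat_lit 124, nat_lit 26005733376), (nat_lit 86, nat_lit 25989218304), (nat_lit 23, nat_lit 27079213056), (nat_lit 126, nat_lit 27062697984), (nat_lit 61, nat_lit 28136177664)]⟩,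
   ⟨V6_20554186752, [(nat_lit 80, nat_lit 21711814656), (nat_lit 81, nat_lit 22768779264), (nat_lit 1, nat_lit 23825743872), (nat_lit 50, nat_lit 24882708480), (nat_lit 95, nat_lit 25939673088), (nat_lit 90, nat_lit 26996637696)]⟩,
   ⟨V6_18456772608, [(nat_lit 15, nat_lit 21711814656), (nat_lit 101, nat_lit 22785294336), (nat_lit 1, nat_lit 22768779264), (nat_lit 115, nat_lit 23842258944), (nat_lit 62, nat_lit 23825743872), (nat_lit 4, nat_lit 24899223552)]⟩,
   ⟨V6_16326328320, [(nat_lit 30, nat_lit 21711814656), (nat_lit 56, nat_lit 22768779264)]⟩],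
  [W_21709979648, W_21676949504, W_21610889216, W_20619984896, W_20537409536, W_19563020288, W_19480444928, W_17416060928, W_15269101568]⟩
theorem C_21711814656 : chkRec R_21711814656 = true := by decide +kernel

noncomputable def R_21727027329 : Rec := ⟨nat_lit 21727027329, nat_lit 6,
  [⟨V6_21643141185, [(nat_lit 57, nat_lit 21727027329), (nat_lit 6, nat_lit 22800769089), (nat_lit 33, nat_lit 22783991937), (nat_lit 27, nat_lit 23857733697), (nat_lit 40, nat_lit 23840956545), (nat_lit 124, nat_lit 24914698305), (nat_lit 101, nat_lit 24897921153), (nat_lit 68, nat_lit 25971662913), (nat_lit 38, nat_lit 25954885761), (nat_lit 24, nat_lit 27028627521), (nat_lit 31, nat_lit 27011850369), (nat_lit 96, nat_lit 28085592129)]⟩,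
   ⟨V6_16358318208, [(nat_lit 84, nat_lit 21727027329), (nat_lit 53, nat_lit 22800769152)]⟩,
   ⟨V6_16358318145, [(nat_lit 122, nat_lit 21727027329), (nat_lit 81, nat_lit 22800769089)]⟩,
   ⟨V6_16341540993, [(nat_lit 67, nat_lit 21727027329), (nat_lit 63, nat_lit 22783991937)]⟩],
  [W_19529211968, W_16341540992]⟩
theorem C_21727027329 : chkRec R_21727027329 = true := by decide +kernel

noncomputable def R_21727289409 : Rec := ⟨nat_lit 21727289409, nat_lit 15,
  [⟨V6_20569661505, [(nat_lit 91, nat_lit 21727289409), (nat_lit 56, nat_lit 22784254017), (nat_lit 43, nat_lit 23841218625), (nat_lit 23, nat_lit 24898183233), (nat_lit 67, nat_lit 25955147841), (nat_lit 56, nat_lit 27012112449)]⟩,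
   ⟨V6_18472505409, [(nat_lit 22, nat_lit 21727289409), (nat_lit 86, nat_lit 22801027137), (nat_lit 96, nat_lit 22784254017), (nat_lit 118, nat_lit 23857991745), (nat_lit 65, nat_lit 23841218625), (nat_lit 105, nat_lit 24914956353)]⟩,
   ⟨V6_16358318145, [(nat_lit 76, nat_lit 21727289409), (nat_lit 23, nat_lit 22800769089)]⟩,
   ⟨V6_16341803073, [(nat_lit 24, nat_lit 21727289409), (nat_lit 51, nat_lit 22784254017)]⟩],
  [W_21659914304, W_21643141184, W_20586434624, W_16358576192]⟩
theorem C_21727289409 : chkRec R_21727289409 = true := by decide +kernel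

noncomputable def R_21727289472 : Rec := ⟨nat_lit 21727289472, nat_lit 34,
  [⟨V6_19562766336, [(nat_lit 55, nat_lit 21727289472), (nat_lit 12, nat_lit 22801031232), (nat_lit 16, nat_lit 22800769152), (nat_lit 1, nat_lit 22784254080), (nat_lit 71, nat_lit 23874772992), (nat_lit 124, nat_lit 23874510912), (nat_lit 42, nat_lit 23857995840), (nat_lit 7, nat_lit 23857733760), (nat_lit 125, nat_lit 24948252672), (nat_lit 112, nat_lit 24931737600), (nat_lit 45, nat_lit 24931475520), (nat_lit 1, nat_lit 26005217280)]⟩,
   ⟨V6_18455732352, [(nat_lit 19, nat_lit 21727289472), (nat_lit 30, nat_lit 22784254080), (nat_lit 112, nat_lit 23841218688), (nat_lit 31, nat_lit 24898183296)]⟩],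
  [W_21659918336, W_21643141184, W_20586438656, W_16358580224]⟩
theorem C_21727289472 : chkRec R_21727289472 = true := by decide +kernel

noncomputable def R_21727293504 : Rec := ⟨nat_lit 21727293504, nat_lit 38,
  [⟨V6_21643407360, [(nat_lit 94, nat_lit 21727293504), (nat_lit 41, nat_lit 22801035264), (nat_lit 122, nat_lit 22784258112), (nat_lit 124, nat_lit 23857999872), (nat_lit 47, nat_lit 23841222720), (nat_lit 31, nat_lit 24914964480), (nat_lit 10, nat_lit 24898187328), (nat_lit 37, nat_lit 25971929088), (nat_lit 36, nat_lit 25955151936), (nat_lit 112, nat_lit 27028893696), (nat_lit 64, nat_lit 27012116544), (nat_lit 78, nat_lit 28085858304)]⟩,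
   ⟨V6_19546247232, [(nat_lit 21, nat_lit 21727293504), (nat_lit 78, nat_lit 22801031232), (nat_lit 27, nat_lit 22784258112), (nat_lit 32, nat_lit 23874768960), (nat_lit 50, nat_lit 23857995840), (nat_lit 102, nat_lit 23841222720), (nat_lit 22, nat_lit 24931733568), (nat_lit 19, nat_lit 24914960448), (nat_lit 74, nat_lit 25988698176)]⟩,
   ⟨V6_16358584320, [(nat_lit 92, nat_lit 21727293504), (nat_lit 58, nat_lit 22801035264)]⟩],
  [W_20603211776, W_17432317952, W_17415544832, W_16358580224, W_16358576192, W_16341807104]⟩
theorem C_21727293504 : chkRec R_21727293504 = true := by decide +kernel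

noncomputable def R_21727547457 : Rec := ⟨nat_lit 21727547457, nat_lit 11,
  [⟨V6_19579277376, [(nat_lit 7, nat_lit 21727547457), (nat_lit 2, nat_lit 22801289280), (nat_lit 93, nat_lit 22801027137), (nat_lit 18, nat_lit 23874768960), (nat_lit 55, nat_lit 23874506817), (nat_lit 92, nat_lit 24948248640), (nat_lit 62, nat_lit 24947986497), (nat_lit 98, nat_lit 26021728320)]⟩,
   ⟨V6_19512954945, [(nat_lit 87, nat_lit 21727547457), (nat_lit 37, nat_lit 22784512065), (nat_lit 5, nat_lit 23841476673), (nat_lit 26, nat_lit 24898441281), (nat_lit 78, nat_lit 25955405889)]⟩,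
   ⟨V6_17399025729, [(nat_lit 49, nat_lit 21727547457), (nat_lit 99, nat_lit 22784512065), (nat_lit 37, nat_lit 23841476673)]⟩],
  [W_21643399232, W_21626884160, W_20619464768, W_16358576192]⟩
theorem C_21727547457 : chkRec R_21727547457 = true := by decide +kernel

noncomputable def R_21727551552 : Rec := ⟨nat_lit 21727551552, nat_lit 109,
  [⟨V6_20586700800, [(nat_lit 40, nat_lit 21727551552), (nat_lit 89, nat_lit 22801293312), (nat_lit 22, nat_lit 22784516160), (nat_lit 70, nat_lit 23858257920), (nat_lit 63, nat_lit 23841480768), (nat_lit 43, nat_lit 24915222528), (nat_lit 47, nat_lit 24898445376), (nat_lit 89, nat_lit 25972187136), (nat_lit 126, nat_lit 25955409984), (nat_lit 16, nat_lit 27029151744)]⟩,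
   ⟨V6_19546247232, [(nat_lit 120, nat_lit 21727551552), (nat_lit 121, nat_lit 22801289280), (nat_lit 37, nat_lit 22801031232), (nat_lit 29, nat_lit 22784516160), (nat_lit 13, nat_lit 23874768960), (nat_lit 122, nat_lit 23858253888), (nat_lit 90, nat_lit 23857995840), (nat_lit 56, nat_lit 23841480768), (nat_lit 34, nat_lit 24931733568), (nat_lit 68, nat_lit 24915218496), (nat_lit 57, nat_lit 24914960448), (nat_lit 79, nat_lit 25988698176)]⟩,
   ⟨V6_19529732160, [(nat_lit 3, nat_lit 21727551552), (nat_lit 118, nat_lit 22801289280), (nat_lit 107, nat_lit 22784516160), (nat_lit 58, nat_lit 23858253888), (nat_lit 27, nat_lit 23841480768), (nat_lit 44, nat_lit 24915218496), (nat_lit 101, nat_lit 24898445376), (nat_lit 107, nat_lit 25972183104)]⟩],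
  [W_21676691456, W_21659918336, W_20603211776, W_19562762240, W_19545989120, W_18489282560, W_18489024512, W_18472767488, W_17415802880, W_16358838272, W_16358580224]⟩
theorem C_21727551552 : chkRec R_21727551552 = true := by decide +kernel

noncomputable def R_21727555584 : Rec := ⟨nat_lit 21727555584, nat_lit 104,
  [⟨V6_20569927680, [(nat_lit 119, nat_lit 21727555584), (nat_lit 83, nat_lit 22784520192), (nat_lit 66, nat_lit 23841484800), (nat_lit 118, nat_lit 24898449408), (nat_lit 29, nat_lit 25955414016), (nat_lit 83, nat_lit 27012378624)]⟩,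
   ⟨V6_18455998464, [(nat_lit 38, nat_lit 21727555584), (nat_lit 60, nat_lit 22784520192), (nat_lit 97, nat_lit 23841484800), (nat_lit 62, nat_lit 24898449408)]⟩,
   ⟨V6_16358584320, [(nat_lit 80, nat_lit 21727555584), (nat_lit 99, nat_lit 22801035264)]⟩],
  [W_21676949504, W_21660434432, W_19563020288, W_19546247168, W_18506055680, W_18489540608, W_18489282560, W_17432317952, W_16358838272, W_16358580224, W_16341807104]⟩
theorem C_21727555584 : chkRec R_21727555584 = true := by decide +kernel

noncomputable def R_21727809600 : Rec := ⟨nat_lit 21727809600, nat_lit 76,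
  [⟨V6_19546247232, [(nat_lit 31, nat_lit 21727809600), (nat_lit 27, nat_lit 22801289280), (nat_lit 34, nat_lit 22784774208), (nat_lit 44, nat_lit 23874768960), (nat_lit 112, nat_lit 23858253888), (nat_lit 19, nat_lit 23841738816), (nat_lit 34, nat_lit 24931733568), (nat_lit 23, nat_lit 24915218496), (nat_lit 17, nat_lit 25988698176)]⟩,
   ⟨V6_19529732160, [(nat_lit 57, nat_lit 21727809600), (nat_lit 104, nat_lit 22801289280), (nat_lit 27, nat_lit 22784774208), (nat_lit 47, nat_lit 23858253888), (nat_lit 37, nat_lit 23841738816), (nat_lit 112, nat_lit 24915218496), (nat_lit 121, nat_lit 24898703424), (nat_lit 99, nat_lit 25972183104)]⟩,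
   ⟨V6_18456252480, [(nat_lit 58, nat_lit 21727809600), (nat_lit 125, nat_lit 22784774208), (nat_lit 1, nat_lit 23841738816), (nat_lit 108, nat_lit 24898703424)]⟩],
  [W_21693206528, W_21676691456, W_20586696704, W_19579277312, W_19562762240, W_19529732096, W_16358838272]⟩
theorem C_21727809600 : chkRec R_21727809600 = true := by decide +kernel

noncomputable def R_21727813632 : Rec := ⟨nat_lit 21727813632, nat_lit 162,
  [⟨V6_21676695552, [(nat_lit 77, nat_lit 21727813632), (nat_lit 53, nat_lit 22801293312), (nat_lit 2, nat_lit 22784778240), (nat_lit 86, nat_lit 23874772992), (nat_lit 41, nat_lit 23858257920), (nat_lit 39, nat_lit 23841742848), (nat_lit 80, nat_lit 24948252672), (nat_lit 62, nat_lit 24931737600), (nat_lit 111, nat_lit 24915222528), (nat_lit 121, nat_lit 24898707456), (nat_lit 41, nat_lit 26005217280), (nat_lit 39, nat_lit 25988702208), (nat_lit 108, nat_lit 25972187136), (nat_lit 58, nat_lit 27062181888), (nat_lit 92, nat_lit 27045666816), (nat_lit 14, nat_lit 28119146496)]⟩,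
   ⟨V6_19513221120, [(nat_lit 38, nat_lit 21727813632), (nat_lit 22, nat_lit 22784778240), (nat_lit 27, nat_lit 23841742848), (nat_lit 115, nat_lit 24898707456), (nat_lit 91, nat_lit 25955672064)]⟩,
   ⟨V6_18456256512, [(nat_lit 40, nat_lit 21727813632), (nat_lit 3, nat_lit 22784778240), (nat_lit 62, nat_lit 23841742848), (nat_lit 92, nat_lit 24898707456)]⟩],
  [W_21676949504, W_21676691456, W_21660434432, W_21659918336, W_20636499968, W_20619984896, W_20603211776, W_19579535360, W_19563020288, W_19546247168, W_18489282560, W_18489024512, W_17416060928]⟩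
theorem C_21727813632 : chkRec R_21727813632 = true := by decide +kernel

noncomputable def R_21728071680 : Rec := ⟨nat_lit 21728071680, nat_lit 143,
  [⟨V6_21627408384, [(nat_lit 110, nat_lit 21728071680), (nat_lit 33, nat_lit 22785036288), (nat_lit 31, nat_lit 23842000896), (nat_lit 15, nat_lit 24898965504), (nat_lit 101, nat_lit 25955930112), (nat_lit 21, nat_lit 27012894720), (nat_lit 55, nat_lit 28069859328)]⟩,
   ⟨V6_18456514560, [(nat_lit 120, nat_lit 21728071680), (nat_lit 9, nat_lit 22785036288), (nat_lit 59, nat_lit 23842000896), (nat_lit 22, nat_lit 24898965504)]⟩,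
   ⟨V6_17399549952, [(nat_lit 126, nat_lit 21728071680), (nat_lit 55, nat_lit 22785036288), (nat_lit 77, nat_lit 23842000896)]⟩],
  [W_21709979648, W_21693464576, W_21676949504, W_20653015040, W_20636499968, W_20619984896, W_20586696704, W_19579535360, W_19579277312, W_19563020288, W_19562762240, W_19546247168, W_18489282560]⟩
theorem C_21728071680 : chkRec R_21728071680 = true := by decide +kernel

noncomputable def R_21728329728 : Rec := ⟨nat_lit 21728329728, nat_lit 74,
  [⟨V6_21726756864, [(nat_lit 61, nat_lit 21728329728), (nat_lit 22, nat_lit 22801809408), (nat_lit 8, nat_lit 23875289088), (nat_lit 84, nat_lit 24948768768), (nat_lit 74, nat_lit 26022248448), (nat_lit 43, nat_lit 27095728128), (nat_lit 98, nat_lit 28169207808)]⟩,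
   ⟨V6_20620247040, [(nat_lit 51, nat_lit 21728329728), (nat_lit 7, nat_lit 22801809408), (nat_lit 48, nat_lit 22785294336), (nat_lit 10, nat_lit 23875289088), (nat_lit 50, nat_lit 23858774016), (nat_lit 7, nat_lit 23842258944), (nat_lit 63, nat_lit 24948768768), (nat_lit 30, nat_lit 24932253696), (nat_lit 125, nat_lit 24915738624), (nat_lit 35, nat_lit 26005733376), (nat_lit 68, nat_lit 25989218304), (nat_lit 13, nat_lit 27062697984)]⟩,
   ⟨V6_18456772608, [(nat_lit 120, nat_lit 21728329728), (nat_lit 9, nat_lit 22785294336), (nat_lit 59, nat_lit 23842258944), (nat_lit 22, nat_lit 24899223552)]⟩,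
   ⟨V6_16359358464, [(nat_lit 60, nat_lit 21728329728), (nat_lit 26, nat_lit 22801809408)]⟩],
  [W_21676949504, W_21627404288, W_21610889216, W_18456510464, W_17432576000, W_16359096320]⟩
theorem C_21728329728 : chkRec R_21728329728 = true := by decide +kernel

noncomputable def R_21743804481 : Rec := ⟨nat_lit 21743804481, nat_lit 4,
  [⟨V6_18505797696, [(nat_lit 27, nat_lit 21743804481), (nat_lit 33, nat_lit 22817546304), (nat_lit 33, nat_lit 22817542209), (nat_lit 15, nat_lit 22800769089), (nat_lit 93, nat_lit 23891284032), (nat_lit 86, nat_lit 23874510912), (nat_lit 79, nat_lit 23874506817), (nat_lit 46, nat_lit 24948248640)]⟩],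
  [W_21643141184]⟩
theorem C_21743804481 : chkRec R_21743804481 = true := by decide +kernel

noncomputable def R_21743804544 : Rec := ⟨nat_lit 21743804544, nat_lit 15,
  [⟨V6_19562766336, [(nat_lit 76, nat_lit 21743804544), (nat_lit 12, nat_lit 22817546304), (nat_lit 57, nat_lit 22800769152), (nat_lit 80, nat_lit 23891288064), (nat_lit 13, nat_lit 23874510912), (nat_lit 86, nat_lit 23857733760), (nat_lit 37, nat_lit 24948252672), (nat_lit 37, nat_lit 24931475520), (nat_lit 11, nat_lit 26005217280)]⟩],
  [W_21659918336, W_21626364032, W_20569399424]⟩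
theorem C_21743804544 : chkRec R_21743804544 = true := by decide +kernel

noncomputable def R_21744062529 : Rec := ⟨nat_lit 21744062529, nat_lit 6,
  [⟨V6_18505797696, [(nat_lit 85, nat_lit 21744062529), (nat_lit 40, nat_lit 22817804352), (nat_lit 73, nat_lit 22817542209), (nat_lit 96, nat_lit 22801027137), (nat_lit 108, nat_lit 23891284032), (nat_lit 122, nat_lit 23874768960), (nat_lit 42, nat_lit 23874506817), (nat_lit 47, nat_lit 24948248640)]⟩,
   ⟨V6_18472505409, [(nat_lit 102, nat_lit 21744062529), (nat_lit 25, nat_lit 22801027137), (nat_lit 80, nat_lit 23857991745), (nat_lit 29, nat_lit 24914956353)]⟩],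
  [W_21659914304, W_21643399232]⟩
theorem C_21744062529 : chkRec R_21744062529 = true := by decide +kernel

noncomputable def R_21744066624 : Rec := ⟨nat_lit 21744066624, nat_lit 51,
  [⟨V6_21676695552, [(nat_lit 56, nat_lit 21744066624), (nat_lit 71, nat_lit 22817808384), (nat_lit 16, nat_lit 22817546304), (nat_lit 57, nat_lit 22801031232), (nat_lit 93, nat_lit 23891288064), (nat_lit 25, nat_lit 23874772992), (nat_lit 32, nat_lit 23874510912), (nat_lit 17, nat_lit 23857995840), (nat_lit 12, nat_lit 24948252672), (nat_lit 89, nat_lit 24931737600), (nat_lit 67, nat_lit 24931475520), (nat_lit 70, nat_lit 24914960448), (nat_lit 31, nat_lit 26005217280), (nat_lit 83, nat_lit 25988702208), (nat_lit 55, nat_lit 25988440128), (nat_lit 64, nat_lit 25971925056), (nat_lit 49, nat_lit 27062181888), (nat_lit 84, nat_lit 27045666816), (nat_lit 12, nat_lit 27045404736), (nat_lit 93, nat_lit 28119146496)]⟩,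
   ⟨V6_19546247232, [(nat_lit 4, nat_lit 21744066624), (nat_lit 91, nat_lit 22817804352), (nat_lit 73, nat_lit 22801031232), (nat_lit 83, nat_lit 23874768960), (nat_lit 120, nat_lit 23857995840), (nat_lit 71, nat_lit 24931733568), (nat_lit 73, nat_lit 24914960448), (nat_lit 107, nat_lit 25988698176)]⟩,
   ⟨V6_18522574848, [(nat_lit 90, nat_lit 21744066624), (nat_lit 83, nat_lit 22817808384), (nat_lit 66, nat_lit 22817804352), (nat_lit 119, nat_lit 22817546304), (nat_lit 36, nat_lit 23891546112), (nat_lit 45, nat_lit 23891288064), (nat_lit 122, nat_lit 23891284032), (nat_lit 101, nat_lit 24965025792)]⟩,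
   ⟨V6_17448837120, [(nat_lit 124, nat_lit 21744066624), (nat_lit 101, nat_lit 22817808384), (nat_lit 106, nat_lit 22817546304), (nat_lit 26, nat_lit 23891288064)]⟩],
  [W_20603211776, W_20586438656, W_17448833024, W_17432317952, W_17432055872, W_17415544832]⟩
theorem C_21744066624 : chkRec R_21744066624 = true := by decide +kernel

noncomputable def R_21744070656 : Rec := ⟨nat_lit 21744070656, nat_lit 30,
  [⟨V6_21693726720, [(nat_lit 54, nat_lit 21744070656), (nat_lit 58, nat_lit 22817808384), (nat_lit 92, nat_lit 22801035264), (nat_lit 38, nat_lit 23891546112), (nat_lit 35, nat_lit 23874772992), (nat_lit 109, nat_lit 23857999872), (nat_lit 84, nat_lit 24965283840), (nat_lit 59, nat_lit 24948510720), (nat_lit 22, nat_lit 24931737600), (nat_lit 26, nat_lit 24914964480), (nat_lit 126, nat_lit 26022248448), (nat_lit 121, nat_lit 26005475328), (nat_lit 112, nat_lit 25988702208), (nat_lit 82, nat_lit 27079213056), (nat_lit 5, nat_lit 27062439936), (nat_lit 68, nat_lit 28136177664)]⟩,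
   ⟨V6_21643407360, [(nat_lit 39, nat_lit 21744070656), (nat_lit 59, nat_lit 22801035264), (nat_lit 55, nat_lit 23857999872), (nat_lit 84, nat_lit 24914964480), (nat_lit 71, nat_lit 25971929088), (nat_lit 10, nat_lit 27028893696), (nat_lit 87, nat_lit 28085858304)]⟩],
  [W_19529474048, W_17449091072, W_17415544832, W_17398771712]⟩
theorem C_21744070656 : chkRec R_21744070656 = true := by decide +kernel

noncomputable def R_21744324672 : Rec := ⟨nat_lit 21744324672, nat_lit 44,
  [⟨V6_20586696768, [(nat_lit 16, nat_lit 21744324672), (nat_lit 116, nat_lit 22801289280), (nat_lit 52, nat_lit 23858253888), (nat_lit 88, nat_lit 24915218496), (nat_lit 121, nat_lit 25972183104), (nat_lit 67, nat_lit 27029147712)]⟩,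
   ⟨V6_19529732160, [(nat_lit 37, nat_lit 21744324672), (nat_lit 53, nat_lit 22801289280), (nat_lit 9, nat_lit 23858253888), (nat_lit 28, nat_lit 24915218496), (nat_lit 80, nat_lit 25972183104)]⟩,
   ⟨V6_18505797696, [(nat_lit 39, nat_lit 21744324672), (nat_lit 10, nat_lit 22817804352), (nat_lit 112, nat_lit 22801289280), (nat_lit 87, nat_lit 23891284032), (nat_lit 43, nat_lit 23874768960), (nat_lit 72, nat_lit 24948248640)]⟩],
  [W_21693206528, W_20586696704, W_17432317952, W_17415802880]⟩
theorem C_21744324672 : chkRec R_21744324672 = true := by decide +kernel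

noncomputable def R_21744328704 : Rec := ⟨nat_lit 21744328704, nat_lit 109,
  [⟨V6_21676695552, [(nat_lit 18, nat_lit 21744328704), (nat_lit 53, nat_lit 22817808384), (nat_lit 48, nat_lit 22801293312), (nat_lit 75, nat_lit 23891288064), (nat_lit 120, nat_lit 23874772992), (nat_lit 55, nat_lit 23858257920), (nat_lit 47, nat_lit 24948252672), (nat_lit 31, nat_lit 24931737600), (nat_lit 15, nat_lit 24915222528), (nat_lit 16, nat_lit 26005217280), (nat_lit 126, nat_lit 25988702208), (nat_lit 123, nat_lit 25972187136), (nat_lit 65, nat_lit 27062181888), (nat_lit 120, nat_lit 27045666816), (nat_lit 9, nat_lit 28119146496)]⟩,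
   ⟨V6_20586700800, [(nat_lit 64, nat_lit 21744328704), (nat_lit 83, nat_lit 22801293312), (nat_lit 81, nat_lit 23858257920), (nat_lit 98, nat_lit 24915222528), (nat_lit 103, nat_lit 25972187136), (nat_lit 14, nat_lit 27029151744)]⟩,
   ⟨V6_17449353216, [(nat_lit 41, nat_lit 21744328704), (nat_lit 29, nat_lit 22818066432), (nat_lit 77, nat_lit 23891804160)]⟩,
   ⟨V6_17448837120, [(nat_lit 115, nat_lit 21744328704), (nat_lit 11, nat_lit 22817808384), (nat_lit 107, nat_lit 23891288064)]⟩],
  [W_21693464576, W_21676949504, W_21660434432, W_20636499968, W_20619984896, W_19579535360, W_19563020288, W_18522570752, W_18472767488, W_17415544832]⟩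
theorem C_21744328704 : chkRec R_21744328704 = true := by decide +kernel

noncomputable def R_21744586752 : Rec := ⟨nat_lit 21744586752, nat_lit 99,
  [⟨V6_20620247040, [(nat_lit 39, nat_lit 21744586752), (nat_lit 53, nat_lit 22818324480), (nat_lit 45, nat_lit 22818066432), (nat_lit 45, nat_lit 22801551360), (nat_lit 104, nat_lit 23891804160), (nat_lit 46, nat_lit 23875289088), (nat_lit 57, nat_lit 23875031040), (nat_lit 105, nat_lit 23858515968), (nat_lit 36, nat_lit 24948768768), (nat_lit 3, nat_lit 24932253696), (nat_lit 114, nat_lit 24931995648), (nat_lit 20, nat_lit 24915480576), (nat_lit 17, nat_lit 26005733376), (nat_lit 32, nat_lit 25989218304), (nat_lit 65, nat_lit 25988960256), (nat_lit 66, nat_lit 27062697984)]⟩,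
   ⟨V6_20603473920, [(nat_lit 87, nat_lit 21744586752), (nat_lit 19, nat_lit 22818066432), (nat_lit 45, nat_lit 22801551360), (nat_lit 14, nat_lit 23875031040), (nat_lit 81, nat_lit 23858515968), (nat_lit 47, nat_lit 24931995648), (nat_lit 38, nat_lit 24915480576), (nat_lit 115, nat_lit 25988960256), (nat_lit 89, nat_lit 25972445184), (nat_lit 82, nat_lit 27045924864)]⟩,
   ⟨V6_18522574848, [(nat_lit 90, nat_lit 21744586752), (nat_lit 44, nat_lit 22818066432), (nat_lit 119, nat_lit 23891546112), (nat_lit 36, nat_lit 24965025792)]⟩,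
   ⟨V6_17449353216, [(nat_lit 98, nat_lit 21744586752), (nat_lit 80, nat_lit 22818324480), (nat_lit 59, nat_lit 22818066432), (nat_lit 83, nat_lit 23891804160)]⟩],
  [W_21693206528, W_21676949504, W_21676691456, W_21660434432, W_20653015040, W_20586696704, W_17449091072, W_17448833024, W_17416060928]⟩
theorem C_21744586752 : chkRec R_21744586752 = true := by decide +kernel

noncomputable def R_21744844800 : Rec := ⟨nat_lit 21744844800, nat_lit 67,
  [⟨V6_21726756864, [(nat_lit 116, nat_lit 21744844800), (nat_lit 62, nat_lit 22818324480), (nat_lit 98, nat_lit 22801809408), (nat_lit 22, nat_lit 23891804160), (nat_lit 23, nat_lit 23875289088), (nat_lit 62, nat_lit 24965283840), (nat_lit 12, nat_lit 24948768768), (nat_lit 23, nat_lit 26038763520), (nat_lit 20, nat_lit 26022248448), (nat_lit 58, nat_lit 27112243200), (nat_lit 25, nat_lit 27095728128), (nat_lit 118, nat_lit 28169207808)]⟩,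
   ⟨V6_21693726720, [(nat_lit 115, nat_lit 21744844800), (nat_lit 26, nat_lit 22818324480), (nat_lit 119, nat_lit 22801809408), (nat_lit 98, nat_lit 23891804160), (nat_lit 33, nat_lit 23875289088), (nat_lit 96, nat_lit 23858774016), (nat_lit 78, nat_lit 24965283840), (nat_lit 123, nat_lit 24948768768), (nat_lit 108, nat_lit 24932253696), (nat_lit 5, nat_lit 24915738624), (nat_lit 64, nat_lit 26022248448), (nat_lit 63, nat_lit 26005733376), (nat_lit 94, nat_lit 25989218304), (nat_lit 72, nat_lit 27079213056), (nat_lit 37, nat_lit 27062697984), (nat_lit 114, nat_lit 28136177664)]⟩,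
   ⟨V6_20620247040, [(nat_lit 21, nat_lit 21744844800), (nat_lit 43, nat_lit 22818324480), (nat_lit 112, nat_lit 22801809408), (nat_lit 28, nat_lit 23891804160), (nat_lit 124, nat_lit 23875289088), (nat_lit 31, nat_lit 23858774016), (nat_lit 9, nat_lit 24948768768), (nat_lit 123, nat_lit 24932253696), (nat_lit 114, nat_lit 24915738624), (nat_lit 101, nat_lit 26005733376), (nat_lit 6, nat_lit 25989218304), (nat_lit 24, nat_lit 27062697984)]⟩,
   ⟨V6_17449353216, [(nat_lit 97, nat_lit 21744844800), (nat_lit 5, nat_lit 22818324480), (nat_lit 37, nat_lit 23891804160)]⟩],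
  [W_21709979648, W_21627404288, W_18456510464, W_17449091072, W_17432576000, W_17416060928]⟩
theorem C_21744844800 : chkRec R_21744844800 = true := by decide +kernel

noncomputable def R_21760577601 : Rec := ⟨nat_lit 21760577601, nat_lit 2,
  [⟨V6_19579277376, [(nat_lit 39, nat_lit 21760577601), (nat_lit 35, nat_lit 22834319424), (nat_lit 19, nat_lit 22834057281), (nat_lit 76, nat_lit 22817542209), (nat_lit 92, nat_lit 23907799104), (nat_lit 89, nat_lit 23891284032), (nat_lit 48, nat_lit 23891021889), (nat_lit 21, nat_lit 23874506817), (nat_lit 76, nat_lit 24964763712), (nat_lit 117, nat_lit 24948248640), (nat_lit 81, nat_lit 24947986497), (nat_lit 104, nat_lit 26021728320)]⟩,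
   ⟨V6_19545985089, [(nat_lit 100, nat_lit 21760577601), (nat_lit 94, nat_lit 22817542209), (nat_lit 120, nat_lit 23874506817), (nat_lit 45, nat_lit 24931471425), (nat_lit 116, nat_lit 25988436033)]⟩],
  [W_21659914304]⟩
theorem C_21760577601 : chkRec R_21760577601 = true := by decide +kernel

noncomputable def R_21760581696 : Rec := ⟨nat_lit 21760581696, nat_lit 18,
  [⟨V6_19562766336, [(nat_lit 72, nat_lit 21760581696), (nat_lit 94, nat_lit 22834323456), (nat_lit 16, nat_lit 22817546304), (nat_lit 118, nat_lit 23891288064), (nat_lit 48, nat_lit 23874510912), (nat_lit 72, nat_lit 24948252672), (nat_lit 17, nat_lit 24931475520), (nat_lit 58, nat_lit 26005217280)]⟩],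
  [W_21676691456, W_21659914304, W_21643141184]⟩
theorem C_21760581696 : chkRec R_21760581696 = true := by decide +kernel

noncomputable def R_21760839744 : Rec := ⟨nat_lit 21760839744, nat_lit 22,
  [⟨V6_19546247232, [(nat_lit 52, nat_lit 21760839744), (nat_lit 120, nat_lit 22817804352), (nat_lit 37, nat_lit 23874768960), (nat_lit 125, nat_lit 24931733568), (nat_lit 40, nat_lit 25988698176)]⟩,
   ⟨V6_18539089920, [(nat_lit 64, nat_lit 21760839744), (nat_lit 58, nat_lit 22834581504), (nat_lit 126, nat_lit 22834319424), (nat_lit 71, nat_lit 23908061184), (nat_lit 59, nat_lit 23907799104), (nat_lit 34, nat_lit 24981540864)]⟩,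
   ⟨V6_18505797696, [(nat_lit 107, nat_lit 21760839744), (nat_lit 107, nat_lit 22834319424), (nat_lit 17, nat_lit 22817804352), (nat_lit 63, nat_lit 23891284032), (nat_lit 65, nat_lit 23874768960), (nat_lit 18, nat_lit 24948248640)]⟩],
  [W_21693206528, W_21676691456, W_19562762240]⟩
theorem C_21760839744 : chkRec R_21760839744 = true := by decide +kernel

noncomputable def R_21760843776 : Rec := ⟨nat_lit 21760843776, nat_lit 47,
  [⟨V6_21676695552, [(nat_lit 45, nat_lit 21760843776), (nat_lit 35, nat_lit 22834323456), (nat_lit 62, nat_lit 22817808384), (nat_lit 104, nat_lit 23891288064), (nat_lit 107, nat_lit 23874772992), (nat_lit 25, nat_lit 24948252672), (nat_lit 38, nat_lit 24931737600), (nat_lit 4, nat_lit 26005217280), (nat_lit 23, nat_lit 25988702208), (nat_lit 102, nat_lit 27062181888), (nat_lit 121, nat_lit 27045666816), (nat_lit 19, nat_lit 28119146496)]⟩,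
   ⟨V6_19596312576, [(nat_lit 117, nat_lit 21760843776), (nat_lit 110, nat_lit 22834581504), (nat_lit 109, nat_lit 22834323456), (nat_lit 73, nat_lit 22817808384), (nat_lit 102, nat_lit 23908319232), (nat_lit 10, nat_lit 23908061184), (nat_lit 96, nat_lit 23891546112), (nat_lit 94, nat_lit 23891288064), (nat_lit 123, nat_lit 24981798912), (nat_lit 12, nat_lit 24965283840), (nat_lit 50, nat_lit 24965025792), (nat_lit 11, nat_lit 26038763520)]⟩,
   ⟨V6_18522832896, [(nat_lit 80, nat_lit 21760843776), (nat_lit 124, nat_lit 22834581504), (nat_lit 12, nat_lit 22817808384), (nat_lit 32, nat_lit 23908319232), (nat_lit 120, nat_lit 23891546112), (nat_lit 69, nat_lit 24965283840)]⟩,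
   ⟨V6_18522574848, [(nat_lit 51, nat_lit 21760843776), (nat_lit 15, nat_lit 22834581504), (nat_lit 14, nat_lit 22834323456), (nat_lit 85, nat_lit 22817808384), (nat_lit 3, nat_lit 23908061184), (nat_lit 22, nat_lit 23891546112), (nat_lit 79, nat_lit 23891288064), (nat_lit 94, nat_lit 24965025792)]⟩],
  [W_21676949504, W_20586438656, W_18522570752, W_18472509440]⟩
theorem C_21760843776 : chkRec R_21760843776 = true := by decide +kernel

noncomputable def R_21761101824 : Rec := ⟨nat_lit 21761101824, nat_lit 62,
  [⟨V6_20603473920, [(nat_lit 55, nat_lit 21761101824), (nat_lit 89, nat_lit 22818066432), (nat_lit 93, nat_lit 23875031040), (nat_lit 115, nat_lit 24931995648), (nat_lit 68, nat_lit 25988960256), (nat_lit 12, nat_lit 27045924864)]⟩,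
   ⟨V6_18522832896, [(nat_lit 80, nat_lit 21761101824), (nat_lit 117, nat_lit 22834839552), (nat_lit 26, nat_lit 22834581504), (nat_lit 121, nat_lit 22818066432), (nat_lit 5, nat_lit 23908319232), (nat_lit 125, nat_lit 23891804160), (nat_lit 59, nat_lit 23891546112), (nat_lit 100, nat_lit 24965283840)]⟩,
   ⟨V6_18522574848, [(nat_lit 4, nat_lit 21761101824), (nat_lit 124, nat_lit 22834581504), (nat_lit 39, nat_lit 22818066432), (nat_lit 57, nat_lit 23908061184), (nat_lit 123, nat_lit 23891546112), (nat_lit 65, nat_lit 24965025792)]⟩],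
  [W_21709979648, W_21693206528, W_21676949504, W_20653015040, W_20636499968, W_19579535360, W_18522570752, W_18489282560]⟩
theorem C_21761101824 : chkRec R_21761101824 = true := by decide +kernel

noncomputable def R_21761359872 : Rec := ⟨nat_lit 21761359872, nat_lit 43,
  [⟨V6_20620247040, [(nat_lit 50, nat_lit 21761359872), (nat_lit 106, nat_lit 22834839552), (nat_lit 115, nat_lit 22818324480), (nat_lit 80, nat_lit 23891804160), (nat_lit 13, nat_lit 23875289088), (nat_lit 109, nat_lit 24948768768), (nat_lit 112, nat_lit 24932253696), (nat_lit 82, nat_lit 26005733376), (nat_lit 15, nat_lit 25989218304), (nat_lit 57, nat_lit 27062697984)]⟩,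
   ⟨V6_19596312576, [(nat_lit 63, nat_lit 21761359872), (nat_lit 50, nat_lit 22834839552), (nat_lit 53, nat_lit 22818324480), (nat_lit 107, nat_lit 23908319232), (nat_lit 72, nat_lit 23891804160), (nat_lit 121, nat_lit 24981798912), (nat_lit 41, nat_lit 24965283840), (nat_lit 3, nat_lit 26038763520)]⟩,
   ⟨V6_18522832896, [(nat_lit 8, nat_lit 21761359872), (nat_lit 109, nat_lit 22834839552), (nat_lit 47, nat_lit 22818324480), (nat_lit 51, nat_lit 23908319232), (nat_lit 45, nat_lit 23891804160), (nat_lit 77, nat_lit 24965283840)]⟩],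
  [W_21726494720, W_21676949504, W_21660434432, W_19612565504, W_18522570752]⟩
theorem C_21761359872 : chkRec R_21761359872 = true := by decide +kernel

noncomputable def R_21777354816 : Rec := ⟨nat_lit 21777354816, nat_lit 7,
  [⟨V6_21693468672, [(nat_lit 25, nat_lit 21777354816), (nat_lit 113, nat_lit 22851096576), (nat_lit 100, nat_lit 22834319424), (nat_lit 82, nat_lit 23908061184), (nat_lit 119, nat_lit 23891284032), (nat_lit 76, nat_lit 24965025792), (nat_lit 87, nat_lit 24948248640), (nat_lit 45, nat_lit 26021990400), (nat_lit 111, nat_lit 26005213248), (nat_lit 26, nat_lit 27078955008), (nat_lit 76, nat_lit 27062177856), (nat_lit 7, nat_lit 28135919616)]⟩],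
  [W_21693206528, W_20636241920]⟩
theorem C_21777354816 : chkRec R_21777354816 = true := by decide +kernel

noncomputable def R_21777358848 : Rec := ⟨nat_lit 21777358848, nat_lit 20,
  [⟨V6_19596312576, [(nat_lit 103, nat_lit 21777358848), (nat_lit 33, nat_lit 22851096576), (nat_lit 98, nat_lit 22834323456), (nat_lit 113, nat_lit 23924834304), (nat_lit 63, nat_lit 23908061184), (nat_lit 2, nat_lit 23891288064), (nat_lit 90, nat_lit 24981798912), (nat_lit 20, nat_lit 24965025792), (nat_lit 75, nat_lit 26038763520)]⟩,
   ⟨V6_19562766336, [(nat_lit 26, nat_lit 21777358848), (nat_lit 101, nat_lit 22834323456), (nat_lit 41, nat_lit 23891288064), (nat_lit 71, nat_lit 24948252672), (nat_lit 8, nat_lit 26005217280)]⟩],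
  [W_21693464576, W_20636499968]⟩
theorem C_21777358848 : chkRec R_21777358848 = true := by decide +kernel

noncomputable def R_21777616896 : Rec := ⟨nat_lit 21777616896, nat_lit 27,
  [⟨V6_21693726720, [(nat_lit 6, nat_lit 21777616896), (nat_lit 94, nat_lit 22851354624), (nat_lit 110, nat_lit 22834581504), (nat_lit 83, nat_lit 23908319232), (nat_lit 40, nat_lit 23891546112), (nat_lit 85, nat_lit 24965283840), (nat_lit 17, nat_lit 24948510720), (nat_lit 61, nat_lit 26022248448), (nat_lit 7, nat_lit 26005475328), (nat_lit 110, nat_lit 27079213056), (nat_lit 124, nat_lit 27062439936), (nat_lit 27, nat_lit 28136177664)]⟩,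
   ⟨V6_19596312576, [(nat_lit 102, nat_lit 21777616896), (nat_lit 77, nat_lit 22851354624), (nat_lit 83, nat_lit 22851096576), (nat_lit 85, nat_lit 22834581504), (nat_lit 28, nat_lit 23924834304), (nat_lit 47, nat_lit 23908319232), (nat_lit 96, nat_lit 23908061184), (nat_lit 58, nat_lit 23891546112), (nat_lit 115, nat_lit 24981798912), (nat_lit 36, nat_lit 24965283840), (nat_lit 69, nat_lit 24965025792), (nat_lit 23, nat_lit 26038763520)]⟩],
  [W_21676691456, W_20603211776]⟩
theorem C_21777616896 : chkRec R_21777616896 = true := by decide +kernel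

noncomputable def R_21777874944 : Rec := ⟨nat_lit 21777874944, nat_lit 30,
  [⟨V6_20620247040, [(nat_lit 119, nat_lit 21777874944), (nat_lit 20, nat_lit 22834839552), (nat_lit 103, nat_lit 23891804160), (nat_lit 16, nat_lit 24948768768), (nat_lit 85, nat_lit 26005733376), (nat_lit 19, nat_lit 27062697984)]⟩,
   ⟨V6_19629342720, [(nat_lit 65, nat_lit 21777874944), (nat_lit 15, nat_lit 22851354624), (nat_lit 92, nat_lit 23924834304), (nat_lit 20, nat_lit 24998313984), (nat_lit 13, nat_lit 26071793664)]⟩,
   ⟨V6_19612827648, [(nat_lit 106, nat_lit 21777874944), (nat_lit 107, nat_lit 22851354624), (nat_lit 19, nat_lit 22834839552), (nat_lit 8, nat_lit 23924834304), (nat_lit 82, nat_lit 23908319232), (nat_lit 32, nat_lit 24998313984), (nat_lit 36, nat_lit 24981798912), (nat_lit 81, nat_lit 26055278592)]⟩],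
  [W_21726494720, W_21660434432, W_20669530112, W_20653015040, W_19612565504]⟩
theorem C_21777874944 : chkRec R_21777874944 = true := by decide +kernel

noncomputable def R_21793869888 : Rec := ⟨nat_lit 21793869888, nat_lit 1,
  [⟨V6_20653019136, [(nat_lit 96, nat_lit 21793869888), (nat_lit 86, nat_lit 22867611648), (nat_lit 5, nat_lit 22850834496), (nat_lit 32, nat_lit 23924576256), (nat_lit 4, nat_lit 23907799104), (nat_lit 75, nat_lit 24981540864), (nat_lit 5, nat_lit 24964763712), (nat_lit 53, nat_lit 26038505472), (nat_lit 5, nat_lit 26021728320), (nat_lit 28, nat_lit 27095470080)]⟩],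
  [W_20619464768]⟩
theorem C_21793869888 : chkRec R_21793869888 = true := by decide +kernel

noncomputable def R_21794131968 : Rec := ⟨nat_lit 21794131968, nat_lit 11,
  [⟨V6_21693468672, [(nat_lit 110, nat_lit 21794131968), (nat_lit 68, nat_lit 22851096576), (nat_lit 63, nat_lit 23908061184), (nat_lit 9, nat_lit 24965025792), (nat_lit 42, nat_lit 26021990400), (nat_lit 11, nat_lit 27078955008), (nat_lit 91, nat_lit 28135919616)]⟩],
  [W_21709979648, W_20653015040, W_20636241920]⟩
theorem C_21794131968 : chkRec R_21794131968 = true := by decide +kernel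

noncomputable def R_21794390016 : Rec := ⟨nat_lit 21794390016, nat_lit 11,
  [⟨V6_20636762112, [(nat_lit 89, nat_lit 21794390016), (nat_lit 21, nat_lit 22851354624), (nat_lit 106, nat_lit 23908319232), (nat_lit 38, nat_lit 24965283840), (nat_lit 72, nat_lit 26022248448), (nat_lit 26, nat_lit 27079213056)]⟩],
  [W_21709979648, W_20669530112, W_20653015040]⟩
theorem C_21794390016 : chkRec R_21794390016 = true := by decide +kernel

noncomputable def R_21810905088 : Rec := ⟨nat_lit 21810905088, nat_lit 6,
  [⟨V6_21726756864, [(nat_lit 39, nat_lit 21810905088), (nat_lit 113, nat_lit 22884384768), (nat_lit 11, nat_lit 22867869696), (nat_lit 44, nat_lit 23941349376), (nat_lit 88, nat_lit 23924834304), (nat_lit 35, nat_lit 24998313984), (nat_lit 87, nat_lit 24981798912), (nat_lit 113, nat_lit 26055278592), (nat_lit 17, nat_lit 26038763520), (nat_lit 50, nat_lit 27112243200), (nat_lit 76, nat_lit 27095728128), (nat_lit 109, nat_lit 28169207808)]⟩],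
  [W_21709979648]⟩
theorem C_21810905088 : chkRec R_21810905088 = true := by decide +kernel

noncomputable def R_22650306819 : Rec := ⟨nat_lit 22650306819, nat_lit 1,
  [⟨V6_16207855875, [(nat_lit 15, nat_lit 22650306819)]⟩],
  [W_20469268736]⟩
theorem C_22650306819 : chkRec R_22650306819 = true := by decide +kernel

noncomputable def R_22650568962 : Rec := ⟨nat_lit 22650568962, nat_lit 1,
  [⟨V6_19412304129, [(nat_lit 99, nat_lit 22650568962), (nat_lit 87, nat_lit 23724310785), (nat_lit 53, nat_lit 23724048642), (nat_lit 38, nat_lit 23707533570), (nat_lit 39, nat_lit 24797790465), (nat_lit 109, nat_lit 24781275393), (nat_lit 19, nat_lit 24781013250), (nat_lit 125, nat_lit 25854755073)]⟩],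
  [W_19429343360]⟩
theorem C_22650568962 : chkRec R_22650568962 = true := by decide +kernel

noncomputable def R_22650831042 : Rec := ⟨nat_lit 22650831042, nat_lit 2,
  [⟨V6_20502818946, [(nat_lit 30, nat_lit 22650831042), (nat_lit 75, nat_lit 23724572802), (nat_lit 96, nat_lit 23724568770), (nat_lit 47, nat_lit 23724310722), (nat_lit 66, nat_lit 24798310530), (nat_lit 88, nat_lit 24798052482), (nat_lit 93, nat_lit 24798048450), (nat_lit 3, nat_lit 24797790402), (nat_lit 16, nat_lit 25871790210), (nat_lit 93, nat_lit 25871532162), (nat_lit 116, nat_lit 25871528130), (nat_lit 11, nat_lit 26945269890)]⟩,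
   ⟨V6_18355859649, [(nat_lit 10, nat_lit 22650831042), (nat_lit 121, nat_lit 23724572865), (nat_lit 57, nat_lit 23724568770), (nat_lit 121, nat_lit 24798310593)]⟩],
  [W_19429343360, W_19429081280]⟩
theorem C_22650831042 : chkRec R_22650831042 = true := by decide +kernel

noncomputable def R_22650831105 : Rec := ⟨nat_lit 22650831105, nat_lit 4,
  [⟨V6_16208380161, [(nat_lit 92, nat_lit 22650831105)]⟩],
  [W_21576564800, W_20503085120]⟩
theorem C_22650831105 : chkRec R_22650831105 = true := by decide +kernel

noncomputable def R_22650835074 : Rec := ⟨nat_lit 22650835074, nat_lit 3,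
  [⟨V6_17282125953, [(nat_lit 108, nat_lit 22650835074), (nat_lit 50, nat_lit 23724576897)]⟩],
  [W_21576818816, W_20503081088]⟩
theorem C_22650835074 : chkRec R_22650835074 = true := by decide +kernel

noncomputable def R_22650835137 : Rec := ⟨nat_lit 22650835137, nat_lit 3,
  [⟨V6_16208384193, [(nat_lit 110, nat_lit 22650835137)]⟩],
  [W_21576822848, W_20503081088]⟩
theorem C_22650835137 : chkRec R_22650835137 = true := by decide +kernel

noncomputable def R_22650835200 : Rec := ⟨nat_lit 22650835200, nat_lit 4,
  [⟨V6_16208384256, [(nat_lit 51, nat_lit 22650835200)]⟩],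
  [W_21576826880, W_20503085120]⟩
theorem C_22650835200 : chkRec R_22650835200 = true := by decide +kernel

noncomputable def R_22650839169 : Rec := ⟨nat_lit 22650839169, nat_lit 4,
  [⟨V6_17282129985, [(nat_lit 71, nat_lit 22650839169), (nat_lit 42, nat_lit 23724580929)]⟩,
   ⟨V6_17282125953, [(nat_lit 46, nat_lit 22650839169), (nat_lit 22, nat_lit 23724576897)]⟩],
  [W_21577080896, W_20503343168]⟩
theorem C_22650839169 : chkRec R_22650839169 = true := by decide +kernel

noncomputable def R_22650839232 : Rec := ⟨nat_lit 22650839232, nat_lit 8,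
  [⟨V6_19429613568, [(nat_lit 4, nat_lit 22650839232), (nat_lit 95, nat_lit 23724580992), (nat_lit 69, nat_lit 24798322752), (nat_lit 1, nat_lit 25872064512)]⟩],
  [W_21577084928, W_19429601408]⟩
theorem C_22650839232 : chkRec R_22650839232 = true := by decide +kernel

noncomputable def R_22667084034 : Rec := ⟨nat_lit 22667084034, nat_lit 3,
  [⟨V6_20469268737, [(nat_lit 50, nat_lit 22667084034), (nat_lit 13, nat_lit 23740825857), (nat_lit 108, nat_lit 23724048642), (nat_lit 9, nat_lit 24797790465), (nat_lit 12, nat_lit 24781013250), (nat_lit 126, nat_lit 25854755073), (nat_lit 99, nat_lit 25837977858), (nat_lit 65, nat_lit 26911719681)]⟩,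
   ⟨V6_19412304129, [(nat_lit 93, nat_lit 22667084034), (nat_lit 51, nat_lit 23740825857), (nat_lit 99, nat_lit 23724048642), (nat_lit 33, nat_lit 24797790465), (nat_lit 55, nat_lit 24781013250), (nat_lit 24, nat_lit 25854755073)]⟩,
   ⟨V6_19395526914, [(nat_lit 102, nat_lit 22667084034), (nat_lit 88, nat_lit 23724048642), (nat_lit 112, nat_lit 24781013250), (nat_lit 18, nat_lit 25837977858)]⟩],
  [W_19445858432]⟩
theorem C_22667084034 : chkRec R_22667084034 = true := by decide +kernel

noncomputable def R_22667346114 : Rec := ⟨nat_lit 22667346114, nat_lit 3,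
  [⟨V6_20502823104, [(nat_lit 20, nat_lit 22667346114), (nat_lit 68, nat_lit 23741087937), (nat_lit 115, nat_lit 23740825794), (nat_lit 77, nat_lit 23724310722), (nat_lit 65, nat_lit 24814829760), (nat_lit 101, nat_lit 24814567617), (nat_lit 66, nat_lit 24798052545), (nat_lit 2, nat_lit 24797790402), (nat_lit 67, nat_lit 25888309440), (nat_lit 121, nat_lit 25871794368), (nat_lit 79, nat_lit 25871532225), (nat_lit 16, nat_lit 26945274048)]⟩],
  [W_19446116480, W_18372374720]⟩
theorem C_22667346114 : chkRec R_22667346114 = true := by decide +kernel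

noncomputable def R_22667346177 : Rec := ⟨nat_lit 22667346177, nat_lit 5,
  [⟨V6_18372116736, [(nat_lit 33, nat_lit 22667346177), (nat_lit 26, nat_lit 23741088000), (nat_lit 19, nat_lit 23740825857), (nat_lit 69, nat_lit 24814567680)]⟩],
  [W_22633529408, W_19446120512]⟩
theorem C_22667346177 : chkRec R_22667346177 = true := by decide +kernel

noncomputable def R_22667350146 : Rec := ⟨nat_lit 22667350146, nat_lit 1,
  [⟨V6_18372382848, [(nat_lit 124, nat_lit 22667350146), (nat_lit 81, nat_lit 23741091969), (nat_lit 43, nat_lit 24814833792)]⟩],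
  [W_21576818816]⟩
theorem C_22667350146 : chkRec R_22667350146 = true := by decide +kernel

noncomputable def R_22667350209 : Rec := ⟨nat_lit 22667350209, nat_lit 3,
  [⟨V6_18372382785, [(nat_lit 38, nat_lit 22667350209), (nat_lit 62, nat_lit 23741091969), (nat_lit 76, nat_lit 24814833729)]⟩],
  [W_22633787456, W_20503085120]⟩
theorem C_22667350209 : chkRec R_22667350209 = true := by decide +kernel

noncomputable def R_22667350272 : Rec := ⟨nat_lit 22667350272, nat_lit 2,
  [⟨V6_17298641088, [(nat_lit 58, nat_lit 22667350272), (nat_lit 4, nat_lit 23741092032)]⟩],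
  [W_21576826880]⟩
theorem C_22667350272 : chkRec R_22667350272 = true := by decide +kernel

noncomputable def R_22667604162 : Rec := ⟨nat_lit 22667604162, nat_lit 2,
  [⟨V6_20502818946, [(nat_lit 52, nat_lit 22667604162), (nat_lit 114, nat_lit 23741345922), (nat_lit 75, nat_lit 23741083842), (nat_lit 103, nat_lit 23724568770), (nat_lit 40, nat_lit 24814825602), (nat_lit 94, nat_lit 24814563522), (nat_lit 22, nat_lit 24798310530), (nat_lit 32, nat_lit 24798048450), (nat_lit 115, nat_lit 25888305282), (nat_lit 40, nat_lit 25871790210), (nat_lit 101, nat_lit 25871528130), (nat_lit 50, nat_lit 26945269890)]⟩,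
   ⟨V6_18355859649, [(nat_lit 81, nat_lit 22667604162), (nat_lit 44, nat_lit 23741345985), (nat_lit 81, nat_lit 23724568770), (nat_lit 89, nat_lit 24798310593)]⟩],
  [W_19429601408]⟩
theorem C_22667604162 : chkRec R_22667604162 = true := by decide +kernel

noncomputable def R_22667608194 : Rec := ⟨nat_lit 22667608194, nat_lit 8,
  [⟨V6_19446374529, [(nat_lit 77, nat_lit 22667608194), (nat_lit 21, nat_lit 23741350017), (nat_lit 77, nat_lit 23741345922), (nat_lit 124, nat_lit 24815087745), (nat_lit 85, nat_lit 24815083650), (nat_lit 74, nat_lit 25888825473)]⟩],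
  [W_22650298496, W_20503339136, W_20502823040]⟩
theorem C_22667608194 : chkRec R_22667608194 = true := by decide +kernel

noncomputable def R_22667608257 : Rec := ⟨nat_lit 22667608257, nat_lit 13,
  [⟨V6_20503085121, [(nat_lit 82, nat_lit 22667608257), (nat_lit 30, nat_lit 23741350017), (nat_lit 58, nat_lit 23741087937), (nat_lit 45, nat_lit 23724572865), (nat_lit 45, nat_lit 24815091777), (nat_lit 122, nat_lit 24814829697), (nat_lit 17, nat_lit 24798314625), (nat_lit 92, nat_lit 24798052545), (nat_lit 83, nat_lit 25888571457), (nat_lit 38, nat_lit 25872056385), (nat_lit 95, nat_lit 25871794305), (nat_lit 53, nat_lit 26945536065)]⟩,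
   ⟨V6_20502823104, [(nat_lit 123, nat_lit 22667608257), (nat_lit 40, nat_lit 23741350080), (nat_lit 99, nat_lit 23741087937), (nat_lit 77, nat_lit 23724572865), (nat_lit 101, nat_lit 24814829760), (nat_lit 58, nat_lit 24814567617), (nat_lit 83, nat_lit 24798314688), (nat_lit 126, nat_lit 24798052545), (nat_lit 10, nat_lit 25888309440), (nat_lit 72, nat_lit 25871794368), (nat_lit 8, nat_lit 25871532225), (nat_lit 47, nat_lit 26945274048)]⟩,
   ⟨V6_19429601472, [(nat_lit 126, nat_lit 22667608257), (nat_lit 1, nat_lit 23741350080), (nat_lit 24, nat_lit 23741345985), (nat_lit 81, nat_lit 23724572865), (nat_lit 102, nat_lit 24815087808), (nat_lit 126, nat_lit 24798314688), (nat_lit 7, nat_lit 24798310593), (nat_lit 116, nat_lit 25872052416)]⟩],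
  [W_21593337920, W_19446378560, W_18372640832]⟩
theorem C_22667608257 : chkRec R_22667608257 = true := by decide +kernel

noncomputable def R_22667608320 : Rec := ⟨nat_lit 22667608320, nat_lit 16,
  [⟨V6_21577089024, [(nat_lit 54, nat_lit 22667608320), (nat_lit 125, nat_lit 23741350080), (nat_lit 80, nat_lit 23724572928), (nat_lit 41, nat_lit 24815091840), (nat_lit 3, nat_lit 24798314688), (nat_lit 16, nat_lit 25888833600), (nat_lit 92, nat_lit 25872056448), (nat_lit 21, nat_lit 26962575360), (nat_lit 88, nat_lit 26945798208), (nat_lit 59, nat_lit 28019539968)]⟩],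
  [W_22650306560, W_21593341952, W_21576564800, W_18355339520, W_17282121920, W_16208380160, W_15151415552]⟩
theorem C_22667608320 : chkRec R_22667608320 = true := by decide +kernel

noncomputable def R_22667612289 : Rec := ⟨nat_lit 22667612289, nat_lit 14,
  [⟨V6_19446374529, [(nat_lit 48, nat_lit 22667612289), (nat_lit 88, nat_lit 23741350017), (nat_lit 86, nat_lit 24815087745), (nat_lit 92, nat_lit 25888825473)]⟩,
   ⟨V6_17282125953, [(nat_lit 42, nat_lit 22667612289), (nat_lit 69, nat_lit 23724576897)]⟩],
  [W_21593595968, W_21577080896, W_20519858240, W_20503085120]⟩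
theorem C_22667612289 : chkRec R_22667612289 = true := by decide +kernel

noncomputable def R_22667612352 : Rec := ⟨nat_lit 22667612352, nat_lit 20,
  [⟨V6_17282126016, [(nat_lit 60, nat_lit 22667612352), (nat_lit 26, nat_lit 23724576960)]⟩,
   ⟨V6_16225161408, [(nat_lit 97, nat_lit 22667612352)]⟩],
  [W_21593600000, W_21577084928, W_21576826880, W_20519858240, W_20503081088]⟩
theorem C_22667612352 : chkRec R_22667612352 = true := by decide +kernel

noncomputable def R_22667616321 : Rec := ⟨nat_lit 22667616321, nat_lit 6,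
  [⟨V6_16225165377, [(nat_lit 65, nat_lit 22667616321)]⟩],
  [W_21593854016, W_21577080896, W_20503343168]⟩
theorem C_22667616321 : chkRec R_22667616321 = true := by decide +kernel

noncomputable def R_22667616384 : Rec := ⟨nat_lit 22667616384, nat_lit 24,
  [⟨V6_19429613568, [(nat_lit 115, nat_lit 22667616384), (nat_lit 81, nat_lit 23741358144), (nat_lit 43, nat_lit 23724580992), (nat_lit 112, nat_lit 24815099904), (nat_lit 68, nat_lit 24798322752), (nat_lit 19, nat_lit 25872064512)]⟩,
   ⟨V6_16225165440, [(nat_lit 25, nat_lit 22667616384)]⟩],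
  [W_22650822656, W_21593858048, W_20520116288, W_20503339136, W_18355871744]⟩
theorem C_22667616384 : chkRec R_22667616384 = true := by decide +kernel

noncomputable def R_22667866242 : Rec := ⟨nat_lit 22667866242, nat_lit 2,
  [⟨V6_18372894849, [(nat_lit 15, nat_lit 22667866242), (nat_lit 119, nat_lit 23741608065), (nat_lit 100, nat_lit 23741603970), (nat_lit 67, nat_lit 24815345793)]⟩],
  [W_20519596160]⟩
theorem C_22667866242 : chkRec R_22667866242 = true := by decide +kernel

noncomputable def R_22667866305 : Rec := ⟨nat_lit 22667866305, nat_lit 5,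
  [⟨V6_21593075841, [(nat_lit 87, nat_lit 22667866305), (nat_lit 95, nat_lit 23741608065), (nat_lit 90, nat_lit 23741345985), (nat_lit 16, nat_lit 24815087745), (nat_lit 110, nat_lit 24814825665), (nat_lit 58, nat_lit 25888567425), (nat_lit 94, nat_lit 25888305345), (nat_lit 17, nat_lit 26962047105), (nat_lit 48, nat_lit 26961785025), (nat_lit 53, nat_lit 28035526785)]⟩,
   ⟨V6_16225415361, [(nat_lit 38, nat_lit 22667866305)]⟩],
  [W_19446378560]⟩
theorem C_22667866305 : chkRec R_22667866305 = true := by decide +kernel

noncomputable def R_22667870337 : Rec := ⟨nat_lit 22667870337, nat_lit 13,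
  [⟨V6_18372894849, [(nat_lit 95, nat_lit 22667870337), (nat_lit 79, nat_lit 23741608065), (nat_lit 7, nat_lit 24815345793)]⟩,
   ⟨V6_17299161153, [(nat_lit 61, nat_lit 22667870337), (nat_lit 113, nat_lit 23741612097)]⟩],
  [W_22667075648, W_21593337920, W_21593333888, W_20519600192, W_20519596160]⟩
theorem C_22667870337 : chkRec R_22667870337 = true := by decide +kernel

noncomputable def R_22667870400 : Rec := ⟨nat_lit 22667870400, nat_lit 20,
  [⟨V6_19446644736, [(nat_lit 118, nat_lit 22667870400), (nat_lit 72, nat_lit 23741612160), (nat_lit 67, nat_lit 24815353920), (nat_lit 93, nat_lit 25889095680)]⟩,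
   ⟨V6_16225419456, [(nat_lit 34, nat_lit 22667870400)]⟩],
  [W_22667079680, W_21593337920, W_20519862272, W_20519600192]⟩
theorem C_22667870400 : chkRec R_22667870400 = true := by decide +kernel

noncomputable def R_22667874369 : Rec := ⟨nat_lit 22667874369, nat_lit 10,
  [⟨V6_17299161153, [(nat_lit 86, nat_lit 22667874369), (nat_lit 16, nat_lit 23741612097)]⟩],
  [W_21593595968, W_20520374336]⟩
theorem C_22667874369 : chkRec R_22667874369 = true := by decide +kernel

noncomputable def R_22667874432 : Rec := ⟨nat_lit 22667874432, nat_lit 22,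
  [⟨V6_17298903168, [(nat_lit 75, nat_lit 22667874432), (nat_lit 71, nat_lit 23741354112)]⟩,
   ⟨V6_16225423488, [(nat_lit 69, nat_lit 22667874432)]⟩],
  [W_21593600000, W_21593595968, W_20519862272, W_20519858240]⟩
theorem C_22667874432 : chkRec R_22667874432 = true := by decide +kernel

noncomputable def R_22667878464 : Rec := ⟨nat_lit 22667878464, nat_lit 19,
  [⟨V6_18372907008, [(nat_lit 16, nat_lit 22667878464), (nat_lit 74, nat_lit 23741620224), (nat_lit 62, nat_lit 23741616192), (nat_lit 99, nat_lit 24815357952)]⟩,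
   ⟨V6_16225427520, [(nat_lit 13, nat_lit 22667878464)]⟩],
  [W_21593858048, W_21593854016, W_20520374336]⟩
theorem C_22667878464 : chkRec R_22667878464 = true := by decide +kernel

noncomputable def R_22667882496 : Rec := ⟨nat_lit 22667882496, nat_lit 3,
  [⟨V6_17299169280, [(nat_lit 113, nat_lit 22667882496), (nat_lit 94, nat_lit 23741620224)]⟩],
  [W_21594116096]⟩
theorem C_22667882496 : chkRec R_22667882496 = true := by decide +kernel

noncomputable def R_22683861186 : Rec := ⟨nat_lit 22683861186, nat_lit 4,
  [⟨V6_17315152065, [(nat_lit 97, nat_lit 22683861186), (nat_lit 99, nat_lit 23757603009)]⟩],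
  [W_22616752256, W_21576560768, W_20519596160]⟩
theorem C_22683861186 : chkRec R_22683861186 = true := by decide +kernel

noncomputable def R_22683861249 : Rec := ⟨nat_lit 22683861249, nat_lit 7,
  [⟨V6_20469268737, [(nat_lit 73, nat_lit 22683861249), (nat_lit 122, nat_lit 23740825857), (nat_lit 18, nat_lit 24797790465), (nat_lit 20, nat_lit 25854755073), (nat_lit 17, nat_lit 26911719681)]⟩,
   ⟨V6_19412304129, [(nat_lit 40, nat_lit 22683861249), (nat_lit 39, nat_lit 23740825857), (nat_lit 66, nat_lit 24797790465), (nat_lit 28, nat_lit 25854755073)]⟩,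
   ⟨V6_17315152065, [(nat_lit 31, nat_lit 22683861249), (nat_lit 116, nat_lit 23757603009)]⟩],
  [W_22616752256, W_21576564800, W_20519600192]⟩
theorem C_22683861249 : chkRec R_22683861249 = true := by decide +kernel

noncomputable def R_22684119234 : Rec := ⟨nat_lit 22684119234, nat_lit 1,
  [⟨V6_16241668290, [(nat_lit 95, nat_lit 22684119234)]⟩],
  [W_21576560768]⟩
theorem C_22684119234 : chkRec R_22684119234 = true := by decide +kernel

noncomputable def R_22684123266 : Rec := ⟨nat_lit 22684123266, nat_lit 9,
  [⟨V6_21576818817, [(nat_lit 91, nat_lit 22684123266), (nat_lit 61, nat_lit 23757865089), (nat_lit 18, nat_lit 23757860994), (nat_lit 122, nat_lit 23741087874), (nat_lit 86, nat_lit 24831602817), (nat_lit 12, nat_lit 24831598722), (nat_lit 66, nat_lit 24814829697), (nat_lit 57, nat_lit 24814825602), (nat_lit 111, nat_lit 24798052482), (nat_lit 1, nat_lit 25905340545), (nat_lit 122, nat_lit 25888567425), (nat_lit 97, nat_lit 25888563330), (nat_lit 97, nat_lit 25871794305), (nat_lit 63, nat_lit 25871790210), (nat_lit 18, nat_lit 26962305153),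 (nat_lit 126, nat_lit 26945532033), (nat_lit 6, nat_lit 26945527938), (nat_lit 77, nat_lit 28019269761)]⟩,
   ⟨V6_21560049792, [(nat_lit 56, nat_lit 22684123266), (nat_lit 63, nat_lit 23757865089), (nat_lit 125, nat_lit 23741087874), (nat_lit 65, nat_lit 24831606912), (nat_lit 67, nat_lit 24814829697), (nat_lit 48, nat_lit 24798052482), (nat_lit 118, nat_lit 25888571520), (nat_lit 61, nat_lit 25871794305), (nat_lit 72, nat_lit 25855017090), (nat_lit 117, nat_lit 26945536128), (nat_lit 99, nat_lit 26928758913), (nat_lit 39, nat_lit 28002500736)]⟩,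
   ⟨V6_21559787649, [(nat_lit 56, nat_lit 22684123266), (nat_lit 58, nat_lit 23757865089), (nat_lit 50, nat_lit 23757602946), (nat_lit 3, nat_lit 23741087874), (nat_lit 74, nat_lit 24831344769), (nat_lit 101, nat_lit 24814829697), (nat_lit 21, nat_lit 24814567554), (nat_lit 109, nat_lit 24798052482), (nat_lit 16, nat_lit 25888309377), (nat_lit 50, nat_lit 25871794305), (nat_lit 17, nat_lit 25871532162), (nat_lit 8, nat_lit 25855017090), (nat_lit 24, nat_lit 26945273985), (nat_lit 121, nat_lit 26928758913), (nat_lit 84, nat_lit 26928496770), (nat_lit 113, nat_lit 28002238593)]⟩],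
  [W_21559787648, W_20536369280, W_19462889600]⟩
theorem C_22684123266 : chkRec R_22684123266 = true := by decide +kernel

noncomputable def R_22684123329 : Rec := ⟨nat_lit 22684123329, nat_lit 15,
  [⟨V6_20503085121, [(nat_lit 72, nat_lit 22684123329), (nat_lit 11, nat_lit 23757865089), (nat_lit 110, nat_lit 23741087937), (nat_lit 43, nat_lit 24831606849), (nat_lit 22, nat_lit 24814829697), (nat_lit 48, nat_lit 24798052545), (nat_lit 122, nat_lit 25888571457), (nat_lit 86, nat_lit 25871794305), (nat_lit 8, nat_lit 26945536065)]⟩,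
   ⟨V6_19462635585, [(nat_lit 52, nat_lit 22684123329), (nat_lit 46, nat_lit 23757865089), (nat_lit 32, nat_lit 23757603009), (nat_lit 27, nat_lit 24831606849), (nat_lit 109, nat_lit 24831344769), (nat_lit 38, nat_lit 25905086529)]⟩,
   ⟨V6_17315152065, [(nat_lit 54, nat_lit 22684123329), (nat_lit 70, nat_lit 23757603009)]⟩],
  [W_22650302528, W_20536373312, W_20519858240, W_20519596160]⟩
theorem C_22684123329 : chkRec R_22684123329 = true := by decide +kernel

noncomputable def R_22684123392 : Rec := ⟨nat_lit 22684123392, nat_lit 18,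
  [⟨V6_21610119168, [(nat_lit 44, nat_lit 22684123392), (nat_lit 105, nat_lit 23757865152), (nat_lit 24, nat_lit 23757603072), (nat_lit 93, nat_lit 24831606912), (nat_lit 50, nat_lit 24831344832), (nat_lit 90, nat_lit 25905348672), (nat_lit 17, nat_lit 25905086592), (nat_lit 78, nat_lit 26979090432), (nat_lit 96, nat_lit 26978828352), (nat_lit 58, nat_lit 28052570112)]⟩],
  [W_22650306560, W_21593341952, W_19429343360, W_19429081280, W_18355339520, W_17315152064, W_17298374912, W_16241410304, W_15167930624]⟩
theorem C_22684123392 : chkRec R_22684123392 = true := by decide +kernel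

noncomputable def R_22684127361 : Rec := ⟨nat_lit 22684127361, nat_lit 11,
  [⟨V6_19429347393, [(nat_lit 82, nat_lit 22684127361), (nat_lit 8, nat_lit 23757869121), (nat_lit 31, nat_lit 23741091969), (nat_lit 63, nat_lit 24814833729), (nat_lit 104, nat_lit 24798056577), (nat_lit 100, nat_lit 25871798337)]⟩,
   ⟨V6_18372382848, [(nat_lit 1, nat_lit 22684127361), (nat_lit 49, nat_lit 23757869184), (nat_lit 57, nat_lit 23741091969), (nat_lit 108, nat_lit 24814833792)]⟩],
  [W_22633787456, W_21593595968, W_19462889600]⟩
theorem C_22684127361 : chkRec R_22684127361 = true := by decide +kernel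

noncomputable def R_22684127424 : Rec := ⟨nat_lit 22684127424, nat_lit 14,
  [⟨V6_19462901760, [(nat_lit 33, nat_lit 22684127424), (nat_lit 117, nat_lit 23757869184), (nat_lit 93, nat_lit 24831610944), (nat_lit 40, nat_lit 25905352704)]⟩,
   ⟨V6_17298641088, [(nat_lit 40, nat_lit 22684127424), (nat_lit 103, nat_lit 23741092032)]⟩],
  [W_22650564608, W_22633787456, W_21593600000, W_21576826880, W_20503081088, W_18372374720]⟩
theorem C_22684127424 : chkRec R_22684127424 = true := by decide +kernel

noncomputable def R_22684381314 : Rec := ⟨nat_lit 22684381314, nat_lit 11,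
  [⟨V6_18389409921, [(nat_lit 29, nat_lit 22684381314), (nat_lit 120, nat_lit 23758123137), (nat_lit 24, nat_lit 23758119042), (nat_lit 11, nat_lit 24831860865)]⟩],
  [W_22650298496, W_21609848960, W_21576818816, W_21576560768, W_20503339136]⟩
theorem C_22684381314 : chkRec R_22684381314 = true := by decide +kernel

noncomputable def R_22684381377 : Rec := ⟨nat_lit 22684381377, nat_lit 10,
  [⟨V6_19462631616, [(nat_lit 108, nat_lit 22684381377), (nat_lit 78, nat_lit 23758123200), (nat_lit 65, nat_lit 23757861057), (nat_lit 73, nat_lit 24831602880), (nat_lit 112, nat_lit 24831340737), (nat_lit 75, nat_lit 25905082560)]⟩,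
   ⟨V6_19429601472, [(nat_lit 105, nat_lit 22684381377), (nat_lit 25, nat_lit 23758123200), (nat_lit 86, nat_lit 23741345985), (nat_lit 2, nat_lit 24815087808), (nat_lit 82, nat_lit 24798310593), (nat_lit 105, nat_lit 25872052416)]⟩,
   ⟨V6_18388889793, [(nat_lit 53, nat_lit 22684381377), (nat_lit 121, nat_lit 23757861057), (nat_lit 49, nat_lit 24831340737)]⟩],
  [W_22666817600, W_22650302528, W_18389413952]⟩
theorem C_22684381377 : chkRec R_22684381377 = true := by decide +kernel

noncomputable def R_22684385409 : Rec := ⟨nat_lit 22684385409, nat_lit 41,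
  [⟨V6_21577080960, [(nat_lit 121, nat_lit 22684385409), (nat_lit 37, nat_lit 23758127232), (nat_lit 74, nat_lit 23758123137), (nat_lit 59, nat_lit 23741350017), (nat_lit 45, nat_lit 24831864960), (nat_lit 78, nat_lit 24831860865), (nat_lit 51, nat_lit 24815091840), (nat_lit 97, nat_lit 24815087745), (nat_lit 2, nat_lit 24798314625), (nat_lit 30, nat_lit 25905602688), (nat_lit 79, nat_lit 25888829568), (nat_lit 90, nat_lit 25888825473), (nat_lit 87, nat_lit 25872056448), (nat_lit 28, nat_lit 25872052353), (nat_lit 52, nat_lit 26962567296), (nat_lit 94, nat_lit 26945794176), (nat_lit 66, nat_lit 26945790081), (nat_lit 15, nat_lit 28019531904)]⟩,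
   ⟨V6_21576564801, [(nat_lit 58, nat_lit 22684385409), (nat_lit 101, nat_lit 23758127169), (nat_lit 43, nat_lit 23757865089), (nat_lit 118, nat_lit 23741350017), (nat_lit 58, nat_lit 24831606849), (nat_lit 68, nat_lit 24831344769), (nat_lit 21, nat_lit 24815091777), (nat_lit 7, nat_lit 24814829697), (nat_lit 118, nat_lit 24798314625), (nat_lit 3, nat_lit 25905086529), (nat_lit 34, nat_lit 25888571457), (nat_lit 25, nat_lit 25888309377), (nat_lit 106, nat_lit 25872056385), (nat_lit 94, nat_lit 25871794305), (nat_lit 1, nat_lit 26962051137), (nat_lit 124, nat_lit 26945536065), (nat_lit 101, nat_lit 26945273985), (nat_lit 62, nat_lit 28019015745)]⟩,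
   ⟨V6_19446374529, [(nat_lit 52, nat_lit 22684385409), (nat_lit 77, nat_lit 23758123137), (nat_lit 31, nat_lit 23741350017), (nat_lit 100, nat_lit 24831860865), (nat_lit 14, nat_lit 24815087745), (nat_lit 109, nat_lit 25888825473)]⟩,
   ⟨V6_18389409921, [(nat_lit 13, nat_lit 22684385409), (nat_lit 83, nat_lit 23758123137), (nat_lit 17, nat_lit 24831860865)]⟩],
  [W_22667075648, W_22650560576, W_21593337920, W_21577080896, W_20520116288, W_20503085120, W_19463151680, W_18372640832]⟩
theorem C_22684385409 : chkRec R_22684385409 = true := by decide +kernel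

noncomputable def R_22684385472 : Rec := ⟨nat_lit 22684385472, nat_lit 55,
  [⟨V6_22650826752, [(nat_lit 23, nat_lit 22684385472), (nat_lit 7, nat_lit 23758127232), (nat_lit 28, nat_lit 23758123200), (nat_lit 80, nat_lit 23741350080), (nat_lit 22, nat_lit 24831868992), (nat_lit 4, nat_lit 24831864960), (nat_lit 64, nat_lit 24815091840), (nat_lit 56, nat_lit 24815087808), (nat_lit 99, nat_lit 24798314688), (nat_lit 10, nat_lit 25905610752), (nat_lit 123, nat_lit 25905606720), (nat_lit 44, nat_lit 25888833600), (nat_lit 119, nat_lit 25888829568), (nat_lit 11, nat_lit 25872056448), (nat_lit 96, nat_lit 25872052416), (nat_lit 25, nat_lit 26979348480), (nat_lit 110, nat_lit 26962575360), (nat_lit 97, nat_lit 26962571328), (nat_lit 48, nat_lit 26945798208), (nat_lit 113, nat_lit 26945794176), (nat_lit 47, nat_lit 28036313088), (nat_lit 58, nat_lit 28019539968), (nat_lit 116, nat_lit 28019535936), (nat_lit 110, nat_lit 29093277696)]⟩,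
   ⟨V6_21610119168, [(nat_lit 24, nat_lit 22684385472), (nat_lit 124, nat_lit 23758127232), (nat_lit 118, nat_lit 23757865152), (nat_lit 23, nat_lit 24831868992), (nat_lit 23, nat_lit 24831606912), (nat_lit 53, nat_lit 24831344832), (nat_lit 76, nat_lit 25905610752), (nat_lit 69, nat_lit 25905348672), (nat_lit 102, nat_lit 25905086592), (nat_lit 74, nat_lit 26979090432), (nat_lit 33, nat_lit 26978828352), (nat_lit 14, nat_lit 28052570112)]⟩,
   ⟨V6_21577089024, [(nat_lit 82, nat_lit 22684385472), (nat_lit 11, nat_lit 23758127232), (nat_lit 12, nat_lit 23741350080), (nat_lit 78, nat_lit 24831868992), (nat_lit 113, nat_lit 24815091840), (nat_lit 56, nat_lit 24798314688), (nat_lit 53, nat_lit 25905610752), (nat_lit 49, nat_lit 25888833600), (nat_lit 85, nat_lit 25872056448), (nat_lit 26, nat_lit 26962575360), (nat_lit 107, nat_lit 26945798208), (nat_lit 102, nat_lit 28019539968)]⟩],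
  [W_21593337920, W_20536635392, W_20520120320, W_19463155712, W_18389417984, W_18372374720]⟩
theorem C_22684385472 : chkRec R_22684385472 = true := by decide +kernel

noncomputable def R_22684389441 : Rec := ⟨nat_lit 22684389441, nat_lit 21,
  [⟨V6_21610631232, [(nat_lit 33, nat_lit 22684389441), (nat_lit 68, nat_lit 23758131264), (nat_lit 90, nat_lit 23758127169), (nat_lit 72, nat_lit 24831868992), (nat_lit 53, nat_lit 24831864897), (nat_lit 23, nat_lit 25905606720), (nat_lit 83, nat_lit 25905602625), (nat_lit 102, nat_lit 26979344448), (nat_lit 41, nat_lit 26979340353), (nat_lit 41, nat_lit 28053082176)]⟩,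
   ⟨V6_19429347393, [(nat_lit 15, nat_lit 22684389441), (nat_lit 109, nat_lit 23757869121), (nat_lit 13, nat_lit 23741354049), (nat_lit 65, nat_lit 24814833729), (nat_lit 80, nat_lit 24798318657), (nat_lit 110, nat_lit 25871798337)]⟩],
  [W_21577080896, W_19463151680, W_18372640832]⟩
theorem C_22684389441 : chkRec R_22684389441 = true := by decide +kernel

noncomputable def R_22684389504 : Rec := ⟨nat_lit 22684389504, nat_lit 68,
  [⟨V6_19462901760, [(nat_lit 92, nat_lit 22684389504), (nat_lit 98, nat_lit 23758131264), (nat_lit 41, nat_lit 23757869184), (nat_lit 46, nat_lit 24831873024), (nat_lit 14, nat_lit 24831610944), (nat_lit 12, nat_lit 25905352704)]⟩,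
   ⟨V6_19446386688, [(nat_lit 83, nat_lit 22684389504), (nat_lit 84, nat_lit 23758131264), (nat_lit 94, nat_lit 23741354112), (nat_lit 16, nat_lit 24831873024), (nat_lit 113, nat_lit 24815095872), (nat_lit 70, nat_lit 25888837632)]⟩,
   ⟨V6_18389422080, [(nat_lit 108, nat_lit 22684389504), (nat_lit 83, nat_lit 23758131264), (nat_lit 43, nat_lit 24831873024)]⟩],
  [W_22667337728, W_22650564608, W_22650560576, W_21593595968, W_21576818816, W_20536893440, W_20536635392, W_20519854208, W_20503339136, W_20503081088, W_19462889600]⟩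
theorem C_22684389504 : chkRec R_22684389504 = true := by decide +kernel

noncomputable def R_22684393536 : Rec := ⟨nat_lit 22684393536, nat_lit 47,
  [⟨V6_21610631232, [(nat_lit 10, nat_lit 22684393536), (nat_lit 109, nat_lit 23758131264), (nat_lit 7, nat_lit 24831868992), (nat_lit 36, nat_lit 25905606720), (nat_lit 76, nat_lit 26979344448), (nat_lit 6, nat_lit 28053082176)]⟩,
   ⟨V6_17315684352, [(nat_lit 12, nat_lit 22684393536), (nat_lit 62, nat_lit 23758135296)]⟩],
  [W_22667595776, W_22650822656, W_21577084928, W_21577080896, W_20536893440, W_17282129984]⟩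
theorem C_22684393536 : chkRec R_22684393536 = true := by decide +kernel

noncomputable def R_22684639362 : Rec := ⟨nat_lit 22684639362, nat_lit 6,
  [⟨V6_17315930241, [(nat_lit 105, nat_lit 22684639362), (nat_lit 98, nat_lit 23758381185)]⟩],
  [W_21609848960, W_21593333888]⟩
theorem C_22684639362 : chkRec R_22684639362 = true := by decide +kernel

noncomputable def R_22684643457 : Rec := ⟨nat_lit 22684643457, nat_lit 29,
  [⟨V6_20536111233, [(nat_lit 27, nat_lit 22684643457), (nat_lit 53, nat_lit 23758123137), (nat_lit 29, nat_lit 24831602817), (nat_lit 6, nat_lit 25905082497), (nat_lit 40, nat_lit 26978562177)]⟩,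
   ⟨V6_18389409921, [(nat_lit 60, nat_lit 22684643457), (nat_lit 113, nat_lit 23758381185), (nat_lit 121, nat_lit 23758123137), (nat_lit 102, nat_lit 24831860865)]⟩,
   ⟨V6_17315930241, [(nat_lit 27, nat_lit 22684643457), (nat_lit 15, nat_lit 23758381185)]⟩],
  [W_22683590720, W_22667075648, W_21593595968, W_21593337920, W_19463151680]⟩
theorem C_22684643457 : chkRec R_22684643457 = true := by decide +kernel

noncomputable def R_22684643520 : Rec := ⟨nat_lit 22684643520, nat_lit 26,
  [⟨V6_20520382464, [(nat_lit 122, nat_lit 22684643520), (nat_lit 97, nat_lit 23758385280), (nat_lit 69, nat_lit 23741608128), (nat_lit 108, nat_lit 24832127040), (nat_lit 94, nat_lit 24815349888), (nat_lit 4, nat_lit 25905868800), (nat_lit 126, nat_lit 25889091648), (nat_lit 68, nat_lit 26962833408)]⟩,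
   ⟨V6_17299157184, [(nat_lit 99, nat_lit 22684643520), (nat_lit 93, nat_lit 23741608128)]⟩],
  [W_22683594752, W_21593337920, W_20519596160, W_19463155712]⟩
theorem C_22684643520 : chkRec R_22684643520 = true := by decide +kernel

noncomputable def R_22684647489 : Rec := ⟨nat_lit 22684647489, nat_lit 31,
  [⟨V6_20536889409, [(nat_lit 43, nat_lit 22684647489), (nat_lit 35, nat_lit 23758385217), (nat_lit 9, nat_lit 23758127169), (nat_lit 22, nat_lit 24832122945), (nat_lit 123, nat_lit 24831864897), (nat_lit 18, nat_lit 25905860673), (nat_lit 76, nat_lit 25905602625), (nat_lit 60, nat_lit 26979340353)]⟩,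
   ⟨V6_20520374337, [(nat_lit 89, nat_lit 22684647489), (nat_lit 27, nat_lit 23758385217), (nat_lit 71, nat_lit 23741612097), (nat_lit 13, nat_lit 24832122945), (nat_lit 69, nat_lit 24815349825), (nat_lit 51, nat_lit 25905860673), (nat_lit 103, nat_lit 25889087553), (nat_lit 16, nat_lit 26962825281)]⟩,
   ⟨V6_19446636609, [(nat_lit 71, nat_lit 22684647489), (nat_lit 5, nat_lit 23758385217), (nat_lit 35, nat_lit 23741612097), (nat_lit 117, nat_lit 24832122945), (nat_lit 24, nat_lit 24815349825), (nat_lit 78, nat_lit 25889087553)]⟩,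
   ⟨V6_18372898881, [(nat_lit 61, nat_lit 22684647489), (nat_lit 54, nat_lit 23758385217), (nat_lit 9, nat_lit 23741612097), (nat_lit 33, nat_lit 24815349825)]⟩,
   ⟨V6_17299161153, [(nat_lit 66, nat_lit 22684647489), (nat_lit 62, nat_lit 23741612097)]⟩],
  [W_22683848768, W_22667075648, W_21593337920, W_20536373312, W_20519600192, W_19463151680]⟩
theorem C_22684647489 : chkRec R_22684647489 = true := by decide +kernel

noncomputable def R_22684647552 : Rec := ⟨nat_lit 22684647552, nat_lit 89,
  [⟨V6_21610119168, [(nat_lit 107, nat_lit 22684647552), (nat_lit 27, nat_lit 23758389312), (nat_lit 67, nat_lit 23758127232), (nat_lit 124, nat_lit 24832131072), (nat_lit 43, nat_lit 24831868992), (nat_lit 57, nat_lit 24831606912), (nat_lit 33, nat_lit 25905610752), (nat_lit 77, nat_lit 25905348672), (nat_lit 27, nat_lit 25905086592), (nat_lit 69, nat_lit 26979090432), (nat_lit 104, nat_lit 26978828352), (nat_lit 46, nat_lit 28052570112)]⟩,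
   ⟨V6_20537155584, [(nat_lit 115, nat_lit 22684647552), (nat_lit 7, nat_lit 23758389312), (nat_lit 125, nat_lit 23758385280), (nat_lit 1, nat_lit 24832131072), (nat_lit 41, nat_lit 24832127040), (nat_lit 71, nat_lit 24832123008), (nat_lit 51, nat_lit 25905868800), (nat_lit 49, nat_lit 25905864768), (nat_lit 110, nat_lit 26979606528)]⟩,
   ⟨V6_19446644736, [(nat_lit 15, nat_lit 22684647552), (nat_lit 6, nat_lit 23758389312), (nat_lit 43, nat_lit 23741612160), (nat_lit 110, nat_lit 24832131072), (nat_lit 126, nat_lit 24815353920), (nat_lit 5, nat_lit 25889095680)]⟩],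
  [W_20536893440, W_20520116288, W_19463413760, W_19463155712, W_19462889600, W_19446374528, W_17315938304, W_16242196544]⟩
theorem C_22684647552 : chkRec R_22684647552 = true := by decide +kernel

noncomputable def R_22684651584 : Rec := ⟨nat_lit 22684651584, nat_lit 80,
  [⟨V6_18389422080, [(nat_lit 82, nat_lit 22684651584), (nat_lit 95, nat_lit 23758393344), (nat_lit 32, nat_lit 23758131264), (nat_lit 124, nat_lit 24831873024)]⟩,
   ⟨V6_17315942400, [(nat_lit 109, nat_lit 22684651584), (nat_lit 34, nat_lit 23758393344)]⟩,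
   ⟨V6_17299165248, [(nat_lit 27, nat_lit 22684651584), (nat_lit 60, nat_lit 23741616192)]⟩],
  [W_22684110848, W_22667595776, W_21610369088, W_21594116096, W_21593600000, W_21593595968, W_20537151488, W_20536635392, W_20520374336, W_19463409728]⟩
theorem C_22684651584 : chkRec R_22684651584 = true := by decide +kernel

noncomputable def R_22684655616 : Rec := ⟨nat_lit 22684655616, nat_lit 45,
  [⟨V6_22667857920, [(nat_lit 45, nat_lit 22684655616), (nat_lit 44, nat_lit 23758393344), (nat_lit 96, nat_lit 23741620224), (nat_lit 116, nat_lit 24832131072), (nat_lit 64, nat_lit 24815357952), (nat_lit 43, nat_lit 25905868800), (nat_lit 68, nat_lit 25889095680), (nat_lit 69, nat_lit 26979606528), (nat_lit 100, nat_lit 26962833408), (nat_lit 71, nat_lit 28053344256), (nat_lit 104, nat_lit 28036571136), (nat_lit 66, nat_lit 29110308864)]⟩,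
   ⟨V6_17315684352, [(nat_lit 30, nat_lit 22684655616), (nat_lit 3, nat_lit 23758135296)]⟩,
   ⟨V6_16242204672, [(nat_lit 25, nat_lit 22684655616)]⟩],
  [W_22684368896, W_22667595776, W_21610889216, W_21594116096, W_20520120320, W_17298907136]⟩
theorem C_22684655616 : chkRec R_22684655616 = true := by decide +kernel

noncomputable def R_22684901505 : Rec := ⟨nat_lit 22684901505, nat_lit 15,
  [⟨V6_18389409921, [(nat_lit 113, nat_lit 22684901505), (nat_lit 51, nat_lit 23758381185), (nat_lit 109, nat_lit 24831860865)]⟩],
  [W_22683590720, W_22683328640, W_21609848960, W_17316192320]⟩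
theorem C_22684901505 : chkRec R_22684901505 = true := by decide +kernel

noncomputable def R_22684905537 : Rec := ⟨nat_lit 22684905537, nat_lit 17,
  [⟨V6_21610631232, [(nat_lit 102, nat_lit 22684905537), (nat_lit 19, nat_lit 23758647360), (nat_lit 111, nat_lit 23758643265), (nat_lit 43, nat_lit 23758385217), (nat_lit 36, nat_lit 24832385088), (nat_lit 18, nat_lit 24832380993), (nat_lit 26, nat_lit 24832127040), (nat_lit 27, nat_lit 24832122945), (nat_lit 95, nat_lit 24831864897), (nat_lit 10, nat_lit 25906122816), (nat_lit 31, nat_lit 25905864768), (nat_lit 95, nat_lit 25905860673), (nat_lit 108, nat_lit 25905606720), (nat_lit 47, nat_lit 25905602625), (nat_lit 1, nat_lit 26979602496), (nat_lit 34, nat_lit 26979344448), (nat_lit 31, nat_lit 26979340353), (nat_lit 84, nat_lit 28053082176)]⟩],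
  [W_22683590720, W_17316192320, W_17315934272]⟩
theorem C_22684905537 : chkRec R_22684905537 = true := by decide +kernel

noncomputable def R_22684905600 : Rec := ⟨nat_lit 22684905600, nat_lit 52,
  [⟨V6_22683856896, [(nat_lit 74, nat_lit 22684905600), (nat_lit 109, nat_lit 23758647360), (nat_lit 50, nat_lit 23758385280), (nat_lit 81, nat_lit 24832389120), (nat_lit 122, nat_lit 24832127040), (nat_lit 80, nat_lit 24831864960), (nat_lit 122, nat_lit 25905868800), (nat_lit 13, nat_lit 25905606720), (nat_lit 52, nat_lit 25905344640), (nat_lit 114, nat_lit 26979348480), (nat_lit 119, nat_lit 26979086400), (nat_lit 75, nat_lit 26978824320), (nat_lit 114, nat_lit 28052828160), (nat_lit 93, nat_lit 28052566080), (nat_lit 23, nat_lit 29126307840)]⟩,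
   ⟨V6_17316192384, [(nat_lit 68, nat_lit 22684905600), (nat_lit 66, nat_lit 23758643328)]⟩],
  [W_22683852800, W_22683590720, W_20536893440, W_20536635392]⟩
theorem C_22684905600 : chkRec R_22684905600 = true := by decide +kernel

noncomputable def R_22684909632 : Rec := ⟨nat_lit 22684909632, nat_lit 73,
  [⟨V6_21610893312, [(nat_lit 72, nat_lit 22684909632), (nat_lit 31, nat_lit 23758651392), (nat_lit 113, nat_lit 23758647360), (nat_lit 15, nat_lit 23758389312), (nat_lit 82, nat_lit 24832389120), (nat_lit 77, nat_lit 24832385088), (nat_lit 75, nat_lit 24832131072), (nat_lit 105, nat_lit 24832127040), (nat_lit 80, nat_lit 25906126848), (nat_lit 3, nat_lit 25906122816), (nat_lit 52, nat_lit 25905868800), (nat_lit 41, nat_lit 25905864768), (nat_lit 19, nat_lit 26979864576), (nat_lit 119, nat_lit 26979606528), (nat_lit 24, nat_lit 26979602496), (nat_lit 65, nat_lit 28053344256)]⟩,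
   ⟨V6_21610119168, [(nat_lit 22, nat_lit 22684909632), (nat_lit 96, nat_lit 23758651392), (nat_lit 112, nat_lit 23758389312), (nat_lit 3, nat_lit 24832131072), (nat_lit 20, nat_lit 24831868992), (nat_lit 4, nat_lit 25905610752), (nat_lit 98, nat_lit 25905348672), (nat_lit 38, nat_lit 26979090432), (nat_lit 24, nat_lit 26978828352), (nat_lit 66, nat_lit 28052570112)]⟩,
   ⟨V6_17316200448, [(nat_lit 113, nat_lit 22684909632), (nat_lit 97, nat_lit 23758651392)]⟩],
  [W_22683852800, W_20536893440, W_18389934080, W_18389930048, W_16242458624, W_15168716864]⟩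
theorem C_22684909632 : chkRec R_22684909632 = true := by decide +kernel

noncomputable def R_22684913664 : Rec := ⟨nat_lit 22684913664, nat_lit 54,
  [⟨V6_21611151360, [(nat_lit 96, nat_lit 22684913664), (nat_lit 76, nat_lit 23758651392), (nat_lit 56, nat_lit 24832389120), (nat_lit 53, nat_lit 25906126848), (nat_lit 89, nat_lit 26979864576), (nat_lit 62, nat_lit 28053602304)]⟩,
   ⟨V6_17316200448, [(nat_lit 43, nat_lit 22684913664), (nat_lit 8, nat_lit 23758651392)]⟩],
  [W_22684368896, W_20536893440, W_20536635392]⟩
theorem C_22684913664 : chkRec R_22684913664 = true := by decide +kernel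

noncomputable def R_22700634306 : Rec := ⟨nat_lit 22700634306, nat_lit 1,
  [⟨V6_18405404802, [(nat_lit 20, nat_lit 22700634306), (nat_lit 100, nat_lit 23774376066), (nat_lit 107, nat_lit 23774113986), (nat_lit 78, nat_lit 24847855746)]⟩],
  [W_21576560768]⟩
theorem C_22700634306 : chkRec R_22700634306 = true := by decide +kernel

noncomputable def R_22700638338 : Rec := ⟨nat_lit 22700638338, nat_lit 8,
  [⟨V6_18405671040, [(nat_lit 115, nat_lit 22700638338), (nat_lit 70, nat_lit 23774380161), (nat_lit 45, nat_lit 24848121984)]⟩],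
  [W_22650298496, W_22616752256, W_21593333888, W_21576560768, W_21559787648]⟩
theorem C_22700638338 : chkRec R_22700638338 = true := by decide +kernel

noncomputable def R_22700638401 : Rec := ⟨nat_lit 22700638401, nat_lit 13,
  [⟨V6_18405670977, [(nat_lit 108, nat_lit 22700638401), (nat_lit 96, nat_lit 23774380161), (nat_lit 89, nat_lit 24848121921)]⟩,
   ⟨V6_18388889793, [(nat_lit 4, nat_lit 22700638401), (nat_lit 57, nat_lit 23774376129), (nat_lit 80, nat_lit 23757603009), (nat_lit 116, nat_lit 24831340737)]⟩],
  [W_22650302528, W_22616752256, W_21593337920, W_21576564800, W_21559787648, W_20519596160]⟩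
theorem C_22700638401 : chkRec R_22700638401 = true := by decide +kernel

noncomputable def R_22700638464 : Rec := ⟨nat_lit 22700638464, nat_lit 16,
  [⟨V6_19429081344, [(nat_lit 112, nat_lit 22700638464), (nat_lit 14, nat_lit 23757603072), (nat_lit 49, nat_lit 24814567680), (nat_lit 83, nat_lit 25871532288)]⟩,
   ⟨V6_18372116736, [(nat_lit 98, nat_lit 22700638464), (nat_lit 1, nat_lit 23757603072), (nat_lit 42, nat_lit 24814567680)]⟩,
   ⟨V6_16258187520, [(nat_lit 47, nat_lit 22700638464)]⟩],
  [W_22650306560, W_22616752256, W_19479412736]⟩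
theorem C_22700638464 : chkRec R_22700638464 = true := by decide +kernel

noncomputable def R_22700896386 : Rec := ⟨nat_lit 22700896386, nat_lit 10,
  [⟨V6_21576818817, [(nat_lit 9, nat_lit 22700896386), (nat_lit 20, nat_lit 23774638209), (nat_lit 74, nat_lit 23774634114), (nat_lit 92, nat_lit 23757860994), (nat_lit 58, nat_lit 24848375937), (nat_lit 18, nat_lit 24831602817), (nat_lit 62, nat_lit 24831598722), (nat_lit 72, nat_lit 24814825602), (nat_lit 24, nat_lit 25905340545), (nat_lit 83, nat_lit 25888567425), (nat_lit 73, nat_lit 25888563330), (nat_lit 1, nat_lit 25871790210), (nat_lit 53, nat_lit 26962305153), (nat_lit 124, nat_lit 26945532033), (nat_lit 21, nat_lit 26945527938), (nat_lit 72, nat_lit 28019269761)]⟩,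
   ⟨V6_21576560769, [(nat_lit 10, nat_lit 22700896386), (nat_lit 56, nat_lit 23774638209), (nat_lit 105, nat_lit 23774376066), (nat_lit 62, nat_lit 23757860994), (nat_lit 46, nat_lit 24848117889), (nat_lit 69, nat_lit 24831602817), (nat_lit 59, nat_lit 24831340674), (nat_lit 51, nat_lit 24814825602), (nat_lit 46, nat_lit 25905082497), (nat_lit 51, nat_lit 25888567425), (nat_lit 87, nat_lit 25888305282), (nat_lit 25, nat_lit 25871790210), (nat_lit 104, nat_lit 26962047105), (nat_lit 65, nat_lit 26945532033), (nat_lit 90, nat_lit 26945269890), (nat_lit 52, nat_lit 28019011713)]⟩,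
   ⟨V6_20536111233, [(nat_lit 52, nat_lit 22700896386), (nat_lit 40, nat_lit 23774638209), (nat_lit 31, nat_lit 23774376066), (nat_lit 90, nat_lit 23757860994), (nat_lit 65, nat_lit 24848117889), (nat_lit 117, nat_lit 24847855746), (nat_lit 104, nat_lit 24831602817), (nat_lit 120, nat_lit 24831340674), (nat_lit 42, nat_lit 25921597569), (nat_lit 12, nat_lit 25905082497), (nat_lit 31, nat_lit 25904820354), (nat_lit 117, nat_lit 26978562177)]⟩],
  [W_19479404672, W_19462889600]⟩
theorem C_22700896386 : chkRec R_22700896386 = true := by decide +kernel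

noncomputable def R_22700896449 : Rec := ⟨nat_lit 22700896449, nat_lit 11,
  [⟨V6_21576560769, [(nat_lit 72, nat_lit 22700896449), (nat_lit 61, nat_lit 23774638209), (nat_lit 48, nat_lit 23774376129), (nat_lit 116, nat_lit 23757861057), (nat_lit 97, nat_lit 24848117889), (nat_lit 113, nat_lit 24831602817), (nat_lit 10, nat_lit 24831340737), (nat_lit 65, nat_lit 24814825665), (nat_lit 79, nat_lit 25905082497), (nat_lit 102, nat_lit 25888567425), (nat_lit 114, nat_lit 25888305345), (nat_lit 84, nat_lit 25871790273), (nat_lit 90, nat_lit 26962047105), (nat_lit 116, nat_lit 26945532033), (nat_lit 70, nat_lit 26945269953), (nat_lit 89, nat_lit 28019011713)]⟩,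
   ⟨V6_20536111233, [(nat_lit 29, nat_lit 22700896449), (nat_lit 98, nat_lit 23774638209), (nat_lit 18, nat_lit 23774376129), (nat_lit 21, nat_lit 23757861057), (nat_lit 57, nat_lit 24848117889), (nat_lit 55, nat_lit 24847855809), (nat_lit 47, nat_lit 24831602817), (nat_lit 30, nat_lit 24831340737), (nat_lit 61, nat_lit 25921597569), (nat_lit 120, nat_lit 25905082497), (nat_lit 58, nat_lit 25904820417), (nat_lit 7, nat_lit 26978562177)]⟩,
   ⟨V6_19462631616, [(nat_lit 61, nat_lit 22700896449), (nat_lit 69, nat_lit 23774638272), (nat_lit 40, nat_lit 23774376129), (nat_lit 25, nat_lit 23757861057), (nat_lit 16, nat_lit 24848117952), (nat_lit 13, nat_lit 24831602880), (nat_lit 49, nat_lit 24831340737), (nat_lit 24, nat_lit 25905082560)]⟩,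
   ⟨V6_18388889793, [(nat_lit 92, nat_lit 22700896449), (nat_lit 34, nat_lit 23774376129), (nat_lit 27, nat_lit 23757861057), (nat_lit 77, nat_lit 24831340737)]⟩],
  [W_22633787456, W_21576822848, W_19479408704]⟩
theorem C_22700896449 : chkRec R_22700896449 = true := by decide +kernel

noncomputable def R_22700900481 : Rec := ⟨nat_lit 22700900481, nat_lit 37,
  [⟨V6_18405671040, [(nat_lit 49, nat_lit 22700900481), (nat_lit 54, nat_lit 23774642304), (nat_lit 59, nat_lit 23774380161), (nat_lit 114, nat_lit 24848121984)]⟩,
   ⟨V6_18405670977, [(nat_lit 22, nat_lit 22700900481), (nat_lit 3, nat_lit 23774642241), (nat_lit 26, nat_lit 23774380161), (nat_lit 34, nat_lit 24848121921)]⟩],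
  [W_22667075648, W_22650302528, W_22650298496, W_22633529408, W_21593595968, W_21593337920, W_21593333888, W_21576822848, W_21576818816, W_21559787648, W_20519858240, W_19462889600]⟩
theorem C_22700900481 : chkRec R_22700900481 = true := by decide +kernel

noncomputable def R_22700900544 : Rec := ⟨nat_lit 22700900544, nat_lit 48,
  [⟨V6_20553154560, [(nat_lit 47, nat_lit 22700900544), (nat_lit 24, nat_lit 23774642304), (nat_lit 31, nat_lit 23774380224), (nat_lit 34, nat_lit 24848384064), (nat_lit 112, nat_lit 24848121984), (nat_lit 82, nat_lit 25922125824), (nat_lit 3, nat_lit 25921863744), (nat_lit 29, nat_lit 26995605504)]⟩,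
   ⟨V6_17331929280, [(nat_lit 32, nat_lit 22700900544), (nat_lit 65, nat_lit 23774380224)]⟩],
  [W_22650564608, W_22650306560, W_22650302528, W_22633787456, W_21593341952, W_21593337920, W_21576560768, W_20553150464, W_20536635392, W_18372374720]⟩
theorem C_22700900544 : chkRec R_22700900544 = true := by decide +kernel

noncomputable def R_22700904513 : Rec := ⟨nat_lit 22700904513, nat_lit 16,
  [⟨V6_19446124608, [(nat_lit 103, nat_lit 22700904513), (nat_lit 56, nat_lit 23774646336), (nat_lit 19, nat_lit 23757869121), (nat_lit 109, nat_lit 24831610944), (nat_lit 94, nat_lit 24814833729), (nat_lit 86, nat_lit 25888575552)]⟩,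
   ⟨V6_18372382785, [(nat_lit 8, nat_lit 22700904513), (nat_lit 26, nat_lit 23757869121), (nat_lit 76, nat_lit 24814833729)]⟩],
  [W_22667333696, W_21610369088, W_21593595968, W_16258453568]⟩
theorem C_22700904513 : chkRec R_22700904513 = true := by decide +kernel

noncomputable def R_22700904576 : Rec := ⟨nat_lit 22700904576, nat_lit 40,
  [⟨V6_20519866368, [(nat_lit 56, nat_lit 22700904576), (nat_lit 74, nat_lit 23774646336), (nat_lit 123, nat_lit 23757869184), (nat_lit 14, nat_lit 24848388096), (nat_lit 107, nat_lit 24831610944), (nat_lit 33, nat_lit 24814833792), (nat_lit 86, nat_lit 25905352704), (nat_lit 48, nat_lit 25888575552), (nat_lit 84, nat_lit 26962317312)]⟩,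
   ⟨V6_19462901760, [(nat_lit 84, nat_lit 22700904576), (nat_lit 1, nat_lit 23774646336), (nat_lit 55, nat_lit 23757869184), (nat_lit 122, nat_lit 24848388096), (nat_lit 86, nat_lit 24831610944), (nat_lit 85, nat_lit 25905352704)]⟩,
   ⟨V6_18405937152, [(nat_lit 18, nat_lit 22700904576), (nat_lit 35, nat_lit 23774646336), (nat_lit 113, nat_lit 24848388096)]⟩],
  [W_22667337728, W_22650560576, W_22633787456, W_21593595968, W_21576822848, W_21576818816, W_20536635392, W_20503081088, W_19462889600]⟩
theorem C_22700904576 : chkRec R_22700904576 = true := by decide +kernel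

noncomputable def R_22701154434 : Rec := ⟨nat_lit 22701154434, nat_lit 11,
  [⟨V6_18389409921, [(nat_lit 124, nat_lit 22701154434), (nat_lit 83, nat_lit 23774896257), (nat_lit 12, nat_lit 23758119042), (nat_lit 42, nat_lit 24831860865)]⟩],
  [W_22683328640, W_22666813568, W_22650298496, W_21576818816, W_20503339136]⟩
theorem C_22701154434 : chkRec R_22701154434 = true := by decide +kernel

noncomputable def R_22701158529 : Rec := ⟨nat_lit 22701158529, nat_lit 46,
  [⟨V6_18406187136, [(nat_lit 124, nat_lit 22701158529), (nat_lit 47, nat_lit 23774900352), (nat_lit 13, nat_lit 23774896257), (nat_lit 17, nat_lit 24848638080)]⟩,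
   ⟨V6_18389409921, [(nat_lit 42, nat_lit 22701158529), (nat_lit 25, nat_lit 23774896257), (nat_lit 49, nat_lit 23758123137), (nat_lit 119, nat_lit 24831860865)]⟩],
  [W_22683590720, W_22667075648, W_22650560576, W_22650302528, W_22650298496, W_21626626112, W_21593337920, W_21577080896, W_21576818816, W_21576560768, W_20552888384, W_20519858240, W_20503343168, W_20503339136]⟩
theorem C_22701158529 : chkRec R_22701158529 = true := by decide +kernel

noncomputable def R_22701158592 : Rec := ⟨nat_lit 22701158592, nat_lit 44,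
  [⟨V6_22650826752, [(nat_lit 104, nat_lit 22701158592), (nat_lit 44, nat_lit 23774900352), (nat_lit 31, nat_lit 23758123200), (nat_lit 125, nat_lit 24848642112), (nat_lit 123, nat_lit 24831864960), (nat_lit 47, nat_lit 24815087808), (nat_lit 121, nat_lit 25922383872), (nat_lit 1, nat_lit 25905606720), (nat_lit 88, nat_lit 25888829568), (nat_lit 72, nat_lit 25872052416), (nat_lit 57, nat_lit 26979348480), (nat_lit 19, nat_lit 26962571328), (nat_lit 116, nat_lit 26945794176), (nat_lit 51, nat_lit 28036313088), (nat_lit 50, nat_lit 28019535936), (nat_lit 115, nat_lit 29093277696)]⟩,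
   ⟨V6_21593862144, [(nat_lit 63, nat_lit 22701158592), (nat_lit 48, nat_lit 23774900352), (nat_lit 110, nat_lit 23758123200), (nat_lit 41, nat_lit 24848642112), (nat_lit 103, nat_lit 24831864960), (nat_lit 35, nat_lit 24815087808), (nat_lit 83, nat_lit 25922383872), (nat_lit 46, nat_lit 25905606720), (nat_lit 100, nat_lit 25888829568), (nat_lit 13, nat_lit 26979348480), (nat_lit 52, nat_lit 26962571328), (nat_lit 125, nat_lit 28036313088)]⟩],
  [W_20553150464, W_19479408704, W_19463155712, W_15184965824]⟩
theorem C_22701158592 : chkRec R_22701158592 = true := by decide +kernel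

noncomputable def R_22701162561 : Rec := ⟨nat_lit 22701162561, nat_lit 47,
  [⟨V6_22667595840, [(nat_lit 110, nat_lit 22701162561), (nat_lit 95, nat_lit 23774904384), (nat_lit 52, nat_lit 23774900289), (nat_lit 121, nat_lit 23758127169), (nat_lit 92, nat_lit 24848642112), (nat_lit 105, nat_lit 24848638017), (nat_lit 115, nat_lit 24831868992), (nat_lit 15, nat_lit 24831864897), (nat_lit 60, nat_lit 24815091777), (nat_lit 120, nat_lit 25922379840), (nat_lit 16, nat_lit 25922375745), (nat_lit 63, nat_lit 25905606720), (nat_lit 21, nat_lit 25905602625), (nat_lit 121, nat_lit 25888833600), (nat_lit 9, nat_lit 25888829505), (nat_lit 75, nat_lit 26996117568), (nat_lit 89, nat_lit 26979344448), (nat_lit 115, nat_lit 26979340353), (nat_lit 7, nat_lit 26962571328), (nat_lit 97, nat_lit 26962567233), (nat_lit 97, nat_lit 28053082176), (nat_lit 88, nat_lit 28036309056), (nat_lit 1, nat_lit 28036304961), (nat_lit 111, nat_lit 29110046784)]⟩,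
   ⟨V6_21610631232, [(nat_lit 56, nat_lit 22701162561), (nat_lit 110, nat_lit 23774904384), (nat_lit 65, nat_lit 23774900289), (nat_lit 89, nat_lit 23758127169), (nat_lit 30, nat_lit 24848642112), (nat_lit 40, nat_lit 24848638017), (nat_lit 63, nat_lit 24831868992), (nat_lit 121, nat_lit 24831864897), (nat_lit 49, nat_lit 25922379840), (nat_lit 5, nat_lit 25922375745), (nat_lit 63, nat_lit 25905606720), (nat_lit 33, nat_lit 25905602625), (nat_lit 120, nat_lit 26996117568), (nat_lit 113, nat_lit 26979344448), (nat_lit 52, nat_lit 26979340353), (nat_lit 56, nat_lit 28053082176)]⟩,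
   ⟨V6_19479924801, [(nat_lit 50, nat_lit 22701162561), (nat_lit 60, nat_lit 23774900289), (nat_lit 101, nat_lit 24848638017), (nat_lit 9, nat_lit 25922375745)]⟩,
   ⟨V6_18405670977, [(nat_lit 117, nat_lit 22701162561), (nat_lit 85, nat_lit 23774642241), (nat_lit 89, nat_lit 24848121921)]⟩],
  [W_21593337920, W_21577080896, W_21576564800, W_20536373312, W_20519858240, W_19479408704, W_19463151680, W_18372640832]⟩
theorem C_22701162561 : chkRec R_22701162561 = true := by decide +kernel

noncomputable def R_22701162624 : Rec := ⟨nat_lit 22701162624, nat_lit 139,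
  [⟨V6_22667083776, [(nat_lit 42, nat_lit 22701162624), (nat_lit 101, nat_lit 23774904384), (nat_lit 60, nat_lit 23774642304), (nat_lit 12, nat_lit 23758127232), (nat_lit 67, nat_lit 24848646144), (nat_lit 24, nat_lit 24848384064), (nat_lit 55, nat_lit 24848121984), (nat_lit 68, nat_lit 24831868992), (nat_lit 109, nat_lit 24831606912), (nat_lit 125, nat_lit 24815091840), (nat_lit 37, nat_lit 25922125824), (nat_lit 97, nat_lit 25921863744), (nat_lit 41, nat_lit 25905610752), (nat_lit 62, nat_lit 25905348672), (nat_lit 86, nat_lit 25905086592), (nat_lit 106, nat_lit 25888833600), (nat_lit 51, nat_lit 25888571520), (nat_lit 25, nat_lit 26995605504), (nat_lit 91, nat_lit 26979090432), (nat_lit 123, nat_lit 26978828352), (nat_lit 6, nat_lit 26962575360), (nat_lit 119, nat_lit 26962313280), (nat_lit 59, nat_lit 26962051200), (nat_lit 21, nat_lit 28052570112), (nat_lit 87, nat_lit 28036055040), (nat_lit 124, nat_lit 28035792960), (nat_lit 39, nat_lit 29109534720)]⟩,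
   ⟨V6_22650568704, [(nat_lit 34, nat_lit 22701162624), (nat_lit 59, nat_lit 23774904384), (nat_lit 121, nat_lit 23774642304), (nat_lit 121, nat_lit 23758127232), (nat_lit 28, nat_lit 24848646144), (nat_lit 45, nat_lit 24848384064), (nat_lit 66, nat_lit 24831868992), (nat_lit 34, nat_lit 24831606912), (nat_lit 27, nat_lit 24815091840), (nat_lit 74, nat_lit 25922125824), (nat_lit 29, nat_lit 25905610752), (nat_lit 58, nat_lit 25905348672), (nat_lit 66, nat_lit 25888833600), (nat_lit 66, nat_lit 25888571520), (nat_lit 7, nat_lit 25872056448), (nat_lit 37, nat_lit 26979090432), (nat_lit 96, nat_lit 26962575360), (nat_lit 97, nat_lit 26962313280), (nat_lit 124, nat_lit 26945798208), (nat_lit 4, nat_lit 26945536128), (nat_lit 94, nat_lit 28036055040), (nat_lit 51, nat_lit 28019539968), (nat_lit 48, nat_lit 28019277888), (nat_lit 56, nat_lit 29093019648)]⟩,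
   ⟨V6_21610119168, [(nat_lit 14, nat_lit 22701162624), (nat_lit 10, nat_lit 23774904384), (nat_lit 88, nat_lit 23774642304), (nat_lit 80, nat_lit 23758127232), (nat_lit 30, nat_lit 24848646144), (nat_lit 18, nat_lit 24848384064), (nat_lit 42, nat_lit 24848121984), (nat_lit 24, nat_lit 24831868992), (nat_lit 107, nat_lit 24831606912), (nat_lit 71, nat_lit 25922125824), (nat_lit 14, nat_lit 25921863744), (nat_lit 98, nat_lit 25905610752), (nat_lit 41, nat_lit 25905348672), (nat_lit 55, nat_lit 25905086592), (nat_lit 6, nat_lit 26995605504), (nat_lit 60, nat_lit 26979090432), (nat_lit 122, nat_lit 26978828352), (nat_lit 50, nat_lit 28052570112)]⟩,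
   ⟨V6_21577089024, [(nat_lit 59, nat_lit 22701162624), (nat_lit 28, nat_lit 23774904384), (nat_lit 3, nat_lit 23758127232), (nat_lit 89, nat_lit 24848646144), (nat_lit 109, nat_lit 24831868992), (nat_lit 121, nat_lit 24815091840), (nat_lit 65, nat_lit 25905610752), (nat_lit 119, nat_lit 25888833600), (nat_lit 26, nat_lit 25872056448), (nat_lit 46, nat_lit 26962575360), (nat_lit 50, nat_lit 26945798208), (nat_lit 78, nat_lit 28019539968)]⟩,
   ⟨V6_20553154560, [(nat_lit 30, nat_lit 22701162624), (nat_lit 92, nat_lit 23774904384), (nat_lit 18, nat_lit 23774642304), (nat_lit 11, nat_lit 24848646144), (nat_lit 80, nat_lit 24848384064), (nat_lit 95, nat_lit 24848121984), (nat_lit 59, nat_lit 25922125824), (nat_lit 40, nat_lit 25921863744), (nat_lit 63, nat_lit 26995605504)]⟩,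
   ⟨V6_18405671040, [(nat_lit 29, nat_lit 22701162624), (nat_lit 71, nat_lit 23774642304), (nat_lit 34, nat_lit 24848121984)]⟩],
  [W_22650822656, W_22650298496, W_21577084928, W_21577080896, W_20553150464, W_20536893440, W_20520120320, W_20520116288, W_20503347200, W_20503339136, W_19479412736, W_19479404672, W_19463155712, W_19462889600, W_19446382592, W_19446374528, W_18405924992]⟩
theorem C_22701162624 : chkRec R_22701162624 = true := by decide +kernel

noncomputable def R_22701166656 : Rec := ⟨nat_lit 22701166656, nat_lit 111,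
  [⟨V6_21627408384, [(nat_lit 126, nat_lit 22701166656), (nat_lit 52, nat_lit 23774908416), (nat_lit 111, nat_lit 23774904384), (nat_lit 20, nat_lit 24848646144), (nat_lit 9, nat_lit 24848642112), (nat_lit 115, nat_lit 25922383872), (nat_lit 62, nat_lit 25922379840), (nat_lit 34, nat_lit 26996121600), (nat_lit 5, nat_lit 26996117568), (nat_lit 117, nat_lit 28069859328)]⟩,
   ⟨V6_18405937152, [(nat_lit 9, nat_lit 22701166656), (nat_lit 41, nat_lit 23774908416), (nat_lit 47, nat_lit 23774646336), (nat_lit 56, nat_lit 24848388096)]⟩,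
   ⟨V6_18389422080, [(nat_lit 75, nat_lit 22701166656), (nat_lit 84, nat_lit 23774908416), (nat_lit 81, nat_lit 23758131264), (nat_lit 93, nat_lit 24831873024)]⟩],
  [W_22667595776, W_22650822656, W_21577084928, W_21577080896, W_20536893440, W_20536635392, W_20503347200, W_20503085120, W_19463155712, W_19429609472, W_18389417984]⟩
theorem C_22701166656 : chkRec R_22701166656 = true := by decide +kernel

noncomputable def R_22701170688 : Rec := ⟨nat_lit 22701170688, nat_lit 59,
  [⟨V6_20503351296, [(nat_lit 36, nat_lit 22701170688), (nat_lit 36, nat_lit 23774908416), (nat_lit 105, nat_lit 23758135296), (nat_lit 30, nat_lit 24831873024), (nat_lit 22, nat_lit 24815099904), (nat_lit 95, nat_lit 25888837632), (nat_lit 112, nat_lit 25872064512), (nat_lit 13, nat_lit 26945802240)]⟩,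
   ⟨V6_19429613568, [(nat_lit 111, nat_lit 22701170688), (nat_lit 125, nat_lit 23758135296), (nat_lit 120, nat_lit 24815099904), (nat_lit 97, nat_lit 25872064512)]⟩,
   ⟨V6_17315684352, [(nat_lit 50, nat_lit 22701170688), (nat_lit 44, nat_lit 23758135296)]⟩,
   ⟨V6_16258719744, [(nat_lit 122, nat_lit 22701170688)]⟩],
  [W_22667595776, W_22650822656, W_21627404288, W_20536893440]⟩
theorem C_22701170688 : chkRec R_22701170688 = true := by decide +kernel

noncomputable def R_22701416577 : Rec := ⟨nat_lit 22701416577, nat_lit 31,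
  [⟨V6_19446636609, [(nat_lit 120, nat_lit 22701416577), (nat_lit 47, nat_lit 23775158337), (nat_lit 11, nat_lit 23758381185), (nat_lit 2, nat_lit 24832122945), (nat_lit 99, nat_lit 24815345793), (nat_lit 123, nat_lit 25889087553)]⟩,
   ⟨V6_18389409921, [(nat_lit 72, nat_lit 22701416577), (nat_lit 123, nat_lit 23774896257), (nat_lit 29, nat_lit 23758381185), (nat_lit 22, nat_lit 24831860865)]⟩,
   ⟨V6_17315930241, [(nat_lit 102, nat_lit 22701416577), (nat_lit 105, nat_lit 23758381185)]⟩],
  [W_22683328640, W_22667075648, W_21626626112, W_21593595968, W_21593333888, W_20520116288, W_19446636608]⟩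
theorem C_22701416577 : chkRec R_22701416577 = true := by decide +kernel

noncomputable def R_22701420609 : Rec := ⟨nat_lit 22701420609, nat_lit 46,
  [⟨V6_19480186944, [(nat_lit 14, nat_lit 22701420609), (nat_lit 82, nat_lit 23775162432), (nat_lit 6, nat_lit 23775158337), (nat_lit 52, nat_lit 24848900160), (nat_lit 74, nat_lit 24848896065), (nat_lit 23, nat_lit 25922637888)]⟩,
   ⟨V6_19446636609, [(nat_lit 95, nat_lit 22701420609), (nat_lit 112, nat_lit 23775158337), (nat_lit 124, nat_lit 23758385217), (nat_lit 53, nat_lit 24832122945), (nat_lit 121, nat_lit 24815349825), (nat_lit 50, nat_lit 25889087553)]⟩,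
   ⟨V6_18372898881, [(nat_lit 76, nat_lit 22701420609), (nat_lit 120, nat_lit 23758385217), (nat_lit 87, nat_lit 24815349825)]⟩],
  [W_22683590720, W_22667333696, W_22667075648, W_22666817600, W_21593595968, W_21593337920, W_19479408704, W_19463151680]⟩
theorem C_22701420609 : chkRec R_22701420609 = true := by decide +kernel

noncomputable def R_22701420672 : Rec := ⟨nat_lit 22701420672, nat_lit 116,
  [⟨V6_22683856896, [(nat_lit 96, nat_lit 22701420672), (nat_lit 36, nat_lit 23775162432), (nat_lit 27, nat_lit 23774900352), (nat_lit 109, nat_lit 23758385280), (nat_lit 71, nat_lit 24848904192), (nat_lit 53, nat_lit 24848642112), (nat_lit 38, nat_lit 24848380032), (nat_lit 74, nat_lit 24832127040), (nat_lit 33, nat_lit 24831864960), (nat_lit 26, nat_lit 25922383872), (nat_lit 61, nat_lit 25922121792), (nat_lit 78, nat_lit 25921859712), (nat_lit 113, nat_lit 25905868800), (nat_lit 67, nat_lit 25905606720), (nat_lit 74, nat_lit 25905344640), (nat_lit 61, nat_lit 26995863552), (nat_lit 31, nat_lit 26995601472), (nat_lit 47, nat_lit 26979348480),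 (nat_lit 15, nat_lit 26979086400), (nat_lit 73, nat_lit 26978824320), (nat_lit 21, nat_lit 28069343232), (nat_lit 31, nat_lit 28052828160), (nat_lit 92, nat_lit 28052566080), (nat_lit 78, nat_lit 29126307840)]⟩,
   ⟨V6_21594120192, [(nat_lit 26, nat_lit 22701420672), (nat_lit 91, nat_lit 23775162432), (nat_lit 80, nat_lit 23775158400), (nat_lit 114, nat_lit 23758385280), (nat_lit 82, nat_lit 24848904192), (nat_lit 77, nat_lit 24848900160), (nat_lit 99, nat_lit 24832127040), (nat_lit 40, nat_lit 24832123008), (nat_lit 33, nat_lit 24815349888), (nat_lit 17, nat_lit 25922641920), (nat_lit 97, nat_lit 25905868800), (nat_lit 53, nat_lit 25905864768), (nat_lit 7, nat_lit 25889091648), (nat_lit 38, nat_lit 25889087616), (nat_lit 31, nat_lit 26979606528), (nat_lit 73, nat_lit 26962833408), (nat_lit 89, nat_lit 26962829376), (nat_lit 103, nat_lit 28036571136)]⟩,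
   ⟨V6_20537155584, [(nat_lit 52, nat_lit 22701420672), (nat_lit 67, nat_lit 23775162432), (nat_lit 8, nat_lit 23775158400), (nat_lit 41, nat_lit 23758385280), (nat_lit 16, nat_lit 24848904192), (nat_lit 17, nat_lit 24848900160), (nat_lit 28, nat_lit 24832127040), (nat_lit 23, nat_lit 24832123008), (nat_lit 33, nat_lit 25922641920), (nat_lit 19, nat_lit 25905868800), (nat_lit 118, nat_lit 25905864768), (nat_lit 64, nat_lit 26979606528)]⟩,
   ⟨V6_20520382464, [(nat_lit 103, nat_lit 22701420672), (nat_lit 59, nat_lit 23775162432), (nat_lit 38, nat_lit 23758385280), (nat_lit 121, nat_lit 24848904192), (nat_lit 63, nat_lit 24832127040), (nat_lit 4, nat_lit 24815349888), (nat_lit 72, nat_lit 25905868800), (nat_lit 52, nat_lit 25889091648), (nat_lit 91, nat_lit 26962833408)]⟩],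
  [W_22700367872, W_20553150464, W_20536893440, W_19479404672, W_19463413760, W_19463155712, W_19462889600, W_19446374528, W_18405924992, W_18389676032]⟩
theorem C_22701420672 : chkRec R_22701420672 = true := by decide +kernel

noncomputable def R_22701424704 : Rec := ⟨nat_lit 22701424704, nat_lit 167,
  [⟨V6_22667857920, [(nat_lit 18, nat_lit 22701424704), (nat_lit 117, nat_lit 23775166464), (nat_lit 107, nat_lit 23775162432), (nat_lit 102, nat_lit 23758389312), (nat_lit 73, nat_lit 24848904192), (nat_lit 123, nat_lit 24848900160), (nat_lit 24, nat_lit 24832131072), (nat_lit 36, nat_lit 24832127040), (nat_lit 51, nat_lit 24815353920), (nat_lit 45, nat_lit 25922641920), (nat_lit 61, nat_lit 25922637888), (nat_lit 18, nat_lit 25905868800), (nat_lit 69, nat_lit 25905864768), (nat_lit 66, nat_lit 25889095680), (nat_lit 4, nat_lit 25889091648), (nat_lit 101, nat_lit 26996379648), (nat_lit 15, nat_lit 26979606528), (nat_lit 1, nat_lit 26979602496), (nat_lit 11, nat_lit 26962833408), (nat_lit 14, nat_lit 26962829376), (nat_lit 96, nat_lit 28053344256),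 (nat_lit 83, nat_lit 28036571136), (nat_lit 9, nat_lit 28036567104), (nat_lit 53, nat_lit 29110308864)]⟩,
   ⟨V6_21610893312, [(nat_lit 94, nat_lit 22701424704), (nat_lit 45, nat_lit 23775166464), (nat_lit 118, nat_lit 23775162432), (nat_lit 70, nat_lit 23758389312), (nat_lit 117, nat_lit 24848904192), (nat_lit 125, nat_lit 24848900160), (nat_lit 126, nat_lit 24832131072), (nat_lit 70, nat_lit 24832127040), (nat_lit 61, nat_lit 25922641920), (nat_lit 91, nat_lit 25922637888), (nat_lit 109, nat_lit 25905868800), (nat_lit 55, nat_lit 25905864768), (nat_lit 67, nat_lit 26996379648), (nat_lit 68, nat_lit 26979606528), (nat_lit 34, nat_lit 26979602496), (nat_lit 103, nat_lit 28053344256)]⟩,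
   ⟨V6_21610119168, [(nat_lit 78, nat_lit 22701424704), (nat_lit 92, nat_lit 23775166464), (nat_lit 73, nat_lit 23774904384), (nat_lit 57, nat_lit 23758389312), (nat_lit 93, nat_lit 24848646144), (nat_lit 23, nat_lit 24848384064), (nat_lit 66, nat_lit 24832131072), (nat_lit 13, nat_lit 24831868992), (nat_lit 97, nat_lit 25922125824), (nat_lit 34, nat_lit 25921863744), (nat_lit 5, nat_lit 25905610752), (nat_lit 112, nat_lit 25905348672), (nat_lit 38, nat_lit 26995605504), (nat_lit 57, nat_lit 26979090432), (nat_lit 97, nat_lit 26978828352), (nat_lit 110, nat_lit 28052570112)]⟩,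
   ⟨V6_20553154560, [(nat_lit 59, nat_lit 22701424704), (nat_lit 12, nat_lit 23775166464), (nat_lit 62, nat_lit 23774904384), (nat_lit 123, nat_lit 24848646144), (nat_lit 74, nat_lit 24848384064), (nat_lit 18, nat_lit 25922125824), (nat_lit 79, nat_lit 25921863744), (nat_lit 18, nat_lit 26995605504)]⟩,
   ⟨V6_20520382464, [(nat_lit 95, nat_lit 22701424704), (nat_lit 63, nat_lit 23775166464), (nat_lit 53, nat_lit 23775162432), (nat_lit 29, nat_lit 23758389312), (nat_lit 3, nat_lit 24848904192), (nat_lit 86, nat_lit 24832131072), (nat_lit 21, nat_lit 24832127040), (nat_lit 52, nat_lit 24815353920), (nat_lit 13, nat_lit 25905868800), (nat_lit 73, nat_lit 25889095680), (nat_lit 58, nat_lit 25889091648), (nat_lit 10, nat_lit 26962833408)]⟩,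
   ⟨V6_19480186944, [(nat_lit 107, nat_lit 22701424704), (nat_lit 103, nat_lit 23775162432), (nat_lit 112, nat_lit 24848900160), (nat_lit 98, nat_lit 25922637888)]⟩,
   ⟨V6_19446644736, [(nat_lit 97, nat_lit 22701424704), (nat_lit 16, nat_lit 23775166464), (nat_lit 55, nat_lit 23758389312), (nat_lit 120, nat_lit 24832131072), (nat_lit 90, nat_lit 24815353920), (nat_lit 64, nat_lit 25889095680)]⟩],
  [W_22667595776, W_22667333696, W_20553150464, W_20536893440, W_19480186880, W_19479412736, W_19463413760, W_19463155712, W_18389676032, W_18372640832, W_17315938304, W_16242196544, W_15185231936]⟩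
theorem C_22701424704 : chkRec R_22701424704 = true := by decide +kernel

noncomputable def R_22701428736 : Rec := ⟨nat_lit 22701428736, nat_lit 107,
  [⟨V6_19446386688, [(nat_lit 57, nat_lit 22701428736), (nat_lit 105, nat_lit 23774908416), (nat_lit 91, nat_lit 23758393344), (nat_lit 29, nat_lit 24831873024), (nat_lit 96, nat_lit 24815357952), (nat_lit 38, nat_lit 25888837632)]⟩,
   ⟨V6_18405937152, [(nat_lit 95, nat_lit 22701428736), (nat_lit 90, nat_lit 23774908416), (nat_lit 31, nat_lit 24848388096)]⟩,
   ⟨V6_18389422080, [(nat_lit 79, nat_lit 22701428736), (nat_lit 45, nat_lit 23774908416), (nat_lit 23, nat_lit 23758393344), (nat_lit 70, nat_lit 24831873024)]⟩,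
   ⟨V6_17315942400, [(nat_lit 13, nat_lit 22701428736), (nat_lit 47, nat_lit 23758393344)]⟩],
  [W_22700883968, W_22684368896, W_22667595776, W_22667337728, W_21627404288, W_21610889216, W_21594116096, W_20537151488, W_20536635392, W_19480186880]⟩
theorem C_22701428736 : chkRec R_22701428736 = true := by decide +kernel

noncomputable def R_22701678657 : Rec := ⟨nat_lit 22701678657, nat_lit 29,
  [⟨V6_22700105793, [(nat_lit 31, nat_lit 22701678657), (nat_lit 32, nat_lit 23775158337), (nat_lit 104, nat_lit 24848638017), (nat_lit 76, nat_lit 25922117697), (nat_lit 73, nat_lit 26995597377), (nat_lit 51, nat_lit 28069077057), (nat_lit 4, nat_lit 29142556737)]⟩,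
   ⟨V6_19479924801, [(nat_lit 43, nat_lit 22701678657), (nat_lit 33, nat_lit 23775416385), (nat_lit 17, nat_lit 23775158337), (nat_lit 101, nat_lit 24848896065), (nat_lit 3, nat_lit 24848638017), (nat_lit 121, nat_lit 25922375745)]⟩,
   ⟨V6_18406707264, [(nat_lit 118, nat_lit 22701678657), (nat_lit 83, nat_lit 23775420480), (nat_lit 37, nat_lit 23775416385), (nat_lit 13, nat_lit 24849158208)]⟩],
  [W_22700105792, W_22683848768, W_22683590720, W_21626626112, W_19463151680]⟩
theorem C_22701678657 : chkRec R_22701678657 = true := by decide +kernel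

noncomputable def R_22701678720 : Rec := ⟨nat_lit 22701678720, nat_lit 68,
  [⟨V6_18406711296, [(nat_lit 82, nat_lit 22701678720), (nat_lit 103, nat_lit 23775420480), (nat_lit 35, nat_lit 24849162240)]⟩,
   ⟨V6_18389672064, [(nat_lit 39, nat_lit 22701678720), (nat_lit 62, nat_lit 23775158400), (nat_lit 103, nat_lit 23758643328), (nat_lit 11, nat_lit 24832123008)]⟩],
  [W_22700367872, W_22683852800, W_22683590720, W_22683328640, W_21626626112, W_20536893440, W_19479404672]⟩
theorem C_22701678720 : chkRec R_22701678720 = true := by decide +kernel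

noncomputable def R_22701682752 : Rec := ⟨nat_lit 22701682752, nat_lit 133,
  [⟨V6_21610893312, [(nat_lit 65, nat_lit 22701682752), (nat_lit 63, nat_lit 23775424512), (nat_lit 57, nat_lit 23775420480), (nat_lit 59, nat_lit 23775162432), (nat_lit 112, nat_lit 23758647360), (nat_lit 58, nat_lit 24849162240), (nat_lit 31, nat_lit 24849158208), (nat_lit 42, nat_lit 24848904192), (nat_lit 89, nat_lit 24848900160), (nat_lit 95, nat_lit 24832389120), (nat_lit 62, nat_lit 24832385088), (nat_lit 60, nat_lit 24832127040), (nat_lit 48, nat_lit 25922899968), (nat_lit 18, nat_lit 25922641920), (nat_lit 23, nat_lit 25922637888), (nat_lit 98, nat_lit 25906126848), (nat_lit 44, nat_lit 25906122816), (nat_lit 28, nat_lit 25905868800), (nat_lit 86, nat_lit 25905864768), (nat_lit 59, nat_lit 26996379648), (nat_lit 90, nat_lit 26979864576), (nat_lit 115, nat_lit 26979606528), (nat_lit 120, nat_lit 26979602496), (nat_lit 84, nat_lit 28053344256)]⟩,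
   ⟨V6_19480186944, [(nat_lit 12, nat_lit 22701682752), (nat_lit 76, nat_lit 23775420480), (nat_lit 115, nat_lit 23775162432), (nat_lit 22, nat_lit 24849158208), (nat_lit 96, nat_lit 24848900160), (nat_lit 15, nat_lit 25922637888)]⟩,
   ⟨V6_18406711296, [(nat_lit 100, nat_lit 22701682752), (nat_lit 116, nat_lit 23775424512), (nat_lit 74, nat_lit 23775420480), (nat_lit 108, nat_lit 24849162240)]⟩,
   ⟨V6_18406707264, [(nat_lit 27, nat_lit 22701682752), (nat_lit 16, nat_lit 23775420480), (nat_lit 60, nat_lit 24849158208)]⟩],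
  [W_22700367872, W_22683852800, W_22683590720, W_20553150464, W_20536893440, W_20536635392, W_19463155712, W_18389934080, W_17316196352]⟩
theorem C_22701682752 : chkRec R_22701682752 = true := by decide +kernel

noncomputable def R_22701686784 : Rec := ⟨nat_lit 22701686784, nat_lit 124,
  [⟨V6_21611151360, [(nat_lit 8, nat_lit 22701686784), (nat_lit 97, nat_lit 23775424512), (nat_lit 124, nat_lit 23758651392), (nat_lit 56, nat_lit 24849162240), (nat_lit 73, nat_lit 24832389120), (nat_lit 74, nat_lit 25922899968), (nat_lit 77, nat_lit 25906126848), (nat_lit 53, nat_lit 26996637696), (nat_lit 55, nat_lit 26979864576), (nat_lit 15, nat_lit 28053602304)]⟩,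
   ⟨V6_20553154560, [(nat_lit 33, nat_lit 22701686784), (nat_lit 115, nat_lit 23775166464), (nat_lit 97, nat_lit 24848646144), (nat_lit 59, nat_lit 25922125824), (nat_lit 21, nat_lit 26995605504)]⟩,
   ⟨V6_18406711296, [(nat_lit 92, nat_lit 22701686784), (nat_lit 11, nat_lit 23775424512), (nat_lit 91, nat_lit 24849162240)]⟩,
   ⟨V6_17316200448, [(nat_lit 44, nat_lit 22701686784), (nat_lit 120, nat_lit 23758651392)]⟩],
  [W_22684368896, W_22683852800, W_21627404288, W_21610889216, W_20537409536, W_20536893440, W_19480444928, W_19480186880, W_19463671808]⟩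
theorem C_22701686784 : chkRec R_22701686784 = true := by decide +kernel

noncomputable def R_22701936705 : Rec := ⟨nat_lit 22701936705, nat_lit 8,
  [⟨V6_19479924801, [(nat_lit 26, nat_lit 22701936705), (nat_lit 19, nat_lit 23775416385), (nat_lit 81, nat_lit 24848896065), (nat_lit 69, nat_lit 25922375745)]⟩,
   ⟨V6_17332965441, [(nat_lit 25, nat_lit 22701936705), (nat_lit 112, nat_lit 23775416385)]⟩],
  [W_22700363840, W_17332965440]⟩
theorem C_22701936705 : chkRec R_22701936705 = true := by decide +kernel

noncomputable def R_22701940800 : Rec := ⟨nat_lit 22701940800, nat_lit 55,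
  [⟨V6_18406711296, [(nat_lit 109, nat_lit 22701940800), (nat_lit 79, nat_lit 23775682560), (nat_lit 64, nat_lit 23775420480), (nat_lit 92, nat_lit 24849162240)]⟩,
   ⟨V6_18406707264, [(nat_lit 1, nat_lit 22701940800), (nat_lit 78, nat_lit 23775678528), (nat_lit 31, nat_lit 23775420480), (nat_lit 122, nat_lit 24849158208)]⟩],
  [W_22700625920, W_22700367872, W_22700363840, W_22700105792, W_21626884160, W_21626626112, W_17333227520, W_16259489792, W_16259485760]⟩
theorem C_22701940800 : chkRec R_22701940800 = true := by decide +kernel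

noncomputable def R_22701944832 : Rec := ⟨nat_lit 22701944832, nat_lit 63,
  [⟨V6_22700371968, [(nat_lit 120, nat_lit 22701944832), (nat_lit 90, nat_lit 23775424512), (nat_lit 51, nat_lit 24848904192), (nat_lit 63, nat_lit 25922383872), (nat_lit 3, nat_lit 26995863552), (nat_lit 51, nat_lit 28069343232), (nat_lit 84, nat_lit 29142822912)]⟩,
   ⟨V6_18406711296, [(nat_lit 103, nat_lit 22701944832), (nat_lit 6, nat_lit 23775682560), (nat_lit 109, nat_lit 23775424512), (nat_lit 80, nat_lit 24849162240)]⟩],
  [W_22700367872, W_21627404288, W_19480444928, W_19480186880, W_15185752064]⟩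
theorem C_22701944832 : chkRec R_22701944832 = true := by decide +kernel

noncomputable def R_22717411458 : Rec := ⟨nat_lit 22717411458, nat_lit 8,
  [⟨V6_21593075841, [(nat_lit 99, nat_lit 22717411458), (nat_lit 50, nat_lit 23791153281), (nat_lit 63, nat_lit 23790891138), (nat_lit 88, nat_lit 23774376066), (nat_lit 113, nat_lit 24864632961), (nat_lit 19, nat_lit 24848117889), (nat_lit 36, nat_lit 24847855746), (nat_lit 31, nat_lit 24831340674), (nat_lit 55, nat_lit 25921597569), (nat_lit 68, nat_lit 25905082497), (nat_lit 49, nat_lit 25904820354), (nat_lit 125, nat_lit 25888305282), (nat_lit 43, nat_lit 26978562177), (nat_lit 66, nat_lit 26962047105), (nat_lit 122, nat_lit 26961784962), (nat_lit 29, nat_lit 28035526785)]⟩,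
   ⟨V6_21576560769, [(nat_lit 77, nat_lit 22717411458), (nat_lit 73, nat_lit 23791153281), (nat_lit 14, nat_lit 23774376066), (nat_lit 4, nat_lit 24848117889), (nat_lit 15, nat_lit 24831340674), (nat_lit 27, nat_lit 25905082497), (nat_lit 109, nat_lit 25888305282), (nat_lit 25, nat_lit 26962047105), (nat_lit 52, nat_lit 26945269890), (nat_lit 38, nat_lit 28019011713)]⟩,
   ⟨V6_21576556674, [(nat_lit 115, nat_lit 22717411458), (nat_lit 33, nat_lit 23791149186), (nat_lit 107, nat_lit 23774376066), (nat_lit 16, nat_lit 24848113794), (nat_lit 38, nat_lit 24831340674), (nat_lit 5, nat_lit 25905078402), (nat_lit 12, nat_lit 25888305282), (nat_lit 86, nat_lit 26962043010), (nat_lit 116, nat_lit 26945269890), (nat_lit 6, nat_lit 28019007618)]⟩,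
   ⟨V6_18405404802, [(nat_lit 52, nat_lit 22717411458), (nat_lit 21, nat_lit 23790891138), (nat_lit 36, nat_lit 23774376066), (nat_lit 24, nat_lit 24847855746)]⟩],
  [W_19495919744, W_19479404672]⟩
theorem C_22717411458 : chkRec R_22717411458 = true := by decide +kernel

noncomputable def R_22717411521 : Rec := ⟨nat_lit 22717411521, nat_lit 7,
  [⟨V6_17348702400, [(nat_lit 65, nat_lit 22717411521), (nat_lit 77, nat_lit 23791153344)]⟩],
  [W_22666817600, W_20552888384, W_19495923776, W_19479146624]⟩
theorem C_22717411521 : chkRec R_22717411521 = true := by decide +kernel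

noncomputable def R_22717415553 : Rec := ⟨nat_lit 22717415553, nat_lit 28,
  [⟨V6_22650298497, [(nat_lit 3, nat_lit 22717415553), (nat_lit 106, nat_lit 23791153281), (nat_lit 35, nat_lit 23774380161), (nat_lit 20, nat_lit 24864891009), (nat_lit 118, nat_lit 24848117889), (nat_lit 87, nat_lit 24831344769), (nat_lit 113, nat_lit 25921855617), (nat_lit 74, nat_lit 25905082497), (nat_lit 52, nat_lit 25888309377), (nat_lit 26, nat_lit 26978820225), (nat_lit 52, nat_lit 26962047105), (nat_lit 102, nat_lit 26945273985), (nat_lit 75, nat_lit 28035784833), (nat_lit 11, nat_lit 28019011713), (nat_lit 54, nat_lit 29092749441)]⟩,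
   ⟨V6_21576564801, [(nat_lit 33, nat_lit 22717415553), (nat_lit 76, nat_lit 23791157313), (nat_lit 54, nat_lit 23774380161), (nat_lit 100, nat_lit 24848121921), (nat_lit 47, nat_lit 24831344769), (nat_lit 93, nat_lit 25905086529), (nat_lit 20, nat_lit 25888309377), (nat_lit 111, nat_lit 26962051137), (nat_lit 5, nat_lit 26945273985), (nat_lit 4, nat_lit 28019015745)]⟩,
   ⟨V6_18405670977, [(nat_lit 61, nat_lit 22717415553), (nat_lit 111, nat_lit 23791157313), (nat_lit 15, nat_lit 23774380161), (nat_lit 46, nat_lit 24848121921)]⟩,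
   ⟨V6_17348706369, [(nat_lit 124, nat_lit 22717415553), (nat_lit 34, nat_lit 23791157313)]⟩],
  [W_22650302528, W_19496181824, W_19479408704, W_17348706368]⟩
theorem C_22717415553 : chkRec R_22717415553 = true := by decide +kernel

noncomputable def R_22717415616 : Rec := ⟨nat_lit 22717415616, nat_lit 36,
  [⟨V6_19462631616, [(nat_lit 72, nat_lit 22717415616), (nat_lit 47, nat_lit 23791153344), (nat_lit 93, nat_lit 23774380224), (nat_lit 61, nat_lit 24848117952), (nat_lit 102, nat_lit 24831344832), (nat_lit 91, nat_lit 25905082560)]⟩,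
   ⟨V6_17331929280, [(nat_lit 1, nat_lit 22717415616), (nat_lit 19, nat_lit 23774380224)]⟩,
   ⟨V6_16274964672, [(nat_lit 49, nat_lit 22717415616)]⟩],
  [W_22667079680, W_22650306560, W_22650302528, W_22616752256, W_21576564800, W_19496185856]⟩
theorem C_22717415616 : chkRec R_22717415616 = true := by decide +kernel

noncomputable def R_22717669506 : Rec := ⟨nat_lit 22717669506, nat_lit 11,
  [⟨V6_19496181888, [(nat_lit 82, nat_lit 22717669506), (nat_lit 63, nat_lit 23791411329), (nat_lit 34, nat_lit 23791149186), (nat_lit 26, nat_lit 24865153152), (nat_lit 12, nat_lit 24864891009), (nat_lit 125, nat_lit 25938632832)]⟩],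
  [W_22650298496, W_21609848960, W_21576818816, W_20569399424]⟩
theorem C_22717669506 : chkRec R_22717669506 = true := by decide +kernel

noncomputable def R_22717673601 : Rec := ⟨nat_lit 22717673601, nat_lit 42,
  [⟨V6_22633525377, [(nat_lit 117, nat_lit 22717673601), (nat_lit 35, nat_lit 23791153281), (nat_lit 5, nat_lit 23774638209), (nat_lit 109, nat_lit 24848117889), (nat_lit 7, nat_lit 24831602817), (nat_lit 69, nat_lit 25905082497), (nat_lit 13, nat_lit 25888567425), (nat_lit 75, nat_lit 26962047105), (nat_lit 103, nat_lit 26945532033), (nat_lit 108, nat_lit 28019011713), (nat_lit 77, nat_lit 28002496641), (nat_lit 46, nat_lit 29075976321)]⟩,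
   ⟨V6_19496181888, [(nat_lit 86, nat_lit 22717673601), (nat_lit 23, nat_lit 23791415424), (nat_lit 103, nat_lit 23791411329), (nat_lit 35, nat_lit 23791153281), (nat_lit 41, nat_lit 24865153152), (nat_lit 23, nat_lit 24864895104), (nat_lit 85, nat_lit 24864891009), (nat_lit 62, nat_lit 25938632832)]⟩],
  [W_22683590720, W_22667075648, W_22666817600, W_22650302528, W_22633787456, W_21593595968, W_21576818816, W_20569661504, W_20552888384, W_19495923776, W_19479408704]⟩
theorem C_22717673601 : chkRec R_22717673601 = true := by decide +kernel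

noncomputable def R_22717673664 : Rec := ⟨nat_lit 22717673664, nat_lit 36,
  [⟨V6_20569927680, [(nat_lit 53, nat_lit 22717673664), (nat_lit 73, nat_lit 23791415424), (nat_lit 89, nat_lit 23791153344), (nat_lit 114, nat_lit 24865157184), (nat_lit 2, nat_lit 24864895104), (nat_lit 6, nat_lit 25938898944), (nat_lit 25, nat_lit 25938636864), (nat_lit 30, nat_lit 27012378624)]⟩],
  [W_22683594752, W_22666817600, W_22650564608, W_22633787456, W_20536635392, W_19496185856]⟩
theorem C_22717673664 : chkRec R_22717673664 = true := by decide +kernel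

noncomputable def R_22717677633 : Rec := ⟨nat_lit 22717677633, nat_lit 41,
  [⟨V6_22633529409, [(nat_lit 46, nat_lit 22717677633), (nat_lit 93, nat_lit 23791157313), (nat_lit 104, nat_lit 23774642241), (nat_lit 32, nat_lit 24848121921), (nat_lit 44, nat_lit 24831606849), (nat_lit 89, nat_lit 25905086529), (nat_lit 118, nat_lit 25888571457), (nat_lit 36, nat_lit 26962051137), (nat_lit 85, nat_lit 26945536065), (nat_lit 62, nat_lit 28019015745), (nat_lit 103, nat_lit 28002500673), (nat_lit 17, nat_lit 29075980353)]⟩,
   ⟨V6_18422448192, [(nat_lit 111, nat_lit 22717677633), (nat_lit 99, nat_lit 23791419456), (nat_lit 87, nat_lit 23791157313), (nat_lit 82, nat_lit 24864899136)]⟩],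
  [W_22683848768, W_22667333696, W_22667075648, W_22650560576, W_22650302528, W_22633529408, W_21626884160, W_21593595968, W_21593337920, W_21576822848, W_20519858240, W_20503085120]⟩
theorem C_22717677633 : chkRec R_22717677633 = true := by decide +kernel

noncomputable def R_22717677696 : Rec := ⟨nat_lit 22717677696, nat_lit 116,
  [⟨V6_19496189952, [(nat_lit 6, nat_lit 22717677696), (nat_lit 119, nat_lit 23791419456), (nat_lit 107, nat_lit 23791157376), (nat_lit 79, nat_lit 24865161216), (nat_lit 56, nat_lit 24864899136), (nat_lit 117, nat_lit 25938640896)]⟩,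
   ⟨V6_18422448192, [(nat_lit 38, nat_lit 22717677696), (nat_lit 86, nat_lit 23791419456), (nat_lit 68, nat_lit 23791157376), (nat_lit 1, nat_lit 24864899136)]⟩,
   ⟨V6_18405671040, [(nat_lit 2, nat_lit 22717677696), (nat_lit 1, nat_lit 23791157376), (nat_lit 93, nat_lit 23774642304), (nat_lit 95, nat_lit 24848121984)]⟩],
  [W_22683852800, W_22667337728, W_22667079680, W_22667075648, W_22650560576, W_22650306560, W_22650302528, W_22650298496, W_22633787456, W_21593341952, W_21576818816, W_20569923584, W_20553150464, W_20536635392, W_19462889600, W_18405924992]⟩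
theorem C_22717677696 : chkRec R_22717677696 = true := by decide +kernel

noncomputable def R_22717681728 : Rec := ⟨nat_lit 22717681728, nat_lit 65,
  [⟨V6_20519866368, [(nat_lit 103, nat_lit 22717681728), (nat_lit 26, nat_lit 23791423488), (nat_lit 60, nat_lit 23774646336), (nat_lit 50, nat_lit 24848388096), (nat_lit 3, nat_lit 24831610944), (nat_lit 111, nat_lit 25905352704), (nat_lit 55, nat_lit 25888575552), (nat_lit 80, nat_lit 26962317312)]⟩,
   ⟨V6_19462901760, [(nat_lit 99, nat_lit 22717681728), (nat_lit 45, nat_lit 23791423488), (nat_lit 42, nat_lit 23774646336), (nat_lit 91, nat_lit 24848388096), (nat_lit 76, nat_lit 24831610944), (nat_lit 123, nat_lit 25905352704)]⟩,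
   ⟨V6_18405937152, [(nat_lit 81, nat_lit 22717681728), (nat_lit 93, nat_lit 23791423488), (nat_lit 73, nat_lit 23774646336), (nat_lit 77, nat_lit 24848388096)]⟩,
   ⟨V6_17348972544, [(nat_lit 95, nat_lit 22717681728), (nat_lit 4, nat_lit 23791423488)]⟩],
  [W_22684110848, W_22667337728, W_22667333696, W_22650560576, W_21627146240, W_20536635392, W_18389159936, W_17332195328, W_16275230720]⟩
theorem C_22717681728 : chkRec R_22717681728 = true := by decide +kernel

noncomputable def R_22717931649 : Rec := ⟨nat_lit 22717931649, nat_lit 44,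
  [⟨V6_18406187136, [(nat_lit 90, nat_lit 22717931649), (nat_lit 111, nat_lit 23791673472), (nat_lit 14, nat_lit 23774896257), (nat_lit 53, nat_lit 24848638080)]⟩],
  [W_22667075648, W_22650298496, W_21643141184, W_21626626112, W_21593595968, W_21577080896, W_21576818816, W_20569661504, W_20569399424, W_20503339136]⟩
theorem C_22717931649 : chkRec R_22717931649 = true := by decide +kernel

noncomputable def R_22717935681 : Rec := ⟨nat_lit 22717935681, nat_lit 54,
  [⟨V6_22717141056, [(nat_lit 14, nat_lit 22717935681), (nat_lit 77, nat_lit 23791677504), (nat_lit 97, nat_lit 23791673409), (nat_lit 68, nat_lit 23791415361), (nat_lit 78, nat_lit 24865415232), (nat_lit 96, nat_lit 24865411137), (nat_lit 7, nat_lit 24865157184), (nat_lit 26, nat_lit 24865153089), (nat_lit 74, nat_lit 24864895041), (nat_lit 24, nat_lit 25939152960), (nat_lit 93, nat_lit 25938894912), (nat_lit 125, nat_lit 25938890817), (nat_lit 74, nat_lit 25938636864), (nat_lit 100, nat_lit 25938632769), (nat_lit 6, nat_lit 25938374721), (nat_lit 64, nat_lit 27012632640), (nat_lit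 22, nat_lit 27012374592), (nat_lit 96, nat_lit 27012370497), (nat_lit 86, nat_lit 27012116544), (nat_lit 52, nat_lit 27012112449), (nat_lit 39, nat_lit 28086112320), (nat_lit 81, nat_lit 28085854272), (nat_lit 46, nat_lit 28085850177), (nat_lit 80, nat_lit 29159592000)]⟩,
   ⟨V6_22667595840, [(nat_lit 19, nat_lit 22717935681), (nat_lit 70, nat_lit 23791677504), (nat_lit 91, nat_lit 23791673409), (nat_lit 60, nat_lit 23774900289), (nat_lit 39, nat_lit 24865415232), (nat_lit 100, nat_lit 24865411137), (nat_lit 82, nat_lit 24848642112), (nat_lit 52, nat_lit 24848638017), (nat_lit 13, nat_lit 24831864897), (nat_lit 21, nat_lit 25939152960), (nat_lit 60, nat_lit 25922379840), (nat_lit 24, nat_lit 25922375745), (nat_lit 71, nat_lit 25905606720), (nat_lit 48, nat_lit 25905602625), (nat_lit 89, nat_lit 25888829505), (nat_lit 80, nat_lit 26996117568), (nat_lit 10, nat_lit 26979344448), (nat_lit 83, nat_lit 26979340353), (nat_lit 111, nat_lit 26962571328), (nat_lit 101, nat_lit 26962567233), (nat_lit 77, nat_lit 28053082176), (nat_lit 77, nat_lit 28036309056),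 (nat_lit 82, nat_lit 28036304961), (nat_lit 4, nat_lit 29110046784)]⟩,
   ⟨V6_21643399233, [(nat_lit 40, nat_lit 22717935681), (nat_lit 28, nat_lit 23791673409), (nat_lit 94, nat_lit 23791415361), (nat_lit 49, nat_lit 24865411137), (nat_lit 16, nat_lit 24865153089), (nat_lit 96, nat_lit 24864895041), (nat_lit 8, nat_lit 25938890817), (nat_lit 40, nat_lit 25938632769), (nat_lit 44, nat_lit 25938374721), (nat_lit 106, nat_lit 27012370497), (nat_lit 95, nat_lit 27012112449), (nat_lit 57, nat_lit 28085850177)]⟩,
   ⟨V6_21610631232, [(nat_lit 10, nat_lit 22717935681), (nat_lit 75, nat_lit 23791677504), (nat_lit 126, nat_lit 23791673409), (nat_lit 75, nat_lit 23774900289), (nat_lit 119, nat_lit 24865415232), (nat_lit 80, nat_lit 24865411137), (nat_lit 93, nat_lit 24848642112), (nat_lit 44, nat_lit 24848638017), (nat_lit 71, nat_lit 24831864897), (nat_lit 85, nat_lit 25939152960), (nat_lit 88, nat_lit 25922379840), (nat_lit 71, nat_lit 25922375745), (nat_lit 71, nat_lit 25905606720), (nat_lit 21, nat_lit 25905602625), (nat_lit 1, nat_lit 26996117568),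 (nat_lit 124, nat_lit 26979344448), (nat_lit 106, nat_lit 26979340353), (nat_lit 51, nat_lit 28053082176)]⟩,
   ⟨V6_19479924801, [(nat_lit 126, nat_lit 22717935681), (nat_lit 13, nat_lit 23791673409), (nat_lit 79, nat_lit 23774900289), (nat_lit 86, nat_lit 24865411137), (nat_lit 73, nat_lit 24848638017), (nat_lit 77, nat_lit 25922375745)]⟩],
  [W_22667333696, W_21593337920, W_21577080896, W_21576822848, W_20536373312, W_20520116288, W_20519858240, W_20503343168, W_19495923776, W_19479408704, W_19463151680]⟩
theorem C_22717935681 : chkRec R_22717935681 = true := by decide +kernel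

noncomputable def R_22717935744 : Rec := ⟨nat_lit 22717935744, nat_lit 153,
  [⟨V6_20569927680, [(nat_lit 36, nat_lit 22717935744), (nat_lit 85, nat_lit 23791677504), (nat_lit 47, nat_lit 23791415424), (nat_lit 64, nat_lit 24865419264), (nat_lit 96, nat_lit 24865157184), (nat_lit 114, nat_lit 24864895104), (nat_lit 20, nat_lit 25938898944), (nat_lit 48, nat_lit 25938636864), (nat_lit 101, nat_lit 27012378624)]⟩,
   ⟨V6_19496706048, [(nat_lit 111, nat_lit 22717935744), (nat_lit 98, nat_lit 23791677504), (nat_lit 107, nat_lit 23791673472), (nat_lit 64, nat_lit 24865419264), (nat_lit 121, nat_lit 24865415232), (nat_lit 120, nat_lit 25939156992)]⟩],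
  [W_22700367872, W_22683852800, W_22683594752, W_22683590720, W_22667337728, W_22666817600, W_22666813568, W_22650822656, W_22650564608, W_22650560576, W_21577084928, W_20569923584, W_20536893440, W_20503339136, W_19496185856, W_19463155712, W_19462889600, W_19446374528]⟩
theorem C_22717935744 : chkRec R_22717935744 = true := by decide +kernel

noncomputable def R_22717939776 : Rec := ⟨nat_lit 22717939776, nat_lit 210,
  [⟨V6_20553154560, [(nat_lit 117, nat_lit 22717939776), (nat_lit 36, nat_lit 23791681536), (nat_lit 112, nat_lit 23791419456), (nat_lit 54, nat_lit 23774904384), (nat_lit 71, nat_lit 24865161216), (nat_lit 122, nat_lit 24864899136), (nat_lit 3, nat_lit 24848646144), (nat_lit 5, nat_lit 24848384064), (nat_lit 57, nat_lit 25938640896), (nat_lit 41, nat_lit 25922125824), (nat_lit 38, nat_lit 25921863744), (nat_lit 89, nat_lit 26995605504)]⟩,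
   ⟨V6_19496706048, [(nat_lit 95, nat_lit 22717939776), (nat_lit 49, nat_lit 23791681536), (nat_lit 95, nat_lit 23791677504), (nat_lit 120, nat_lit 24865419264), (nat_lit 29, nat_lit 24865415232), (nat_lit 88, nat_lit 25939156992)]⟩,
   ⟨V6_19496189952, [(nat_lit 21, nat_lit 22717939776), (nat_lit 89, nat_lit 23791681536), (nat_lit 5, nat_lit 23791419456), (nat_lit 116, nat_lit 24865161216), (nat_lit 113, nat_lit 24864899136), (nat_lit 52, nat_lit 25938640896)]⟩,
   ⟨V6_18422448192, [(nat_lit 25, nat_lit 22717939776), (nat_lit 105, nat_lit 23791419456), (nat_lit 95, nat_lit 24864899136)]⟩],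
  [W_22683852800, W_22667595776, W_22667337728, W_22667333696, W_22650822656, W_22650564608, W_22650560576, W_22650302528, W_21577084928, W_21577080896, W_21576822848, W_20569923584, W_20553150464, W_20536893440, W_20520120320, W_20520116288, W_20503347200, W_19496185856, W_19463155712, W_19446382592]⟩
theorem C_22717939776 : chkRec R_22717939776 = true := by decide +kernel

noncomputable def R_22717943808 : Rec := ⟨nat_lit 22717943808, nat_lit 128,
  [⟨V6_20503351296, [(nat_lit 124, nat_lit 22717943808), (nat_lit 19, nat_lit 23774908416), (nat_lit 91, nat_lit 24831873024), (nat_lit 70, nat_lit 25888837632), (nat_lit 85, nat_lit 26945802240)]⟩,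
   ⟨V6_19496706048, [(nat_lit 9, nat_lit 22717943808), (nat_lit 80, nat_lit 23791681536), (nat_lit 32, nat_lit 24865419264), (nat_lit 49, nat_lit 25939156992)]⟩,
   ⟨V6_19446386688, [(nat_lit 6, nat_lit 22717943808), (nat_lit 95, nat_lit 23774908416), (nat_lit 41, nat_lit 24831873024), (nat_lit 69, nat_lit 25888837632)]⟩],
  [W_22700883968, W_22684368896, W_22667595776, W_22667337728, W_22650822656, W_22650564608, W_21627404288, W_21577084928, W_21576826880, W_20536893440, W_20536635392, W_17332195328, W_16275230720]⟩
theorem C_22717943808 : chkRec R_22717943808 = true := by decide +kernel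

noncomputable def R_22718193729 : Rec := ⟨nat_lit 22718193729, nat_lit 48,
  [⟨V6_19479924801, [(nat_lit 110, nat_lit 22718193729), (nat_lit 34, nat_lit 23791931457), (nat_lit 59, nat_lit 23791673409), (nat_lit 98, nat_lit 23775158337), (nat_lit 2, nat_lit 24865411137), (nat_lit 65, nat_lit 24848896065), (nat_lit 71, nat_lit 24848638017), (nat_lit 24, nat_lit 25922375745)]⟩,
   ⟨V6_19446636609, [(nat_lit 47, nat_lit 22718193729), (nat_lit 88, nat_lit 23775158337), (nat_lit 46, nat_lit 24832122945), (nat_lit 96, nat_lit 25889087553)]⟩,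
   ⟨V6_18423222336, [(nat_lit 32, nat_lit 22718193729), (nat_lit 100, nat_lit 23791935552), (nat_lit 66, nat_lit 23791931457), (nat_lit 109, nat_lit 24865673280)]⟩],
  [W_22683848768, W_22683590720, W_22667333696, W_22667075648, W_21643141184, W_21626884160, W_21593854016, W_21593595968, W_20569661504, W_20520374336]⟩
theorem C_22718193729 : chkRec R_22718193729 = true := by decide +kernel

noncomputable def R_22718193792 : Rec := ⟨nat_lit 22718193792, nat_lit 110,
  [⟨V6_20537155584, [(nat_lit 103, nat_lit 22718193792), (nat_lit 69, nat_lit 23791935552), (nat_lit 9, nat_lit 23775158400), (nat_lit 89, nat_lit 24865677312), (nat_lit 64, nat_lit 24848900160), (nat_lit 52, nat_lit 24832123008), (nat_lit 119, nat_lit 25922641920), (nat_lit 30, nat_lit 25905864768), (nat_lit 24, nat_lit 26979606528)]⟩,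
   ⟨V6_18423226368, [(nat_lit 49, nat_lit 22718193792), (nat_lit 60, nat_lit 23791935552), (nat_lit 103, nat_lit 24865677312)]⟩],
  [W_22716882944, W_22700367872, W_22683852800, W_22683590720, W_22683328640, W_22667337728, W_22666813568, W_20569923584, W_19479404672, W_19462889600, W_19446374528, W_18422440064, W_18405924992, W_15202001024]⟩
theorem C_22718193792 : chkRec R_22718193792 = true := by decide +kernel

noncomputable def R_22718197824 : Rec := ⟨nat_lit 22718197824, nat_lit 216,
  [⟨V6_19496964096, [(nat_lit 66, nat_lit 22718197824), (nat_lit 12, nat_lit 23791939584), (nat_lit 110, nat_lit 23791935552), (nat_lit 86, nat_lit 24865677312), (nat_lit 34, nat_lit 24865673280), (nat_lit 67, nat_lit 25939415040)]⟩,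
   ⟨V6_19496706048, [(nat_lit 52, nat_lit 22718197824), (nat_lit 5, nat_lit 23791939584), (nat_lit 77, nat_lit 23791935552), (nat_lit 27, nat_lit 23791677504), (nat_lit 99, nat_lit 24865677312), (nat_lit 78, nat_lit 24865419264), (nat_lit 114, nat_lit 24865415232), (nat_lit 53, nat_lit 25939156992)]⟩,
   ⟨V6_19480186944, [(nat_lit 118, nat_lit 22718197824), (nat_lit 117, nat_lit 23791935552), (nat_lit 76, nat_lit 23775162432), (nat_lit 12, nat_lit 24865673280), (nat_lit 22, nat_lit 24848900160), (nat_lit 58, nat_lit 25922637888)]⟩,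
   ⟨V6_18423222336, [(nat_lit 7, nat_lit 22718197824), (nat_lit 70, nat_lit 23791935552), (nat_lit 72, nat_lit 24865673280)]⟩],
  [W_22700367872, W_22683852800, W_22683594752, W_22683590720, W_22667595776, W_22667337728, W_22667333696, W_22667075648, W_21594116096, W_20569923584, W_20569665536, W_20553150464, W_20536893440, W_20520120320, W_19496185856, W_19463155712, W_18389676032, W_18372898880]⟩
theorem C_22718197824 : chkRec R_22718197824 = true := by decide +kernel

noncomputable def R_22718201856 : Rec := ⟨nat_lit 22718201856, nat_lit 202,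
  [⟨V6_19496964096, [(nat_lit 15, nat_lit 22718201856), (nat_lit 18, nat_lit 23791939584), (nat_lit 43, nat_lit 24865677312), (nat_lit 117, nat_lit 25939415040)]⟩,
   ⟨V6_19496189952, [(nat_lit 12, nat_lit 22718201856), (nat_lit 92, nat_lit 23791681536), (nat_lit 126, nat_lit 24865161216), (nat_lit 27, nat_lit 25938640896)]⟩,
   ⟨V6_19446644736, [(nat_lit 22, nat_lit 22718201856), (nat_lit 52, nat_lit 23775166464), (nat_lit 108, nat_lit 24832131072), (nat_lit 126, nat_lit 25889095680)]⟩,
   ⟨V6_18423226368, [(nat_lit 28, nat_lit 22718201856), (nat_lit 42, nat_lit 23791939584), (nat_lit 105, nat_lit 24865677312)]⟩],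
  [W_22684368896, W_22683852800, W_22667595776, W_22667337728, W_21627404288, W_21610889216, W_21594116096, W_20569923584, W_20553150464, W_20537151488, W_20536893440, W_20520378368, W_20520120320, W_15202009088]⟩
theorem C_22718201856 : chkRec R_22718201856 = true := by decide +kernel

noncomputable def R_22718451777 : Rec := ⟨nat_lit 22718451777, nat_lit 15,
  [⟨V6_21643399233, [(nat_lit 59, nat_lit 22718451777), (nat_lit 107, nat_lit 23791931457), (nat_lit 110, nat_lit 24865411137), (nat_lit 1, nat_lit 25938890817), (nat_lit 43, nat_lit 27012370497), (nat_lit 71, nat_lit 28085850177)]⟩,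
   ⟨V6_17349742656, [(nat_lit 105, nat_lit 22718451777), (nat_lit 56, nat_lit 23792193600)]⟩],
  [W_22716878912, W_22683848768, W_21610369088, W_20536889408]⟩
theorem C_22718451777 : chkRec R_22718451777 = true := by decide +kernel

noncomputable def R_22718455872 : Rec := ⟨nat_lit 22718455872, nat_lit 164,
  [⟨V6_18423226368, [(nat_lit 78, nat_lit 22718455872), (nat_lit 80, nat_lit 23792197632), (nat_lit 78, nat_lit 23791935552), (nat_lit 81, nat_lit 24865677312)]⟩,
   ⟨V6_18406707264, [(nat_lit 87, nat_lit 22718455872), (nat_lit 111, nat_lit 23792193600), (nat_lit 115, nat_lit 23775420480), (nat_lit 126, nat_lit 24849158208)]⟩,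
   ⟨V6_17349746688, [(nat_lit 23, nat_lit 22718455872), (nat_lit 13, nat_lit 23792197632)]⟩],
  [W_22717140992, W_22716882944, W_22700367872, W_22700105792, W_22683852800, W_22683848768, W_22683590720, W_21643399232, W_21643141184, W_20569923584, W_20569661504, W_20537151488, W_20536893440, W_19463671808, W_19463409728, W_18389930048]⟩
theorem C_22718455872 : chkRec R_22718455872 = true := by decide +kernel

noncomputable def R_22718459904 : Rec := ⟨nat_lit 22718459904, nat_lit 192,
  [⟨V6_19496964096, [(nat_lit 118, nat_lit 22718459904), (nat_lit 70, nat_lit 23792197632), (nat_lit 9, nat_lit 23791939584), (nat_lit 47, nat_lit 24865935360), (nat_lit 55, nat_lit 24865677312), (nat_lit 84, nat_lit 25939415040)]⟩,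
   ⟨V6_18423484416, [(nat_lit 116, nat_lit 22718459904), (nat_lit 17, nat_lit 23792197632), (nat_lit 32, nat_lit 24865935360)]⟩,
   ⟨V6_17349746688, [(nat_lit 72, nat_lit 22718459904), (nat_lit 40, nat_lit 23792197632)]⟩],
  [W_22700367872, W_22684368896, W_22683852800, W_21627404288, W_21610889216, W_20569923584, W_20569665536, W_20553150464, W_20537409536, W_20536893440, W_19496185856, W_19463155712]⟩
theorem C_22718459904 : chkRec R_22718459904 = true := by decide +kernel

noncomputable def R_22718713920 : Rec := ⟨nat_lit 22718713920, nat_lit 55,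
  [⟨V6_18423484416, [(nat_lit 35, nat_lit 22718713920), (nat_lit 51, nat_lit 23792455680), (nat_lit 59, nat_lit 23792193600), (nat_lit 61, nat_lit 24865935360)]⟩,
   ⟨V6_16276262976, [(nat_lit 61, nat_lit 22718713920)]⟩],
  [W_22717140992, W_22700625920, W_22700363840, W_21643399232, W_21626884160, W_19479924800, W_17333227520]⟩
theorem C_22718713920 : chkRec R_22718713920 = true := by decide +kernel

noncomputable def R_22718717952 : Rec := ⟨nat_lit 22718717952, nat_lit 121,
  [⟨V6_20554186752, [(nat_lit 65, nat_lit 22718717952), (nat_lit 107, nat_lit 23792455680), (nat_lit 31, nat_lit 23792197632), (nat_lit 37, nat_lit 23775682560), (nat_lit 102, nat_lit 24866193408), (nat_lit 117, nat_lit 24865935360), (nat_lit 123, nat_lit 24849420288), (nat_lit 60, nat_lit 24849162240), (nat_lit 31, nat_lit 25939673088), (nat_lit 32, nat_lit 25923158016), (nat_lit 82, nat_lit 25922899968), (nat_lit 47, nat_lit 26996637696)]⟩,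
   ⟨V6_18423742464, [(nat_lit 44, nat_lit 22718717952), (nat_lit 25, nat_lit 23792455680), (nat_lit 88, nat_lit 24866193408)]⟩,
   ⟨V6_17349746688, [(nat_lit 19, nat_lit 22718717952), (nat_lit 14, nat_lit 23792197632)]⟩,
   ⟨V6_16276267008, [(nat_lit 51, nat_lit 22718717952)]⟩],
  [W_22717399040, W_22717140992, W_22700883968, W_22700367872, W_21643919360, W_21643403264, W_21627404288, W_20569923584, W_18406965248]⟩
theorem C_22718717952 : chkRec R_22718717952 = true := by decide +kernel

noncomputable def R_22718976000 : Rec := ⟨nat_lit 22718976000, nat_lit 47,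
  [⟨V6_19496964096, [(nat_lit 48, nat_lit 22718976000), (nat_lit 6, nat_lit 23792455680), (nat_lit 21, nat_lit 24865935360), (nat_lit 90, nat_lit 25939415040)]⟩],
  [W_22717399040, W_22717140992, W_17350000640, W_16276520960, W_15202783232]⟩
theorem C_22718976000 : chkRec R_22718976000 = true := by decide +kernel

noncomputable def R_22733926530 : Rec := ⟨nat_lit 22733926530, nat_lit 2,
  [⟨V6_18405404802, [(nat_lit 18, nat_lit 22733926530), (nat_lit 106, nat_lit 23790891138), (nat_lit 26, nat_lit 24847855746)]⟩,
   ⟨V6_16291475586, [(nat_lit 64, nat_lit 22733926530)]⟩],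
  [W_21609848960]⟩
theorem C_22733926530 : chkRec R_22733926530 = true := by decide +kernel

noncomputable def R_22733926593 : Rec := ⟨nat_lit 22733926593, nat_lit 1,
  [⟨V6_17365217472, [(nat_lit 107, nat_lit 22733926593), (nat_lit 74, nat_lit 23807668416)]⟩],
  [W_22666817600]⟩
theorem C_22733926593 : chkRec R_22733926593 = true := by decide +kernel

noncomputable def R_22734184578 : Rec := ⟨nat_lit 22734184578, nat_lit 9,
  [⟨V6_19496181888, [(nat_lit 8, nat_lit 22734184578), (nat_lit 72, nat_lit 23807926401), (nat_lit 72, nat_lit 23791149186), (nat_lit 8, nat_lit 24881668224), (nat_lit 35, nat_lit 24864891009), (nat_lit 22, nat_lit 25938632832)]⟩],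
  [W_20569399424, W_19512434816, W_17365475456]⟩
theorem C_22734184578 : chkRec R_22734184578 = true := by decide +kernel

noncomputable def R_22734188673 : Rec := ⟨nat_lit 22734188673, nat_lit 31,
  [⟨V6_20569661505, [(nat_lit 122, nat_lit 22734188673), (nat_lit 2, nat_lit 23807930433), (nat_lit 96, nat_lit 23807926401), (nat_lit 67, nat_lit 23807668353), (nat_lit 72, nat_lit 23791153281), (nat_lit 25, nat_lit 24881668161), (nat_lit 51, nat_lit 24881410113), (nat_lit 12, nat_lit 24881406081), (nat_lit 71, nat_lit 24864895041), (nat_lit 93, nat_lit 24864891009), (nat_lit 25, nat_lit 24864632961), (nat_lit 88, nat_lit 25955147841), (nat_lit 87, nat_lit 25938632769), (nat_lit 31, nat_lit 25938374721), (nat_lit 36, nat_lit 25938370689), (nat_lit 90, nat_lit 27012112449)]⟩,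
   ⟨V6_20536111233, [(nat_lit 114, nat_lit 22734188673), (nat_lit 122, nat_lit 23807668353), (nat_lit 21, nat_lit 23791153281), (nat_lit 31, nat_lit 24864632961), (nat_lit 89, nat_lit 24848117889), (nat_lit 8, nat_lit 25921597569), (nat_lit 61, nat_lit 25905082497), (nat_lit 12, nat_lit 26978562177)]⟩,
   ⟨V6_19495923777, [(nat_lit 8, nat_lit 22734188673), (nat_lit 6, nat_lit 23807930433), (nat_lit 120, nat_lit 23807668353), (nat_lit 57, nat_lit 23791153281), (nat_lit 96, nat_lit 24881410113), (nat_lit 99, nat_lit 24864895041), (nat_lit 34, nat_lit 24864632961), (nat_lit 67, nat_lit 25938374721)]⟩,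
   ⟨V6_18439217217, [(nat_lit 18, nat_lit 22734188673), (nat_lit 104, nat_lit 23807930433), (nat_lit 8, nat_lit 23807926401), (nat_lit 24, nat_lit 24881668161)]⟩],
  [W_22667075648, W_22650298496, W_21593337920, W_20536373312, W_19479408704, W_17365475456]⟩
theorem C_22734188673 : chkRec R_22734188673 = true := by decide +kernel

noncomputable def R_22734188736 : Rec := ⟨nat_lit 22734188736, nat_lit 24,
  [⟨V6_19512963072, [(nat_lit 109, nat_lit 22734188736), (nat_lit 17, nat_lit 23807930496), (nat_lit 7, nat_lit 24881672256), (nat_lit 59, nat_lit 25955414016)]⟩],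
  [W_22683594752, W_22667079680, W_22666817600, W_22650302528, W_21593337920, W_21576560768, W_20569665536, W_18422182016]⟩
theorem C_22734188736 : chkRec R_22734188736 = true := by decide +kernel

noncomputable def R_22734192705 : Rec := ⟨nat_lit 22734192705, nat_lit 25,
  [⟨V6_19512954945, [(nat_lit 62, nat_lit 22734192705), (nat_lit 49, nat_lit 23807930433), (nat_lit 110, nat_lit 24881668161), (nat_lit 1, nat_lit 25955405889)]⟩,
   ⟨V6_17348706369, [(nat_lit 28, nat_lit 22734192705), (nat_lit 113, nat_lit 23791157313)]⟩,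
   ⟨V6_16291741761, [(nat_lit 87, nat_lit 22734192705)]⟩],
  [W_22683848768, W_22667075648, W_21626884160, W_21610111040, W_19512954944]⟩
theorem C_22734192705 : chkRec R_22734192705 = true := by decide +kernel

noncomputable def R_22734192768 : Rec := ⟨nat_lit 22734192768, nat_lit 74,
  [⟨V6_18405671040, [(nat_lit 77, nat_lit 22734192768), (nat_lit 16, nat_lit 23791157376), (nat_lit 83, nat_lit 24848121984)]⟩,
   ⟨V6_17365483584, [(nat_lit 39, nat_lit 22734192768), (nat_lit 66, nat_lit 23807934528)]⟩,
   ⟨V6_16291741824, [(nat_lit 53, nat_lit 22734192768)]⟩],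
  [W_22683852800, W_22667079680, W_22667075648, W_22650306560, W_22650302528, W_22633529408, W_21593337920, W_21593333888, W_21576564800, W_21559787648, W_20569923584]⟩
theorem C_22734192768 : chkRec R_22734192768 = true := by decide +kernel

noncomputable def R_22734446721 : Rec := ⟨nat_lit 22734446721, nat_lit 38,
  [⟨V6_18439217217, [(nat_lit 55, nat_lit 22734446721), (nat_lit 71, nat_lit 23808188481), (nat_lit 65, nat_lit 23807926401), (nat_lit 85, nat_lit 24881668161)]⟩,
   ⟨V6_17365737600, [(nat_lit 104, nat_lit 22734446721), (nat_lit 47, nat_lit 23808188544)]⟩],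
  [W_22683590720, W_22683328640, W_22667075648, W_22650560576, W_22650298496, W_21609848960, W_21593595968, W_21593333888, W_21576818816, W_20569661504]⟩
theorem C_22734446721 : chkRec R_22734446721 = true := by decide +kernel

noncomputable def R_22734450753 : Rec := ⟨nat_lit 22734450753, nat_lit 49,
  [⟨V6_20586696768, [(nat_lit 40, nat_lit 22734450753), (nat_lit 123, nat_lit 23808192576), (nat_lit 4, nat_lit 23808188481), (nat_lit 3, nat_lit 23807930433), (nat_lit 69, nat_lit 24881930304), (nat_lit 59, nat_lit 24881926209), (nat_lit 37, nat_lit 24881672256), (nat_lit 94, nat_lit 24881668161), (nat_lit 125, nat_lit 25955668032), (nat_lit 40, nat_lit 25955409984), (nat_lit 65, nat_lit 25955405889), (nat_lit 73, nat_lit 27029147712)]⟩,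
   ⟨V6_19512954945, [(nat_lit 33, nat_lit 22734450753), (nat_lit 91, nat_lit 23808188481), (nat_lit 117, nat_lit 23807930433), (nat_lit 36, nat_lit 24881926209), (nat_lit 70, nat_lit 24881668161), (nat_lit 10, nat_lit 25955405889)]⟩,
   ⟨V6_18439217217, [(nat_lit 6, nat_lit 22734450753), (nat_lit 20, nat_lit 23808188481), (nat_lit 81, nat_lit 23807930433), (nat_lit 18, nat_lit 24881668161)]⟩],
  [W_22683848768, W_22683590720, W_22667333696, W_22666817600, W_22650560576, W_22650302528, W_22633787456, W_21593337920, W_21576822848, W_20536373312, W_20519858240, W_19479408704, W_18438959168]⟩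
theorem C_22734450753 : chkRec R_22734450753 = true := by decide +kernel

noncomputable def R_22734450816 : Rec := ⟨nat_lit 22734450816, nat_lit 125,
  [⟨V6_19513221120, [(nat_lit 96, nat_lit 22734450816), (nat_lit 47, nat_lit 23808192576), (nat_lit 120, nat_lit 23808188544), (nat_lit 124, nat_lit 24881934336), (nat_lit 36, nat_lit 24881930304), (nat_lit 42, nat_lit 25955672064)]⟩,
   ⟨V6_19512963072, [(nat_lit 53, nat_lit 22734450816), (nat_lit 14, nat_lit 23808192576), (nat_lit 35, nat_lit 23807930496), (nat_lit 84, nat_lit 24881934336), (nat_lit 29, nat_lit 24881672256), (nat_lit 81, nat_lit 25955414016)]⟩],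
  [W_22700367872, W_22683852800, W_22683590720, W_22667337728, W_22667079680, W_22667075648, W_22650564608, W_22650560576, W_22650302528, W_22650298496, W_22633787456, W_21593595968, W_21593333888, W_21576818816, W_21576560768, W_20586438656, W_20569923584, W_20536635392, W_19462889600]⟩
theorem C_22734450816 : chkRec R_22734450816 = true := by decide +kernel

noncomputable def R_22734454848 : Rec := ⟨nat_lit 22734454848, nat_lit 161,
  [⟨V6_19513221120, [(nat_lit 18, nat_lit 22734454848), (nat_lit 28, nat_lit 23808196608), (nat_lit 18, nat_lit 23808192576), (nat_lit 123, nat_lit 24881934336), (nat_lit 71, nat_lit 24881930304), (nat_lit 14, nat_lit 25955672064)]⟩,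
   ⟨V6_18439225344, [(nat_lit 6, nat_lit 22734454848), (nat_lit 123, nat_lit 23808196608), (nat_lit 55, nat_lit 23807934528), (nat_lit 53, nat_lit 24881676288)]⟩,
   ⟨V6_17365483584, [(nat_lit 28, nat_lit 22734454848), (nat_lit 41, nat_lit 23807934528)]⟩],
  [W_22683852800, W_22683848768, W_22667337728, W_22667333696, W_22667079680, W_22667075648, W_22650564608, W_22650560576, W_22650306560, W_22650302528, W_22633787456, W_22633529408, W_21593341952, W_21576826880, W_21576822848, W_21576564800, W_20586696704, W_20569923584, W_20553150464, W_20503085120, W_19479412736]⟩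
theorem C_22734454848 : chkRec R_22734454848 = true := by decide +kernel

noncomputable def R_22734458880 : Rec := ⟨nat_lit 22734458880, nat_lit 67,
  [⟨V6_22650568704, [(nat_lit 3, nat_lit 22734458880), (nat_lit 41, nat_lit 23808196608), (nat_lit 52, nat_lit 23791423488), (nat_lit 9, nat_lit 24865161216), (nat_lit 108, nat_lit 24848388096), (nat_lit 49, nat_lit 25922125824), (nat_lit 10, nat_lit 25905352704), (nat_lit 47, nat_lit 26979090432), (nat_lit 96, nat_lit 26962317312), (nat_lit 89, nat_lit 28036055040), (nat_lit 41, nat_lit 28019281920), (nat_lit 73, nat_lit 29093019648)]⟩,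
   ⟨V6_19462901760, [(nat_lit 15, nat_lit 22734458880), (nat_lit 97, nat_lit 23791423488), (nat_lit 11, nat_lit 24848388096), (nat_lit 76, nat_lit 25905352704)]⟩,
   ⟨V6_18405937152, [(nat_lit 35, nat_lit 22734458880), (nat_lit 65, nat_lit 23791423488), (nat_lit 107, nat_lit 24848388096)]⟩,
   ⟨V6_16292007936, [(nat_lit 120, nat_lit 22734458880)]⟩],
  [W_22667337728, W_21643919360, W_21627146240, W_20536635392, W_15218266112]⟩
theorem C_22734458880 : chkRec R_22734458880 = true := by decide +kernel

noncomputable def R_22734708801 : Rec := ⟨nat_lit 22734708801, nat_lit 54,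
  [⟨V6_18439737408, [(nat_lit 92, nat_lit 22734708801), (nat_lit 97, nat_lit 23808450624), (nat_lit 31, nat_lit 23808446529), (nat_lit 107, nat_lit 24882188352)]⟩,
   ⟨V6_18439217217, [(nat_lit 24, nat_lit 22734708801), (nat_lit 50, nat_lit 23808188481), (nat_lit 15, nat_lit 24881668161)]⟩],
  [W_22700363840, W_22683848768, W_22683590720, W_22667333696, W_22667075648, W_22650560576, W_21659914304, W_21626626112, W_21593854016, W_21593595968, W_21577080896, W_20569661504, W_20520116288]⟩
theorem C_22734708801 : chkRec R_22734708801 = true := by decide +kernel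

noncomputable def R_22734708864 : Rec := ⟨nat_lit 22734708864, nat_lit 126,
  [⟨V6_19513221120, [(nat_lit 115, nat_lit 22734708864), (nat_lit 59, nat_lit 23808450624), (nat_lit 83, nat_lit 23808188544), (nat_lit 121, nat_lit 24882192384), (nat_lit 81, nat_lit 24881930304), (nat_lit 15, nat_lit 25955672064)]⟩,
   ⟨V6_18439741440, [(nat_lit 109, nat_lit 22734708864), (nat_lit 92, nat_lit 23808450624), (nat_lit 14, nat_lit 24882192384)]⟩],
  [W_22716882944, W_22700367872, W_22700105792, W_22683852800, W_22683590720, W_22683328640, W_22667337728, W_22667075648, W_22650822656, W_22650560576, W_22650298496, W_21643141184, W_21593595968, W_21593333888, W_21577080896, W_21576818816, W_20536893440, W_20520116288, W_20503339136]⟩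
theorem C_22734708864 : chkRec R_22734708864 = true := by decide +kernel

noncomputable def R_22734712896 : Rec := ⟨nat_lit 22734712896, nat_lit 237,
  [⟨V6_20570443776, [(nat_lit 71, nat_lit 22734712896), (nat_lit 39, nat_lit 23808454656), (nat_lit 123, nat_lit 23808450624), (nat_lit 66, nat_lit 23791677504), (nat_lit 2, nat_lit 24882192384), (nat_lit 35, nat_lit 24882188352), (nat_lit 35, nat_lit 24865419264), (nat_lit 35, nat_lit 24865415232), (nat_lit 19, nat_lit 25955930112), (nat_lit 75, nat_lit 25939156992), (nat_lit 55, nat_lit 25939152960), (nat_lit 12, nat_lit 27012894720)]⟩,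
   ⟨V6_19513479168, [(nat_lit 17, nat_lit 22734712896), (nat_lit 107, nat_lit 23808454656), (nat_lit 113, nat_lit 23808450624), (nat_lit 26, nat_lit 24882192384), (nat_lit 28, nat_lit 24882188352), (nat_lit 100, nat_lit 25955930112)]⟩,
   ⟨V6_19512963072, [(nat_lit 102, nat_lit 22734712896), (nat_lit 15, nat_lit 23808454656), (nat_lit 115, nat_lit 23808192576), (nat_lit 1, nat_lit 24881934336), (nat_lit 59, nat_lit 24881672256), (nat_lit 53, nat_lit 25955414016)]⟩,
   ⟨V6_18439741440, [(nat_lit 82, nat_lit 22734712896), (nat_lit 24, nat_lit 23808454656), (nat_lit 81, nat_lit 23808450624), (nat_lit 53, nat_lit 24882192384)]⟩],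
  [W_22700367872, W_22683852800, W_22683590720, W_22667595776, W_22667337728, W_22667333696, W_22666817600, W_22650822656, W_22650564608, W_22650560576, W_22650302528, W_21577084928, W_21577080896, W_21576822848, W_20586696704, W_20586438656, W_20569923584, W_20569665536, W_20553150464, W_20536893440, W_20520120320, W_20520116288, W_19463155712]⟩
theorem C_22734712896 : chkRec R_22734712896 = true := by decide +kernel

noncomputable def R_22734716928 : Rec := ⟨nat_lit 22734716928, nat_lit 215,
  [⟨V6_19513479168, [(nat_lit 61, nat_lit 22734716928), (nat_lit 124, nat_lit 23808454656), (nat_lit 14, nat_lit 24882192384), (nat_lit 44, nat_lit 25955930112)]⟩,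
   ⟨V6_19496189952, [(nat_lit 35, nat_lit 22734716928), (nat_lit 44, nat_lit 23808196608), (nat_lit 110, nat_lit 23791681536), (nat_lit 51, nat_lit 24881676288), (nat_lit 65, nat_lit 24865161216), (nat_lit 54, nat_lit 25938640896)]⟩,
   ⟨V6_18439741440, [(nat_lit 104, nat_lit 22734716928), (nat_lit 29, nat_lit 23808454656), (nat_lit 9, nat_lit 24882192384)]⟩],
  [W_22684368896, W_22683852800, W_22667595776, W_22667337728, W_22650822656, W_22650564608, W_21660434432, W_21627404288, W_21577084928, W_20586696704, W_20569923584, W_20536893440, W_20520120320, W_20503347200, W_19446382592]⟩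
theorem C_22734716928 : chkRec R_22734716928 = true := by decide +kernel

noncomputable def R_22734966849 : Rec := ⟨nat_lit 22734966849, nat_lit 23,
  [⟨V6_19512954945, [(nat_lit 67, nat_lit 22734966849), (nat_lit 48, nat_lit 23808446529), (nat_lit 5, nat_lit 24881926209), (nat_lit 119, nat_lit 25955405889)]⟩,
   ⟨V6_18439475265, [(nat_lit 85, nat_lit 22734966849), (nat_lit 7, nat_lit 23808446529), (nat_lit 1, nat_lit 24881926209)]⟩,
   ⟨V6_17365995585, [(nat_lit 77, nat_lit 22734966849), (nat_lit 122, nat_lit 23808446529)]⟩],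
  [W_22716878912, W_22683848768, W_22667333696, W_21659914304, W_16292515904]⟩
theorem C_22734966849 : chkRec R_22734966849 = true := by decide +kernel

noncomputable def R_22734970944 : Rec := ⟨nat_lit 22734970944, nat_lit 217,
  [⟨V6_19480186944, [(nat_lit 105, nat_lit 22734970944), (nat_lit 48, nat_lit 23808708672), (nat_lit 32, nat_lit 23791935552), (nat_lit 82, nat_lit 24865673280), (nat_lit 107, nat_lit 24848900160), (nat_lit 115, nat_lit 25922637888)]⟩,
   ⟨V6_18439999488, [(nat_lit 64, nat_lit 22734970944), (nat_lit 76, nat_lit 23808712704), (nat_lit 85, nat_lit 23808708672), (nat_lit 124, nat_lit 24882450432)]⟩,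
   ⟨V6_18439741440, [(nat_lit 110, nat_lit 22734970944), (nat_lit 50, nat_lit 23808712704), (nat_lit 77, nat_lit 23808450624), (nat_lit 92, nat_lit 24882192384)]⟩,
   ⟨V6_18423222336, [(nat_lit 98, nat_lit 22734970944), (nat_lit 114, nat_lit 23808708672), (nat_lit 30, nat_lit 23791935552), (nat_lit 111, nat_lit 24865673280)]⟩],
  [W_22733656064, W_22716882944, W_22716878912, W_22700367872, W_22700105792, W_22683852800, W_22683590720, W_22667595776, W_22667337728, W_22667333696, W_22667075648, W_21659918336, W_21643141184, W_21594116096, W_21593858048, W_20586696704, W_20586438656, W_20569923584, W_20536893440, W_20520116288]⟩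
theorem C_22734970944 : chkRec R_22734970944 = true := by decide +kernel

noncomputable def R_22734974976 : Rec := ⟨nat_lit 22734974976, nat_lit 240,
  [⟨V6_19512963072, [(nat_lit 90, nat_lit 22734974976), (nat_lit 55, nat_lit 23808454656), (nat_lit 56, nat_lit 24881934336), (nat_lit 12, nat_lit 25955414016)]⟩,
   ⟨V6_19496964096, [(nat_lit 10, nat_lit 22734974976), (nat_lit 43, nat_lit 23808712704), (nat_lit 119, nat_lit 23791939584), (nat_lit 21, nat_lit 24882450432), (nat_lit 14, nat_lit 24865677312), (nat_lit 124, nat_lit 25939415040)]⟩,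
   ⟨V6_18439999488, [(nat_lit 39, nat_lit 22734974976), (nat_lit 9, nat_lit 23808712704), (nat_lit 2, nat_lit 24882450432)]⟩,
   ⟨V6_18439741440, [(nat_lit 9, nat_lit 22734974976), (nat_lit 36, nat_lit 23808712704), (nat_lit 88, nat_lit 23808454656), (nat_lit 28, nat_lit 24882192384)]⟩],
  [W_22733914112, W_22700367872, W_22684368896, W_22683852800, W_22667595776, W_22667337728, W_21660434432, W_21627404288, W_21610889216, W_21594116096, W_20586696704, W_20586438656, W_20569923584, W_20537151488, W_20536893440, W_19446640640]⟩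
theorem C_22734974976 : chkRec R_22734974976 = true := by decide +kernel

noncomputable def R_22735228992 : Rec := ⟨nat_lit 22735228992, nat_lit 98,
  [⟨V6_21660176448, [(nat_lit 66, nat_lit 22735228992), (nat_lit 124, nat_lit 23808708672), (nat_lit 80, nat_lit 24882188352), (nat_lit 70, nat_lit 25955668032), (nat_lit 89, nat_lit 27029147712), (nat_lit 17, nat_lit 28102627392)]⟩,
   ⟨V6_18406707264, [(nat_lit 30, nat_lit 22735228992), (nat_lit 92, nat_lit 23792193600), (nat_lit 1, nat_lit 24849158208)]⟩,
   ⟨V6_17366519808, [(nat_lit 76, nat_lit 22735228992), (nat_lit 54, nat_lit 23808970752)]⟩,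
   ⟨V6_17349742656, [(nat_lit 68, nat_lit 22735228992), (nat_lit 93, nat_lit 23792193600)]⟩],
  [W_22733656064, W_22717140992, W_22684110848, W_22683848768, W_21659914304, W_20586696704, W_20537151488, W_19463671808, W_19463409728, W_18389930048]⟩
theorem C_22735228992 : chkRec R_22735228992 = true := by decide +kernel

noncomputable def R_22735233024 : Rec := ⟨nat_lit 22735233024, nat_lit 213,
  [⟨V6_20554186752, [(nat_lit 33, nat_lit 22735233024), (nat_lit 69, nat_lit 23808970752), (nat_lit 5, nat_lit 23792197632), (nat_lit 82, nat_lit 24882708480), (nat_lit 37, nat_lit 24865935360), (nat_lit 27, nat_lit 24849162240), (nat_lit 81, nat_lit 25939673088), (nat_lit 121, nat_lit 25922899968), (nat_lit 1, nat_lit 26996637696)]⟩,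
   ⟨V6_18439741440, [(nat_lit 91, nat_lit 22735233024), (nat_lit 113, nat_lit 23808712704), (nat_lit 117, nat_lit 24882192384)]⟩,
   ⟨V6_18423484416, [(nat_lit 20, nat_lit 22735233024), (nat_lit 44, nat_lit 23808970752), (nat_lit 45, nat_lit 23792197632), (nat_lit 103, nat_lit 24865935360)]⟩,
   ⟨V6_17366519808, [(nat_lit 62, nat_lit 22735233024), (nat_lit 37, nat_lit 23808970752)]⟩],
  [W_22733914112, W_22733656064, W_22716882944, W_22700367872, W_22684368896, W_22683852800, W_21660434432, W_21659918336, W_21627404288, W_20586438656, W_20569923584, W_20537409536, W_20536893440, W_19463671808]⟩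
theorem C_22735233024 : chkRec R_22735233024 = true := by decide +kernel

noncomputable def R_22735491072 : Rec := ⟨nat_lit 22735491072, nat_lit 112,
  [⟨V6_18439999488, [(nat_lit 31, nat_lit 22735491072), (nat_lit 1, nat_lit 23808970752), (nat_lit 83, nat_lit 24882450432)]⟩,
   ⟨V6_18423742464, [(nat_lit 99, nat_lit 22735491072), (nat_lit 75, nat_lit 23809228800), (nat_lit 120, nat_lit 23792455680), (nat_lit 10, nat_lit 24866193408)]⟩,
   ⟨V6_17366519808, [(nat_lit 102, nat_lit 22735491072), (nat_lit 15, nat_lit 23808970752)]⟩],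
  [W_22733656064, W_22717140992, W_22700883968, W_21660434432, W_21643919360, W_21627404288, W_20586696704]⟩
theorem C_22735491072 : chkRec R_22735491072 = true := by decide +kernel

noncomputable def R_22735749120 : Rec := ⟨nat_lit 22735749120, nat_lit 36,
  [⟨V6_22717661184, [(nat_lit 10, nat_lit 22735749120), (nat_lit 4, nat_lit 23809228800), (nat_lit 42, nat_lit 23792713728), (nat_lit 43, nat_lit 24882708480), (nat_lit 124, nat_lit 24866193408), (nat_lit 67, nat_lit 25956188160), (nat_lit 55, nat_lit 25939673088), (nat_lit 45, nat_lit 27029667840), (nat_lit 54, nat_lit 27013152768), (nat_lit 67, nat_lit 28103147520), (nat_lit 61, nat_lit 28086632448), (nat_lit 76, nat_lit 29160112128)]⟩,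
   ⟨V6_17350262784, [(nat_lit 26, nat_lit 22735749120), (nat_lit 114, nat_lit 23792713728)]⟩],
  [W_22733914112, W_21660434432, W_16276520960]⟩
theorem C_22735749120 : chkRec R_22735749120 = true := by decide +kernel

noncomputable def R_22750699650 : Rec := ⟨nat_lit 22750699650, nat_lit 5,
  [⟨V6_17381990529, [(nat_lit 91, nat_lit 22750699650), (nat_lit 68, nat_lit 23824441473)]⟩],
  [W_22683328640, W_21609848960]⟩
theorem C_22750699650 : chkRec R_22750699650 = true := by decide +kernel

noncomputable def R_22750703745 : Rec := ⟨nat_lit 22750703745, nat_lit 9,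
  [⟨V6_18455732352, [(nat_lit 124, nat_lit 22750703745), (nat_lit 47, nat_lit 23824445568), (nat_lit 13, nat_lit 23824441473), (nat_lit 17, nat_lit 24898183296)]⟩],
  [W_22666813568, W_18455732288, W_17381990528]⟩
theorem C_22750703745 : chkRec R_22750703745 = true := by decide +kernel

noncomputable def R_22750703808 : Rec := ⟨nat_lit 22750703808, nat_lit 5,
  [⟨V6_21643407360, [(nat_lit 58, nat_lit 22750703808), (nat_lit 94, nat_lit 23824445568), (nat_lit 43, nat_lit 23807668416), (nat_lit 72, nat_lit 24898187328), (nat_lit 36, nat_lit 24881410176), (nat_lit 33, nat_lit 24864633024), (nat_lit 58, nat_lit 25971929088), (nat_lit 15, nat_lit 25955151936), (nat_lit 76, nat_lit 25938374784), (nat_lit 23, nat_lit 27028893696), (nat_lit 31, nat_lit 27012116544), (nat_lit 14, nat_lit 28085858304)]⟩],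
  [W_18455736320, W_17381994560]⟩
theorem C_22750703808 : chkRec R_22750703808 = true := by decide +kernel

noncomputable def R_22750961793 : Rec := ⟨nat_lit 22750961793, nat_lit 31,
  [⟨V6_18455732352, [(nat_lit 97, nat_lit 22750961793), (nat_lit 113, nat_lit 23824703616), (nat_lit 58, nat_lit 23824441473), (nat_lit 38, nat_lit 24898183296)]⟩,
   ⟨V6_18439217217, [(nat_lit 9, nat_lit 22750961793), (nat_lit 96, nat_lit 23824703553), (nat_lit 48, nat_lit 23807926401), (nat_lit 1, nat_lit 24881668161)]⟩],
  [W_22700105792, W_22683590720, W_22683328640, W_22667075648, W_22650298496, W_21643141184, W_20569399424, W_19512434816, W_17381990528]⟩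
theorem C_22750961793 : chkRec R_22750961793 = true := by decide +kernel

noncomputable def R_22750965825 : Rec := ⟨nat_lit 22750965825, nat_lit 32,
  [⟨V6_19529732160, [(nat_lit 121, nat_lit 22750965825), (nat_lit 110, nat_lit 23824707648), (nat_lit 70, nat_lit 23824703553), (nat_lit 14, nat_lit 24898445376), (nat_lit 59, nat_lit 24898441281), (nat_lit 99, nat_lit 25972183104)]⟩,
   ⟨V6_18439217217, [(nat_lit 46, nat_lit 22750965825), (nat_lit 59, nat_lit 23824703553), (nat_lit 44, nat_lit 23807930433), (nat_lit 117, nat_lit 24881668161)]⟩],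
  [W_22683848768, W_22683590720, W_22667075648, W_22666817600, W_22650302528, W_21609852992, W_21593337920, W_20552888384, W_20536373312, W_17381994560]⟩
theorem C_22750965825 : chkRec R_22750965825 = true := by decide +kernel

noncomputable def R_22750965888 : Rec := ⟨nat_lit 22750965888, nat_lit 86,
  [⟨V6_19512963072, [(nat_lit 54, nat_lit 22750965888), (nat_lit 83, nat_lit 23824707648), (nat_lit 106, nat_lit 23807930496), (nat_lit 7, nat_lit 24898449408), (nat_lit 96, nat_lit 24881672256), (nat_lit 66, nat_lit 25955414016)]⟩,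
   ⟨V6_18455998464, [(nat_lit 43, nat_lit 22750965888), (nat_lit 6, nat_lit 23824707648), (nat_lit 23, nat_lit 24898449408)]⟩],
  [W_22700367872, W_22683852800, W_22683590720, W_22667079680, W_22667075648, W_22666817600, W_22650302528, W_22650298496, W_21609848960, W_20586438656, W_20569661504, W_19512696896, W_17381990528]⟩
theorem C_22750965888 : chkRec R_22750965888 = true := by decide +kernel

noncomputable def R_22750969920 : Rec := ⟨nat_lit 22750969920, nat_lit 95,
  [⟨V6_19529732160, [(nat_lit 120, nat_lit 22750969920), (nat_lit 17, nat_lit 23824707648), (nat_lit 90, nat_lit 24898445376), (nat_lit 47, nat_lit 25972183104)]⟩,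
   ⟨V6_17365483584, [(nat_lit 64, nat_lit 22750969920), (nat_lit 121, nat_lit 23807934528)]⟩,
   ⟨V6_16308518976, [(nat_lit 51, nat_lit 22750969920)]⟩],
  [W_22700625920, W_22683852800, W_22667075648, W_22650306560, W_22650302528, W_22633529408, W_21626884160, W_21593341952, W_21593337920, W_21576564800, W_20586696704]⟩
theorem C_22750969920 : chkRec R_22750969920 = true := by decide +kernel

noncomputable def R_22751223873 : Rec := ⟨nat_lit 22751223873, nat_lit 46,
  [⟨V6_18456252480, [(nat_lit 38, nat_lit 22751223873), (nat_lit 87, nat_lit 23824965696), (nat_lit 126, nat_lit 23824961601), (nat_lit 58, nat_lit 24898703424)]⟩,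
   ⟨V6_18439217217, [(nat_lit 14, nat_lit 22751223873), (nat_lit 1, nat_lit 23824703553), (nat_lit 78, nat_lit 23808188481), (nat_lit 67, nat_lit 24881668161)]⟩],
  [W_22700363840, W_22683848768, W_22683590720, W_22667333696, W_22667075648, W_22650560576, W_21643399232, W_21643141184, W_21626626112, W_21593595968, W_19529211968]⟩
theorem C_22751223873 : chkRec R_22751223873 = true := by decide +kernel

noncomputable def R_22751223936 : Rec := ⟨nat_lit 22751223936, nat_lit 108,
  [⟨V6_19513221120, [(nat_lit 27, nat_lit 22751223936), (nat_lit 105, nat_lit 23824965696), (nat_lit 53, nat_lit 23808188544), (nat_lit 67, nat_lit 24898707456), (nat_lit 48, nat_lit 24881930304), (nat_lit 33, nat_lit 25955672064)]⟩,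
   ⟨V6_18456256512, [(nat_lit 98, nat_lit 22751223936), (nat_lit 120, nat_lit 23824965696), (nat_lit 79, nat_lit 24898707456)]⟩],
  [W_22716882944, W_22700367872, W_22683852800, W_22683590720, W_22667337728, W_22667075648, W_22666813568, W_22650560576, W_22650298496, W_20569923584, W_19479404672, W_19462889600, W_18422440064]⟩
theorem C_22751223936 : chkRec R_22751223936 = true := by decide +kernel

noncomputable def R_22751227968 : Rec := ⟨nat_lit 22751227968, nat_lit 187,
  [⟨V6_19512963072, [(nat_lit 31, nat_lit 22751227968), (nat_lit 37, nat_lit 23824969728), (nat_lit 64, nat_lit 23824707648), (nat_lit 39, nat_lit 23808192576), (nat_lit 98, nat_lit 24898449408), (nat_lit 5, nat_lit 24881934336), (nat_lit 26, nat_lit 24881672256), (nat_lit 76, nat_lit 25955414016)]⟩,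
   ⟨V6_18456256512, [(nat_lit 32, nat_lit 22751227968), (nat_lit 93, nat_lit 23824969728), (nat_lit 44, nat_lit 23824965696), (nat_lit 126, nat_lit 24898707456)]⟩,
   ⟨V6_18455998464, [(nat_lit 70, nat_lit 22751227968), (nat_lit 38, nat_lit 23824969728), (nat_lit 49, nat_lit 23824707648), (nat_lit 68, nat_lit 24898449408)]⟩],
  [W_22700367872, W_22683852800, W_22683594752, W_22683590720, W_22667337728, W_22667333696, W_22667079680, W_22667075648, W_22666817600, W_22650564608, W_22650560576, W_22650302528, W_21609852992, W_21576822848, W_20586696704, W_20586438656, W_20569923584, W_20569665536, W_20553150464, W_19512700928, W_18455736320, W_18438959168]⟩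
theorem C_22751227968 : chkRec R_22751227968 = true := by decide +kernel

noncomputable def R_22751232000 : Rec := ⟨nat_lit 22751232000, nat_lit 155,
  [⟨V6_18456256512, [(nat_lit 25, nat_lit 22751232000), (nat_lit 101, nat_lit 23824969728), (nat_lit 62, nat_lit 24898707456)]⟩,
   ⟨V6_18439225344, [(nat_lit 91, nat_lit 22751232000), (nat_lit 70, nat_lit 23824711680), (nat_lit 126, nat_lit 23808196608), (nat_lit 118, nat_lit 24881676288)]⟩,
   ⟨V6_17382260736, [(nat_lit 25, nat_lit 22751232000), (nat_lit 23, nat_lit 23824711680)]⟩],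
  [W_22717399040, W_22700883968, W_22684110848, W_22683852800, W_22667337728, W_22667079680, W_22650564608, W_22650306560, W_21660434432, W_21643919360, W_21593341952, W_21576826880, W_20586696704, W_15235039232]⟩
theorem C_22751232000 : chkRec R_22751232000 = true := by decide +kernel

noncomputable def R_22751481921 : Rec := ⟨nat_lit 22751481921, nat_lit 21,
  [⟨V6_20536889409, [(nat_lit 30, nat_lit 22751481921), (nat_lit 109, nat_lit 23808446529), (nat_lit 52, nat_lit 24865411137), (nat_lit 58, nat_lit 25922375745), (nat_lit 102, nat_lit 26979340353)]⟩,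
   ⟨V6_17382510657, [(nat_lit 108, nat_lit 22751481921), (nat_lit 55, nat_lit 23824961601)]⟩,
   ⟨V6_17365995585, [(nat_lit 35, nat_lit 22751481921), (nat_lit 88, nat_lit 23808446529)]⟩],
  [W_22733393984, W_22667333696, W_21659914304, W_21643399232, W_20602949696, W_20586434624]⟩
theorem C_22751481921 : chkRec R_22751481921 = true := by decide +kernel

noncomputable def R_22751486016 : Rec := ⟨nat_lit 22751486016, nat_lit 222,
  [⟨V6_21676695552, [(nat_lit 103, nat_lit 22751486016), (nat_lit 98, nat_lit 23825227776), (nat_lit 31, nat_lit 23824965696), (nat_lit 125, nat_lit 24898707456), (nat_lit 30, nat_lit 24898445376), (nat_lit 46, nat_lit 25972187136), (nat_lit 80, nat_lit 25971925056), (nat_lit 29, nat_lit 27045666816), (nat_lit 56, nat_lit 27045404736), (nat_lit 86, nat_lit 28119146496)]⟩,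
   ⟨V6_18456252480, [(nat_lit 125, nat_lit 22751486016), (nat_lit 115, nat_lit 23825223744), (nat_lit 61, nat_lit 23824965696), (nat_lit 32, nat_lit 24898703424)]⟩,
   ⟨V6_18439741440, [(nat_lit 2, nat_lit 22751486016), (nat_lit 111, nat_lit 23825227776), (nat_lit 78, nat_lit 23808450624), (nat_lit 84, nat_lit 24882192384)]⟩,
   ⟨V6_17382776832, [(nat_lit 87, nat_lit 22751486016), (nat_lit 5, nat_lit 23825227776)]⟩],
  [W_22667595776, W_22667337728, W_22667333696, W_22650822656, W_22650560576, W_21676691456, W_21593858048, W_21593854016, W_21577080896, W_20603211776, W_20586696704, W_20586438656, W_20569923584, W_20536893440, W_20520116288, W_19529732096, W_19529474048]⟩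
theorem C_22751486016 : chkRec R_22751486016 = true := by decide +kernel

noncomputable def R_22751490048 : Rec := ⟨nat_lit 22751490048, nat_lit 250,
  [⟨V6_20603473920, [(nat_lit 81, nat_lit 22751490048), (nat_lit 109, nat_lit 23825227776), (nat_lit 115, nat_lit 23824969728), (nat_lit 82, nat_lit 24898965504), (nat_lit 48, nat_lit 24898707456), (nat_lit 102, nat_lit 24898449408), (nat_lit 125, nat_lit 25972445184), (nat_lit 49, nat_lit 25972187136), (nat_lit 122, nat_lit 27045924864)]⟩,
   ⟨V6_20570443776, [(nat_lit 126, nat_lit 22751490048), (nat_lit 35, nat_lit 23825227776), (nat_lit 50, nat_lit 23808454656), (nat_lit 118, nat_lit 24898965504), (nat_lit 24, nat_lit 24882192384), (nat_lit 41, nat_lit 24865419264), (nat_lit 115, nat_lit 25955930112), (nat_lit 93, nat_lit 25939156992), (nat_lit 69, nat_lit 27012894720)]⟩,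
   ⟨V6_19513479168, [(nat_lit 77, nat_lit 22751490048), (nat_lit 24, nat_lit 23825227776), (nat_lit 46, nat_lit 23808454656), (nat_lit 13, nat_lit 24898965504), (nat_lit 58, nat_lit 24882192384), (nat_lit 124, nat_lit 25955930112)]⟩,
   ⟨V6_18456514560, [(nat_lit 26, nat_lit 22751490048), (nat_lit 6, nat_lit 23825227776), (nat_lit 86, nat_lit 24898965504)]⟩],
  [W_22650564608, W_21577084928, W_20586696704, W_20569923584, W_20569665536, W_20553150464, W_20536893440, W_20536635392, W_20520120320, W_19529732096, W_19529474048, W_19512700928, W_19496185856, W_19463155712, W_18455736320, W_17382256640, W_15235297280]⟩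
theorem C_22751490048 : chkRec R_22751490048 = true := by decide +kernel

noncomputable def R_22751744064 : Rec := ⟨nat_lit 22751744064, nat_lit 114,
  [⟨V6_22667857920, [(nat_lit 34, nat_lit 22751744064), (nat_lit 114, nat_lit 23825485824), (nat_lit 1, nat_lit 23808708672), (nat_lit 29, nat_lit 24882450432), (nat_lit 112, nat_lit 24865673280), (nat_lit 50, nat_lit 25939415040), (nat_lit 15, nat_lit 25922637888), (nat_lit 58, nat_lit 26996379648), (nat_lit 126, nat_lit 26979602496), (nat_lit 62, nat_lit 28053344256), (nat_lit 93, nat_lit 28036567104), (nat_lit 37, nat_lit 29110308864)]⟩,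
   ⟨V6_18439999488, [(nat_lit 54, nat_lit 22751744064), (nat_lit 76, nat_lit 23825485824), (nat_lit 74, nat_lit 23808708672), (nat_lit 109, nat_lit 24882450432)]⟩,
   ⟨V6_17383034880, [(nat_lit 80, nat_lit 22751744064), (nat_lit 117, nat_lit 23825485824)]⟩],
  [W_22733656064, W_22717140992, W_22684110848, W_22683848768, W_22667595776, W_22667333696, W_21676691456, W_21643399232, W_21594116096, W_21593854016, W_20603211776, W_20602949696, W_20537151488, W_20520374336]⟩
theorem C_22751744064 : chkRec R_22751744064 = true := by decide +kernel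

end Crest.Agent.R187.SN.Top
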