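import Crest.Agent.R187.SN.Top
import Crest.Agent.R187.SN.TD.X6_3
import Crest.Agent.R187.SN.TD.X6_4
import Crest.Agent.R187.SN.TD.X6_5
import Crest.Agent.R187.SN.TD.X6_6
import Crest.Agent.R187.SN.TD.X6_7
import Crest.Agent.R187.SN.TD.X6_8
import Crest.Agent.R187.SN.TD.X6_9
import Crest.Agent.R187.SN.TD.X6_10
import Crest.Agent.R187.SN.TD.X6_11
import Crest.Agent.R187.SN.TD.X6_12
import Crest.Agent.R187.SN.TD.W7_1
import Crest.Agent.R187.SN.TD.W7_2
import Crest.Agent.R187.SN.TD.W7_3

/-!
# Row 187, PLAN S, generated certificate data (mod 127): rank records and checks, chunk 15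

Written by a C++ program (helper824).  The tables are only data: every property is checked by
the kernel.
-/

set_option autoImplicit false
set_option maxRecDepth 100000
set_option Elab.async false

namespace Crest.Agent.R187.SN.Top

noncomputable def R_22751748096 : Rec := ⟨nat_lit 22751748096, nat_lit 252,
  [⟨V6_19496964096, [(nat_lit 48, nat_lit 22751748096), (nat_lit 105, nat_lit 23825485824), (nat_lit 107, nat_lit 23808712704), (nat_lit 19, nat_lit 24882450432), (nat_lit 65, nat_lit 24865677312), (nat_lit 65, nat_lit 25939415040)]⟩,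
   ⟨V6_18456514560, [(nat_lit 55, nat_lit 22751748096), (nat_lit 58, nat_lit 23825485824), (nat_lit 7, nat_lit 23825227776), (nat_lit 45, nat_lit 24898965504)]⟩,
   ⟨V6_18439999488, [(nat_lit 115, nat_lit 22751748096), (nat_lit 108, nat_lit 23825485824), (nat_lit 111, nat_lit 23808712704), (nat_lit 26, nat_lit 24882450432)]⟩,
   ⟨V6_17383034880, [(nat_lit 90, nat_lit 22751748096), (nat_lit 66, nat_lit 23825485824)]⟩],
  [W_22750429184, W_22733914112, W_22716882944, W_22700367872, W_22683852800, W_22667853824, W_22667337728, W_21676949504, W_21676691456, W_21659918336, W_20603211776, W_20586696704, W_20586438656, W_20569923584, W_20536893440, W_20520378368, W_19529474048]⟩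
theorem C_22751748096 : chkRec R_22751748096 = true := by decide +kernel

noncomputable def R_22752006144 : Rec := ⟨nat_lit 22752006144, nat_lit 167,
  [⟨V6_20554186752, [(nat_lit 109, nat_lit 22752006144), (nat_lit 17, nat_lit 23825743872), (nat_lit 124, nat_lit 23808970752), (nat_lit 6, nat_lit 24882708480), (nat_lit 58, nat_lit 24865935360), (nat_lit 99, nat_lit 25939673088), (nat_lit 109, nat_lit 25922899968), (nat_lit 60, nat_lit 26996637696)]⟩,
   ⟨V6_18456772608, [(nat_lit 54, nat_lit 22752006144), (nat_lit 38, nat_lit 23825743872), (nat_lit 115, nat_lit 23825485824), (nat_lit 79, nat_lit 24899223552)]⟩,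
   ⟨V6_18423484416, [(nat_lit 22, nat_lit 22752006144), (nat_lit 103, nat_lit 23808970752), (nat_lit 7, nat_lit 24865935360)]⟩,
   ⟨V6_17383034880, [(nat_lit 34, nat_lit 22752006144), (nat_lit 74, nat_lit 23825485824)]⟩,
   ⟨V6_17366519808, [(nat_lit 19, nat_lit 22752006144), (nat_lit 26, nat_lit 23808970752)]⟩],
  [W_22750429184, W_22733914112, W_22733656064, W_22684368896, W_21676949504, W_21676691456, W_21660434432, W_21610889216, W_20603211776, W_20586696704, W_20537409536, W_20537151488]⟩
theorem C_22752006144 : chkRec R_22752006144 = true := by decide +kernel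

noncomputable def R_22752264192 : Rec := ⟨nat_lit 22752264192, nat_lit 70,
  [⟨V6_20554186752, [(nat_lit 92, nat_lit 22752264192), (nat_lit 7, nat_lit 23825743872), (nat_lit 107, nat_lit 23809228800), (nat_lit 72, nat_lit 24882708480), (nat_lit 20, nat_lit 24866193408), (nat_lit 46, nat_lit 25939673088), (nat_lit 90, nat_lit 25923158016), (nat_lit 22, nat_lit 26996637696)]⟩,
   ⟨V6_19480707072, [(nat_lit 108, nat_lit 22752264192), (nat_lit 94, nat_lit 23809228800), (nat_lit 22, nat_lit 24866193408), (nat_lit 34, nat_lit 25923158016)]⟩,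
   ⟨V6_18456772608, [(nat_lit 119, nat_lit 22752264192), (nat_lit 53, nat_lit 23825743872), (nat_lit 81, nat_lit 24899223552)]⟩,
   ⟨V6_18423742464, [(nat_lit 40, nat_lit 22752264192), (nat_lit 118, nat_lit 23809228800), (nat_lit 82, nat_lit 24866193408)]⟩],
  [W_22750429184, W_22733914112, W_22700883968, W_21676949504, W_19480444928, W_17350000640]⟩
theorem C_22752264192 : chkRec R_22752264192 = true := by decide +kernel

noncomputable def R_22767214722 : Rec := ⟨nat_lit 22767214722, nat_lit 2,
  [⟨V6_22666551426, [(nat_lit 10, nat_lit 22767214722), (nat_lit 73, nat_lit 23824179330), (nat_lit 65, nat_lit 24881143938), (nat_lit 104, nat_lit 25938108546), (nat_lit 55, nat_lit 26995073154), (nat_lit 34, nat_lit 28052037762), (nat_lit 6, nat_lit 29109002370)]⟩,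
   ⟨V6_20552622210, [(nat_lit 57, nat_lit 22767214722), (nat_lit 69, nat_lit 23824179330), (nat_lit 121, nat_lit 24881143938), (nat_lit 3, nat_lit 25938108546), (nat_lit 102, nat_lit 26995073154)]⟩],
  [W_18455470208, W_17398505600]⟩
theorem C_22767214722 : chkRec R_22767214722 = true := by decide +kernel

noncomputable def R_22767476865 : Rec := ⟨nat_lit 22767476865, nat_lit 16,
  [⟨V6_18455732352, [(nat_lit 61, nat_lit 22767476865), (nat_lit 86, nat_lit 23841218688), (nat_lit 43, nat_lit 23824441473), (nat_lit 115, nat_lit 24898183296)]⟩],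
  [W_22700105792, W_22683590720, W_22683328640, W_21643141184, W_21609848960]⟩
theorem C_22767476865 : chkRec R_22767476865 = true := by decide +kernel

noncomputable def R_22767480897 : Rec := ⟨nat_lit 22767480897, nat_lit 11,
  [⟨V6_20569661505, [(nat_lit 97, nat_lit 22767480897), (nat_lit 5, nat_lit 23841218625), (nat_lit 100, nat_lit 23824445505), (nat_lit 104, nat_lit 24898183233), (nat_lit 76, nat_lit 24881410113), (nat_lit 120, nat_lit 25955147841), (nat_lit 68, nat_lit 25938374721), (nat_lit 9, nat_lit 27012112449)]⟩,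
   ⟨V6_19495923777, [(nat_lit 19, nat_lit 22767480897), (nat_lit 42, nat_lit 23824445505), (nat_lit 31, nat_lit 24881410113), (nat_lit 106, nat_lit 25938374721)]⟩],
  [W_22666817600, W_18472505408, W_17398767680, W_16325029952]⟩
theorem C_22767480897 : chkRec R_22767480897 = true := by decide +kernel

noncomputable def R_22767480960 : Rec := ⟨nat_lit 22767480960, nat_lit 27,
  [⟨V6_21643407360, [(nat_lit 52, nat_lit 22767480960), (nat_lit 40, nat_lit 23841222720), (nat_lit 115, nat_lit 23824445568), (nat_lit 31, nat_lit 24914964480), (nat_lit 5, nat_lit 24898187328), (nat_lit 6, nat_lit 24881410176), (nat_lit 90, nat_lit 25971929088), (nat_lit 47, nat_lit 25955151936), (nat_lit 118, nat_lit 25938374784), (nat_lit 18, nat_lit 27028893696), (nat_lit 64, nat_lit 27012116544), (nat_lit 98, nat_lit 28085858304)]⟩,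
   ⟨V6_18455732352, [(nat_lit 93, nat_lit 22767480960), (nat_lit 77, nat_lit 23841218688), (nat_lit 29, nat_lit 23824445568), (nat_lit 85, nat_lit 24898183296)]⟩],
  [W_22666813568, W_19529474048, W_18472509440, W_16325029952, W_16308252800]⟩
theorem C_22767480960 : chkRec R_22767480960 = true := by decide +kernel

noncomputable def R_22767738945 : Rec := ⟨nat_lit 22767738945, nat_lit 33,
  [⟨V6_19546247232, [(nat_lit 60, nat_lit 22767738945), (nat_lit 76, nat_lit 23841480768), (nat_lit 13, nat_lit 23841476673), (nat_lit 10, nat_lit 23841218625), (nat_lit 9, nat_lit 24915218496), (nat_lit 111, nat_lit 24914960448), (nat_lit 58, nat_lit 24914956353), (nat_lit 48, nat_lit 25988698176)]⟩,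
   ⟨V6_18472505409, [(nat_lit 11, nat_lit 22767738945), (nat_lit 55, nat_lit 23841476673), (nat_lit 116, nat_lit 23841218625), (nat_lit 81, nat_lit 24914956353)]⟩,
   ⟨V6_18439217217, [(nat_lit 37, nat_lit 22767738945), (nat_lit 90, nat_lit 23824703553), (nat_lit 114, nat_lit 24881668161)]⟩],
  [W_22700105792, W_22683848768, W_22683590720, W_22667075648, W_21643141184, W_21626884160, W_19529211968]⟩
theorem C_22767738945 : chkRec R_22767738945 = true := by decide +kernel

noncomputable def R_22767739008 : Rec := ⟨nat_lit 22767739008, nat_lit 78,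
  [⟨V6_20586700800, [(nat_lit 114, nat_lit 22767739008), (nat_lit 83, nat_lit 23841480768), (nat_lit 97, nat_lit 23824703616), (nat_lit 52, nat_lit 24915222528), (nat_lit 55, nat_lit 24898445376), (nat_lit 49, nat_lit 24881668224), (nat_lit 43, nat_lit 25972187136), (nat_lit 4, nat_lit 25955409984), (nat_lit 1, nat_lit 27029151744)]⟩,
   ⟨V6_18455732352, [(nat_lit 61, nat_lit 22767739008), (nat_lit 89, nat_lit 23841218688), (nat_lit 49, nat_lit 23824703616), (nat_lit 7, nat_lit 24898183296)]⟩],
  [W_22716882944, W_22700367872, W_22683852800, W_22683590720, W_22683328640, W_22650298496, W_21659918336, W_19545989120, W_18472509440, W_18472247360]⟩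
theorem C_22767739008 : chkRec R_22767739008 = true := by decide +kernel

noncomputable def R_22767743040 : Rec := ⟨nat_lit 22767743040, nat_lit 124,
  [⟨V6_19546247232, [(nat_lit 116, nat_lit 22767743040), (nat_lit 9, nat_lit 23841480768), (nat_lit 43, nat_lit 23841222720), (nat_lit 119, nat_lit 24915218496), (nat_lit 57, nat_lit 24914960448), (nat_lit 70, nat_lit 25988698176)]⟩,
   ⟨V6_19512963072, [(nat_lit 115, nat_lit 22767743040), (nat_lit 89, nat_lit 23841484800), (nat_lit 56, nat_lit 23824707648), (nat_lit 67, nat_lit 24898449408), (nat_lit 4, nat_lit 24881672256), (nat_lit 25, nat_lit 25955414016)]⟩,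
   ⟨V6_18455998464, [(nat_lit 124, nat_lit 22767743040), (nat_lit 114, nat_lit 23841484800), (nat_lit 27, nat_lit 23824707648), (nat_lit 75, nat_lit 24898449408)]⟩],
  [W_22700367872, W_22683852800, W_22683848768, W_22683590720, W_22667079680, W_22667075648, W_22666817600, W_22650302528, W_20603211776, W_20586696704, W_20569923584]⟩
theorem C_22767743040 : chkRec R_22767743040 = true := by decide +kernel

noncomputable def R_22767747072 : Rec := ⟨nat_lit 22767747072, nat_lit 86,
  [⟨V6_20620247040, [(nat_lit 54, nat_lit 22767747072), (nat_lit 87, nat_lit 23841484800), (nat_lit 98, nat_lit 24915222528), (nat_lit 107, nat_lit 25988960256), (nat_lit 52, nat_lit 27062697984)]⟩,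
   ⟨V6_17382260736, [(nat_lit 36, nat_lit 22767747072), (nat_lit 11, nat_lit 23824711680)]⟩,
   ⟨V6_16325296128, [(nat_lit 83, nat_lit 22767747072)]⟩],
  [W_22717399040, W_22650306560, W_21660434432, W_20586696704, W_18472767488]⟩
theorem C_22767747072 : chkRec R_22767747072 = true := by decide +kernel

noncomputable def R_22767996993 : Rec := ⟨nat_lit 22767996993, nat_lit 19,
  [⟨V6_22667333697, [(nat_lit 50, nat_lit 22767996993), (nat_lit 111, nat_lit 23824961601), (nat_lit 71, nat_lit 24881926209), (nat_lit 12, nat_lit 25938890817), (nat_lit 21, nat_lit 26995855425), (nat_lit 43, nat_lit 28052820033), (nat_lit 30, nat_lit 29109784641)]⟩,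
   ⟨V6_18472505409, [(nat_lit 86, nat_lit 22767996993), (nat_lit 27, nat_lit 23841476673), (nat_lit 101, nat_lit 24914956353)]⟩,
   ⟨V6_18439475265, [(nat_lit 88, nat_lit 22767996993), (nat_lit 39, nat_lit 23824961601), (nat_lit 24, nat_lit 24881926209)]⟩,
   ⟨V6_17382510657, [(nat_lit 123, nat_lit 22767996993), (nat_lit 27, nat_lit 23824961601)]⟩],
  [W_22700363840, W_22683848768, W_22667333696, W_21659914304, W_21610369088]⟩
theorem C_22767996993 : chkRec R_22767996993 = true := by decide +kernel

noncomputable def R_22768001088 : Rec := ⟨nat_lit 22768001088, nat_lit 179,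
  [⟨V6_19513221120, [(nat_lit 103, nat_lit 22768001088), (nat_lit 51, nat_lit 23841742848), (nat_lit 112, nat_lit 23824965696), (nat_lit 7, nat_lit 24898707456), (nat_lit 8, nat_lit 24881930304), (nat_lit 50, nat_lit 25955672064)]⟩,
   ⟨V6_18456256512, [(nat_lit 14, nat_lit 22768001088), (nat_lit 103, nat_lit 23841742848), (nat_lit 1, nat_lit 23824965696), (nat_lit 31, nat_lit 24898707456)]⟩,
   ⟨V6_18456252480, [(nat_lit 3, nat_lit 22768001088), (nat_lit 11, nat_lit 23841738816), (nat_lit 57, nat_lit 23824965696), (nat_lit 84, nat_lit 24898703424)]⟩],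
  [W_22733656064, W_22716882944, W_22716878912, W_22700367872, W_22700105792, W_22683852800, W_22683590720, W_22667337728, W_22667333696, W_22667075648, W_22650560576, W_21676691456, W_21659918336, W_21643141184, W_20603211776, W_20586696704, W_20569923584, W_18472247360]⟩
theorem C_22768001088 : chkRec R_22768001088 = true := by decide +kernel

noncomputable def R_22768005120 : Rec := ⟨nat_lit 22768005120, nat_lit 186,
  [⟨V6_19512963072, [(nat_lit 2, nat_lit 22768005120), (nat_lit 1, nat_lit 23841484800), (nat_lit 82, nat_lit 23824969728), (nat_lit 5, nat_lit 24898449408), (nat_lit 76, nat_lit 24881934336), (nat_lit 79, nat_lit 25955414016)]⟩,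
   ⟨V6_18456256512, [(nat_lit 90, nat_lit 22768005120), (nat_lit 95, nat_lit 23841742848), (nat_lit 110, nat_lit 23824969728), (nat_lit 29, nat_lit 24898707456)]⟩,
   ⟨V6_18455998464, [(nat_lit 42, nat_lit 22768005120), (nat_lit 124, nat_lit 23841484800), (nat_lit 19, nat_lit 23824969728), (nat_lit 89, nat_lit 24898449408)]⟩],
  [W_22733914112, W_22700367872, W_22683852800, W_22667337728, W_22667079680, W_22650564608, W_21676949504, W_21660434432, W_20619984896, W_20603211776, W_20586696704, W_20569665536, W_19546247168, W_17398771712]⟩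
theorem C_22768005120 : chkRec R_22768005120 = true := by decide +kernel

noncomputable def R_22768259136 : Rec := ⟨nat_lit 22768259136, nat_lit 109,
  [⟨V6_22766948352, [(nat_lit 95, nat_lit 22768259136), (nat_lit 32, nat_lit 23842000896), (nat_lit 84, nat_lit 23841738816), (nat_lit 73, nat_lit 24915480576), (nat_lit 75, nat_lit 24915218496), (nat_lit 80, nat_lit 25988960256), (nat_lit 105, nat_lit 25988698176), (nat_lit 32, nat_lit 27062439936), (nat_lit 1, nat_lit 27062177856), (nat_lit 20, nat_lit 28135919616), (nat_lit 39, nat_lit 28135657536), (nat_lit 52, nat_lit 29209399296)]⟩,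
   ⟨V6_18456514560, [(nat_lit 95, nat_lit 22768259136), (nat_lit 73, nat_lit 23842000896), (nat_lit 34, nat_lit 23825223744), (nat_lit 38, nat_lit 24898965504)]⟩,
   ⟨V6_17399549952, [(nat_lit 101, nat_lit 22768259136), (nat_lit 35, nat_lit 23842000896)]⟩],
  [W_22733393984, W_22717140992, W_22700363840, W_22684110848, W_22683848768, W_22667595776, W_22667333696, W_21693206528, W_21676691456, W_21643399232, W_21593854016, W_20603211776, W_20602949696, W_20586434624, W_19545985088, W_19529470016]⟩
theorem C_22768259136 : chkRec R_22768259136 = true := by decide +kernel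

noncomputable def R_22768263168 : Rec := ⟨nat_lit 22768263168, nat_lit 242,
  [⟨V6_19513479168, [(nat_lit 14, nat_lit 22768263168), (nat_lit 14, nat_lit 23842000896), (nat_lit 105, nat_lit 23825227776), (nat_lit 58, nat_lit 24898965504), (nat_lit 124, nat_lit 24882192384), (nat_lit 25, nat_lit 25955930112)]⟩,
   ⟨V6_18456514560, [(nat_lit 110, nat_lit 22768263168), (nat_lit 107, nat_lit 23842000896), (nat_lit 58, nat_lit 23825227776), (nat_lit 32, nat_lit 24898965504)]⟩,
   ⟨V6_18456256512, [(nat_lit 36, nat_lit 22768263168), (nat_lit 9, nat_lit 23841742848), (nat_lit 75, nat_lit 23825227776), (nat_lit 13, nat_lit 24898707456)]⟩,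
   ⟨V6_17399549952, [(nat_lit 1, nat_lit 22768263168), (nat_lit 60, nat_lit 23842000896)]⟩],
  [W_22750429184, W_22733914112, W_22684368896, W_22667595776, W_22667337728, W_22650822656, W_21676949504, W_21627404288, W_20586696704, W_20569923584, W_20536893440, W_19546247168, W_19529732096, W_18472767488]⟩
theorem C_22768263168 : chkRec R_22768263168 = true := by decide +kernel

noncomputable def R_22768521216 : Rec := ⟨nat_lit 22768521216, nat_lit 178,
  [⟨V6_19496964096, [(nat_lit 26, nat_lit 22768521216), (nat_lit 4, nat_lit 23825485824), (nat_lit 9, nat_lit 24882450432), (nat_lit 125, nat_lit 25939415040)]⟩,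
   ⟨V6_18456772608, [(nat_lit 76, nat_lit 22768521216), (nat_lit 118, nat_lit 23842258944), (nat_lit 50, nat_lit 23825485824), (nat_lit 83, nat_lit 24899223552)]⟩,
   ⟨V6_18439999488, [(nat_lit 112, nat_lit 22768521216), (nat_lit 15, nat_lit 23825485824), (nat_lit 19, nat_lit 24882450432)]⟩,
   ⟨V6_17399549952, [(nat_lit 28, nat_lit 22768521216), (nat_lit 79, nat_lit 23842000896)]⟩],
  [W_22750429184, W_22733914112, W_22733656064, W_22684368896, W_22667595776, W_21693464576, W_21693206528, W_21676949504, W_21676691456, W_21660434432, W_21610889216, W_21594116096, W_20619984896, W_20603211776, W_19546247168]⟩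
theorem C_22768521216 : chkRec R_22768521216 = true := by decide +kernel

noncomputable def R_22768779264 : Rec := ⟨nat_lit 22768779264, nat_lit 85,
  [⟨V6_21693726720, [(nat_lit 59, nat_lit 22768779264), (nat_lit 107, nat_lit 23842258944), (nat_lit 110, nat_lit 24915738624), (nat_lit 1, nat_lit 25989218304), (nat_lit 43, nat_lit 27062697984), (nat_lit 71, nat_lit 28136177664)]⟩,
   ⟨V6_20554186752, [(nat_lit 65, nat_lit 22768779264), (nat_lit 72, nat_lit 23825743872), (nat_lit 60, nat_lit 24882708480), (nat_lit 97, nat_lit 25939673088), (nat_lit 123, nat_lit 26996637696)]⟩,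
   ⟨V6_18456772608, [(nat_lit 40, nat_lit 22768779264), (nat_lit 30, nat_lit 23842258944), (nat_lit 19, nat_lit 23825743872), (nat_lit 109, nat_lit 24899223552)]⟩,
   ⟨V6_16326328320, [(nat_lit 81, nat_lit 22768779264)]⟩],
  [W_22684368896, W_21676949504, W_21610889216, W_20619984896, W_20537409536, W_18456510464]⟩
theorem C_22768779264 : chkRec R_22768779264 = true := by decide +kernel

noncomputable def R_22783991937 : Rec := ⟨nat_lit 22783991937, nat_lit 7,
  [⟨V6_18472247424, [(nat_lit 65, nat_lit 22783991937), (nat_lit 100, nat_lit 23857733760), (nat_lit 74, nat_lit 23840956545), (nat_lit 108, nat_lit 24914698368)]⟩],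
  [W_22683328640, W_21643141184]⟩
theorem C_22783991937 : chkRec R_22783991937 = true := by decide +kernel

noncomputable def R_22784254017 : Rec := ⟨nat_lit 22784254017, nat_lit 17,
  [⟨V6_22700105793, [(nat_lit 33, nat_lit 22784254017), (nat_lit 24, nat_lit 23857733697), (nat_lit 81, nat_lit 23841218625), (nat_lit 103, nat_lit 24914698305), (nat_lit 58, nat_lit 24898183233), (nat_lit 78, nat_lit 25971662913), (nat_lit 69, nat_lit 25955147841), (nat_lit 79, nat_lit 27028627521), (nat_lit 46, nat_lit 27012112449), (nat_lit 120, nat_lit 28085592129), (nat_lit 94, nat_lit 28069077057), (nat_lit 64, nat_lit 29142556737)]⟩,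
   ⟨V6_20569661505, [(nat_lit 1, nat_lit 22784254017), (nat_lit 82, nat_lit 23841218625), (nat_lit 79, nat_lit 24898183233), (nat_lit 81, nat_lit 25955147841), (nat_lit 88, nat_lit 27012112449)]⟩,
   ⟨V6_18472505409, [(nat_lit 38, nat_lit 22784254017), (nat_lit 56, nat_lit 23857991745), (nat_lit 121, nat_lit 23841218625), (nat_lit 85, nat_lit 24914956353)]⟩,
   ⟨V6_17415282753, [(nat_lit 25, nat_lit 22784254017), (nat_lit 91, nat_lit 23857733697)]⟩,
   ⟨V6_16341803073, [(nat_lit 44, nat_lit 22784254017)]⟩],
  [W_22700363840, W_20586434624, W_18489020480, W_18472505408]⟩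
theorem C_22784254017 : chkRec R_22784254017 = true := by decide +kernel

noncomputable def R_22784254080 : Rec := ⟨nat_lit 22784254080, nat_lit 40,
  [⟨V6_19562766336, [(nat_lit 10, nat_lit 22784254080), (nat_lit 3, nat_lit 23857995840), (nat_lit 49, nat_lit 23857733760), (nat_lit 67, nat_lit 24931737600), (nat_lit 34, nat_lit 24931475520), (nat_lit 79, nat_lit 26005217280)]⟩,
   ⟨V6_18455732352, [(nat_lit 46, nat_lit 22784254080), (nat_lit 72, nat_lit 23841218688), (nat_lit 109, nat_lit 24898183296)]⟩],
  [W_22716882944, W_22700367872, W_22700105792, W_22683590720, W_22683328640, W_21659918336, W_16341803072]⟩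
theorem C_22784254080 : chkRec R_22784254080 = true := by decide +kernel

noncomputable def R_22784258112 : Rec := ⟨nat_lit 22784258112, nat_lit 42,
  [⟨V6_21643407360, [(nat_lit 11, nat_lit 22784258112), (nat_lit 14, nat_lit 23857999872), (nat_lit 73, nat_lit 23841222720), (nat_lit 105, nat_lit 24914964480), (nat_lit 125, nat_lit 24898187328), (nat_lit 119, nat_lit 25971929088), (nat_lit 49, nat_lit 25955151936), (nat_lit 42, nat_lit 27028893696), (nat_lit 81, nat_lit 27012116544), (nat_lit 99, nat_lit 28085858304)]⟩,
   ⟨V6_20603211840, [(nat_lit 122, nat_lit 22784258112), (nat_lit 105, nat_lit 23857995840), (nat_lit 37, nat_lit 23841222720), (nat_lit 121, nat_lit 24931733568), (nat_lit 28, nat_lit 24914960448), (nat_lit 5, nat_lit 24898187328), (nat_lit 94, nat_lit 25988698176), (nat_lit 113, nat_lit 25971925056), (nat_lit 20, nat_lit 27045662784)]⟩,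
   ⟨V6_19546247232, [(nat_lit 93, nat_lit 22784258112), (nat_lit 78, nat_lit 23857995840), (nat_lit 126, nat_lit 23841222720), (nat_lit 103, nat_lit 24931733568), (nat_lit 51, nat_lit 24914960448), (nat_lit 72, nat_lit 25988698176)]⟩],
  [W_19546247168, W_17415544832, W_17398771712, W_17398767680, W_17381994560, W_16341803072, W_16325029952]⟩
theorem C_22784258112 : chkRec R_22784258112 = true := by decide +kernel

noncomputable def R_22784512065 : Rec := ⟨nat_lit 22784512065, nat_lit 11,
  [⟨V6_19512954945, [(nat_lit 123, nat_lit 22784512065), (nat_lit 49, nat_lit 23841476673), (nat_lit 123, nat_lit 24898441281), (nat_lit 124, nat_lit 25955405889)]⟩,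
   ⟨V6_18472505409, [(nat_lit 3, nat_lit 22784512065), (nat_lit 73, nat_lit 23857991745), (nat_lit 114, nat_lit 23841476673), (nat_lit 1, nat_lit 24914956353)]⟩,
   ⟨V6_17399025729, [(nat_lit 106, nat_lit 22784512065), (nat_lit 7, nat_lit 23841476673)]⟩],
  [W_22700363840, W_22683848768, W_21659914304, W_20619464768]⟩
theorem C_22784512065 : chkRec R_22784512065 = true := by decide +kernel

noncomputable def R_22784516160 : Rec := ⟨nat_lit 22784516160, nat_lit 126,
  [⟨V6_20603473920, [(nat_lit 65, nat_lit 22784516160), (nat_lit 48, nat_lit 23858257920), (nat_lit 7, nat_lit 23858253888), (nat_lit 17, nat_lit 23841480768), (nat_lit 87, nat_lit 24931995648), (nat_lit 72, nat_lit 24915222528), (nat_lit 17, nat_lit 24915218496), (nat_lit 82, nat_lit 24898445376), (nat_lit 96, nat_lit 25988960256), (nat_lit 10, nat_lit 25972187136), (nat_lit 84, nat_lit 25972183104), (nat_lit 88, nat_lit 27045924864)]⟩,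
   ⟨V6_20586700800, [(nat_lit 6, nat_lit 22784516160), (nat_lit 30, nat_lit 23858257920), (nat_lit 19, nat_lit 23841480768), (nat_lit 63, nat_lit 24915222528), (nat_lit 40, nat_lit 24898445376), (nat_lit 48, nat_lit 25972187136), (nat_lit 16, nat_lit 25955409984), (nat_lit 15, nat_lit 27029151744)]⟩,
   ⟨V6_19546247232, [(nat_lit 31, nat_lit 22784516160), (nat_lit 98, nat_lit 23858253888), (nat_lit 70, nat_lit 23857995840), (nat_lit 31, nat_lit 23841480768), (nat_lit 124, nat_lit 24931733568), (nat_lit 21, nat_lit 24915218496), (nat_lit 60, nat_lit 24914960448), (nat_lit 15, nat_lit 25988698176)]⟩],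
  [W_22733656064, W_22716882944, W_22716878912, W_22700367872, W_22683852800, W_22683590720, W_21676691456, W_21659918336, W_19545989120, W_19529211968, W_18489024512, W_18472247360, W_17415544832, W_16342065152, W_16341803072]⟩
theorem C_22784516160 : chkRec R_22784516160 = true := by decide +kernel

noncomputable def R_22784520192 : Rec := ⟨nat_lit 22784520192, nat_lit 119,
  [⟨V6_20620247040, [(nat_lit 123, nat_lit 22784520192), (nat_lit 22, nat_lit 23858257920), (nat_lit 114, nat_lit 23841484800), (nat_lit 13, nat_lit 24931995648), (nat_lit 2, nat_lit 24915222528), (nat_lit 103, nat_lit 26005733376), (nat_lit 72, nat_lit 25988960256), (nat_lit 20, nat_lit 27062697984)]⟩,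
   ⟨V6_19512963072, [(nat_lit 106, nat_lit 22784520192), (nat_lit 35, nat_lit 23841484800), (nat_lit 106, nat_lit 24898449408), (nat_lit 16, nat_lit 25955414016)]⟩,
   ⟨V6_18455998464, [(nat_lit 7, nat_lit 22784520192), (nat_lit 22, nat_lit 23841484800), (nat_lit 58, nat_lit 24898449408)]⟩],
  [W_22733914112, W_21676949504, W_21660434432, W_20619984896, W_19563020288, W_19546247168, W_18489282560, W_17415544832, W_17398771712, W_16342065152, W_16341807104]⟩
theorem C_22784520192 : chkRec R_22784520192 = true := by decide +kernel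

noncomputable def R_22784774208 : Rec := ⟨nat_lit 22784774208, nat_lit 84,
  [⟨V6_20603473920, [(nat_lit 60, nat_lit 22784774208), (nat_lit 25, nat_lit 23858515968), (nat_lit 13, nat_lit 23858253888), (nat_lit 97, nat_lit 23841738816), (nat_lit 60, nat_lit 24931995648), (nat_lit 102, nat_lit 24915480576), (nat_lit 123, nat_lit 24915218496), (nat_lit 83, nat_lit 24898703424), (nat_lit 51, nat_lit 25988960256), (nat_lit 21, nat_lit 25972445184), (nat_lit 22, nat_lit 25972183104), (nat_lit 40, nat_lit 27045924864)]⟩,
   ⟨V6_18456252480, [(nat_lit 2, nat_lit 22784774208), (nat_lit 97, nat_lit 23841738816), (nat_lit 71, nat_lit 24898703424)]⟩],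
  [W_22733656064, W_22717140992, W_22683848768, W_22667333696, W_21693206528, W_21676691456, W_20586696704, W_18489282560]⟩
theorem C_22784774208 : chkRec R_22784774208 = true := by decide +kernel

noncomputable def R_22784778240 : Rec := ⟨nat_lit 22784778240, nat_lit 189,
  [⟨V6_20603473920, [(nat_lit 35, nat_lit 22784778240), (nat_lit 124, nat_lit 23858515968), (nat_lit 24, nat_lit 23858257920), (nat_lit 72, nat_lit 23841742848), (nat_lit 119, nat_lit 24931995648), (nat_lit 36, nat_lit 24915480576), (nat_lit 101, nat_lit 24915222528), (nat_lit 48, nat_lit 24898707456), (nat_lit 20, nat_lit 25988960256), (nat_lit 6, nat_lit 25972445184), (nat_lit 65, nat_lit 25972187136), (nat_lit 51, nat_lit 27045924864)]⟩,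
   ⟨V6_19513221120, [(nat_lit 60, nat_lit 22784778240), (nat_lit 27, nat_lit 23841742848), (nat_lit 60, nat_lit 24898707456), (nat_lit 45, nat_lit 25955672064)]⟩,
   ⟨V6_18456256512, [(nat_lit 89, nat_lit 22784778240), (nat_lit 62, nat_lit 23841742848), (nat_lit 48, nat_lit 24898707456)]⟩],
  [W_22750429184, W_22733914112, W_22667337728, W_21693464576, W_21676691456, W_20586696704, W_19563020288, W_19546247168, W_19529732096, W_18489282560, W_18472767488, W_17416060928, W_15268585472]⟩
theorem C_22784778240 : chkRec R_22784778240 = true := by decide +kernel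

noncomputable def R_22785036288 : Rec := ⟨nat_lit 22785036288, nat_lit 165,
  [⟨V6_20570443776, [(nat_lit 44, nat_lit 22785036288), (nat_lit 52, nat_lit 23842000896), (nat_lit 47, nat_lit 24898965504), (nat_lit 8, nat_lit 25955930112), (nat_lit 62, nat_lit 27012894720)]⟩,
   ⟨V6_19513479168, [(nat_lit 45, nat_lit 22785036288), (nat_lit 52, nat_lit 23842000896), (nat_lit 45, nat_lit 24898965504), (nat_lit 2, nat_lit 25955930112)]⟩,
   ⟨V6_17399549952, [(nat_lit 39, nat_lit 22785036288), (nat_lit 114, nat_lit 23842000896)]⟩],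
  [W_22750429184, W_22733656064, W_22684368896, W_22667595776, W_21693464576, W_21693206528, W_21676949504, W_21676691456, W_21660434432, W_21627404288, W_20636499968, W_20619984896, W_19563020288, W_15268843520]⟩
theorem C_22785036288 : chkRec R_22785036288 = true := by decide +kernel

noncomputable def R_22785294336 : Rec := ⟨nat_lit 22785294336, nat_lit 87,
  [⟨V6_22783721472, [(nat_lit 17, nat_lit 22785294336), (nat_lit 31, nat_lit 23858774016), (nat_lit 15, nat_lit 24932253696), (nat_lit 88, nat_lit 26005733376), (nat_lit 77, nat_lit 27079213056), (nat_lit 13, nat_lit 28152692736), (nat_lit 47, nat_lit 29226172416)]⟩,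
   ⟨V6_21693726720, [(nat_lit 85, nat_lit 22785294336), (nat_lit 55, nat_lit 23858774016), (nat_lit 49, nat_lit 23842258944), (nat_lit 43, nat_lit 24932253696), (nat_lit 43, nat_lit 24915738624), (nat_lit 9, nat_lit 26005733376), (nat_lit 50, nat_lit 25989218304), (nat_lit 53, nat_lit 27079213056), (nat_lit 93, nat_lit 27062697984), (nat_lit 34, nat_lit 28136177664)]⟩,
   ⟨V6_20620247040, [(nat_lit 60, nat_lit 22785294336), (nat_lit 72, nat_lit 23858774016), (nat_lit 72, nat_lit 23842258944), (nat_lit 116, nat_lit 24932253696), (nat_lit 66, nat_lit 24915738624), (nat_lit 87, nat_lit 26005733376), (nat_lit 14, nat_lit 25989218304), (nat_lit 26, nat_lit 27062697984)]⟩,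
   ⟨V6_18456772608, [(nat_lit 43, nat_lit 22785294336), (nat_lit 117, nat_lit 23842258944), (nat_lit 66, nat_lit 24899223552)]⟩],
  [W_22684368896, W_22667853824, W_21676949504, W_21610889216, W_20619984896, W_19563020288, W_17416060928, W_15269101568]⟩
theorem C_22785294336 : chkRec R_22785294336 = true := by decide +kernel

noncomputable def R_22800769089 : Rec := ⟨nat_lit 22800769089, nat_lit 7,
  [⟨V6_19545985089, [(nat_lit 54, nat_lit 22800769089), (nat_lit 53, nat_lit 23874506817), (nat_lit 44, nat_lit 23857733697), (nat_lit 43, nat_lit 24931471425), (nat_lit 126, nat_lit 24914698305), (nat_lit 87, nat_lit 25988436033)]⟩,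
   ⟨V6_18505797696, [(nat_lit 123, nat_lit 22800769089), (nat_lit 51, nat_lit 23874510912), (nat_lit 87, nat_lit 23874506817), (nat_lit 34, nat_lit 24948248640)]⟩,
   ⟨V6_17415282753, [(nat_lit 108, nat_lit 22800769089), (nat_lit 100, nat_lit 23857733697)]⟩],
  [W_22700105792, W_21643141184]⟩
theorem C_22800769089 : chkRec R_22800769089 = true := by decide +kernel

noncomputable def R_22800769152 : Rec := ⟨nat_lit 22800769152, nat_lit 17,
  [⟨V6_19562766336, [(nat_lit 34, nat_lit 22800769152), (nat_lit 58, nat_lit 23874510912), (nat_lit 92, nat_lit 23857733760), (nat_lit 21, nat_lit 24948252672), (nat_lit 30, nat_lit 24931475520), (nat_lit 77, nat_lit 26005217280)]⟩],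
  [W_22716882944, W_22700105792, W_22683328640, W_16341540992]⟩
theorem C_22800769152 : chkRec R_22800769152 = true := by decide +kernel

noncomputable def R_22801027137 : Rec := ⟨nat_lit 22801027137, nat_lit 6,
  [⟨V6_18505797696, [(nat_lit 41, nat_lit 22801027137), (nat_lit 122, nat_lit 23874768960), (nat_lit 75, nat_lit 23874506817), (nat_lit 35, nat_lit 24948248640)]⟩,
   ⟨V6_18472505409, [(nat_lit 12, nat_lit 22801027137), (nat_lit 118, nat_lit 23857991745), (nat_lit 2, nat_lit 24914956353)]⟩],
  [W_22733393984, W_22716878912, W_22700363840]⟩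
theorem C_22801027137 : chkRec R_22801027137 = true := by decide +kernel

noncomputable def R_22801031232 : Rec := ⟨nat_lit 22801031232, nat_lit 62,
  [⟨V6_21676695552, [(nat_lit 58, nat_lit 22801031232), (nat_lit 54, nat_lit 23874772992), (nat_lit 37, nat_lit 23874510912), (nat_lit 96, nat_lit 23857995840), (nat_lit 42, nat_lit 24948252672), (nat_lit 24, nat_lit 24931737600), (nat_lit 81, nat_lit 24931475520), (nat_lit 34, nat_lit 24914960448), (nat_lit 47, nat_lit 26005217280), (nat_lit 17, nat_lit 25988702208), (nat_lit 28, nat_lit 25988440128), (nat_lit 9, nat_lit 25971925056), (nat_lit 125, nat_lit 27062181888), (nat_lit 125, nat_lit 27045666816), (nat_lit 96, nat_lit 27045404736), (nat_lit 124, nat_lit 28119146496)]⟩,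
   ⟨V6_20603211840, [(nat_lit 122, nat_lit 22801031232), (nat_lit 9, nat_lit 23874768960), (nat_lit 10, nat_lit 23857995840), (nat_lit 8, nat_lit 24931733568), (nat_lit 11, nat_lit 24914960448), (nat_lit 118, nat_lit 25988698176), (nat_lit 106, nat_lit 25971925056), (nat_lit 88, nat_lit 27045662784)]⟩,
   ⟨V6_19546247232, [(nat_lit 52, nat_lit 22801031232), (nat_lit 4, nat_lit 23874768960), (nat_lit 80, nat_lit 23857995840), (nat_lit 32, nat_lit 24931733568), (nat_lit 79, nat_lit 24914960448), (nat_lit 112, nat_lit 25988698176)]⟩,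
   ⟨V6_18505797696, [(nat_lit 114, nat_lit 22801031232), (nat_lit 110, nat_lit 23874768960), (nat_lit 33, nat_lit 23874510912), (nat_lit 38, nat_lit 24948248640)]⟩],
  [W_22733656064, W_22716882944, W_22700367872, W_20586438656, W_17415544832, W_16358580224]⟩
theorem C_22801031232 : chkRec R_22801031232 = true := by decide +kernel

noncomputable def R_22801035264 : Rec := ⟨nat_lit 22801035264, nat_lit 44,
  [⟨V6_21693726720, [(nat_lit 48, nat_lit 22801035264), (nat_lit 122, nat_lit 23874772992), (nat_lit 94, nat_lit 23857999872), (nat_lit 15, nat_lit 24948510720), (nat_lit 58, nat_lit 24931737600), (nat_lit 120, nat_lit 24914964480), (nat_lit 37, nat_lit 26022248448), (nat_lit 35, nat_lit 26005475328), (nat_lit 5, nat_lit 25988702208), (nat_lit 88, nat_lit 27079213056), (nat_lit 74, nat_lit 27062439936), (nat_lit 56, nat_lit 28136177664)]⟩,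
   ⟨V6_21643407360, [(nat_lit 86, nat_lit 22801035264), (nat_lit 122, nat_lit 23857999872), (nat_lit 36, nat_lit 24914964480), (nat_lit 22, nat_lit 25971929088), (nat_lit 118, nat_lit 27028893696), (nat_lit 65, nat_lit 28085858304)]⟩,
   ⟨V6_16358584320, [(nat_lit 69, nat_lit 22801035264)]⟩],
  [W_19546247168, W_18489282560, W_17432317952, W_17415544832, W_16358580224]⟩
theorem C_22801035264 : chkRec R_22801035264 = true := by decide +kernel

noncomputable def R_22801289280 : Rec := ⟨nat_lit 22801289280, nat_lit 58,
  [⟨V6_20603473920, [(nat_lit 63, nat_lit 22801289280), (nat_lit 67, nat_lit 23875031040), (nat_lit 15, nat_lit 23858253888), (nat_lit 60, nat_lit 24931995648), (nat_lit 37, nat_lit 24915218496), (nat_lit 42, nat_lit 25988960256), (nat_lit 124, nat_lit 25972183104), (nat_lit 53, nat_lit 27045924864)]⟩,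
   ⟨V6_18505797696, [(nat_lit 34, nat_lit 22801289280), (nat_lit 76, nat_lit 23874768960), (nat_lit 92, nat_lit 24948248640)]⟩],
  [W_22733656064, W_22717140992, W_22716878912, W_21676691456, W_17415802880, W_16358838272, W_16358576192]⟩
theorem C_22801289280 : chkRec R_22801289280 = true := by decide +kernel

noncomputable def R_22801293312 : Rec := ⟨nat_lit 22801293312, nat_lit 128,
  [⟨V6_20603473920, [(nat_lit 99, nat_lit 22801293312), (nat_lit 25, nat_lit 23875031040), (nat_lit 56, nat_lit 23858257920), (nat_lit 121, nat_lit 24931995648), (nat_lit 87, nat_lit 24915222528), (nat_lit 102, nat_lit 25988960256), (nat_lit 111, nat_lit 25972187136), (nat_lit 61, nat_lit 27045924864)]⟩,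
   ⟨V6_20586700800, [(nat_lit 113, nat_lit 22801293312), (nat_lit 35, nat_lit 23858257920), (nat_lit 92, nat_lit 24915222528), (nat_lit 101, nat_lit 25972187136), (nat_lit 74, nat_lit 27029151744)]⟩,
   ⟨V6_16358842368, [(nat_lit 19, nat_lit 22801293312)]⟩],
  [W_22750429184, W_22733914112, W_22733656064, W_22716882944, W_22683852800, W_21693464576, W_21676949504, W_20636499968, W_19579535360, W_19563020288, W_18489024512, W_16358580224]⟩
theorem C_22801293312 : chkRec R_22801293312 = true := by decide +kernel

noncomputable def R_22801551360 : Rec := ⟨nat_lit 22801551360, nat_lit 123,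
  [⟨V6_22766948352, [(nat_lit 24, nat_lit 22801551360), (nat_lit 117, nat_lit 23875031040), (nat_lit 12, nat_lit 23858515968), (nat_lit 123, nat_lit 24948510720), (nat_lit 32, nat_lit 24931995648), (nat_lit 1, nat_lit 24915480576), (nat_lit 120, nat_lit 26021990400), (nat_lit 39, nat_lit 26005475328), (nat_lit 57, nat_lit 25988960256), (nat_lit 114, nat_lit 27095470080), (nat_lit 25, nat_lit 27078955008), (nat_lit 38, nat_lit 27062439936), (nat_lit 89, nat_lit 28152434688), (nat_lit 102, nat_lit 28135919616), (nat_lit 73, nat_lit 29209399296)]⟩,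
   ⟨V6_22717661184, [(nat_lit 91, nat_lit 22801551360), (nat_lit 115, nat_lit 23875289088), (nat_lit 84, nat_lit 23858515968), (nat_lit 56, nat_lit 24932253696), (nat_lit 106, nat_lit 24915480576), (nat_lit 105, nat_lit 25989218304), (nat_lit 52, nat_lit 25972445184), (nat_lit 35, nat_lit 27046182912), (nat_lit 90, nat_lit 27029409792), (nat_lit 53, nat_lit 28103147520), (nat_lit 125, nat_lit 28086374400), (nat_lit 91, nat_lit 29160112128)]⟩,
   ⟨V6_20620247040, [(nat_lit 6, nat_lit 22801551360), (nat_lit 63, nat_lit 23875289088), (nat_lit 84, nat_lit 23875031040), (nat_lit 88, nat_lit 23858515968), (nat_lit 125, nat_lit 24948768768), (nat_lit 70, nat_lit 24932253696), (nat_lit 40, nat_lit 24931995648), (nat_lit 105, nat_lit 24915480576), (nat_lit 113, nat_lit 26005733376), (nat_lit 36, nat_lit 25989218304), (nat_lit 72, nat_lit 25988960256), (nat_lit 62, nat_lit 27062697984)]⟩,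
   ⟨V6_20603473920, [(nat_lit 6, nat_lit 22801551360), (nat_lit 34, nat_lit 23875031040), (nat_lit 57, nat_lit 23858515968), (nat_lit 41, nat_lit 24931995648), (nat_lit 9, nat_lit 24915480576), (nat_lit 59, nat_lit 25988960256), (nat_lit 40, nat_lit 25972445184), (nat_lit 75, nat_lit 27045924864)]⟩],
  [W_20586696704, W_19563020288, W_19546247168, W_19529732096, W_18489282560, W_18472767488, W_17416060928, W_16358838272]⟩
theorem C_22801551360 : chkRec R_22801551360 = true := by decide +kernel

noncomputable def R_22801809408 : Rec := ⟨nat_lit 22801809408, nat_lit 79,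
  [⟨V6_22800236544, [(nat_lit 91, nat_lit 22801809408), (nat_lit 77, nat_lit 23875289088), (nat_lit 85, nat_lit 24948768768), (nat_lit 104, nat_lit 26022248448), (nat_lit 89, nat_lit 27095728128), (nat_lit 63, nat_lit 28169207808), (nat_lit 1, nat_lit 29242687488)]⟩,
   ⟨V6_22783721472, [(nat_lit 120, nat_lit 22801809408), (nat_lit 125, nat_lit 23875289088), (nat_lit 33, nat_lit 23858774016), (nat_lit 111, nat_lit 24948768768), (nat_lit 70, nat_lit 24932253696), (nat_lit 124, nat_lit 26022248448), (nat_lit 99, nat_lit 26005733376), (nat_lit 39, nat_lit 27095728128), (nat_lit 48, nat_lit 27079213056), (nat_lit 41, nat_lit 28169207808), (nat_lit 98, nat_lit 28152692736), (nat_lit 110, nat_lit 29226172416)]⟩,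
   ⟨V6_22717661184, [(nat_lit 5, nat_lit 22801809408), (nat_lit 107, nat_lit 23875289088), (nat_lit 95, nat_lit 23858774016), (nat_lit 69, nat_lit 24932253696), (nat_lit 93, nat_lit 24915738624), (nat_lit 116, nat_lit 25989218304), (nat_lit 63, nat_lit 25972703232), (nat_lit 73, nat_lit 27046182912), (nat_lit 25, nat_lit 27029667840), (nat_lit 121, nat_lit 28103147520), (nat_lit 7, nat_lit 28086632448), (nat_lit 108, nat_lit 29160112128)]⟩,
   ⟨V6_20620247040, [(nat_lit 80, nat_lit 22801809408), (nat_lit 105, nat_lit 23875289088), (nat_lit 7, nat_lit 23858774016), (nat_lit 41, nat_lit 24948768768), (nat_lit 118, nat_lit 24932253696), (nat_lit 63, nat_lit 24915738624), (nat_lit 82, nat_lit 26005733376), (nat_lit 18, nat_lit 25989218304), (nat_lit 114, nat_lit 27062697984)]⟩,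
   ⟨V6_16359358464, [(nat_lit 25, nat_lit 22801809408)]⟩],
  [W_21676949504, W_20619984896, W_19563020288, W_18456510464, W_17432576000, W_17416060928]⟩
theorem C_22801809408 : chkRec R_22801809408 = true := by decide +kernel

noncomputable def R_22817542209 : Rec := ⟨nat_lit 22817542209, nat_lit 2,
  [⟨V6_19545985089, [(nat_lit 46, nat_lit 22817542209), (nat_lit 86, nat_lit 23874506817), (nat_lit 84, nat_lit 24931471425), (nat_lit 55, nat_lit 25988436033)]⟩,
   ⟨V6_17448570945, [(nat_lit 75, nat_lit 22817542209), (nat_lit 84, nat_lit 23891021889)]⟩],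
  [W_22733393984, W_22716878912]⟩
theorem C_22817542209 : chkRec R_22817542209 = true := by decide +kernel

noncomputable def R_22817546304 : Rec := ⟨nat_lit 22817546304, nat_lit 25,
  [⟨V6_19562766336, [(nat_lit 77, nat_lit 22817546304), (nat_lit 122, nat_lit 23891288064), (nat_lit 15, nat_lit 23874510912), (nat_lit 123, nat_lit 24948252672), (nat_lit 67, nat_lit 24931475520), (nat_lit 9, nat_lit 26005217280)]⟩,
   ⟨V6_17448837120, [(nat_lit 15, nat_lit 22817546304), (nat_lit 14, nat_lit 23891288064)]⟩],
  [W_22733656064, W_22716882944, W_22716878912, W_22700105792]⟩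
theorem C_22817546304 : chkRec R_22817546304 = true := by decide +kernel

noncomputable def R_22817804352 : Rec := ⟨nat_lit 22817804352, nat_lit 29,
  [⟨V6_19579277376, [(nat_lit 4, nat_lit 22817804352), (nat_lit 32, nat_lit 23891284032), (nat_lit 11, nat_lit 23874768960), (nat_lit 94, nat_lit 24964763712), (nat_lit 37, nat_lit 24948248640), (nat_lit 54, nat_lit 26021728320)]⟩,
   ⟨V6_19546247232, [(nat_lit 95, nat_lit 22817804352), (nat_lit 23, nat_lit 23874768960), (nat_lit 52, nat_lit 24931733568), (nat_lit 28, nat_lit 25988698176)]⟩,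
   ⟨V6_18522574848, [(nat_lit 101, nat_lit 22817804352), (nat_lit 41, nat_lit 23891546112), (nat_lit 55, nat_lit 23891284032), (nat_lit 41, nat_lit 24965025792)]⟩,
   ⟨V6_18505797696, [(nat_lit 114, nat_lit 22817804352), (nat_lit 93, nat_lit 23891284032), (nat_lit 61, nat_lit 23874768960), (nat_lit 30, nat_lit 24948248640)]⟩],
  [W_22733656064, W_21693206528, W_20636241920, W_19579277312, W_17448833024, W_17432317952]⟩
theorem C_22817804352 : chkRec R_22817804352 = true := by decide +kernel

noncomputable def R_22817808384 : Rec := ⟨nat_lit 22817808384, nat_lit 65,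
  [⟨V6_21693726720, [(nat_lit 83, nat_lit 22817808384), (nat_lit 57, nat_lit 23891546112), (nat_lit 97, nat_lit 23874772992), (nat_lit 70, nat_lit 24965283840), (nat_lit 20, nat_lit 24948510720), (nat_lit 89, nat_lit 24931737600), (nat_lit 84, nat_lit 26022248448), (nat_lit 64, nat_lit 26005475328), (nat_lit 63, nat_lit 25988702208), (nat_lit 55, nat_lit 27079213056), (nat_lit 4, nat_lit 27062439936), (nat_lit 2, nat_lit 28136177664)]⟩,
   ⟨V6_21676695552, [(nat_lit 93, nat_lit 22817808384), (nat_lit 98, nat_lit 23891288064), (nat_lit 3, nat_lit 23874772992), (nat_lit 99, nat_lit 24948252672), (nat_lit 33, nat_lit 24931737600), (nat_lit 50, nat_lit 26005217280), (nat_lit 92, nat_lit 25988702208), (nat_lit 100, nat_lit 27062181888), (nat_lit 100, nat_lit 27045666816), (nat_lit 105, nat_lit 28119146496)]⟩,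
   ⟨V6_18522832896, [(nat_lit 18, nat_lit 22817808384), (nat_lit 16, nat_lit 23891546112), (nat_lit 36, nat_lit 24965283840)]⟩,
   ⟨V6_18522574848, [(nat_lit 64, nat_lit 22817808384), (nat_lit 113, nat_lit 23891546112), (nat_lit 72, nat_lit 23891288064), (nat_lit 106, nat_lit 24965025792)]⟩,
   ⟨V6_17448837120, [(nat_lit 84, nat_lit 22817808384), (nat_lit 67, nat_lit 23891288064)]⟩],
  [W_22716882944, W_22700367872, W_20586438656, W_19529474048, W_17449091072, W_17448833024, W_17415544832]⟩
theorem C_22817808384 : chkRec R_22817808384 = true := by decide +kernel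

noncomputable def R_22818066432 : Rec := ⟨nat_lit 22818066432, nat_lit 86,
  [⟨V6_20620247040, [(nat_lit 25, nat_lit 22818066432), (nat_lit 10, nat_lit 23891804160), (nat_lit 40, nat_lit 23875031040), (nat_lit 9, nat_lit 24948768768), (nat_lit 29, nat_lit 24931995648), (nat_lit 121, nat_lit 26005733376), (nat_lit 11, nat_lit 25988960256), (nat_lit 74, nat_lit 27062697984)]⟩,
   ⟨V6_20603473920, [(nat_lit 67, nat_lit 22818066432), (nat_lit 119, nat_lit 23875031040), (nat_lit 71, nat_lit 24931995648), (nat_lit 39, nat_lit 25988960256), (nat_lit 117, nat_lit 27045924864)]⟩,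
   ⟨V6_17449353216, [(nat_lit 61, nat_lit 22818066432), (nat_lit 113, nat_lit 23891804160)]⟩],
  [W_22766944256, W_22750429184, W_22733914112, W_22733656064, W_21676949504, W_21660434432, W_20653015040, W_17449091072, W_17448833024]⟩
theorem C_22818066432 : chkRec R_22818066432 = true := by decide +kernel

noncomputable def R_22818324480 : Rec := ⟨nat_lit 22818324480, nat_lit 60,
  [⟨V6_22800236544, [(nat_lit 38, nat_lit 22818324480), (nat_lit 89, nat_lit 23891804160), (nat_lit 99, nat_lit 23875289088), (nat_lit 94, nat_lit 24965283840), (nat_lit 125, nat_lit 24948768768), (nat_lit 24, nat_lit 26038763520), (nat_lit 38, nat_lit 26022248448), (nat_lit 114, nat_lit 27112243200), (nat_lit 65, nat_lit 27095728128), (nat_lit 61, nat_lit 28185722880), (nat_lit 18, nat_lit 28169207808), (nat_lit 46, nat_lit 29242687488)]⟩,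
   ⟨V6_22717661184, [(nat_lit 5, nat_lit 22818324480), (nat_lit 65, nat_lit 23875289088), (nat_lit 88, nat_lit 24932253696), (nat_lit 18, nat_lit 25989218304), (nat_lit 45, nat_lit 27046182912), (nat_lit 76, nat_lit 28103147520), (nat_lit 66, nat_lit 29160112128)]⟩,
   ⟨V6_21726756864, [(nat_lit 39, nat_lit 22818324480), (nat_lit 106, nat_lit 23891804160), (nat_lit 108, nat_lit 23875289088), (nat_lit 118, nat_lit 24965283840), (nat_lit 53, nat_lit 24948768768), (nat_lit 18, nat_lit 26038763520), (nat_lit 110, nat_lit 26022248448), (nat_lit 77, nat_lit 27112243200), (nat_lit 98, nat_lit 27095728128), (nat_lit 52, nat_lit 28169207808)]⟩,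
   ⟨V6_18522832896, [(nat_lit 82, nat_lit 22818324480), (nat_lit 73, nat_lit 23891804160), (nat_lit 52, nat_lit 24965283840)]⟩,
   ⟨V6_17449353216, [(nat_lit 124, nat_lit 22818324480), (nat_lit 109, nat_lit 23891804160)]⟩],
  [W_21676949504, W_19579535360, W_19563020288, W_18522570752, W_17449091072, W_17432576000, W_17416060928]⟩
theorem C_22818324480 : chkRec R_22818324480 = true := by decide +kernel

noncomputable def R_22834319424 : Rec := ⟨nat_lit 22834319424, nat_lit 12,
  [⟨V6_18522574848, [(nat_lit 75, nat_lit 22834319424), (nat_lit 10, nat_lit 23908061184), (nat_lit 47, nat_lit 23891284032), (nat_lit 10, nat_lit 24965025792)]⟩,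
   ⟨V6_18505797696, [(nat_lit 71, nat_lit 22834319424), (nat_lit 61, nat_lit 23891284032), (nat_lit 82, nat_lit 24948248640)]⟩],
  [W_22733656064, W_22733393984, W_22716878912]⟩
theorem C_22834319424 : chkRec R_22834319424 = true := by decide +kernel

noncomputable def R_22834323456 : Rec := ⟨nat_lit 22834323456, nat_lit 25,
  [⟨V6_19562766336, [(nat_lit 48, nat_lit 22834323456), (nat_lit 79, nat_lit 23891288064), (nat_lit 75, nat_lit 24948252672), (nat_lit 51, nat_lit 26005217280)]⟩,
   ⟨V6_18522574848, [(nat_lit 30, nat_lit 22834323456), (nat_lit 25, nat_lit 23908061184), (nat_lit 47, nat_lit 23891288064), (nat_lit 26, nat_lit 24965025792)]⟩],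
  [W_22750429184, W_22716882944, W_18522570752]⟩
theorem C_22834323456 : chkRec R_22834323456 = true := by decide +kernel

noncomputable def R_22834581504 : Rec := ⟨nat_lit 22834581504, nat_lit 46,
  [⟨V6_21693726720, [(nat_lit 50, nat_lit 22834581504), (nat_lit 89, nat_lit 23908319232), (nat_lit 38, nat_lit 23891546112), (nat_lit 55, nat_lit 24965283840), (nat_lit 38, nat_lit 24948510720), (nat_lit 23, nat_lit 26022248448), (nat_lit 83, nat_lit 26005475328), (nat_lit 47, nat_lit 27079213056), (nat_lit 27, nat_lit 27062439936), (nat_lit 59, nat_lit 28136177664)]⟩,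
   ⟨V6_19596312576, [(nat_lit 4, nat_lit 22834581504), (nat_lit 81, nat_lit 23908319232), (nat_lit 59, nat_lit 23908061184), (nat_lit 17, nat_lit 23891546112), (nat_lit 86, nat_lit 24981798912), (nat_lit 98, nat_lit 24965283840), (nat_lit 72, nat_lit 24965025792), (nat_lit 71, nat_lit 26038763520)]⟩,
   ⟨V6_18522832896, [(nat_lit 53, nat_lit 22834581504), (nat_lit 3, nat_lit 23908319232), (nat_lit 53, nat_lit 23891546112), (nat_lit 119, nat_lit 24965283840)]⟩,
   ⟨V6_18522574848, [(nat_lit 116, nat_lit 22834581504), (nat_lit 5, nat_lit 23908061184), (nat_lit 33, nat_lit 23891546112), (nat_lit 49, nat_lit 24965025792)]⟩],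
  [W_21676949504, W_21676691456, W_20603211776]⟩
theorem C_22834581504 : chkRec R_22834581504 = true := by decide +kernel

noncomputable def R_22834839552 : Rec := ⟨nat_lit 22834839552, nat_lit 38,
  [⟨V6_20620247040, [(nat_lit 121, nat_lit 22834839552), (nat_lit 12, nat_lit 23891804160), (nat_lit 26, nat_lit 24948768768), (nat_lit 95, nat_lit 26005733376), (nat_lit 90, nat_lit 27062697984)]⟩,
   ⟨V6_19612827648, [(nat_lit 7, nat_lit 22834839552), (nat_lit 34, nat_lit 23908319232), (nat_lit 39, nat_lit 24981798912), (nat_lit 24, nat_lit 26055278592)]⟩,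
   ⟨V6_18522832896, [(nat_lit 13, nat_lit 22834839552), (nat_lit 93, nat_lit 23908319232), (nat_lit 102, nat_lit 23891804160), (nat_lit 81, nat_lit 24965283840)]⟩],
  [W_22750429184, W_22717399040, W_21726494720, W_19612565504]⟩
theorem C_22834839552 : chkRec R_22834839552 = true := by decide +kernel

noncomputable def R_22850834496 : Rec := ⟨nat_lit 22850834496, nat_lit 2,
  [⟨V6_20653019136, [(nat_lit 59, nat_lit 22850834496), (nat_lit 123, nat_lit 23924576256), (nat_lit 106, nat_lit 23907799104), (nat_lit 112, nat_lit 24981540864), (nat_lit 118, nat_lit 24964763712), (nat_lit 82, nat_lit 26038505472), (nat_lit 26, nat_lit 26021728320), (nat_lit 119, nat_lit 27095470080)]⟩],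
  [W_22750171136, W_22733393984]⟩
theorem C_22850834496 : chkRec R_22850834496 = true := by decide +kernel

noncomputable def R_22851096576 : Rec := ⟨nat_lit 22851096576, nat_lit 20,
  [⟨V6_21693468672, [(nat_lit 49, nat_lit 22851096576), (nat_lit 107, nat_lit 23908061184), (nat_lit 69, nat_lit 24965025792), (nat_lit 114, nat_lit 26021990400), (nat_lit 116, nat_lit 27078955008), (nat_lit 13, nat_lit 28135919616)]⟩,
   ⟨V6_19596312576, [(nat_lit 126, nat_lit 22851096576), (nat_lit 13, nat_lit 23924834304), (nat_lit 94, nat_lit 23908061184), (nat_lit 82, nat_lit 24981798912), (nat_lit 94, nat_lit 24965025792), (nat_lit 120, nat_lit 26038763520)]⟩],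
  [W_22766944256, W_21709979648, W_20653015040, W_19579535360]⟩
theorem C_22851096576 : chkRec R_22851096576 = true := by decide +kernel

noncomputable def R_22851354624 : Rec := ⟨nat_lit 22851354624, nat_lit 24,
  [⟨V6_21693726720, [(nat_lit 45, nat_lit 22851354624), (nat_lit 119, nat_lit 23908319232), (nat_lit 53, nat_lit 24965283840), (nat_lit 71, nat_lit 26022248448), (nat_lit 21, nat_lit 27079213056), (nat_lit 56, nat_lit 28136177664)]⟩,
   ⟨V6_19629342720, [(nat_lit 38, nat_lit 22851354624), (nat_lit 71, nat_lit 23924834304), (nat_lit 92, nat_lit 24998313984), (nat_lit 17, nat_lit 26071793664)]⟩,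
   ⟨V6_19612827648, [(nat_lit 34, nat_lit 22851354624), (nat_lit 89, nat_lit 23924834304), (nat_lit 113, nat_lit 23908319232), (nat_lit 71, nat_lit 24998313984), (nat_lit 106, nat_lit 24981798912), (nat_lit 11, nat_lit 26055278592)]⟩],
  [W_22733914112, W_20636499968]⟩
theorem C_22851354624 : chkRec R_22851354624 = true := by decide +kernel

noncomputable def R_22867611648 : Rec := ⟨nat_lit 22867611648, nat_lit 5,
  [⟨V6_22766948352, [(nat_lit 31, nat_lit 22867611648), (nat_lit 51, nat_lit 23924576256), (nat_lit 25, nat_lit 24981540864), (nat_lit 71, nat_lit 26038505472), (nat_lit 36, nat_lit 27095470080), (nat_lit 89, nat_lit 28152434688), (nat_lit 95, nat_lit 29209399296)]⟩],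
  [W_21709979648]⟩
theorem C_22867611648 : chkRec R_22867611648 = true := by decide +kernel

noncomputable def R_22867869696 : Rec := ⟨nat_lit 22867869696, nat_lit 10,
  [⟨V6_22783721472, [(nat_lit 6, nat_lit 22867869696), (nat_lit 94, nat_lit 23941349376), (nat_lit 8, nat_lit 23924834304), (nat_lit 75, nat_lit 24998313984), (nat_lit 100, nat_lit 24981798912), (nat_lit 63, nat_lit 26055278592), (nat_lit 12, nat_lit 26038763520), (nat_lit 71, nat_lit 27112243200), (nat_lit 107, nat_lit 27095728128), (nat_lit 62, nat_lit 28169207808), (nat_lit 99, nat_lit 28152692736), (nat_lit 44, nat_lit 29226172416)]⟩,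
   ⟨V6_21726756864, [(nat_lit 103, nat_lit 22867869696), (nat_lit 67, nat_lit 23941349376), (nat_lit 93, nat_lit 23924834304), (nat_lit 15, nat_lit 24998313984), (nat_lit 7, nat_lit 24981798912), (nat_lit 69, nat_lit 26055278592), (nat_lit 99, nat_lit 26038763520), (nat_lit 83, nat_lit 27112243200), (nat_lit 90, nat_lit 27095728128), (nat_lit 46, nat_lit 28169207808)]⟩],
  [W_20636499968]⟩
theorem C_22867869696 : chkRec R_22867869696 = true := by decide +kernel

noncomputable def R_22884384768 : Rec := ⟨nat_lit 22884384768, nat_lit 3,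
  [⟨V6_21726756864, [(nat_lit 4, nat_lit 22884384768), (nat_lit 78, nat_lit 23941349376), (nat_lit 49, nat_lit 24998313984), (nat_lit 123, nat_lit 26055278592), (nat_lit 86, nat_lit 27112243200), (nat_lit 24, nat_lit 28169207808)]⟩],
  [W_21726494720]⟩
theorem C_22884384768 : chkRec R_22884384768 = true := by decide +kernel

noncomputable def R_23690494212 : Rec := ⟨nat_lit 23690494212, nat_lit 1,
  [⟨V6_17248043268, [(nat_lit 113, nat_lit 23690494212)]⟩],
  [W_20469268736]⟩
theorem C_23690494212 : chkRec R_23690494212 = true := by decide +kernel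

noncomputable def R_23724048642 : Rec := ⟨nat_lit 23724048642, nat_lit 2,
  [⟨V6_20469268737, [(nat_lit 102, nat_lit 23724048642), (nat_lit 116, nat_lit 24797790465), (nat_lit 12, nat_lit 24781013250), (nat_lit 76, nat_lit 25854755073), (nat_lit 7, nat_lit 25837977858), (nat_lit 92, nat_lit 26911719681)]⟩,
   ⟨V6_19395526914, [(nat_lit 69, nat_lit 23724048642), (nat_lit 112, nat_lit 24781013250), (nat_lit 59, nat_lit 25837977858)]⟩],
  [W_20502823040]⟩
theorem C_23724048642 : chkRec R_23724048642 = true := by decide +kernel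

noncomputable def R_23724310722 : Rec := ⟨nat_lit 23724310722, nat_lit 1,
  [⟨V6_20502823104, [(nat_lit 124, nat_lit 23724310722), (nat_lit 14, nat_lit 24798052545), (nat_lit 54, nat_lit 24797790402), (nat_lit 9, nat_lit 25871794368), (nat_lit 71, nat_lit 25871532225), (nat_lit 122, nat_lit 26945274048)]⟩],
  [W_21559787648]⟩
theorem C_23724310722 : chkRec R_23724310722 = true := by decide +kernel

noncomputable def R_23724310785 : Rec := ⟨nat_lit 23724310785, nat_lit 2,
  [⟨V6_20503085121, [(nat_lit 111, nat_lit 23724310785), (nat_lit 1, nat_lit 24798052545), (nat_lit 105, nat_lit 25871794305), (nat_lit 123, nat_lit 26945536065)]⟩],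
  [W_21576564800]⟩
theorem C_23724310785 : chkRec R_23724310785 = true := by decide +kernel

noncomputable def R_23724314817 : Rec := ⟨nat_lit 23724314817, nat_lit 1,
  [⟨V6_19429347393, [(nat_lit 85, nat_lit 23724314817), (nat_lit 3, nat_lit 24798056577), (nat_lit 75, nat_lit 25871798337)]⟩],
  [W_22633787456]⟩
theorem C_23724314817 : chkRec R_23724314817 = true := by decide +kernel

noncomputable def R_23724572802 : Rec := ⟨nat_lit 23724572802, nat_lit 5,
  [⟨V6_21576560769, [(nat_lit 68, nat_lit 23724572802), (nat_lit 55, nat_lit 24798314625), (nat_lit 116, nat_lit 24798310530), (nat_lit 125, nat_lit 24798052482), (nat_lit 120, nat_lit 25872052353), (nat_lit 75, nat_lit 25871794305), (nat_lit 69, nat_lit 25871790210), (nat_lit 38, nat_lit 25871532162), (nat_lit 34, nat_lit 26945532033), (nat_lit 22, nat_lit 26945273985), (nat_lit 30, nat_lit 26945269890), (nat_lit 72, nat_lit 28019011713)]⟩,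
   ⟨V6_21576556674, [(nat_lit 27, nat_lit 23724572802), (nat_lit 123, nat_lit 24798310530), (nat_lit 98, nat_lit 24798052482), (nat_lit 34, nat_lit 25872048258), (nat_lit 26, nat_lit 25871790210), (nat_lit 31, nat_lit 25871532162), (nat_lit 86, nat_lit 26945527938), (nat_lit 106, nat_lit 26945269890), (nat_lit 11, nat_lit 28019007618)]⟩],
  [W_20503339136, W_18355863680]⟩
theorem C_23724572802 : chkRec R_23724572802 = true := by decide +kernel

noncomputable def R_23724572865 : Rec := ⟨nat_lit 23724572865, nat_lit 4,
  [⟨V6_20503343169, [(nat_lit 60, nat_lit 23724572865), (nat_lit 77, nat_lit 24798314625), (nat_lit 75, nat_lit 24798310593), (nat_lit 14, nat_lit 25872056385), (nat_lit 86, nat_lit 25872052353), (nat_lit 58, nat_lit 26945794113)]⟩,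
   ⟨V6_19429601472, [(nat_lit 68, nat_lit 23724572865), (nat_lit 14, nat_lit 24798314688), (nat_lit 27, nat_lit 24798310593), (nat_lit 24, nat_lit 25872052416)]⟩],
  [W_22650302528, W_21576564800]⟩
theorem C_23724572865 : chkRec R_23724572865 = true := by decide +kernel

noncomputable def R_23724572928 : Rec := ⟨nat_lit 23724572928, nat_lit 8,
  [⟨V6_21577089024, [(nat_lit 1, nat_lit 23724572928), (nat_lit 118, nat_lit 24798314688), (nat_lit 115, nat_lit 25872056448), (nat_lit 68, nat_lit 26945798208), (nat_lit 68, nat_lit 28019539968)]⟩],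
  [W_22650306560, W_21576564800, W_16208380160]⟩
theorem C_23724572928 : chkRec R_23724572928 = true := by decide +kernel

noncomputable def R_23724576897 : Rec := ⟨nat_lit 23724576897, nat_lit 5,
  [⟨V6_17282125953, [(nat_lit 29, nat_lit 23724576897)]⟩],
  [W_22650560576, W_21577080896]⟩
theorem C_23724576897 : chkRec R_23724576897 = true := by decide +kernel

noncomputable def R_23724576960 : Rec := ⟨nat_lit 23724576960, nat_lit 6,
  [⟨V6_17282126016, [(nat_lit 125, nat_lit 23724576960)]⟩],
  [W_22650564608, W_21576826880]⟩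
theorem C_23724576960 : chkRec R_23724576960 = true := by decide +kernel

noncomputable def R_23724580929 : Rec := ⟨nat_lit 23724580929, nat_lit 1,
  [⟨V6_17282129985, [(nat_lit 44, nat_lit 23724580929)]⟩],
  [W_21577080896]⟩
theorem C_23724580929 : chkRec R_23724580929 = true := by decide +kernel

noncomputable def R_23724580992 : Rec := ⟨nat_lit 23724580992, nat_lit 12,
  [⟨V6_19429613568, [(nat_lit 68, nat_lit 23724580992), (nat_lit 69, nat_lit 24798322752), (nat_lit 126, nat_lit 25872064512)]⟩,
   ⟨V6_18355871808, [(nat_lit 126, nat_lit 23724580992), (nat_lit 16, nat_lit 24798322752)]⟩],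
  [W_22650822656, W_20503339136, W_19429601408]⟩
theorem C_23724580992 : chkRec R_23724580992 = true := by decide +kernel

noncomputable def R_23740825794 : Rec := ⟨nat_lit 23740825794, nat_lit 2,
  [⟨V6_21559787649, [(nat_lit 13, nat_lit 23740825794), (nat_lit 119, nat_lit 24814567617), (nat_lit 91, nat_lit 24814567554), (nat_lit 94, nat_lit 24797790402), (nat_lit 10, nat_lit 25888309377), (nat_lit 2, nat_lit 25871532225), (nat_lit 42, nat_lit 25871532162), (nat_lit 24, nat_lit 25854755010), (nat_lit 12, nat_lit 26945273985), (nat_lit 13, nat_lit 26928496833), (nat_lit 24, nat_lit 26928496770), (nat_lit 102, nat_lit 28002238593)]⟩],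
  [W_22616752256, W_19429081280]⟩
theorem C_23740825794 : chkRec R_23740825794 = true := by decide +kernel

noncomputable def R_23740825857 : Rec := ⟨nat_lit 23740825857, nat_lit 5,
  [⟨V6_18372116736, [(nat_lit 116, nat_lit 23740825857), (nat_lit 65, nat_lit 24814567680)]⟩],
  [W_23690494016, W_22616752256, W_21576564800]⟩
theorem C_23740825857 : chkRec R_23740825857 = true := by decide +kernel

noncomputable def R_23741083842 : Rec := ⟨nat_lit 23741083842, nat_lit 1,
  [⟨V6_20502818946, [(nat_lit 34, nat_lit 23741083842), (nat_lit 9, nat_lit 24814825602), (nat_lit 62, nat_lit 24814563522), (nat_lit 39, nat_lit 24798048450), (nat_lit 19, nat_lit 25888305282), (nat_lit 64, nat_lit 25871790210), (nat_lit 66, nat_lit 25871528130), (nat_lit 25, nat_lit 26945269890)]⟩],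
  [W_18372374720]⟩
theorem C_23741083842 : chkRec R_23741083842 = true := by decide +kernel

noncomputable def R_23741087874 : Rec := ⟨nat_lit 23741087874, nat_lit 4,
  [⟨V6_21576556674, [(nat_lit 85, nat_lit 23741087874), (nat_lit 126, nat_lit 24814825602), (nat_lit 73, nat_lit 24814567554), (nat_lit 81, nat_lit 24798052482), (nat_lit 80, nat_lit 25888563330), (nat_lit 89, nat_lit 25888305282), (nat_lit 112, nat_lit 25871790210), (nat_lit 65, nat_lit 25871532162), (nat_lit 118, nat_lit 26962043010), (nat_lit 55, nat_lit 26945527938), (nat_lit 89, nat_lit 26945269890), (nat_lit 125, nat_lit 28019007618)]⟩,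
   ⟨V6_21559787649, [(nat_lit 53, nat_lit 23741087874), (nat_lit 1, nat_lit 24814829697), (nat_lit 4, nat_lit 24814567554), (nat_lit 14, nat_lit 24798052482), (nat_lit 53, nat_lit 25888309377), (nat_lit 5, nat_lit 25871794305), (nat_lit 121, nat_lit 25871532162), (nat_lit 10, nat_lit 25855017090), (nat_lit 60, nat_lit 26945273985), (nat_lit 69, nat_lit 26928758913), (nat_lit 85, nat_lit 26928496770), (nat_lit 88, nat_lit 28002238593)]⟩],
  [W_19445858432, W_19429343360]⟩
theorem C_23741087874 : chkRec R_23741087874 = true := by decide +kernel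

noncomputable def R_23741087937 : Rec := ⟨nat_lit 23741087937, nat_lit 8,
  [⟨V6_20503085121, [(nat_lit 90, nat_lit 23741087937), (nat_lit 71, nat_lit 24814829697), (nat_lit 78, nat_lit 24798052545), (nat_lit 79, nat_lit 25888571457), (nat_lit 45, nat_lit 25871794305), (nat_lit 34, nat_lit 26945536065)]⟩,
   ⟨V6_20502823104, [(nat_lit 31, nat_lit 23741087937), (nat_lit 103, nat_lit 24814829760), (nat_lit 44, nat_lit 24814567617), (nat_lit 24, nat_lit 24798052545), (nat_lit 125, nat_lit 25888309440), (nat_lit 33, nat_lit 25871794368), (nat_lit 67, nat_lit 25871532225), (nat_lit 15, nat_lit 26945274048)]⟩],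
  [W_21593337920, W_20519858240, W_18372374720]⟩
theorem C_23741087937 : chkRec R_23741087937 = true := by decide +kernel

noncomputable def R_23741088000 : Rec := ⟨nat_lit 23741088000, nat_lit 8,
  [⟨V6_19429081344, [(nat_lit 80, nat_lit 23741088000), (nat_lit 87, nat_lit 24814567680), (nat_lit 104, nat_lit 24798052608), (nat_lit 5, nat_lit 25871532288)]⟩,
   ⟨V6_18372116736, [(nat_lit 106, nat_lit 23741088000), (nat_lit 2, nat_lit 24814567680)]⟩],
  [W_21593341952, W_21576826880]⟩
theorem C_23741088000 : chkRec R_23741088000 = true := by decide +kernel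

noncomputable def R_23741091969 : Rec := ⟨nat_lit 23741091969, nat_lit 5,
  [⟨V6_18372382848, [(nat_lit 24, nat_lit 23741091969), (nat_lit 66, nat_lit 24814833792)]⟩],
  [W_22633787456, W_21593595968]⟩
theorem C_23741091969 : chkRec R_23741091969 = true := by decide +kernel

noncomputable def R_23741092032 : Rec := ⟨nat_lit 23741092032, nat_lit 6,
  [⟨V6_17298641088, [(nat_lit 91, nat_lit 23741092032)]⟩],
  [W_22650564608, W_22633787456, W_21576826880]⟩
theorem C_23741092032 : chkRec R_23741092032 = true := by decide +kernel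

noncomputable def R_23741345922 : Rec := ⟨nat_lit 23741345922, nat_lit 5,
  [⟨V6_19446374529, [(nat_lit 38, nat_lit 23741345922), (nat_lit 87, nat_lit 24815087745), (nat_lit 126, nat_lit 24815083650), (nat_lit 58, nat_lit 25888825473)]⟩],
  [W_23723778176, W_22650298496, W_21576560768]⟩
theorem C_23741345922 : chkRec R_23741345922 = true := by decide +kernel

noncomputable def R_23741345985 : Rec := ⟨nat_lit 23741345985, nat_lit 5,
  [⟨V6_21593075841, [(nat_lit 126, nat_lit 23741345985), (nat_lit 121, nat_lit 24815087745), (nat_lit 118, nat_lit 24814825665), (nat_lit 39, nat_lit 25888567425), (nat_lit 81, nat_lit 25888305345), (nat_lit 32, nat_lit 26962047105), (nat_lit 78, nat_lit 26961785025), (nat_lit 77, nat_lit 28035526785)]⟩,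
   ⟨V6_19429601472, [(nat_lit 10, nat_lit 23741345985), (nat_lit 35, nat_lit 24815087808), (nat_lit 52, nat_lit 24798310593), (nat_lit 112, nat_lit 25872052416)]⟩,
   ⟨V6_18355859649, [(nat_lit 28, nat_lit 23741345985), (nat_lit 79, nat_lit 24798310593)]⟩],
  [W_22650302528, W_21593337920]⟩
theorem C_23741345985 : chkRec R_23741345985 = true := by decide +kernel

noncomputable def R_23741350017 : Rec := ⟨nat_lit 23741350017, nat_lit 20,
  [⟨V6_21577080960, [(nat_lit 103, nat_lit 23741350017), (nat_lit 42, nat_lit 24815091840), (nat_lit 122, nat_lit 24815087745), (nat_lit 40, nat_lit 24798314625), (nat_lit 66, nat_lit 25888829568), (nat_lit 115, nat_lit 25888825473), (nat_lit 123, nat_lit 25872056448), (nat_lit 81, nat_lit 25872052353), (nat_lit 108, nat_lit 26962567296), (nat_lit 63, nat_lit 26945794176), (nat_lit 94, nat_lit 26945790081), (nat_lit 46, nat_lit 28019531904)]⟩,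
   ⟨V6_19446374529, [(nat_lit 123, nat_lit 23741350017), (nat_lit 87, nat_lit 24815087745), (nat_lit 104, nat_lit 25888825473)]⟩],
  [W_22667075648, W_21593337920, W_21576564800, W_20503085120, W_18372640832]⟩
theorem C_23741350017 : chkRec R_23741350017 = true := by decide +kernel

noncomputable def R_23741350080 : Rec := ⟨nat_lit 23741350080, nat_lit 27,
  [⟨V6_22667083776, [(nat_lit 69, nat_lit 23741350080), (nat_lit 83, nat_lit 24815091840), (nat_lit 15, nat_lit 24814829760), (nat_lit 49, nat_lit 25888833600), (nat_lit 2, nat_lit 25888571520), (nat_lit 12, nat_lit 25888309440), (nat_lit 126, nat_lit 26962575360), (nat_lit 97, nat_lit 26962313280), (nat_lit 105, nat_lit 26962051200), (nat_lit 80, nat_lit 28036055040), (nat_lit 58, nat_lit 28035792960), (nat_lit 55, nat_lit 29109534720)]⟩,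
   ⟨V6_21577089024, [(nat_lit 101, nat_lit 23741350080), (nat_lit 122, nat_lit 24815091840), (nat_lit 53, nat_lit 24798314688), (nat_lit 61, nat_lit 25888833600), (nat_lit 39, nat_lit 25872056448), (nat_lit 77, nat_lit 26962575360), (nat_lit 44, nat_lit 26945798208), (nat_lit 2, nat_lit 28019539968)]⟩],
  [W_23724044288, W_20520120320, W_19446382592, W_18372640832, W_18372374720]⟩
theorem C_23741350080 : chkRec R_23741350080 = true := by decide +kernel

noncomputable def R_23741354049 : Rec := ⟨nat_lit 23741354049, nat_lit 9,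
  [⟨V6_22667333697, [(nat_lit 28, nat_lit 23741354049), (nat_lit 34, nat_lit 24815091777), (nat_lit 112, nat_lit 24814833729), (nat_lit 73, nat_lit 25888829505), (nat_lit 12, nat_lit 25888571457), (nat_lit 113, nat_lit 26962567233), (nat_lit 57, nat_lit 26962309185), (nat_lit 83, nat_lit 28036304961), (nat_lit 12, nat_lit 28036046913), (nat_lit 3, nat_lit 29109784641)]⟩,
   ⟨V6_20503343169, [(nat_lit 91, nat_lit 23741354049), (nat_lit 80, nat_lit 24815091777), (nat_lit 116, nat_lit 24798318657), (nat_lit 20, nat_lit 25888829505), (nat_lit 59, nat_lit 25872056385), (nat_lit 104, nat_lit 26945794113)]⟩,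
   ⟨V6_19429347393, [(nat_lit 83, nat_lit 23741354049), (nat_lit 63, nat_lit 24814833729), (nat_lit 69, nat_lit 24798318657), (nat_lit 53, nat_lit 25871798337)]⟩,
   ⟨V6_18372382785, [(nat_lit 44, nat_lit 23741354049), (nat_lit 10, nat_lit 24814833729)]⟩],
  [W_22667333696, W_21593854016, W_21577080896]⟩
theorem C_23741354049 : chkRec R_23741354049 = true := by decide +kernel

noncomputable def R_23741354112 : Rec := ⟨nat_lit 23741354112, nat_lit 31,
  [⟨V6_20503351296, [(nat_lit 26, nat_lit 23741354112), (nat_lit 71, nat_lit 24815095872), (nat_lit 76, nat_lit 24798318720), (nat_lit 33, nat_lit 25888837632), (nat_lit 66, nat_lit 25872060480), (nat_lit 54, nat_lit 26945802240)]⟩,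
   ⟨V6_17298903168, [(nat_lit 65, nat_lit 23741354112)]⟩],
  [W_22667337728, W_22650560576, W_21593600000, W_21593595968, W_21576818816, W_20519854208, W_20503339136]⟩
theorem C_23741354112 : chkRec R_23741354112 = true := by decide +kernel

noncomputable def R_23741358144 : Rec := ⟨nat_lit 23741358144, nat_lit 21,
  [⟨V6_22667595840, [(nat_lit 83, nat_lit 23741358144), (nat_lit 71, nat_lit 24815095872), (nat_lit 59, nat_lit 25888833600), (nat_lit 108, nat_lit 26962571328), (nat_lit 28, nat_lit 28036309056), (nat_lit 88, nat_lit 29110046784)]⟩,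
   ⟨V6_19429613568, [(nat_lit 13, nat_lit 23741358144), (nat_lit 33, nat_lit 24815099904), (nat_lit 67, nat_lit 24798322752), (nat_lit 112, nat_lit 25872064512)]⟩],
  [W_23724560384, W_22650822656, W_20520120320]⟩
theorem C_23741358144 : chkRec R_23741358144 = true := by decide +kernel

noncomputable def R_23741603970 : Rec := ⟨nat_lit 23741603970, nat_lit 1,
  [⟨V6_18372894849, [(nat_lit 1, nat_lit 23741603970), (nat_lit 9, nat_lit 24815345793)]⟩],
  [W_23740293248]⟩
theorem C_23741603970 : chkRec R_23741603970 = true := by decide +kernel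

noncomputable def R_23741608065 : Rec := ⟨nat_lit 23741608065, nat_lit 9,
  [⟨V6_18372898881, [(nat_lit 102, nat_lit 23741608065), (nat_lit 19, nat_lit 24815349825)]⟩,
   ⟨V6_18372894849, [(nat_lit 61, nat_lit 23741608065), (nat_lit 104, nat_lit 24815345793)]⟩],
  [W_22667075648, W_22666817600, W_21593333888]⟩
theorem C_23741608065 : chkRec R_23741608065 = true := by decide +kernel

noncomputable def R_23741608128 : Rec := ⟨nat_lit 23741608128, nat_lit 12,
  [⟨V6_20520382464, [(nat_lit 102, nat_lit 23741608128), (nat_lit 126, nat_lit 24815349888), (nat_lit 11, nat_lit 25889091648), (nat_lit 49, nat_lit 26962833408)]⟩,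
   ⟨V6_17299157184, [(nat_lit 16, nat_lit 23741608128)]⟩],
  [W_20520120320, W_20519596160]⟩
theorem C_23741608128 : chkRec R_23741608128 = true := by decide +kernel

noncomputable def R_23741612097 : Rec := ⟨nat_lit 23741612097, nat_lit 14,
  [⟨V6_18372898881, [(nat_lit 90, nat_lit 23741612097), (nat_lit 50, nat_lit 24815349825)]⟩,
   ⟨V6_17299161153, [(nat_lit 112, nat_lit 23741612097)]⟩],
  [W_22667333696, W_22667075648, W_20519600192]⟩
theorem C_23741612097 : chkRec R_23741612097 = true := by decide +kernel

noncomputable def R_23741612160 : Rec := ⟨nat_lit 23741612160, nat_lit 27,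
  [⟨V6_20520382464, [(nat_lit 18, nat_lit 23741612160), (nat_lit 117, nat_lit 24815353920), (nat_lit 114, nat_lit 24815349888), (nat_lit 74, nat_lit 25889095680), (nat_lit 24, nat_lit 25889091648), (nat_lit 29, nat_lit 26962833408)]⟩,
   ⟨V6_19446644736, [(nat_lit 56, nat_lit 23741612160), (nat_lit 12, nat_lit 24815353920), (nat_lit 44, nat_lit 25889095680)]⟩],
  [W_23740817408, W_21593595968, W_21593341952, W_21593337920, W_21593333888]⟩
theorem C_23741612160 : chkRec R_23741612160 = true := by decide +kernel

noncomputable def R_23741616192 : Rec := ⟨nat_lit 23741616192, nat_lit 27,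
  [⟨V6_20519866368, [(nat_lit 46, nat_lit 23741616192), (nat_lit 5, nat_lit 24815357952), (nat_lit 110, nat_lit 24815095872), (nat_lit 104, nat_lit 25888837632), (nat_lit 43, nat_lit 25888575552), (nat_lit 39, nat_lit 26962317312)]⟩,
   ⟨V6_17299165248, [(nat_lit 84, nat_lit 23741616192)]⟩],
  [W_22667595776, W_22667337728, W_22667333696, W_21593854016, W_20520374336]⟩
theorem C_23741616192 : chkRec R_23741616192 = true := by decide +kernel

noncomputable def R_23741620224 : Rec := ⟨nat_lit 23741620224, nat_lit 12,
  [⟨V6_23741595648, [(nat_lit 124, nat_lit 23741620224), (nat_lit 106, nat_lit 24815357952), (nat_lit 50, nat_lit 25889095680), (nat_lit 98, nat_lit 26962833408), (nat_lit 7, nat_lit 28036571136), (nat_lit 46, nat_lit 29110308864), (nat_lit 79, nat_lit 30184046592)]⟩,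
   ⟨V6_18372907008, [(nat_lit 64, nat_lit 23741620224), (nat_lit 6, nat_lit 24815357952)]⟩],
  [W_22667595776, W_17298907136]⟩
theorem C_23741620224 : chkRec R_23741620224 = true := by decide +kernel

noncomputable def R_23757602946 : Rec := ⟨nat_lit 23757602946, nat_lit 7,
  [⟨V6_23690494080, [(nat_lit 21, nat_lit 23757602946), (nat_lit 93, nat_lit 24831344769), (nat_lit 96, nat_lit 24814567554), (nat_lit 69, nat_lit 25905086592), (nat_lit 16, nat_lit 25888309377), (nat_lit 51, nat_lit 25871532162), (nat_lit 33, nat_lit 26962051200), (nat_lit 111, nat_lit 26945273985), (nat_lit 41, nat_lit 26928496770), (nat_lit 9, nat_lit 28019015808), (nat_lit 105, nat_lit 28002238593), (nat_lit 9, nat_lit 27985461378), (nat_lit 29, nat_lit 29075980416), (nat_lit 100, nat_lit 29059203201), (nat_lit 51, nat_lit 30132945024)]⟩,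
   ⟨V6_21576556674, [(nat_lit 21, nat_lit 23757602946), (nat_lit 22, nat_lit 24831340674), (nat_lit 18, nat_lit 24814567554), (nat_lit 5, nat_lit 25905078402), (nat_lit 107, nat_lit 25888305282), (nat_lit 21, nat_lit 25871532162), (nat_lit 68, nat_lit 26962043010), (nat_lit 78, nat_lit 26945269890), (nat_lit 85, nat_lit 28019007618)]⟩,
   ⟨V6_20502818946, [(nat_lit 119, nat_lit 23757602946), (nat_lit 39, nat_lit 24831340674), (nat_lit 14, nat_lit 24814567554), (nat_lit 6, nat_lit 25888305282), (nat_lit 13, nat_lit 25871532162), (nat_lit 126, nat_lit 26945269890)]⟩],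
  [W_23707263104, W_20536369280, W_19462631552]⟩
theorem C_23757602946 : chkRec R_23757602946 = true := by decide +kernel

noncomputable def R_23757603009 : Rec := ⟨nat_lit 23757603009, nat_lit 8,
  [⟨V6_19462635585, [(nat_lit 38, nat_lit 23757603009), (nat_lit 88, nat_lit 24831344769), (nat_lit 41, nat_lit 25905086529)]⟩,
   ⟨V6_17315152065, [(nat_lit 99, nat_lit 23757603009)]⟩],
  [W_23707267136, W_22650302528, W_22633529408, W_22616752256, W_21576564800]⟩
theorem C_23757603009 : chkRec R_23757603009 = true := by decide +kernel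

noncomputable def R_23757603072 : Rec := ⟨nat_lit 23757603072, nat_lit 14,
  [⟨V6_23690494080, [(nat_lit 124, nat_lit 23757603072), (nat_lit 49, nat_lit 24831344832), (nat_lit 19, nat_lit 24814567680), (nat_lit 106, nat_lit 25905086592), (nat_lit 118, nat_lit 25888309440), (nat_lit 24, nat_lit 25871532288), (nat_lit 105, nat_lit 26962051200), (nat_lit 71, nat_lit 26945274048), (nat_lit 24, nat_lit 26928496896), (nat_lit 39, nat_lit 28019015808), (nat_lit 111, nat_lit 28002238656), (nat_lit 65, nat_lit 27985461504), (nat_lit 69, nat_lit 29075980416), (nat_lit 109, nat_lit 29059203264), (nat_lit 63, nat_lit 30132945024)]⟩,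
   ⟨V6_19429081344, [(nat_lit 107, nat_lit 23757603072), (nat_lit 91, nat_lit 24814567680), (nat_lit 65, nat_lit 25871532288)]⟩,
   ⟨V6_18372116736, [(nat_lit 53, nat_lit 23757603072), (nat_lit 78, nat_lit 24814567680)]⟩],
  [W_22650306560, W_21593341952, W_21576564800, W_16241410304]⟩
theorem C_23757603072 : chkRec R_23757603072 = true := by decide +kernel

noncomputable def R_23757860994 : Rec := ⟨nat_lit 23757860994, nat_lit 6,
  [⟨V6_21576556674, [(nat_lit 125, nat_lit 23757860994), (nat_lit 111, nat_lit 24831598722), (nat_lit 35, nat_lit 24831340674), (nat_lit 50, nat_lit 24814825602), (nat_lit 61, nat_lit 25905078402), (nat_lit 112, nat_lit 25888563330), (nat_lit 125, nat_lit 25888305282), (nat_lit 46, nat_lit 25871790210), (nat_lit 61, nat_lit 26962043010), (nat_lit 107, nat_lit 26945527938), (nat_lit 50, nat_lit 26945269890), (nat_lit 28, nat_lit 28019007618)]⟩,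
   ⟨V6_20536111233, [(nat_lit 57, nat_lit 23757860994), (nat_lit 46, nat_lit 24831602817), (nat_lit 46, nat_lit 24831340674), (nat_lit 59, nat_lit 25905082497), (nat_lit 72, nat_lit 25904820354), (nat_lit 110, nat_lit 26978562177)]⟩,
   ⟨V6_20502818946, [(nat_lit 96, nat_lit 23757860994), (nat_lit 114, nat_lit 24831340674), (nat_lit 74, nat_lit 24814825602), (nat_lit 26, nat_lit 25888305282), (nat_lit 32, nat_lit 25871790210), (nat_lit 71, nat_lit 26945269890)]⟩],
  [W_23707263104, W_19462889600]⟩
theorem C_23757860994 : chkRec R_23757860994 = true := by decide +kernel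

noncomputable def R_23757861057 : Rec := ⟨nat_lit 23757861057, nat_lit 6,
  [⟨V6_19462631616, [(nat_lit 59, nat_lit 23757861057), (nat_lit 112, nat_lit 24831602880), (nat_lit 22, nat_lit 24831340737), (nat_lit 29, nat_lit 25905082560)]⟩,
   ⟨V6_18388889793, [(nat_lit 18, nat_lit 23757861057), (nat_lit 89, nat_lit 24831340737)]⟩],
  [W_23707267136, W_22633787456, W_21593337920]⟩
theorem C_23757861057 : chkRec R_23757861057 = true := by decide +kernel

noncomputable def R_23757865089 : Rec := ⟨nat_lit 23757865089, nat_lit 25,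
  [⟨V6_22650298497, [(nat_lit 102, nat_lit 23757865089), (nat_lit 19, nat_lit 24831602817), (nat_lit 86, nat_lit 24831344769), (nat_lit 20, nat_lit 24814829697), (nat_lit 29, nat_lit 25905340545), (nat_lit 28, nat_lit 25905082497), (nat_lit 70, nat_lit 25888567425), (nat_lit 57, nat_lit 25888309377), (nat_lit 118, nat_lit 25871794305), (nat_lit 18, nat_lit 26978820225), (nat_lit 62, nat_lit 26962305153), (nat_lit 12, nat_lit 26962047105), (nat_lit 118, nat_lit 26945532033), (nat_lit 91, nat_lit 26945273985), (nat_lit 119, nat_lit 28035784833), (nat_lit 20, nat_lit 28019269761), (nat_lit 79, nat_lit 28019011713), (nat_lit 120, nat_lit 29092749441)]⟩,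
   ⟨V6_22633529409, [(nat_lit 36, nat_lit 23757865089), (nat_lit 88, nat_lit 24831606849), (nat_lit 36, nat_lit 24831344769), (nat_lit 91, nat_lit 24814829697), (nat_lit 7, nat_lit 25905086529), (nat_lit 76, nat_lit 25888571457), (nat_lit 114, nat_lit 25888309377), (nat_lit 85, nat_lit 25871794305), (nat_lit 28, nat_lit 26962051137), (nat_lit 123, nat_lit 26945536065), (nat_lit 102, nat_lit 26945273985), (nat_lit 106, nat_lit 26928758913), (nat_lit 122, nat_lit 28019015745), (nat_lit 35, nat_lit 28002500673), (nat_lit 68, nat_lit 28002238593), (nat_lit 16, nat_lit 29075980353)]⟩,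
   ⟨V6_22633525377, [(nat_lit 3, nat_lit 23757865089), (nat_lit 109, nat_lit 24831602817), (nat_lit 99, nat_lit 24831344769), (nat_lit 54, nat_lit 24814829697), (nat_lit 97, nat_lit 25905082497), (nat_lit 55, nat_lit 25888567425), (nat_lit 72, nat_lit 25888309377), (nat_lit 118, nat_lit 25871794305), (nat_lit 126, nat_lit 26962047105), (nat_lit 76, nat_lit 26945532033), (nat_lit 50, nat_lit 26945273985), (nat_lit 5, nat_lit 26928758913), (nat_lit 25, nat_lit 28019011713), (nat_lit 2, nat_lit 28002496641), (nat_lit 10, nat_lit 28002238593), (nat_lit 90, nat_lit 29075976321)]⟩,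
   ⟨V6_21576818817, [(nat_lit 13, nat_lit 23757865089), (nat_lit 62, nat_lit 24831602817), (nat_lit 120, nat_lit 24814829697), (nat_lit 118, nat_lit 25905340545), (nat_lit 36, nat_lit 25888567425), (nat_lit 13, nat_lit 25871794305), (nat_lit 30, nat_lit 26962305153), (nat_lit 12, nat_lit 26945532033), (nat_lit 101, nat_lit 28019269761)]⟩,
   ⟨V6_21576564801, [(nat_lit 106, nat_lit 23757865089), (nat_lit 1, nat_lit 24831606849), (nat_lit 45, nat_lit 24831344769), (nat_lit 13, nat_lit 24814829697), (nat_lit 59, nat_lit 25905086529), (nat_lit 25, nat_lit 25888571457), (nat_lit 61, nat_lit 25888309377), (nat_lit 48, nat_lit 25871794305), (nat_lit 7, nat_lit 26962051137), (nat_lit 64, nat_lit 26945536065), (nat_lit 58, nat_lit 26945273985), (nat_lit 10, nat_lit 28019015745)]⟩,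
   ⟨V6_21576560769, [(nat_lit 30, nat_lit 23757865089), (nat_lit 26, nat_lit 24831602817), (nat_lit 92, nat_lit 24831344769), (nat_lit 44, nat_lit 24814829697), (nat_lit 16, nat_lit 25905082497), (nat_lit 16, nat_lit 25888567425), (nat_lit 92, nat_lit 25888309377), (nat_lit 101, nat_lit 25871794305), (nat_lit 60, nat_lit 26962047105), (nat_lit 121, nat_lit 26945532033), (nat_lit 11, nat_lit 26945273985), (nat_lit 62, nat_lit 28019011713)]⟩,
   ⟨V6_21560049792, [(nat_lit 28, nat_lit 23757865089), (nat_lit 64, nat_lit 24831606912), (nat_lit 41, nat_lit 24814829697), (nat_lit 57, nat_lit 25888571520), (nat_lit 54, nat_lit 25871794305), (nat_lit 35, nat_lit 26945536128), (nat_lit 68, nat_lit 26928758913), (nat_lit 124, nat_lit 28002500736)]⟩,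
   ⟨V6_21559787649, [(nat_lit 54, nat_lit 23757865089), (nat_lit 106, nat_lit 24831344769), (nat_lit 22, nat_lit 24814829697), (nat_lit 100, nat_lit 25888309377), (nat_lit 63, nat_lit 25871794305), (nat_lit 123, nat_lit 26945273985), (nat_lit 69, nat_lit 26928758913), (nat_lit 101, nat_lit 28002238593)]⟩,
   ⟨V6_20503085121, [(nat_lit 63, nat_lit 23757865089), (nat_lit 96, nat_lit 24831606849), (nat_lit 22, nat_lit 24814829697), (nat_lit 92, nat_lit 25888571457), (nat_lit 111, nat_lit 25871794305), (nat_lit 90, nat_lit 26945536065)]⟩],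
  [W_23707525184, W_23707263104, W_22667075648, W_22633787456, W_21593595968, W_21593337920, W_20536373312]⟩
theorem C_23757865089 : chkRec R_23757865089 = true := by decide +kernel

noncomputable def R_23757865152 : Rec := ⟨nat_lit 23757865152, nat_lit 31,
  [⟨V6_21610119168, [(nat_lit 11, nat_lit 23757865152), (nat_lit 22, nat_lit 24831606912), (nat_lit 90, nat_lit 24831344832), (nat_lit 79, nat_lit 25905348672), (nat_lit 65, nat_lit 25905086592), (nat_lit 116, nat_lit 26979090432), (nat_lit 37, nat_lit 26978828352), (nat_lit 6, nat_lit 28052570112)]⟩],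
  [W_23724044288, W_23707267136, W_22650306560, W_21593337920, W_20536635392, W_19446116480, W_18372374720]⟩
theorem C_23757865152 : chkRec R_23757865152 = true := by decide +kernel

noncomputable def R_23757869121 : Rec := ⟨nat_lit 23757869121, nat_lit 11,
  [⟨V6_22667333697, [(nat_lit 38, nat_lit 23757869121), (nat_lit 121, nat_lit 24831606849), (nat_lit 10, nat_lit 24814833729), (nat_lit 53, nat_lit 25905344577), (nat_lit 117, nat_lit 25888571457), (nat_lit 11, nat_lit 26979082305), (nat_lit 109, nat_lit 26962309185), (nat_lit 14, nat_lit 28052820033), (nat_lit 51, nat_lit 28036046913), (nat_lit 39, nat_lit 29109784641)]⟩,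
   ⟨V6_21610369089, [(nat_lit 53, nat_lit 23757869121), (nat_lit 36, nat_lit 24831606849), (nat_lit 115, nat_lit 25905344577), (nat_lit 18, nat_lit 26979082305), (nat_lit 4, nat_lit 28052820033)]⟩,
   ⟨V6_19429347393, [(nat_lit 19, nat_lit 23757869121), (nat_lit 85, nat_lit 24814833729), (nat_lit 97, nat_lit 25871798337)]⟩,
   ⟨V6_18372382785, [(nat_lit 53, nat_lit 23757869121), (nat_lit 78, nat_lit 24814833729)]⟩],
  [W_21593595968, W_20519858240]⟩
theorem C_23757869121 : chkRec R_23757869121 = true := by decide +kernel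

noncomputable def R_23757869184 : Rec := ⟨nat_lit 23757869184, nat_lit 23,
  [⟨V6_20519866368, [(nat_lit 31, nat_lit 23757869184), (nat_lit 57, nat_lit 24831610944), (nat_lit 88, nat_lit 24814833792), (nat_lit 12, nat_lit 25905352704), (nat_lit 61, nat_lit 25888575552), (nat_lit 84, nat_lit 26962317312)]⟩,
   ⟨V6_19462901760, [(nat_lit 50, nat_lit 23757869184), (nat_lit 47, nat_lit 24831610944), (nat_lit 3, nat_lit 25905352704)]⟩],
  [W_23724302336, W_22667337728, W_21576826880, W_21576818816, W_19462889600]⟩
theorem C_23757869184 : chkRec R_23757869184 = true := by decide +kernel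

noncomputable def R_23758119042 : Rec := ⟨nat_lit 23758119042, nat_lit 10,
  [⟨V6_19446374529, [(nat_lit 5, nat_lit 23758119042), (nat_lit 33, nat_lit 24831860865), (nat_lit 24, nat_lit 24815083650), (nat_lit 33, nat_lit 25888825473)]⟩,
   ⟨V6_18389409921, [(nat_lit 51, nat_lit 23758119042), (nat_lit 78, nat_lit 24831860865)]⟩],
  [W_23740293248, W_22650298496, W_21609848960, W_21576818816]⟩
theorem C_23758119042 : chkRec R_23758119042 = true := by decide +kernel

noncomputable def R_23758123137 : Rec := ⟨nat_lit 23758123137, nat_lit 29,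
  [⟨V6_20536111233, [(nat_lit 117, nat_lit 23758123137), (nat_lit 17, nat_lit 24831602817), (nat_lit 88, nat_lit 25905082497), (nat_lit 71, nat_lit 26978562177)]⟩,
   ⟨V6_20503343169, [(nat_lit 32, nat_lit 23758123137), (nat_lit 79, nat_lit 24831864897), (nat_lit 116, nat_lit 24815087745), (nat_lit 81, nat_lit 25888829505), (nat_lit 8, nat_lit 25872052353), (nat_lit 82, nat_lit 26945794113)]⟩,
   ⟨V6_19446374529, [(nat_lit 10, nat_lit 23758123137), (nat_lit 28, nat_lit 24831860865), (nat_lit 101, nat_lit 24815087745), (nat_lit 4, nat_lit 25888825473)]⟩,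
   ⟨V6_18389409921, [(nat_lit 85, nat_lit 23758123137), (nat_lit 20, nat_lit 24831860865)]⟩],
  [W_23740555328, W_23724040256, W_22683590720, W_22667075648, W_22666817600, W_19463151680]⟩
theorem C_23758123137 : chkRec R_23758123137 = true := by decide +kernel

noncomputable def R_23758123200 : Rec := ⟨nat_lit 23758123200, nat_lit 23,
  [⟨V6_22650826752, [(nat_lit 39, nat_lit 23758123200), (nat_lit 118, nat_lit 24831864960), (nat_lit 53, nat_lit 24815087808), (nat_lit 42, nat_lit 25905606720), (nat_lit 22, nat_lit 25888829568), (nat_lit 100, nat_lit 25872052416), (nat_lit 60, nat_lit 26979348480), (nat_lit 4, nat_lit 26962571328), (nat_lit 26, nat_lit 26945794176), (nat_lit 104, nat_lit 28036313088), (nat_lit 53, nat_lit 28019535936), (nat_lit 103, nat_lit 29093277696)]⟩,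
   ⟨V6_19462631616, [(nat_lit 71, nat_lit 23758123200), (nat_lit 9, nat_lit 24831602880), (nat_lit 76, nat_lit 25905082560)]⟩],
  [W_23724044288, W_21593337920, W_19463155712]⟩
theorem C_23758123200 : chkRec R_23758123200 = true := by decide +kernel

noncomputable def R_23758127169 : Rec := ⟨nat_lit 23758127169, nat_lit 26,
  [⟨V6_21610631232, [(nat_lit 4, nat_lit 23758127169), (nat_lit 103, nat_lit 24831868992), (nat_lit 73, nat_lit 24831864897), (nat_lit 20, nat_lit 25905606720), (nat_lit 9, nat_lit 25905602625), (nat_lit 67, nat_lit 26979344448), (nat_lit 60, nat_lit 26979340353), (nat_lit 58, nat_lit 28053082176)]⟩,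
   ⟨V6_21577080897, [(nat_lit 115, nat_lit 23758127169), (nat_lit 60, nat_lit 24831864897), (nat_lit 26, nat_lit 24815091777), (nat_lit 106, nat_lit 25905602625), (nat_lit 84, nat_lit 25888829505), (nat_lit 115, nat_lit 25872056385), (nat_lit 70, nat_lit 26962567233), (nat_lit 28, nat_lit 26945794113), (nat_lit 24, nat_lit 28019531841)]⟩,
   ⟨V6_20536889409, [(nat_lit 77, nat_lit 23758127169), (nat_lit 65, nat_lit 24831864897), (nat_lit 123, nat_lit 25905602625), (nat_lit 114, nat_lit 26979340353)]⟩,
   ⟨V6_20503343169, [(nat_lit 112, nat_lit 23758127169), (nat_lit 89, nat_lit 24831864897), (nat_lit 58, nat_lit 24815091777), (nat_lit 43, nat_lit 25888829505), (nat_lit 72, nat_lit 25872056385), (nat_lit 14, nat_lit 26945794113)]⟩],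
  [W_23724298304, W_23724040256, W_21576564800, W_19463151680, W_18372640832]⟩
theorem C_23758127169 : chkRec R_23758127169 = true := by decide +kernel

noncomputable def R_23758127232 : Rec := ⟨nat_lit 23758127232, nat_lit 94,
  [⟨V6_22683856896, [(nat_lit 59, nat_lit 23758127232), (nat_lit 24, nat_lit 24831868992), (nat_lit 60, nat_lit 24831864960), (nat_lit 21, nat_lit 24831606912), (nat_lit 15, nat_lit 25905610752), (nat_lit 21, nat_lit 25905606720), (nat_lit 88, nat_lit 25905348672), (nat_lit 66, nat_lit 25905344640), (nat_lit 10, nat_lit 25905086592), (nat_lit 14, nat_lit 26979348480), (nat_lit 117, nat_lit 26979090432), (nat_lit 39, nat_lit 26979086400), (nat_lit 88, nat_lit 26978828352), (nat_lit 54, nat_lit 26978824320), (nat_lit 53, nat_lit 28052828160), (nat_lit 26, nat_lit 28052570112), (nat_lit 52, nat_lit 28052566080), (nat_lit 11, nat_lit 29126307840)]⟩,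
   ⟨V6_22650826752, [(nat_lit 80, nat_lit 23758127232), (nat_lit 109, nat_lit 24831868992), (nat_lit 68, nat_lit 24831864960), (nat_lit 92, nat_lit 24815091840), (nat_lit 89, nat_lit 25905610752), (nat_lit 32, nat_lit 25905606720), (nat_lit 30, nat_lit 25888833600), (nat_lit 71, nat_lit 25888829568), (nat_lit 96, nat_lit 25872056448), (nat_lit 73, nat_lit 26979348480), (nat_lit 52, nat_lit 26962575360), (nat_lit 54, nat_lit 26962571328), (nat_lit 46, nat_lit 26945798208), (nat_lit 33, nat_lit 26945794176), (nat_lit 110, nat_lit 28036313088), (nat_lit 82, nat_lit 28019539968), (nat_lit 118, nat_lit 28019535936), (nat_lit 37, nat_lit 29093277696)]⟩,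
   ⟨V6_21610119168, [(nat_lit 2, nat_lit 23758127232), (nat_lit 62, nat_lit 24831868992), (nat_lit 98, nat_lit 24831606912), (nat_lit 16, nat_lit 25905610752), (nat_lit 26, nat_lit 25905348672), (nat_lit 9, nat_lit 25905086592), (nat_lit 112, nat_lit 26979090432), (nat_lit 54, nat_lit 26978828352), (nat_lit 81, nat_lit 28052570112)]⟩,
   ⟨V6_21577089024, [(nat_lit 35, nat_lit 23758127232), (nat_lit 17, nat_lit 24831868992), (nat_lit 91, nat_lit 24815091840), (nat_lit 78, nat_lit 25905610752), (nat_lit 120, nat_lit 25888833600), (nat_lit 26, nat_lit 25872056448), (nat_lit 40, nat_lit 26962575360), (nat_lit 2, nat_lit 26945798208), (nat_lit 61, nat_lit 28019539968)]⟩],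
  [W_23740817408, W_22650822656, W_20536893440, W_20503339136, W_19463155712, W_19462889600, W_19446382592, W_19446374528, W_18372640832, W_18355863680]⟩
theorem C_23758127232 : chkRec R_23758127232 = true := by decide +kernel

noncomputable def R_23758131264 : Rec := ⟨nat_lit 23758131264, nat_lit 69,
  [⟨V6_19462901760, [(nat_lit 35, nat_lit 23758131264), (nat_lit 93, nat_lit 24831873024), (nat_lit 24, nat_lit 24831610944), (nat_lit 27, nat_lit 25905352704)]⟩,
   ⟨V6_19446386688, [(nat_lit 30, nat_lit 23758131264), (nat_lit 71, nat_lit 24831873024), (nat_lit 17, nat_lit 24815095872), (nat_lit 71, nat_lit 25888837632)]⟩,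
   ⟨V6_18389422080, [(nat_lit 75, nat_lit 23758131264), (nat_lit 40, nat_lit 24831873024)]⟩],
  [W_23741075456, W_23724560384, W_23724302336, W_22667595776, W_22667337728, W_22667333696, W_22650560576, W_21610369088, W_21593854016, W_21577080896, W_20536635392]⟩
theorem C_23758131264 : chkRec R_23758131264 = true := by decide +kernel

noncomputable def R_23758135296 : Rec := ⟨nat_lit 23758135296, nat_lit 42,
  [⟨V6_19429613568, [(nat_lit 6, nat_lit 23758135296), (nat_lit 87, nat_lit 24815099904), (nat_lit 44, nat_lit 25872064512)]⟩,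
   ⟨V6_18389422080, [(nat_lit 35, nat_lit 23758135296), (nat_lit 39, nat_lit 24831873024)]⟩],
  [W_22684368896, W_22667595776, W_21593858048, W_18355871744]⟩
theorem C_23758135296 : chkRec R_23758135296 = true := by decide +kernel

noncomputable def R_23758381185 : Rec := ⟨nat_lit 23758381185, nat_lit 19,
  [⟨V6_19446636609, [(nat_lit 29, nat_lit 23758381185), (nat_lit 33, nat_lit 24832122945), (nat_lit 29, nat_lit 24815345793), (nat_lit 35, nat_lit 25889087553)]⟩,
   ⟨V6_18389409921, [(nat_lit 88, nat_lit 23758381185), (nat_lit 26, nat_lit 24831860865)]⟩],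
  [W_23757070400, W_23740293248, W_22683328640, W_22667075648, W_21593595968]⟩
theorem C_23758381185 : chkRec R_23758381185 = true := by decide +kernel

noncomputable def R_23758385217 : Rec := ⟨nat_lit 23758385217, nat_lit 25,
  [⟨V6_21610369089, [(nat_lit 76, nat_lit 23758385217), (nat_lit 125, nat_lit 24832122945), (nat_lit 119, nat_lit 24831864897), (nat_lit 117, nat_lit 25905860673), (nat_lit 86, nat_lit 25905602625), (nat_lit 112, nat_lit 25905344577), (nat_lit 25, nat_lit 26979340353), (nat_lit 45, nat_lit 26979082305), (nat_lit 105, nat_lit 28052820033)]⟩,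
   ⟨V6_20536889409, [(nat_lit 115, nat_lit 23758385217), (nat_lit 102, nat_lit 24832122945), (nat_lit 30, nat_lit 24831864897), (nat_lit 81, nat_lit 25905860673), (nat_lit 36, nat_lit 25905602625), (nat_lit 96, nat_lit 26979340353)]⟩,
   ⟨V6_20520374337, [(nat_lit 125, nat_lit 23758385217), (nat_lit 118, nat_lit 24832122945), (nat_lit 11, nat_lit 24815349825), (nat_lit 39, nat_lit 25905860673), (nat_lit 118, nat_lit 25889087553), (nat_lit 88, nat_lit 26962825281)]⟩,
   ⟨V6_19446636609, [(nat_lit 89, nat_lit 23758385217), (nat_lit 46, nat_lit 24832122945), (nat_lit 48, nat_lit 24815349825), (nat_lit 61, nat_lit 25889087553)]⟩,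
   ⟨V6_18372898881, [(nat_lit 123, nat_lit 23758385217), (nat_lit 66, nat_lit 24815349825)]⟩],
  [W_23740555328, W_22683590720, W_19463151680, W_17315934272]⟩
theorem C_23758385217 : chkRec R_23758385217 = true := by decide +kernel

noncomputable def R_23758385280 : Rec := ⟨nat_lit 23758385280, nat_lit 67,
  [⟨V6_20537155584, [(nat_lit 28, nat_lit 23758385280), (nat_lit 73, nat_lit 24832127040), (nat_lit 20, nat_lit 24832123008), (nat_lit 25, nat_lit 25905868800), (nat_lit 3, nat_lit 25905864768), (nat_lit 54, nat_lit 26979606528)]⟩,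
   ⟨V6_18389672064, [(nat_lit 24, nat_lit 23758385280), (nat_lit 43, nat_lit 24832123008)]⟩],
  [W_23740817408, W_23740559360, W_23740555328, W_22683852800, W_22683594752, W_22683590720, W_22667337728, W_22666817600, W_21593337920, W_20520120320, W_19446374528]⟩
theorem C_23758385280 : chkRec R_23758385280 = true := by decide +kernel

noncomputable def R_23758389312 : Rec := ⟨nat_lit 23758389312, nat_lit 97,
  [⟨V6_22667857920, [(nat_lit 11, nat_lit 23758389312), (nat_lit 28, nat_lit 24832131072), (nat_lit 64, nat_lit 24832127040), (nat_lit 50, nat_lit 24815353920), (nat_lit 46, nat_lit 25905868800), (nat_lit 5, nat_lit 25905864768), (nat_lit 65, nat_lit 25889095680), (nat_lit 98, nat_lit 25889091648), (nat_lit 73, nat_lit 26979606528), (nat_lit 82, nat_lit 26979602496), (nat_lit 58, nat_lit 26962833408), (nat_lit 122, nat_lit 26962829376), (nat_lit 13, nat_lit 28053344256), (nat_lit 43, nat_lit 28036571136), (nat_lit 82, nat_lit 28036567104), (nat_lit 8, nat_lit 29110308864)]⟩,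
   ⟨V6_21610119168, [(nat_lit 107, nat_lit 23758389312), (nat_lit 77, nat_lit 24832131072), (nat_lit 88, nat_lit 24831868992), (nat_lit 34, nat_lit 25905610752), (nat_lit 70, nat_lit 25905348672), (nat_lit 78, nat_lit 26979090432), (nat_lit 58, nat_lit 26978828352), (nat_lit 70, nat_lit 28052570112)]⟩,
   ⟨V6_20537155584, [(nat_lit 103, nat_lit 23758389312), (nat_lit 59, nat_lit 24832131072), (nat_lit 26, nat_lit 24832127040), (nat_lit 56, nat_lit 25905868800), (nat_lit 109, nat_lit 25905864768), (nat_lit 15, nat_lit 26979606528)]⟩,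
   ⟨V6_19446644736, [(nat_lit 52, nat_lit 23758389312), (nat_lit 13, nat_lit 24832131072), (nat_lit 21, nat_lit 24815353920), (nat_lit 13, nat_lit 25889095680)]⟩],
  [W_23757590528, W_23740817408, W_23740813376, W_22667333696, W_20536893440, W_19463155712, W_17315938304, W_16242196544]⟩
theorem C_23758389312 : chkRec R_23758389312 = true := by decide +kernel

noncomputable def R_23758393344 : Rec := ⟨nat_lit 23758393344, nat_lit 61,
  [⟨V6_21610893312, [(nat_lit 71, nat_lit 23758393344), (nat_lit 65, nat_lit 24832131072), (nat_lit 63, nat_lit 25905868800), (nat_lit 96, nat_lit 26979606528), (nat_lit 106, nat_lit 28053344256)]⟩,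
   ⟨V6_17315942400, [(nat_lit 81, nat_lit 23758393344)]⟩],
  [W_23741075456, W_22684368896, W_22667595776, W_22667337728, W_21610889216, W_21594116096, W_19446124544, W_18389159936]⟩
theorem C_23758393344 : chkRec R_23758393344 = true := by decide +kernel

noncomputable def R_23758643265 : Rec := ⟨nat_lit 23758643265, nat_lit 11,
  [⟨V6_21610631232, [(nat_lit 111, nat_lit 23758643265), (nat_lit 1, nat_lit 24832385088), (nat_lit 98, nat_lit 24832380993), (nat_lit 66, nat_lit 24832122945), (nat_lit 7, nat_lit 25906122816), (nat_lit 17, nat_lit 25905864768), (nat_lit 10, nat_lit 25905860673), (nat_lit 89, nat_lit 25905602625), (nat_lit 13, nat_lit 26979602496), (nat_lit 80, nat_lit 26979344448), (nat_lit 65, nat_lit 26979340353), (nat_lit 80, nat_lit 28053082176)]⟩],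
  [W_23757070400, W_22683590720, W_17316192320]⟩
theorem C_23758643265 : chkRec R_23758643265 = true := by decide +kernel

noncomputable def R_23758643328 : Rec := ⟨nat_lit 23758643328, nat_lit 39,
  [⟨V6_20537155584, [(nat_lit 111, nat_lit 23758643328), (nat_lit 54, nat_lit 24832385088), (nat_lit 90, nat_lit 24832123008), (nat_lit 9, nat_lit 25906126848), (nat_lit 18, nat_lit 25905864768), (nat_lit 84, nat_lit 26979606528)]⟩],
  [W_23757070400, W_22683852800, W_22683328640, W_18389934080]⟩
theorem C_23758643328 : chkRec R_23758643328 = true := by decide +kernel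

noncomputable def R_23758647360 : Rec := ⟨nat_lit 23758647360, nat_lit 58,
  [⟨V6_21610893312, [(nat_lit 66, nat_lit 23758647360), (nat_lit 50, nat_lit 24832389120), (nat_lit 51, nat_lit 24832385088), (nat_lit 83, nat_lit 24832127040), (nat_lit 68, nat_lit 25906126848), (nat_lit 11, nat_lit 25906122816), (nat_lit 125, nat_lit 25905868800), (nat_lit 63, nat_lit 25905864768), (nat_lit 76, nat_lit 26979864576), (nat_lit 66, nat_lit 26979606528), (nat_lit 5, nat_lit 26979602496), (nat_lit 9, nat_lit 28053344256)]⟩,
   ⟨V6_20537155584, [(nat_lit 46, nat_lit 23758647360), (nat_lit 109, nat_lit 24832389120), (nat_lit 113, nat_lit 24832385088), (nat_lit 28, nat_lit 24832127040), (nat_lit 60, nat_lit 25906126848), (nat_lit 19, nat_lit 25905868800), (nat_lit 84, nat_lit 25905864768), (nat_lit 80, nat_lit 26979606528)]⟩],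
  [W_23757590528, W_23757332480, W_22683852800, W_22683848768, W_22683590720, W_21609852992, W_17316192320, W_16242454592]⟩
theorem C_23758647360 : chkRec R_23758647360 = true := by decide +kernel

noncomputable def R_23758651392 : Rec := ⟨nat_lit 23758651392, nat_lit 67,
  [⟨V6_21610119168, [(nat_lit 110, nat_lit 23758651392), (nat_lit 56, nat_lit 24832131072), (nat_lit 57, nat_lit 25905610752), (nat_lit 95, nat_lit 26979090432), (nat_lit 83, nat_lit 28052570112)]⟩,
   ⟨V6_17316200448, [(nat_lit 45, nat_lit 23758651392)]⟩],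
  [W_23757848576, W_23757590528, W_21610889216, W_20537409536, W_20536893440]⟩
theorem C_23758651392 : chkRec R_23758651392 = true := by decide +kernel

noncomputable def R_23774376066 : Rec := ⟨nat_lit 23774376066, nat_lit 6,
  [⟨V6_23690485890, [(nat_lit 74, nat_lit 23774376066), (nat_lit 48, nat_lit 24848113794), (nat_lit 56, nat_lit 24831340674), (nat_lit 125, nat_lit 25905078402), (nat_lit 7, nat_lit 25888305282), (nat_lit 52, nat_lit 26962043010), (nat_lit 72, nat_lit 26945269890), (nat_lit 10, nat_lit 28019007618), (nat_lit 10, nat_lit 28002234498), (nat_lit 77, nat_lit 29075972226), (nat_lit 11, nat_lit 29059199106), (nat_lit 26, nat_lit 30132936834)]⟩,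
   ⟨V6_21576556674, [(nat_lit 3, nat_lit 23774376066), (nat_lit 95, nat_lit 24848113794), (nat_lit 30, nat_lit 24831340674), (nat_lit 66, nat_lit 25905078402), (nat_lit 81, nat_lit 25888305282), (nat_lit 120, nat_lit 26962043010), (nat_lit 116, nat_lit 26945269890), (nat_lit 80, nat_lit 28019007618)]⟩,
   ⟨V6_20502818946, [(nat_lit 43, nat_lit 23774376066), (nat_lit 7, nat_lit 24831340674), (nat_lit 90, nat_lit 25888305282), (nat_lit 119, nat_lit 26945269890)]⟩,
   ⟨V6_18405404802, [(nat_lit 20, nat_lit 23774376066), (nat_lit 22, nat_lit 24847855746)]⟩],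
  [W_19479404672, W_19479146624]⟩
theorem C_23774376066 : chkRec R_23774376066 = true := by decide +kernel

noncomputable def R_23774376129 : Rec := ⟨nat_lit 23774376129, nat_lit 5,
  [⟨V6_19462631616, [(nat_lit 29, nat_lit 23774376129), (nat_lit 34, nat_lit 24848117952), (nat_lit 99, nat_lit 24831340737), (nat_lit 33, nat_lit 25905082560)]⟩],
  [W_23707267136, W_22666817600, W_20552888384]⟩
theorem C_23774376129 : chkRec R_23774376129 = true := by decide +kernel

noncomputable def R_23774380161 : Rec := ⟨nat_lit 23774380161, nat_lit 21,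
  [⟨V6_20553146433, [(nat_lit 75, nat_lit 23774380161), (nat_lit 106, nat_lit 24848121921), (nat_lit 125, nat_lit 24848117889), (nat_lit 40, nat_lit 25921859649), (nat_lit 4, nat_lit 25921855617), (nat_lit 105, nat_lit 26995597377)]⟩,
   ⟨V6_18405670977, [(nat_lit 105, nat_lit 23774380161), (nat_lit 98, nat_lit 24848121921)]⟩],
  [W_23724040256, W_23690494016, W_22667075648, W_22650302528, W_22650298496, W_22633529408, W_22616752256, W_21576564800, W_21559787648]⟩
theorem C_23774380161 : chkRec R_23774380161 = true := by decide +kernel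

noncomputable def R_23774380224 : Rec := ⟨nat_lit 23774380224, nat_lit 26,
  [⟨V6_20502823104, [(nat_lit 123, nat_lit 23774380224), (nat_lit 85, nat_lit 24831344832), (nat_lit 95, nat_lit 25888309440), (nat_lit 48, nat_lit 26945274048)]⟩,
   ⟨V6_19462631616, [(nat_lit 33, nat_lit 23774380224), (nat_lit 87, nat_lit 24848117952), (nat_lit 120, nat_lit 24831344832), (nat_lit 17, nat_lit 25905082560)]⟩,
   ⟨V6_17331929280, [(nat_lit 60, nat_lit 23774380224)]⟩],
  [W_23724044288, W_23707267136, W_20553150464, W_19479408704]⟩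
theorem C_23774380224 : chkRec R_23774380224 = true := by decide +kernel

noncomputable def R_23774634114 : Rec := ⟨nat_lit 23774634114, nat_lit 7,
  [⟨V6_21576818817, [(nat_lit 4, nat_lit 23774634114), (nat_lit 104, nat_lit 24848375937), (nat_lit 8, nat_lit 24831598722), (nat_lit 15, nat_lit 25905340545), (nat_lit 50, nat_lit 25888563330), (nat_lit 87, nat_lit 26962305153), (nat_lit 34, nat_lit 26945527938), (nat_lit 102, nat_lit 28019269761)]⟩,
   ⟨V6_21576556674, [(nat_lit 96, nat_lit 23774634114), (nat_lit 8, nat_lit 24848113794), (nat_lit 8, nat_lit 24831598722), (nat_lit 103, nat_lit 25905078402), (nat_lit 103, nat_lit 25888563330), (nat_lit 26, nat_lit 26962043010), (nat_lit 81, nat_lit 26945527938), (nat_lit 64, nat_lit 28019007618)]⟩],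
  [W_23740293248, W_23707263104, W_19479404672]⟩
theorem C_23774634114 : chkRec R_23774634114 = true := by decide +kernel

noncomputable def R_23774638209 : Rec := ⟨nat_lit 23774638209, nat_lit 31,
  [⟨V6_23723778177, [(nat_lit 107, nat_lit 23774638209), (nat_lit 50, nat_lit 24848375937), (nat_lit 88, nat_lit 24848117889), (nat_lit 12, nat_lit 24831602817), (nat_lit 70, nat_lit 25921855617), (nat_lit 23, nat_lit 25921597569), (nat_lit 30, nat_lit 25905340545), (nat_lit 72, nat_lit 25905082497), (nat_lit 17, nat_lit 25888567425), (nat_lit 9, nat_lit 26995335297), (nat_lit 12, nat_lit 26978820225), (nat_lit 85, nat_lit 26978562177), (nat_lit 50, nat_lit 26962305153), (nat_lit 58, nat_lit 26962047105), (nat_lit 79, nat_lit 26945532033), (nat_lit 33, nat_lit 28052299905), (nat_lit 106, nat_lit 28035784833), (nat_lit 75, nat_lit 28035526785), (nat_lit 1, nat_lit 28019269761), (nat_lit 10, nat_lit 28019011713), (nat_lit 47, nat_lit 29109264513), (nat_lit 97, nat_lit 29092749441), (nat_lit 97, nat_lit 29092491393), (nat_lit 120, nat_lit 30166229121)]⟩,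
   ⟨V6_22650298497, [(nat_lit 21, nat_lit 23774638209), (nat_lit 21, nat_lit 24848375937), (nat_lit 122, nat_lit 24848117889), (nat_lit 19, nat_lit 24831602817), (nat_lit 42, nat_lit 25921855617), (nat_lit 108, nat_lit 25905340545), (nat_lit 54, nat_lit 25905082497), (nat_lit 8, nat_lit 25888567425), (nat_lit 98, nat_lit 26978820225), (nat_lit 13, nat_lit 26962305153), (nat_lit 55, nat_lit 26962047105), (nat_lit 125, nat_lit 26945532033), (nat_lit 43, nat_lit 28035784833), (nat_lit 91, nat_lit 28019269761), (nat_lit 52, nat_lit 28019011713), (nat_lit 37, nat_lit 29092749441)]⟩,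
   ⟨V6_22633525377, [(nat_lit 124, nat_lit 23774638209), (nat_lit 125, nat_lit 24848117889), (nat_lit 109, nat_lit 24831602817), (nat_lit 51, nat_lit 25905082497), (nat_lit 97, nat_lit 25888567425), (nat_lit 6, nat_lit 26962047105), (nat_lit 31, nat_lit 26945532033), (nat_lit 47, nat_lit 28019011713), (nat_lit 32, nat_lit 28002496641), (nat_lit 92, nat_lit 29075976321)]⟩,
   ⟨V6_21593075841, [(nat_lit 113, nat_lit 23774638209), (nat_lit 60, nat_lit 24848117889), (nat_lit 72, nat_lit 24831602817), (nat_lit 1, nat_lit 25921597569), (nat_lit 114, nat_lit 25905082497), (nat_lit 99, nat_lit 25888567425), (nat_lit 23, nat_lit 26978562177), (nat_lit 91, nat_lit 26962047105), (nat_lit 81, nat_lit 28035526785)]⟩,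
   ⟨V6_21576818817, [(nat_lit 57, nat_lit 23774638209), (nat_lit 27, nat_lit 24848375937), (nat_lit 62, nat_lit 24831602817), (nat_lit 111, nat_lit 25905340545), (nat_lit 15, nat_lit 25888567425), (nat_lit 121, nat_lit 26962305153), (nat_lit 45, nat_lit 26945532033), (nat_lit 123, nat_lit 28019269761)]⟩,
   ⟨V6_21576560769, [(nat_lit 58, nat_lit 23774638209), (nat_lit 26, nat_lit 24848117889), (nat_lit 26, nat_lit 24831602817), (nat_lit 49, nat_lit 25905082497), (nat_lit 49, nat_lit 25888567425), (nat_lit 21, nat_lit 26962047105), (nat_lit 41, nat_lit 26945532033), (nat_lit 81, nat_lit 28019011713)]⟩,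
   ⟨V6_20553146433, [(nat_lit 13, nat_lit 23774638209), (nat_lit 19, nat_lit 24848379969), (nat_lit 50, nat_lit 24848375937), (nat_lit 24, nat_lit 24848117889), (nat_lit 3, nat_lit 25922117697), (nat_lit 17, nat_lit 25921859649), (nat_lit 55, nat_lit 25921855617), (nat_lit 59, nat_lit 26995597377)]⟩,
   ⟨V6_20536111233, [(nat_lit 114, nat_lit 23774638209), (nat_lit 103, nat_lit 24848117889), (nat_lit 76, nat_lit 24831602817), (nat_lit 123, nat_lit 25921597569), (nat_lit 68, nat_lit 25905082497), (nat_lit 106, nat_lit 26978562177)]⟩],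
  [W_22683590720, W_22633787456, W_21593595968, W_20536373312, W_20519858240, W_19479408704]⟩
theorem C_23774638209 : chkRec R_23774638209 = true := by decide +kernel

noncomputable def R_23774638272 : Rec := ⟨nat_lit 23774638272, nat_lit 26,
  [⟨V6_22683856896, [(nat_lit 51, nat_lit 23774638272), (nat_lit 97, nat_lit 24848380032), (nat_lit 111, nat_lit 24848117952), (nat_lit 102, nat_lit 24831602880), (nat_lit 28, nat_lit 25922121792), (nat_lit 20, nat_lit 25921859712), (nat_lit 98, nat_lit 25905344640), (nat_lit 9, nat_lit 25905082560), (nat_lit 111, nat_lit 26995863552), (nat_lit 37, nat_lit 26995601472), (nat_lit 115, nat_lit 26979086400), (nat_lit 66, nat_lit 26978824320), (nat_lit 84, nat_lit 28069343232), (nat_lit 94, nat_lit 28052828160), (nat_lit 81, nat_lit 28052566080), (nat_lit 113, nat_lit 29126307840)]⟩],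
  [W_20553150464, W_20536635392, W_18372374720]⟩
theorem C_23774638272 : chkRec R_23774638272 = true := by decide +kernel

noncomputable def R_23774642241 : Rec := ⟨nat_lit 23774642241, nat_lit 30,
  [⟨V6_21610369089, [(nat_lit 122, nat_lit 23774642241), (nat_lit 21, nat_lit 24848379969), (nat_lit 42, nat_lit 24831606849), (nat_lit 42, nat_lit 25922117697), (nat_lit 39, nat_lit 25905344577), (nat_lit 102, nat_lit 26995855425), (nat_lit 49, nat_lit 26979082305), (nat_lit 30, nat_lit 28052820033)]⟩,
   ⟨V6_21576564801, [(nat_lit 99, nat_lit 23774642241), (nat_lit 40, nat_lit 24848121921), (nat_lit 40, nat_lit 24831606849), (nat_lit 7, nat_lit 25905086529), (nat_lit 7, nat_lit 25888571457), (nat_lit 3, nat_lit 26962051137), (nat_lit 24, nat_lit 26945536065), (nat_lit 66, nat_lit 28019015745)]⟩,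
   ⟨V6_20553146433, [(nat_lit 7, nat_lit 23774642241), (nat_lit 52, nat_lit 24848379969), (nat_lit 65, nat_lit 24848121921), (nat_lit 109, nat_lit 25922117697), (nat_lit 33, nat_lit 25921859649), (nat_lit 94, nat_lit 26995597377)]⟩,
   ⟨V6_18405670977, [(nat_lit 10, nat_lit 23774642241), (nat_lit 120, nat_lit 24848121921)]⟩],
  [W_23724298304, W_23724040256, W_23707525184, W_22683848768, W_22667333696, W_21626884160, W_20503085120, W_19479408704]⟩
theorem C_23774642241 : chkRec R_23774642241 = true := by decide +kernel

noncomputable def R_23774642304 : Rec := ⟨nat_lit 23774642304, nat_lit 83,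
  [⟨V6_21610119168, [(nat_lit 10, nat_lit 23774642304), (nat_lit 30, nat_lit 24848384064), (nat_lit 87, nat_lit 24848121984), (nat_lit 85, nat_lit 24831606912), (nat_lit 57, nat_lit 25922125824), (nat_lit 2, nat_lit 25921863744), (nat_lit 69, nat_lit 25905348672), (nat_lit 48, nat_lit 25905086592), (nat_lit 46, nat_lit 26995605504), (nat_lit 116, nat_lit 26979090432), (nat_lit 63, nat_lit 26978828352), (nat_lit 99, nat_lit 28052570112)]⟩,
   ⟨V6_20553154560, [(nat_lit 54, nat_lit 23774642304), (nat_lit 91, nat_lit 24848384064), (nat_lit 97, nat_lit 24848121984), (nat_lit 42, nat_lit 25922125824), (nat_lit 42, nat_lit 25921863744), (nat_lit 102, nat_lit 26995605504)]⟩,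
   ⟨V6_18405671040, [(nat_lit 86, nat_lit 23774642304), (nat_lit 16, nat_lit 24848121984)]⟩],
  [W_23740817408, W_23724302336, W_23724044288, W_23724040256, W_23707525184, W_22683852800, W_22667075648, W_22650306560, W_22650298496, W_20536635392, W_19479404672, W_19462889600, W_18405924992]⟩
theorem C_23774642304 : chkRec R_23774642304 = true := by decide +kernel

noncomputable def R_23774646336 : Rec := ⟨nat_lit 23774646336, nat_lit 46,
  [⟨V6_20519866368, [(nat_lit 50, nat_lit 23774646336), (nat_lit 24, nat_lit 24848388096), (nat_lit 47, nat_lit 24831610944), (nat_lit 7, nat_lit 25905352704), (nat_lit 33, nat_lit 25888575552), (nat_lit 50, nat_lit 26962317312)]⟩,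
   ⟨V6_19462901760, [(nat_lit 35, nat_lit 23774646336), (nat_lit 64, nat_lit 24848388096), (nat_lit 90, nat_lit 24831610944), (nat_lit 97, nat_lit 25905352704)]⟩,
   ⟨V6_18405937152, [(nat_lit 82, nat_lit 23774646336), (nat_lit 103, nat_lit 24848388096)]⟩],
  [W_23724302336, W_23707525184, W_22684110848, W_22667333696, W_21627146240, W_17332195328, W_16258453568]⟩
theorem C_23774646336 : chkRec R_23774646336 = true := by decide +kernel

noncomputable def R_23774896257 : Rec := ⟨nat_lit 23774896257, nat_lit 32,
  [⟨V6_21577080960, [(nat_lit 125, nat_lit 23774896257), (nat_lit 86, nat_lit 24848638080), (nat_lit 56, nat_lit 24831860865), (nat_lit 45, nat_lit 25905602688), (nat_lit 112, nat_lit 25888825473), (nat_lit 59, nat_lit 26962567296), (nat_lit 12, nat_lit 26945790081), (nat_lit 96, nat_lit 28019531904)]⟩,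
   ⟨V6_19446374529, [(nat_lit 122, nat_lit 23774896257), (nat_lit 49, nat_lit 24831860865), (nat_lit 3, nat_lit 25888825473)]⟩,
   ⟨V6_18389409921, [(nat_lit 111, nat_lit 23774896257), (nat_lit 35, nat_lit 24831860865)]⟩],
  [W_23757070400, W_23740555328, W_23740293248, W_22683590720, W_22667075648, W_18406187072]⟩
theorem C_23774896257 : chkRec R_23774896257 = true := by decide +kernel

noncomputable def R_23774900289 : Rec := ⟨nat_lit 23774900289, nat_lit 38,
  [⟨V6_22667595840, [(nat_lit 7, nat_lit 23774900289), (nat_lit 51, nat_lit 24848642112), (nat_lit 95, nat_lit 24848638017), (nat_lit 70, nat_lit 24831864897), (nat_lit 67, nat_lit 25922379840), (nat_lit 45, nat_lit 25922375745), (nat_lit 18, nat_lit 25905606720), (nat_lit 66, nat_lit 25905602625), (nat_lit 9, nat_lit 25888829505), (nat_lit 85, nat_lit 26996117568), (nat_lit 66, nat_lit 26979344448), (nat_lit 100, nat_lit 26979340353), (nat_lit 73, nat_lit 26962571328), (nat_lit 42, nat_lit 26962567233), (nat_lit 49, nat_lit 28053082176), (nat_lit 36, nat_lit 28036309056), (nat_lit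 98, nat_lit 28036304961), (nat_lit 31, nat_lit 29110046784)]⟩,
   ⟨V6_21610631232, [(nat_lit 104, nat_lit 23774900289), (nat_lit 47, nat_lit 24848642112), (nat_lit 12, nat_lit 24848638017), (nat_lit 99, nat_lit 24831864897), (nat_lit 39, nat_lit 25922379840), (nat_lit 22, nat_lit 25922375745), (nat_lit 18, nat_lit 25905606720), (nat_lit 13, nat_lit 25905602625), (nat_lit 9, nat_lit 26996117568), (nat_lit 31, nat_lit 26979344448), (nat_lit 117, nat_lit 26979340353), (nat_lit 44, nat_lit 28053082176)]⟩,
   ⟨V6_19479924801, [(nat_lit 96, nat_lit 23774900289), (nat_lit 43, nat_lit 24848638017), (nat_lit 65, nat_lit 25922375745)]⟩],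
  [W_23724040256, W_21609852992, W_21593337920, W_21577080896, W_20536373312, W_19479408704, W_19463151680]⟩
theorem C_23774900289 : chkRec R_23774900289 = true := by decide +kernel

noncomputable def R_23774900352 : Rec := ⟨nat_lit 23774900352, nat_lit 110,
  [⟨V6_23740821504, [(nat_lit 59, nat_lit 23774900352), (nat_lit 93, nat_lit 24848642112), (nat_lit 126, nat_lit 24848380032), (nat_lit 71, nat_lit 24831864960), (nat_lit 61, nat_lit 25922383872), (nat_lit 14, nat_lit 25922121792), (nat_lit 110, nat_lit 25921859712), (nat_lit 100, nat_lit 25905606720), (nat_lit 30, nat_lit 25905344640), (nat_lit 57, nat_lit 25888829568), (nat_lit 10, nat_lit 26995863552), (nat_lit 68, nat_lit 26995601472), (nat_lit 65, nat_lit 26979348480), (nat_lit 103, nat_lit 26979086400), (nat_lit 55, nat_lit 26978824320), (nat_lit 71, nat_lit 26962571328), (nat_lit 66, nat_lit 26962309248), (nat_lit 37, nat_lit 28069343232), (nat_lit 19, nat_lit 28052828160), (nat_lit 60, nat_lit 28052566080), (nat_lit 3, nat_lit 28036313088), (nat_lit 71, nat_lit 28036051008),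 (nat_lit 19, nat_lit 28035788928), (nat_lit 60, nat_lit 29126307840), (nat_lit 11, nat_lit 29109792768), (nat_lit 107, nat_lit 29109530688), (nat_lit 17, nat_lit 30183272448)]⟩,
   ⟨V6_23724564480, [(nat_lit 92, nat_lit 23774900352), (nat_lit 54, nat_lit 24848642112), (nat_lit 17, nat_lit 24848638080), (nat_lit 18, nat_lit 24831864960), (nat_lit 78, nat_lit 25922383872), (nat_lit 63, nat_lit 25922379840), (nat_lit 94, nat_lit 25905606720), (nat_lit 16, nat_lit 25905602688), (nat_lit 49, nat_lit 25888829568), (nat_lit 23, nat_lit 26996121600), (nat_lit 68, nat_lit 26979348480), (nat_lit 102, nat_lit 26979344448), (nat_lit 67, nat_lit 26962571328), (nat_lit 28, nat_lit 26962567296), (nat_lit 83, nat_lit 26945794176), (nat_lit 6, nat_lit 28053086208), (nat_lit 45, nat_lit 28036313088), (nat_lit 45, nat_lit 28036309056), (nat_lit 112, nat_lit 28019535936), (nat_lit 69, nat_lit 28019531904), (nat_lit 93, nat_lit 29110050816), (nat_lit 61, nat_lit 29093277696), (nat_lit 66, nat_lit 29093273664), (nat_lit 60, nat_lit 30167015424)]⟩,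
   ⟨V6_22700371968, [(nat_lit 88, nat_lit 23774900352), (nat_lit 107, nat_lit 24848642112), (nat_lit 46, nat_lit 24848380032), (nat_lit 29, nat_lit 25922383872), (nat_lit 108, nat_lit 25922121792), (nat_lit 3, nat_lit 25921859712), (nat_lit 10, nat_lit 26995863552), (nat_lit 17, nat_lit 26995601472), (nat_lit 44, nat_lit 26995339392), (nat_lit 50, nat_lit 28069343232), (nat_lit 43, nat_lit 28069081152), (nat_lit 34, nat_lit 29142822912)]⟩,
   ⟨V6_22683856896, [(nat_lit 70, nat_lit 23774900352), (nat_lit 4, nat_lit 24848642112), (nat_lit 102, nat_lit 24848380032), (nat_lit 94, nat_lit 24831864960), (nat_lit 80, nat_lit 25922383872), (nat_lit 40, nat_lit 25922121792), (nat_lit 38, nat_lit 25921859712), (nat_lit 113, nat_lit 25905606720), (nat_lit 67, nat_lit 25905344640), (nat_lit 97, nat_lit 26995863552), (nat_lit 106, nat_lit 26995601472), (nat_lit 14, nat_lit 26979348480), (nat_lit 20, nat_lit 26979086400), (nat_lit 95, nat_lit 26978824320), (nat_lit 67, nat_lit 28069343232), (nat_lit 96, nat_lit 28052828160), (nat_lit 124, nat_lit 28052566080),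 (nat_lit 73, nat_lit 29126307840)]⟩,
   ⟨V6_22650826752, [(nat_lit 82, nat_lit 23774900352), (nat_lit 124, nat_lit 24848642112), (nat_lit 115, nat_lit 24831864960), (nat_lit 9, nat_lit 25922383872), (nat_lit 21, nat_lit 25905606720), (nat_lit 34, nat_lit 25888829568), (nat_lit 73, nat_lit 26979348480), (nat_lit 112, nat_lit 26962571328), (nat_lit 51, nat_lit 26945794176), (nat_lit 67, nat_lit 28036313088), (nat_lit 86, nat_lit 28019535936), (nat_lit 107, nat_lit 29093277696)]⟩],
  [W_23723778176, W_22700367872, W_20553150464, W_20536893440, W_20520120320, W_20503339136, W_19479404672, W_19463155712, W_19462889600, W_19446374528, W_18405924992, W_16258707584]⟩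
theorem C_23774900352 : chkRec R_23774900352 = true := by decide +kernel

noncomputable def R_23774904384 : Rec := ⟨nat_lit 23774904384, nat_lit 150,
  [⟨V6_23741337600, [(nat_lit 115, nat_lit 23774904384), (nat_lit 33, nat_lit 24848646144), (nat_lit 48, nat_lit 24848642112), (nat_lit 58, nat_lit 24831868992), (nat_lit 37, nat_lit 25922383872), (nat_lit 59, nat_lit 25922379840), (nat_lit 81, nat_lit 25905610752), (nat_lit 123, nat_lit 25905606720), (nat_lit 100, nat_lit 25888833600), (nat_lit 72, nat_lit 26996121600), (nat_lit 3, nat_lit 26996117568), (nat_lit 79, nat_lit 26979348480), (nat_lit 79, nat_lit 26979344448), (nat_lit 28, nat_lit 26962575360), (nat_lit 88, nat_lit 26962571328), (nat_lit 63, nat_lit 28069859328), (nat_lit 114, nat_lit 28053086208), (nat_lit 7, nat_lit 28053082176), (nat_lit 93, nat_lit 28036313088), (nat_lit 62, nat_lit 28036309056), (nat_lit 126, nat_lit 29126823936), (nat_lit 95, nat_lit 29110050816), (nat_lit 99, nat_lit 29110046784), (nat_lit 22, nat_lit 30183788544)]⟩,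
   ⟨V6_23724048384, [(nat_lit 61, nat_lit 23774904384), (nat_lit 86, nat_lit 24848646144), (nat_lit 30, nat_lit 24848384064), (nat_lit 23, nat_lit 24831868992), (nat_lit 26, nat_lit 25922125824), (nat_lit 114, nat_lit 25921863744), (nat_lit 4, nat_lit 25905610752), (nat_lit 112, nat_lit 25905348672), (nat_lit 20, nat_lit 25888833600), (nat_lit 53, nat_lit 26995605504), (nat_lit 7, nat_lit 26979090432), (nat_lit 20, nat_lit 26978828352), (nat_lit 113, nat_lit 26962575360), (nat_lit 93, nat_lit 26962313280), (nat_lit 71, nat_lit 26945798208), (nat_lit 92, nat_lit 28052570112), (nat_lit 28, nat_lit 28036055040), (nat_lit 54, nat_lit 28035792960), (nat_lit 107, nat_lit 28019539968), (nat_lit 110, nat_lit 28019277888), (nat_lit 20, nat_lit 29109534720), (nat_lit 11, nat_lit 29093019648), (nat_lit 78, nat_lit 29092757568), (nat_lit 61, nat_lit 30166499328)]⟩,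
   ⟨V6_21627408384, [(nat_lit 57, nat_lit 23774904384), (nat_lit 57, nat_lit 24848646144), (nat_lit 16, nat_lit 24848642112), (nat_lit 34, nat_lit 25922383872), (nat_lit 79, nat_lit 25922379840), (nat_lit 44, nat_lit 26996121600), (nat_lit 21, nat_lit 26996117568), (nat_lit 59, nat_lit 28069859328)]⟩,
   ⟨V6_21610119168, [(nat_lit 97, nat_lit 23774904384), (nat_lit 120, nat_lit 24848646144), (nat_lit 71, nat_lit 24848384064), (nat_lit 97, nat_lit 24831868992), (nat_lit 17, nat_lit 25922125824), (nat_lit 51, nat_lit 25921863744), (nat_lit 121, nat_lit 25905610752), (nat_lit 8, nat_lit 25905348672), (nat_lit 116, nat_lit 26995605504), (nat_lit 99, nat_lit 26979090432), (nat_lit 99, nat_lit 26978828352), (nat_lit 50, nat_lit 28052570112)]⟩,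
   ⟨V6_20553154560, [(nat_lit 105, nat_lit 23774904384), (nat_lit 44, nat_lit 24848646144), (nat_lit 118, nat_lit 24848384064), (nat_lit 66, nat_lit 25922125824), (nat_lit 55, nat_lit 25921863744), (nat_lit 75, nat_lit 26995605504)]⟩],
  [W_23724560384, W_23724302336, W_22667595776, W_22650822656, W_21577084928, W_21577080896, W_20553150464, W_20536893440, W_20520120320, W_20520116288, W_20503347200, W_20503343168, W_19479412736, W_19463155712, W_19446382592, W_19429605440, W_18372640832]⟩
theorem C_23774904384 : chkRec R_23774904384 = true := by decide +kernel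

noncomputable def R_23774908416 : Rec := ⟨nat_lit 23774908416, nat_lit 91,
  [⟨V6_20503351296, [(nat_lit 58, nat_lit 23774908416), (nat_lit 101, nat_lit 24831873024), (nat_lit 83, nat_lit 25888837632), (nat_lit 66, nat_lit 26945802240)]⟩,
   ⟨V6_19462901760, [(nat_lit 64, nat_lit 23774908416), (nat_lit 105, nat_lit 24848388096), (nat_lit 116, nat_lit 24831873024), (nat_lit 76, nat_lit 25905352704)]⟩,
   ⟨V6_19446386688, [(nat_lit 36, nat_lit 23774908416), (nat_lit 79, nat_lit 24831873024), (nat_lit 80, nat_lit 25888837632)]⟩,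
   ⟨V6_18405937152, [(nat_lit 49, nat_lit 23774908416), (nat_lit 40, nat_lit 24848388096)]⟩,
   ⟨V6_18389422080, [(nat_lit 88, nat_lit 23774908416), (nat_lit 125, nat_lit 24831873024)]⟩],
  [W_23757848576, W_23741075456, W_23724302336, W_22700883968, W_22684368896, W_22667595776, W_22650822656, W_22650564608, W_21627404288, W_21577084928, W_19429609472, W_17332195328]⟩
theorem C_23774908416 : chkRec R_23774908416 = true := by decide +kernel

noncomputable def R_23775158337 : Rec := ⟨nat_lit 23775158337, nat_lit 35,
  [⟨V6_22700105793, [(nat_lit 9, nat_lit 23775158337), (nat_lit 87, nat_lit 24848638017), (nat_lit 105, nat_lit 25922117697), (nat_lit 96, nat_lit 26995597377), (nat_lit 11, nat_lit 28069077057), (nat_lit 125, nat_lit 29142556737)]⟩,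
   ⟨V6_19480186944, [(nat_lit 15, nat_lit 23775158337), (nat_lit 53, nat_lit 24848900160), (nat_lit 90, nat_lit 24848896065), (nat_lit 72, nat_lit 25922637888)]⟩,
   ⟨V6_19446636609, [(nat_lit 26, nat_lit 23775158337), (nat_lit 50, nat_lit 24832122945), (nat_lit 86, nat_lit 25889087553)]⟩],
  [W_23773843520, W_23757328448, W_23757070400, W_23740813376, W_23740555328, W_22683590720, W_22667333696, W_21593595968, W_20520374336, W_19446636608]⟩
theorem C_23775158337 : chkRec R_23775158337 = true := by decide +kernel

noncomputable def R_23775158400 : Rec := ⟨nat_lit 23775158400, nat_lit 72,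
  [⟨V6_20537155584, [(nat_lit 103, nat_lit 23775158400), (nat_lit 18, nat_lit 24848900160), (nat_lit 77, nat_lit 24832123008), (nat_lit 81, nat_lit 25922641920), (nat_lit 111, nat_lit 25905864768), (nat_lit 29, nat_lit 26979606528)]⟩,
   ⟨V6_18389672064, [(nat_lit 31, nat_lit 23775158400), (nat_lit 83, nat_lit 24832123008)]⟩],
  [W_23757332480, W_23757070400, W_23740555328, W_23740293248, W_22700367872, W_22683852800, W_22683590720, W_22683328640, W_22667337728, W_19479404672, W_19446374528]⟩
theorem C_23775158400 : chkRec R_23775158400 = true := by decide +kernel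

noncomputable def R_23775162432 : Rec := ⟨nat_lit 23775162432, nat_lit 148,
  [⟨V6_22667857920, [(nat_lit 46, nat_lit 23775162432), (nat_lit 87, nat_lit 24848904192), (nat_lit 43, nat_lit 24848900160), (nat_lit 76, nat_lit 24832127040), (nat_lit 38, nat_lit 25922641920), (nat_lit 119, nat_lit 25922637888), (nat_lit 53, nat_lit 25905868800), (nat_lit 67, nat_lit 25905864768), (nat_lit 26, nat_lit 25889091648), (nat_lit 27, nat_lit 26996379648), (nat_lit 44, nat_lit 26979606528), (nat_lit 94, nat_lit 26979602496), (nat_lit 78, nat_lit 26962833408), (nat_lit 25, nat_lit 26962829376), (nat_lit 100, nat_lit 28053344256), (nat_lit 5, nat_lit 28036571136), (nat_lit 18, nat_lit 28036567104), (nat_lit 81, nat_lit 29110308864)]⟩,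
   ⟨V6_21627408384, [(nat_lit 29, nat_lit 23775162432), (nat_lit 55, nat_lit 24848904192), (nat_lit 64, nat_lit 24848900160), (nat_lit 81, nat_lit 24848642112), (nat_lit 84, nat_lit 25922641920), (nat_lit 92, nat_lit 25922637888), (nat_lit 96, nat_lit 25922383872), (nat_lit 103, nat_lit 25922379840), (nat_lit 34, nat_lit 26996379648), (nat_lit 95, nat_lit 26996121600), (nat_lit 77, nat_lit 26996117568), (nat_lit 24, nat_lit 28069859328)]⟩,
   ⟨V6_21610893312, [(nat_lit 8, nat_lit 23775162432), (nat_lit 2, nat_lit 24848904192), (nat_lit 85, nat_lit 24848900160), (nat_lit 49, nat_lit 24832127040), (nat_lit 12, nat_lit 25922641920), (nat_lit 88, nat_lit 25922637888), (nat_lit 74, nat_lit 25905868800), (nat_lit 35, nat_lit 25905864768), (nat_lit 33, nat_lit 26996379648), (nat_lit 64, nat_lit 26979606528), (nat_lit 21, nat_lit 26979602496), (nat_lit 102, nat_lit 28053344256)]⟩,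
   ⟨V6_20520382464, [(nat_lit 94, nat_lit 23775162432), (nat_lit 101, nat_lit 24848904192), (nat_lit 2, nat_lit 24832127040), (nat_lit 3, nat_lit 25905868800), (nat_lit 123, nat_lit 25889091648), (nat_lit 94, nat_lit 26962833408)]⟩,
   ⟨V6_19480186944, [(nat_lit 106, nat_lit 23775162432), (nat_lit 66, nat_lit 24848900160), (nat_lit 85, nat_lit 25922637888)]⟩],
  [W_23757332480, W_23740817408, W_23740559360, W_20553150464, W_20536893440, W_20536635392, W_19480186880, W_19463413760, W_19463155712, W_18389676032]⟩
theorem C_23775162432 : chkRec R_23775162432 = true := by decide +kernel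

noncomputable def R_23775166464 : Rec := ⟨nat_lit 23775166464, nat_lit 132,
  [⟨V6_21627408384, [(nat_lit 61, nat_lit 23775166464), (nat_lit 33, nat_lit 24848904192), (nat_lit 1, nat_lit 24848646144), (nat_lit 93, nat_lit 25922641920), (nat_lit 118, nat_lit 25922383872), (nat_lit 70, nat_lit 26996379648), (nat_lit 1, nat_lit 26996121600), (nat_lit 95, nat_lit 28069859328)]⟩,
   ⟨V6_21610119168, [(nat_lit 99, nat_lit 23775166464), (nat_lit 89, nat_lit 24848646144), (nat_lit 121, nat_lit 24832131072), (nat_lit 24, nat_lit 25922125824), (nat_lit 43, nat_lit 25905610752), (nat_lit 86, nat_lit 26995605504), (nat_lit 86, nat_lit 26979090432), (nat_lit 82, nat_lit 28052570112)]⟩,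
   ⟨V6_20553154560, [(nat_lit 35, nat_lit 23775166464), (nat_lit 3, nat_lit 24848646144), (nat_lit 11, nat_lit 25922125824), (nat_lit 14, nat_lit 26995605504)]⟩,
   ⟨V6_19446644736, [(nat_lit 89, nat_lit 23775166464), (nat_lit 93, nat_lit 24832131072), (nat_lit 99, nat_lit 25889095680)]⟩],
  [W_23774363648, W_23757848576, W_23741333504, W_23740817408, W_21610889216, W_21594116096, W_20536893440, W_19463413760, W_18389676032, W_18372902912, W_17315938304]⟩
theorem C_23775166464 : chkRec R_23775166464 = true := by decide +kernel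

noncomputable def R_23775416385 : Rec := ⟨nat_lit 23775416385, nat_lit 9,
  [⟨V6_19479924801, [(nat_lit 65, nat_lit 23775416385), (nat_lit 95, nat_lit 24848896065), (nat_lit 68, nat_lit 25922375745)]⟩,
   ⟨V6_17332965441, [(nat_lit 69, nat_lit 23775416385)]⟩],
  [W_23773843520, W_22700363840, W_22683848768]⟩
theorem C_23775416385 : chkRec R_23775416385 = true := by decide +kernel

noncomputable def R_23775420480 : Rec := ⟨nat_lit 23775420480, nat_lit 102,
  [⟨V6_20537155584, [(nat_lit 68, nat_lit 23775420480), (nat_lit 36, nat_lit 24849162240), (nat_lit 84, nat_lit 24848900160), (nat_lit 20, nat_lit 24832385088), (nat_lit 20, nat_lit 25922641920), (nat_lit 119, nat_lit 25906126848), (nat_lit 18, nat_lit 25905864768), (nat_lit 27, nat_lit 26979606528)]⟩,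
   ⟨V6_18406711296, [(nat_lit 18, nat_lit 23775420480), (nat_lit 35, nat_lit 24849162240)]⟩,
   ⟨V6_18406707264, [(nat_lit 100, nat_lit 23775420480), (nat_lit 52, nat_lit 24849158208)]⟩],
  [W_23774105600, W_23773843520, W_23757590528, W_23757332480, W_23757328448, W_23757070400, W_22700367872, W_22683852800, W_22683590720, W_20536893440, W_18389930048]⟩
theorem C_23775420480 : chkRec R_23775420480 = true := by decide +kernel

noncomputable def R_23775424512 : Rec := ⟨nat_lit 23775424512, nat_lit 117,
  [⟨V6_22683856896, [(nat_lit 115, nat_lit 23775424512), (nat_lit 66, nat_lit 24848904192), (nat_lit 82, nat_lit 24832389120), (nat_lit 26, nat_lit 25922383872), (nat_lit 76, nat_lit 25905868800), (nat_lit 102, nat_lit 26995863552), (nat_lit 51, nat_lit 26979348480), (nat_lit 68, nat_lit 28069343232), (nat_lit 104, nat_lit 28052828160), (nat_lit 44, nat_lit 29126307840)]⟩,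
   ⟨V6_21611151360, [(nat_lit 21, nat_lit 23775424512), (nat_lit 126, nat_lit 24849162240), (nat_lit 15, nat_lit 24832389120), (nat_lit 29, nat_lit 25922899968), (nat_lit 37, nat_lit 25906126848), (nat_lit 34, nat_lit 26996637696), (nat_lit 55, nat_lit 26979864576), (nat_lit 70, nat_lit 28053602304)]⟩,
   ⟨V6_20554186752, [(nat_lit 75, nat_lit 23775424512), (nat_lit 35, nat_lit 24849162240), (nat_lit 119, nat_lit 25922899968), (nat_lit 114, nat_lit 26996637696)]⟩,
   ⟨V6_18406711296, [(nat_lit 5, nat_lit 23775424512), (nat_lit 46, nat_lit 24849162240)]⟩],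
  [W_23774363648, W_23757848576, W_22700367872, W_20537409536, W_20536893440, W_19480186880, W_19463413760, W_18389934080]⟩
theorem C_23775424512 : chkRec R_23775424512 = true := by decide +kernel

noncomputable def R_23775678528 : Rec := ⟨nat_lit 23775678528, nat_lit 28,
  [⟨V6_23774105664, [(nat_lit 47, nat_lit 23775678528), (nat_lit 69, nat_lit 24849158208), (nat_lit 2, nat_lit 25922637888), (nat_lit 21, nat_lit 26996117568), (nat_lit 82, nat_lit 28069597248), (nat_lit 106, nat_lit 29143076928), (nat_lit 88, nat_lit 30216556608)]⟩,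
   ⟨V6_18406707264, [(nat_lit 55, nat_lit 23775678528), (nat_lit 45, nat_lit 24849158208)]⟩],
  [W_23773843520, W_19480186880, W_17333227520, W_16259485760]⟩
theorem C_23775678528 : chkRec R_23775678528 = true := by decide +kernel

noncomputable def R_23775682560 : Rec := ⟨nat_lit 23775682560, nat_lit 48,
  [⟨V6_20554186752, [(nat_lit 114, nat_lit 23775682560), (nat_lit 56, nat_lit 24849420288), (nat_lit 36, nat_lit 24849162240), (nat_lit 79, nat_lit 25923158016), (nat_lit 116, nat_lit 25922899968), (nat_lit 10, nat_lit 26996637696)]⟩,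
   ⟨V6_18406711296, [(nat_lit 105, nat_lit 23775682560), (nat_lit 109, nat_lit 24849162240)]⟩],
  [W_23774363648, W_23773847552, W_22700883968, W_22700367872, W_18406965248, W_17333227520]⟩
theorem C_23775682560 : chkRec R_23775682560 = true := by decide +kernel

noncomputable def R_23790891138 : Rec := ⟨nat_lit 23790891138, nat_lit 1,
  [⟨V6_18405404802, [(nat_lit 96, nat_lit 23790891138), (nat_lit 54, nat_lit 24847855746)]⟩],
  [W_23723778176]⟩
theorem C_23790891138 : chkRec R_23790891138 = true := by decide +kernel

noncomputable def R_23790891201 : Rec := ⟨nat_lit 23790891201, nat_lit 1,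
  [⟨V6_19479146688, [(nat_lit 89, nat_lit 23790891201), (nat_lit 72, nat_lit 24864633024), (nat_lit 124, nat_lit 24847855809), (nat_lit 95, nat_lit 25921597632)]⟩],
  [W_22666817600]⟩
theorem C_23790891201 : chkRec R_23790891201 = true := by decide +kernel

noncomputable def R_23791149186 : Rec := ⟨nat_lit 23791149186, nat_lit 10,
  [⟨V6_19496181888, [(nat_lit 54, nat_lit 23791149186), (nat_lit 30, nat_lit 24864891009), (nat_lit 16, nat_lit 25938632832)]⟩],
  [W_23740293248, W_23723778176, W_23707263104, W_22650298496, W_21609848960]⟩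
theorem C_23791149186 : chkRec R_23791149186 = true := by decide +kernel

noncomputable def R_23791153281 : Rec := ⟨nat_lit 23791153281, nat_lit 24,
  [⟨V6_19496181888, [(nat_lit 51, nat_lit 23791153281), (nat_lit 117, nat_lit 24864895104), (nat_lit 113, nat_lit 24864891009), (nat_lit 27, nat_lit 25938632832)]⟩],
  [W_23740555328, W_23724040256, W_23723778176, W_23707267136, W_23707263104, W_22683590720, W_22666813568, W_22650302528, W_21593337920, W_20552888384]⟩
theorem C_23791153281 : chkRec R_23791153281 = true := by decide +kernel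

noncomputable def R_23791153344 : Rec := ⟨nat_lit 23791153344, nat_lit 18,
  [⟨V6_21643407360, [(nat_lit 47, nat_lit 23791153344), (nat_lit 13, nat_lit 24864895104), (nat_lit 119, nat_lit 24864633024), (nat_lit 60, nat_lit 25938636864), (nat_lit 111, nat_lit 25938374784), (nat_lit 64, nat_lit 27012378624), (nat_lit 58, nat_lit 27012116544), (nat_lit 8, nat_lit 28085858304)]⟩,
   ⟨V6_17348702400, [(nat_lit 77, nat_lit 23791153344)]⟩],
  [W_23724044288, W_23707267136, W_19496185856]⟩
theorem C_23791153344 : chkRec R_23791153344 = true := by decide +kernel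

noncomputable def R_23791157313 : Rec := ⟨nat_lit 23791157313, nat_lit 19,
  [⟨V6_20569919553, [(nat_lit 71, nat_lit 23791157313), (nat_lit 22, nat_lit 24864895041), (nat_lit 26, nat_lit 25938632769), (nat_lit 21, nat_lit 27012370497)]⟩,
   ⟨V6_18405670977, [(nat_lit 90, nat_lit 23791157313), (nat_lit 3, nat_lit 24848121921)]⟩,
   ⟨V6_17348706369, [(nat_lit 31, nat_lit 23791157313)]⟩],
  [W_23724040256, W_23707267136, W_23690494016, W_22683848768, W_22667075648, W_22633529408, W_21626884160]⟩
theorem C_23791157313 : chkRec R_23791157313 = true := by decide +kernel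

noncomputable def R_23791157376 : Rec := ⟨nat_lit 23791157376, nat_lit 67,
  [⟨V6_19496189952, [(nat_lit 50, nat_lit 23791157376), (nat_lit 47, nat_lit 24864899136), (nat_lit 3, nat_lit 25938640896)]⟩,
   ⟨V6_18405671040, [(nat_lit 61, nat_lit 23791157376), (nat_lit 74, nat_lit 24848121984)]⟩],
  [W_23740817408, W_23724044288, W_23724040256, W_23707271168, W_23707267136, W_23690494016, W_22667075648, W_22650306560, W_22650302528, W_22650298496, W_21593333888, W_20569923584]⟩
theorem C_23791157376 : chkRec R_23791157376 = true := by decide +kernel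

noncomputable def R_23791411329 : Rec := ⟨nat_lit 23791411329, nat_lit 33,
  [⟨V6_19496181888, [(nat_lit 41, nat_lit 23791411329), (nat_lit 52, nat_lit 24865153152), (nat_lit 110, nat_lit 24864891009), (nat_lit 18, nat_lit 25938632832)]⟩],
  [W_23757070400, W_23740555328, W_23740293248, W_23723778176, W_23707263104, W_22683590720, W_22667075648, W_22650560576, W_21643141184, W_21593595968]⟩
theorem C_23791411329 : chkRec R_23791411329 = true := by decide +kernel

noncomputable def R_23791415361 : Rec := ⟨nat_lit 23791415361, nat_lit 39,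
  [⟨V6_23774105664, [(nat_lit 8, nat_lit 23791415361), (nat_lit 66, nat_lit 24865157184), (nat_lit 70, nat_lit 24865153089), (nat_lit 119, nat_lit 24864895041), (nat_lit 34, nat_lit 24848379969), (nat_lit 108, nat_lit 25938894912), (nat_lit 91, nat_lit 25938890817), (nat_lit 12, nat_lit 25938636864), (nat_lit 80, nat_lit 25938632769), (nat_lit 56, nat_lit 25938374721), (nat_lit 86, nat_lit 25922121792), (nat_lit 75, nat_lit 25922117697), (nat_lit 63, nat_lit 25921859649), (nat_lit 50, nat_lit 27012632640), (nat_lit 126, nat_lit 27012374592), (nat_lit 94, nat_lit 27012370497), (nat_lit 66, nat_lit 27012116544), (nat_lit 100, nat_lit 27012112449), (nat_lit 38, nat_lit 26995859520), (nat_lit 60, nat_lit 26995855425), (nat_lit 24, nat_lit 26995601472), (nat_lit 13, nat_lit 26995597377), (nat_lit 34, nat_lit 26995339329), (nat_lit 34, nat_lit 28086112320), (nat_lit 35, nat_lit 28085854272), (nat_lit 29, nat_lit 28085850177), (nat_lit 85, nat_lit 28069597248), (nat_lit 71, nat_lit 28069339200), (nat_lit 111, nat_lit 28069335105), (nat_lit 103,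 nat_lit 28069081152), (nat_lit 49, nat_lit 28069077057), (nat_lit 90, nat_lit 29159592000), (nat_lit 58, nat_lit 29143076928), (nat_lit 117, nat_lit 29142818880), (nat_lit 108, nat_lit 29142814785), (nat_lit 40, nat_lit 30216556608)]⟩,
   ⟨V6_22717141056, [(nat_lit 33, nat_lit 23791415361), (nat_lit 105, nat_lit 24865157184), (nat_lit 66, nat_lit 24865153089), (nat_lit 32, nat_lit 24864895041), (nat_lit 97, nat_lit 25938894912), (nat_lit 1, nat_lit 25938890817), (nat_lit 77, nat_lit 25938636864), (nat_lit 72, nat_lit 25938632769), (nat_lit 65, nat_lit 25938374721), (nat_lit 50, nat_lit 27012632640), (nat_lit 7, nat_lit 27012374592), (nat_lit 112, nat_lit 27012370497), (nat_lit 18, nat_lit 27012116544), (nat_lit 68, nat_lit 27012112449), (nat_lit 44, nat_lit 28086112320), (nat_lit 83, nat_lit 28085854272), (nat_lit 119, nat_lit 28085850177), (nat_lit 88, nat_lit 29159592000)]⟩,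
   ⟨V6_21643399233, [(nat_lit 12, nat_lit 23791415361), (nat_lit 109, nat_lit 24865153089), (nat_lit 93, nat_lit 24864895041), (nat_lit 123, nat_lit 25938890817), (nat_lit 105, nat_lit 25938632769), (nat_lit 11, nat_lit 25938374721), (nat_lit 39, nat_lit 27012370497), (nat_lit 7, nat_lit 27012112449), (nat_lit 95, nat_lit 28085850177)]⟩,
   ⟨V6_21626884161, [(nat_lit 57, nat_lit 23791415361), (nat_lit 102, nat_lit 24865153089), (nat_lit 65, nat_lit 24864895041), (nat_lit 109, nat_lit 24848379969), (nat_lit 56, nat_lit 25938890817), (nat_lit 59, nat_lit 25938632769), (nat_lit 74, nat_lit 25922117697), (nat_lit 40, nat_lit 25921859649), (nat_lit 90, nat_lit 27012370497), (nat_lit 84, nat_lit 26995855425), (nat_lit 69, nat_lit 26995597377), (nat_lit 30, nat_lit 28069335105)]⟩,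
   ⟨V6_20569919553, [(nat_lit 113, nat_lit 23791415361), (nat_lit 78, nat_lit 24865153089), (nat_lit 61, nat_lit 24864895041), (nat_lit 55, nat_lit 25938890817), (nat_lit 10, nat_lit 25938632769), (nat_lit 39, nat_lit 27012370497)]⟩,
   ⟨V6_20569661505, [(nat_lit 89, nat_lit 23791415361), (nat_lit 62, nat_lit 24865153089), (nat_lit 98, nat_lit 24864895041), (nat_lit 29, nat_lit 25938632769), (nat_lit 4, nat_lit 25938374721), (nat_lit 37, nat_lit 27012112449)]⟩],
  [W_23724298304, W_23724040256, W_23707525184, W_23707267136, W_22667333696, W_22633787456, W_21593337920, W_21576822848, W_20536373312, W_20519858240, W_19495923776, W_19479408704]⟩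
theorem C_23791415361 : chkRec R_23791415361 = true := by decide +kernel

noncomputable def R_23791415424 : Rec := ⟨nat_lit 23791415424, nat_lit 100,
  [⟨V6_23740821504, [(nat_lit 24, nat_lit 23791415424), (nat_lit 117, nat_lit 24865157184), (nat_lit 45, nat_lit 24864895104), (nat_lit 81, nat_lit 24848380032), (nat_lit 72, nat_lit 25938898944), (nat_lit 40, nat_lit 25938636864), (nat_lit 89, nat_lit 25922121792), (nat_lit 2, nat_lit 25921859712), (nat_lit 73, nat_lit 25905344640), (nat_lit 63, nat_lit 27012378624), (nat_lit 24, nat_lit 26995863552), (nat_lit 62, nat_lit 26995601472), (nat_lit 97, nat_lit 26979086400), (nat_lit 48, nat_lit 26978824320), (nat_lit 125, nat_lit 26962309248), (nat_lit 47, nat_lit 28069343232), (nat_lit 106, nat_lit 28052828160), (nat_lit 56, nat_lit 28052566080), (nat_lit 110, nat_lit 28036051008), (nat_lit 32, nat_lit 28035788928), (nat_lit 20, nat_lit 29126307840), (nat_lit 106, nat_lit 29109792768), (nat_lit 114, nat_lit 29109530688), (nat_lit 106, nat_lit 30183272448)]⟩,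
   ⟨V6_22700371968, [(nat_lit 99, nat_lit 23791415424), (nat_lit 114, nat_lit 24865157184), (nat_lit 8, nat_lit 24864895104), (nat_lit 84, nat_lit 24848380032), (nat_lit 46, nat_lit 25938898944), (nat_lit 84, nat_lit 25938636864), (nat_lit 42, nat_lit 25938374784), (nat_lit 106, nat_lit 25922121792), (nat_lit 37, nat_lit 25921859712), (nat_lit 87, nat_lit 27012378624), (nat_lit 64, nat_lit 27012116544), (nat_lit 24, nat_lit 26995863552), (nat_lit 79, nat_lit 26995601472), (nat_lit 109, nat_lit 26995339392), (nat_lit 63, nat_lit 28085858304), (nat_lit 115, nat_lit 28069343232), (nat_lit 5, nat_lit 28069081152), (nat_lit 82, nat_lit 29142822912)]⟩,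
   ⟨V6_21643407360, [(nat_lit 17, nat_lit 23791415424), (nat_lit 106, nat_lit 24865157184), (nat_lit 84, nat_lit 24864895104), (nat_lit 99, nat_lit 25938898944), (nat_lit 60, nat_lit 25938636864), (nat_lit 73, nat_lit 25938374784), (nat_lit 46, nat_lit 27012378624), (nat_lit 104, nat_lit 27012116544), (nat_lit 76, nat_lit 28085858304)]⟩,
   ⟨V6_20569927680, [(nat_lit 26, nat_lit 23791415424), (nat_lit 25, nat_lit 24865157184), (nat_lit 42, nat_lit 24864895104), (nat_lit 119, nat_lit 25938898944), (nat_lit 119, nat_lit 25938636864), (nat_lit 35, nat_lit 27012378624)]⟩],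
  [W_23724302336, W_23707525184, W_22700367872, W_20569923584, W_20553150464, W_19496185856, W_19479404672, W_19462889600, W_18422440064, W_18405924992]⟩
theorem C_23791415424 : chkRec R_23791415424 = true := by decide +kernel

noncomputable def R_23791419456 : Rec := ⟨nat_lit 23791419456, nat_lit 131,
  [⟨V6_22650568704, [(nat_lit 53, nat_lit 23791419456), (nat_lit 26, nat_lit 24865161216), (nat_lit 39, nat_lit 24848384064), (nat_lit 38, nat_lit 25922125824), (nat_lit 74, nat_lit 25905348672), (nat_lit 126, nat_lit 26979090432), (nat_lit 52, nat_lit 26962313280), (nat_lit 3, nat_lit 28036055040), (nat_lit 52, nat_lit 28019277888), (nat_lit 84, nat_lit 29093019648)]⟩,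
   ⟨V6_20553154560, [(nat_lit 101, nat_lit 23791419456), (nat_lit 105, nat_lit 24865161216), (nat_lit 119, nat_lit 24864899136), (nat_lit 27, nat_lit 24848384064), (nat_lit 43, nat_lit 25938640896), (nat_lit 20, nat_lit 25922125824), (nat_lit 80, nat_lit 25921863744), (nat_lit 67, nat_lit 26995605504)]⟩,
   ⟨V6_19496189952, [(nat_lit 51, nat_lit 23791419456), (nat_lit 100, nat_lit 24865161216), (nat_lit 3, nat_lit 24864899136), (nat_lit 37, nat_lit 25938640896)]⟩,
   ⟨V6_18422448192, [(nat_lit 55, nat_lit 23791419456), (nat_lit 25, nat_lit 24864899136)]⟩],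
  [W_23757590528, W_23741075456, W_23740817408, W_23740813376, W_23724302336, W_23724298304, W_23707525184, W_23707271168, W_22683848768, W_22667333696, W_20569923584, W_20553150464, W_19496185856, W_18422448128]⟩
theorem C_23791419456 : chkRec R_23791419456 = true := by decide +kernel

noncomputable def R_23791423488 : Rec := ⟨nat_lit 23791423488, nat_lit 50,
  [⟨V6_20519866368, [(nat_lit 105, nat_lit 23791423488), (nat_lit 29, nat_lit 24848388096), (nat_lit 38, nat_lit 25905352704), (nat_lit 54, nat_lit 26962317312)]⟩,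
   ⟨V6_19462901760, [(nat_lit 1, nat_lit 23791423488), (nat_lit 35, nat_lit 24848388096), (nat_lit 73, nat_lit 25905352704)]⟩,
   ⟨V6_18405937152, [(nat_lit 19, nat_lit 23791423488), (nat_lit 98, nat_lit 24848388096)]⟩,
   ⟨V6_17348972544, [(nat_lit 65, nat_lit 23791423488)]⟩],
  [W_23741075456, W_23724302336, W_22700883968, W_22684110848, W_21643919360, W_21576826880, W_19446124544]⟩
theorem C_23791423488 : chkRec R_23791423488 = true := by decide +kernel

noncomputable def R_23791673409 : Rec := ⟨nat_lit 23791673409, nat_lit 39,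
  [⟨V6_21643399233, [(nat_lit 22, nat_lit 23791673409), (nat_lit 5, nat_lit 24865411137), (nat_lit 71, nat_lit 24865153089), (nat_lit 31, nat_lit 25938890817), (nat_lit 123, nat_lit 25938632769), (nat_lit 58, nat_lit 27012370497), (nat_lit 62, nat_lit 27012112449), (nat_lit 84, nat_lit 28085850177)]⟩,
   ⟨V6_21643141185, [(nat_lit 85, nat_lit 23791673409), (nat_lit 88, nat_lit 24865153089), (nat_lit 91, nat_lit 25938632769), (nat_lit 75, nat_lit 27012112449), (nat_lit 17, nat_lit 28085592129)]⟩,
   ⟨V6_21577080897, [(nat_lit 38, nat_lit 23791673409), (nat_lit 62, nat_lit 24848638017), (nat_lit 78, nat_lit 25905602625), (nat_lit 53, nat_lit 26962567233), (nat_lit 75, nat_lit 28019531841)]⟩,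
   ⟨V6_20536889409, [(nat_lit 40, nat_lit 23791673409), (nat_lit 58, nat_lit 24865411137), (nat_lit 46, nat_lit 24848638017), (nat_lit 43, nat_lit 25922375745), (nat_lit 33, nat_lit 25905602625), (nat_lit 41, nat_lit 26979340353)]⟩,
   ⟨V6_19496702016, [(nat_lit 65, nat_lit 23791673409), (nat_lit 18, nat_lit 24865415232), (nat_lit 9, nat_lit 24865411137), (nat_lit 58, nat_lit 25939152960)]⟩],
  [W_23773843520, W_23757070400, W_23740813376, W_23740555328, W_23724040256, W_22683590720, W_22667333696, W_22650560576, W_21643141184, W_21593595968, W_21577080896]⟩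
theorem C_23791673409 : chkRec R_23791673409 = true := by decide +kernel

noncomputable def R_23791673472 : Rec := ⟨nat_lit 23791673472, nat_lit 110,
  [⟨V6_23724564480, [(nat_lit 113, nat_lit 23791673472), (nat_lit 97, nat_lit 24865415232), (nat_lit 73, nat_lit 24848638080), (nat_lit 78, nat_lit 25939156992), (nat_lit 33, nat_lit 25922379840), (nat_lit 45, nat_lit 25905602688), (nat_lit 66, nat_lit 26996121600), (nat_lit 71, nat_lit 26979344448), (nat_lit 45, nat_lit 26962567296), (nat_lit 31, nat_lit 28053086208), (nat_lit 83, nat_lit 28036309056), (nat_lit 54, nat_lit 28019531904), (nat_lit 75, nat_lit 29110050816), (nat_lit 2, nat_lit 29093273664), (nat_lit 20, nat_lit 30167015424)]⟩,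
   ⟨V6_19496706048, [(nat_lit 37, nat_lit 23791673472), (nat_lit 17, nat_lit 24865415232), (nat_lit 20, nat_lit 25939156992)]⟩],
  [W_23773847552, W_23757332480, W_23757070400, W_23740817408, W_23740293248, W_23723778176, W_22716882944, W_22700367872, W_22683328640, W_22666813568, W_20569923584, W_20569399424, W_19479404672, W_19462889600, W_18422440064, W_18405924992]⟩
theorem C_23791673472 : chkRec R_23791673472 = true := by decide +kernel

noncomputable def R_23791677504 : Rec := ⟨nat_lit 23791677504, nat_lit 188,
  [⟨V6_23741337600, [(nat_lit 30, nat_lit 23791677504), (nat_lit 5, nat_lit 24865419264), (nat_lit 122, nat_lit 24865415232), (nat_lit 36, nat_lit 24848642112), (nat_lit 7, nat_lit 25939156992), (nat_lit 68, nat_lit 25939152960), (nat_lit 54, nat_lit 25922383872), (nat_lit 86, nat_lit 25922379840), (nat_lit 35, nat_lit 25905606720), (nat_lit 17, nat_lit 27012894720), (nat_lit 34, nat_lit 26996121600), (nat_lit 95, nat_lit 26996117568), (nat_lit 45, nat_lit 26979348480), (nat_lit 121, nat_lit 26979344448), (nat_lit 52, nat_lit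 26962571328), (nat_lit 55, nat_lit 28069859328), (nat_lit 14, nat_lit 28053086208), (nat_lit 95, nat_lit 28053082176), (nat_lit 23, nat_lit 28036313088), (nat_lit 29, nat_lit 28036309056), (nat_lit 29, nat_lit 29126823936), (nat_lit 30, nat_lit 29110050816), (nat_lit 57, nat_lit 29110046784), (nat_lit 83, nat_lit 30183788544)]⟩,
   ⟨V6_22717141056, [(nat_lit 89, nat_lit 23791677504), (nat_lit 56, nat_lit 24865415232), (nat_lit 26, nat_lit 24865157184), (nat_lit 49, nat_lit 25939152960), (nat_lit 79, nat_lit 25938894912), (nat_lit 88, nat_lit 25938636864), (nat_lit 115, nat_lit 27012632640), (nat_lit 81, nat_lit 27012374592), (nat_lit 84, nat_lit 27012116544), (nat_lit 47, nat_lit 28086112320), (nat_lit 80, nat_lit 28085854272), (nat_lit 24, nat_lit 29159592000)]⟩,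
   ⟨V6_20570443776, [(nat_lit 91, nat_lit 23791677504), (nat_lit 59, nat_lit 24865419264), (nat_lit 2, nat_lit 24865415232), (nat_lit 36, nat_lit 25939156992), (nat_lit 94, nat_lit 25939152960), (nat_lit 97, nat_lit 27012894720)]⟩,
   ⟨V6_19496706048, [(nat_lit 52, nat_lit 23791677504), (nat_lit 99, nat_lit 24865419264), (nat_lit 12, nat_lit 24865415232), (nat_lit 66, nat_lit 25939156992)]⟩],
  [W_23757332480, W_23740817408, W_23724560384, W_23724044288, W_22667595776, W_22650822656, W_21577084928, W_21577080896, W_20569923584, W_20569665536, W_20553150464, W_20536893440, W_20520120320, W_20520116288, W_19496185856, W_19463155712]⟩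
theorem C_23791677504 : chkRec R_23791677504 = true := by decide +kernel

noncomputable def R_23791681536 : Rec := ⟨nat_lit 23791681536, nat_lit 185,
  [⟨V6_20570443776, [(nat_lit 101, nat_lit 23791681536), (nat_lit 110, nat_lit 24865419264), (nat_lit 3, nat_lit 25939156992), (nat_lit 105, nat_lit 27012894720)]⟩,
   ⟨V6_19496706048, [(nat_lit 12, nat_lit 23791681536), (nat_lit 120, nat_lit 24865419264), (nat_lit 69, nat_lit 25939156992)]⟩,
   ⟨V6_19496189952, [(nat_lit 84, nat_lit 23791681536), (nat_lit 50, nat_lit 24865161216), (nat_lit 13, nat_lit 25938640896)]⟩],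
  [W_23774363648, W_23757848576, W_23741075456, W_23740817408, W_23724560384, W_23724302336, W_23724044288, W_22683852800, W_22667595776, W_22667337728, W_22650822656, W_22650564608, W_21627404288, W_21577084928, W_20536893440, W_20503347200, W_19446382592]⟩
theorem C_23791681536 : chkRec R_23791681536 = true := by decide +kernel

noncomputable def R_23791931457 : Rec := ⟨nat_lit 23791931457, nat_lit 17,
  [⟨V6_18423222336, [(nat_lit 42, nat_lit 23791931457), (nat_lit 52, nat_lit 24865673280)]⟩],
  [W_23773843520, W_23757328448, W_23740813376, W_22683848768, W_22667333696, W_21593854016]⟩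
theorem C_23791931457 : chkRec R_23791931457 = true := by decide +kernel

noncomputable def R_23791935552 : Rec := ⟨nat_lit 23791935552, nat_lit 170,
  [⟨V6_19496706048, [(nat_lit 105, nat_lit 23791935552), (nat_lit 7, nat_lit 24865677312), (nat_lit 2, nat_lit 24865415232), (nat_lit 93, nat_lit 25939156992)]⟩,
   ⟨V6_18423226368, [(nat_lit 100, nat_lit 23791935552), (nat_lit 11, nat_lit 24865677312)]⟩,
   ⟨V6_18423222336, [(nat_lit 107, nat_lit 23791935552), (nat_lit 15, nat_lit 24865673280)]⟩],
  [W_23790620672, W_23773847552, W_23773843520, W_23757332480, W_23757328448, W_23757070400, W_23741075456, W_23740817408, W_23740813376, W_23740555328, W_22716882944, W_22716878912, W_22700105792, W_22683590720, W_22667595776, W_22667333696, W_21594116096, W_20536893440, W_20520378368, W_20520374336, W_20520116288, W_19463413760, W_19463409728, W_19446636608]⟩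
theorem C_23791935552 : chkRec R_23791935552 = true := by decide +kernel

noncomputable def R_23791939584 : Rec := ⟨nat_lit 23791939584, nat_lit 194,
  [⟨V6_19496964096, [(nat_lit 36, nat_lit 23791939584), (nat_lit 32, nat_lit 24865677312), (nat_lit 72, nat_lit 25939415040)]⟩,
   ⟨V6_19496706048, [(nat_lit 15, nat_lit 23791939584), (nat_lit 90, nat_lit 24865677312), (nat_lit 114, nat_lit 24865419264), (nat_lit 14, nat_lit 25939156992)]⟩,
   ⟨V6_18423226368, [(nat_lit 84, nat_lit 23791939584), (nat_lit 87, nat_lit 24865677312)]⟩],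
  [W_23790878720, W_23774363648, W_23757848576, W_23757590528, W_23757332480, W_23741333504, W_23741075456, W_23740817408, W_23740559360, W_22700367872, W_22684368896, W_22683852800, W_22683594752, W_22667595776, W_22667337728, W_21627404288, W_21594116096, W_20569665536, W_20520120320, W_19446640640]⟩
theorem C_23791939584 : chkRec R_23791939584 = true := by decide +kernel

noncomputable def R_23792193600 : Rec := ⟨nat_lit 23792193600, nat_lit 68,
  [⟨V6_23790620736, [(nat_lit 78, nat_lit 23792193600), (nat_lit 75, nat_lit 24865673280), (nat_lit 24, nat_lit 25939152960), (nat_lit 90, nat_lit 27012632640), (nat_lit 47, nat_lit 28086112320), (nat_lit 97, nat_lit 29159592000), (nat_lit 126, nat_lit 30233071680)]⟩,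
   ⟨V6_18423484416, [(nat_lit 109, nat_lit 23792193600), (nat_lit 92, nat_lit 24865935360)]⟩,
   ⟨V6_18406707264, [(nat_lit 94, nat_lit 23792193600), (nat_lit 37, nat_lit 24849158208)]⟩,
   ⟨V6_17349742656, [(nat_lit 26, nat_lit 23792193600)]⟩],
  [W_23773843520, W_23757590528, W_23757328448, W_22717140992, W_22700625920, W_22684110848, W_21626884160]⟩
theorem C_23792193600 : chkRec R_23792193600 = true := by decide +kernel

noncomputable def R_23792197632 : Rec := ⟨nat_lit 23792197632, nat_lit 173,
  [⟨V6_21611151360, [(nat_lit 122, nat_lit 23792197632), (nat_lit 7, nat_lit 24865935360), (nat_lit 82, nat_lit 24849162240), (nat_lit 94, nat_lit 25939673088), (nat_lit 29, nat_lit 25922899968), (nat_lit 22, nat_lit 25906126848), (nat_lit 15, nat_lit 26996637696), (nat_lit 32, nat_lit 26979864576), (nat_lit 56, nat_lit 28053602304)]⟩,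
   ⟨V6_20554186752, [(nat_lit 4, nat_lit 23792197632), (nat_lit 121, nat_lit 24865935360), (nat_lit 51, nat_lit 24849162240), (nat_lit 30, nat_lit 25939673088), (nat_lit 119, nat_lit 25922899968), (nat_lit 125, nat_lit 26996637696)]⟩,
   ⟨V6_18423226368, [(nat_lit 42, nat_lit 23792197632), (nat_lit 55, nat_lit 24865677312)]⟩,
   ⟨V6_18406711296, [(nat_lit 124, nat_lit 23792197632), (nat_lit 38, nat_lit 24849162240)]⟩],
  [W_23790878720, W_23790620672, W_23774363648, W_23773847552, W_23757848576, W_23757332480, W_22716882944, W_22700367872, W_22684368896, W_22683852800, W_21627404288, W_21610889216, W_20537409536, W_20537151488, W_19463671808]⟩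
theorem C_23792197632 : chkRec R_23792197632 = true := by decide +kernel

noncomputable def R_23792455680 : Rec := ⟨nat_lit 23792455680, nat_lit 80,
  [⟨V6_19496964096, [(nat_lit 110, nat_lit 23792455680), (nat_lit 71, nat_lit 24865935360), (nat_lit 87, nat_lit 25939415040)]⟩,
   ⟨V6_18423484416, [(nat_lit 81, nat_lit 23792455680), (nat_lit 124, nat_lit 24865935360)]⟩],
  [W_23790878720, W_23790620672, W_23774363648, W_22717399040, W_22717140992, W_22700883968, W_17350000640]⟩
theorem C_23792455680 : chkRec R_23792455680 = true := by decide +kernel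

noncomputable def R_23792713728 : Rec := ⟨nat_lit 23792713728, nat_lit 28,
  [⟨V6_22717661184, [(nat_lit 108, nat_lit 23792713728), (nat_lit 40, nat_lit 24866193408), (nat_lit 57, nat_lit 25939673088), (nat_lit 2, nat_lit 27013152768), (nat_lit 112, nat_lit 28086632448), (nat_lit 123, nat_lit 29160112128)]⟩],
  [W_23790878720, W_22717399040, W_16276520960]⟩
theorem C_23792713728 : chkRec R_23792713728 = true := by decide +kernel

noncomputable def R_23807664258 : Rec := ⟨nat_lit 23807664258, nat_lit 4,
  [⟨V6_23723778177, [(nat_lit 44, nat_lit 23807664258), (nat_lit 119, nat_lit 24881406081), (nat_lit 9, nat_lit 24864628866), (nat_lit 40, nat_lit 25938370689), (nat_lit 59, nat_lit 25921593474), (nat_lit 74, nat_lit 26995335297), (nat_lit 60, nat_lit 26978558082), (nat_lit 7, nat_lit 28052299905), (nat_lit 104, nat_lit 28035522690), (nat_lit 126, nat_lit 29109264513), (nat_lit 126, nat_lit 29092487298), (nat_lit 54, nat_lit 30166229121)]⟩,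
   ⟨V6_23723516034, [(nat_lit 73, nat_lit 23807664258), (nat_lit 46, nat_lit 24881143938), (nat_lit 62, nat_lit 24864628866), (nat_lit 64, nat_lit 25938108546), (nat_lit 2, nat_lit 25921593474), (nat_lit 43, nat_lit 26995073154), (nat_lit 91, nat_lit 26978558082), (nat_lit 83, nat_lit 28052037762), (nat_lit 107, nat_lit 28035522690), (nat_lit 120, nat_lit 29109002370), (nat_lit 9, nat_lit 29092487298), (nat_lit 39, nat_lit 30165966978)]⟩,
   ⟨V6_20552622210, [(nat_lit 86, nat_lit 23807664258), (nat_lit 3, nat_lit 24881143938), (nat_lit 24, nat_lit 24864628866), (nat_lit 115, nat_lit 25938108546), (nat_lit 72, nat_lit 25921593474), (nat_lit 36, nat_lit 26995073154)]⟩],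
  [W_19512434816, W_19495919744]⟩
theorem C_23807664258 : chkRec R_23807664258 = true := by decide +kernel

noncomputable def R_23807668353 : Rec := ⟨nat_lit 23807668353, nat_lit 8,
  [⟨V6_20536111233, [(nat_lit 62, nat_lit 23807668353), (nat_lit 8, nat_lit 24864632961), (nat_lit 85, nat_lit 25921597569), (nat_lit 78, nat_lit 26978562177)]⟩,
   ⟨V6_19495923777, [(nat_lit 36, nat_lit 23807668353), (nat_lit 126, nat_lit 24881410113), (nat_lit 103, nat_lit 24864632961), (nat_lit 6, nat_lit 25938374721)]⟩],
  [W_23740555328, W_19512696896]⟩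
theorem C_23807668353 : chkRec R_23807668353 = true := by decide +kernel

noncomputable def R_23807668416 : Rec := ⟨nat_lit 23807668416, nat_lit 4,
  [⟨V6_19479146688, [(nat_lit 103, nat_lit 23807668416), (nat_lit 10, nat_lit 24864633024), (nat_lit 24, nat_lit 25921597632)]⟩,
   ⟨V6_17365217472, [(nat_lit 57, nat_lit 23807668416)]⟩],
  [W_23740559360, W_22683594752, W_18422182016]⟩
theorem C_23807668416 : chkRec R_23807668416 = true := by decide +kernel

noncomputable def R_23807926401 : Rec := ⟨nat_lit 23807926401, nat_lit 28,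
  [⟨V6_22650298497, [(nat_lit 50, nat_lit 23807926401), (nat_lit 62, nat_lit 24864891009), (nat_lit 57, nat_lit 25921855617), (nat_lit 103, nat_lit 26978820225), (nat_lit 74, nat_lit 28035784833), (nat_lit 99, nat_lit 29092749441)]⟩,
   ⟨V6_20553146433, [(nat_lit 36, nat_lit 23807926401), (nat_lit 51, nat_lit 24881668161), (nat_lit 73, nat_lit 24864891009), (nat_lit 10, nat_lit 25938632769), (nat_lit 120, nat_lit 25921855617), (nat_lit 114, nat_lit 26995597377)]⟩,
   ⟨V6_18439217217, [(nat_lit 110, nat_lit 23807926401), (nat_lit 18, nat_lit 24881668161)]⟩],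
  [W_23757070400, W_23740555328, W_23740293248, W_23724040256, W_23707263104, W_22700105792, W_21643141184, W_20569399424, W_19512434816, W_19495919744]⟩
theorem C_23807926401 : chkRec R_23807926401 = true := by decide +kernel

noncomputable def R_23807930433 : Rec := ⟨nat_lit 23807930433, nat_lit 28,
  [⟨V6_20569919553, [(nat_lit 23, nat_lit 23807930433), (nat_lit 42, nat_lit 24881668161), (nat_lit 61, nat_lit 24864895041), (nat_lit 88, nat_lit 25955405889), (nat_lit 66, nat_lit 25938632769), (nat_lit 33, nat_lit 27012370497)]⟩,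
   ⟨V6_19512954945, [(nat_lit 19, nat_lit 23807930433), (nat_lit 31, nat_lit 24881668161), (nat_lit 38, nat_lit 25955405889)]⟩,
   ⟨V6_19495923777, [(nat_lit 28, nat_lit 23807930433), (nat_lit 66, nat_lit 24881410113), (nat_lit 49, nat_lit 24864895041), (nat_lit 75, nat_lit 25938374721)]⟩,
   ⟨V6_18439217217, [(nat_lit 62, nat_lit 23807930433), (nat_lit 37, nat_lit 24881668161)]⟩],
  [W_23757328448, W_23740813376, W_23740555328, W_23724040256, W_23707267136, W_22683590720, W_22667075648, W_22666817600, W_22650302528, W_21593337920]⟩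
theorem C_23807930433 : chkRec R_23807930433 = true := by decide +kernel

noncomputable def R_23807930496 : Rec := ⟨nat_lit 23807930496, nat_lit 76,
  [⟨V6_20569927680, [(nat_lit 94, nat_lit 23807930496), (nat_lit 94, nat_lit 24881672256), (nat_lit 12, nat_lit 24864895104), (nat_lit 70, nat_lit 25955414016), (nat_lit 108, nat_lit 25938636864), (nat_lit 12, nat_lit 27012378624)]⟩,
   ⟨V6_19512963072, [(nat_lit 66, nat_lit 23807930496), (nat_lit 123, nat_lit 24881672256), (nat_lit 70, nat_lit 25955414016)]⟩],
  [W_23740817408, W_23740559360, W_23724044288, W_23724040256, W_23723778176, W_23707267136, W_23707263104, W_22700367872, W_22683852800, W_22683590720, W_22650298496, W_19512696896, W_19495919744, W_18438955136]⟩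
theorem C_23807930496 : chkRec R_23807930496 = true := by decide +kernel

noncomputable def R_23807934528 : Rec := ⟨nat_lit 23807934528, nat_lit 84,
  [⟨V6_23724048384, [(nat_lit 54, nat_lit 23807934528), (nat_lit 71, nat_lit 24881676288), (nat_lit 63, nat_lit 24864899136), (nat_lit 26, nat_lit 25938640896), (nat_lit 32, nat_lit 25921863744), (nat_lit 10, nat_lit 26995605504), (nat_lit 39, nat_lit 26978828352), (nat_lit 49, nat_lit 28052570112), (nat_lit 93, nat_lit 28035792960), (nat_lit 120, nat_lit 29109534720), (nat_lit 120, nat_lit 29092757568), (nat_lit 124, nat_lit 30166499328)]⟩,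
   ⟨V6_18422448192, [(nat_lit 116, nat_lit 23807934528), (nat_lit 45, nat_lit 24864899136)]⟩,
   ⟨V6_17365483584, [(nat_lit 77, nat_lit 23807934528)]⟩],
  [W_23757590528, W_23740817408, W_23724044288, W_23724040256, W_23707267136, W_23690494016, W_22700625920, W_22683848768, W_22667075648, W_22650306560, W_22650302528, W_21626884160, W_21593341952, W_21593337920]⟩
theorem C_23807934528 : chkRec R_23807934528 = true := by decide +kernel

noncomputable def R_23808188481 : Rec := ⟨nat_lit 23808188481, nat_lit 41,
  [⟨V6_21643141185, [(nat_lit 74, nat_lit 23808188481), (nat_lit 85, nat_lit 24881668161), (nat_lit 8, nat_lit 24865153089), (nat_lit 95, nat_lit 25955147841), (nat_lit 52, nat_lit 25938632769), (nat_lit 92, nat_lit 27028627521), (nat_lit 39, nat_lit 27012112449), (nat_lit 99, nat_lit 28085592129)]⟩,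
   ⟨V6_20586696768, [(nat_lit 88, nat_lit 23808188481), (nat_lit 21, nat_lit 24881930304), (nat_lit 96, nat_lit 24881926209), (nat_lit 99, nat_lit 24881668161), (nat_lit 20, nat_lit 25955668032), (nat_lit 39, nat_lit 25955409984), (nat_lit 39, nat_lit 25955405889), (nat_lit 88, nat_lit 27029147712)]⟩,
   ⟨V6_18439217217, [(nat_lit 59, nat_lit 23808188481), (nat_lit 73, nat_lit 24881668161)]⟩],
  [W_23773843520, W_23757070400, W_23740813376, W_23740555328, W_23724298304, W_23724040256, W_23707525184, W_22716878912, W_22700105792, W_22667333696, W_22650560576, W_21659914304, W_19512696896]⟩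
theorem C_23808188481 : chkRec R_23808188481 = true := by decide +kernel

noncomputable def R_23808188544 : Rec := ⟨nat_lit 23808188544, nat_lit 94,
  [⟨V6_20586700800, [(nat_lit 3, nat_lit 23808188544), (nat_lit 125, nat_lit 24881930304), (nat_lit 83, nat_lit 24881668224), (nat_lit 87, nat_lit 25955672064), (nat_lit 87, nat_lit 25955409984), (nat_lit 48, nat_lit 27029151744)]⟩,
   ⟨V6_19513221120, [(nat_lit 7, nat_lit 23808188544), (nat_lit 65, nat_lit 24881930304), (nat_lit 69, nat_lit 25955672064)]⟩],
  [W_23757332480, W_23757070400, W_23740555328, W_23740293248, W_23724302336, W_23723778176, W_23707525184, W_23707263104, W_22716882944, W_22700367872, W_22683852800, W_22683590720, W_22683328640, W_22667337728, W_22650560576, W_22650298496, W_20569399424, W_18438955136]⟩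
theorem C_23808188544 : chkRec R_23808188544 = true := by decide +kernel

noncomputable def R_23808192576 : Rec := ⟨nat_lit 23808192576, nat_lit 166,
  [⟨V6_22717141056, [(nat_lit 19, nat_lit 23808192576), (nat_lit 68, nat_lit 24881930304), (nat_lit 60, nat_lit 24881672256), (nat_lit 50, nat_lit 24865157184), (nat_lit 7, nat_lit 25955668032), (nat_lit 21, nat_lit 25955409984), (nat_lit 16, nat_lit 25955151936), (nat_lit 15, nat_lit 25938894912), (nat_lit 91, nat_lit 25938636864), (nat_lit 80, nat_lit 27029147712), (nat_lit 126, nat_lit 27028889664), (nat_lit 20, nat_lit 27012632640), (nat_lit 45, nat_lit 27012374592), (nat_lit 35, nat_lit 27012116544), (nat_lit 32, nat_lit 28102627392), (nat_lit 64, nat_lit 28086112320), (nat_lit 111, nat_lit 28085854272), (nat_lit 76, nat_lit 29159592000)]⟩,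
   ⟨V6_21660176448, [(nat_lit 91, nat_lit 23808192576), (nat_lit 54, nat_lit 24881930304), (nat_lit 102, nat_lit 24881672256), (nat_lit 12, nat_lit 25955668032), (nat_lit 66, nat_lit 25955409984), (nat_lit 94, nat_lit 25955151936), (nat_lit 10, nat_lit 27029147712), (nat_lit 106, nat_lit 27028889664), (nat_lit 96, nat_lit 28102627392)]⟩,
   ⟨V6_19513221120, [(nat_lit 99, nat_lit 23808192576), (nat_lit 103, nat_lit 24881934336), (nat_lit 101, nat_lit 24881930304), (nat_lit 111, nat_lit 25955672064)]⟩,
   ⟨V6_19512963072, [(nat_lit 43, nat_lit 23808192576), (nat_lit 37, nat_lit 24881934336), (nat_lit 10, nat_lit 24881672256), (nat_lit 81, nat_lit 25955414016)]⟩],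
  [W_23757332480, W_23741075456, W_23740817408, W_23724302336, W_23724044288, W_23707525184, W_23707267136, W_20586696704, W_20586438656, W_20569923584, W_20553150464, W_19496185856, W_18439221248]⟩
theorem C_23808192576 : chkRec R_23808192576 = true := by decide +kernel

noncomputable def R_23808196608 : Rec := ⟨nat_lit 23808196608, nat_lit 136,
  [⟨V6_22650568704, [(nat_lit 1, nat_lit 23808196608), (nat_lit 113, nat_lit 24865161216), (nat_lit 24, nat_lit 25922125824), (nat_lit 30, nat_lit 26979090432), (nat_lit 98, nat_lit 28036055040), (nat_lit 35, nat_lit 29093019648)]⟩,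
   ⟨V6_19513221120, [(nat_lit 123, nat_lit 23808196608), (nat_lit 87, nat_lit 24881934336), (nat_lit 104, nat_lit 25955672064)]⟩,
   ⟨V6_18439225344, [(nat_lit 55, nat_lit 23808196608), (nat_lit 25, nat_lit 24881676288)]⟩],
  [W_23774363648, W_23757848576, W_23740817408, W_21660434432, W_20586696704, W_20569923584, W_20553150464, W_17365483520]⟩
theorem C_23808196608 : chkRec R_23808196608 = true := by decide +kernel

noncomputable def R_23808446529 : Rec := ⟨nat_lit 23808446529, nat_lit 18,
  [⟨V6_20536889409, [(nat_lit 106, nat_lit 23808446529), (nat_lit 112, nat_lit 24865411137), (nat_lit 47, nat_lit 25922375745), (nat_lit 76, nat_lit 26979340353)]⟩,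
   ⟨V6_18439475265, [(nat_lit 51, nat_lit 23808446529), (nat_lit 52, nat_lit 24881926209)]⟩,
   ⟨V6_17365995585, [(nat_lit 18, nat_lit 23808446529)]⟩],
  [W_23773843520, W_23740813376, W_23724298304, W_22733393984, W_22700363840, W_22683848768, W_22667333696]⟩
theorem C_23808446529 : chkRec R_23808446529 = true := by decide +kernel

noncomputable def R_23808450624 : Rec := ⟨nat_lit 23808450624, nat_lit 195,
  [⟨V6_19513221120, [(nat_lit 9, nat_lit 23808450624), (nat_lit 111, nat_lit 24882192384), (nat_lit 86, nat_lit 24881930304), (nat_lit 65, nat_lit 25955672064)]⟩,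
   ⟨V6_19496706048, [(nat_lit 90, nat_lit 23808450624), (nat_lit 111, nat_lit 24882192384), (nat_lit 14, nat_lit 24865415232), (nat_lit 53, nat_lit 25939156992)]⟩,
   ⟨V6_18439741440, [(nat_lit 70, nat_lit 23808450624), (nat_lit 122, nat_lit 24882192384)]⟩],
  [W_23790620672, W_23773847552, W_23773843520, W_23757332480, W_23757328448, W_23757070400, W_23741075456, W_23740817408, W_23740813376, W_23740555328, W_23724560384, W_23724302336, W_23724298304, W_23724040256, W_22733656064, W_22716882944, W_22716878912, W_22700367872, W_22683852800, W_22667595776, W_22667337728, W_22667333696, W_22667075648, W_22650822656, W_22650560576, W_21577080896, W_20586438656, W_20520116288]⟩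
theorem C_23808450624 : chkRec R_23808450624 = true := by decide +kernel

noncomputable def R_23808454656 : Rec := ⟨nat_lit 23808454656, nat_lit 219,
  [⟨V6_19513479168, [(nat_lit 93, nat_lit 23808454656), (nat_lit 125, nat_lit 24882192384), (nat_lit 59, nat_lit 25955930112)]⟩,
   ⟨V6_19513221120, [(nat_lit 82, nat_lit 23808454656), (nat_lit 112, nat_lit 24882192384), (nat_lit 125, nat_lit 24881934336), (nat_lit 115, nat_lit 25955672064)]⟩,
   ⟨V6_18439741440, [(nat_lit 117, nat_lit 23808454656), (nat_lit 35, nat_lit 24882192384)]⟩],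
  [W_23790878720, W_23774363648, W_23757848576, W_23757332480, W_23741333504, W_23741075456, W_23740817408, W_23740559360, W_23724560384, W_23724302336, W_23724044288, W_22700367872, W_22684368896, W_22683852800, W_22683594752, W_22667595776, W_22667337728, W_22650822656, W_22650564608, W_21660434432, W_21627404288, W_21577084928, W_20520120320]⟩
theorem C_23808454656 : chkRec R_23808454656 = true := by decide +kernel

noncomputable def R_23808708672 : Rec := ⟨nat_lit 23808708672, nat_lit 101,
  [⟨V6_23807135808, [(nat_lit 46, nat_lit 23808708672), (nat_lit 78, nat_lit 24882188352), (nat_lit 96, nat_lit 25955668032), (nat_lit 107, nat_lit 27029147712), (nat_lit 105, nat_lit 28102627392), (nat_lit 110, nat_lit 29176107072), (nat_lit 34, nat_lit 30249586752)]⟩,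
   ⟨V6_22667857920, [(nat_lit 89, nat_lit 23808708672), (nat_lit 7, nat_lit 24882450432), (nat_lit 7, nat_lit 24865673280), (nat_lit 59, nat_lit 25939415040), (nat_lit 22, nat_lit 25922637888), (nat_lit 36, nat_lit 26996379648), (nat_lit 20, nat_lit 26979602496), (nat_lit 33, nat_lit 28053344256), (nat_lit 19, nat_lit 28036567104), (nat_lit 74, nat_lit 29110308864)]⟩,
   ⟨V6_18439999488, [(nat_lit 109, nat_lit 23808708672), (nat_lit 92, nat_lit 24882450432)]⟩,
   ⟨V6_18423222336, [(nat_lit 67, nat_lit 23808708672), (nat_lit 3, nat_lit 24865673280)]⟩],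
  [W_23790620672, W_23773843520, W_23757590528, W_23757328448, W_23741075456, W_22733656064, W_22733393984, W_22717140992, W_22684110848, W_22683848768, W_22667595776, W_22667333696, W_21594116096, W_21593854016, W_20520374336]⟩
theorem C_23808708672 : chkRec R_23808708672 = true := by decide +kernel

noncomputable def R_23808712704 : Rec := ⟨nat_lit 23808712704, nat_lit 214,
  [⟨V6_19513479168, [(nat_lit 100, nat_lit 23808712704), (nat_lit 121, nat_lit 24882450432), (nat_lit 118, nat_lit 24882192384), (nat_lit 56, nat_lit 25955930112)]⟩,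
   ⟨V6_19496964096, [(nat_lit 75, nat_lit 23808712704), (nat_lit 99, nat_lit 24882450432), (nat_lit 58, nat_lit 24865677312), (nat_lit 17, nat_lit 25939415040)]⟩,
   ⟨V6_18439741440, [(nat_lit 113, nat_lit 23808712704), (nat_lit 94, nat_lit 24882192384)]⟩],
  [W_23790878720, W_23790620672, W_23774363648, W_23757848576, W_23757332480, W_23741333504, W_23741075456, W_23740817408, W_22716882944, W_22700367872, W_22684368896, W_22683852800, W_22667595776, W_22667337728, W_21659918336, W_21627404288, W_21610889216, W_21594116096, W_20520378368]⟩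
theorem C_23808712704 : chkRec R_23808712704 = true := by decide +kernel

noncomputable def R_23808970752 : Rec := ⟨nat_lit 23808970752, nat_lit 140,
  [⟨V6_21610893312, [(nat_lit 58, nat_lit 23808970752), (nat_lit 3, nat_lit 24882450432), (nat_lit 116, nat_lit 24865935360), (nat_lit 108, nat_lit 25939415040), (nat_lit 72, nat_lit 25922899968), (nat_lit 36, nat_lit 26996379648), (nat_lit 22, nat_lit 26979864576), (nat_lit 57, nat_lit 28053344256)]⟩,
   ⟨V6_18439999488, [(nat_lit 47, nat_lit 23808970752), (nat_lit 119, nat_lit 24882450432)]⟩,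
   ⟨V6_18423484416, [(nat_lit 121, nat_lit 23808970752), (nat_lit 13, nat_lit 24865935360)]⟩],
  [W_23790878720, W_23790620672, W_23774363648, W_23757848576, W_22733914112, W_22733656064, W_21660434432, W_21610889216, W_20586696704, W_20537409536]⟩
theorem C_23808970752 : chkRec R_23808970752 = true := by decide +kernel

noncomputable def R_23809228800 : Rec := ⟨nat_lit 23809228800, nat_lit 50,
  [⟨V6_22717661184, [(nat_lit 29, nat_lit 23809228800), (nat_lit 17, nat_lit 24882708480), (nat_lit 73, nat_lit 24866193408), (nat_lit 126, nat_lit 25956188160), (nat_lit 110, nat_lit 25939673088), (nat_lit 8, nat_lit 27029667840), (nat_lit 18, nat_lit 27013152768), (nat_lit 101, nat_lit 28103147520), (nat_lit 104, nat_lit 28086632448), (nat_lit 66, nat_lit 29160112128)]⟩,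
   ⟨V6_18423742464, [(nat_lit 16, nat_lit 23809228800), (nat_lit 50, nat_lit 24866193408)]⟩],
  [W_23790878720, W_23774363648, W_21627404288, W_17350000640]⟩
theorem C_23809228800 : chkRec R_23809228800 = true := by decide +kernel

noncomputable def R_23824179330 : Rec := ⟨nat_lit 23824179330, nat_lit 4,
  [⟨V6_23723516034, [(nat_lit 16, nat_lit 23824179330), (nat_lit 39, nat_lit 24881143938), (nat_lit 37, nat_lit 25938108546), (nat_lit 57, nat_lit 26995073154), (nat_lit 49, nat_lit 28052037762), (nat_lit 61, nat_lit 29109002370), (nat_lit 100, nat_lit 30165966978)]⟩,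
   ⟨V6_22666551426, [(nat_lit 16, nat_lit 23824179330), (nat_lit 18, nat_lit 24881143938), (nat_lit 77, nat_lit 25938108546), (nat_lit 61, nat_lit 26995073154), (nat_lit 54, nat_lit 28052037762), (nat_lit 35, nat_lit 29109002370)]⟩,
   ⟨V6_20552622210, [(nat_lit 36, nat_lit 23824179330), (nat_lit 55, nat_lit 24881143938), (nat_lit 1, nat_lit 25938108546), (nat_lit 30, nat_lit 26995073154)]⟩],
  [W_19512434816, W_18455470208]⟩
theorem C_23824179330 : chkRec R_23824179330 = true := by decide +kernel

noncomputable def R_23824441473 : Rec := ⟨nat_lit 23824441473, nat_lit 15,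
  [⟨V6_23723778177, [(nat_lit 41, nat_lit 23824441473), (nat_lit 92, nat_lit 24881406081), (nat_lit 71, nat_lit 25938370689), (nat_lit 27, nat_lit 26995335297), (nat_lit 70, nat_lit 28052299905), (nat_lit 69, nat_lit 29109264513), (nat_lit 34, nat_lit 30166229121)]⟩,
   ⟨V6_18455732352, [(nat_lit 66, nat_lit 23824441473), (nat_lit 118, nat_lit 24898183296)]⟩],
  [W_23757070400, W_23740555328, W_23740293248, W_23723778176, W_22700105792, W_22683590720]⟩
theorem C_23824441473 : chkRec R_23824441473 = true := by decide +kernel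

noncomputable def R_23824445505 : Rec := ⟨nat_lit 23824445505, nat_lit 12,
  [⟨V6_20569661505, [(nat_lit 41, nat_lit 23824445505), (nat_lit 26, nat_lit 24898183233), (nat_lit 102, nat_lit 24881410113), (nat_lit 55, nat_lit 25955147841), (nat_lit 95, nat_lit 25938374721), (nat_lit 57, nat_lit 27012112449)]⟩,
   ⟨V6_19495923777, [(nat_lit 35, nat_lit 23824445505), (nat_lit 65, nat_lit 24881410113), (nat_lit 107, nat_lit 25938374721)]⟩],
  [W_23757328448, W_22700363840, W_22666817600, W_20586434624]⟩
theorem C_23824445505 : chkRec R_23824445505 = true := by decide +kernel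

noncomputable def R_23824445568 : Rec := ⟨nat_lit 23824445568, nat_lit 24,
  [⟨V6_21643407360, [(nat_lit 65, nat_lit 23824445568), (nat_lit 81, nat_lit 24898187328), (nat_lit 78, nat_lit 24881410176), (nat_lit 30, nat_lit 25971929088), (nat_lit 37, nat_lit 25955151936), (nat_lit 92, nat_lit 25938374784), (nat_lit 11, nat_lit 27028893696), (nat_lit 2, nat_lit 27012116544), (nat_lit 122, nat_lit 28085858304)]⟩,
   ⟨V6_18455732352, [(nat_lit 44, nat_lit 23824445568), (nat_lit 100, nat_lit 24898183296)]⟩],
  [W_23757332480, W_23740559360, W_23723778176, W_22700367872, W_22683590720, W_16308252800]⟩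
theorem C_23824445568 : chkRec R_23824445568 = true := by decide +kernel

noncomputable def R_23824703553 : Rec := ⟨nat_lit 23824703553, nat_lit 29,
  [⟨V6_20553146433, [(nat_lit 51, nat_lit 23824703553), (nat_lit 25, nat_lit 24881668161), (nat_lit 12, nat_lit 25938632769), (nat_lit 106, nat_lit 26995597377)]⟩,
   ⟨V6_19512954945, [(nat_lit 75, nat_lit 23824703553), (nat_lit 103, nat_lit 24898441281), (nat_lit 114, nat_lit 24881668161), (nat_lit 73, nat_lit 25955405889)]⟩,
   ⟨V6_18439217217, [(nat_lit 72, nat_lit 23824703553), (nat_lit 91, nat_lit 24881668161)]⟩],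
  [W_23773843520, W_23757328448, W_23757070400, W_23740813376, W_23724040256, W_22716878912, W_22700105792, W_21643141184, W_19529211968]⟩
theorem C_23824703553 : chkRec R_23824703553 = true := by decide +kernel

noncomputable def R_23824703616 : Rec := ⟨nat_lit 23824703616, nat_lit 81,
  [⟨V6_21676695552, [(nat_lit 112, nat_lit 23824703616), (nat_lit 64, nat_lit 24898445376), (nat_lit 93, nat_lit 24898183296), (nat_lit 26, nat_lit 25972187136), (nat_lit 122, nat_lit 25971925056), (nat_lit 11, nat_lit 25971662976), (nat_lit 89, nat_lit 27045666816), (nat_lit 91, nat_lit 27045404736), (nat_lit 79, nat_lit 28119146496)]⟩,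
   ⟨V6_20586700800, [(nat_lit 29, nat_lit 23824703616), (nat_lit 7, nat_lit 24898445376), (nat_lit 7, nat_lit 24881668224), (nat_lit 29, nat_lit 25972187136), (nat_lit 111, nat_lit 25955409984), (nat_lit 48, nat_lit 27029151744)]⟩],
  [W_23757332480, W_23757070400, W_23740817408, W_23740555328, W_23740293248, W_23724040256, W_23707263104, W_22716882944, W_22700367872, W_22683852800, W_18422440064, W_17381990528]⟩
theorem C_23824703616 : chkRec R_23824703616 = true := by decide +kernel

noncomputable def R_23824707648 : Rec := ⟨nat_lit 23824707648, nat_lit 115,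
  [⟨V6_19529732160, [(nat_lit 51, nat_lit 23824707648), (nat_lit 3, nat_lit 24898445376), (nat_lit 102, nat_lit 25972183104)]⟩,
   ⟨V6_19512963072, [(nat_lit 51, nat_lit 23824707648), (nat_lit 57, nat_lit 24898449408), (nat_lit 111, nat_lit 24881672256), (nat_lit 57, nat_lit 25955414016)]⟩,
   ⟨V6_18455998464, [(nat_lit 45, nat_lit 23824707648), (nat_lit 24, nat_lit 24898449408)]⟩],
  [W_23757590528, W_23757332480, W_23757328448, W_23740817408, W_23740813376, W_23740559360, W_23740555328, W_23724044288, W_23724040256, W_23707267136, W_22700367872, W_22683852800, W_22683594752, W_22683590720, W_22667079680, W_22666817600, W_22650302528, W_20603211776]⟩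
theorem C_23824707648 : chkRec R_23824707648 = true := by decide +kernel

noncomputable def R_23824711680 : Rec := ⟨nat_lit 23824711680, nat_lit 91,
  [⟨V6_22667083776, [(nat_lit 93, nat_lit 23824711680), (nat_lit 57, nat_lit 24881676288), (nat_lit 11, nat_lit 25938640896), (nat_lit 45, nat_lit 26995605504), (nat_lit 44, nat_lit 28052570112), (nat_lit 5, nat_lit 29109534720)]⟩,
   ⟨V6_18455998464, [(nat_lit 97, nat_lit 23824711680), (nat_lit 68, nat_lit 24898449408)]⟩,
   ⟨V6_17382260736, [(nat_lit 18, nat_lit 23824711680)]⟩],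
  [W_23774363648, W_23757590528, W_23740817408, W_23724044288, W_22650306560, W_21660434432, W_20586696704]⟩
theorem C_23824711680 : chkRec R_23824711680 = true := by decide +kernel

noncomputable def R_23824961601 : Rec := ⟨nat_lit 23824961601, nat_lit 16,
  [⟨V6_21610369089, [(nat_lit 60, nat_lit 23824961601), (nat_lit 74, nat_lit 24881926209), (nat_lit 110, nat_lit 25938890817), (nat_lit 21, nat_lit 26995855425), (nat_lit 72, nat_lit 28052820033)]⟩,
   ⟨V6_18439475265, [(nat_lit 72, nat_lit 23824961601), (nat_lit 91, nat_lit 24881926209)]⟩,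
   ⟨V6_17382510657, [(nat_lit 1, nat_lit 23824961601)]⟩],
  [W_23773843520, W_23724298304, W_22733393984, W_22716878912, W_22700363840, W_22683848768, W_21659914304]⟩
theorem C_23824961601 : chkRec R_23824961601 = true := by decide +kernel

noncomputable def R_23824965696 : Rec := ⟨nat_lit 23824965696, nat_lit 171,
  [⟨V6_21676695552, [(nat_lit 17, nat_lit 23824965696), (nat_lit 34, nat_lit 24898707456), (nat_lit 105, nat_lit 24898445376), (nat_lit 89, nat_lit 25972187136), (nat_lit 19, nat_lit 25971925056), (nat_lit 77, nat_lit 27045666816), (nat_lit 10, nat_lit 27045404736), (nat_lit 41, nat_lit 28119146496)]⟩,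
   ⟨V6_19513221120, [(nat_lit 121, nat_lit 23824965696), (nat_lit 68, nat_lit 24898707456), (nat_lit 99, nat_lit 24881930304), (nat_lit 68, nat_lit 25955672064)]⟩,
   ⟨V6_18456256512, [(nat_lit 102, nat_lit 23824965696), (nat_lit 29, nat_lit 24898707456)]⟩],
  [W_23790620672, W_23773847552, W_23773843520, W_23757590528, W_23757332480, W_23757328448, W_23757070400, W_23741075456, W_23740817408, W_23740813376, W_23740555328, W_23724302336, W_23724298304, W_23724040256, W_23707525184, W_22716882944, W_22716878912, W_22683852800, W_22683590720, W_22667337728, W_22667333696, W_22667075648, W_22650560576, W_21676691456, W_20603211776]⟩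
theorem C_23824965696 : chkRec R_23824965696 = true := by decide +kernel

noncomputable def R_23824969728 : Rec := ⟨nat_lit 23824969728, nat_lit 175,
  [⟨V6_19513221120, [(nat_lit 95, nat_lit 23824969728), (nat_lit 82, nat_lit 24898707456), (nat_lit 55, nat_lit 24881934336), (nat_lit 13, nat_lit 25955672064)]⟩,
   ⟨V6_18456256512, [(nat_lit 101, nat_lit 23824969728), (nat_lit 91, nat_lit 24898707456)]⟩,
   ⟨V6_18455998464, [(nat_lit 44, nat_lit 23824969728), (nat_lit 20, nat_lit 24898449408)]⟩],
  [W_23790878720, W_23774363648, W_23757848576, W_23757590528, W_23757332480, W_23741075456, W_23740817408, W_23740559360, W_23724302336, W_23724044288, W_22733914112, W_22700367872, W_22683852800, W_22667337728, W_22667079680, W_22650564608, W_20569665536, W_19512700928, W_18455736320]⟩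
theorem C_23824969728 : chkRec R_23824969728 = true := by decide +kernel

noncomputable def R_23825223744 : Rec := ⟨nat_lit 23825223744, nat_lit 97,
  [⟨V6_22667595840, [(nat_lit 9, nat_lit 23825223744), (nat_lit 26, nat_lit 24882188352), (nat_lit 83, nat_lit 25939152960), (nat_lit 74, nat_lit 26996117568), (nat_lit 78, nat_lit 28053082176), (nat_lit 107, nat_lit 29110046784)]⟩,
   ⟨V6_18456514560, [(nat_lit 113, nat_lit 23825223744), (nat_lit 1, nat_lit 24898965504)]⟩,
   ⟨V6_18456252480, [(nat_lit 30, nat_lit 23825223744), (nat_lit 53, nat_lit 24898703424)]⟩],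
  [W_23773843520, W_23757590528, W_23757328448, W_23741075456, W_23740813376, W_23724298304, W_22733656064, W_22733393984, W_22717140992, W_22684110848, W_22667595776, W_22667333696, W_21676691456]⟩
theorem C_23825223744 : chkRec R_23825223744 = true := by decide +kernel

noncomputable def R_23825227776 : Rec := ⟨nat_lit 23825227776, nat_lit 242,
  [⟨V6_21676695552, [(nat_lit 35, nat_lit 23825227776), (nat_lit 96, nat_lit 24898707456), (nat_lit 30, nat_lit 25972187136), (nat_lit 1, nat_lit 27045666816), (nat_lit 7, nat_lit 28119146496)]⟩,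
   ⟨V6_19513479168, [(nat_lit 46, nat_lit 23825227776), (nat_lit 31, nat_lit 24898965504), (nat_lit 75, nat_lit 24882192384), (nat_lit 38, nat_lit 25955930112)]⟩,
   ⟨V6_19513221120, [(nat_lit 77, nat_lit 23825227776), (nat_lit 65, nat_lit 24898707456), (nat_lit 118, nat_lit 24882192384), (nat_lit 81, nat_lit 25955672064)]⟩,
   ⟨V6_18456256512, [(nat_lit 51, nat_lit 23825227776), (nat_lit 52, nat_lit 24898707456)]⟩],
  [W_23807393792, W_23790878720, W_23790620672, W_23774363648, W_23773847552, W_23757848576, W_23757332480, W_23741333504, W_23741075456, W_23740817408, W_23724560384, W_23724302336, W_22750429184, W_22733914112, W_22650822656, W_21627404288, W_20586696704, W_20536893440, W_19529732096]⟩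
theorem C_23825227776 : chkRec R_23825227776 = true := by decide +kernel

noncomputable def R_23825485824 : Rec := ⟨nat_lit 23825485824, nat_lit 168,
  [⟨V6_20603473920, [(nat_lit 121, nat_lit 23825485824), (nat_lit 14, nat_lit 24898965504), (nat_lit 9, nat_lit 25972445184), (nat_lit 23, nat_lit 27045924864)]⟩,
   ⟨V6_19496964096, [(nat_lit 42, nat_lit 23825485824), (nat_lit 78, nat_lit 24882450432), (nat_lit 103, nat_lit 25939415040)]⟩,
   ⟨V6_17383034880, [(nat_lit 1, nat_lit 23825485824)]⟩],
  [W_23807393792, W_23807135744, W_23790878720, W_23790620672, W_23757848576, W_23741333504, W_22750429184, W_22750171136, W_22733914112, W_22667595776, W_21676949504, W_21676691456, W_21610889216, W_21594116096, W_20586696704]⟩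
theorem C_23825485824 : chkRec R_23825485824 = true := by decide +kernel

noncomputable def R_23825743872 : Rec := ⟨nat_lit 23825743872, nat_lit 88,
  [⟨V6_22717661184, [(nat_lit 104, nat_lit 23825743872), (nat_lit 44, nat_lit 24899223552), (nat_lit 19, nat_lit 24882708480), (nat_lit 68, nat_lit 25972703232), (nat_lit 33, nat_lit 25956188160), (nat_lit 36, nat_lit 25939673088), (nat_lit 74, nat_lit 27046182912), (nat_lit 96, nat_lit 27029667840), (nat_lit 56, nat_lit 27013152768), (nat_lit 17, nat_lit 28103147520), (nat_lit 35, nat_lit 28086632448), (nat_lit 54, nat_lit 29160112128)]⟩,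
   ⟨V6_21611151360, [(nat_lit 120, nat_lit 23825743872), (nat_lit 21, nat_lit 24882708480), (nat_lit 93, nat_lit 25939673088), (nat_lit 42, nat_lit 26996637696), (nat_lit 17, nat_lit 28053602304)]⟩,
   ⟨V6_20554186752, [(nat_lit 39, nat_lit 23825743872), (nat_lit 49, nat_lit 24882708480), (nat_lit 54, nat_lit 25939673088), (nat_lit 96, nat_lit 26996637696)]⟩,
   ⟨V6_18456772608, [(nat_lit 5, nat_lit 23825743872), (nat_lit 64, nat_lit 24899223552)]⟩],
  [W_23790878720, W_23774363648, W_23757848576, W_21676949504, W_21610889216, W_20537409536, W_19480444928]⟩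
theorem C_23825743872 : chkRec R_23825743872 = true := by decide +kernel

noncomputable def R_23840956545 : Rec := ⟨nat_lit 23840956545, nat_lit 8,
  [⟨V6_21643141185, [(nat_lit 26, nat_lit 23840956545), (nat_lit 35, nat_lit 24914698305), (nat_lit 119, nat_lit 24897921153), (nat_lit 27, nat_lit 25971662913), (nat_lit 26, nat_lit 25954885761), (nat_lit 113, nat_lit 27028627521), (nat_lit 21, nat_lit 27011850369), (nat_lit 35, nat_lit 28085592129)]⟩,
   ⟨V6_18472247424, [(nat_lit 63, nat_lit 23840956545), (nat_lit 78, nat_lit 24914698368)]⟩],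
  [W_23757070400, W_23740293248, W_22700105792]⟩
theorem C_23840956545 : chkRec R_23840956545 = true := by decide +kernel

noncomputable def R_23841218625 : Rec := ⟨nat_lit 23841218625, nat_lit 17,
  [⟨V6_20569661505, [(nat_lit 8, nat_lit 23841218625), (nat_lit 54, nat_lit 24898183233), (nat_lit 91, nat_lit 25955147841), (nat_lit 106, nat_lit 27012112449)]⟩,
   ⟨V6_19546247232, [(nat_lit 76, nat_lit 23841218625), (nat_lit 23, nat_lit 24914960448), (nat_lit 75, nat_lit 24914956353), (nat_lit 60, nat_lit 25988698176)]⟩],
  [W_23773843520, W_23757070400, W_23740555328, W_22700105792, W_21643141184]⟩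
theorem C_23841218625 : chkRec R_23841218625 = true := by decide +kernel

noncomputable def R_23841218688 : Rec := ⟨nat_lit 23841218688, nat_lit 40,
  [⟨V6_21676695552, [(nat_lit 2, nat_lit 23841218688), (nat_lit 112, nat_lit 24914960448), (nat_lit 81, nat_lit 24914698368), (nat_lit 91, nat_lit 24898183296), (nat_lit 106, nat_lit 25988702208), (nat_lit 23, nat_lit 25988440128), (nat_lit 76, nat_lit 25971925056), (nat_lit 111, nat_lit 25971662976), (nat_lit 97, nat_lit 27062181888), (nat_lit 91, nat_lit 27045666816), (nat_lit 38, nat_lit 27045404736), (nat_lit 57, nat_lit 28119146496)]⟩,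
   ⟨V6_18455732352, [(nat_lit 96, nat_lit 23841218688), (nat_lit 118, nat_lit 24898183296)]⟩],
  [W_23757332480, W_23740555328, W_23740293248, W_22700367872, W_20586438656]⟩
theorem C_23841218688 : chkRec R_23841218688 = true := by decide +kernel

noncomputable def R_23841222720 : Rec := ⟨nat_lit 23841222720, nat_lit 43,
  [⟨V6_22700371968, [(nat_lit 90, nat_lit 23841222720), (nat_lit 27, nat_lit 24914964480), (nat_lit 113, nat_lit 24898187328), (nat_lit 95, nat_lit 25971929088), (nat_lit 114, nat_lit 25955151936), (nat_lit 4, nat_lit 27028893696), (nat_lit 60, nat_lit 27012116544), (nat_lit 54, nat_lit 28085858304), (nat_lit 104, nat_lit 28069081152), (nat_lit 55, nat_lit 29142822912)]⟩,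
   ⟨V6_20603211840, [(nat_lit 23, nat_lit 23841222720), (nat_lit 71, nat_lit 24914960448), (nat_lit 108, nat_lit 24898187328), (nat_lit 2, nat_lit 25988698176), (nat_lit 74, nat_lit 25971925056), (nat_lit 115, nat_lit 27045662784)]⟩,
   ⟨V6_19546247232, [(nat_lit 44, nat_lit 23841222720), (nat_lit 25, nat_lit 24914960448), (nat_lit 88, nat_lit 25988698176)]⟩],
  [W_23757332480, W_19529474048, W_18472509440, W_17398771712]⟩
theorem C_23841222720 : chkRec R_23841222720 = true := by decide +kernel

noncomputable def R_23841476673 : Rec := ⟨nat_lit 23841476673, nat_lit 12,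
  [⟨V6_19546247232, [(nat_lit 94, nat_lit 23841476673), (nat_lit 13, nat_lit 24915218496), (nat_lit 114, nat_lit 24914956353), (nat_lit 126, nat_lit 25988698176)]⟩,
   ⟨V6_19512954945, [(nat_lit 22, nat_lit 23841476673), (nat_lit 103, nat_lit 24898441281), (nat_lit 7, nat_lit 25955405889)]⟩],
  [W_23773843520, W_23740813376, W_22733393984, W_21626884160]⟩
theorem C_23841476673 : chkRec R_23841476673 = true := by decide +kernel

noncomputable def R_23841480768 : Rec := ⟨nat_lit 23841480768, nat_lit 128,
  [⟨V6_20603473920, [(nat_lit 37, nat_lit 23841480768), (nat_lit 16, nat_lit 24915222528), (nat_lit 55, nat_lit 24915218496), (nat_lit 80, nat_lit 24898445376), (nat_lit 34, nat_lit 25988960256), (nat_lit 22, nat_lit 25972187136), (nat_lit 16, nat_lit 25972183104), (nat_lit 99, nat_lit 27045924864)]⟩,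
   ⟨V6_20586700800, [(nat_lit 4, nat_lit 23841480768), (nat_lit 14, nat_lit 24915222528), (nat_lit 70, nat_lit 24898445376), (nat_lit 4, nat_lit 25972187136), (nat_lit 102, nat_lit 25955409984), (nat_lit 93, nat_lit 27029151744)]⟩,
   ⟨V6_19529732160, [(nat_lit 38, nat_lit 23841480768), (nat_lit 109, nat_lit 24915218496), (nat_lit 118, nat_lit 24898445376), (nat_lit 103, nat_lit 25972183104)]⟩],
  [W_23790620672, W_23773843520, W_23757332480, W_23757328448, W_23757070400, W_23740817408, W_23740813376, W_23740555328, W_22716882944, W_22700367872, W_22683852800, W_22683590720, W_21676691456, W_21659918336, W_19545989120]⟩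
theorem C_23841480768 : chkRec R_23841480768 = true := by decide +kernel

noncomputable def R_23841484800 : Rec := ⟨nat_lit 23841484800, nat_lit 124,
  [⟨V6_20620247040, [(nat_lit 114, nat_lit 23841484800), (nat_lit 104, nat_lit 24915222528), (nat_lit 125, nat_lit 25988960256), (nat_lit 92, nat_lit 27062697984)]⟩,
   ⟨V6_19512963072, [(nat_lit 35, nat_lit 23841484800), (nat_lit 8, nat_lit 24898449408), (nat_lit 40, nat_lit 25955414016)]⟩,
   ⟨V6_18455998464, [(nat_lit 22, nat_lit 23841484800), (nat_lit 117, nat_lit 24898449408)]⟩],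
  [W_23790878720, W_23774363648, W_23757590528, W_23757332480, W_23740817408, W_23724044288, W_22733914112, W_22700367872, W_22683852800, W_19546247168]⟩
theorem C_23841484800 : chkRec R_23841484800 = true := by decide +kernel

end Crest.Agent.R187.SN.Top
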