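import Crest.Agent.R187.SN.Top
import Crest.Agent.R187.SN.TD.X6_6
import Crest.Agent.R187.SN.TD.X6_7
import Crest.Agent.R187.SN.TD.X6_8
import Crest.Agent.R187.SN.TD.X6_9
import Crest.Agent.R187.SN.TD.X6_10
import Crest.Agent.R187.SN.TD.X6_11
import Crest.Agent.R187.SN.TD.X6_12
import Crest.Agent.R187.SN.TD.W7_1
import Crest.Agent.R187.SN.TD.W7_2
import Crest.Agent.R187.SN.TD.W7_3

/-!
# Row 187, PLAN S, generated certificate data (mod 127): rank records and checks, chunk 16

Written by a C++ program (helper824).  The tables are only data: every property is checked by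
the kernel.
-/

set_option autoImplicit false
set_option maxRecDepth 100000
set_option Elab.async false

namespace Crest.Agent.R187.SN.Top

noncomputable def R_23841738816 : Rec := ⟨nat_lit 23841738816, nat_lit 86,
  [⟨V6_20603473920, [(nat_lit 69, nat_lit 23841738816), (nat_lit 36, nat_lit 24915480576), (nat_lit 50, nat_lit 24915218496), (nat_lit 57, nat_lit 24898703424), (nat_lit 15, nat_lit 25988960256), (nat_lit 42, nat_lit 25972445184), (nat_lit 8, nat_lit 25972183104), (nat_lit 109, nat_lit 27045924864)]⟩,
   ⟨V6_18456252480, [(nat_lit 69, nat_lit 23841738816), (nat_lit 61, nat_lit 24898703424)]⟩],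
  [W_23773843520, W_23757590528, W_23757328448, W_23741075456, W_23740813376, W_23724298304, W_22733656064, W_22717140992, W_22683848768, W_22667333696, W_21693206528, W_21676691456, W_19545985088]⟩
theorem C_23841738816 : chkRec R_23841738816 = true := by decide +kernel

noncomputable def R_23841742848 : Rec := ⟨nat_lit 23841742848, nat_lit 191,
  [⟨V6_20603473920, [(nat_lit 69, nat_lit 23841742848), (nat_lit 53, nat_lit 24915480576), (nat_lit 108, nat_lit 24915222528), (nat_lit 49, nat_lit 24898707456), (nat_lit 41, nat_lit 25988960256), (nat_lit 43, nat_lit 25972445184), (nat_lit 121, nat_lit 25972187136), (nat_lit 40, nat_lit 27045924864)]⟩,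
   ⟨V6_19513221120, [(nat_lit 10, nat_lit 23841742848), (nat_lit 93, nat_lit 24898707456), (nat_lit 84, nat_lit 25955672064)]⟩,
   ⟨V6_18456256512, [(nat_lit 70, nat_lit 23841742848), (nat_lit 49, nat_lit 24898707456)]⟩],
  [W_23807393792, W_23790878720, W_23790620672, W_23773847552, W_23757848576, W_23757332480, W_23741075456, W_23740817408, W_23724302336, W_22750429184, W_22733914112, W_22667337728, W_21693464576, W_21676691456, W_20586696704, W_19546247168]⟩
theorem C_23841742848 : chkRec R_23841742848 = true := by decide +kernel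

noncomputable def R_23842000896 : Rec := ⟨nat_lit 23842000896, nat_lit 169,
  [⟨V6_20570443776, [(nat_lit 1, nat_lit 23842000896), (nat_lit 102, nat_lit 24898965504), (nat_lit 59, nat_lit 25955930112), (nat_lit 45, nat_lit 27012894720)]⟩,
   ⟨V6_19513479168, [(nat_lit 1, nat_lit 23842000896), (nat_lit 22, nat_lit 24898965504), (nat_lit 110, nat_lit 25955930112)]⟩,
   ⟨V6_18456514560, [(nat_lit 53, nat_lit 23842000896), (nat_lit 126, nat_lit 24898965504)]⟩,
   ⟨V6_17399549952, [(nat_lit 95, nat_lit 23842000896)]⟩],
  [W_23790878720, W_23790620672, W_23757848576, W_23741333504, W_23741075456, W_23724560384, W_22766944256, W_22750429184, W_22750171136, W_22733914112, W_22684368896, W_21693464576, W_21693206528, W_21676949504, W_21676691456, W_19546247168]⟩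
theorem C_23842000896 : chkRec R_23842000896 = true := by decide +kernel

noncomputable def R_23842258944 : Rec := ⟨nat_lit 23842258944, nat_lit 89,
  [⟨V6_23741595648, [(nat_lit 46, nat_lit 23842258944), (nat_lit 107, nat_lit 24899223552), (nat_lit 67, nat_lit 25956188160), (nat_lit 25, nat_lit 27013152768), (nat_lit 3, nat_lit 28070117376), (nat_lit 70, nat_lit 29127081984), (nat_lit 124, nat_lit 30184046592)]⟩,
   ⟨V6_21693726720, [(nat_lit 35, nat_lit 23842258944), (nat_lit 95, nat_lit 24915738624), (nat_lit 7, nat_lit 25989218304), (nat_lit 68, nat_lit 27062697984), (nat_lit 58, nat_lit 28136177664)]⟩,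
   ⟨V6_20620247040, [(nat_lit 124, nat_lit 23842258944), (nat_lit 7, nat_lit 24915738624), (nat_lit 68, nat_lit 25989218304), (nat_lit 75, nat_lit 27062697984)]⟩,
   ⟨V6_18456772608, [(nat_lit 11, nat_lit 23842258944), (nat_lit 122, nat_lit 24899223552)]⟩],
  [W_23823908864, W_23790878720, W_23757848576, W_23741333504, W_22766944256, W_22684368896, W_22667853824, W_21610889216, W_20619984896]⟩
theorem C_23842258944 : chkRec R_23842258944 = true := by decide +kernel

noncomputable def R_23857733697 : Rec := ⟨nat_lit 23857733697, nat_lit 6,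
  [⟨V6_22700105793, [(nat_lit 95, nat_lit 23857733697), (nat_lit 1, nat_lit 24914698305), (nat_lit 33, nat_lit 25971662913), (nat_lit 36, nat_lit 27028627521), (nat_lit 102, nat_lit 28085592129), (nat_lit 95, nat_lit 29142556737)]⟩,
   ⟨V6_21643141185, [(nat_lit 61, nat_lit 23857733697), (nat_lit 7, nat_lit 24914698305), (nat_lit 27, nat_lit 25971662913), (nat_lit 50, nat_lit 27028627521), (nat_lit 49, nat_lit 28085592129)]⟩,
   ⟨V6_17415282753, [(nat_lit 48, nat_lit 23857733697)]⟩],
  [W_23773843520, W_19545985088, W_18489020480]⟩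
theorem C_23857733697 : chkRec R_23857733697 = true := by decide +kernel

noncomputable def R_23857733760 : Rec := ⟨nat_lit 23857733760, nat_lit 22,
  [⟨V6_21676695552, [(nat_lit 102, nat_lit 23857733760), (nat_lit 72, nat_lit 24931475520), (nat_lit 82, nat_lit 24914698368), (nat_lit 126, nat_lit 26005217280), (nat_lit 44, nat_lit 25988440128), (nat_lit 22, nat_lit 25971662976), (nat_lit 27, nat_lit 27062181888), (nat_lit 22, nat_lit 27045404736), (nat_lit 121, nat_lit 28119146496)]⟩],
  [W_23773847552, W_23757070400, W_23740293248, W_22683328640, W_20569399424, W_17415282752]⟩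
theorem C_23857733760 : chkRec R_23857733760 = true := by decide +kernel

noncomputable def R_23857991745 : Rec := ⟨nat_lit 23857991745, nat_lit 7,
  [⟨V6_23807135808, [(nat_lit 47, nat_lit 23857991745), (nat_lit 97, nat_lit 24931733568), (nat_lit 22, nat_lit 24931471425), (nat_lit 95, nat_lit 24914956353), (nat_lit 84, nat_lit 26005213248), (nat_lit 88, nat_lit 26004951105), (nat_lit 25, nat_lit 25988698176), (nat_lit 3, nat_lit 25988436033), (nat_lit 110, nat_lit 25971920961), (nat_lit 79, nat_lit 27078692928), (nat_lit 5, nat_lit 27062177856), (nat_lit 3, nat_lit 27061915713), (nat_lit 98, nat_lit 27045662784), (nat_lit 66, nat_lit 27045400641), (nat_lit 36, nat_lit 27028885569), (nat_lit 90, nat_lit 28135657536), (nat_lit 93, nat_lit 28119142464), (nat_lit 86, nat_lit 28118880321), (nat_lit 25, nat_lit 28102627392), (nat_lit 68, nat_lit 28102365249), (nat_lit 80, nat_lit 29192622144), (nat_lit 78, nat_lit 29176107072), (nat_lit 71, nat_lit 29175844929), (nat_lit 54, nat_lit 30249586752)]⟩,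
   ⟨V6_23757328449, [(nat_lit 126, nat_lit 23857991745), (nat_lit 107, nat_lit 24914956353), (nat_lit 57, nat_lit 25971920961), (nat_lit 15, nat_lit 27028885569), (nat_lit 58, nat_lit 28085850177), (nat_lit 22, nat_lit 29142814785), (nat_lit 101, nat_lit 30199779393)]⟩,
   ⟨V6_21643399233, [(nat_lit 94, nat_lit 23857991745), (nat_lit 67, nat_lit 24914956353), (nat_lit 77, nat_lit 25971920961), (nat_lit 25, nat_lit 27028885569), (nat_lit 88, nat_lit 28085850177)]⟩,
   ⟨V6_19545985089, [(nat_lit 100, nat_lit 23857991745), (nat_lit 35, nat_lit 24931471425), (nat_lit 94, nat_lit 24914956353), (nat_lit 4, nat_lit 25988436033)]⟩,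
   ⟨V6_18472505409, [(nat_lit 4, nat_lit 23857991745), (nat_lit 100, nat_lit 24914956353)]⟩],
  [W_18472505408, W_17415540800]⟩
theorem C_23857991745 : chkRec R_23857991745 = true := by decide +kernel

noncomputable def R_23857995840 : Rec := ⟨nat_lit 23857995840, nat_lit 68,
  [⟨V6_22717141056, [(nat_lit 111, nat_lit 23857995840), (nat_lit 77, nat_lit 24931733568), (nat_lit 73, nat_lit 24914960448), (nat_lit 16, nat_lit 25988698176), (nat_lit 114, nat_lit 25971925056), (nat_lit 48, nat_lit 27045662784), (nat_lit 9, nat_lit 27028889664), (nat_lit 121, nat_lit 28102627392), (nat_lit 37, nat_lit 28085854272), (nat_lit 124, nat_lit 29159592000)]⟩,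
   ⟨V6_21676695552, [(nat_lit 47, nat_lit 23857995840), (nat_lit 44, nat_lit 24931737600), (nat_lit 122, nat_lit 24931475520), (nat_lit 76, nat_lit 24914960448), (nat_lit 113, nat_lit 26005217280), (nat_lit 18, nat_lit 25988702208), (nat_lit 11, nat_lit 25988440128), (nat_lit 22, nat_lit 25971925056), (nat_lit 87, nat_lit 27062181888), (nat_lit 118, nat_lit 27045666816), (nat_lit 124, nat_lit 27045404736), (nat_lit 126, nat_lit 28119146496)]⟩,
   ⟨V6_20603211840, [(nat_lit 34, nat_lit 23857995840), (nat_lit 12, nat_lit 24931733568), (nat_lit 47, nat_lit 24914960448), (nat_lit 90, nat_lit 25988698176), (nat_lit 118, nat_lit 25971925056), (nat_lit 70, nat_lit 27045662784)]⟩,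
   ⟨V6_19546247232, [(nat_lit 18, nat_lit 23857995840), (nat_lit 48, nat_lit 24931733568), (nat_lit 72, nat_lit 24914960448), (nat_lit 23, nat_lit 25988698176)]⟩],
  [W_23757070400, W_19546247168, W_19529474048, W_18489282560, W_18489024512, W_18472509440, W_17415544832]⟩
theorem C_23857995840 : chkRec R_23857995840 = true := by decide +kernel

noncomputable def R_23857999872 : Rec := ⟨nat_lit 23857999872, nat_lit 42,
  [⟨V6_22700371968, [(nat_lit 120, nat_lit 23857999872), (nat_lit 28, nat_lit 24914964480), (nat_lit 35, nat_lit 25971929088), (nat_lit 119, nat_lit 27028893696), (nat_lit 62, nat_lit 28085858304), (nat_lit 120, nat_lit 29142822912)]⟩,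
   ⟨V6_21693726720, [(nat_lit 58, nat_lit 23857999872), (nat_lit 88, nat_lit 24931737600), (nat_lit 36, nat_lit 24914964480), (nat_lit 119, nat_lit 26005475328), (nat_lit 110, nat_lit 25988702208), (nat_lit 103, nat_lit 27079213056), (nat_lit 16, nat_lit 27062439936), (nat_lit 21, nat_lit 28136177664)]⟩,
   ⟨V6_21643407360, [(nat_lit 105, nat_lit 23857999872), (nat_lit 87, nat_lit 24914964480), (nat_lit 9, nat_lit 25971929088), (nat_lit 59, nat_lit 27028893696), (nat_lit 101, nat_lit 28085858304)]⟩],
  [W_23790878720, W_18489282560, W_18472509440, W_17415544832]⟩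
theorem C_23857999872 : chkRec R_23857999872 = true := by decide +kernel

noncomputable def R_23858253888 : Rec := ⟨nat_lit 23858253888, nat_lit 59,
  [⟨V6_20603473920, [(nat_lit 55, nat_lit 23858253888), (nat_lit 24, nat_lit 24931995648), (nat_lit 41, nat_lit 24915218496), (nat_lit 15, nat_lit 25988960256), (nat_lit 100, nat_lit 25972183104), (nat_lit 119, nat_lit 27045924864)]⟩,
   ⟨V6_19546247232, [(nat_lit 8, nat_lit 23858253888), (nat_lit 17, nat_lit 24931733568), (nat_lit 88, nat_lit 24915218496), (nat_lit 124, nat_lit 25988698176)]⟩],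
  [W_23790620672, W_23773843520, W_23757590528, W_23757328448, W_23740813376, W_22733656064, W_22733393984, W_22717140992, W_21693206528]⟩
theorem C_23858253888 : chkRec R_23858253888 = true := by decide +kernel

noncomputable def R_23858257920 : Rec := ⟨nat_lit 23858257920, nat_lit 149,
  [⟨V6_21676695552, [(nat_lit 78, nat_lit 23858257920), (nat_lit 11, nat_lit 24931737600), (nat_lit 88, nat_lit 24915222528), (nat_lit 86, nat_lit 26005217280), (nat_lit 86, nat_lit 25988702208), (nat_lit 114, nat_lit 25972187136), (nat_lit 13, nat_lit 27062181888), (nat_lit 73, nat_lit 27045666816), (nat_lit 93, nat_lit 28119146496)]⟩,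
   ⟨V6_20603473920, [(nat_lit 12, nat_lit 23858257920), (nat_lit 64, nat_lit 24931995648), (nat_lit 39, nat_lit 24915222528), (nat_lit 99, nat_lit 25988960256), (nat_lit 79, nat_lit 25972187136), (nat_lit 77, nat_lit 27045924864)]⟩,
   ⟨V6_20586700800, [(nat_lit 71, nat_lit 23858257920), (nat_lit 50, nat_lit 24915222528), (nat_lit 49, nat_lit 25972187136), (nat_lit 102, nat_lit 27029151744)]⟩],
  [W_23790878720, W_23790620672, W_23774363648, W_23773847552, W_23757332480, W_23740817408, W_22750429184, W_22733914112, W_22683852800, W_21676949504, W_20636499968, W_19563020288]⟩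
theorem C_23858257920 : chkRec R_23858257920 = true := by decide +kernel

noncomputable def R_23858515968 : Rec := ⟨nat_lit 23858515968, nat_lit 135,
  [⟨V6_23823912960, [(nat_lit 16, nat_lit 23858515968), (nat_lit 119, nat_lit 24931995648), (nat_lit 107, nat_lit 24915480576), (nat_lit 11, nat_lit 26005475328), (nat_lit 55, nat_lit 25988960256), (nat_lit 8, nat_lit 25972445184), (nat_lit 100, nat_lit 27078955008), (nat_lit 103, nat_lit 27062439936), (nat_lit 19, nat_lit 27045924864), (nat_lit 49, nat_lit 28152434688), (nat_lit 103, nat_lit 28135919616), (nat_lit 56, nat_lit 28119404544), (nat_lit 25, nat_lit 29209399296), (nat_lit 48, nat_lit 29192884224), (nat_lit 58, nat_lit 30266363904)]⟩,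
   ⟨V6_22766948352, [(nat_lit 60, nat_lit 23858515968), (nat_lit 85, nat_lit 24931995648), (nat_lit 9, nat_lit 24915480576), (nat_lit 98, nat_lit 26005475328), (nat_lit 86, nat_lit 25988960256), (nat_lit 2, nat_lit 27078955008), (nat_lit 82, nat_lit 27062439936), (nat_lit 48, nat_lit 28152434688), (nat_lit 98, nat_lit 28135919616), (nat_lit 80, nat_lit 29209399296)]⟩,
   ⟨V6_21709983744, [(nat_lit 1, nat_lit 23858515968), (nat_lit 22, nat_lit 24931995648), (nat_lit 8, nat_lit 26005475328), (nat_lit 107, nat_lit 27078955008), (nat_lit 43, nat_lit 28152434688)]⟩,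
   ⟨V6_21693726720, [(nat_lit 120, nat_lit 23858515968), (nat_lit 13, nat_lit 24932253696), (nat_lit 54, nat_lit 24931995648), (nat_lit 116, nat_lit 24915480576), (nat_lit 18, nat_lit 26005733376), (nat_lit 104, nat_lit 26005475328), (nat_lit 1, nat_lit 25989218304), (nat_lit 122, nat_lit 25988960256), (nat_lit 116, nat_lit 27079213056), (nat_lit 76, nat_lit 27062697984), (nat_lit 24, nat_lit 27062439936), (nat_lit 63, nat_lit 28136177664)]⟩,
   ⟨V6_21693468672, [(nat_lit 122, nat_lit 23858515968), (nat_lit 21, nat_lit 24931995648), (nat_lit 49, nat_lit 24915480576), (nat_lit 76, nat_lit 26005475328), (nat_lit 100, nat_lit 25988960256), (nat_lit 114, nat_lit 27078955008), (nat_lit 121, nat_lit 27062439936), (nat_lit 46, nat_lit 28135919616)]⟩,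
   ⟨V6_20620247040, [(nat_lit 59, nat_lit 23858515968), (nat_lit 103, nat_lit 24932253696), (nat_lit 11, nat_lit 24931995648), (nat_lit 56, nat_lit 24915480576), (nat_lit 47, nat_lit 26005733376), (nat_lit 46, nat_lit 25989218304), (nat_lit 122, nat_lit 25988960256), (nat_lit 39, nat_lit 27062697984)]⟩,
   ⟨V6_20603473920, [(nat_lit 31, nat_lit 23858515968), (nat_lit 97, nat_lit 24931995648), (nat_lit 81, nat_lit 24915480576), (nat_lit 40, nat_lit 25988960256), (nat_lit 6, nat_lit 25972445184), (nat_lit 3, nat_lit 27045924864)]⟩],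
  [W_23757848576, W_23741075456, W_22766944256, W_20586696704, W_19546247168, W_19529732096, W_18489282560, W_18472767488, W_17416060928]⟩
theorem C_23858515968 : chkRec R_23858515968 = true := by decide +kernel

noncomputable def R_23858774016 : Rec := ⟨nat_lit 23858774016, nat_lit 93,
  [⟨V6_22783721472, [(nat_lit 92, nat_lit 23858774016), (nat_lit 63, nat_lit 24932253696), (nat_lit 39, nat_lit 26005733376), (nat_lit 1, nat_lit 27079213056), (nat_lit 115, nat_lit 28152692736), (nat_lit 106, nat_lit 29226172416)]⟩,
   ⟨V6_22717661184, [(nat_lit 7, nat_lit 23858774016), (nat_lit 24, nat_lit 24932253696), (nat_lit 88, nat_lit 24915738624), (nat_lit 66, nat_lit 25989218304), (nat_lit 69, nat_lit 25972703232), (nat_lit 107, nat_lit 27046182912), (nat_lit 59, nat_lit 27029667840), (nat_lit 60, nat_lit 28103147520), (nat_lit 64, nat_lit 28086632448), (nat_lit 102, nat_lit 29160112128)]⟩,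
   ⟨V6_21693726720, [(nat_lit 69, nat_lit 23858774016), (nat_lit 79, nat_lit 24932253696), (nat_lit 88, nat_lit 24915738624), (nat_lit 118, nat_lit 26005733376), (nat_lit 86, nat_lit 25989218304), (nat_lit 98, nat_lit 27079213056), (nat_lit 49, nat_lit 27062697984), (nat_lit 93, nat_lit 28136177664)]⟩,
   ⟨V6_20620247040, [(nat_lit 58, nat_lit 23858774016), (nat_lit 30, nat_lit 24932253696), (nat_lit 76, nat_lit 24915738624), (nat_lit 40, nat_lit 26005733376), (nat_lit 19, nat_lit 25989218304), (nat_lit 97, nat_lit 27062697984)]⟩],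
  [W_23840423936, W_23790878720, W_23774363648, W_23757848576, W_23741333504, W_20619984896, W_19563020288, W_17416060928]⟩
theorem C_23858774016 : chkRec R_23858774016 = true := by decide +kernel

noncomputable def R_23874506817 : Rec := ⟨nat_lit 23874506817, nat_lit 2,
  [⟨V6_18505797696, [(nat_lit 16, nat_lit 23874506817), (nat_lit 44, nat_lit 24948248640)]⟩],
  [W_23773843520]⟩
theorem C_23874506817 : chkRec R_23874506817 = true := by decide +kernel

noncomputable def R_23874510912 : Rec := ⟨nat_lit 23874510912, nat_lit 29,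
  [⟨V6_23790620736, [(nat_lit 35, nat_lit 23874510912), (nat_lit 87, nat_lit 24948248640), (nat_lit 121, nat_lit 24931475520), (nat_lit 3, nat_lit 26005213248), (nat_lit 66, nat_lit 25988440128), (nat_lit 2, nat_lit 27062177856), (nat_lit 121, nat_lit 27045404736), (nat_lit 75, nat_lit 28119142464), (nat_lit 85, nat_lit 28102369344), (nat_lit 26, nat_lit 29176107072), (nat_lit 101, nat_lit 29159333952), (nat_lit 76, nat_lit 30233071680)]⟩,
   ⟨V6_19562766336, [(nat_lit 112, nat_lit 23874510912), (nat_lit 16, nat_lit 24948252672), (nat_lit 22, nat_lit 24931475520), (nat_lit 63, nat_lit 26005217280)]⟩,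
   ⟨V6_18505797696, [(nat_lit 107, nat_lit 23874510912), (nat_lit 15, nat_lit 24948248640)]⟩],
  [W_23773847552, W_22716882944, W_21659918336]⟩
theorem C_23874510912 : chkRec R_23874510912 = true := by decide +kernel

noncomputable def R_23874768960 : Rec := ⟨nat_lit 23874768960, nat_lit 34,
  [⟨V6_20603211840, [(nat_lit 106, nat_lit 23874768960), (nat_lit 35, nat_lit 24931733568), (nat_lit 106, nat_lit 25988698176), (nat_lit 16, nat_lit 27045662784)]⟩,
   ⟨V6_19579277376, [(nat_lit 71, nat_lit 23874768960), (nat_lit 75, nat_lit 24948248640), (nat_lit 59, nat_lit 26021728320)]⟩,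
   ⟨V6_19546247232, [(nat_lit 33, nat_lit 23874768960), (nat_lit 13, nat_lit 24931733568), (nat_lit 92, nat_lit 25988698176)]⟩,
   ⟨V6_18505797696, [(nat_lit 82, nat_lit 23874768960), (nat_lit 102, nat_lit 24948248640)]⟩],
  [W_23790620672, W_22717140992, W_21693206528, W_19579277312, W_16358576192]⟩
theorem C_23874768960 : chkRec R_23874768960 = true := by decide +kernel

noncomputable def R_23874772992 : Rec := ⟨nat_lit 23874772992, nat_lit 76,
  [⟨V6_23790624768, [(nat_lit 46, nat_lit 23874772992), (nat_lit 76, nat_lit 24948252672), (nat_lit 36, nat_lit 24931737600), (nat_lit 48, nat_lit 26005217280), (nat_lit 6, nat_lit 25988702208), (nat_lit 72, nat_lit 27062181888), (nat_lit 120, nat_lit 27045666816), (nat_lit 55, nat_lit 28119146496), (nat_lit 3, nat_lit 28102631424), (nat_lit 79, nat_lit 29176111104), (nat_lit 58, nat_lit 29159596032), (nat_lit 51, nat_lit 30233075712)]⟩,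
   ⟨V6_21693726720, [(nat_lit 114, nat_lit 23874772992), (nat_lit 43, nat_lit 24948510720), (nat_lit 14, nat_lit 24931737600), (nat_lit 106, nat_lit 26022248448), (nat_lit 64, nat_lit 26005475328), (nat_lit 96, nat_lit 25988702208), (nat_lit 32, nat_lit 27079213056), (nat_lit 107, nat_lit 27062439936), (nat_lit 75, nat_lit 28136177664)]⟩,
   ⟨V6_21693468672, [(nat_lit 9, nat_lit 23874772992), (nat_lit 122, nat_lit 24948510720), (nat_lit 17, nat_lit 24948252672), (nat_lit 80, nat_lit 24931737600), (nat_lit 105, nat_lit 26021990400), (nat_lit 37, nat_lit 26005475328), (nat_lit 66, nat_lit 26005217280), (nat_lit 31, nat_lit 25988702208), (nat_lit 28, nat_lit 27078955008), (nat_lit 5, nat_lit 27062439936), (nat_lit 100, nat_lit 27062181888), (nat_lit 113, nat_lit 28135919616)]⟩,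
   ⟨V6_21676695552, [(nat_lit 14, nat_lit 23874772992), (nat_lit 28, nat_lit 24948252672), (nat_lit 48, nat_lit 24931737600), (nat_lit 24, nat_lit 26005217280), (nat_lit 116, nat_lit 25988702208), (nat_lit 14, nat_lit 27062181888), (nat_lit 26, nat_lit 27045666816), (nat_lit 64, nat_lit 28119146496)]⟩],
  [W_23790878720, W_21676949504, W_19563020288, W_19529474048, W_17432317952, W_17415544832]⟩
theorem C_23874772992 : chkRec R_23874772992 = true := by decide +kernel

noncomputable def R_23875031040 : Rec := ⟨nat_lit 23875031040, nat_lit 100,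
  [⟨V6_21693468672, [(nat_lit 31, nat_lit 23875031040), (nat_lit 119, nat_lit 24948510720), (nat_lit 107, nat_lit 24931995648), (nat_lit 42, nat_lit 26021990400), (nat_lit 112, nat_lit 26005475328), (nat_lit 66, nat_lit 25988960256), (nat_lit 107, nat_lit 27078955008), (nat_lit 115, nat_lit 27062439936), (nat_lit 110, nat_lit 28135919616)]⟩,
   ⟨V6_20620247040, [(nat_lit 122, nat_lit 23875031040), (nat_lit 64, nat_lit 24948768768), (nat_lit 50, nat_lit 24931995648), (nat_lit 117, nat_lit 26005733376), (nat_lit 111, nat_lit 25988960256), (nat_lit 103, nat_lit 27062697984)]⟩,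
   ⟨V6_20603473920, [(nat_lit 1, nat_lit 23875031040), (nat_lit 83, nat_lit 24931995648), (nat_lit 1, nat_lit 25988960256), (nat_lit 96, nat_lit 27045924864)]⟩],
  [W_23823908864, W_23807393792, W_23807135744, W_23790878720, W_23774363648, W_23757590528, W_22766944256, W_21676949504, W_19563020288, W_16358838272]⟩
theorem C_23875031040 : chkRec R_23875031040 = true := by decide +kernel

noncomputable def R_23875289088 : Rec := ⟨nat_lit 23875289088, nat_lit 69,
  [⟨V6_22717661184, [(nat_lit 59, nat_lit 23875289088), (nat_lit 81, nat_lit 24932253696), (nat_lit 99, nat_lit 25989218304), (nat_lit 46, nat_lit 27046182912), (nat_lit 2, nat_lit 28103147520), (nat_lit 70, nat_lit 29160112128)]⟩,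
   ⟨V6_21726756864, [(nat_lit 57, nat_lit 23875289088), (nat_lit 111, nat_lit 24948768768), (nat_lit 75, nat_lit 26022248448), (nat_lit 3, nat_lit 27095728128), (nat_lit 38, nat_lit 28169207808)]⟩,
   ⟨V6_20620247040, [(nat_lit 103, nat_lit 23875289088), (nat_lit 115, nat_lit 24948768768), (nat_lit 6, nat_lit 24932253696), (nat_lit 57, nat_lit 26005733376), (nat_lit 92, nat_lit 25989218304), (nat_lit 108, nat_lit 27062697984)]⟩],
  [W_23790878720, W_23774363648, W_23757848576, W_20653015040, W_17432576000, W_17416060928, W_16359096320]⟩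
theorem C_23875289088 : chkRec R_23875289088 = true := by decide +kernel

noncomputable def R_23891021889 : Rec := ⟨nat_lit 23891021889, nat_lit 1,
  [⟨V6_17448570945, [(nat_lit 96, nat_lit 23891021889)]⟩],
  [W_22733393984]⟩
theorem C_23891021889 : chkRec R_23891021889 = true := by decide +kernel

noncomputable def R_23891284032 : Rec := ⟨nat_lit 23891284032, nat_lit 14,
  [⟨V6_23790620736, [(nat_lit 8, nat_lit 23891284032), (nat_lit 85, nat_lit 24948248640), (nat_lit 51, nat_lit 26005213248), (nat_lit 15, nat_lit 27062177856), (nat_lit 111, nat_lit 28119142464), (nat_lit 99, nat_lit 29176107072), (nat_lit 102, nat_lit 30233071680)]⟩,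
   ⟨V6_18522574848, [(nat_lit 16, nat_lit 23891284032), (nat_lit 17, nat_lit 24965025792)]⟩,
   ⟨V6_18505797696, [(nat_lit 64, nat_lit 23891284032), (nat_lit 111, nat_lit 24948248640)]⟩],
  [W_23790620672, W_23773843520, W_17448833024, W_17432055872]⟩
theorem C_23891284032 : chkRec R_23891284032 = true := by decide +kernel

noncomputable def R_23891288064 : Rec := ⟨nat_lit 23891288064, nat_lit 37,
  [⟨V6_19596312576, [(nat_lit 79, nat_lit 23891288064), (nat_lit 76, nat_lit 24965025792), (nat_lit 122, nat_lit 26038763520)]⟩,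
   ⟨V6_19562766336, [(nat_lit 32, nat_lit 23891288064), (nat_lit 103, nat_lit 24948252672), (nat_lit 90, nat_lit 26005217280)]⟩,
   ⟨V6_17448837120, [(nat_lit 12, nat_lit 23891288064)]⟩],
  [W_23807393792, W_23790620672, W_23773847552, W_22716882944]⟩
theorem C_23891288064 : chkRec R_23891288064 = true := by decide +kernel

noncomputable def R_23891546112 : Rec := ⟨nat_lit 23891546112, nat_lit 55,
  [⟨V6_21726756864, [(nat_lit 36, nat_lit 23891546112), (nat_lit 31, nat_lit 24965283840), (nat_lit 83, nat_lit 24965025792), (nat_lit 24, nat_lit 24948510720), (nat_lit 5, nat_lit 26038763520), (nat_lit 82, nat_lit 26038505472), (nat_lit 91, nat_lit 26022248448), (nat_lit 30, nat_lit 26021990400), (nat_lit 53, nat_lit 27112243200), (nat_lit 124, nat_lit 27095728128), (nat_lit 21, nat_lit 27095470080), (nat_lit 48, nat_lit 28169207808)]⟩,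
   ⟨V6_21709983744, [(nat_lit 12, nat_lit 23891546112), (nat_lit 68, nat_lit 24965025792), (nat_lit 1, nat_lit 24948510720), (nat_lit 48, nat_lit 26038505472), (nat_lit 101, nat_lit 26021990400), (nat_lit 68, nat_lit 26005475328), (nat_lit 48, nat_lit 27095470080), (nat_lit 66, nat_lit 27078955008), (nat_lit 66, nat_lit 28152434688)]⟩,
   ⟨V6_21693726720, [(nat_lit 67, nat_lit 23891546112), (nat_lit 39, nat_lit 24965283840), (nat_lit 22, nat_lit 24948510720), (nat_lit 88, nat_lit 26022248448), (nat_lit 122, nat_lit 26005475328), (nat_lit 87, nat_lit 27079213056), (nat_lit 21, nat_lit 27062439936), (nat_lit 10, nat_lit 28136177664)]⟩,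
   ⟨V6_19596312576, [(nat_lit 40, nat_lit 23891546112), (nat_lit 21, nat_lit 24965283840), (nat_lit 55, nat_lit 24965025792), (nat_lit 94, nat_lit 26038763520)]⟩,
   ⟨V6_18522832896, [(nat_lit 50, nat_lit 23891546112), (nat_lit 89, nat_lit 24965283840)]⟩,
   ⟨V6_18522574848, [(nat_lit 115, nat_lit 23891546112), (nat_lit 78, nat_lit 24965025792)]⟩],
  [W_23790878720, W_23790620672, W_20603211776, W_18489282560]⟩
theorem C_23891546112 : chkRec R_23891546112 = true := by decide +kernel

noncomputable def R_23891804160 : Rec := ⟨nat_lit 23891804160, nat_lit 58,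
  [⟨V6_23857201152, [(nat_lit 104, nat_lit 23891804160), (nat_lit 76, nat_lit 24965283840), (nat_lit 16, nat_lit 24948768768), (nat_lit 103, nat_lit 26038763520), (nat_lit 42, nat_lit 26022248448), (nat_lit 94, nat_lit 26005733376), (nat_lit 14, nat_lit 27112243200), (nat_lit 64, nat_lit 27095728128), (nat_lit 30, nat_lit 27079213056), (nat_lit 90, nat_lit 28185722880), (nat_lit 26, nat_lit 28169207808), (nat_lit 84, nat_lit 28152692736), (nat_lit 44, nat_lit 29242687488), (nat_lit 47, nat_lit 29226172416), (nat_lit 58, nat_lit 30299652096)]⟩,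
   ⟨V6_22800236544, [(nat_lit 6, nat_lit 23891804160), (nat_lit 93, nat_lit 24965283840), (nat_lit 126, nat_lit 24948768768), (nat_lit 48, nat_lit 26038763520), (nat_lit 12, nat_lit 26022248448), (nat_lit 92, nat_lit 27112243200), (nat_lit 54, nat_lit 27095728128), (nat_lit 10, nat_lit 28185722880), (nat_lit 81, nat_lit 28169207808), (nat_lit 117, nat_lit 29242687488)]⟩,
   ⟨V6_21726756864, [(nat_lit 10, nat_lit 23891804160), (nat_lit 60, nat_lit 24965283840), (nat_lit 90, nat_lit 24948768768), (nat_lit 36, nat_lit 26038763520), (nat_lit 8, nat_lit 26022248448), (nat_lit 51, nat_lit 27112243200), (nat_lit 99, nat_lit 27095728128), (nat_lit 107, nat_lit 28169207808)]⟩,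
   ⟨V6_20620247040, [(nat_lit 82, nat_lit 23891804160), (nat_lit 4, nat_lit 24948768768), (nat_lit 26, nat_lit 26005733376), (nat_lit 71, nat_lit 27062697984)]⟩,
   ⟨V6_18522832896, [(nat_lit 62, nat_lit 23891804160), (nat_lit 119, nat_lit 24965283840)]⟩,
   ⟨V6_17449353216, [(nat_lit 63, nat_lit 23891804160)]⟩],
  [W_23790878720, W_23774363648, W_21676949504, W_17449091072, W_17432576000]⟩
theorem C_23891804160 : chkRec R_23891804160 = true := by decide +kernel

noncomputable def R_23907799104 : Rec := ⟨nat_lit 23907799104, nat_lit 2,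
  [⟨V6_18539089920, [(nat_lit 27, nat_lit 23907799104), (nat_lit 116, nat_lit 24981540864)]⟩],
  [W_23807135744]⟩
theorem C_23907799104 : chkRec R_23907799104 = true := by decide +kernel

noncomputable def R_23908061184 : Rec := ⟨nat_lit 23908061184, nat_lit 28,
  [⟨V6_21693468672, [(nat_lit 38, nat_lit 23908061184), (nat_lit 22, nat_lit 24965025792), (nat_lit 27, nat_lit 26021990400), (nat_lit 115, nat_lit 27078955008), (nat_lit 91, nat_lit 28135919616)]⟩,
   ⟨V6_19596312576, [(nat_lit 50, nat_lit 23908061184), (nat_lit 61, nat_lit 24981798912), (nat_lit 122, nat_lit 24965025792), (nat_lit 84, nat_lit 26038763520)]⟩],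
  [W_23823908864, W_23807135744, W_22766944256, W_21709979648, W_20653015040, W_20636241920]⟩
theorem C_23908061184 : chkRec R_23908061184 = true := by decide +kernel

noncomputable def R_23908319232 : Rec := ⟨nat_lit 23908319232, nat_lit 32,
  [⟨V6_21693726720, [(nat_lit 62, nat_lit 23908319232), (nat_lit 76, nat_lit 24965283840), (nat_lit 24, nat_lit 26022248448), (nat_lit 74, nat_lit 27079213056), (nat_lit 95, nat_lit 28136177664)]⟩,
   ⟨V6_19596312576, [(nat_lit 55, nat_lit 23908319232), (nat_lit 45, nat_lit 24981798912), (nat_lit 80, nat_lit 24965283840), (nat_lit 121, nat_lit 26038763520)]⟩],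
  [W_23823908864, W_23790878720, W_21726494720, W_19612565504, W_18522570752]⟩
theorem C_23908319232 : chkRec R_23908319232 = true := by decide +kernel

noncomputable def R_23924576256 : Rec := ⟨nat_lit 23924576256, nat_lit 5,
  [⟨V6_23823912960, [(nat_lit 97, nat_lit 23924576256), (nat_lit 23, nat_lit 24981540864), (nat_lit 114, nat_lit 26038505472), (nat_lit 121, nat_lit 27095470080), (nat_lit 4, nat_lit 28152434688), (nat_lit 90, nat_lit 29209399296), (nat_lit 21, nat_lit 30266363904)]⟩,
   ⟨V6_21709983744, [(nat_lit 44, nat_lit 23924576256), (nat_lit 39, nat_lit 24981540864), (nat_lit 21, nat_lit 26038505472), (nat_lit 23, nat_lit 27095470080), (nat_lit 102, nat_lit 28152434688)]⟩],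
  [W_23823908864]⟩
theorem C_23924576256 : chkRec R_23924576256 = true := by decide +kernel

noncomputable def R_23924834304 : Rec := ⟨nat_lit 23924834304, nat_lit 20,
  [⟨V6_21726756864, [(nat_lit 122, nat_lit 23924834304), (nat_lit 13, nat_lit 24998313984), (nat_lit 120, nat_lit 24981798912), (nat_lit 15, nat_lit 26055278592), (nat_lit 36, nat_lit 26038763520), (nat_lit 9, nat_lit 27112243200), (nat_lit 119, nat_lit 27095728128), (nat_lit 15, nat_lit 28169207808)]⟩,
   ⟨V6_19629342720, [(nat_lit 93, nat_lit 23924834304), (nat_lit 125, nat_lit 24998313984), (nat_lit 59, nat_lit 26071793664)]⟩,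
   ⟨V6_19612827648, [(nat_lit 113, nat_lit 23924834304), (nat_lit 73, nat_lit 24998313984), (nat_lit 122, nat_lit 24981798912), (nat_lit 81, nat_lit 26055278592)]⟩,
   ⟨V6_19596312576, [(nat_lit 65, nat_lit 23924834304), (nat_lit 63, nat_lit 24981798912), (nat_lit 118, nat_lit 26038763520)]⟩],
  [W_23840423936, W_23807393792, W_21726494720]⟩
theorem C_23924834304 : chkRec R_23924834304 = true := by decide +kernel

noncomputable def R_23941349376 : Rec := ⟨nat_lit 23941349376, nat_lit 7,
  [⟨V6_22800236544, [(nat_lit 27, nat_lit 23941349376), (nat_lit 59, nat_lit 25014829056), (nat_lit 12, nat_lit 24998313984), (nat_lit 113, nat_lit 26071793664), (nat_lit 72, nat_lit 26055278592), (nat_lit 97, nat_lit 27128758272), (nat_lit 32, nat_lit 27112243200), (nat_lit 56, nat_lit 28185722880), (nat_lit 73, nat_lit 28169207808), (nat_lit 65, nat_lit 29242687488)]⟩,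
   ⟨V6_21726756864, [(nat_lit 102, nat_lit 23941349376), (nat_lit 40, nat_lit 24998313984), (nat_lit 97, nat_lit 26055278592), (nat_lit 84, nat_lit 27112243200), (nat_lit 98, nat_lit 28169207808)]⟩],
  [W_22766944256, W_20669530112]⟩
theorem C_23941349376 : chkRec R_23941349376 = true := by decide +kernel

noncomputable def R_23957864448 : Rec := ⟨nat_lit 23957864448, nat_lit 4,
  [⟨V6_23857201152, [(nat_lit 116, nat_lit 23957864448), (nat_lit 113, nat_lit 25014829056), (nat_lit 28, nat_lit 26071793664), (nat_lit 110, nat_lit 27128758272), (nat_lit 20, nat_lit 28185722880), (nat_lit 120, nat_lit 29242687488), (nat_lit 81, nat_lit 30299652096)]⟩],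
  [W_23840423936]⟩
theorem C_23957864448 : chkRec R_23957864448 = true := by decide +kernel

noncomputable def R_24781013250 : Rec := ⟨nat_lit 24781013250, nat_lit 1,
  [⟨V6_19395526914, [(nat_lit 16, nat_lit 24781013250), (nat_lit 65, nat_lit 25837977858)]⟩],
  [W_22616752256]⟩
theorem C_24781013250 : chkRec R_24781013250 = true := by decide +kernel

noncomputable def R_24797790402 : Rec := ⟨nat_lit 24797790402, nat_lit 1,
  [⟨V6_20502818946, [(nat_lit 126, nat_lit 24797790402), (nat_lit 102, nat_lit 25871532162), (nat_lit 84, nat_lit 25871528130), (nat_lit 6, nat_lit 26945269890)]⟩],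
  [W_22616752256]⟩
theorem C_24797790402 : chkRec R_24797790402 = true := by decide +kernel

noncomputable def R_24797790465 : Rec := ⟨nat_lit 24797790465, nat_lit 3,
  [⟨V6_19429081344, [(nat_lit 68, nat_lit 24797790465), (nat_lit 1, nat_lit 25871532288)]⟩],
  [W_23690494016, W_22633529408, W_22616752256]⟩
theorem C_24797790465 : chkRec R_24797790465 = true := by decide +kernel

noncomputable def R_24798052482 : Rec := ⟨nat_lit 24798052482, nat_lit 2,
  [⟨V6_21576556674, [(nat_lit 98, nat_lit 24798052482), (nat_lit 35, nat_lit 25871790210), (nat_lit 53, nat_lit 25871532162), (nat_lit 82, nat_lit 26945527938), (nat_lit 122, nat_lit 26945269890), (nat_lit 73, nat_lit 28019007618)]⟩],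
  [W_20502823040]⟩
theorem C_24798052482 : chkRec R_24798052482 = true := by decide +kernel

noncomputable def R_24798052545 : Rec := ⟨nat_lit 24798052545, nat_lit 3,
  [⟨V6_20503085121, [(nat_lit 14, nat_lit 24798052545), (nat_lit 3, nat_lit 25871794305), (nat_lit 11, nat_lit 26945536065)]⟩],
  [W_21576564800]⟩
theorem C_24798052545 : chkRec R_24798052545 = true := by decide +kernel

noncomputable def R_24798052608 : Rec := ⟨nat_lit 24798052608, nat_lit 4,
  [⟨V6_19429081344, [(nat_lit 66, nat_lit 24798052608), (nat_lit 98, nat_lit 25871532288)]⟩],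
  [W_23707271168, W_21576826880]⟩
theorem C_24798052608 : chkRec R_24798052608 = true := by decide +kernel

noncomputable def R_24798056577 : Rec := ⟨nat_lit 24798056577, nat_lit 2,
  [⟨V6_19429347393, [(nat_lit 13, nat_lit 24798056577), (nat_lit 117, nat_lit 25871798337)]⟩],
  [W_21576818816]⟩
theorem C_24798056577 : chkRec R_24798056577 = true := by decide +kernel

noncomputable def R_24798056640 : Rec := ⟨nat_lit 24798056640, nat_lit 1,
  [⟨V6_19429347456, [(nat_lit 66, nat_lit 24798056640), (nat_lit 87, nat_lit 25871798400)]⟩],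
  [W_22633787456]⟩
theorem C_24798056640 : chkRec R_24798056640 = true := by decide +kernel

noncomputable def R_24798310530 : Rec := ⟨nat_lit 24798310530, nat_lit 3,
  [⟨V6_21576556674, [(nat_lit 4, nat_lit 24798310530), (nat_lit 83, nat_lit 25872048258), (nat_lit 119, nat_lit 25871790210), (nat_lit 60, nat_lit 26945527938), (nat_lit 91, nat_lit 26945269890), (nat_lit 18, nat_lit 28019007618)]⟩],
  [W_20503339136]⟩
theorem C_24798310530 : chkRec R_24798310530 = true := by decide +kernel

noncomputable def R_24798310593 : Rec := ⟨nat_lit 24798310593, nat_lit 1,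
  [⟨V6_18355859649, [(nat_lit 101, nat_lit 24798310593)]⟩],
  [W_22650302528]⟩
theorem C_24798310593 : chkRec R_24798310593 = true := by decide +kernel

noncomputable def R_24798314625 : Rec := ⟨nat_lit 24798314625, nat_lit 8,
  [⟨V6_21577080960, [(nat_lit 123, nat_lit 24798314625), (nat_lit 71, nat_lit 25872056448), (nat_lit 51, nat_lit 25872052353), (nat_lit 77, nat_lit 26945794176), (nat_lit 29, nat_lit 26945790081), (nat_lit 56, nat_lit 28019531904)]⟩],
  [W_23724040256, W_21576564800, W_20503085120]⟩
theorem C_24798314625 : chkRec R_24798314625 = true := by decide +kernel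

noncomputable def R_24798314688 : Rec := ⟨nat_lit 24798314688, nat_lit 10,
  [⟨V6_21577089024, [(nat_lit 28, nat_lit 24798314688), (nat_lit 92, nat_lit 25872056448), (nat_lit 98, nat_lit 26945798208), (nat_lit 49, nat_lit 28019539968)]⟩],
  [W_23724044288, W_22650306560, W_21576560768, W_20503081088]⟩
theorem C_24798314688 : chkRec R_24798314688 = true := by decide +kernel

noncomputable def R_24798318657 : Rec := ⟨nat_lit 24798318657, nat_lit 2,
  [⟨V6_21577080897, [(nat_lit 2, nat_lit 24798318657), (nat_lit 99, nat_lit 25872056385), (nat_lit 117, nat_lit 26945794113), (nat_lit 31, nat_lit 28019531841)]⟩,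
   ⟨V6_19429347393, [(nat_lit 17, nat_lit 24798318657), (nat_lit 77, nat_lit 25871798337)]⟩],
  [W_21577080896]⟩
theorem C_24798318657 : chkRec R_24798318657 = true := by decide +kernel

noncomputable def R_24798318720 : Rec := ⟨nat_lit 24798318720, nat_lit 12,
  [⟨V6_20503351296, [(nat_lit 11, nat_lit 24798318720), (nat_lit 119, nat_lit 25872060480), (nat_lit 55, nat_lit 26945802240)]⟩,
   ⟨V6_19429347456, [(nat_lit 27, nat_lit 24798318720), (nat_lit 70, nat_lit 25871798400)]⟩],
  [W_23724302336, W_22650822656, W_20503339136]⟩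
theorem C_24798318720 : chkRec R_24798318720 = true := by decide +kernel

noncomputable def R_24798322752 : Rec := ⟨nat_lit 24798322752, nat_lit 8,
  [⟨V6_18355871808, [(nat_lit 10, nat_lit 24798322752)]⟩],
  [W_23724560384, W_22650822656]⟩
theorem C_24798322752 : chkRec R_24798322752 = true := by decide +kernel

noncomputable def R_24814567554 : Rec := ⟨nat_lit 24814567554, nat_lit 4,
  [⟨V6_23690485890, [(nat_lit 79, nat_lit 24814567554), (nat_lit 45, nat_lit 25888305282), (nat_lit 103, nat_lit 25871532162), (nat_lit 77, nat_lit 26962043010), (nat_lit 79, nat_lit 26945269890), (nat_lit 79, nat_lit 26928496770), (nat_lit 73, nat_lit 28019007618), (nat_lit 50, nat_lit 28002234498), (nat_lit 24, nat_lit 27985461378), (nat_lit 7, nat_lit 29075972226), (nat_lit 83, nat_lit 29059199106), (nat_lit 72, nat_lit 30132936834)]⟩,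
   ⟨V6_21576556674, [(nat_lit 54, nat_lit 24814567554), (nat_lit 49, nat_lit 25888305282), (nat_lit 119, nat_lit 25871532162), (nat_lit 80, nat_lit 26962043010), (nat_lit 92, nat_lit 26945269890), (nat_lit 76, nat_lit 28019007618)]⟩],
  [W_22616752256, W_19445858432]⟩
theorem C_24814567554 : chkRec R_24814567554 = true := by decide +kernel

noncomputable def R_24814567617 : Rec := ⟨nat_lit 24814567617, nat_lit 5,
  [⟨V6_20502823104, [(nat_lit 117, nat_lit 24814567617), (nat_lit 21, nat_lit 25888309440), (nat_lit 15, nat_lit 25871532225), (nat_lit 49, nat_lit 26945274048)]⟩],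
  [W_23707267136, W_21593337920]⟩
theorem C_24814567617 : chkRec R_24814567617 = true := by decide +kernel

noncomputable def R_24814567680 : Rec := ⟨nat_lit 24814567680, nat_lit 8,
  [⟨V6_19429081344, [(nat_lit 27, nat_lit 24814567680), (nat_lit 109, nat_lit 25871532288)]⟩,
   ⟨V6_18372116736, [(nat_lit 5, nat_lit 24814567680)]⟩],
  [W_24764235776, W_23690494016, W_22650306560]⟩
theorem C_24814567680 : chkRec R_24814567680 = true := by decide +kernel

noncomputable def R_24814825602 : Rec := ⟨nat_lit 24814825602, nat_lit 3,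
  [⟨V6_21576556674, [(nat_lit 5, nat_lit 24814825602), (nat_lit 80, nat_lit 25888563330), (nat_lit 30, nat_lit 25888305282), (nat_lit 99, nat_lit 25871790210), (nat_lit 32, nat_lit 26962043010), (nat_lit 98, nat_lit 26945527938), (nat_lit 65, nat_lit 26945269890), (nat_lit 6, nat_lit 28019007618)]⟩],
  [W_20519596160, W_20503081088]⟩
theorem C_24814825602 : chkRec R_24814825602 = true := by decide +kernel

noncomputable def R_24814825665 : Rec := ⟨nat_lit 24814825665, nat_lit 3,
  [⟨V6_21576560769, [(nat_lit 85, nat_lit 24814825665), (nat_lit 43, nat_lit 25888567425), (nat_lit 113, nat_lit 25888305345), (nat_lit 78, nat_lit 25871790273), (nat_lit 4, nat_lit 26962047105), (nat_lit 64, nat_lit 26945532033), (nat_lit 61, nat_lit 26945269953), (nat_lit 51, nat_lit 28019011713)]⟩],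
  [W_22666817600, W_22633787456, W_18372374720]⟩
theorem C_24814825665 : chkRec R_24814825665 = true := by decide +kernel

noncomputable def R_24814829697 : Rec := ⟨nat_lit 24814829697, nat_lit 13,
  [⟨V6_21576564801, [(nat_lit 73, nat_lit 24814829697), (nat_lit 116, nat_lit 25888571457), (nat_lit 64, nat_lit 25888309377), (nat_lit 63, nat_lit 25871794305), (nat_lit 81, nat_lit 26962051137), (nat_lit 93, nat_lit 26945536065), (nat_lit 43, nat_lit 26945273985), (nat_lit 19, nat_lit 28019015745)]⟩,
   ⟨V6_21576560769, [(nat_lit 81, nat_lit 24814829697), (nat_lit 66, nat_lit 25888567425), (nat_lit 7, nat_lit 25888309377), (nat_lit 77, nat_lit 25871794305), (nat_lit 86, nat_lit 26962047105), (nat_lit 112, nat_lit 26945532033), (nat_lit 41, nat_lit 26945273985), (nat_lit 118, nat_lit 28019011713)]⟩,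
   ⟨V6_21560049792, [(nat_lit 113, nat_lit 24814829697), (nat_lit 35, nat_lit 25888571520), (nat_lit 55, nat_lit 25871794305), (nat_lit 101, nat_lit 26945536128), (nat_lit 65, nat_lit 26928758913), (nat_lit 121, nat_lit 28002500736)]⟩,
   ⟨V6_21559787649, [(nat_lit 104, nat_lit 24814829697), (nat_lit 107, nat_lit 25888309377), (nat_lit 43, nat_lit 25871794305), (nat_lit 89, nat_lit 26945273985), (nat_lit 23, nat_lit 26928758913), (nat_lit 30, nat_lit 28002238593)]⟩,
   ⟨V6_20503085121, [(nat_lit 104, nat_lit 24814829697), (nat_lit 117, nat_lit 25888571457), (nat_lit 106, nat_lit 25871794305), (nat_lit 103, nat_lit 26945536065)]⟩],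
  [W_23724040256, W_22667075648, W_22633787456, W_21593595968]⟩
theorem C_24814829697 : chkRec R_24814829697 = true := by decide +kernel

noncomputable def R_24814829760 : Rec := ⟨nat_lit 24814829760, nat_lit 16,
  [⟨V6_22667083776, [(nat_lit 32, nat_lit 24814829760), (nat_lit 23, nat_lit 25888571520), (nat_lit 79, nat_lit 25888309440), (nat_lit 99, nat_lit 26962313280), (nat_lit 14, nat_lit 26962051200), (nat_lit 32, nat_lit 28036055040), (nat_lit 89, nat_lit 28035792960), (nat_lit 54, nat_lit 29109534720)]⟩],
  [W_23724044288, W_21593341952, W_19446116480, W_19429343360, W_19429081280, W_18372374720]⟩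
theorem C_24814829760 : chkRec R_24814829760 = true := by decide +kernel

noncomputable def R_24814833729 : Rec := ⟨nat_lit 24814833729, nat_lit 5,
  [⟨V6_19429347393, [(nat_lit 100, nat_lit 24814833729), (nat_lit 18, nat_lit 25871798337)]⟩,
   ⟨V6_18372382785, [(nat_lit 32, nat_lit 24814833729)]⟩],
  [W_24781262912, W_23724298304, W_22667333696]⟩
theorem C_24814833729 : chkRec R_24814833729 = true := by decide +kernel

noncomputable def R_24814833792 : Rec := ⟨nat_lit 24814833792, nat_lit 10,
  [⟨V6_19429347456, [(nat_lit 8, nat_lit 24814833792), (nat_lit 37, nat_lit 25871798400)]⟩,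
   ⟨V6_18372382848, [(nat_lit 58, nat_lit 24814833792)]⟩],
  [W_23724302336, W_22667337728, W_22633787456]⟩
theorem C_24814833792 : chkRec R_24814833792 = true := by decide +kernel

noncomputable def R_24815083650 : Rec := ⟨nat_lit 24815083650, nat_lit 4,
  [⟨V6_19446374529, [(nat_lit 18, nat_lit 24815083650), (nat_lit 113, nat_lit 25888825473)]⟩],
  [W_24797257856, W_23740293248, W_23723778176]⟩
theorem C_24815083650 : chkRec R_24815083650 = true := by decide +kernel

noncomputable def R_24815087745 : Rec := ⟨nat_lit 24815087745, nat_lit 14,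
  [⟨V6_21576818817, [(nat_lit 63, nat_lit 24815087745), (nat_lit 118, nat_lit 25888825473), (nat_lit 32, nat_lit 25888567425), (nat_lit 73, nat_lit 25872052353), (nat_lit 81, nat_lit 26962305153), (nat_lit 38, nat_lit 26945790081), (nat_lit 36, nat_lit 26945532033), (nat_lit 52, nat_lit 28019269761)]⟩,
   ⟨V6_19446374529, [(nat_lit 124, nat_lit 24815087745), (nat_lit 34, nat_lit 25888825473)]⟩],
  [W_24797519936, W_22667075648, W_19446378560]⟩
theorem C_24815087745 : chkRec R_24815087745 = true := by decide +kernel

noncomputable def R_24815087808 : Rec := ⟨nat_lit 24815087808, nat_lit 12,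
  [⟨V6_22650826752, [(nat_lit 125, nat_lit 24815087808), (nat_lit 80, nat_lit 25888829568), (nat_lit 81, nat_lit 25872052416), (nat_lit 26, nat_lit 26962571328), (nat_lit 58, nat_lit 26945794176), (nat_lit 82, nat_lit 28036313088), (nat_lit 51, nat_lit 28019535936), (nat_lit 88, nat_lit 29093277696)]⟩],
  [W_21593337920, W_20520120320]⟩
theorem C_24815087808 : chkRec R_24815087808 = true := by decide +kernel

noncomputable def R_24815091777 : Rec := ⟨nat_lit 24815091777, nat_lit 13,
  [⟨V6_22667595840, [(nat_lit 96, nat_lit 24815091777), (nat_lit 2, nat_lit 25888833600), (nat_lit 86, nat_lit 25888829505), (nat_lit 126, nat_lit 26962571328), (nat_lit 25, nat_lit 26962567233), (nat_lit 107, nat_lit 28036309056), (nat_lit 89, nat_lit 28036304961), (nat_lit 85, nat_lit 29110046784)]⟩,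
   ⟨V6_20503343169, [(nat_lit 92, nat_lit 24815091777), (nat_lit 44, nat_lit 25888829505), (nat_lit 115, nat_lit 25872056385), (nat_lit 52, nat_lit 26945794113)]⟩],
  [W_24797777984, W_23724040256, W_21576564800, W_18372640832]⟩
theorem C_24815091777 : chkRec R_24815091777 = true := by decide +kernel

noncomputable def R_24815091840 : Rec := ⟨nat_lit 24815091840, nat_lit 45,
  [⟨V6_21593862144, [(nat_lit 99, nat_lit 24815091840), (nat_lit 113, nat_lit 25888833600), (nat_lit 68, nat_lit 25888829568), (nat_lit 8, nat_lit 26962575360), (nat_lit 70, nat_lit 26962571328), (nat_lit 42, nat_lit 28036313088)]⟩,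
   ⟨V6_21577089024, [(nat_lit 103, nat_lit 24815091840), (nat_lit 16, nat_lit 25888833600), (nat_lit 108, nat_lit 25872056448), (nat_lit 53, nat_lit 26962575360), (nat_lit 72, nat_lit 26945798208), (nat_lit 74, nat_lit 28019539968)]⟩],
  [W_24797782016, W_23740817408, W_23724302336, W_22650306560, W_22650298496, W_21593341952, W_21576564800, W_21576560768, W_20503339136]⟩
theorem C_24815091840 : chkRec R_24815091840 = true := by decide +kernel

noncomputable def R_24815095872 : Rec := ⟨nat_lit 24815095872, nat_lit 32,
  [⟨V6_20519866368, [(nat_lit 33, nat_lit 24815095872), (nat_lit 110, nat_lit 25888837632), (nat_lit 8, nat_lit 25888575552), (nat_lit 126, nat_lit 26962317312)]⟩,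
   ⟨V6_20503351296, [(nat_lit 31, nat_lit 24815095872), (nat_lit 115, nat_lit 25888837632), (nat_lit 30, nat_lit 25872060480), (nat_lit 105, nat_lit 26945802240)]⟩,
   ⟨V6_19446386688, [(nat_lit 94, nat_lit 24815095872), (nat_lit 68, nat_lit 25888837632)]⟩],
  [W_23741075456, W_23724560384, W_23724302336, W_21593854016, W_21593595968, W_21576822848]⟩
theorem C_24815095872 : chkRec R_24815095872 = true := by decide +kernel

noncomputable def R_24815099904 : Rec := ⟨nat_lit 24815099904, nat_lit 19,
  [⟨V6_19446386688, [(nat_lit 41, nat_lit 24815099904), (nat_lit 7, nat_lit 25888837632)]⟩,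
   ⟨V6_19429613568, [(nat_lit 85, nat_lit 24815099904), (nat_lit 28, nat_lit 25872064512)]⟩],
  [W_24798298112, W_23741333504, W_22667595776]⟩
theorem C_24815099904 : chkRec R_24815099904 = true := by decide +kernel

noncomputable def R_24815345793 : Rec := ⟨nat_lit 24815345793, nat_lit 6,
  [⟨V6_19446636609, [(nat_lit 111, nat_lit 24815345793), (nat_lit 110, nat_lit 25889087553)]⟩,
   ⟨V6_18372894849, [(nat_lit 103, nat_lit 24815345793)]⟩],
  [W_24814035008, W_23740293248, W_21593333888]⟩
theorem C_24815345793 : chkRec R_24815345793 = true := by decide +kernel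

noncomputable def R_24815349825 : Rec := ⟨nat_lit 24815349825, nat_lit 10,
  [⟨V6_20520374337, [(nat_lit 18, nat_lit 24815349825), (nat_lit 35, nat_lit 25889087553), (nat_lit 113, nat_lit 26962825281)]⟩,
   ⟨V6_18372898881, [(nat_lit 108, nat_lit 24815349825)]⟩],
  [W_24814293056, W_23740555328, W_22667075648, W_22666817600]⟩
theorem C_24815349825 : chkRec R_24815349825 = true := by decide +kernel

noncomputable def R_24815349888 : Rec := ⟨nat_lit 24815349888, nat_lit 22,
  [⟨V6_21594120192, [(nat_lit 63, nat_lit 24815349888), (nat_lit 103, nat_lit 25889091648), (nat_lit 22, nat_lit 25889087616), (nat_lit 115, nat_lit 26962833408), (nat_lit 11, nat_lit 26962829376), (nat_lit 30, nat_lit 28036571136)]⟩,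
   ⟨V6_20520382464, [(nat_lit 100, nat_lit 24815349888), (nat_lit 112, nat_lit 25889091648), (nat_lit 119, nat_lit 26962833408)]⟩],
  [W_24814297088, W_23740817408, W_23740559360, W_23740555328, W_21593337920]⟩
theorem C_24815349888 : chkRec R_24815349888 = true := by decide +kernel

noncomputable def R_24815353920 : Rec := ⟨nat_lit 24815353920, nat_lit 34,
  [⟨V6_20520382464, [(nat_lit 77, nat_lit 24815353920), (nat_lit 87, nat_lit 25889095680), (nat_lit 71, nat_lit 25889091648), (nat_lit 108, nat_lit 26962833408)]⟩,
   ⟨V6_19446644736, [(nat_lit 60, nat_lit 24815353920), (nat_lit 38, nat_lit 25889095680)]⟩],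
  [W_23741075456, W_23740817408, W_23740813376, W_21593341952, W_21593337920]⟩
theorem C_24815353920 : chkRec R_24815353920 = true := by decide +kernel

noncomputable def R_24815357952 : Rec := ⟨nat_lit 24815357952, nat_lit 19,
  [⟨V6_19446386688, [(nat_lit 70, nat_lit 24815357952), (nat_lit 39, nat_lit 25888837632)]⟩,
   ⟨V6_18372907008, [(nat_lit 56, nat_lit 24815357952)]⟩],
  [W_24814813184, W_22667337728, W_21594116096]⟩
theorem C_24815357952 : chkRec R_24815357952 = true := by decide +kernel

noncomputable def R_24831340674 : Rec := ⟨nat_lit 24831340674, nat_lit 4,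
  [⟨V6_21576556674, [(nat_lit 61, nat_lit 24831340674), (nat_lit 3, nat_lit 25905078402), (nat_lit 62, nat_lit 25888305282), (nat_lit 32, nat_lit 26962043010), (nat_lit 73, nat_lit 26945269890), (nat_lit 2, nat_lit 28019007618)]⟩,
   ⟨V6_20502818946, [(nat_lit 10, nat_lit 24831340674), (nat_lit 83, nat_lit 25888305282), (nat_lit 30, nat_lit 26945269890)]⟩],
  [W_20536369280]⟩
theorem C_24831340674 : chkRec R_24831340674 = true := by decide +kernel

noncomputable def R_24831340737 : Rec := ⟨nat_lit 24831340737, nat_lit 2,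
  [⟨V6_18388889793, [(nat_lit 107, nat_lit 24831340737)]⟩],
  [W_23707267136, W_22666817600]⟩
theorem C_24831340737 : chkRec R_24831340737 = true := by decide +kernel

noncomputable def R_24831344769 : Rec := ⟨nat_lit 24831344769, nat_lit 15,
  [⟨V6_23690494080, [(nat_lit 112, nat_lit 24831344769), (nat_lit 107, nat_lit 25905086592), (nat_lit 53, nat_lit 25888309377), (nat_lit 115, nat_lit 26962051200), (nat_lit 117, nat_lit 26945273985), (nat_lit 46, nat_lit 28019015808), (nat_lit 45, nat_lit 28002238593), (nat_lit 46, nat_lit 29075980416), (nat_lit 66, nat_lit 29059203201), (nat_lit 68, nat_lit 30132945024)]⟩,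
   ⟨V6_22650298497, [(nat_lit 24, nat_lit 24831344769), (nat_lit 55, nat_lit 25905082497), (nat_lit 22, nat_lit 25888309377), (nat_lit 86, nat_lit 26978820225), (nat_lit 70, nat_lit 26962047105), (nat_lit 93, nat_lit 26945273985), (nat_lit 105, nat_lit 28035784833), (nat_lit 73, nat_lit 28019011713), (nat_lit 109, nat_lit 29092749441)]⟩,
   ⟨V6_21559787649, [(nat_lit 3, nat_lit 24831344769), (nat_lit 23, nat_lit 25888309377), (nat_lit 95, nat_lit 26945273985), (nat_lit 102, nat_lit 28002238593)]⟩,
   ⟨V6_19462635585, [(nat_lit 117, nat_lit 24831344769), (nat_lit 37, nat_lit 25905086529)]⟩],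
  [W_23724040256, W_22667075648, W_20536373312]⟩
theorem C_24831344769 : chkRec R_24831344769 = true := by decide +kernel

noncomputable def R_24831344832 : Rec := ⟨nat_lit 24831344832, nat_lit 19,
  [⟨V6_21610119168, [(nat_lit 66, nat_lit 24831344832), (nat_lit 108, nat_lit 25905086592), (nat_lit 104, nat_lit 26978828352), (nat_lit 52, nat_lit 28052570112)]⟩],
  [W_24781008896, W_24764235776, W_23724044288, W_23707267136, W_23690494016, W_22650306560, W_22650302528, W_22616752256]⟩
theorem C_24831344832 : chkRec R_24831344832 = true := by decide +kernel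

noncomputable def R_24831598722 : Rec := ⟨nat_lit 24831598722, nat_lit 7,
  [⟨V6_21576818817, [(nat_lit 41, nat_lit 24831598722), (nat_lit 100, nat_lit 25905340545), (nat_lit 64, nat_lit 25888563330), (nat_lit 16, nat_lit 26962305153), (nat_lit 126, nat_lit 26945527938), (nat_lit 120, nat_lit 28019269761)]⟩,
   ⟨V6_21576556674, [(nat_lit 41, nat_lit 24831598722), (nat_lit 59, nat_lit 25905078402), (nat_lit 15, nat_lit 25888563330), (nat_lit 54, nat_lit 26962043010), (nat_lit 91, nat_lit 26945527938), (nat_lit 32, nat_lit 28019007618)]⟩],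
  [W_23740293248, W_19462889600]⟩
theorem C_24831598722 : chkRec R_24831598722 = true := by decide +kernel

noncomputable def R_24831602817 : Rec := ⟨nat_lit 24831602817, nat_lit 19,
  [⟨V6_23723778177, [(nat_lit 104, nat_lit 24831602817), (nat_lit 66, nat_lit 25905340545), (nat_lit 60, nat_lit 25905082497), (nat_lit 108, nat_lit 25888567425), (nat_lit 110, nat_lit 26978820225), (nat_lit 114, nat_lit 26978562177), (nat_lit 95, nat_lit 26962305153), (nat_lit 86, nat_lit 26962047105), (nat_lit 76, nat_lit 26945532033), (nat_lit 67, nat_lit 28052299905), (nat_lit 56, nat_lit 28035784833), (nat_lit 112, nat_lit 28035526785), (nat_lit 99, nat_lit 28019269761), (nat_lit 121, nat_lit 28019011713), (nat_lit 49, nat_lit 29109264513), (nat_lit 71, nat_lit 29092749441), (nat_lit 72, nat_lit 29092491393), (nat_lit 7, nat_lit 30166229121)]⟩,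
   ⟨V6_22650298497, [(nat_lit 80, nat_lit 24831602817), (nat_lit 9, nat_lit 25905340545), (nat_lit 45, nat_lit 25905082497), (nat_lit 6, nat_lit 25888567425), (nat_lit 94, nat_lit 26978820225), (nat_lit 12, nat_lit 26962305153), (nat_lit 29, nat_lit 26962047105), (nat_lit 109, nat_lit 26945532033), (nat_lit 97, nat_lit 28035784833), (nat_lit 119, nat_lit 28019269761), (nat_lit 45, nat_lit 28019011713), (nat_lit 86, nat_lit 29092749441)]⟩,
   ⟨V6_22633525377, [(nat_lit 98, nat_lit 24831602817), (nat_lit 106, nat_lit 25905082497), (nat_lit 41, nat_lit 25888567425), (nat_lit 114, nat_lit 26962047105), (nat_lit 25, nat_lit 26945532033), (nat_lit 48, nat_lit 28019011713), (nat_lit 63, nat_lit 28002496641), (nat_lit 80, nat_lit 29075976321)]⟩,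
   ⟨V6_21593075841, [(nat_lit 116, nat_lit 24831602817), (nat_lit 95, nat_lit 25905082497), (nat_lit 106, nat_lit 25888567425), (nat_lit 119, nat_lit 26978562177), (nat_lit 78, nat_lit 26962047105), (nat_lit 60, nat_lit 28035526785)]⟩,
   ⟨V6_21576818817, [(nat_lit 114, nat_lit 24831602817), (nat_lit 41, nat_lit 25905340545), (nat_lit 43, nat_lit 25888567425), (nat_lit 14, nat_lit 26962305153), (nat_lit 24, nat_lit 26945532033), (nat_lit 112, nat_lit 28019269761)]⟩,
   ⟨V6_21576560769, [(nat_lit 56, nat_lit 24831602817), (nat_lit 62, nat_lit 25905082497), (nat_lit 5, nat_lit 25888567425), (nat_lit 18, nat_lit 26962047105), (nat_lit 115, nat_lit 26945532033), (nat_lit 53, nat_lit 28019011713)]⟩,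
   ⟨V6_20536111233, [(nat_lit 66, nat_lit 24831602817), (nat_lit 99, nat_lit 25905082497), (nat_lit 57, nat_lit 26978562177)]⟩],
  [W_24781004864, W_22683590720, W_21593595968, W_20536373312]⟩
theorem C_24831602817 : chkRec R_24831602817 = true := by decide +kernel

noncomputable def R_24831602880 : Rec := ⟨nat_lit 24831602880, nat_lit 14,
  [⟨V6_22683856896, [(nat_lit 99, nat_lit 24831602880), (nat_lit 91, nat_lit 25905344640), (nat_lit 42, nat_lit 25905082560), (nat_lit 88, nat_lit 26979086400), (nat_lit 83, nat_lit 26978824320), (nat_lit 99, nat_lit 28052828160), (nat_lit 65, nat_lit 28052566080), (nat_lit 48, nat_lit 29126307840)]⟩],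
  [W_24781008896, W_20536635392, W_19446116480]⟩
theorem C_24831602880 : chkRec R_24831602880 = true := by decide +kernel

noncomputable def R_24831606849 : Rec := ⟨nat_lit 24831606849, nat_lit 19,
  [⟨V6_22667333697, [(nat_lit 108, nat_lit 24831606849), (nat_lit 91, nat_lit 25905344577), (nat_lit 16, nat_lit 25888571457), (nat_lit 27, nat_lit 26979082305), (nat_lit 107, nat_lit 26962309185), (nat_lit 68, nat_lit 28052820033), (nat_lit 55, nat_lit 28036046913), (nat_lit 12, nat_lit 29109784641)]⟩,
   ⟨V6_22633529409, [(nat_lit 120, nat_lit 24831606849), (nat_lit 65, nat_lit 25905086529), (nat_lit 115, nat_lit 25888571457), (nat_lit 10, nat_lit 26962051137), (nat_lit 98, nat_lit 26945536065), (nat_lit 51, nat_lit 28019015745), (nat_lit 59, nat_lit 28002500673), (nat_lit 85, nat_lit 29075980353)]⟩,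
   ⟨V6_21610369089, [(nat_lit 114, nat_lit 24831606849), (nat_lit 104, nat_lit 25905344577), (nat_lit 125, nat_lit 26979082305), (nat_lit 92, nat_lit 28052820033)]⟩,
   ⟨V6_21576564801, [(nat_lit 36, nat_lit 24831606849), (nat_lit 58, nat_lit 25905086529), (nat_lit 103, nat_lit 25888571457), (nat_lit 66, nat_lit 26962051137), (nat_lit 83, nat_lit 26945536065), (nat_lit 25, nat_lit 28019015745)]⟩,
   ⟨V6_20503085121, [(nat_lit 27, nat_lit 24831606849), (nat_lit 59, nat_lit 25888571457), (nat_lit 81, nat_lit 26945536065)]⟩,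
   ⟨V6_19462635585, [(nat_lit 14, nat_lit 24831606849), (nat_lit 117, nat_lit 25905086529)]⟩],
  [W_23724040256, W_22683848768, W_21610369088, W_20536373312]⟩
theorem C_24831606849 : chkRec R_24831606849 = true := by decide +kernel

noncomputable def R_24831606912 : Rec := ⟨nat_lit 24831606912, nat_lit 56,
  [⟨V6_22667083776, [(nat_lit 101, nat_lit 24831606912), (nat_lit 44, nat_lit 25905348672), (nat_lit 125, nat_lit 25905086592), (nat_lit 2, nat_lit 25888571520), (nat_lit 70, nat_lit 26979090432), (nat_lit 54, nat_lit 26978828352), (nat_lit 42, nat_lit 26962313280), (nat_lit 120, nat_lit 26962051200), (nat_lit 123, nat_lit 28052570112), (nat_lit 50, nat_lit 28036055040), (nat_lit 85, nat_lit 28035792960), (nat_lit 3, nat_lit 29109534720)]⟩,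
   ⟨V6_22650568704, [(nat_lit 35, nat_lit 24831606912), (nat_lit 119, nat_lit 25905348672), (nat_lit 25, nat_lit 25888571520), (nat_lit 48, nat_lit 26979090432), (nat_lit 94, nat_lit 26962313280), (nat_lit 69, nat_lit 26945536128), (nat_lit 73, nat_lit 28036055040), (nat_lit 86, nat_lit 28019277888), (nat_lit 38, nat_lit 29093019648)]⟩,
   ⟨V6_21610119168, [(nat_lit 84, nat_lit 24831606912), (nat_lit 25, nat_lit 25905348672), (nat_lit 108, nat_lit 25905086592), (nat_lit 95, nat_lit 26979090432), (nat_lit 4, nat_lit 26978828352), (nat_lit 57, nat_lit 28052570112)]⟩],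
  [W_24797782016, W_24781004864, W_23724302336, W_22683852800, W_22650298496, W_20536635392, W_19462889600]⟩
theorem C_24831606912 : chkRec R_24831606912 = true := by decide +kernel

noncomputable def R_24831610944 : Rec := ⟨nat_lit 24831610944, nat_lit 27,
  [⟨V6_20519866368, [(nat_lit 107, nat_lit 24831610944), (nat_lit 57, nat_lit 25905352704), (nat_lit 23, nat_lit 25888575552), (nat_lit 30, nat_lit 26962317312)]⟩,
   ⟨V6_20503089216, [(nat_lit 89, nat_lit 24831610944), (nat_lit 91, nat_lit 25888575552), (nat_lit 13, nat_lit 26945540160)]⟩,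
   ⟨V6_19462901760, [(nat_lit 86, nat_lit 24831610944), (nat_lit 46, nat_lit 25905352704)]⟩],
  [W_24781262912, W_23741075456, W_23707525184, W_22684110848, W_22667333696, W_18389159936]⟩
theorem C_24831610944 : chkRec R_24831610944 = true := by decide +kernel

noncomputable def R_24831860865 : Rec := ⟨nat_lit 24831860865, nat_lit 22,
  [⟨V6_21576818817, [(nat_lit 117, nat_lit 24831860865), (nat_lit 45, nat_lit 25905340545), (nat_lit 120, nat_lit 25888825473), (nat_lit 91, nat_lit 26962305153), (nat_lit 57, nat_lit 26945790081), (nat_lit 28, nat_lit 28019269761)]⟩,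
   ⟨V6_19446374529, [(nat_lit 81, nat_lit 24831860865), (nat_lit 97, nat_lit 25888825473)]⟩,
   ⟨V6_18389409921, [(nat_lit 76, nat_lit 24831860865)]⟩],
  [W_24797257856, W_23757070400, W_23740555328, W_23740293248, W_23724040256, W_22683590720, W_21577080896]⟩
theorem C_24831860865 : chkRec R_24831860865 = true := by decide +kernel

noncomputable def R_24831864897 : Rec := ⟨nat_lit 24831864897, nat_lit 22,
  [⟨V6_21610631232, [(nat_lit 98, nat_lit 24831864897), (nat_lit 85, nat_lit 25905606720), (nat_lit 71, nat_lit 25905602625), (nat_lit 51, nat_lit 26979344448), (nat_lit 72, nat_lit 26979340353), (nat_lit 119, nat_lit 28053082176)]⟩,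
   ⟨V6_20503343169, [(nat_lit 116, nat_lit 24831864897), (nat_lit 23, nat_lit 25888829505), (nat_lit 94, nat_lit 26945794113)]⟩],
  [W_24797777984, W_24797519936, W_23724040256, W_22683590720, W_21593337920, W_20536373312]⟩
theorem C_24831864897 : chkRec R_24831864897 = true := by decide +kernel

noncomputable def R_24831864960 : Rec := ⟨nat_lit 24831864960, nat_lit 70,
  [⟨V6_23724564480, [(nat_lit 13, nat_lit 24831864960), (nat_lit 33, nat_lit 25905606720), (nat_lit 113, nat_lit 25905602688), (nat_lit 11, nat_lit 25888829568), (nat_lit 53, nat_lit 26979348480), (nat_lit 21, nat_lit 26979344448), (nat_lit 98, nat_lit 26962571328), (nat_lit 51, nat_lit 26962567296), (nat_lit 94, nat_lit 26945794176), (nat_lit 100, nat_lit 28053086208), (nat_lit 19, nat_lit 28036313088), (nat_lit 17, nat_lit 28036309056), (nat_lit 40, nat_lit 28019535936), (nat_lit 93, nat_lit 28019531904), (nat_lit 34, nat_lit 29110050816), (nat_lit 72, nat_lit 29093277696), (nat_lit 96, nat_lit 29093273664), (nat_lit 42, nat_lit 30167015424)]⟩,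
   ⟨V6_22683856896, [(nat_lit 82, nat_lit 24831864960), (nat_lit 14, nat_lit 25905606720), (nat_lit 102, nat_lit 25905344640), (nat_lit 52, nat_lit 26979348480), (nat_lit 8, nat_lit 26979086400), (nat_lit 15, nat_lit 26978824320), (nat_lit 115, nat_lit 28052828160), (nat_lit 122, nat_lit 28052566080), (nat_lit 44, nat_lit 29126307840)]⟩,
   ⟨V6_22650826752, [(nat_lit 76, nat_lit 24831864960), (nat_lit 106, nat_lit 25905606720), (nat_lit 18, nat_lit 25888829568), (nat_lit 126, nat_lit 26979348480), (nat_lit 88, nat_lit 26962571328), (nat_lit 70, nat_lit 26945794176), (nat_lit 17, nat_lit 28036313088), (nat_lit 67, nat_lit 28019535936), (nat_lit 68, nat_lit 29093277696)]⟩],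
  [W_24814297088, W_23757332480, W_23723778176, W_20536893440, W_20503339136, W_19463155712, W_19462889600, W_19446374528, W_19446116480]⟩
theorem C_24831864960 : chkRec R_24831864960 = true := by decide +kernel

noncomputable def R_24831868992 : Rec := ⟨nat_lit 24831868992, nat_lit 95,
  [⟨V6_22683856896, [(nat_lit 36, nat_lit 24831868992), (nat_lit 1, nat_lit 25905610752), (nat_lit 125, nat_lit 25905606720), (nat_lit 41, nat_lit 25905348672), (nat_lit 126, nat_lit 26979348480), (nat_lit 3, nat_lit 26979090432), (nat_lit 53, nat_lit 26979086400), (nat_lit 1, nat_lit 26978828352), (nat_lit 76, nat_lit 28052828160), (nat_lit 63, nat_lit 28052570112), (nat_lit 74, nat_lit 28052566080), (nat_lit 96, nat_lit 29126307840)]⟩,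
   ⟨V6_22667595840, [(nat_lit 95, nat_lit 24831868992), (nat_lit 53, nat_lit 25905606720), (nat_lit 47, nat_lit 25888833600), (nat_lit 119, nat_lit 26979344448), (nat_lit 100, nat_lit 26962571328), (nat_lit 41, nat_lit 28053082176), (nat_lit 106, nat_lit 28036309056), (nat_lit 67, nat_lit 29110046784)]⟩,
   ⟨V6_21610119168, [(nat_lit 93, nat_lit 24831868992), (nat_lit 18, nat_lit 25905610752), (nat_lit 15, nat_lit 25905348672), (nat_lit 68, nat_lit 26979090432), (nat_lit 67, nat_lit 26978828352), (nat_lit 123, nat_lit 28052570112)]⟩,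
   ⟨V6_21577089024, [(nat_lit 89, nat_lit 24831868992), (nat_lit 56, nat_lit 25905610752), (nat_lit 46, nat_lit 25888833600), (nat_lit 75, nat_lit 26962575360), (nat_lit 35, nat_lit 26945798208), (nat_lit 118, nat_lit 28019539968)]⟩],
  [W_24814555136, W_24797782016, W_23724560384, W_22667595776, W_22650822656, W_20536893440, W_19463155712, W_19446382592]⟩
theorem C_24831868992 : chkRec R_24831868992 = true := by decide +kernel

noncomputable def R_24831873024 : Rec := ⟨nat_lit 24831873024, nat_lit 59,
  [⟨V6_21577089024, [(nat_lit 65, nat_lit 24831873024), (nat_lit 72, nat_lit 25905610752), (nat_lit 60, nat_lit 25888837632), (nat_lit 79, nat_lit 26962575360), (nat_lit 119, nat_lit 26945802240), (nat_lit 39, nat_lit 28019539968)]⟩,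
   ⟨V6_19446386688, [(nat_lit 62, nat_lit 24831873024), (nat_lit 57, nat_lit 25888837632)]⟩,
   ⟨V6_18389422080, [(nat_lit 119, nat_lit 24831873024)]⟩],
  [W_24814813184, W_23741075456, W_23724302336, W_22684368896, W_22684110848, W_22650822656]⟩
theorem C_24831873024 : chkRec R_24831873024 = true := by decide +kernel

noncomputable def R_24832122945 : Rec := ⟨nat_lit 24832122945, nat_lit 18,
  [⟨V6_24814035009, [(nat_lit 90, nat_lit 24832122945), (nat_lit 101, nat_lit 25905602625), (nat_lit 92, nat_lit 25889087553), (nat_lit 16, nat_lit 26979082305), (nat_lit 37, nat_lit 26962567233), (nat_lit 43, nat_lit 28052561985), (nat_lit 33, nat_lit 28036046913), (nat_lit 39, nat_lit 29126041665), (nat_lit 120, nat_lit 29109526593), (nat_lit 49, nat_lit 30199521345), (nat_lit 10, nat_lit 30183006273), (nat_lit 52, nat_lit 31256485953)]⟩,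
   ⟨V6_21610369089, [(nat_lit 86, nat_lit 24832122945), (nat_lit 89, nat_lit 25905860673), (nat_lit 2, nat_lit 25905602625), (nat_lit 72, nat_lit 26979340353), (nat_lit 60, nat_lit 26979082305), (nat_lit 91, nat_lit 28052820033)]⟩,
   ⟨V6_20536889409, [(nat_lit 59, nat_lit 24832122945), (nat_lit 3, nat_lit 25905860673), (nat_lit 54, nat_lit 25905602625), (nat_lit 119, nat_lit 26979340353)]⟩,
   ⟨V6_20520374337, [(nat_lit 6, nat_lit 24832122945), (nat_lit 72, nat_lit 25905860673), (nat_lit 55, nat_lit 25889087553), (nat_lit 102, nat_lit 26962825281)]⟩,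
   ⟨V6_19446636609, [(nat_lit 54, nat_lit 24832122945), (nat_lit 107, nat_lit 25889087553)]⟩],
  [W_24830808128, W_24814293056, W_23757070400, W_19463151680]⟩
theorem C_24832122945 : chkRec R_24832122945 = true := by decide +kernel

noncomputable def R_24832123008 : Rec := ⟨nat_lit 24832123008, nat_lit 46,
  [⟨V6_24814035072, [(nat_lit 97, nat_lit 24832123008), (nat_lit 51, nat_lit 25905602688), (nat_lit 54, nat_lit 25889087616), (nat_lit 37, nat_lit 26979082368), (nat_lit 30, nat_lit 26962567296), (nat_lit 28, nat_lit 28052562048), (nat_lit 116, nat_lit 28036046976), (nat_lit 114, nat_lit 29126041728), (nat_lit 87, nat_lit 29109526656), (nat_lit 26, nat_lit 30199521408), (nat_lit 39, nat_lit 30183006336), (nat_lit 25, nat_lit 31256486016)]⟩,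
   ⟨V6_20537155584, [(nat_lit 120, nat_lit 24832123008), (nat_lit 109, nat_lit 25905864768), (nat_lit 92, nat_lit 26979606528)]⟩],
  [W_24814297088, W_22683852800, W_20536893440]⟩
theorem C_24832123008 : chkRec R_24832123008 = true := by decide +kernel

noncomputable def R_24832127040 : Rec := ⟨nat_lit 24832127040, nat_lit 83,
  [⟨V6_21594120192, [(nat_lit 79, nat_lit 24832127040), (nat_lit 33, nat_lit 25905868800), (nat_lit 82, nat_lit 25905864768), (nat_lit 101, nat_lit 25889091648), (nat_lit 10, nat_lit 26979606528), (nat_lit 11, nat_lit 26962833408), (nat_lit 117, nat_lit 26962829376), (nat_lit 111, nat_lit 28036571136)]⟩,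
   ⟨V6_20537155584, [(nat_lit 48, nat_lit 24832127040), (nat_lit 68, nat_lit 25905868800), (nat_lit 34, nat_lit 25905864768), (nat_lit 78, nat_lit 26979606528)]⟩,
   ⟨V6_20520382464, [(nat_lit 108, nat_lit 24832127040), (nat_lit 124, nat_lit 25905868800), (nat_lit 79, nat_lit 25889091648), (nat_lit 92, nat_lit 26962833408)]⟩],
  [W_24814555136, W_23757332480, W_23741075456, W_23740817408, W_23740813376, W_23740559360, W_22683852800, W_22683848768, W_22683590720, W_22667333696, W_22666817600]⟩
theorem C_24832127040 : chkRec R_24832127040 = true := by decide +kernel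

noncomputable def R_24832131072 : Rec := ⟨nat_lit 24832131072, nat_lit 80,
  [⟨V6_21610119168, [(nat_lit 34, nat_lit 24832131072), (nat_lit 120, nat_lit 25905610752), (nat_lit 31, nat_lit 26979090432), (nat_lit 38, nat_lit 28052570112)]⟩,
   ⟨V6_20537155584, [(nat_lit 31, nat_lit 24832131072), (nat_lit 84, nat_lit 25905868800), (nat_lit 62, nat_lit 26979606528)]⟩],
  [W_24814555136, W_23757848576, W_23741333504, W_23740817408, W_22667595776, W_21610889216, W_17315938304]⟩
theorem C_24832131072 : chkRec R_24832131072 = true := by decide +kernel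

noncomputable def R_24832380993 : Rec := ⟨nat_lit 24832380993, nat_lit 3,
  [⟨V6_23757328449, [(nat_lit 40, nat_lit 24832380993), (nat_lit 48, nat_lit 25905860673), (nat_lit 1, nat_lit 26979340353), (nat_lit 88, nat_lit 28052820033), (nat_lit 63, nat_lit 29126299713), (nat_lit 104, nat_lit 30199779393)]⟩,
   ⟨V6_18389930049, [(nat_lit 36, nat_lit 24832380993)]⟩],
  [W_19463409728]⟩
theorem C_24832380993 : chkRec R_24832380993 = true := by decide +kernel

noncomputable def R_24832385088 : Rec := ⟨nat_lit 24832385088, nat_lit 47,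
  [⟨V6_20537155584, [(nat_lit 49, nat_lit 24832385088), (nat_lit 22, nat_lit 25906126848), (nat_lit 72, nat_lit 25905864768), (nat_lit 125, nat_lit 26979606528)]⟩],
  [W_24831070208, W_24830812160, W_23757590528, W_23757332480, W_23757070400, W_19463671808]⟩
theorem C_24832385088 : chkRec R_24832385088 = true := by decide +kernel

noncomputable def R_24832389120 : Rec := ⟨nat_lit 24832389120, nat_lit 57,
  [⟨V6_21611151360, [(nat_lit 121, nat_lit 24832389120), (nat_lit 15, nat_lit 25906126848), (nat_lit 89, nat_lit 26979864576), (nat_lit 27, nat_lit 28053602304)]⟩,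
   ⟨V6_20537155584, [(nat_lit 81, nat_lit 24832389120), (nat_lit 18, nat_lit 25906126848), (nat_lit 27, nat_lit 25905868800), (nat_lit 86, nat_lit 26979606528)]⟩],
  [W_24831328256, W_24831070208, W_23757848576, W_23757332480, W_22683594752, W_20537409536, W_17316196352]⟩
theorem C_24832389120 : chkRec R_24832389120 = true := by decide +kernel

noncomputable def R_24847855746 : Rec := ⟨nat_lit 24847855746, nat_lit 1,
  [⟨V6_18405404802, [(nat_lit 4, nat_lit 24847855746)]⟩],
  [W_23723778176]⟩
theorem C_24847855746 : chkRec R_24847855746 = true := by decide +kernel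

noncomputable def R_24848113794 : Rec := ⟨nat_lit 24848113794, nat_lit 7,
  [⟨V6_22650298497, [(nat_lit 67, nat_lit 24848113794), (nat_lit 8, nat_lit 25921855617), (nat_lit 21, nat_lit 25905078402), (nat_lit 23, nat_lit 26978820225), (nat_lit 102, nat_lit 26962043010), (nat_lit 52, nat_lit 28035784833), (nat_lit 72, nat_lit 28019007618), (nat_lit 79, nat_lit 29092749441)]⟩,
   ⟨V6_21576556674, [(nat_lit 106, nat_lit 24848113794), (nat_lit 79, nat_lit 25905078402), (nat_lit 89, nat_lit 26962043010), (nat_lit 71, nat_lit 28019007618)]⟩],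
  [W_23740293248, W_19479404672]⟩
theorem C_24848113794 : chkRec R_24848113794 = true := by decide +kernel

noncomputable def R_24848117889 : Rec := ⟨nat_lit 24848117889, nat_lit 18,
  [⟨V6_22633525377, [(nat_lit 4, nat_lit 24848117889), (nat_lit 114, nat_lit 25905082497), (nat_lit 31, nat_lit 26962047105), (nat_lit 11, nat_lit 28019011713), (nat_lit 118, nat_lit 29075976321)]⟩,
   ⟨V6_21576560769, [(nat_lit 75, nat_lit 24848117889), (nat_lit 117, nat_lit 25905082497), (nat_lit 45, nat_lit 26962047105), (nat_lit 73, nat_lit 28019011713)]⟩,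
   ⟨V6_20553146433, [(nat_lit 79, nat_lit 24848117889), (nat_lit 78, nat_lit 25921859649), (nat_lit 57, nat_lit 25921855617), (nat_lit 67, nat_lit 26995597377)]⟩,
   ⟨V6_20536111233, [(nat_lit 48, nat_lit 24848117889), (nat_lit 73, nat_lit 25921597569), (nat_lit 25, nat_lit 25905082497), (nat_lit 89, nat_lit 26978562177)]⟩],
  [W_24797519936, W_23740555328, W_22683590720, W_19479408704]⟩
theorem C_24848117889 : chkRec R_24848117889 = true := by decide +kernel

noncomputable def R_24848117952 : Rec := ⟨nat_lit 24848117952, nat_lit 13,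
  [⟨V6_22700371968, [(nat_lit 9, nat_lit 24848117952), (nat_lit 101, nat_lit 25921859712), (nat_lit 123, nat_lit 25921597632), (nat_lit 49, nat_lit 26995601472), (nat_lit 13, nat_lit 26995339392), (nat_lit 58, nat_lit 28069343232), (nat_lit 67, nat_lit 28069081152), (nat_lit 123, nat_lit 29142822912)]⟩],
  [W_24781008896, W_23707267136, W_20553150464]⟩
theorem C_24848117952 : chkRec R_24848117952 = true := by decide +kernel

noncomputable def R_24848121921 : Rec := ⟨nat_lit 24848121921, nat_lit 15,
  [⟨V6_21626884161, [(nat_lit 81, nat_lit 24848121921), (nat_lit 114, nat_lit 25921859649), (nat_lit 32, nat_lit 26995597377), (nat_lit 52, nat_lit 28069335105)]⟩,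
   ⟨V6_18405670977, [(nat_lit 85, nat_lit 24848121921)]⟩],
  [W_24781004864, W_23740813376, W_23724040256, W_23707267136, W_23690494016, W_22633529408, W_21576564800]⟩
theorem C_24848121921 : chkRec R_24848121921 = true := by decide +kernel

noncomputable def R_24848121984 : Rec := ⟨nat_lit 24848121984, nat_lit 48,
  [⟨V6_23690494080, [(nat_lit 35, nat_lit 24848121984), (nat_lit 85, nat_lit 25905086592), (nat_lit 104, nat_lit 26962051200), (nat_lit 91, nat_lit 28019015808), (nat_lit 103, nat_lit 29075980416), (nat_lit 111, nat_lit 30132945024)]⟩,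
   ⟨V6_20553154560, [(nat_lit 109, nat_lit 24848121984), (nat_lit 117, nat_lit 25921863744), (nat_lit 37, nat_lit 26995605504)]⟩,
   ⟨V6_18405671040, [(nat_lit 35, nat_lit 24848121984)]⟩],
  [W_24797782016, W_24781008896, W_24781004864, W_24764235776, W_23724044288, W_23724040256, W_23707271168, W_23707267136, W_22683852800, W_22650302528, W_22650298496]⟩
theorem C_24848121984 : chkRec R_24848121984 = true := by decide +kernel

noncomputable def R_24848375937 : Rec := ⟨nat_lit 24848375937, nat_lit 24,
  [⟨V6_22700105793, [(nat_lit 93, nat_lit 24848375937), (nat_lit 98, nat_lit 25922117697), (nat_lit 65, nat_lit 25921855617), (nat_lit 66, nat_lit 26995597377), (nat_lit 116, nat_lit 26995335297), (nat_lit 51, nat_lit 28069077057), (nat_lit 11, nat_lit 28068814977), (nat_lit 22, nat_lit 29142556737)]⟩,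
   ⟨V6_22650298497, [(nat_lit 111, nat_lit 24848375937), (nat_lit 20, nat_lit 25921855617), (nat_lit 123, nat_lit 25905340545), (nat_lit 74, nat_lit 26978820225), (nat_lit 34, nat_lit 26962305153), (nat_lit 108, nat_lit 28035784833), (nat_lit 105, nat_lit 28019269761), (nat_lit 82, nat_lit 29092749441)]⟩,
   ⟨V6_21576818817, [(nat_lit 52, nat_lit 24848375937), (nat_lit 10, nat_lit 25905340545), (nat_lit 82, nat_lit 26962305153), (nat_lit 54, nat_lit 28019269761)]⟩,
   ⟨V6_20553146433, [(nat_lit 101, nat_lit 24848375937), (nat_lit 93, nat_lit 25922117697), (nat_lit 2, nat_lit 25921855617), (nat_lit 111, nat_lit 26995597377)]⟩],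
  [W_23757070400, W_23740555328, W_22683590720, W_22667075648, W_21593595968]⟩
theorem C_24848375937 : chkRec R_24848375937 = true := by decide +kernel

noncomputable def R_24848379969 : Rec := ⟨nat_lit 24848379969, nat_lit 27,
  [⟨V6_24781262913, [(nat_lit 104, nat_lit 24848379969), (nat_lit 112, nat_lit 25922117697), (nat_lit 84, nat_lit 25905344577), (nat_lit 4, nat_lit 26995855425), (nat_lit 17, nat_lit 26979082305), (nat_lit 109, nat_lit 26962309185), (nat_lit 17, nat_lit 28052820033), (nat_lit 32, nat_lit 28036046913), (nat_lit 1, nat_lit 28019273793), (nat_lit 95, nat_lit 29109784641), (nat_lit 78, nat_lit 29093011521), (nat_lit 126, nat_lit 29076238401), (nat_lit 95, nat_lit 30166749249), (nat_lit 14, nat_lit 30149976129), (nat_lit 125, nat_lit 31223713857)]⟩,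
   ⟨V6_22667333697, [(nat_lit 28, nat_lit 24848379969), (nat_lit 122, nat_lit 25922117697), (nat_lit 86, nat_lit 25905344577), (nat_lit 13, nat_lit 26995855425), (nat_lit 97, nat_lit 26979082305), (nat_lit 74, nat_lit 26962309185), (nat_lit 25, nat_lit 28052820033), (nat_lit 118, nat_lit 28036046913), (nat_lit 56, nat_lit 29109784641)]⟩,
   ⟨V6_21626884161, [(nat_lit 23, nat_lit 24848379969), (nat_lit 45, nat_lit 25922117697), (nat_lit 100, nat_lit 25921859649), (nat_lit 116, nat_lit 26995855425), (nat_lit 2, nat_lit 26995597377), (nat_lit 42, nat_lit 28069335105)]⟩,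
   ⟨V6_21610369089, [(nat_lit 27, nat_lit 24848379969), (nat_lit 40, nat_lit 25922117697), (nat_lit 62, nat_lit 25905344577), (nat_lit 2, nat_lit 26995855425), (nat_lit 101, nat_lit 26979082305), (nat_lit 116, nat_lit 28052820033)]⟩,
   ⟨V6_20553404481, [(nat_lit 101, nat_lit 24848379969), (nat_lit 20, nat_lit 25922117697), (nat_lit 119, nat_lit 26995855425)]⟩,
   ⟨V6_20553146433, [(nat_lit 85, nat_lit 24848379969), (nat_lit 1, nat_lit 25922117697), (nat_lit 85, nat_lit 25921859649), (nat_lit 17, nat_lit 26995597377)]⟩],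
  [W_24814293056, W_24797519936, W_24781004864, W_23740555328, W_23724040256, W_22683590720, W_20552888384, W_19479408704]⟩
theorem C_24848379969 : chkRec R_24848379969 = true := by decide +kernel

noncomputable def R_24848380032 : Rec := ⟨nat_lit 24848380032, nat_lit 73,
  [⟨V6_23740821504, [(nat_lit 70, nat_lit 24848380032), (nat_lit 99, nat_lit 25922121792), (nat_lit 23, nat_lit 25921859712), (nat_lit 103, nat_lit 25905344640), (nat_lit 64, nat_lit 26995863552), (nat_lit 1, nat_lit 26995601472), (nat_lit 2, nat_lit 26979086400), (nat_lit 19, nat_lit 26978824320), (nat_lit 61, nat_lit 26962309248), (nat_lit 64, nat_lit 28069343232), (nat_lit 22, nat_lit 28052828160), (nat_lit 57, nat_lit 28052566080), (nat_lit 27, nat_lit 28036051008), (nat_lit 115, nat_lit 28035788928), (nat_lit 97, nat_lit 29126307840), (nat_lit 46, nat_lit 29109792768), (nat_lit 8, nat_lit 29109530688), (nat_lit 37, nat_lit 30183272448)]⟩,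
   ⟨V6_22700371968, [(nat_lit 82, nat_lit 24848380032), (nat_lit 38, nat_lit 25922121792), (nat_lit 108, nat_lit 25921859712), (nat_lit 64, nat_lit 26995863552), (nat_lit 32, nat_lit 26995601472), (nat_lit 109, nat_lit 26995339392), (nat_lit 35, nat_lit 28069343232), (nat_lit 31, nat_lit 28069081152), (nat_lit 97, nat_lit 29142822912)]⟩,
   ⟨V6_22683856896, [(nat_lit 99, nat_lit 24848380032), (nat_lit 47, nat_lit 25922121792), (nat_lit 98, nat_lit 25921859712), (nat_lit 48, nat_lit 25905344640), (nat_lit 62, nat_lit 26995863552), (nat_lit 80, nat_lit 26995601472), (nat_lit 83, nat_lit 26979086400), (nat_lit 79, nat_lit 26978824320), (nat_lit 85, nat_lit 28069343232), (nat_lit 51, nat_lit 28052828160), (nat_lit 67, nat_lit 28052566080), (nat_lit 27, nat_lit 29126307840)]⟩],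
  [W_24814297088, W_23724302336, W_23723778176, W_22700367872, W_22683852800, W_20536635392, W_19479404672, W_19462889600, W_18405924992]⟩
theorem C_24848380032 : chkRec R_24848380032 = true := by decide +kernel

noncomputable def R_24848384064 : Rec := ⟨nat_lit 24848384064, nat_lit 94,
  [⟨V6_22667083776, [(nat_lit 21, nat_lit 24848384064), (nat_lit 45, nat_lit 25922125824), (nat_lit 89, nat_lit 25921863744), (nat_lit 50, nat_lit 25905348672), (nat_lit 121, nat_lit 26995605504), (nat_lit 40, nat_lit 26979090432), (nat_lit 64, nat_lit 26978828352), (nat_lit 52, nat_lit 26962313280), (nat_lit 65, nat_lit 28052570112), (nat_lit 51, nat_lit 28036055040), (nat_lit 50, nat_lit 28035792960), (nat_lit 63, nat_lit 29109534720)]⟩,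
   ⟨V6_22650568704, [(nat_lit 87, nat_lit 24848384064), (nat_lit 90, nat_lit 25922125824), (nat_lit 14, nat_lit 25905348672), (nat_lit 100, nat_lit 26979090432), (nat_lit 68, nat_lit 26962313280), (nat_lit 77, nat_lit 28036055040), (nat_lit 48, nat_lit 28019277888), (nat_lit 95, nat_lit 29093019648)]⟩,
   ⟨V6_21610119168, [(nat_lit 111, nat_lit 24848384064), (nat_lit 28, nat_lit 25922125824), (nat_lit 77, nat_lit 25921863744), (nat_lit 115, nat_lit 25905348672), (nat_lit 90, nat_lit 26995605504), (nat_lit 18, nat_lit 26979090432), (nat_lit 80, nat_lit 26978828352), (nat_lit 58, nat_lit 28052570112)]⟩,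
   ⟨V6_20553154560, [(nat_lit 70, nat_lit 24848384064), (nat_lit 34, nat_lit 25922125824), (nat_lit 93, nat_lit 25921863744), (nat_lit 56, nat_lit 26995605504)]⟩],
  [W_24814555136, W_24797782016, W_24781262912, W_23757590528, W_23741075456, W_23740817408, W_23740813376, W_23724302336, W_22683848768, W_22667333696, W_20553150464, W_19479412736]⟩
theorem C_24848384064 : chkRec R_24848384064 = true := by decide +kernel

noncomputable def R_24848388096 : Rec := ⟨nat_lit 24848388096, nat_lit 36,
  [⟨V6_20519866368, [(nat_lit 47, nat_lit 24848388096), (nat_lit 110, nat_lit 25905352704), (nat_lit 6, nat_lit 26962317312)]⟩,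
   ⟨V6_19462901760, [(nat_lit 83, nat_lit 24848388096), (nat_lit 91, nat_lit 25905352704)]⟩,
   ⟨V6_18405937152, [(nat_lit 80, nat_lit 24848388096)]⟩],
  [W_24814813184, W_24798040064, W_23724302336, W_22684110848, W_17332195328]⟩
theorem C_24848388096 : chkRec R_24848388096 = true := by decide +kernel

noncomputable def R_24848638017 : Rec := ⟨nat_lit 24848638017, nat_lit 29,
  [⟨V6_22700105793, [(nat_lit 106, nat_lit 24848638017), (nat_lit 46, nat_lit 25922117697), (nat_lit 86, nat_lit 26995597377), (nat_lit 39, nat_lit 28069077057), (nat_lit 113, nat_lit 29142556737)]⟩,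
   ⟨V6_21626884161, [(nat_lit 110, nat_lit 24848638017), (nat_lit 36, nat_lit 25922375745), (nat_lit 119, nat_lit 25922117697), (nat_lit 55, nat_lit 26995855425), (nat_lit 125, nat_lit 26995597377), (nat_lit 57, nat_lit 28069335105)]⟩,
   ⟨V6_21577080897, [(nat_lit 79, nat_lit 24848638017), (nat_lit 108, nat_lit 25905602625), (nat_lit 22, nat_lit 26962567233), (nat_lit 126, nat_lit 28019531841)]⟩,
   ⟨V6_20553146433, [(nat_lit 2, nat_lit 24848638017), (nat_lit 124, nat_lit 25922117697), (nat_lit 110, nat_lit 26995597377)]⟩,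
   ⟨V6_20536889409, [(nat_lit 75, nat_lit 24848638017), (nat_lit 116, nat_lit 25922375745), (nat_lit 75, nat_lit 25905602625), (nat_lit 73, nat_lit 26979340353)]⟩,
   ⟨V6_19479924801, [(nat_lit 69, nat_lit 24848638017), (nat_lit 39, nat_lit 25922375745)]⟩],
  [W_24814293056, W_24797519936, W_23773843520, W_23757070400, W_23724040256, W_21577080896, W_19463151680]⟩
theorem C_24848638017 : chkRec R_24848638017 = true := by decide +kernel

noncomputable def R_24848638080 : Rec := ⟨nat_lit 24848638080, nat_lit 77,
  [⟨V6_24847589376, [(nat_lit 76, nat_lit 24848638080), (nat_lit 62, nat_lit 25922379840), (nat_lit 106, nat_lit 25922117760), (nat_lit 88, nat_lit 26996121600), (nat_lit 92, nat_lit 26995859520), (nat_lit 42, nat_lit 26995597440), (nat_lit 50, nat_lit 28069601280), (nat_lit 20, nat_lit 28069339200), (nat_lit 110, nat_lit 28069077120), (nat_lit 38, nat_lit 29143080960), (nat_lit 72, nat_lit 29142818880), (nat_lit 85, nat_lit 29142556800), (nat_lit 79, nat_lit 30216560640), (nat_lit 103, nat_lit 30216298560), (nat_lit 34, nat_lit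 31290040320)]⟩,
   ⟨V6_24831074304, [(nat_lit 11, nat_lit 24848638080), (nat_lit 32, nat_lit 25922379840), (nat_lit 102, nat_lit 25922117760), (nat_lit 22, nat_lit 25905602688), (nat_lit 81, nat_lit 26996121600), (nat_lit 39, nat_lit 26995859520), (nat_lit 69, nat_lit 26995597440), (nat_lit 98, nat_lit 26979344448), (nat_lit 116, nat_lit 26979082368), (nat_lit 104, nat_lit 28069601280), (nat_lit 126, nat_lit 28069339200), (nat_lit 101, nat_lit 28069077120), (nat_lit 38, nat_lit 28053086208), (nat_lit 102, nat_lit 28052824128), (nat_lit 111, nat_lit 28052562048), (nat_lit 117, nat_lit 29143080960), (nat_lit 62, nat_lit 29142818880), (nat_lit 88, nat_lit 29126565888), (nat_lit 16, nat_lit 29126303808), (nat_lit 122, nat_lit 29126041728), (nat_lit 32, nat_lit 30216560640), (nat_lit 119, nat_lit 30200045568), (nat_lit 90, nat_lit 30199783488), (nat_lit 96, nat_lit 31273525248)]⟩,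
   ⟨V6_24814035072, [(nat_lit 115, nat_lit 24848638080), (nat_lit 99, nat_lit 25922117760), (nat_lit 45, nat_lit 25905602688), (nat_lit 24, nat_lit 26995597440), (nat_lit 112, nat_lit 26979082368), (nat_lit 100, nat_lit 26962567296), (nat_lit 36, nat_lit 28069077120), (nat_lit 27, nat_lit 28052562048), (nat_lit 26, nat_lit 28036046976), (nat_lit 68, nat_lit 29142556800), (nat_lit 9, nat_lit 29126041728), (nat_lit 72, nat_lit 29109526656), (nat_lit 20, nat_lit 30199521408), (nat_lit 25, nat_lit 30183006336), (nat_lit 39, nat_lit 31256486016)]⟩,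
   ⟨V6_24798044160, [(nat_lit 117, nat_lit 24848638080), (nat_lit 91, nat_lit 25922379840), (nat_lit 109, nat_lit 25922117760), (nat_lit 66, nat_lit 25905602688), (nat_lit 24, nat_lit 26996121600), (nat_lit 11, nat_lit 26995859520), (nat_lit 113, nat_lit 26979344448), (nat_lit 81, nat_lit 26979082368), (nat_lit 10, nat_lit 26962567296), (nat_lit 86, nat_lit 28069601280), (nat_lit 8, nat_lit 28053086208), (nat_lit 77, nat_lit 28052824128), (nat_lit 83, nat_lit 28036309056), (nat_lit 47, nat_lit 28036046976), (nat_lit 77, nat_lit 28019531904), (nat_lit 8, nat_lit 29126565888), (nat_lit 102, nat_lit 29110050816), (nat_lit 50, nat_lit 29109788736), (nat_lit 34, nat_lit 29093273664), (nat_lit 110, nat_lit 29093011584), (nat_lit 83, nat_lit 30183530496), (nat_lit 56, nat_lit 30167015424), (nat_lit 37, nat_lit 30166753344), (nat_lit 84, nat_lit 31240495104)]⟩,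
   ⟨V6_23724564480, [(nat_lit 103, nat_lit 24848638080), (nat_lit 74, nat_lit 25922379840), (nat_lit 101, nat_lit 25905602688), (nat_lit 76, nat_lit 26996121600), (nat_lit 7, nat_lit 26979344448), (nat_lit 38, nat_lit 26962567296), (nat_lit 116, nat_lit 28053086208), (nat_lit 75, nat_lit 28036309056), (nat_lit 80, nat_lit 28019531904), (nat_lit 14, nat_lit 29110050816), (nat_lit 56, nat_lit 29093273664), (nat_lit 37, nat_lit 30167015424)]⟩],
  [W_22683852800, W_22650822656, W_20536893440, W_20503339136, W_19479404672, W_19462889600, W_19446374528, W_18405924992, W_17332445312]⟩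
theorem C_24848638080 : chkRec R_24848638080 = true := by decide +kernel

noncomputable def R_24848642112 : Rec := ⟨nat_lit 24848642112, nat_lit 133,
  [⟨V6_24831070272, [(nat_lit 96, nat_lit 24848642112), (nat_lit 55, nat_lit 25922379840), (nat_lit 124, nat_lit 25922121792), (nat_lit 73, nat_lit 25905606720), (nat_lit 121, nat_lit 26996117568), (nat_lit 104, nat_lit 26995859520), (nat_lit 28, nat_lit 26995601472), (nat_lit 23, nat_lit 26979344448), (nat_lit 78, nat_lit 26979086400), (nat_lit 69, nat_lit 28069597248), (nat_lit 51, nat_lit 28069339200), (nat_lit 116, nat_lit 28069081152), (nat_lit 96, nat_lit 28053082176), (nat_lit 37, nat_lit 28052824128), (nat_lit 46, nat_lit 28052566080), (nat_lit 40, nat_lit 29143076928), (nat_lit 64, nat_lit 29142818880), (nat_lit 67, nat_lit 29126561856), (nat_lit 16, nat_lit 29126303808), (nat_lit 125, nat_lit 29126045760), (nat_lit 49, nat_lit 30216556608), (nat_lit 65, nat_lit 30200041536), (nat_lit 23, nat_lit 30199783488), (nat_lit 120, nat_lit 31273521216)]⟩,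
   ⟨V6_24798302208, [(nat_lit 96, nat_lit 24848642112), (nat_lit 49, nat_lit 25922383872), (nat_lit 16, nat_lit 25922379840), (nat_lit 59, nat_lit 25905606720), (nat_lit 33, nat_lit 26996121600), (nat_lit 99, nat_lit 26996117568), (nat_lit 2, nat_lit 26979348480), (nat_lit 96, nat_lit 26979344448), (nat_lit 76, nat_lit 26962571328), (nat_lit 50, nat_lit 28069859328), (nat_lit 79, nat_lit 28053086208), (nat_lit 122, nat_lit 28053082176), (nat_lit 40, nat_lit 28036313088), (nat_lit 10, nat_lit 28036309056), (nat_lit 98, nat_lit 28019535936), (nat_lit 88, nat_lit 29126823936), (nat_lit 36, nat_lit 29110050816), (nat_lit 109, nat_lit 29110046784), (nat_lit 94, nat_lit 29093277696), (nat_lit 40, nat_lit 29093273664), (nat_lit 66, nat_lit 30183788544), (nat_lit 95, nat_lit 30167015424), (nat_lit 117, nat_lit 30167011392), (nat_lit 53, nat_lit 31240753152)]⟩,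
   ⟨V6_23774105664, [(nat_lit 22, nat_lit 24848642112), (nat_lit 64, nat_lit 25922379840), (nat_lit 76, nat_lit 25922121792), (nat_lit 101, nat_lit 26996117568), (nat_lit 8, nat_lit 26995859520), (nat_lit 89, nat_lit 26995601472), (nat_lit 117, nat_lit 28069597248), (nat_lit 59, nat_lit 28069339200), (nat_lit 100, nat_lit 28069081152), (nat_lit 6, nat_lit 29143076928), (nat_lit 96, nat_lit 29142818880), (nat_lit 110, nat_lit 30216556608)]⟩,
   ⟨V6_23741337600, [(nat_lit 77, nat_lit 24848642112), (nat_lit 37, nat_lit 25922383872), (nat_lit 7, nat_lit 25922379840), (nat_lit 102, nat_lit 25905606720), (nat_lit 11, nat_lit 26996121600), (nat_lit 39, nat_lit 26996117568), (nat_lit 34, nat_lit 26979348480), (nat_lit 60, nat_lit 26979344448), (nat_lit 18, nat_lit 26962571328), (nat_lit 118, nat_lit 28069859328), (nat_lit 86, nat_lit 28053086208), (nat_lit 89, nat_lit 28053082176), (nat_lit 33, nat_lit 28036313088), (nat_lit 121, nat_lit 28036309056), (nat_lit 108, nat_lit 29126823936), (nat_lit 67, nat_lit 29110050816), (nat_lit 47, nat_lit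 29110046784), (nat_lit 34, nat_lit 30183788544)]⟩,
   ⟨V6_22667595840, [(nat_lit 77, nat_lit 24848642112), (nat_lit 18, nat_lit 25922379840), (nat_lit 46, nat_lit 25905606720), (nat_lit 4, nat_lit 26996117568), (nat_lit 108, nat_lit 26979344448), (nat_lit 13, nat_lit 26962571328), (nat_lit 37, nat_lit 28053082176), (nat_lit 7, nat_lit 28036309056), (nat_lit 27, nat_lit 29110046784)]⟩,
   ⟨V6_22650826752, [(nat_lit 22, nat_lit 24848642112), (nat_lit 14, nat_lit 25922383872), (nat_lit 5, nat_lit 25905606720), (nat_lit 72, nat_lit 26979348480), (nat_lit 115, nat_lit 26962571328), (nat_lit 91, nat_lit 28036313088), (nat_lit 126, nat_lit 28019535936), (nat_lit 43, nat_lit 29093277696)]⟩,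
   ⟨V6_21627408384, [(nat_lit 68, nat_lit 24848642112), (nat_lit 34, nat_lit 25922383872), (nat_lit 117, nat_lit 25922379840), (nat_lit 42, nat_lit 26996121600), (nat_lit 19, nat_lit 26996117568), (nat_lit 46, nat_lit 28069859328)]⟩],
  [W_24831070208, W_24814297088, W_24797782016, W_24797523968, W_23724302336, W_22650822656, W_21577084928, W_21577080896, W_20553150464, W_20536893440, W_20536635392, W_20520120320, W_19463155712]⟩
theorem C_24848642112 : chkRec R_24848642112 = true := by decide +kernel

noncomputable def R_24848646144 : Rec := ⟨nat_lit 24848646144, nat_lit 128,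
  [⟨V6_23724048384, [(nat_lit 79, nat_lit 24848646144), (nat_lit 47, nat_lit 25922125824), (nat_lit 62, nat_lit 25905610752), (nat_lit 81, nat_lit 26995605504), (nat_lit 82, nat_lit 26979090432), (nat_lit 118, nat_lit 26962575360), (nat_lit 106, nat_lit 28052570112), (nat_lit 109, nat_lit 28036055040), (nat_lit 90, nat_lit 28019539968), (nat_lit 52, nat_lit 29109534720), (nat_lit 113, nat_lit 29093019648), (nat_lit 109, nat_lit 30166499328)]⟩,
   ⟨V6_22650826752, [(nat_lit 99, nat_lit 24848646144), (nat_lit 36, nat_lit 25922383872), (nat_lit 78, nat_lit 25905610752), (nat_lit 104, nat_lit 26979348480), (nat_lit 67, nat_lit 26962575360), (nat_lit 81, nat_lit 28036313088), (nat_lit 20, nat_lit 28019539968), (nat_lit 83, nat_lit 29093277696)]⟩,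
   ⟨V6_21627408384, [(nat_lit 107, nat_lit 24848646144), (nat_lit 33, nat_lit 25922383872), (nat_lit 36, nat_lit 26996121600), (nat_lit 122, nat_lit 28069859328)]⟩,
   ⟨V6_21577089024, [(nat_lit 11, nat_lit 24848646144), (nat_lit 7, nat_lit 25905610752), (nat_lit 32, nat_lit 26962575360), (nat_lit 114, nat_lit 28019539968)]⟩,
   ⟨V6_20553154560, [(nat_lit 67, nat_lit 24848646144), (nat_lit 90, nat_lit 25922125824), (nat_lit 2, nat_lit 26995605504)]⟩],
  [W_24814813184, W_24814555136, W_24798298112, W_23774363648, W_23757848576, W_23741333504, W_23741075456, W_23724302336, W_22667595776, W_20536893440, W_19463155712]⟩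
theorem C_24848646144 : chkRec R_24848646144 = true := by decide +kernel

noncomputable def R_24848896065 : Rec := ⟨nat_lit 24848896065, nat_lit 11,
  [⟨V6_23757328449, [(nat_lit 8, nat_lit 24848896065), (nat_lit 99, nat_lit 25922375745), (nat_lit 26, nat_lit 25905860673), (nat_lit 22, nat_lit 26995855425), (nat_lit 104, nat_lit 26979340353), (nat_lit 93, nat_lit 28069335105), (nat_lit 35, nat_lit 28052820033), (nat_lit 43, nat_lit 29142814785), (nat_lit 100, nat_lit 29126299713), (nat_lit 30, nat_lit 30199779393)]⟩,
   ⟨V6_20520374337, [(nat_lit 18, nat_lit 24848896065), (nat_lit 7, nat_lit 25905860673), (nat_lit 5, nat_lit 26962825281)]⟩,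
   ⟨V6_19479924801, [(nat_lit 26, nat_lit 24848896065), (nat_lit 29, nat_lit 25922375745)]⟩],
  [W_24830808128, W_24814293056, W_19479924800]⟩
theorem C_24848896065 : chkRec R_24848896065 = true := by decide +kernel

noncomputable def R_24848900160 : Rec := ⟨nat_lit 24848900160, nat_lit 115,
  [⟨V6_21610893312, [(nat_lit 1, nat_lit 24848900160), (nat_lit 18, nat_lit 25922641920), (nat_lit 70, nat_lit 25922637888), (nat_lit 103, nat_lit 25905864768), (nat_lit 29, nat_lit 26996379648), (nat_lit 47, nat_lit 26979606528), (nat_lit 77, nat_lit 26979602496), (nat_lit 60, nat_lit 28053344256)]⟩,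
   ⟨V6_21594120192, [(nat_lit 4, nat_lit 24848900160), (nat_lit 28, nat_lit 25922641920), (nat_lit 5, nat_lit 25905864768), (nat_lit 30, nat_lit 26979606528), (nat_lit 67, nat_lit 26962829376), (nat_lit 52, nat_lit 28036571136)]⟩,
   ⟨V6_20537155584, [(nat_lit 85, nat_lit 24848900160), (nat_lit 17, nat_lit 25922641920), (nat_lit 95, nat_lit 25905864768), (nat_lit 107, nat_lit 26979606528)]⟩,
   ⟨V6_19480186944, [(nat_lit 71, nat_lit 24848900160), (nat_lit 7, nat_lit 25922637888)]⟩],
  [W_24830812160, W_24814555136, W_24814293056, W_23773847552, W_23773843520, W_23757332480, W_23757070400, W_23741075456, W_23740817408, W_23740813376, W_23740555328, W_22700367872, W_22683852800, W_22683590720, W_22667333696]⟩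
theorem C_24848900160 : chkRec R_24848900160 = true := by decide +kernel

noncomputable def R_24848904192 : Rec := ⟨nat_lit 24848904192, nat_lit 129,
  [⟨V6_22667857920, [(nat_lit 120, nat_lit 24848904192), (nat_lit 33, nat_lit 25922641920), (nat_lit 42, nat_lit 25905868800), (nat_lit 92, nat_lit 26996379648), (nat_lit 71, nat_lit 26979606528), (nat_lit 45, nat_lit 26962833408), (nat_lit 89, nat_lit 28053344256), (nat_lit 34, nat_lit 28036571136), (nat_lit 113, nat_lit 29110308864)]⟩,
   ⟨V6_21627408384, [(nat_lit 89, nat_lit 24848904192), (nat_lit 93, nat_lit 25922641920), (nat_lit 42, nat_lit 25922383872), (nat_lit 50, nat_lit 26996379648), (nat_lit 111, nat_lit 26996121600), (nat_lit 21, nat_lit 28069859328)]⟩,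
   ⟨V6_21610893312, [(nat_lit 121, nat_lit 24848904192), (nat_lit 104, nat_lit 25922641920), (nat_lit 85, nat_lit 25905868800), (nat_lit 56, nat_lit 26996379648), (nat_lit 34, nat_lit 26979606528), (nat_lit 73, nat_lit 28053344256)]⟩,
   ⟨V6_21594120192, [(nat_lit 77, nat_lit 24848904192), (nat_lit 63, nat_lit 25922641920), (nat_lit 5, nat_lit 25905868800), (nat_lit 19, nat_lit 26979606528), (nat_lit 96, nat_lit 26962833408), (nat_lit 93, nat_lit 28036571136)]⟩,
   ⟨V6_20520382464, [(nat_lit 78, nat_lit 24848904192), (nat_lit 115, nat_lit 25905868800), (nat_lit 64, nat_lit 26962833408)]⟩],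
  [W_24847843328, W_24831070208, W_24814813184, W_24814297088, W_23774363648, W_23757848576, W_23757332480, W_23741333504, W_23740817408, W_23740559360, W_22667853824, W_21610889216, W_20553150464, W_18389676032]⟩
theorem C_24848904192 : chkRec R_24848904192 = true := by decide +kernel

noncomputable def R_24849158208 : Rec := ⟨nat_lit 24849158208, nat_lit 43,
  [⟨V6_23774105664, [(nat_lit 1, nat_lit 24849158208), (nat_lit 52, nat_lit 25922637888), (nat_lit 54, nat_lit 26996117568), (nat_lit 53, nat_lit 28069597248), (nat_lit 100, nat_lit 29143076928), (nat_lit 28, nat_lit 30216556608)]⟩,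
   ⟨V6_19480186944, [(nat_lit 3, nat_lit 24849158208), (nat_lit 125, nat_lit 25922637888)]⟩,
   ⟨V6_18406707264, [(nat_lit 89, nat_lit 24849158208)]⟩],
  [W_24847585280, W_24831070208, W_23757590528, W_22684110848, W_19463671808]⟩
theorem C_24849158208 : chkRec R_24849158208 = true := by decide +kernel

noncomputable def R_24849162240 : Rec := ⟨nat_lit 24849162240, nat_lit 102,
  [⟨V6_20554186752, [(nat_lit 104, nat_lit 24849162240), (nat_lit 113, nat_lit 25922899968), (nat_lit 118, nat_lit 26996637696)]⟩,
   ⟨V6_20537155584, [(nat_lit 59, nat_lit 24849162240), (nat_lit 81, nat_lit 25922641920), (nat_lit 86, nat_lit 25906126848), (nat_lit 95, nat_lit 26979606528)]⟩,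
   ⟨V6_18406711296, [(nat_lit 75, nat_lit 24849162240)]⟩],
  [W_24831328256, W_24830812160, W_23774363648, W_23773847552, W_23757848576, W_23757590528, W_23757332480, W_22700367872, W_20537409536]⟩
theorem C_24849162240 : chkRec R_24849162240 = true := by decide +kernel

noncomputable def R_24849420288 : Rec := ⟨nat_lit 24849420288, nat_lit 34,
  [⟨V6_21627408384, [(nat_lit 62, nat_lit 24849420288), (nat_lit 52, nat_lit 25922899968), (nat_lit 16, nat_lit 26996379648), (nat_lit 76, nat_lit 28069859328)]⟩],
  [W_24847843328, W_24847585280, W_23774363648, W_18406965248, W_17333227520]⟩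
theorem C_24849420288 : chkRec R_24849420288 = true := by decide +kernel

noncomputable def R_24864628866 : Rec := ⟨nat_lit 24864628866, nat_lit 4,
  [⟨V6_23723516034, [(nat_lit 58, nat_lit 24864628866), (nat_lit 95, nat_lit 25938108546), (nat_lit 104, nat_lit 25921593474), (nat_lit 53, nat_lit 26995073154), (nat_lit 98, nat_lit 26978558082), (nat_lit 26, nat_lit 28052037762), (nat_lit 122, nat_lit 28035522690), (nat_lit 19, nat_lit 29109002370), (nat_lit 86, nat_lit 29092487298), (nat_lit 30, nat_lit 30165966978)]⟩,
   ⟨V6_22666551426, [(nat_lit 44, nat_lit 24864628866), (nat_lit 81, nat_lit 25938108546), (nat_lit 59, nat_lit 25921593474), (nat_lit 79, nat_lit 26995073154), (nat_lit 45, nat_lit 26978558082), (nat_lit 109, nat_lit 28052037762), (nat_lit 8, nat_lit 28035522690), (nat_lit 115, nat_lit 29109002370)]⟩,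
   ⟨V6_20552622210, [(nat_lit 88, nat_lit 24864628866), (nat_lit 6, nat_lit 25938108546), (nat_lit 61, nat_lit 25921593474), (nat_lit 68, nat_lit 26995073154)]⟩],
  [W_23723778176, W_19495919744]⟩
theorem C_24864628866 : chkRec R_24864628866 = true := by decide +kernel

noncomputable def R_24864632961 : Rec := ⟨nat_lit 24864632961, nat_lit 6,
  [⟨V6_21593075841, [(nat_lit 12, nat_lit 24864632961), (nat_lit 126, nat_lit 25921597569), (nat_lit 96, nat_lit 26978562177), (nat_lit 110, nat_lit 28035526785)]⟩,
   ⟨V6_19495923777, [(nat_lit 9, nat_lit 24864632961), (nat_lit 81, nat_lit 25938374721)]⟩],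
  [W_24797519936, W_23723778176, W_21609848960]⟩
theorem C_24864632961 : chkRec R_24864632961 = true := by decide +kernel

noncomputable def R_24864633024 : Rec := ⟨nat_lit 24864633024, nat_lit 2,
  [⟨V6_19479146688, [(nat_lit 2, nat_lit 24864633024), (nat_lit 75, nat_lit 25921597632)]⟩],
  [W_23740559360]⟩
theorem C_24864633024 : chkRec R_24864633024 = true := by decide +kernel

noncomputable def R_24864891009 : Rec := ⟨nat_lit 24864891009, nat_lit 24,
  [⟨V6_19496181888, [(nat_lit 46, nat_lit 24864891009), (nat_lit 109, nat_lit 25938632832)]⟩],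
  [W_24814035008, W_24797519936, W_24797257856, W_24781004864, W_24764227712, W_23757070400, W_23724040256, W_23707263104, W_22683328640, W_21643141184]⟩
theorem C_24864891009 : chkRec R_24864891009 = true := by decide +kernel

noncomputable def R_24864895041 : Rec := ⟨nat_lit 24864895041, nat_lit 21,
  [⟨V6_20569919553, [(nat_lit 115, nat_lit 24864895041), (nat_lit 19, nat_lit 25938632769), (nat_lit 94, nat_lit 27012370497)]⟩,
   ⟨V6_20553146433, [(nat_lit 42, nat_lit 24864895041), (nat_lit 41, nat_lit 25938632769), (nat_lit 110, nat_lit 25921859649), (nat_lit 1, nat_lit 26995597377)]⟩,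
   ⟨V6_19495923777, [(nat_lit 32, nat_lit 24864895041), (nat_lit 46, nat_lit 25938374721)]⟩],
  [W_24814293056, W_24797519936, W_24781004864, W_23740813376, W_23724040256, W_23707267136, W_22667075648, W_22666817600]⟩
theorem C_24864895041 : chkRec R_24864895041 = true := by decide +kernel

noncomputable def R_24864895104 : Rec := ⟨nat_lit 24864895104, nat_lit 62,
  [⟨V6_22700371968, [(nat_lit 14, nat_lit 24864895104), (nat_lit 111, nat_lit 25938636864), (nat_lit 123, nat_lit 25938374784), (nat_lit 68, nat_lit 25921859712), (nat_lit 88, nat_lit 27012378624), (nat_lit 46, nat_lit 27012116544), (nat_lit 120, nat_lit 26995601472), (nat_lit 86, nat_lit 26995339392), (nat_lit 91, nat_lit 28085858304), (nat_lit 29, nat_lit 28069343232), (nat_lit 5, nat_lit 28069081152), (nat_lit 20, nat_lit 29142822912)]⟩,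
   ⟨V6_20569927680, [(nat_lit 10, nat_lit 24864895104), (nat_lit 62, nat_lit 25938636864), (nat_lit 50, nat_lit 27012378624)]⟩],
  [W_24797782016, W_24781008896, W_24781004864, W_24764227712, W_23757332480, W_23740817408, W_23723778176, W_22700367872, W_22683852800, W_18422440064]⟩
theorem C_24864895104 : chkRec R_24864895104 = true := by decide +kernel

noncomputable def R_24864899136 : Rec := ⟨nat_lit 24864899136, nat_lit 70,
  [⟨V6_23724048384, [(nat_lit 102, nat_lit 24864899136), (nat_lit 17, nat_lit 25938640896), (nat_lit 108, nat_lit 25921863744), (nat_lit 35, nat_lit 26995605504), (nat_lit 7, nat_lit 26978828352), (nat_lit 9, nat_lit 28052570112), (nat_lit 115, nat_lit 28035792960), (nat_lit 24, nat_lit 29109534720), (nat_lit 50, nat_lit 29092757568), (nat_lit 121, nat_lit 30166499328)]⟩,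
   ⟨V6_19496189952, [(nat_lit 16, nat_lit 24864899136), (nat_lit 44, nat_lit 25938640896)]⟩,
   ⟨V6_18422448192, [(nat_lit 91, nat_lit 24864899136)]⟩],
  [W_24814555136, W_24797782016, W_24781008896, W_24764235776, W_23757590528, W_23740817408, W_23740813376, W_23724044288, W_23724040256, W_23707267136, W_23690494016, W_22683848768, W_22667075648, W_22650306560]⟩
theorem C_24864899136 : chkRec R_24864899136 = true := by decide +kernel

noncomputable def R_24865153089 : Rec := ⟨nat_lit 24865153089, nat_lit 31,
  [⟨V6_22717141056, [(nat_lit 102, nat_lit 24865153089), (nat_lit 94, nat_lit 25938894912), (nat_lit 57, nat_lit 25938890817), (nat_lit 69, nat_lit 25938632769), (nat_lit 4, nat_lit 27012632640), (nat_lit 19, nat_lit 27012374592), (nat_lit 74, nat_lit 27012370497), (nat_lit 21, nat_lit 27012112449), (nat_lit 74, nat_lit 28086112320), (nat_lit 70, nat_lit 28085854272), (nat_lit 35, nat_lit 28085850177), (nat_lit 36, nat_lit 29159592000)]⟩,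
   ⟨V6_21626884161, [(nat_lit 123, nat_lit 24865153089), (nat_lit 17, nat_lit 25938890817), (nat_lit 83, nat_lit 25938632769), (nat_lit 54, nat_lit 25922117697), (nat_lit 64, nat_lit 27012370497), (nat_lit 103, nat_lit 26995855425), (nat_lit 5, nat_lit 26995597377), (nat_lit 87, nat_lit 28069335105)]⟩,
   ⟨V6_21610369089, [(nat_lit 92, nat_lit 24865153089), (nat_lit 54, nat_lit 25938890817), (nat_lit 48, nat_lit 25922117697), (nat_lit 39, nat_lit 26995855425), (nat_lit 107, nat_lit 26979082305), (nat_lit 53, nat_lit 28052820033)]⟩,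
   ⟨V6_20569919553, [(nat_lit 109, nat_lit 24865153089), (nat_lit 87, nat_lit 25938890817), (nat_lit 126, nat_lit 25938632769), (nat_lit 87, nat_lit 27012370497)]⟩,
   ⟨V6_20569661505, [(nat_lit 15, nat_lit 24865153089), (nat_lit 86, nat_lit 25938632769), (nat_lit 88, nat_lit 27012112449)]⟩],
  [W_24814293056, W_24797777984, W_24797519936, W_24781262912, W_24781004864, W_23773843520, W_23757070400, W_23740813376, W_23724298304, W_23724040256, W_23707525184, W_22700105792, W_22667333696]⟩
theorem C_24865153089 : chkRec R_24865153089 = true := by decide +kernel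

noncomputable def R_24865153152 : Rec := ⟨nat_lit 24865153152, nat_lit 80,
  [⟨V6_24847589376, [(nat_lit 58, nat_lit 24865153152), (nat_lit 82, nat_lit 25938894912), (nat_lit 103, nat_lit 25938632832), (nat_lit 98, nat_lit 25922117760), (nat_lit 114, nat_lit 27012636672), (nat_lit 61, nat_lit 27012374592), (nat_lit 41, nat_lit 27012112512), (nat_lit 110, nat_lit 26995859520), (nat_lit 45, nat_lit 26995597440), (nat_lit 119, nat_lit 28086116352), (nat_lit 61, nat_lit 28085854272), (nat_lit 36, nat_lit 28085592192), (nat_lit 32, nat_lit 28069601280), (nat_lit 97, nat_lit 28069339200), (nat_lit 115, nat_lit 28069077120), (nat_lit 34, nat_lit 29159596032), (nat_lit 68, nat_lit 29159333952), (nat_lit 25, nat_lit 29143080960), (nat_lit 17, nat_lit 29142818880), (nat_lit 57, nat_lit 29142556800), (nat_lit 16, nat_lit 30233075712), (nat_lit 2, nat_lit 30216560640), (nat_lit 56, nat_lit 30216298560), (nat_lit 14, nat_lit 31290040320)]⟩,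
   ⟨V6_24831074304, [(nat_lit 91, nat_lit 24865153152), (nat_lit 18, nat_lit 25938894912), (nat_lit 64, nat_lit 25938632832), (nat_lit 32, nat_lit 25922117760), (nat_lit 14, nat_lit 27012636672), (nat_lit 9, nat_lit 27012374592), (nat_lit 25, nat_lit 27012112512), (nat_lit 77, nat_lit 26995859520), (nat_lit 83, nat_lit 26995597440), (nat_lit 51, nat_lit 26979082368), (nat_lit 58, nat_lit 28086116352), (nat_lit 99, nat_lit 28085854272), (nat_lit 31, nat_lit 28069601280), (nat_lit 65, nat_lit 28069339200), (nat_lit 19, nat_lit 28069077120), (nat_lit 34, nat_lit 28052824128), (nat_lit 48, nat_lit 28052562048), (nat_lit 19, nat_lit 29159596032), (nat_lit 87, nat_lit 29143080960), (nat_lit 124, nat_lit 29142818880), (nat_lit 77, nat_lit 29126565888), (nat_lit 118, nat_lit 29126303808), (nat_lit 107, nat_lit 29126041728), (nat_lit 41, nat_lit 30216560640), (nat_lit 115, nat_lit 30200045568), (nat_lit 4, nat_lit 30199783488), (nat_lit 62, nat_lit 31273525248)]⟩,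
   ⟨V6_24814035072, [(nat_lit 110, nat_lit 24865153152), (nat_lit 115, nat_lit 25938632832), (nat_lit 46, nat_lit 25922117760), (nat_lit 122, nat_lit 27012112512), (nat_lit 62, nat_lit 26995597440), (nat_lit 58, nat_lit 26979082368), (nat_lit 76, nat_lit 28085592192), (nat_lit 3, nat_lit 28069077120), (nat_lit 46, nat_lit 28052562048), (nat_lit 8, nat_lit 28036046976), (nat_lit 71, nat_lit 29142556800), (nat_lit 36, nat_lit 29126041728), (nat_lit 31, nat_lit 29109526656), (nat_lit 76, nat_lit 30199521408), (nat_lit 115, nat_lit 30183006336), (nat_lit 32, nat_lit 31256486016)]⟩,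
   ⟨V6_24798044160, [(nat_lit 64, nat_lit 24865153152), (nat_lit 62, nat_lit 25938894912), (nat_lit 84, nat_lit 25922117760), (nat_lit 24, nat_lit 27012636672), (nat_lit 38, nat_lit 26995859520), (nat_lit 17, nat_lit 26979082368), (nat_lit 116, nat_lit 28069601280), (nat_lit 68, nat_lit 28052824128), (nat_lit 34, nat_lit 28036046976), (nat_lit 7, nat_lit 29126565888), (nat_lit 125, nat_lit 29109788736), (nat_lit 42, nat_lit 29093011584), (nat_lit 124, nat_lit 30183530496), (nat_lit 122, nat_lit 30166753344), (nat_lit 44, nat_lit 31240495104)]⟩,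
   ⟨V6_23790624768, [(nat_lit 43, nat_lit 24865153152), (nat_lit 21, nat_lit 25938894912), (nat_lit 116, nat_lit 25938632832), (nat_lit 41, nat_lit 27012636672), (nat_lit 28, nat_lit 27012374592), (nat_lit 15, nat_lit 27012112512), (nat_lit 78, nat_lit 28086116352), (nat_lit 17, nat_lit 28085854272), (nat_lit 20, nat_lit 28085592192), (nat_lit 55, nat_lit 29159596032), (nat_lit 89, nat_lit 29159333952), (nat_lit 88, nat_lit 30233075712)]⟩],
  [W_23773847552, W_23707525184, W_22716882944, W_20569923584, W_20569399424, W_19495919744, W_19479404672, W_19462889600, W_18422440064, W_18405924992, W_17348960384]⟩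
theorem C_24865153152 : chkRec R_24865153152 = true := by decide +kernel

noncomputable def R_24865157184 : Rec := ⟨nat_lit 24865157184, nat_lit 130,
  [⟨V6_23774105664, [(nat_lit 95, nat_lit 24865157184), (nat_lit 124, nat_lit 25938894912), (nat_lit 69, nat_lit 25938636864), (nat_lit 43, nat_lit 25922121792), (nat_lit 112, nat_lit 27012632640), (nat_lit 106, nat_lit 27012374592), (nat_lit 32, nat_lit 27012116544), (nat_lit 97, nat_lit 26995859520), (nat_lit 72, nat_lit 26995601472), (nat_lit 15, nat_lit 28086112320), (nat_lit 68, nat_lit 28085854272), (nat_lit 64, nat_lit 28069597248), (nat_lit 38, nat_lit 28069339200), (nat_lit 12, nat_lit 28069081152), (nat_lit 27, nat_lit 29159592000), (nat_lit 14, nat_lit 29143076928), (nat_lit 79, nat_lit 29142818880), (nat_lit 67, nat_lit 30216556608)]⟩,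
   ⟨V6_22717141056, [(nat_lit 53, nat_lit 24865157184), (nat_lit 22, nat_lit 25938894912), (nat_lit 30, nat_lit 25938636864), (nat_lit 112, nat_lit 27012632640), (nat_lit 20, nat_lit 27012374592), (nat_lit 78, nat_lit 27012116544), (nat_lit 124, nat_lit 28086112320), (nat_lit 27, nat_lit 28085854272), (nat_lit 1, nat_lit 29159592000)]⟩,
   ⟨V6_22683856896, [(nat_lit 88, nat_lit 24865157184), (nat_lit 57, nat_lit 25938898944), (nat_lit 26, nat_lit 25938636864), (nat_lit 45, nat_lit 25922121792), (nat_lit 48, nat_lit 27012378624), (nat_lit 4, nat_lit 26995863552), (nat_lit 78, nat_lit 26995601472), (nat_lit 54, nat_lit 26979086400), (nat_lit 26, nat_lit 28069343232), (nat_lit 15, nat_lit 28052828160), (nat_lit 34, nat_lit 28052566080), (nat_lit 46, nat_lit 29126307840)]⟩,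
   ⟨V6_21643407360, [(nat_lit 23, nat_lit 24865157184), (nat_lit 23, nat_lit 25938898944), (nat_lit 13, nat_lit 25938636864), (nat_lit 17, nat_lit 27012378624), (nat_lit 116, nat_lit 27012116544), (nat_lit 88, nat_lit 28085858304)]⟩,
   ⟨V6_20569927680, [(nat_lit 21, nat_lit 24865157184), (nat_lit 61, nat_lit 25938898944), (nat_lit 66, nat_lit 25938636864), (nat_lit 93, nat_lit 27012378624)]⟩],
  [W_24814555136, W_24814297088, W_24798040064, W_24797782016, W_24797523968, W_24781266944, W_24781262912, W_24781008896, W_23741075456, W_23724302336, W_23707525184, W_22700367872, W_20569923584, W_20553150464, W_19496185856, W_19495923776]⟩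
theorem C_24865157184 : chkRec R_24865157184 = true := by decide +kernel

noncomputable def R_24865161216 : Rec := ⟨nat_lit 24865161216, nat_lit 113,
  [⟨V6_22650568704, [(nat_lit 64, nat_lit 24865161216), (nat_lit 100, nat_lit 25922125824), (nat_lit 21, nat_lit 26979090432), (nat_lit 108, nat_lit 28036055040), (nat_lit 41, nat_lit 29093019648)]⟩,
   ⟨V6_20569927680, [(nat_lit 31, nat_lit 24865161216), (nat_lit 21, nat_lit 25938898944), (nat_lit 19, nat_lit 25938640896), (nat_lit 95, nat_lit 27012378624)]⟩,
   ⟨V6_19496189952, [(nat_lit 41, nat_lit 24865161216), (nat_lit 7, nat_lit 25938640896)]⟩],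
  [W_24814555136, W_24798040064, W_24797782016, W_24781266944, W_23774363648, W_23757848576, W_23757590528, W_23741075456, W_23740817408, W_20569923584]⟩
theorem C_24865161216 : chkRec R_24865161216 = true := by decide +kernel

noncomputable def R_24865411137 : Rec := ⟨nat_lit 24865411137, nat_lit 11,
  [⟨V6_19496439873, [(nat_lit 46, nat_lit 24865411137), (nat_lit 44, nat_lit 25938890817)]⟩,
   ⟨V6_19479924801, [(nat_lit 15, nat_lit 24865411137), (nat_lit 118, nat_lit 25922375745)]⟩],
  [W_24814293056, W_23773843520, W_23740813376, W_22700363840]⟩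
theorem C_24865411137 : chkRec R_24865411137 = true := by decide +kernel

noncomputable def R_24865415232 : Rec := ⟨nat_lit 24865415232, nat_lit 156,
  [⟨V6_22717141056, [(nat_lit 68, nat_lit 24865415232), (nat_lit 99, nat_lit 25939152960), (nat_lit 51, nat_lit 25938894912), (nat_lit 121, nat_lit 27012632640), (nat_lit 27, nat_lit 27012374592), (nat_lit 25, nat_lit 28086112320), (nat_lit 82, nat_lit 28085854272), (nat_lit 96, nat_lit 29159592000)]⟩,
   ⟨V6_20570443776, [(nat_lit 75, nat_lit 24865415232), (nat_lit 40, nat_lit 25939156992), (nat_lit 37, nat_lit 25939152960), (nat_lit 63, nat_lit 27012894720)]⟩,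
   ⟨V6_19496706048, [(nat_lit 69, nat_lit 24865415232), (nat_lit 31, nat_lit 25939156992)]⟩],
  [W_24831070208, W_24830812160, W_24814555136, W_24814293056, W_24814035008, W_24797782016, W_24797777984, W_23790620672, W_23773847552, W_23757332480, W_23757070400, W_23741075456, W_23740817408, W_23724560384, W_23724302336, W_22716882944, W_22700367872, W_22683852800, W_22650822656, W_21577080896, W_20520116288]⟩
theorem C_24865415232 : chkRec R_24865415232 = true := by decide +kernel

noncomputable def R_24865419264 : Rec := ⟨nat_lit 24865419264, nat_lit 179,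
  [⟨V6_24798302208, [(nat_lit 66, nat_lit 24865419264), (nat_lit 92, nat_lit 25939156992), (nat_lit 125, nat_lit 25922383872), (nat_lit 5, nat_lit 27012894720), (nat_lit 22, nat_lit 26996121600), (nat_lit 69, nat_lit 26979348480), (nat_lit 19, nat_lit 28069859328), (nat_lit 124, nat_lit 28053086208), (nat_lit 66, nat_lit 28036313088), (nat_lit 66, nat_lit 29126823936), (nat_lit 122, nat_lit 29110050816), (nat_lit 78, nat_lit 29093277696), (nat_lit 17, nat_lit 30183788544), (nat_lit 50, nat_lit 30167015424), (nat_lit 54, nat_lit 31240753152)]⟩,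
   ⟨V6_20570443776, [(nat_lit 112, nat_lit 24865419264), (nat_lit 119, nat_lit 25939156992), (nat_lit 54, nat_lit 27012894720)]⟩,
   ⟨V6_19496706048, [(nat_lit 76, nat_lit 24865419264), (nat_lit 70, nat_lit 25939156992)]⟩],
  [W_24814813184, W_24814297088, W_24798298112, W_24797782016, W_23790878720, W_23757332480, W_23741333504, W_23740817408, W_23724044288, W_21577084928, W_20569923584, W_20569665536, W_20553150464, W_20536893440, W_19496185856]⟩
theorem C_24865419264 : chkRec R_24865419264 = true := by decide +kernel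

noncomputable def R_24865673280 : Rec := ⟨nat_lit 24865673280, nat_lit 74,
  [⟨V6_22667857920, [(nat_lit 115, nat_lit 24865673280), (nat_lit 8, nat_lit 25939415040), (nat_lit 82, nat_lit 25922637888), (nat_lit 16, nat_lit 26996379648), (nat_lit 37, nat_lit 26979602496), (nat_lit 100, nat_lit 28053344256), (nat_lit 72, nat_lit 28036567104), (nat_lit 68, nat_lit 29110308864)]⟩,
   ⟨V6_19496964096, [(nat_lit 52, nat_lit 24865673280), (nat_lit 16, nat_lit 25939415040)]⟩,
   ⟨V6_18423222336, [(nat_lit 13, nat_lit 24865673280)]⟩],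
  [W_24831070208, W_24814555136, W_24814293056, W_23773843520, W_23757590528, W_23757328448, W_23741075456, W_23740813376, W_22667595776, W_22667333696, W_20520374336]⟩
theorem C_24865673280 : chkRec R_24865673280 = true := by decide +kernel

noncomputable def R_24865677312 : Rec := ⟨nat_lit 24865677312, nat_lit 174,
  [⟨V6_23741595648, [(nat_lit 106, nat_lit 24865677312), (nat_lit 24, nat_lit 25939415040), (nat_lit 96, nat_lit 25922641920), (nat_lit 55, nat_lit 27013152768), (nat_lit 86, nat_lit 26996379648), (nat_lit 109, nat_lit 26979606528), (nat_lit 51, nat_lit 28070117376), (nat_lit 120, nat_lit 28053344256), (nat_lit 100, nat_lit 28036571136), (nat_lit 99, nat_lit 29127081984), (nat_lit 74, nat_lit 29110308864), (nat_lit 33, nat_lit 30184046592)]⟩,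
   ⟨V6_20570443776, [(nat_lit 89, nat_lit 24865677312), (nat_lit 110, nat_lit 25939415040), (nat_lit 75, nat_lit 25939156992), (nat_lit 3, nat_lit 27012894720)]⟩,
   ⟨V6_19496706048, [(nat_lit 97, nat_lit 24865677312), (nat_lit 74, nat_lit 25939156992)]⟩],
  [W_24864358400, W_24847843328, W_24831070208, W_24830812160, W_24814813184, W_24814555136, W_24814297088, W_23790620672, W_23773847552, W_23757848576, W_23757332480, W_23741333504, W_23741075456, W_23740817408, W_22716882944, W_22667853824, W_22667595776, W_22667337728, W_21610889216, W_21594116096]⟩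
theorem C_24865677312 : chkRec R_24865677312 = true := by decide +kernel

noncomputable def R_24865935360 : Rec := ⟨nat_lit 24865935360, nat_lit 108,
  [⟨V6_21610893312, [(nat_lit 26, nat_lit 24865935360), (nat_lit 45, nat_lit 25939415040), (nat_lit 31, nat_lit 25922899968), (nat_lit 28, nat_lit 26996379648), (nat_lit 54, nat_lit 26979864576), (nat_lit 106, nat_lit 28053344256)]⟩,
   ⟨V6_20554186752, [(nat_lit 6, nat_lit 24865935360), (nat_lit 40, nat_lit 25939673088), (nat_lit 88, nat_lit 25922899968), (nat_lit 13, nat_lit 26996637696)]⟩,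
   ⟨V6_19496964096, [(nat_lit 123, nat_lit 24865935360), (nat_lit 45, nat_lit 25939415040)]⟩,
   ⟨V6_18423484416, [(nat_lit 27, nat_lit 24865935360)]⟩],
  [W_24864358400, W_24864100352, W_24831070208, W_23790878720, W_23790620672, W_23757848576, W_22684368896, W_21610889216, W_20537409536, W_19480444928]⟩
theorem C_24865935360 : chkRec R_24865935360 = true := by decide +kernel

noncomputable def R_24866193408 : Rec := ⟨nat_lit 24866193408, nat_lit 38,
  [⟨V6_22717661184, [(nat_lit 47, nat_lit 24866193408), (nat_lit 17, nat_lit 25939673088), (nat_lit 74, nat_lit 27013152768), (nat_lit 81, nat_lit 28086632448), (nat_lit 32, nat_lit 29160112128)]⟩,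
   ⟨V6_18423742464, [(nat_lit 107, nat_lit 24866193408)]⟩],
  [W_24864358400, W_24847843328, W_23790878720, W_17350000640]⟩
theorem C_24866193408 : chkRec R_24866193408 = true := by decide +kernel

noncomputable def R_24881143938 : Rec := ⟨nat_lit 24881143938, nat_lit 3,
  [⟨V6_23723516034, [(nat_lit 89, nat_lit 24881143938), (nat_lit 54, nat_lit 25938108546), (nat_lit 8, nat_lit 26995073154), (nat_lit 120, nat_lit 28052037762), (nat_lit 89, nat_lit 29109002370), (nat_lit 114, nat_lit 30165966978)]⟩,
   ⟨V6_20552622210, [(nat_lit 119, nat_lit 24881143938), (nat_lit 101, nat_lit 25938108546), (nat_lit 51, nat_lit 26995073154)]⟩],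
  [W_20569399424]⟩
theorem C_24881143938 : chkRec R_24881143938 = true := by decide +kernel

noncomputable def R_24881406081 : Rec := ⟨nat_lit 24881406081, nat_lit 14,
  [⟨V6_23723778177, [(nat_lit 20, nat_lit 24881406081), (nat_lit 5, nat_lit 25938370689), (nat_lit 76, nat_lit 26995335297), (nat_lit 124, nat_lit 28052299905), (nat_lit 20, nat_lit 29109264513), (nat_lit 67, nat_lit 30166229121)]⟩,
   ⟨V6_22700105793, [(nat_lit 85, nat_lit 24881406081), (nat_lit 76, nat_lit 25955147841), (nat_lit 98, nat_lit 25954885761), (nat_lit 23, nat_lit 25938370689), (nat_lit 118, nat_lit 27028627521), (nat_lit 79, nat_lit 27012112449), (nat_lit 106, nat_lit 27011850369), (nat_lit 88, nat_lit 26995335297), (nat_lit 99, nat_lit 28085592129), (nat_lit 39, nat_lit 28069077057), (nat_lit 119, nat_lit 28068814977), (nat_lit 9, nat_lit 29142556737)]⟩,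
   ⟨V6_21643141185, [(nat_lit 24, nat_lit 24881406081), (nat_lit 69, nat_lit 25955147841), (nat_lit 117, nat_lit 25954885761), (nat_lit 60, nat_lit 25938370689), (nat_lit 51, nat_lit 27028627521), (nat_lit 92, nat_lit 27012112449), (nat_lit 62, nat_lit 27011850369), (nat_lit 126, nat_lit 28085592129)]⟩,
   ⟨V6_20569661505, [(nat_lit 25, nat_lit 24881406081), (nat_lit 34, nat_lit 25955147841), (nat_lit 3, nat_lit 25938370689), (nat_lit 118, nat_lit 27012112449)]⟩],
  [W_24797519936, W_23757070400, W_19512696896]⟩
theorem C_24881406081 : chkRec R_24881406081 = true := by decide +kernel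

noncomputable def R_24881410113 : Rec := ⟨nat_lit 24881410113, nat_lit 8,
  [⟨V6_21643399233, [(nat_lit 91, nat_lit 24881410113), (nat_lit 54, nat_lit 25955147841), (nat_lit 49, nat_lit 25938374721), (nat_lit 111, nat_lit 27028885569), (nat_lit 72, nat_lit 27012112449), (nat_lit 18, nat_lit 28085850177)]⟩,
   ⟨V6_19495923777, [(nat_lit 57, nat_lit 24881410113), (nat_lit 40, nat_lit 25938374721)]⟩],
  [W_24814293056, W_24797519936, W_23740555328, W_22666817600]⟩
theorem C_24881410113 : chkRec R_24881410113 = true := by decide +kernel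

noncomputable def R_24881410176 : Rec := ⟨nat_lit 24881410176, nat_lit 21,
  [⟨V6_22700371968, [(nat_lit 44, nat_lit 24881410176), (nat_lit 124, nat_lit 25955151936), (nat_lit 4, nat_lit 25938374784), (nat_lit 63, nat_lit 27028893696), (nat_lit 113, nat_lit 27012116544), (nat_lit 72, nat_lit 26995339392), (nat_lit 10, nat_lit 28085858304), (nat_lit 38, nat_lit 28069081152), (nat_lit 46, nat_lit 29142822912)]⟩,
   ⟨V6_21643407360, [(nat_lit 86, nat_lit 24881410176), (nat_lit 75, nat_lit 25955151936), (nat_lit 13, nat_lit 25938374784), (nat_lit 91, nat_lit 27028893696), (nat_lit 9, nat_lit 27012116544), (nat_lit 4, nat_lit 28085858304)]⟩],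
  [W_24797519936, W_23723778176, W_20586438656, W_19495919744, W_18438955136]⟩
theorem C_24881410176 : chkRec R_24881410176 = true := by decide +kernel

noncomputable def R_24881668161 : Rec := ⟨nat_lit 24881668161, nat_lit 26,
  [⟨V6_21643399233, [(nat_lit 56, nat_lit 24881668161), (nat_lit 50, nat_lit 25955405889), (nat_lit 62, nat_lit 25955147841), (nat_lit 101, nat_lit 25938632769), (nat_lit 43, nat_lit 27028885569), (nat_lit 76, nat_lit 27012370497), (nat_lit 56, nat_lit 27012112449), (nat_lit 21, nat_lit 28085850177)]⟩,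
   ⟨V6_21643141185, [(nat_lit 3, nat_lit 24881668161), (nat_lit 39, nat_lit 25955147841), (nat_lit 20, nat_lit 25938632769), (nat_lit 109, nat_lit 27028627521), (nat_lit 121, nat_lit 27012112449), (nat_lit 58, nat_lit 28085592129)]⟩,
   ⟨V6_21626884161, [(nat_lit 5, nat_lit 24881668161), (nat_lit 82, nat_lit 25955405889), (nat_lit 12, nat_lit 25938632769), (nat_lit 107, nat_lit 27012370497), (nat_lit 112, nat_lit 26995597377), (nat_lit 74, nat_lit 28069335105)]⟩,
   ⟨V6_19512954945, [(nat_lit 15, nat_lit 24881668161), (nat_lit 14, nat_lit 25955405889)]⟩,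
   ⟨V6_18439217217, [(nat_lit 22, nat_lit 24881668161)]⟩],
  [W_24814293056, W_24797519936, W_24781004864, W_23773843520, W_23757070400, W_23740813376, W_23740555328, W_23724040256, W_22683590720]⟩
theorem C_24881668161 : chkRec R_24881668161 = true := by decide +kernel

noncomputable def R_24881668224 : Rec := ⟨nat_lit 24881668224, nat_lit 69,
  [⟨V6_23790624768, [(nat_lit 61, nat_lit 24881668224), (nat_lit 7, nat_lit 25955409984), (nat_lit 94, nat_lit 25955147904), (nat_lit 19, nat_lit 25938632832), (nat_lit 21, nat_lit 27029151744), (nat_lit 63, nat_lit 27028889664), (nat_lit 26, nat_lit 27028627584), (nat_lit 80, nat_lit 27012374592), (nat_lit 54, nat_lit 27012112512), (nat_lit 54, nat_lit 28102631424), (nat_lit 126, nat_lit 28102369344), (nat_lit 60, nat_lit 28086116352), (nat_lit 42, nat_lit 28085854272), (nat_lit 21, nat_lit 28085592192), (nat_lit 39, nat_lit 29176111104), (nat_lit 9, nat_lit 29159596032), (nat_lit 66, nat_lit 29159333952), (nat_lit 55, nat_lit 30233075712)]⟩,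
   ⟨V6_20586700800, [(nat_lit 62, nat_lit 24881668224), (nat_lit 105, nat_lit 25955409984), (nat_lit 56, nat_lit 27029151744)]⟩],
  [W_24830812160, W_24814297088, W_24797782016, W_24781004864, W_24764227712, W_23773847552, W_23757332480, W_23757070400, W_23740817408, W_23740293248, W_23724040256, W_23723778176, W_23707263104, W_22683328640, W_22650298496, W_18438955136]⟩
theorem C_24881668224 : chkRec R_24881668224 = true := by decide +kernel

noncomputable def R_24881672256 : Rec := ⟨nat_lit 24881672256, nat_lit 102,
  [⟨V6_20569927680, [(nat_lit 24, nat_lit 24881672256), (nat_lit 8, nat_lit 25955414016), (nat_lit 42, nat_lit 25938636864), (nat_lit 67, nat_lit 27012378624)]⟩,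
   ⟨V6_19512963072, [(nat_lit 26, nat_lit 24881672256), (nat_lit 8, nat_lit 25955414016)]⟩],
  [W_24814293056, W_24797777984, W_24797519936, W_24781008896, W_24781004864, W_23774105600, W_23757590528, W_23757332480, W_23740817408, W_23740813376, W_23740555328, W_23724044288, W_23707267136, W_22700367872, W_22683852800]⟩
theorem C_24881672256 : chkRec R_24881672256 = true := by decide +kernel

noncomputable def R_24881676288 : Rec := ⟨nat_lit 24881676288, nat_lit 75,
  [⟨V6_22667083776, [(nat_lit 50, nat_lit 24881676288), (nat_lit 115, nat_lit 25938640896), (nat_lit 116, nat_lit 26995605504), (nat_lit 43, nat_lit 28052570112), (nat_lit 92, nat_lit 29109534720)]⟩,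
   ⟨V6_19496189952, [(nat_lit 6, nat_lit 24881676288), (nat_lit 51, nat_lit 25938640896)]⟩,
   ⟨V6_18439225344, [(nat_lit 3, nat_lit 24881676288)]⟩],
  [W_23774363648, W_23757590528, W_21660434432, W_20586696704]⟩
theorem C_24881676288 : chkRec R_24881676288 = true := by decide +kernel

noncomputable def R_24881926209 : Rec := ⟨nat_lit 24881926209, nat_lit 14,
  [⟨V6_24781262913, [(nat_lit 58, nat_lit 24881926209), (nat_lit 76, nat_lit 25938890817), (nat_lit 119, nat_lit 26995855425), (nat_lit 10, nat_lit 28052820033), (nat_lit 105, nat_lit 29109784641), (nat_lit 45, nat_lit 30166749249), (nat_lit 33, nat_lit 31223713857)]⟩,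
   ⟨V6_19512954945, [(nat_lit 9, nat_lit 24881926209), (nat_lit 48, nat_lit 25955405889)]⟩,
   ⟨V6_18439475265, [(nat_lit 78, nat_lit 24881926209)]⟩],
  [W_24830808128, W_24814293056, W_24797777984, W_23773843520, W_23740813376, W_22733393984, W_22667333696]⟩
theorem C_24881926209 : chkRec R_24881926209 = true := by decide +kernel

noncomputable def R_24881930304 : Rec := ⟨nat_lit 24881930304, nat_lit 147,
  [⟨V6_21660176448, [(nat_lit 91, nat_lit 24881930304), (nat_lit 71, nat_lit 25955668032), (nat_lit 91, nat_lit 25955409984), (nat_lit 8, nat_lit 27029147712), (nat_lit 112, nat_lit 27028889664), (nat_lit 99, nat_lit 28102627392)]⟩,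
   ⟨V6_20586700800, [(nat_lit 118, nat_lit 24881930304), (nat_lit 119, nat_lit 25955672064), (nat_lit 8, nat_lit 25955409984), (nat_lit 69, nat_lit 27029151744)]⟩,
   ⟨V6_19513221120, [(nat_lit 102, nat_lit 24881930304), (nat_lit 90, nat_lit 25955672064)]⟩],
  [W_24831070208, W_24830812160, W_24814555136, W_24814297088, W_24814293056, W_24798040064, W_24797782016, W_24797777984, W_24797519936, W_24781262912, W_24781004864, W_23757332480, W_23757070400, W_23741075456, W_23740817408, W_23724302336, W_23707525184, W_22716882944, W_22700367872, W_22683852800, W_21659918336]⟩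
theorem C_24881930304 : chkRec R_24881930304 = true := by decide +kernel

noncomputable def R_24881934336 : Rec := ⟨nat_lit 24881934336, nat_lit 154,
  [⟨V6_20586700800, [(nat_lit 103, nat_lit 24881934336), (nat_lit 55, nat_lit 25955672064), (nat_lit 103, nat_lit 25955414016), (nat_lit 46, nat_lit 27029151744)]⟩,
   ⟨V6_19513221120, [(nat_lit 63, nat_lit 24881934336), (nat_lit 48, nat_lit 25955672064)]⟩,
   ⟨V6_19512963072, [(nat_lit 14, nat_lit 24881934336), (nat_lit 117, nat_lit 25955414016)]⟩],
  [W_24831328256, W_24831070208, W_24814555136, W_24814297088, W_24798040064, W_24797782016, W_24781008896, W_23790878720, W_23774363648, W_23757848576, W_23757332480, W_23741075456, W_23740817408, W_23740559360, W_23724302336, W_22733914112, W_22683594752, W_21660434432, W_19512700928]⟩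
theorem C_24881934336 : chkRec R_24881934336 = true := by decide +kernel

noncomputable def R_24882188352 : Rec := ⟨nat_lit 24882188352, nat_lit 85,
  [⟨V6_24880877568, [(nat_lit 64, nat_lit 24882188352), (nat_lit 102, nat_lit 25955930112), (nat_lit 88, nat_lit 25955668032), (nat_lit 38, nat_lit 27029409792), (nat_lit 2, nat_lit 27029147712), (nat_lit 22, nat_lit 28102889472), (nat_lit 97, nat_lit 28102627392), (nat_lit 69, nat_lit 29176369152), (nat_lit 98, nat_lit 29176107072), (nat_lit 83, nat_lit 30249848832), (nat_lit 6, nat_lit 30249586752), (nat_lit 19, nat_lit 31323328512)]⟩,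
   ⟨V6_24798302208, [(nat_lit 73, nat_lit 24882188352), (nat_lit 32, nat_lit 25955930112), (nat_lit 16, nat_lit 25939152960), (nat_lit 87, nat_lit 27012894720), (nat_lit 89, nat_lit 26996117568), (nat_lit 93, nat_lit 28069859328), (nat_lit 10, nat_lit 28053082176), (nat_lit 43, nat_lit 29126823936), (nat_lit 77, nat_lit 29110046784), (nat_lit 24, nat_lit 30183788544), (nat_lit 103, nat_lit 30167011392), (nat_lit 33, nat_lit 31240753152)]⟩,
   ⟨V6_22667595840, [(nat_lit 38, nat_lit 24882188352), (nat_lit 62, nat_lit 25939152960), (nat_lit 78, nat_lit 26996117568), (nat_lit 53, nat_lit 28053082176), (nat_lit 75, nat_lit 29110046784)]⟩,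
   ⟨V6_19513479168, [(nat_lit 123, nat_lit 24882188352), (nat_lit 116, nat_lit 25955930112)]⟩],
  [W_24864100352, W_24847585280, W_24831070208, W_24830808128, W_24814293056, W_24797777984, W_23807135744, W_23790620672, W_23773843520, W_23757328448, W_23740813376, W_22733393984, W_22667595776, W_21659914304, W_20586696704]⟩
theorem C_24882188352 : chkRec R_24882188352 = true := by decide +kernel

noncomputable def R_24882192384 : Rec := ⟨nat_lit 24882192384, nat_lit 204,
  [⟨V6_24798302208, [(nat_lit 113, nat_lit 24882192384), (nat_lit 96, nat_lit 25955930112), (nat_lit 94, nat_lit 25939156992), (nat_lit 54, nat_lit 27012894720), (nat_lit 83, nat_lit 26996121600), (nat_lit 15, nat_lit 28069859328), (nat_lit 67, nat_lit 28053086208), (nat_lit 7, nat_lit 29126823936), (nat_lit 99, nat_lit 29110050816), (nat_lit 56, nat_lit 30183788544), (nat_lit 102, nat_lit 30167015424), (nat_lit 14, nat_lit 31240753152)]⟩,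
   ⟨V6_19513221120, [(nat_lit 75, nat_lit 24882192384), (nat_lit 11, nat_lit 25955672064)]⟩,
   ⟨V6_19496706048, [(nat_lit 75, nat_lit 24882192384), (nat_lit 66, nat_lit 25939156992)]⟩,
   ⟨V6_18439741440, [(nat_lit 79, nat_lit 24882192384)]⟩],
  [W_24864358400, W_24847585280, W_24830812160, W_24814813184, W_24814297088, W_24798298112, W_24797782016, W_23807393792, W_23790878720, W_23790620672, W_23773847552, W_23741333504, W_23724560384, W_22733914112, W_22733656064, W_22716882944, W_22650822656, W_21660434432, W_21659918336, W_20586438656]⟩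
theorem C_24882192384 : chkRec R_24882192384 = true := by decide +kernel

noncomputable def R_24882450432 : Rec := ⟨nat_lit 24882450432, nat_lit 143,
  [⟨V6_23741595648, [(nat_lit 32, nat_lit 24882450432), (nat_lit 78, nat_lit 25956188160), (nat_lit 117, nat_lit 25939415040), (nat_lit 114, nat_lit 27013152768), (nat_lit 95, nat_lit 26996379648), (nat_lit 124, nat_lit 28070117376), (nat_lit 29, nat_lit 28053344256), (nat_lit 9, nat_lit 29127081984), (nat_lit 29, nat_lit 29110308864), (nat_lit 125, nat_lit 30184046592)]⟩,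
   ⟨V6_22667857920, [(nat_lit 87, nat_lit 24882450432), (nat_lit 35, nat_lit 25939415040), (nat_lit 85, nat_lit 26996379648), (nat_lit 118, nat_lit 28053344256), (nat_lit 28, nat_lit 29110308864)]⟩,
   ⟨V6_19513479168, [(nat_lit 69, nat_lit 24882450432), (nat_lit 33, nat_lit 25955930112)]⟩,
   ⟨V6_19496964096, [(nat_lit 68, nat_lit 24882450432), (nat_lit 70, nat_lit 25939415040)]⟩],
  [W_24864358400, W_24864100352, W_24847843328, W_24831070208, W_24814813184, W_24814555136, W_23790878720, W_23790620672, W_23757848576, W_23741333504, W_23741075456, W_22733656064, W_22667853824, W_22667595776, W_21610889216, W_21594116096]⟩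
theorem C_24882450432 : chkRec R_24882450432 = true := by decide +kernel

noncomputable def R_24882708480 : Rec := ⟨nat_lit 24882708480, nat_lit 69,
  [⟨V6_22717661184, [(nat_lit 122, nat_lit 24882708480), (nat_lit 57, nat_lit 25956188160), (nat_lit 118, nat_lit 25939673088), (nat_lit 114, nat_lit 27029667840), (nat_lit 18, nat_lit 27013152768), (nat_lit 26, nat_lit 28103147520), (nat_lit 101, nat_lit 28086632448), (nat_lit 68, nat_lit 29160112128)]⟩,
   ⟨V6_21611151360, [(nat_lit 68, nat_lit 24882708480), (nat_lit 72, nat_lit 25939673088), (nat_lit 125, nat_lit 26996637696), (nat_lit 64, nat_lit 28053602304)]⟩,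
   ⟨V6_20554186752, [(nat_lit 74, nat_lit 24882708480), (nat_lit 50, nat_lit 25939673088), (nat_lit 68, nat_lit 26996637696)]⟩],
  [W_24864358400, W_24847843328, W_23790878720, W_23774363648, W_21610889216, W_20537409536]⟩
theorem C_24882708480 : chkRec R_24882708480 = true := by decide +kernel

noncomputable def R_24897921153 : Rec := ⟨nat_lit 24897921153, nat_lit 8,
  [⟨V6_24814035072, [(nat_lit 108, nat_lit 24897921153), (nat_lit 112, nat_lit 25971662976), (nat_lit 74, nat_lit 25954885761), (nat_lit 3, nat_lit 27028627584), (nat_lit 29, nat_lit 27011850369), (nat_lit 121, nat_lit 28085592192), (nat_lit 21, nat_lit 28068814977), (nat_lit 23, nat_lit 29142556800), (nat_lit 32, nat_lit 29125779585), (nat_lit 7, nat_lit 30199521408), (nat_lit 10, nat_lit 30182744193), (nat_lit 113, nat_lit 31256486016)]⟩,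
   ⟨V6_22700105793, [(nat_lit 63, nat_lit 24897921153), (nat_lit 18, nat_lit 25971662913), (nat_lit 5, nat_lit 25954885761), (nat_lit 82, nat_lit 27028627521), (nat_lit 60, nat_lit 27011850369), (nat_lit 93, nat_lit 28085592129), (nat_lit 98, nat_lit 28068814977), (nat_lit 54, nat_lit 29142556737)]⟩],
  [W_19529211968, W_19512434816, W_18455470208]⟩
theorem C_24897921153 : chkRec R_24897921153 = true := by decide +kernel

noncomputable def R_24898183233 : Rec := ⟨nat_lit 24898183233, nat_lit 15,
  [⟨V6_20603211840, [(nat_lit 57, nat_lit 24898183233), (nat_lit 123, nat_lit 25971925056), (nat_lit 117, nat_lit 25971920961), (nat_lit 81, nat_lit 27045662784)]⟩,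
   ⟨V6_20569661505, [(nat_lit 74, nat_lit 24898183233), (nat_lit 75, nat_lit 25955147841), (nat_lit 53, nat_lit 27012112449)]⟩],
  [W_24814293056, W_24814035008, W_23757070400, W_23740555328, W_22683590720]⟩
theorem C_24898183233 : chkRec R_24898183233 = true := by decide +kernel

noncomputable def R_24898183296 : Rec := ⟨nat_lit 24898183296, nat_lit 40,
  [⟨V6_21676695552, [(nat_lit 119, nat_lit 24898183296), (nat_lit 123, nat_lit 25971925056), (nat_lit 92, nat_lit 25971662976), (nat_lit 93, nat_lit 27045666816), (nat_lit 20, nat_lit 27045404736), (nat_lit 12, nat_lit 28119146496)]⟩,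
   ⟨V6_18455732352, [(nat_lit 125, nat_lit 24898183296)]⟩],
  [W_24830812160, W_24814297088, W_24814035008, W_24797519936, W_24797257856, W_23757332480, W_23757070400, W_23740293248, W_23723778176, W_22683328640, W_17381990528]⟩
theorem C_24898183296 : chkRec R_24898183296 = true := by decide +kernel

noncomputable def R_24898187328 : Rec := ⟨nat_lit 24898187328, nat_lit 38,
  [⟨V6_21660176448, [(nat_lit 61, nat_lit 24898187328), (nat_lit 100, nat_lit 25971925056), (nat_lit 54, nat_lit 25955151936), (nat_lit 25, nat_lit 27045662784), (nat_lit 108, nat_lit 27028889664), (nat_lit 116, nat_lit 28102627392)]⟩,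
   ⟨V6_21643407360, [(nat_lit 106, nat_lit 24898187328), (nat_lit 100, nat_lit 25971929088), (nat_lit 80, nat_lit 25955151936), (nat_lit 35, nat_lit 27028893696), (nat_lit 106, nat_lit 27012116544), (nat_lit 87, nat_lit 28085858304)]⟩,
   ⟨V6_20603211840, [(nat_lit 116, nat_lit 24898187328), (nat_lit 28, nat_lit 25971925056), (nat_lit 65, nat_lit 27045662784)]⟩],
  [W_24831070208, W_24814297088, W_24814293056, W_24797519936, W_23757332480, W_23740559360, W_22700367872]⟩
theorem C_24898187328 : chkRec R_24898187328 = true := by decide +kernel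

noncomputable def R_24898441281 : Rec := ⟨nat_lit 24898441281, nat_lit 9,
  [⟨V6_20569919553, [(nat_lit 48, nat_lit 24898441281), (nat_lit 107, nat_lit 25955405889), (nat_lit 79, nat_lit 27012370497)]⟩,
   ⟨V6_19512954945, [(nat_lit 115, nat_lit 24898441281), (nat_lit 26, nat_lit 25955405889)]⟩],
  [W_24830808128, W_24814293056, W_23773843520, W_23740813376, W_22733393984]⟩
theorem C_24898441281 : chkRec R_24898441281 = true := by decide +kernel

noncomputable def R_24898445376 : Rec := ⟨nat_lit 24898445376, nat_lit 120,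
  [⟨V6_21676695552, [(nat_lit 108, nat_lit 24898445376), (nat_lit 21, nat_lit 25972187136), (nat_lit 35, nat_lit 25971925056), (nat_lit 9, nat_lit 27045666816), (nat_lit 111, nat_lit 27045404736), (nat_lit 111, nat_lit 28119146496)]⟩,
   ⟨V6_20586700800, [(nat_lit 115, nat_lit 24898445376), (nat_lit 126, nat_lit 25972187136), (nat_lit 107, nat_lit 25955409984), (nat_lit 45, nat_lit 27029151744)]⟩,
   ⟨V6_19529732160, [(nat_lit 85, nat_lit 24898445376), (nat_lit 37, nat_lit 25972183104)]⟩],
  [W_24831070208, W_24814555136, W_24814297088, W_24814293056, W_24797782016, W_24797777984, W_24797519936, W_24781004864, W_23773847552, W_23773843520, W_23757332480, W_23757070400, W_23740817408, W_23740813376, W_23740555328, W_22733656064, W_22716882944, W_22683590720, W_19529211968]⟩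
theorem C_24898445376 : chkRec R_24898445376 = true := by decide +kernel

noncomputable def R_24898449408 : Rec := ⟨nat_lit 24898449408, nat_lit 117,
  [⟨V6_22683856896, [(nat_lit 35, nat_lit 24898449408), (nat_lit 117, nat_lit 25955414016), (nat_lit 39, nat_lit 27012378624), (nat_lit 30, nat_lit 28069343232), (nat_lit 109, nat_lit 29126307840)]⟩,
   ⟨V6_19512963072, [(nat_lit 45, nat_lit 24898449408), (nat_lit 93, nat_lit 25955414016)]⟩,
   ⟨V6_18455998464, [(nat_lit 39, nat_lit 24898449408)]⟩],
  [W_24831070208, W_24814297088, W_24797782016, W_24781008896, W_23790878720, W_23774363648, W_22733914112, W_21676949504, W_21660434432, W_19529474048]⟩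
theorem C_24898449408 : chkRec R_24898449408 = true := by decide +kernel

noncomputable def R_24898703424 : Rec := ⟨nat_lit 24898703424, nat_lit 76,
  [⟨V6_23790620736, [(nat_lit 122, nat_lit 24898703424), (nat_lit 51, nat_lit 25972183104), (nat_lit 102, nat_lit 25955668032), (nat_lit 64, nat_lit 27045662784), (nat_lit 126, nat_lit 27029147712), (nat_lit 49, nat_lit 27012632640), (nat_lit 107, nat_lit 28119142464), (nat_lit 57, nat_lit 28102627392), (nat_lit 80, nat_lit 28086112320), (nat_lit 33, nat_lit 29176107072), (nat_lit 115, nat_lit 29159592000), (nat_lit 6, nat_lit 30233071680)]⟩,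
   ⟨V6_21660176448, [(nat_lit 119, nat_lit 24898703424), (nat_lit 96, nat_lit 25972183104), (nat_lit 46, nat_lit 25955668032), (nat_lit 69, nat_lit 27045662784), (nat_lit 44, nat_lit 27029147712), (nat_lit 60, nat_lit 28102627392)]⟩,
   ⟨V6_19529732160, [(nat_lit 45, nat_lit 24898703424), (nat_lit 113, nat_lit 25972183104)]⟩,
   ⟨V6_18456252480, [(nat_lit 79, nat_lit 24898703424)]⟩],
  [W_24847585280, W_24831070208, W_24814555136, W_24798040064, W_24797777984, W_24781262912, W_23757590528, W_23741075456, W_22733656064, W_22684110848, W_22667333696]⟩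
theorem C_24898703424 : chkRec R_24898703424 = true := by decide +kernel

noncomputable def R_24898707456 : Rec := ⟨nat_lit 24898707456, nat_lit 183,
  [⟨V6_21676695552, [(nat_lit 106, nat_lit 24898707456), (nat_lit 51, nat_lit 25972187136), (nat_lit 16, nat_lit 27045666816), (nat_lit 14, nat_lit 28119146496)]⟩,
   ⟨V6_20603473920, [(nat_lit 68, nat_lit 24898707456), (nat_lit 10, nat_lit 25972445184), (nat_lit 32, nat_lit 25972187136), (nat_lit 10, nat_lit 27045924864)]⟩,
   ⟨V6_19513221120, [(nat_lit 85, nat_lit 24898707456), (nat_lit 91, nat_lit 25955672064)]⟩,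
   ⟨V6_18456256512, [(nat_lit 68, nat_lit 24898707456)]⟩],
  [W_24830812160, W_24814555136, W_24814297088, W_24798040064, W_24797782016, W_23790878720, W_23790620672, W_23774363648, W_23773847552, W_23757848576, W_23757332480, W_23741075456, W_23740817408, W_23724302336, W_22750429184, W_22733914112, W_22667337728]⟩
theorem C_24898707456 : chkRec R_24898707456 = true := by decide +kernel

noncomputable def R_24898965504 : Rec := ⟨nat_lit 24898965504, nat_lit 159,
  [⟨V6_23741337600, [(nat_lit 21, nat_lit 24898965504), (nat_lit 87, nat_lit 25955930112), (nat_lit 123, nat_lit 27012894720), (nat_lit 122, nat_lit 28069859328), (nat_lit 26, nat_lit 29126823936), (nat_lit 100, nat_lit 30183788544)]⟩,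
   ⟨V6_20603473920, [(nat_lit 17, nat_lit 24898965504), (nat_lit 38, nat_lit 25972445184), (nat_lit 46, nat_lit 27045924864)]⟩,
   ⟨V6_19513479168, [(nat_lit 60, nat_lit 24898965504), (nat_lit 124, nat_lit 25955930112)]⟩,
   ⟨V6_18456514560, [(nat_lit 55, nat_lit 24898965504)]⟩],
  [W_24880873472, W_24864358400, W_24864100352, W_24814813184, W_24798298112, W_23823908864, W_23807135744, W_23790878720, W_23790620672, W_23741333504, W_22750429184, W_22750171136, W_21676949504, W_20586696704, W_19529732096]⟩
theorem C_24898965504 : chkRec R_24898965504 = true := by decide +kernel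

noncomputable def R_24899223552 : Rec := ⟨nat_lit 24899223552, nat_lit 86,
  [⟨V6_24831590400, [(nat_lit 61, nat_lit 24899223552), (nat_lit 35, nat_lit 25972703232), (nat_lit 110, nat_lit 25956188160), (nat_lit 104, nat_lit 27046182912), (nat_lit 67, nat_lit 27029667840), (nat_lit 103, nat_lit 27013152768), (nat_lit 72, nat_lit 28103147520), (nat_lit 106, nat_lit 28086632448), (nat_lit 124, nat_lit 28070117376), (nat_lit 31, nat_lit 29160112128), (nat_lit 48, nat_lit 29143597056), (nat_lit 23, nat_lit 29127081984), (nat_lit 29, nat_lit 30217076736), (nat_lit 94, nat_lit 30200561664), (nat_lit 38, nat_lit 31274041344)]⟩,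
   ⟨V6_22717661184, [(nat_lit 82, nat_lit 24899223552), (nat_lit 104, nat_lit 25972703232), (nat_lit 63, nat_lit 25956188160), (nat_lit 41, nat_lit 27046182912), (nat_lit 89, nat_lit 27029667840), (nat_lit 86, nat_lit 27013152768), (nat_lit 68, nat_lit 28103147520), (nat_lit 35, nat_lit 28086632448), (nat_lit 96, nat_lit 29160112128)]⟩,
   ⟨V6_18456772608, [(nat_lit 50, nat_lit 24899223552)]⟩],
  [W_24864358400, W_23790878720, W_23741333504, W_21676949504, W_21610889216, W_18456510464]⟩
theorem C_24899223552 : chkRec R_24899223552 = true := by decide +kernel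

noncomputable def R_24914698305 : Rec := ⟨nat_lit 24914698305, nat_lit 7,
  [⟨V6_24814035009, [(nat_lit 76, nat_lit 24914698305), (nat_lit 90, nat_lit 25971662913), (nat_lit 17, nat_lit 27028627521), (nat_lit 112, nat_lit 28085592129), (nat_lit 74, nat_lit 29142556737), (nat_lit 4, nat_lit 30199521345), (nat_lit 94, nat_lit 31256485953)]⟩,
   ⟨V6_22700105793, [(nat_lit 73, nat_lit 24914698305), (nat_lit 35, nat_lit 25971662913), (nat_lit 28, nat_lit 27028627521), (nat_lit 70, nat_lit 28085592129), (nat_lit 113, nat_lit 29142556737)]⟩,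
   ⟨V6_21643141185, [(nat_lit 3, nat_lit 24914698305), (nat_lit 121, nat_lit 25971662913), (nat_lit 53, nat_lit 27028627521), (nat_lit 66, nat_lit 28085592129)]⟩,
   ⟨V6_19545985089, [(nat_lit 5, nat_lit 24914698305), (nat_lit 47, nat_lit 25988436033)]⟩],
  [W_24830808128, W_21659914304, W_19545985088]⟩
theorem C_24914698305 : chkRec R_24914698305 = true := by decide +kernel

noncomputable def R_24914698368 : Rec := ⟨nat_lit 24914698368, nat_lit 20,
  [⟨V6_21676695552, [(nat_lit 28, nat_lit 24914698368), (nat_lit 83, nat_lit 25988440128), (nat_lit 21, nat_lit 25971662976), (nat_lit 20, nat_lit 27062181888), (nat_lit 2, nat_lit 27045404736), (nat_lit 53, nat_lit 28119146496)]⟩],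
  [W_24830812160, W_24814035008, W_24797257856, W_23757070400, W_23740293248, W_20569399424]⟩
theorem C_24914698368 : chkRec R_24914698368 = true := by decide +kernel

noncomputable def R_24914956353 : Rec := ⟨nat_lit 24914956353, nat_lit 5,
  [⟨V6_21643399233, [(nat_lit 85, nat_lit 24914956353), (nat_lit 84, nat_lit 25971920961), (nat_lit 20, nat_lit 27028885569), (nat_lit 92, nat_lit 28085850177)]⟩,
   ⟨V6_19545985089, [(nat_lit 15, nat_lit 24914956353), (nat_lit 11, nat_lit 25988436033)]⟩,
   ⟨V6_18472505409, [(nat_lit 70, nat_lit 24914956353)]⟩],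
  [W_24814293056, W_23773843520, W_20619464768]⟩
theorem C_24914956353 : chkRec R_24914956353 = true := by decide +kernel

noncomputable def R_24914960448 : Rec := ⟨nat_lit 24914960448, nat_lit 68,
  [⟨V6_21693468672, [(nat_lit 47, nat_lit 24914960448), (nat_lit 82, nat_lit 25988702208), (nat_lit 25, nat_lit 25988698176), (nat_lit 19, nat_lit 25988440128), (nat_lit 114, nat_lit 27062439936), (nat_lit 113, nat_lit 27062181888), (nat_lit 45, nat_lit 27062177856), (nat_lit 36, nat_lit 28135919616)]⟩,
   ⟨V6_21676695552, [(nat_lit 79, nat_lit 24914960448), (nat_lit 102, nat_lit 25988702208), (nat_lit 30, nat_lit 25988440128), (nat_lit 28, nat_lit 25971925056), (nat_lit 59, nat_lit 27062181888), (nat_lit 97, nat_lit 27045666816), (nat_lit 112, nat_lit 27045404736), (nat_lit 126, nat_lit 28119146496)]⟩,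
   ⟨V6_20603211840, [(nat_lit 104, nat_lit 24914960448), (nat_lit 101, nat_lit 25988698176), (nat_lit 104, nat_lit 25971925056), (nat_lit 57, nat_lit 27045662784)]⟩,
   ⟨V6_19546247232, [(nat_lit 8, nat_lit 24914960448), (nat_lit 126, nat_lit 25988698176)]⟩],
  [W_24831070208, W_24830812160, W_24814297088, W_24814293056, W_23773847552, W_23757332480, W_23757070400, W_23740555328, W_22700367872, W_22683590720]⟩
theorem C_24914960448 : chkRec R_24914960448 = true := by decide +kernel

noncomputable def R_24914964480 : Rec := ⟨nat_lit 24914964480, nat_lit 46,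
  [⟨V6_22700371968, [(nat_lit 59, nat_lit 24914964480), (nat_lit 77, nat_lit 25971929088), (nat_lit 87, nat_lit 27028893696), (nat_lit 27, nat_lit 28085858304), (nat_lit 20, nat_lit 29142822912)]⟩,
   ⟨V6_21693726720, [(nat_lit 94, nat_lit 24914964480), (nat_lit 19, nat_lit 25988702208), (nat_lit 45, nat_lit 27062439936), (nat_lit 85, nat_lit 28136177664)]⟩,
   ⟨V6_21643407360, [(nat_lit 79, nat_lit 24914964480), (nat_lit 96, nat_lit 25971929088), (nat_lit 41, nat_lit 27028893696), (nat_lit 87, nat_lit 28085858304)]⟩],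
  [W_24847843328, W_24814297088, W_23790878720, W_19546247168, W_17398771712]⟩
theorem C_24914964480 : chkRec R_24914964480 = true := by decide +kernel

noncomputable def R_24915218496 : Rec := ⟨nat_lit 24915218496, nat_lit 60,
  [⟨V6_20603473920, [(nat_lit 40, nat_lit 24915218496), (nat_lit 37, nat_lit 25988960256), (nat_lit 88, nat_lit 25972183104), (nat_lit 88, nat_lit 27045924864)]⟩,
   ⟨V6_19546247232, [(nat_lit 27, nat_lit 24915218496), (nat_lit 15, nat_lit 25988698176)]⟩],
  [W_24847585280, W_24831070208, W_24814555136, W_24814293056, W_24797777984, W_23790620672, W_23740813376, W_22717140992, W_22683848768]⟩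
theorem C_24915218496 : chkRec R_24915218496 = true := by decide +kernel

noncomputable def R_24915222528 : Rec := ⟨nat_lit 24915222528, nat_lit 143,
  [⟨V6_21676695552, [(nat_lit 15, nat_lit 24915222528), (nat_lit 1, nat_lit 25988702208), (nat_lit 115, nat_lit 25972187136), (nat_lit 95, nat_lit 27062181888), (nat_lit 21, nat_lit 27045666816), (nat_lit 59, nat_lit 28119146496)]⟩,
   ⟨V6_20603473920, [(nat_lit 112, nat_lit 24915222528), (nat_lit 99, nat_lit 25988960256), (nat_lit 112, nat_lit 25972187136), (nat_lit 120, nat_lit 27045924864)]⟩,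
   ⟨V6_20586700800, [(nat_lit 98, nat_lit 24915222528), (nat_lit 55, nat_lit 25972187136), (nat_lit 71, nat_lit 27029151744)]⟩],
  [W_24864358400, W_24847843328, W_24831070208, W_24814297088, W_24797782016, W_23807393792, W_23790878720, W_23740817408, W_21693464576, W_21676949504, W_20619984896, W_18472509440]⟩
theorem C_24915222528 : chkRec R_24915222528 = true := by decide +kernel

noncomputable def R_24915480576 : Rec := ⟨nat_lit 24915480576, nat_lit 136,
  [⟨V6_24880877568, [(nat_lit 74, nat_lit 24915480576), (nat_lit 110, nat_lit 25988960256), (nat_lit 11, nat_lit 25972445184), (nat_lit 1, nat_lit 27062439936), (nat_lit 94, nat_lit 27045924864), (nat_lit 51, nat_lit 27029409792), (nat_lit 5, nat_lit 28135919616), (nat_lit 119, nat_lit 28119404544), (nat_lit 26, nat_lit 28102889472), (nat_lit 98, nat_lit 29209399296), (nat_lit 2, nat_lit 29192884224), (nat_lit 11, nat_lit 29176369152), (nat_lit 48, nat_lit 30266363904), (nat_lit 96, nat_lit 30249848832), (nat_lit 88, nat_lit 31323328512)]⟩,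
   ⟨V6_22766948352, [(nat_lit 95, nat_lit 24915480576), (nat_lit 19, nat_lit 25988960256), (nat_lit 36, nat_lit 27062439936), (nat_lit 73, nat_lit 28135919616), (nat_lit 115, nat_lit 29209399296)]⟩,
   ⟨V6_21693726720, [(nat_lit 25, nat_lit 24915480576), (nat_lit 85, nat_lit 25989218304), (nat_lit 24, nat_lit 25988960256), (nat_lit 85, nat_lit 27062697984), (nat_lit 57, nat_lit 27062439936), (nat_lit 46, nat_lit 28136177664)]⟩,
   ⟨V6_21693468672, [(nat_lit 108, nat_lit 24915480576), (nat_lit 28, nat_lit 25988960256), (nat_lit 81, nat_lit 27062439936), (nat_lit 55, nat_lit 28135919616)]⟩,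
   ⟨V6_20620247040, [(nat_lit 69, nat_lit 24915480576), (nat_lit 100, nat_lit 25989218304), (nat_lit 24, nat_lit 25988960256), (nat_lit 62, nat_lit 27062697984)]⟩,
   ⟨V6_20603473920, [(nat_lit 93, nat_lit 24915480576), (nat_lit 62, nat_lit 25988960256), (nat_lit 102, nat_lit 25972445184), (nat_lit 126, nat_lit 27045924864)]⟩],
  [W_24880873472, W_24814813184, W_24814555136, W_24798040064, W_23757848576, W_23741075456, W_20586696704, W_19546247168, W_19529732096, W_18472767488]⟩
theorem C_24915480576 : chkRec R_24915480576 = true := by decide +kernel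

noncomputable def R_24915738624 : Rec := ⟨nat_lit 24915738624, nat_lit 88,
  [⟨V6_24897650688, [(nat_lit 71, nat_lit 24915738624), (nat_lit 74, nat_lit 25989218304), (nat_lit 94, nat_lit 25972703232), (nat_lit 81, nat_lit 27062697984), (nat_lit 97, nat_lit 27046182912), (nat_lit 73, nat_lit 28136177664), (nat_lit 124, nat_lit 28119662592), (nat_lit 29, nat_lit 29209657344), (nat_lit 11, nat_lit 29193142272), (nat_lit 107, nat_lit 30283137024), (nat_lit 3, nat_lit 30266621952), (nat_lit 104, nat_lit 31340101632)]⟩,
   ⟨V6_22717661184, [(nat_lit 63, nat_lit 24915738624), (nat_lit 34, nat_lit 25989218304), (nat_lit 35, nat_lit 25972703232), (nat_lit 94, nat_lit 27046182912), (nat_lit 106, nat_lit 27029667840), (nat_lit 98, nat_lit 28103147520), (nat_lit 17, nat_lit 28086632448), (nat_lit 20, nat_lit 29160112128)]⟩,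
   ⟨V6_21693726720, [(nat_lit 63, nat_lit 24915738624), (nat_lit 52, nat_lit 25989218304), (nat_lit 97, nat_lit 27062697984), (nat_lit 89, nat_lit 28136177664)]⟩,
   ⟨V6_20620247040, [(nat_lit 14, nat_lit 24915738624), (nat_lit 106, nat_lit 25989218304), (nat_lit 8, nat_lit 27062697984)]⟩],
  [W_24864358400, W_24798298112, W_23790878720, W_23757848576, W_23741333504, W_21676949504, W_20619984896]⟩
theorem C_24915738624 : chkRec R_24915738624 = true := by decide +kernel

noncomputable def R_24931471425 : Rec := ⟨nat_lit 24931471425, nat_lit 2,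
  [⟨V6_23807135808, [(nat_lit 24, nat_lit 24931471425), (nat_lit 46, nat_lit 26005213248), (nat_lit 57, nat_lit 26004951105), (nat_lit 72, nat_lit 25988436033), (nat_lit 125, nat_lit 27078692928), (nat_lit 30, nat_lit 27062177856), (nat_lit 11, nat_lit 27061915713), (nat_lit 50, nat_lit 27045400641), (nat_lit 19, nat_lit 28135657536), (nat_lit 84, nat_lit 28119142464), (nat_lit 37, nat_lit 28118880321), (nat_lit 65, nat_lit 28102365249), (nat_lit 47, nat_lit 29192622144), (nat_lit 70, nat_lit 29176107072), (nat_lit 63, nat_lit 29175844929), (nat_lit 88, nat_lit 30249586752)]⟩,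
   ⟨V6_19545985089, [(nat_lit 119, nat_lit 24931471425), (nat_lit 96, nat_lit 25988436033)]⟩],
  [W_23773843520]⟩
theorem C_24931471425 : chkRec R_24931471425 = true := by decide +kernel

noncomputable def R_24931475520 : Rec := ⟨nat_lit 24931475520, nat_lit 31,
  [⟨V6_21676695552, [(nat_lit 20, nat_lit 24931475520), (nat_lit 58, nat_lit 26005217280), (nat_lit 48, nat_lit 25988440128), (nat_lit 126, nat_lit 27062181888), (nat_lit 93, nat_lit 27045404736), (nat_lit 82, nat_lit 28119146496)]⟩,
   ⟨V6_19562766336, [(nat_lit 27, nat_lit 24931475520), (nat_lit 106, nat_lit 26005217280)]⟩],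
  [W_24847585280, W_24830812160, W_24830808128, W_24814035008, W_23790620672, W_23757070400]⟩
theorem C_24931475520 : chkRec R_24931475520 = true := by decide +kernel

noncomputable def R_24931733568 : Rec := ⟨nat_lit 24931733568, nat_lit 34,
  [⟨V6_23774105664, [(nat_lit 117, nat_lit 24931733568), (nat_lit 64, nat_lit 25988698176), (nat_lit 105, nat_lit 27045662784), (nat_lit 87, nat_lit 28102627392), (nat_lit 126, nat_lit 29159592000), (nat_lit 95, nat_lit 30216556608)]⟩,
   ⟨V6_20603211840, [(nat_lit 43, nat_lit 24931733568), (nat_lit 57, nat_lit 25988698176), (nat_lit 31, nat_lit 27045662784)]⟩,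
   ⟨V6_19546247232, [(nat_lit 45, nat_lit 24931733568), (nat_lit 95, nat_lit 25988698176)]⟩],
  [W_24864100352, W_24847585280, W_24831070208, W_24814293056, W_23790620672, W_22733393984, W_21693206528, W_20619464768]⟩
theorem C_24931733568 : chkRec R_24931733568 = true := by decide +kernel

noncomputable def R_24931737600 : Rec := ⟨nat_lit 24931737600, nat_lit 82,
  [⟨V6_24847589376, [(nat_lit 69, nat_lit 24931737600), (nat_lit 25, nat_lit 26005217280), (nat_lit 47, nat_lit 25988702208), (nat_lit 87, nat_lit 27062181888), (nat_lit 33, nat_lit 27045666816), (nat_lit 123, nat_lit 28119146496), (nat_lit 72, nat_lit 28102631424), (nat_lit 79, nat_lit 29176111104), (nat_lit 108, nat_lit 29159596032), (nat_lit 16, nat_lit 30233075712), (nat_lit 84, nat_lit 30216560640), (nat_lit 44, nat_lit 31290040320)]⟩,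
   ⟨V6_23790624768, [(nat_lit 13, nat_lit 24931737600), (nat_lit 97, nat_lit 26005217280), (nat_lit 104, nat_lit 25988702208), (nat_lit 126, nat_lit 27062181888), (nat_lit 66, nat_lit 27045666816), (nat_lit 49, nat_lit 28119146496), (nat_lit 88, nat_lit 28102631424), (nat_lit 63, nat_lit 29176111104), (nat_lit 100, nat_lit 29159596032), (nat_lit 88, nat_lit 30233075712)]⟩,
   ⟨V6_21693726720, [(nat_lit 125, nat_lit 24931737600), (nat_lit 59, nat_lit 26005475328), (nat_lit 13, nat_lit 25988702208), (nat_lit 77, nat_lit 27079213056), (nat_lit 4, nat_lit 27062439936), (nat_lit 90, nat_lit 28136177664)]⟩,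
   ⟨V6_21676695552, [(nat_lit 102, nat_lit 24931737600), (nat_lit 112, nat_lit 26005217280), (nat_lit 21, nat_lit 25988702208), (nat_lit 88, nat_lit 27062181888), (nat_lit 27, nat_lit 27045666816), (nat_lit 27, nat_lit 28119146496)]⟩],
  [W_24847843328, W_23790878720, W_19563020288, W_19546247168, W_18489282560, W_18489024512, W_17415544832]⟩
theorem C_24931737600 : chkRec R_24931737600 = true := by decide +kernel

noncomputable def R_24931995648 : Rec := ⟨nat_lit 24931995648, nat_lit 107,
  [⟨V6_21693726720, [(nat_lit 100, nat_lit 24931995648), (nat_lit 58, nat_lit 26005733376), (nat_lit 97, nat_lit 26005475328), (nat_lit 54, nat_lit 25988960256), (nat_lit 17, nat_lit 27079213056), (nat_lit 108, nat_lit 27062697984), (nat_lit 124, nat_lit 27062439936), (nat_lit 19, nat_lit 28136177664)]⟩,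
   ⟨V6_21693468672, [(nat_lit 53, nat_lit 24931995648), (nat_lit 66, nat_lit 26005475328), (nat_lit 63, nat_lit 25988960256), (nat_lit 4, nat_lit 27078955008), (nat_lit 96, nat_lit 27062439936), (nat_lit 87, nat_lit 28135919616)]⟩,
   ⟨V6_20620247040, [(nat_lit 58, nat_lit 24931995648), (nat_lit 95, nat_lit 26005733376), (nat_lit 54, nat_lit 25988960256), (nat_lit 22, nat_lit 27062697984)]⟩,
   ⟨V6_20603473920, [(nat_lit 15, nat_lit 24931995648), (nat_lit 76, nat_lit 25988960256), (nat_lit 126, nat_lit 27045924864)]⟩],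
  [W_24880873472, W_24864358400, W_24847843328, W_24831328256, W_24831070208, W_24814555136, W_23807135744, W_23790878720, W_22766944256, W_19563020288, W_18489282560]⟩
theorem C_24931995648 : chkRec R_24931995648 = true := by decide +kernel

noncomputable def R_24932253696 : Rec := ⟨nat_lit 24932253696, nat_lit 77,
  [⟨V6_24831590400, [(nat_lit 1, nat_lit 24932253696), (nat_lit 110, nat_lit 25989218304), (nat_lit 76, nat_lit 27046182912), (nat_lit 53, nat_lit 28103147520), (nat_lit 47, nat_lit 29160112128), (nat_lit 123, nat_lit 30217076736), (nat_lit 80, nat_lit 31274041344)]⟩,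
   ⟨V6_22717661184, [(nat_lit 31, nat_lit 24932253696), (nat_lit 83, nat_lit 25989218304), (nat_lit 113, nat_lit 27046182912), (nat_lit 43, nat_lit 28103147520), (nat_lit 80, nat_lit 29160112128)]⟩,
   ⟨V6_20620247040, [(nat_lit 7, nat_lit 24932253696), (nat_lit 46, nat_lit 26005733376), (nat_lit 72, nat_lit 25989218304), (nat_lit 26, nat_lit 27062697984)]⟩],
  [W_24864358400, W_23840423936, W_21709979648, W_21676949504, W_20619984896, W_19563020288, W_17416060928]⟩
theorem C_24932253696 : chkRec R_24932253696 = true := by decide +kernel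

noncomputable def R_24948248640 : Rec := ⟨nat_lit 24948248640, nat_lit 16,
  [⟨V6_21693468672, [(nat_lit 27, nat_lit 24948248640), (nat_lit 32, nat_lit 26021990400), (nat_lit 15, nat_lit 26005213248), (nat_lit 10, nat_lit 27078955008), (nat_lit 9, nat_lit 27062177856), (nat_lit 12, nat_lit 28135919616)]⟩],
  [W_24847585280, W_24830808128, W_23807135744, W_23773843520, W_22733393984, W_17432055872]⟩
theorem C_24948248640 : chkRec R_24948248640 = true := by decide +kernel

noncomputable def R_24948252672 : Rec := ⟨nat_lit 24948252672, nat_lit 37,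
  [⟨V6_24847589376, [(nat_lit 22, nat_lit 24948252672), (nat_lit 59, nat_lit 26005217280), (nat_lit 16, nat_lit 27062181888), (nat_lit 51, nat_lit 28119146496), (nat_lit 121, nat_lit 29176111104), (nat_lit 24, nat_lit 30233075712), (nat_lit 64, nat_lit 31290040320)]⟩,
   ⟨V6_21676695552, [(nat_lit 62, nat_lit 24948252672), (nat_lit 117, nat_lit 26005217280), (nat_lit 41, nat_lit 27062181888), (nat_lit 5, nat_lit 28119146496)]⟩,
   ⟨V6_19562766336, [(nat_lit 107, nat_lit 24948252672), (nat_lit 8, nat_lit 26005217280)]⟩],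
  [W_24864358400, W_22750429184, W_20636499968, W_19579535360]⟩
theorem C_24948252672 : chkRec R_24948252672 = true := by decide +kernel

noncomputable def R_24948510720 : Rec := ⟨nat_lit 24948510720, nat_lit 65,
  [⟨V6_24864362496, [(nat_lit 100, nat_lit 24948510720), (nat_lit 4, nat_lit 26021990400), (nat_lit 82, nat_lit 26005475328), (nat_lit 44, nat_lit 27078955008), (nat_lit 54, nat_lit 27062439936), (nat_lit 109, nat_lit 28135919616), (nat_lit 73, nat_lit 28119404544), (nat_lit 88, nat_lit 29192884224), (nat_lit 45, nat_lit 29176369152), (nat_lit 20, nat_lit 30249848832), (nat_lit 27, nat_lit 30233333760), (nat_lit 82, nat_lit 31306813440)]⟩,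
   ⟨V6_21726756864, [(nat_lit 22, nat_lit 24948510720), (nat_lit 98, nat_lit 26022248448), (nat_lit 27, nat_lit 26021990400), (nat_lit 105, nat_lit 27095728128), (nat_lit 126, nat_lit 27095470080), (nat_lit 103, nat_lit 28169207808)]⟩,
   ⟨V6_21693726720, [(nat_lit 126, nat_lit 24948510720), (nat_lit 85, nat_lit 26022248448), (nat_lit 87, nat_lit 26005475328), (nat_lit 69, nat_lit 27079213056), (nat_lit 79, nat_lit 27062439936), (nat_lit 14, nat_lit 28136177664)]⟩,
   ⟨V6_21693468672, [(nat_lit 71, nat_lit 24948510720), (nat_lit 71, nat_lit 26021990400), (nat_lit 88, nat_lit 26005475328), (nat_lit 22, nat_lit 27078955008), (nat_lit 12, nat_lit 27062439936), (nat_lit 27, nat_lit 28135919616)]⟩],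
  [W_24880873472, W_24847843328, W_23790878720, W_20653015040, W_19563020288, W_18489282560, W_17432317952]⟩
theorem C_24948510720 : chkRec R_24948510720 = true := by decide +kernel

noncomputable def R_24948768768 : Rec := ⟨nat_lit 24948768768, nat_lit 59,
  [⟨V6_22800236544, [(nat_lit 89, nat_lit 24948768768), (nat_lit 62, nat_lit 26022248448), (nat_lit 13, nat_lit 27095728128), (nat_lit 3, nat_lit 28169207808), (nat_lit 73, nat_lit 29242687488)]⟩,
   ⟨V6_21726756864, [(nat_lit 118, nat_lit 24948768768), (nat_lit 126, nat_lit 26022248448), (nat_lit 45, nat_lit 27095728128), (nat_lit 51, nat_lit 28169207808)]⟩,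
   ⟨V6_21693726720, [(nat_lit 3, nat_lit 24948768768), (nat_lit 73, nat_lit 26022248448), (nat_lit 85, nat_lit 26005733376), (nat_lit 73, nat_lit 27079213056), (nat_lit 87, nat_lit 27062697984), (nat_lit 57, nat_lit 28136177664)]⟩,
   ⟨V6_20620247040, [(nat_lit 25, nat_lit 24948768768), (nat_lit 102, nat_lit 26005733376), (nat_lit 53, nat_lit 27062697984)]⟩],
  [W_24864358400, W_24847843328, W_24831328256, W_23774363648, W_17432576000]⟩
theorem C_24948768768 : chkRec R_24948768768 = true := by decide +kernel

noncomputable def R_24964763712 : Rec := ⟨nat_lit 24964763712, nat_lit 2,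
  [⟨V6_23807135808, [(nat_lit 33, nat_lit 24964763712), (nat_lit 41, nat_lit 26021728320), (nat_lit 36, nat_lit 27078692928), (nat_lit 86, nat_lit 28135657536), (nat_lit 70, nat_lit 29192622144), (nat_lit 37, nat_lit 30249586752)]⟩,
   ⟨V6_19579277376, [(nat_lit 70, nat_lit 24964763712), (nat_lit 19, nat_lit 26021728320)]⟩],
  [W_24864100352]⟩
theorem C_24964763712 : chkRec R_24964763712 = true := by decide +kernel

noncomputable def R_24965025792 : Rec := ⟨nat_lit 24965025792, nat_lit 34,
  [⟨V6_24864362496, [(nat_lit 90, nat_lit 24965025792), (nat_lit 28, nat_lit 26021990400), (nat_lit 64, nat_lit 27078955008), (nat_lit 111, nat_lit 28135919616), (nat_lit 11, nat_lit 29192884224), (nat_lit 78, nat_lit 30249848832), (nat_lit 124, nat_lit 31306813440)]⟩,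
   ⟨V6_19596312576, [(nat_lit 62, nat_lit 24965025792), (nat_lit 50, nat_lit 26038763520)]⟩,
   ⟨V6_18522574848, [(nat_lit 81, nat_lit 24965025792)]⟩],
  [W_24880873472, W_24864358400, W_22766944256, W_21709979648, W_20653015040, W_17448833024]⟩
theorem C_24965025792 : chkRec R_24965025792 = true := by decide +kernel

noncomputable def R_24965283840 : Rec := ⟨nat_lit 24965283840, nat_lit 39,
  [⟨V6_21693726720, [(nat_lit 36, nat_lit 24965283840), (nat_lit 67, nat_lit 26022248448), (nat_lit 36, nat_lit 27079213056), (nat_lit 27, nat_lit 28136177664)]⟩,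
   ⟨V6_19596312576, [(nat_lit 78, nat_lit 24965283840), (nat_lit 108, nat_lit 26038763520)]⟩,
   ⟨V6_18522832896, [(nat_lit 4, nat_lit 24965283840)]⟩],
  [W_24864358400, W_24847843328, W_23840423936, W_23823908864, W_17449091072]⟩
theorem C_24965283840 : chkRec R_24965283840 = true := by decide +kernel

noncomputable def R_24981540864 : Rec := ⟨nat_lit 24981540864, nat_lit 9,
  [⟨V6_24880877568, [(nat_lit 11, nat_lit 24981540864), (nat_lit 101, nat_lit 26038505472), (nat_lit 86, nat_lit 27095470080), (nat_lit 100, nat_lit 28152434688), (nat_lit 105, nat_lit 29209399296), (nat_lit 25, nat_lit 30266363904), (nat_lit 45, nat_lit 31323328512)]⟩,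
   ⟨V6_19612827648, [(nat_lit 10, nat_lit 24981540864), (nat_lit 90, nat_lit 26055278592)]⟩,
   ⟨V6_18539089920, [(nat_lit 16, nat_lit 24981540864)]⟩],
  [W_21709979648, W_20653015040]⟩
theorem C_24981540864 : chkRec R_24981540864 = true := by decide +kernel

noncomputable def R_24981798912 : Rec := ⟨nat_lit 24981798912, nat_lit 23,
  [⟨V6_24881135616, [(nat_lit 71, nat_lit 24981798912), (nat_lit 40, nat_lit 26038763520), (nat_lit 24, nat_lit 27095728128), (nat_lit 22, nat_lit 28152692736), (nat_lit 112, nat_lit 29209657344), (nat_lit 69, nat_lit 30266621952), (nat_lit 48, nat_lit 31323586560)]⟩,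
   ⟨V6_19596312576, [(nat_lit 22, nat_lit 24981798912), (nat_lit 58, nat_lit 26038763520)]⟩],
  [W_23840423936, W_21726494720, W_20636499968, W_19612565504, W_18522570752]⟩
theorem C_24981798912 : chkRec R_24981798912 = true := by decide +kernel

noncomputable def R_24998313984 : Rec := ⟨nat_lit 24998313984, nat_lit 10,
  [⟨V6_21726756864, [(nat_lit 81, nat_lit 24998313984), (nat_lit 41, nat_lit 26055278592), (nat_lit 43, nat_lit 27112243200), (nat_lit 72, nat_lit 28169207808)]⟩,
   ⟨V6_19629342720, [(nat_lit 95, nat_lit 24998313984), (nat_lit 4, nat_lit 26071793664)]⟩,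
   ⟨V6_19612827648, [(nat_lit 25, nat_lit 24998313984), (nat_lit 69, nat_lit 26055278592)]⟩],
  [W_24880873472, W_23840423936]⟩
theorem C_24998313984 : chkRec R_24998313984 = true := by decide +kernel

noncomputable def R_25014829056 : Rec := ⟨nat_lit 25014829056, nat_lit 2,
  [⟨V6_22800236544, [(nat_lit 81, nat_lit 25014829056), (nat_lit 92, nat_lit 26071793664), (nat_lit 30, nat_lit 27128758272), (nat_lit 51, nat_lit 28185722880), (nat_lit 55, nat_lit 29242687488)]⟩],
  [W_20669530112]⟩
theorem C_25014829056 : chkRec R_25014829056 = true := by decide +kernel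

noncomputable def R_25837977858 : Rec := ⟨nat_lit 25837977858, nat_lit 1,
  [⟨V6_19395526914, [(nat_lit 61, nat_lit 25837977858)]⟩],
  [W_22616752256]⟩
theorem C_25837977858 : chkRec R_25837977858 = true := by decide +kernel

noncomputable def R_25854755073 : Rec := ⟨nat_lit 25854755073, nat_lit 1,
  [⟨V6_19412304129, [(nat_lit 96, nat_lit 25854755073)]⟩],
  [W_23690494016]⟩
theorem C_25854755073 : chkRec R_25854755073 = true := by decide +kernel

noncomputable def R_25855017153 : Rec := ⟨nat_lit 25855017153, nat_lit 1,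
  [⟨V6_21559787649, [(nat_lit 2, nat_lit 25855017153), (nat_lit 11, nat_lit 26928758913), (nat_lit 76, nat_lit 26928496833), (nat_lit 31, nat_lit 28002238593)]⟩],
  [W_22633787456]⟩
theorem C_25855017153 : chkRec R_25855017153 = true := by decide +kernel

noncomputable def R_25871532162 : Rec := ⟨nat_lit 25871532162, nat_lit 3,
  [⟨V6_21576556674, [(nat_lit 23, nat_lit 25871532162), (nat_lit 80, nat_lit 26945269890), (nat_lit 95, nat_lit 28019007618)]⟩],
  [W_22616752256, W_20502823040]⟩
theorem C_25871532162 : chkRec R_25871532162 = true := by decide +kernel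

noncomputable def R_25871532225 : Rec := ⟨nat_lit 25871532225, nat_lit 2,
  [⟨V6_21559787649, [(nat_lit 76, nat_lit 25871532225), (nat_lit 27, nat_lit 26945273985), (nat_lit 124, nat_lit 26928496833), (nat_lit 90, nat_lit 28002238593)]⟩],
  [W_23690494016, W_22616752256]⟩
theorem C_25871532225 : chkRec R_25871532225 = true := by decide +kernel

noncomputable def R_25871532288 : Rec := ⟨nat_lit 25871532288, nat_lit 6,
  [⟨V6_19429081344, [(nat_lit 60, nat_lit 25871532288)]⟩],
  [W_24764235776, W_22650306560]⟩
theorem C_25871532288 : chkRec R_25871532288 = true := by decide +kernel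

noncomputable def R_25871790210 : Rec := ⟨nat_lit 25871790210, nat_lit 1,
  [⟨V6_20502818946, [(nat_lit 80, nat_lit 25871790210), (nat_lit 115, nat_lit 26945269890)]⟩],
  [W_23723778176]⟩
theorem C_25871790210 : chkRec R_25871790210 = true := by decide +kernel

noncomputable def R_25871790273 : Rec := ⟨nat_lit 25871790273, nat_lit 1,
  [⟨V6_22633525377, [(nat_lit 97, nat_lit 25871790273), (nat_lit 116, nat_lit 26945532033), (nat_lit 24, nat_lit 26945269953), (nat_lit 42, nat_lit 26928754881), (nat_lit 6, nat_lit 28019011713), (nat_lit 26, nat_lit 28002496641), (nat_lit 6, nat_lit 28002234561), (nat_lit 85, nat_lit 29075976321)]⟩],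
  [W_22633787456]⟩
theorem C_25871790273 : chkRec R_25871790273 = true := by decide +kernel

noncomputable def R_25871794305 : Rec := ⟨nat_lit 25871794305, nat_lit 6,
  [⟨V6_21576818817, [(nat_lit 93, nat_lit 25871794305), (nat_lit 75, nat_lit 26945532033), (nat_lit 97, nat_lit 28019269761)]⟩,
   ⟨V6_21559787649, [(nat_lit 99, nat_lit 25871794305), (nat_lit 57, nat_lit 26945273985), (nat_lit 95, nat_lit 26928758913), (nat_lit 105, nat_lit 28002238593)]⟩],
  [W_23724040256, W_23707525184, W_22633787456]⟩
theorem C_25871794305 : chkRec R_25871794305 = true := by decide +kernel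

noncomputable def R_25871794368 : Rec := ⟨nat_lit 25871794368, nat_lit 6,
  [⟨V6_21560049792, [(nat_lit 25, nat_lit 25871794368), (nat_lit 54, nat_lit 26945536128), (nat_lit 121, nat_lit 26928758976), (nat_lit 53, nat_lit 28002500736)]⟩,
   ⟨V6_20502823104, [(nat_lit 93, nat_lit 25871794368), (nat_lit 94, nat_lit 26945274048)]⟩],
  [W_24781008896, W_22650564608, W_22633787456]⟩
theorem C_25871794368 : chkRec R_25871794368 = true := by decide +kernel

noncomputable def R_25871798337 : Rec := ⟨nat_lit 25871798337, nat_lit 2,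
  [⟨V6_19429347393, [(nat_lit 126, nat_lit 25871798337)]⟩],
  [W_24781262912, W_23724298304]⟩
theorem C_25871798337 : chkRec R_25871798337 = true := by decide +kernel

noncomputable def R_25871798400 : Rec := ⟨nat_lit 25871798400, nat_lit 3,
  [⟨V6_19429347456, [(nat_lit 116, nat_lit 25871798400)]⟩],
  [W_23724302336]⟩
theorem C_25871798400 : chkRec R_25871798400 = true := by decide +kernel

noncomputable def R_25872048258 : Rec := ⟨nat_lit 25872048258, nat_lit 4,
  [⟨V6_23723516034, [(nat_lit 83, nat_lit 25872048258), (nat_lit 42, nat_lit 26945527938), (nat_lit 113, nat_lit 28019007618), (nat_lit 21, nat_lit 29092487298), (nat_lit 47, nat_lit 30165966978)]⟩,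
   ⟨V6_21576556674, [(nat_lit 22, nat_lit 25872048258), (nat_lit 33, nat_lit 26945527938), (nat_lit 19, nat_lit 28019007618)]⟩],
  [W_21576818816, W_20503339136]⟩
theorem C_25872048258 : chkRec R_25872048258 = true := by decide +kernel

noncomputable def R_25872052353 : Rec := ⟨nat_lit 25872052353, nat_lit 5,
  [⟨V6_21576818817, [(nat_lit 25, nat_lit 25872052353), (nat_lit 112, nat_lit 26945790081), (nat_lit 79, nat_lit 26945532033), (nat_lit 112, nat_lit 28019269761)]⟩],
  [W_24797519936, W_21577080896]⟩
theorem C_25872052353 : chkRec R_25872052353 = true := by decide +kernel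

noncomputable def R_25872052416 : Rec := ⟨nat_lit 25872052416, nat_lit 3,
  [⟨V6_19429601472, [(nat_lit 61, nat_lit 25872052416)]⟩],
  [W_23724044288]⟩
theorem C_25872052416 : chkRec R_25872052416 = true := by decide +kernel

noncomputable def R_25872056385 : Rec := ⟨nat_lit 25872056385, nat_lit 3,
  [⟨V6_20503343169, [(nat_lit 92, nat_lit 25872056385), (nat_lit 58, nat_lit 26945794113)]⟩,
   ⟨V6_20503085121, [(nat_lit 50, nat_lit 25872056385), (nat_lit 55, nat_lit 26945536065)]⟩],
  [W_23724040256]⟩
theorem C_25872056385 : chkRec R_25872056385 = true := by decide +kernel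

noncomputable def R_25872056448 : Rec := ⟨nat_lit 25872056448, nat_lit 20,
  [⟨V6_21577089024, [(nat_lit 69, nat_lit 25872056448), (nat_lit 71, nat_lit 26945798208), (nat_lit 23, nat_lit 28019539968)]⟩],
  [W_24797782016, W_23724044288, W_23724040256, W_22650298496, W_21576564800]⟩
theorem C_25872056448 : chkRec R_25872056448 = true := by decide +kernel

noncomputable def R_25872060480 : Rec := ⟨nat_lit 25872060480, nat_lit 10,
  [⟨V6_20503351296, [(nat_lit 85, nat_lit 25872060480), (nat_lit 33, nat_lit 26945802240)]⟩,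
   ⟨V6_20503089216, [(nat_lit 65, nat_lit 25872060480), (nat_lit 8, nat_lit 26945540160)]⟩],
  [W_24798040064, W_23724302336]⟩
theorem C_25872060480 : chkRec R_25872060480 = true := by decide +kernel

noncomputable def R_25872064512 : Rec := ⟨nat_lit 25872064512, nat_lit 11,
  [⟨V6_19429613568, [(nat_lit 27, nat_lit 25872064512)]⟩],
  [W_24798298112, W_23724560384, W_18355871744]⟩
theorem C_25872064512 : chkRec R_25872064512 = true := by decide +kernel

noncomputable def R_25888305282 : Rec := ⟨nat_lit 25888305282, nat_lit 2,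
  [⟨V6_23690485890, [(nat_lit 40, nat_lit 25888305282), (nat_lit 84, nat_lit 26962043010), (nat_lit 96, nat_lit 26945269890), (nat_lit 121, nat_lit 28019007618), (nat_lit 24, nat_lit 28002234498), (nat_lit 54, nat_lit 29075972226), (nat_lit 64, nat_lit 29059199106), (nat_lit 52, nat_lit 30132936834)]⟩,
   ⟨V6_20502818946, [(nat_lit 97, nat_lit 25888305282), (nat_lit 74, nat_lit 26945269890)]⟩],
  [W_23723778176, W_22666813568]⟩
theorem C_25888305282 : chkRec R_25888305282 = true := by decide +kernel

end Crest.Agent.R187.SN.Top
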