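import Crest.Agent.R187.SN.Top
import Crest.Agent.R187.SN.TD.X6_9
import Crest.Agent.R187.SN.TD.X6_10
import Crest.Agent.R187.SN.TD.X6_11
import Crest.Agent.R187.SN.TD.X6_12
import Crest.Agent.R187.SN.TD.W7_2
import Crest.Agent.R187.SN.TD.W7_3

/-!
# Row 187, PLAN S, generated certificate data (mod 127): rank records and checks, chunk 17

Written by a C++ program (helper824).  The tables are only data: every property is checked by
the kernel.
-/

set_option autoImplicit false
set_option maxRecDepth 100000
set_option Elab.async false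

namespace Crest.Agent.R187.SN.Top

noncomputable def R_25888305345 : Rec := ⟨nat_lit 25888305345, nat_lit 1,
  [⟨V6_21593075841, [(nat_lit 111, nat_lit 25888305345), (nat_lit 77, nat_lit 26962047105), (nat_lit 94, nat_lit 26961785025), (nat_lit 9, nat_lit 28035526785)]⟩],
  [W_23707267136]⟩
theorem C_25888305345 : chkRec R_25888305345 = true := by decide +kernel

noncomputable def R_25888309377 : Rec := ⟨nat_lit 25888309377, nat_lit 9,
  [⟨V6_22650298497, [(nat_lit 112, nat_lit 25888309377), (nat_lit 20, nat_lit 26962047105), (nat_lit 50, nat_lit 26945273985), (nat_lit 120, nat_lit 28035784833), (nat_lit 114, nat_lit 28019011713), (nat_lit 25, nat_lit 29092749441)]⟩,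
   ⟨V6_21576564801, [(nat_lit 4, nat_lit 25888309377), (nat_lit 63, nat_lit 26962051137), (nat_lit 117, nat_lit 26945273985), (nat_lit 94, nat_lit 28019015745)]⟩,
   ⟨V6_21559787649, [(nat_lit 94, nat_lit 25888309377), (nat_lit 62, nat_lit 26945273985), (nat_lit 72, nat_lit 28002238593)]⟩],
  [W_25837969472, W_24764227712, W_23690494016, W_22667075648]⟩
theorem C_25888309377 : chkRec R_25888309377 = true := by decide +kernel

noncomputable def R_25888309440 : Rec := ⟨nat_lit 25888309440, nat_lit 11,
  [⟨V6_24764235840, [(nat_lit 89, nat_lit 25888309440), (nat_lit 68, nat_lit 26962051200), (nat_lit 113, nat_lit 26945274048), (nat_lit 45, nat_lit 28035792960), (nat_lit 103, nat_lit 28019015808), (nat_lit 93, nat_lit 28002238656), (nat_lit 113, nat_lit 29092757568), (nat_lit 108, nat_lit 29075980416), (nat_lit 20, nat_lit 29059203264), (nat_lit 104, nat_lit 30149722176), (nat_lit 16, nat_lit 30132945024), (nat_lit 86, nat_lit 31206686784)]⟩,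
   ⟨V6_23690494080, [(nat_lit 45, nat_lit 25888309440), (nat_lit 121, nat_lit 26962051200), (nat_lit 41, nat_lit 26945274048), (nat_lit 11, nat_lit 28019015808), (nat_lit 62, nat_lit 28002238656), (nat_lit 98, nat_lit 29075980416), (nat_lit 113, nat_lit 29059203264), (nat_lit 92, nat_lit 30132945024)]⟩,
   ⟨V6_20502823104, [(nat_lit 9, nat_lit 25888309440), (nat_lit 54, nat_lit 26945274048)]⟩],
  [W_23724044288, W_21593341952]⟩
theorem C_25888309440 : chkRec R_25888309440 = true := by decide +kernel

noncomputable def R_25888563330 : Rec := ⟨nat_lit 25888563330, nat_lit 3,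
  [⟨V6_21576556674, [(nat_lit 76, nat_lit 25888563330), (nat_lit 84, nat_lit 26962043010), (nat_lit 10, nat_lit 26945527938), (nat_lit 101, nat_lit 28019007618)]⟩],
  [W_24797257856, W_23740293248]⟩
theorem C_25888563330 : chkRec R_25888563330 = true := by decide +kernel

noncomputable def R_25888567425 : Rec := ⟨nat_lit 25888567425, nat_lit 10,
  [⟨V6_22633525377, [(nat_lit 8, nat_lit 25888567425), (nat_lit 44, nat_lit 26962047105), (nat_lit 50, nat_lit 26945532033), (nat_lit 103, nat_lit 28019011713), (nat_lit 97, nat_lit 28002496641), (nat_lit 70, nat_lit 29075976321)]⟩,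
   ⟨V6_21593075841, [(nat_lit 126, nat_lit 25888567425), (nat_lit 117, nat_lit 26962047105), (nat_lit 26, nat_lit 28035526785)]⟩,
   ⟨V6_21576818817, [(nat_lit 123, nat_lit 25888567425), (nat_lit 45, nat_lit 26962305153), (nat_lit 48, nat_lit 26945532033), (nat_lit 7, nat_lit 28019269761)]⟩,
   ⟨V6_21576560769, [(nat_lit 97, nat_lit 25888567425), (nat_lit 27, nat_lit 26962047105), (nat_lit 103, nat_lit 26945532033), (nat_lit 37, nat_lit 28019011713)]⟩],
  [W_25854484544, W_24797519936, W_23740555328, W_21593595968]⟩
theorem C_25888567425 : chkRec R_25888567425 = true := by decide +kernel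

noncomputable def R_25888567488 : Rec := ⟨nat_lit 25888567488, nat_lit 8,
  [⟨V6_23740821504, [(nat_lit 52, nat_lit 25888567488), (nat_lit 87, nat_lit 26962309248), (nat_lit 8, nat_lit 26962047168), (nat_lit 99, nat_lit 28036051008), (nat_lit 26, nat_lit 28035788928), (nat_lit 14, nat_lit 29109792768), (nat_lit 56, nat_lit 29109530688), (nat_lit 22, nat_lit 30183272448)]⟩],
  [W_24797523968, W_24781008896, W_23707267136, W_22633787456, W_19446116480, W_18372374720]⟩
theorem C_25888567488 : chkRec R_25888567488 = true := by decide +kernel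

noncomputable def R_25888571457 : Rec := ⟨nat_lit 25888571457, nat_lit 11,
  [⟨V6_24781262913, [(nat_lit 20, nat_lit 25888571457), (nat_lit 94, nat_lit 26962309185), (nat_lit 43, nat_lit 26945536065), (nat_lit 5, nat_lit 28036046913), (nat_lit 65, nat_lit 28019273793), (nat_lit 9, nat_lit 28002500673), (nat_lit 31, nat_lit 29109784641), (nat_lit 41, nat_lit 29093011521), (nat_lit 47, nat_lit 29076238401), (nat_lit 60, nat_lit 30166749249), (nat_lit 107, nat_lit 30149976129), (nat_lit 73, nat_lit 31223713857)]⟩,
   ⟨V6_23740813377, [(nat_lit 126, nat_lit 25888571457), (nat_lit 41, nat_lit 26962309185), (nat_lit 57, nat_lit 26962051137), (nat_lit 64, nat_lit 28036046913), (nat_lit 59, nat_lit 28035788865), (nat_lit 64, nat_lit 29109784641), (nat_lit 116, nat_lit 29109526593), (nat_lit 56, nat_lit 30183264321)]⟩,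
   ⟨V6_22667333697, [(nat_lit 5, nat_lit 25888571457), (nat_lit 51, nat_lit 26962309185), (nat_lit 74, nat_lit 28036046913), (nat_lit 41, nat_lit 29109784641)]⟩,
   ⟨V6_22633529409, [(nat_lit 28, nat_lit 25888571457), (nat_lit 27, nat_lit 26962051137), (nat_lit 48, nat_lit 26945536065), (nat_lit 43, nat_lit 28019015745), (nat_lit 22, nat_lit 28002500673), (nat_lit 118, nat_lit 29075980353)]⟩,
   ⟨V6_21576564801, [(nat_lit 56, nat_lit 25888571457), (nat_lit 102, nat_lit 26962051137), (nat_lit 121, nat_lit 26945536065), (nat_lit 41, nat_lit 28019015745)]⟩,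
   ⟨V6_20503085121, [(nat_lit 74, nat_lit 25888571457), (nat_lit 63, nat_lit 26945536065)]⟩],
  [W_25854742592, W_23724040256, W_21593595968]⟩
theorem C_25888571457 : chkRec R_25888571457 = true := by decide +kernel

noncomputable def R_25888571520 : Rec := ⟨nat_lit 25888571520, nat_lit 28,
  [⟨V6_22667083776, [(nat_lit 32, nat_lit 25888571520), (nat_lit 26, nat_lit 26962313280), (nat_lit 28, nat_lit 26962051200), (nat_lit 27, nat_lit 28036055040), (nat_lit 70, nat_lit 28035792960), (nat_lit 65, nat_lit 29109534720)]⟩,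
   ⟨V6_22650568704, [(nat_lit 19, nat_lit 25888571520), (nat_lit 34, nat_lit 26962313280), (nat_lit 13, nat_lit 26945536128), (nat_lit 108, nat_lit 28036055040), (nat_lit 77, nat_lit 28019277888), (nat_lit 110, nat_lit 29093019648)]⟩],
  [W_24797782016, W_23740817408, W_23724040256, W_23707267136, W_22667075648, W_22650298496]⟩
theorem C_25888571520 : chkRec R_25888571520 = true := by decide +kernel

noncomputable def R_25888575552 : Rec := ⟨nat_lit 25888575552, nat_lit 13,
  [⟨V6_20503089216, [(nat_lit 50, nat_lit 25888575552), (nat_lit 46, nat_lit 26945540160)]⟩,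
   ⟨V6_19446124608, [(nat_lit 85, nat_lit 25888575552)]⟩],
  [W_24781266944, W_24781262912, W_23741075456, W_22667333696]⟩
theorem C_25888575552 : chkRec R_25888575552 = true := by decide +kernel

noncomputable def R_25888825473 : Rec := ⟨nat_lit 25888825473, nat_lit 11,
  [⟨V6_21576818817, [(nat_lit 79, nat_lit 25888825473), (nat_lit 109, nat_lit 26962305153), (nat_lit 33, nat_lit 26945790081), (nat_lit 80, nat_lit 28019269761)]⟩,
   ⟨V6_19446374529, [(nat_lit 12, nat_lit 25888825473)]⟩],
  [W_25870999616, W_24814035008, W_24797519936, W_22667075648]⟩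
theorem C_25888825473 : chkRec R_25888825473 = true := by decide +kernel

noncomputable def R_25888829505 : Rec := ⟨nat_lit 25888829505, nat_lit 10,
  [⟨V6_22667595840, [(nat_lit 18, nat_lit 25888829505), (nat_lit 1, nat_lit 26962571328), (nat_lit 13, nat_lit 26962567233), (nat_lit 13, nat_lit 28036309056), (nat_lit 35, nat_lit 28036304961), (nat_lit 87, nat_lit 29110046784)]⟩],
  [W_24797519936, W_23724040256, W_21593337920]⟩
theorem C_25888829505 : chkRec R_25888829505 = true := by decide +kernel

noncomputable def R_25888829568 : Rec := ⟨nat_lit 25888829568, nat_lit 34,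
  [⟨V6_21593862144, [(nat_lit 7, nat_lit 25888829568), (nat_lit 125, nat_lit 26962571328), (nat_lit 87, nat_lit 28036313088)]⟩,
   ⟨V6_21577080960, [(nat_lit 126, nat_lit 25888829568), (nat_lit 43, nat_lit 26962567296), (nat_lit 12, nat_lit 26945794176), (nat_lit 97, nat_lit 28019531904)]⟩],
  [W_25871261696, W_24814297088, W_24797782016, W_24797519936, W_23724044288, W_23724040256, W_22650298496, W_20503339136]⟩
theorem C_25888829568 : chkRec R_25888829568 = true := by decide +kernel

noncomputable def R_25888833600 : Rec := ⟨nat_lit 25888833600, nat_lit 46,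
  [⟨V6_21593862144, [(nat_lit 105, nat_lit 25888833600), (nat_lit 102, nat_lit 26962575360), (nat_lit 35, nat_lit 26962571328), (nat_lit 104, nat_lit 28036313088)]⟩,
   ⟨V6_21577089024, [(nat_lit 7, nat_lit 25888833600), (nat_lit 9, nat_lit 26962575360), (nat_lit 47, nat_lit 26945798208), (nat_lit 41, nat_lit 28019539968)]⟩],
  [W_25871519744, W_24798040064, W_24797782016, W_23740817408, W_23740813376, W_23724298304, W_23724044288, W_22650306560, W_21576564800]⟩
theorem C_25888833600 : chkRec R_25888833600 = true := by decide +kernel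

noncomputable def R_25888837632 : Rec := ⟨nat_lit 25888837632, nat_lit 27,
  [⟨V6_20503351296, [(nat_lit 68, nat_lit 25888837632), (nat_lit 27, nat_lit 26945802240)]⟩,
   ⟨V6_19446386688, [(nat_lit 38, nat_lit 25888837632)]⟩],
  [W_24814813184, W_24798298112, W_23741075456, W_23724302336]⟩
theorem C_25888837632 : chkRec R_25888837632 = true := by decide +kernel

noncomputable def R_25889087553 : Rec := ⟨nat_lit 25889087553, nat_lit 8,
  [⟨V6_20520374337, [(nat_lit 14, nat_lit 25889087553), (nat_lit 126, nat_lit 26962825281)]⟩,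
   ⟨V6_19446636609, [(nat_lit 18, nat_lit 25889087553)]⟩],
  [W_24814035008, W_23740813376, W_23740555328]⟩
theorem C_25889087553 : chkRec R_25889087553 = true := by decide +kernel

noncomputable def R_25889087616 : Rec := ⟨nat_lit 25889087616, nat_lit 12,
  [⟨V6_24814035072, [(nat_lit 72, nat_lit 25889087616), (nat_lit 57, nat_lit 26962567296), (nat_lit 42, nat_lit 28036046976), (nat_lit 8, nat_lit 29109526656), (nat_lit 35, nat_lit 30183006336), (nat_lit 110, nat_lit 31256486016)]⟩,
   ⟨V6_21594120192, [(nat_lit 104, nat_lit 25889087616), (nat_lit 61, nat_lit 26962829376), (nat_lit 77, nat_lit 28036571136)]⟩],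
  [W_25887776768, W_24814297088, W_23740555328]⟩
theorem C_25889087616 : chkRec R_25889087616 = true := by decide +kernel

noncomputable def R_25889091648 : Rec := ⟨nat_lit 25889091648, nat_lit 32,
  [⟨V6_22667857920, [(nat_lit 98, nat_lit 25889091648), (nat_lit 99, nat_lit 26962833408), (nat_lit 4, nat_lit 26962829376), (nat_lit 35, nat_lit 28036571136), (nat_lit 17, nat_lit 28036567104), (nat_lit 29, nat_lit 29110308864)]⟩,
   ⟨V6_21594120192, [(nat_lit 13, nat_lit 25889091648), (nat_lit 8, nat_lit 26962833408), (nat_lit 20, nat_lit 26962829376), (nat_lit 92, nat_lit 28036571136)]⟩,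
   ⟨V6_20520382464, [(nat_lit 24, nat_lit 25889091648), (nat_lit 90, nat_lit 26962833408)]⟩],
  [W_25888034816, W_24814297088, W_24814293056, W_23740817408, W_23740555328, W_22666817600, W_21593337920]⟩
theorem C_25889091648 : chkRec R_25889091648 = true := by decide +kernel

noncomputable def R_25889095680 : Rec := ⟨nat_lit 25889095680, nat_lit 24,
  [⟨V6_22667083776, [(nat_lit 78, nat_lit 25889095680), (nat_lit 16, nat_lit 26962575360), (nat_lit 108, nat_lit 28036055040), (nat_lit 86, nat_lit 29109534720)]⟩,
   ⟨V6_19446644736, [(nat_lit 107, nat_lit 25889095680)]⟩],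
  [W_25888292864, W_24814555136, W_23741075456]⟩
theorem C_25889095680 : chkRec R_25889095680 = true := by decide +kernel

noncomputable def R_25905078402 : Rec := ⟨nat_lit 25905078402, nat_lit 6,
  [⟨V6_22650298497, [(nat_lit 43, nat_lit 25905078402), (nat_lit 83, nat_lit 26978820225), (nat_lit 76, nat_lit 26962043010), (nat_lit 98, nat_lit 28035784833), (nat_lit 9, nat_lit 28019007618), (nat_lit 91, nat_lit 29092749441)]⟩,
   ⟨V6_21576556674, [(nat_lit 65, nat_lit 25905078402), (nat_lit 19, nat_lit 26962043010), (nat_lit 120, nat_lit 28019007618)]⟩],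
  [W_24764227712, W_20536369280]⟩
theorem C_25905078402 : chkRec R_25905078402 = true := by decide +kernel

noncomputable def R_25905082497 : Rec := ⟨nat_lit 25905082497, nat_lit 12,
  [⟨V6_22650298497, [(nat_lit 45, nat_lit 25905082497), (nat_lit 100, nat_lit 26978820225), (nat_lit 47, nat_lit 26962047105), (nat_lit 49, nat_lit 28035784833), (nat_lit 97, nat_lit 28019011713), (nat_lit 57, nat_lit 29092749441)]⟩,
   ⟨V6_22633525377, [(nat_lit 106, nat_lit 25905082497), (nat_lit 49, nat_lit 26962047105), (nat_lit 95, nat_lit 28019011713), (nat_lit 17, nat_lit 29075976321)]⟩,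
   ⟨V6_21593075841, [(nat_lit 95, nat_lit 25905082497), (nat_lit 62, nat_lit 26978562177), (nat_lit 87, nat_lit 26962047105), (nat_lit 4, nat_lit 28035526785)]⟩,
   ⟨V6_21576560769, [(nat_lit 62, nat_lit 25905082497), (nat_lit 108, nat_lit 26962047105), (nat_lit 7, nat_lit 28019011713)]⟩,
   ⟨V6_20536111233, [(nat_lit 99, nat_lit 25905082497), (nat_lit 98, nat_lit 26978562177)]⟩],
  [W_25837969472, W_22683590720, W_22667075648]⟩
theorem C_25905082497 : chkRec R_25905082497 = true := by decide +kernel

noncomputable def R_25905082560 : Rec := ⟨nat_lit 25905082560, nat_lit 6,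
  [⟨V6_24764231808, [(nat_lit 73, nat_lit 25905082560), (nat_lit 64, nat_lit 26978824320), (nat_lit 89, nat_lit 26962047168), (nat_lit 2, nat_lit 28035788928), (nat_lit 22, nat_lit 28019011776), (nat_lit 47, nat_lit 29092753536), (nat_lit 10, nat_lit 29075976384), (nat_lit 83, nat_lit 30149718144), (nat_lit 88, nat_lit 30132940992), (nat_lit 20, nat_lit 31206682752)]⟩,
   ⟨V6_19462631616, [(nat_lit 114, nat_lit 25905082560)]⟩],
  [W_24797523968, W_20536373312]⟩
theorem C_25905082560 : chkRec R_25905082560 = true := by decide +kernel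

noncomputable def R_25905086529 : Rec := ⟨nat_lit 25905086529, nat_lit 8,
  [⟨V6_21576564801, [(nat_lit 95, nat_lit 25905086529), (nat_lit 18, nat_lit 26962051137), (nat_lit 107, nat_lit 28019015745)]⟩,
   ⟨V6_19462635585, [(nat_lit 115, nat_lit 25905086529)]⟩],
  [W_25854742592, W_25837969472, W_23740813376, W_22683848768]⟩
theorem C_25905086529 : chkRec R_25905086529 = true := by decide +kernel

noncomputable def R_25905086592 : Rec := ⟨nat_lit 25905086592, nat_lit 36,
  [⟨V6_22667083776, [(nat_lit 115, nat_lit 25905086592), (nat_lit 95, nat_lit 26978828352), (nat_lit 2, nat_lit 26962051200), (nat_lit 45, nat_lit 28052570112), (nat_lit 107, nat_lit 28035792960), (nat_lit 115, nat_lit 29109534720)]⟩,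
   ⟨V6_21610119168, [(nat_lit 13, nat_lit 25905086592), (nat_lit 87, nat_lit 26978828352), (nat_lit 89, nat_lit 28052570112)]⟩],
  [W_25854746624, W_24781008896, W_24781004864, W_24764235776, W_24764227712, W_23707271168, W_22683852800, W_22650298496]⟩
theorem C_25905086592 : chkRec R_25905086592 = true := by decide +kernel

noncomputable def R_25905340545 : Rec := ⟨nat_lit 25905340545, nat_lit 17,
  [⟨V6_24814035072, [(nat_lit 96, nat_lit 25905340545), (nat_lit 68, nat_lit 26979082368), (nat_lit 117, nat_lit 26978820225), (nat_lit 68, nat_lit 26962305153), (nat_lit 34, nat_lit 28052562048), (nat_lit 3, nat_lit 28052299905), (nat_lit 5, nat_lit 28036046976), (nat_lit 63, nat_lit 28035784833), (nat_lit 57, nat_lit 29126041728), (nat_lit 52, nat_lit 29125779585), (nat_lit 45, nat_lit 29109526656), (nat_lit 20, nat_lit 29109264513), (nat_lit 119, nat_lit 30199521408), (nat_lit 108, nat_lit 30183006336), (nat_lit 30, nat_lit 30182744193), (nat_lit 10, nat_lit 31256486016)]⟩,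
   ⟨V6_24814035009, [(nat_lit 69, nat_lit 25905340545), (nat_lit 40, nat_lit 26979082305), (nat_lit 50, nat_lit 26978820225), (nat_lit 83, nat_lit 26962305153), (nat_lit 94, nat_lit 28052561985), (nat_lit 120, nat_lit 28052299905), (nat_lit 57, nat_lit 28036046913), (nat_lit 39, nat_lit 28035784833), (nat_lit 73, nat_lit 29126041665), (nat_lit 11, nat_lit 29125779585), (nat_lit 87, nat_lit 29109526593), (nat_lit 34, nat_lit 29109264513), (nat_lit 100, nat_lit 30199521345), (nat_lit 105, nat_lit 30183006273), (nat_lit 99, nat_lit 30182744193), (nat_lit 54, nat_lit 31256485953)]⟩,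
   ⟨V6_22650298497, [(nat_lit 98, nat_lit 25905340545), (nat_lit 110, nat_lit 26978820225), (nat_lit 7, nat_lit 26962305153), (nat_lit 87, nat_lit 28035784833), (nat_lit 3, nat_lit 28019269761), (nat_lit 17, nat_lit 29092749441)]⟩,
   ⟨V6_21576818817, [(nat_lit 9, nat_lit 25905340545), (nat_lit 114, nat_lit 26962305153), (nat_lit 85, nat_lit 28019269761)]⟩],
  [W_25854484544, W_24781004864, W_23757070400, W_23724040256, W_23707525184, W_22667075648]⟩
theorem C_25905340545 : chkRec R_25905340545 = true := by decide +kernel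

noncomputable def R_25905344577 : Rec := ⟨nat_lit 25905344577, nat_lit 17,
  [⟨V6_25855004736, [(nat_lit 102, nat_lit 25905344577), (nat_lit 4, nat_lit 26979086400), (nat_lit 125, nat_lit 26979082305), (nat_lit 101, nat_lit 26962309185), (nat_lit 21, nat_lit 28052824128), (nat_lit 70, nat_lit 28052820033), (nat_lit 13, nat_lit 28036051008), (nat_lit 11, nat_lit 28036046913), (nat_lit 115, nat_lit 28019273793), (nat_lit 78, nat_lit 29126561856), (nat_lit 28, nat_lit 29109788736), (nat_lit 4, nat_lit 29109784641), (nat_lit 33, nat_lit 29093015616), (nat_lit 63, nat_lit 29093011521), (nat_lit 68, nat_lit 29076238401), (nat_lit 23, nat_lit 30183526464), (nat_lit 120, nat_lit 30166753344), (nat_lit 84, nat_lit 30166749249), (nat_lit 98, nat_lit 30149980224), (nat_lit 25, nat_lit 30149976129), (nat_lit 53, nat_lit 31240491072), (nat_lit 21, nat_lit 31223717952), (nat_lit 125, nat_lit 31223713857), (nat_lit 7, nat_lit 32297455680)]⟩,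
   ⟨V6_24831070272, [(nat_lit 115, nat_lit 25905344577), (nat_lit 14, nat_lit 26979086400), (nat_lit 60, nat_lit 26979082305), (nat_lit 63, nat_lit 26978824257), (nat_lit 10, nat_lit 28052824128), (nat_lit 89, nat_lit 28052820033), (nat_lit 48, nat_lit 28052566080), (nat_lit 106, nat_lit 28052561985), (nat_lit 24, nat_lit 28052303937), (nat_lit 104, nat_lit 29126561856), (nat_lit 93, nat_lit 29126303808), (nat_lit 87, nat_lit 29126299713), (nat_lit 123, nat_lit 29126045760), (nat_lit 74, nat_lit 29126041665), (nat_lit 36, nat_lit 30200041536), (nat_lit 32, nat_lit 30199783488), (nat_lit 86, nat_lit 30199779393), (nat_lit 59, nat_lit 31273521216)]⟩,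
   ⟨V6_24781262913, [(nat_lit 109, nat_lit 25905344577), (nat_lit 69, nat_lit 26979082305), (nat_lit 98, nat_lit 26962309185), (nat_lit 90, nat_lit 28052820033), (nat_lit 76, nat_lit 28036046913), (nat_lit 19, nat_lit 28019273793), (nat_lit 61, nat_lit 29109784641), (nat_lit 41, nat_lit 29093011521), (nat_lit 86, nat_lit 29076238401), (nat_lit 80, nat_lit 30166749249), (nat_lit 117, nat_lit 30149976129), (nat_lit 91, nat_lit 31223713857)]⟩,
   ⟨V6_23757328449, [(nat_lit 92, nat_lit 25905344577), (nat_lit 29, nat_lit 26979082305), (nat_lit 120, nat_lit 26978824257), (nat_lit 29, nat_lit 28052820033), (nat_lit 124, nat_lit 28052561985), (nat_lit 111, nat_lit 28052303937), (nat_lit 73, nat_lit 29126299713), (nat_lit 9, nat_lit 29126041665), (nat_lit 87, nat_lit 30199779393)]⟩,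
   ⟨V6_22667333697, [(nat_lit 36, nat_lit 25905344577), (nat_lit 65, nat_lit 26979082305), (nat_lit 91, nat_lit 26962309185), (nat_lit 95, nat_lit 28052820033), (nat_lit 58, nat_lit 28036046913), (nat_lit 52, nat_lit 29109784641)]⟩,
   ⟨V6_22666817601, [(nat_lit 63, nat_lit 25905344577), (nat_lit 67, nat_lit 26978824257), (nat_lit 117, nat_lit 26962309185), (nat_lit 64, nat_lit 28052303937), (nat_lit 117, nat_lit 28035788865), (nat_lit 124, nat_lit 29109268545)]⟩,
   ⟨V6_21610369089, [(nat_lit 23, nat_lit 25905344577), (nat_lit 14, nat_lit 26979082305), (nat_lit 9, nat_lit 28052820033)]⟩],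
  [W_23724040256, W_22667333696, W_21593337920, W_20536373312]⟩
theorem C_25905344577 : chkRec R_25905344577 = true := by decide +kernel

noncomputable def R_25905344640 : Rec := ⟨nat_lit 25905344640, nat_lit 46,
  [⟨V6_23740821504, [(nat_lit 118, nat_lit 25905344640), (nat_lit 65, nat_lit 26979086400), (nat_lit 91, nat_lit 26978824320), (nat_lit 112, nat_lit 26962309248), (nat_lit 99, nat_lit 28052828160), (nat_lit 38, nat_lit 28052566080), (nat_lit 70, nat_lit 28036051008), (nat_lit 63, nat_lit 28035788928), (nat_lit 7, nat_lit 29126307840), (nat_lit 10, nat_lit 29109792768), (nat_lit 43, nat_lit 29109530688), (nat_lit 82, nat_lit 30183272448)]⟩,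
   ⟨V6_22683856896, [(nat_lit 18, nat_lit 25905344640), (nat_lit 94, nat_lit 26979086400), (nat_lit 111, nat_lit 26978824320), (nat_lit 39, nat_lit 28052828160), (nat_lit 87, nat_lit 28052566080), (nat_lit 108, nat_lit 29126307840)]⟩],
  [W_25871261696, W_23723778176, W_22683852800, W_22683590720, W_20536635392, W_19462889600]⟩
theorem C_25905344640 : chkRec R_25905344640 = true := by decide +kernel

noncomputable def R_25905348672 : Rec := ⟨nat_lit 25905348672, nat_lit 61,
  [⟨V6_22667083776, [(nat_lit 125, nat_lit 25905348672), (nat_lit 92, nat_lit 26979090432), (nat_lit 114, nat_lit 26978828352), (nat_lit 48, nat_lit 26962313280), (nat_lit 20, nat_lit 28052570112), (nat_lit 48, nat_lit 28036055040), (nat_lit 28, nat_lit 28035792960), (nat_lit 105, nat_lit 29109534720)]⟩,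
   ⟨V6_22650568704, [(nat_lit 35, nat_lit 25905348672), (nat_lit 103, nat_lit 26979090432), (nat_lit 53, nat_lit 26962313280), (nat_lit 65, nat_lit 28036055040), (nat_lit 28, nat_lit 28019277888), (nat_lit 15, nat_lit 29093019648)]⟩,
   ⟨V6_21610119168, [(nat_lit 97, nat_lit 25905348672), (nat_lit 16, nat_lit 26979090432), (nat_lit 79, nat_lit 26978828352), (nat_lit 96, nat_lit 28052570112)]⟩],
  [W_25871519744, W_25854746624, W_25854742592, W_24798040064, W_24797777984, W_24781262912, W_24781004864, W_23741075456, W_23740813376, W_23724302336, W_23724298304, W_23707267136, W_22683852800]⟩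
theorem C_25905348672 : chkRec R_25905348672 = true := by decide +kernel

noncomputable def R_25905352704 : Rec := ⟨nat_lit 25905352704, nat_lit 20,
  [⟨V6_24831590400, [(nat_lit 18, nat_lit 25905352704), (nat_lit 89, nat_lit 26979090432), (nat_lit 112, nat_lit 28052828160), (nat_lit 90, nat_lit 29126565888), (nat_lit 105, nat_lit 30200303616), (nat_lit 37, nat_lit 31274041344)]⟩,
   ⟨V6_19462901760, [(nat_lit 115, nat_lit 25905352704)]⟩],
  [W_24814813184, W_24798040064, W_24781266944, W_23724302336]⟩
theorem C_25905352704 : chkRec R_25905352704 = true := by decide +kernel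

noncomputable def R_25905602625 : Rec := ⟨nat_lit 25905602625, nat_lit 15,
  [⟨V6_24814035009, [(nat_lit 45, nat_lit 25905602625), (nat_lit 91, nat_lit 26979082305), (nat_lit 76, nat_lit 26962567233), (nat_lit 83, nat_lit 28052561985), (nat_lit 84, nat_lit 28036046913), (nat_lit 91, nat_lit 29126041665), (nat_lit 70, nat_lit 29109526593), (nat_lit 118, nat_lit 30199521345), (nat_lit 51, nat_lit 30183006273), (nat_lit 24, nat_lit 31256485953)]⟩,
   ⟨V6_21610631232, [(nat_lit 32, nat_lit 25905602625), (nat_lit 13, nat_lit 26979344448), (nat_lit 73, nat_lit 26979340353), (nat_lit 16, nat_lit 28053082176)]⟩,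
   ⟨V6_21577080897, [(nat_lit 10, nat_lit 25905602625), (nat_lit 42, nat_lit 26962567233), (nat_lit 38, nat_lit 28019531841)]⟩],
  [W_25887772736, W_25870999616, W_24814293056, W_24797777984, W_24797519936, W_23724040256, W_21577080896]⟩
theorem C_25905602625 : chkRec R_25905602625 = true := by decide +kernel

noncomputable def R_25905602688 : Rec := ⟨nat_lit 25905602688, nat_lit 55,
  [⟨V6_25904553984, [(nat_lit 30, nat_lit 25905602688), (nat_lit 56, nat_lit 26979344448), (nat_lit 23, nat_lit 26979082368), (nat_lit 61, nat_lit 28053086208), (nat_lit 34, nat_lit 28052824128), (nat_lit 63, nat_lit 28052562048), (nat_lit 98, nat_lit 29126565888), (nat_lit 126, nat_lit 29126303808), (nat_lit 6, nat_lit 29126041728), (nat_lit 6, nat_lit 30200045568), (nat_lit 89, nat_lit 30199783488), (nat_lit 32, nat_lit 30199521408), (nat_lit 47, nat_lit 31273525248), (nat_lit 26, nat_lit 31273263168), (nat_lit 123, nat_lit 32347004928)]⟩,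
   ⟨V6_24831074304, [(nat_lit 47, nat_lit 25905602688), (nat_lit 107, nat_lit 26979344448), (nat_lit 96, nat_lit 26979082368), (nat_lit 39, nat_lit 28053086208), (nat_lit 90, nat_lit 28052824128), (nat_lit 51, nat_lit 28052562048), (nat_lit 55, nat_lit 29126565888), (nat_lit 25, nat_lit 29126303808), (nat_lit 112, nat_lit 29126041728), (nat_lit 52, nat_lit 30200045568), (nat_lit 32, nat_lit 30199783488), (nat_lit 27, nat_lit 31273525248)]⟩,
   ⟨V6_23724564480, [(nat_lit 83, nat_lit 25905602688), (nat_lit 53, nat_lit 26979344448), (nat_lit 52, nat_lit 26962567296), (nat_lit 99, nat_lit 28053086208), (nat_lit 105, nat_lit 28036309056), (nat_lit 113, nat_lit 28019531904), (nat_lit 16, nat_lit 29110050816), (nat_lit 82, nat_lit 29093273664), (nat_lit 62, nat_lit 30167015424)]⟩],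
  [W_23740293248, W_22683852800, W_20536893440, W_20503339136, W_19462889600, W_19446374528]⟩
theorem C_25905602688 : chkRec R_25905602688 = true := by decide +kernel

noncomputable def R_25905606720 : Rec := ⟨nat_lit 25905606720, nat_lit 81,
  [⟨V6_23724564480, [(nat_lit 77, nat_lit 25905606720), (nat_lit 48, nat_lit 26979348480), (nat_lit 54, nat_lit 26979344448), (nat_lit 8, nat_lit 26962571328), (nat_lit 89, nat_lit 28053086208), (nat_lit 100, nat_lit 28036313088), (nat_lit 75, nat_lit 28036309056), (nat_lit 60, nat_lit 28019535936), (nat_lit 126, nat_lit 29110050816), (nat_lit 45, nat_lit 29093277696), (nat_lit 125, nat_lit 29093273664), (nat_lit 38, nat_lit 30167015424)]⟩,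
   ⟨V6_22683856896, [(nat_lit 75, nat_lit 25905606720), (nat_lit 107, nat_lit 26979348480), (nat_lit 123, nat_lit 26979086400), (nat_lit 66, nat_lit 28052828160), (nat_lit 25, nat_lit 28052566080), (nat_lit 120, nat_lit 29126307840)]⟩,
   ⟨V6_22667595840, [(nat_lit 108, nat_lit 25905606720), (nat_lit 68, nat_lit 26979344448), (nat_lit 19, nat_lit 26962571328), (nat_lit 31, nat_lit 28053082176), (nat_lit 47, nat_lit 28036309056), (nat_lit 29, nat_lit 29110046784)]⟩,
   ⟨V6_22650826752, [(nat_lit 78, nat_lit 25905606720), (nat_lit 59, nat_lit 26979348480), (nat_lit 2, nat_lit 26962571328), (nat_lit 36, nat_lit 28036313088), (nat_lit 37, nat_lit 28019535936), (nat_lit 106, nat_lit 29093277696)]⟩],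
  [W_25888034816, W_25871519744, W_25871261696, W_24831070208, W_24814293056, W_24797777984, W_23757332480, W_21577080896, W_20536893440, W_19463155712]⟩
theorem C_25905606720 : chkRec R_25905606720 = true := by decide +kernel

noncomputable def R_25905610752 : Rec := ⟨nat_lit 25905610752, nat_lit 88,
  [⟨V6_25872039936, [(nat_lit 95, nat_lit 25905610752), (nat_lit 110, nat_lit 26979348480), (nat_lit 49, nat_lit 26962575360), (nat_lit 32, nat_lit 28053086208), (nat_lit 49, nat_lit 28036313088), (nat_lit 1, nat_lit 28019539968), (nat_lit 53, nat_lit 29126823936), (nat_lit 120, nat_lit 29110050816), (nat_lit 91, nat_lit 29093277696), (nat_lit 98, nat_lit 30200561664), (nat_lit 87, nat_lit 30183788544), (nat_lit 110, nat_lit 30167015424), (nat_lit 124, nat_lit 31257526272), (nat_lit 49, nat_lit 31240753152), (nat_lit 63, nat_lit 32314490880)]⟩,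
   ⟨V6_22683856896, [(nat_lit 3, nat_lit 25905610752), (nat_lit 105, nat_lit 26979348480), (nat_lit 54, nat_lit 26979090432), (nat_lit 126, nat_lit 28052828160), (nat_lit 65, nat_lit 28052570112), (nat_lit 47, nat_lit 29126307840)]⟩,
   ⟨V6_21610119168, [(nat_lit 54, nat_lit 25905610752), (nat_lit 81, nat_lit 26979090432), (nat_lit 12, nat_lit 28052570112)]⟩,
   ⟨V6_21577089024, [(nat_lit 41, nat_lit 25905610752), (nat_lit 96, nat_lit 26962575360), (nat_lit 105, nat_lit 28019539968)]⟩],
  [W_25888292864, W_25871777792, W_23757848576, W_23741333504, W_22667595776, W_20536893440, W_19463155712]⟩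
theorem C_25905610752 : chkRec R_25905610752 = true := by decide +kernel

noncomputable def R_25905860673 : Rec := ⟨nat_lit 25905860673, nat_lit 6,
  [⟨V6_20536889409, [(nat_lit 2, nat_lit 25905860673), (nat_lit 24, nat_lit 26979340353)]⟩,
   ⟨V6_20520374337, [(nat_lit 48, nat_lit 25905860673), (nat_lit 95, nat_lit 26962825281)]⟩],
  [W_25887772736, W_24814293056, W_23740813376]⟩
theorem C_25905860673 : chkRec R_25905860673 = true := by decide +kernel

noncomputable def R_25905864768 : Rec := ⟨nat_lit 25905864768, nat_lit 67,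
  [⟨V6_25904549952, [(nat_lit 91, nat_lit 25905864768), (nat_lit 123, nat_lit 26979602496), (nat_lit 9, nat_lit 26979344448), (nat_lit 99, nat_lit 28053082176), (nat_lit 52, nat_lit 28052824128), (nat_lit 109, nat_lit 29126561856), (nat_lit 13, nat_lit 29126303808), (nat_lit 46, nat_lit 30200041536), (nat_lit 23, nat_lit 30199783488), (nat_lit 94, nat_lit 31273521216), (nat_lit 68, nat_lit 31273263168), (nat_lit 19, nat_lit 32347000896)]⟩,
   ⟨V6_21610893312, [(nat_lit 11, nat_lit 25905864768), (nat_lit 93, nat_lit 26979606528), (nat_lit 121, nat_lit 26979602496), (nat_lit 94, nat_lit 28053344256)]⟩,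
   ⟨V6_20537155584, [(nat_lit 57, nat_lit 25905864768), (nat_lit 55, nat_lit 26979606528)]⟩],
  [W_25888034816, W_25887776768, W_25887772736, W_24830812160, W_24814555136, W_24814297088, W_24814293056, W_23757070400, W_23741075456, W_23740817408, W_23740813376]⟩
theorem C_25905864768 : chkRec R_25905864768 = true := by decide +kernel

noncomputable def R_25905868800 : Rec := ⟨nat_lit 25905868800, nat_lit 74,
  [⟨V6_21610893312, [(nat_lit 60, nat_lit 25905868800), (nat_lit 31, nat_lit 26979606528), (nat_lit 29, nat_lit 28053344256)]⟩,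
   ⟨V6_20537155584, [(nat_lit 65, nat_lit 25905868800), (nat_lit 103, nat_lit 26979606528)]⟩],
  [W_25888034816, W_24814555136, W_24814297088, W_23757848576, W_23757332480, W_23741333504, W_23740559360, W_22684368896]⟩
theorem C_25905868800 : chkRec R_25905868800 = true := by decide +kernel

noncomputable def R_25906122816 : Rec := ⟨nat_lit 25906122816, nat_lit 15,
  [⟨V6_21610631232, [(nat_lit 41, nat_lit 25906122816), (nat_lit 100, nat_lit 26979602496), (nat_lit 26, nat_lit 28053082176)]⟩],
  [W_24831070208, W_19463671808]⟩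
theorem C_25906122816 : chkRec R_25906122816 = true := by decide +kernel

noncomputable def R_25906126848 : Rec := ⟨nat_lit 25906126848, nat_lit 55,
  [⟨V6_21611151360, [(nat_lit 53, nat_lit 25906126848), (nat_lit 100, nat_lit 26979864576), (nat_lit 11, nat_lit 28053602304)]⟩,
   ⟨V6_20537155584, [(nat_lit 89, nat_lit 25906126848), (nat_lit 26, nat_lit 26979606528)]⟩],
  [W_25904807936, W_24831070208, W_24830812160, W_23757848576, W_23757332480, W_20537409536]⟩
theorem C_25906126848 : chkRec R_25906126848 = true := by decide +kernel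

noncomputable def R_25921593474 : Rec := ⟨nat_lit 25921593474, nat_lit 3,
  [⟨V6_23723516034, [(nat_lit 70, nat_lit 25921593474), (nat_lit 92, nat_lit 26995073154), (nat_lit 19, nat_lit 26978558082), (nat_lit 71, nat_lit 28052037762), (nat_lit 105, nat_lit 28035522690), (nat_lit 56, nat_lit 29109002370), (nat_lit 105, nat_lit 29092487298), (nat_lit 16, nat_lit 30165966978)]⟩,
   ⟨V6_20552622210, [(nat_lit 107, nat_lit 25921593474), (nat_lit 15, nat_lit 26995073154)]⟩],
  [W_21609848960]⟩
theorem C_25921593474 : chkRec R_25921593474 = true := by decide +kernel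

noncomputable def R_25921597569 : Rec := ⟨nat_lit 25921597569, nat_lit 4,
  [⟨V6_22666817601, [(nat_lit 93, nat_lit 25921597569), (nat_lit 10, nat_lit 26995339329), (nat_lit 108, nat_lit 26978562177), (nat_lit 27, nat_lit 28052303937), (nat_lit 38, nat_lit 28035526785), (nat_lit 12, nat_lit 29109268545)]⟩,
   ⟨V6_21593075841, [(nat_lit 6, nat_lit 25921597569), (nat_lit 126, nat_lit 26978562177), (nat_lit 18, nat_lit 28035526785)]⟩,
   ⟨V6_20536111233, [(nat_lit 103, nat_lit 25921597569), (nat_lit 23, nat_lit 26978562177)]⟩],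
  [W_22683590720]⟩
theorem C_25921597569 : chkRec R_25921597569 = true := by decide +kernel

noncomputable def R_25921597632 : Rec := ⟨nat_lit 25921597632, nat_lit 2,
  [⟨V6_19479146688, [(nat_lit 68, nat_lit 25921597632)]⟩],
  [W_23740559360]⟩
theorem C_25921597632 : chkRec R_25921597632 = true := by decide +kernel

noncomputable def R_25921855617 : Rec := ⟨nat_lit 25921855617, nat_lit 18,
  [⟨V6_22700105793, [(nat_lit 18, nat_lit 25921855617), (nat_lit 77, nat_lit 26995597377), (nat_lit 7, nat_lit 26995335297), (nat_lit 31, nat_lit 28069077057), (nat_lit 109, nat_lit 28068814977), (nat_lit 60, nat_lit 29142556737)]⟩,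
   ⟨V6_22650298497, [(nat_lit 113, nat_lit 25921855617), (nat_lit 62, nat_lit 26978820225), (nat_lit 107, nat_lit 28035784833), (nat_lit 32, nat_lit 29092749441)]⟩,
   ⟨V6_20553146433, [(nat_lit 24, nat_lit 25921855617), (nat_lit 66, nat_lit 26995597377)]⟩],
  [W_25870999616, W_23757070400, W_23740555328, W_22700105792, W_22683590720]⟩
theorem C_25921855617 : chkRec R_25921855617 = true := by decide +kernel

noncomputable def R_25921859649 : Rec := ⟨nat_lit 25921859649, nat_lit 15,
  [⟨V6_22666817601, [(nat_lit 48, nat_lit 25921859649), (nat_lit 84, nat_lit 26995339329), (nat_lit 4, nat_lit 26978824257), (nat_lit 58, nat_lit 28052303937), (nat_lit 32, nat_lit 28035788865), (nat_lit 60, nat_lit 29109268545)]⟩,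
   ⟨V6_21626884161, [(nat_lit 105, nat_lit 25921859649), (nat_lit 86, nat_lit 26995597377), (nat_lit 19, nat_lit 28069335105)]⟩,
   ⟨V6_20553146433, [(nat_lit 121, nat_lit 25921859649), (nat_lit 96, nat_lit 26995597377)]⟩],
  [W_25854742592, W_25854484544, W_25837969472, W_24814293056, W_24797519936, W_24781004864, W_23724040256, W_23707267136, W_22666817600]⟩
theorem C_25921859649 : chkRec R_25921859649 = true := by decide +kernel

noncomputable def R_25921859712 : Rec := ⟨nat_lit 25921859712, nat_lit 45,
  [⟨V6_22700371968, [(nat_lit 59, nat_lit 25921859712), (nat_lit 101, nat_lit 26995601472), (nat_lit 18, nat_lit 26995339392), (nat_lit 96, nat_lit 28069343232), (nat_lit 94, nat_lit 28069081152), (nat_lit 39, nat_lit 29142822912)]⟩,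
   ⟨V6_22683856896, [(nat_lit 70, nat_lit 25921859712), (nat_lit 62, nat_lit 26995601472), (nat_lit 3, nat_lit 26978824320), (nat_lit 88, nat_lit 28069343232), (nat_lit 89, nat_lit 28052566080), (nat_lit 24, nat_lit 29126307840)]⟩],
  [W_25871261696, W_25854746624, W_25837969472, W_24797782016, W_24781004864, W_24764227712, W_22683852800, W_19479404672]⟩
theorem C_25921859712 : chkRec R_25921859712 = true := by decide +kernel

noncomputable def R_25921863744 : Rec := ⟨nat_lit 25921863744, nat_lit 52,
  [⟨V6_21610119168, [(nat_lit 66, nat_lit 25921863744), (nat_lit 114, nat_lit 26995605504), (nat_lit 121, nat_lit 26978828352), (nat_lit 34, nat_lit 28052570112)]⟩,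
   ⟨V6_20553154560, [(nat_lit 116, nat_lit 25921863744), (nat_lit 54, nat_lit 26995605504)]⟩],
  [W_25871519744, W_25854746624, W_25854742592, W_25837973504, W_25837969472, W_24797782016, W_24781008896, W_24781004864, W_24764235776, W_23757590528, W_23740813376, W_23690494016, W_21626884160]⟩
theorem C_25921863744 : chkRec R_25921863744 = true := by decide +kernel

noncomputable def R_25922117697 : Rec := ⟨nat_lit 25922117697, nat_lit 23,
  [⟨V6_22700105793, [(nat_lit 63, nat_lit 25922117697), (nat_lit 7, nat_lit 26995597377), (nat_lit 66, nat_lit 28069077057), (nat_lit 24, nat_lit 29142556737)]⟩,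
   ⟨V6_21610369089, [(nat_lit 51, nat_lit 25922117697), (nat_lit 22, nat_lit 26995855425), (nat_lit 87, nat_lit 26979082305), (nat_lit 117, nat_lit 28052820033)]⟩,
   ⟨V6_20553404481, [(nat_lit 89, nat_lit 25922117697), (nat_lit 39, nat_lit 26995855425)]⟩,
   ⟨V6_20553146433, [(nat_lit 87, nat_lit 25922117697), (nat_lit 6, nat_lit 26995597377)]⟩],
  [W_25887772736, W_25870999616, W_25854742592, W_25854484544, W_24814293056, W_24797519936, W_24781004864, W_23757070400, W_23724040256, W_22667333696]⟩
theorem C_25922117697 : chkRec R_25922117697 = true := by decide +kernel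

noncomputable def R_25922117760 : Rec := ⟨nat_lit 25922117760, nat_lit 57,
  [⟨V6_24847589376, [(nat_lit 41, nat_lit 25922117760), (nat_lit 59, nat_lit 26995859520), (nat_lit 109, nat_lit 26995597440), (nat_lit 43, nat_lit 28069601280), (nat_lit 28, nat_lit 28069339200), (nat_lit 113, nat_lit 28069077120), (nat_lit 55, nat_lit 29143080960), (nat_lit 11, nat_lit 29142818880), (nat_lit 33, nat_lit 29142556800), (nat_lit 93, nat_lit 30216560640), (nat_lit 40, nat_lit 30216298560), (nat_lit 49, nat_lit 31290040320)]⟩,
   ⟨V6_24831074304, [(nat_lit 73, nat_lit 25922117760), (nat_lit 54, nat_lit 26995859520), (nat_lit 43, nat_lit 26995597440), (nat_lit 92, nat_lit 26979082368), (nat_lit 125, nat_lit 28069601280), (nat_lit 24, nat_lit 28069339200), (nat_lit 1, nat_lit 28069077120), (nat_lit 2, nat_lit 28052824128), (nat_lit 55, nat_lit 28052562048), (nat_lit 39, nat_lit 29143080960), (nat_lit 13, nat_lit 29142818880), (nat_lit 8, nat_lit 29126565888), (nat_lit 95, nat_lit 29126303808), (nat_lit 103, nat_lit 29126041728), (nat_lit 65, nat_lit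 30216560640), (nat_lit 28, nat_lit 30200045568), (nat_lit 62, nat_lit 30199783488), (nat_lit 48, nat_lit 31273525248)]⟩,
   ⟨V6_24798044160, [(nat_lit 17, nat_lit 25922117760), (nat_lit 25, nat_lit 26995859520), (nat_lit 73, nat_lit 26979082368), (nat_lit 13, nat_lit 28069601280), (nat_lit 4, nat_lit 28052824128), (nat_lit 101, nat_lit 28036046976), (nat_lit 70, nat_lit 29126565888), (nat_lit 21, nat_lit 29109788736), (nat_lit 42, nat_lit 29093011584), (nat_lit 21, nat_lit 30183530496), (nat_lit 73, nat_lit 30166753344), (nat_lit 12, nat_lit 31240495104)]⟩],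
  [W_25854222464, W_24830812160, W_23773847552, W_23740293248, W_22683852800, W_22683328640, W_19479404672, W_19462889600, W_18405924992]⟩
theorem C_25922117760 : chkRec R_25922117760 = true := by decide +kernel

noncomputable def R_25922121792 : Rec := ⟨nat_lit 25922121792, nat_lit 93,
  [⟨V6_24831070272, [(nat_lit 17, nat_lit 25922121792), (nat_lit 4, nat_lit 26995859520), (nat_lit 55, nat_lit 26995601472), (nat_lit 69, nat_lit 26979086400), (nat_lit 35, nat_lit 28069597248), (nat_lit 93, nat_lit 28069339200), (nat_lit 110, nat_lit 28069081152), (nat_lit 51, nat_lit 28052824128), (nat_lit 99, nat_lit 28052566080), (nat_lit 106, nat_lit 29143076928), (nat_lit 121, nat_lit 29142818880), (nat_lit 49, nat_lit 29126561856), (nat_lit 112, nat_lit 29126303808), (nat_lit 44, nat_lit 29126045760), (nat_lit 64, nat_lit 30216556608), (nat_lit 17, nat_lit 30200041536), (nat_lit 104, nat_lit 30199783488), (nat_lit 96, nat_lit 31273521216)]⟩,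
   ⟨V6_24781271040, [(nat_lit 111, nat_lit 25922121792), (nat_lit 21, nat_lit 26995863552), (nat_lit 65, nat_lit 26979086400), (nat_lit 38, nat_lit 28052828160), (nat_lit 74, nat_lit 28036051008), (nat_lit 66, nat_lit 29109792768), (nat_lit 48, nat_lit 29093015616), (nat_lit 66, nat_lit 30166757376), (nat_lit 45, nat_lit 30149980224), (nat_lit 81, nat_lit 31223721984)]⟩,
   ⟨V6_23774105664, [(nat_lit 35, nat_lit 25922121792), (nat_lit 98, nat_lit 26995859520), (nat_lit 7, nat_lit 26995601472), (nat_lit 98, nat_lit 28069597248), (nat_lit 3, nat_lit 28069339200), (nat_lit 16, nat_lit 28069081152), (nat_lit 54, nat_lit 29143076928), (nat_lit 118, nat_lit 29142818880), (nat_lit 40, nat_lit 30216556608)]⟩,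
   ⟨V6_23740821504, [(nat_lit 49, nat_lit 25922121792), (nat_lit 38, nat_lit 26995863552), (nat_lit 46, nat_lit 26995601472), (nat_lit 6, nat_lit 26979086400), (nat_lit 126, nat_lit 28069343232), (nat_lit 91, nat_lit 28052828160), (nat_lit 59, nat_lit 28052566080), (nat_lit 68, nat_lit 28036051008), (nat_lit 6, nat_lit 29126307840), (nat_lit 42, nat_lit 29109792768), (nat_lit 98, nat_lit 29109530688), (nat_lit 1, nat_lit 30183272448)]⟩,
   ⟨V6_22700371968, [(nat_lit 124, nat_lit 25922121792), (nat_lit 38, nat_lit 26995863552), (nat_lit 75, nat_lit 26995601472), (nat_lit 57, nat_lit 28069343232), (nat_lit 7, nat_lit 28069081152), (nat_lit 32, nat_lit 29142822912)]⟩,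
   ⟨V6_22683856896, [(nat_lit 13, nat_lit 25922121792), (nat_lit 13, nat_lit 26995863552), (nat_lit 124, nat_lit 26995601472), (nat_lit 122, nat_lit 26979086400), (nat_lit 84, nat_lit 28069343232), (nat_lit 32, nat_lit 28052828160), (nat_lit 105, nat_lit 28052566080), (nat_lit 20, nat_lit 29126307840)]⟩],
  [W_25888034816, W_25871519744, W_25871261696, W_25854746624, W_24831070208, W_24814555136, W_24814297088, W_24814293056, W_24798040064, W_24797782016, W_24781262912, W_24781008896, W_23741075456, W_23724302336, W_23707525184, W_22700367872, W_20553150464]⟩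
theorem C_25922121792 : chkRec R_25922121792 = true := by decide +kernel

noncomputable def R_25922125824 : Rec := ⟨nat_lit 25922125824, nat_lit 78,
  [⟨V6_22667083776, [(nat_lit 59, nat_lit 25922125824), (nat_lit 38, nat_lit 26995605504), (nat_lit 74, nat_lit 26979090432), (nat_lit 17, nat_lit 28052570112), (nat_lit 24, nat_lit 28036055040), (nat_lit 10, nat_lit 29109534720)]⟩,
   ⟨V6_22650568704, [(nat_lit 118, nat_lit 25922125824), (nat_lit 58, nat_lit 26979090432), (nat_lit 96, nat_lit 28036055040), (nat_lit 75, nat_lit 29093019648)]⟩,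
   ⟨V6_21610119168, [(nat_lit 48, nat_lit 25922125824), (nat_lit 65, nat_lit 26995605504), (nat_lit 46, nat_lit 26979090432), (nat_lit 107, nat_lit 28052570112)]⟩,
   ⟨V6_20553154560, [(nat_lit 22, nat_lit 25922125824), (nat_lit 111, nat_lit 26995605504)]⟩],
  [W_25871519744, W_25854746624, W_24814555136, W_24798040064, W_24781008896, W_23774363648, W_23757848576, W_23757590528, W_23741075456, W_23724302336]⟩
theorem C_25922125824 : chkRec R_25922125824 = true := by decide +kernel

noncomputable def R_25922375745 : Rec := ⟨nat_lit 25922375745, nat_lit 8,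
  [⟨V6_20536889409, [(nat_lit 27, nat_lit 25922375745), (nat_lit 117, nat_lit 26979340353)]⟩,
   ⟨V6_19479924801, [(nat_lit 89, nat_lit 25922375745)]⟩],
  [W_25887772736, W_24814293056, W_24797777984, W_23740813376, W_23724298304]⟩
theorem C_25922375745 : chkRec R_25922375745 = true := by decide +kernel

noncomputable def R_25922379840 : Rec := ⟨nat_lit 25922379840, nat_lit 109,
  [⟨V6_24847589376, [(nat_lit 124, nat_lit 25922379840), (nat_lit 31, nat_lit 26996121600), (nat_lit 15, nat_lit 26995859520), (nat_lit 109, nat_lit 28069601280), (nat_lit 5, nat_lit 28069339200), (nat_lit 41, nat_lit 29143080960), (nat_lit 35, nat_lit 29142818880), (nat_lit 82, nat_lit 30216560640), (nat_lit 29, nat_lit 30216298560), (nat_lit 109, nat_lit 31290040320)]⟩,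
   ⟨V6_24798302208, [(nat_lit 3, nat_lit 25922379840), (nat_lit 93, nat_lit 26996121600), (nat_lit 7, nat_lit 26996117568), (nat_lit 97, nat_lit 26979344448), (nat_lit 120, nat_lit 28069859328), (nat_lit 110, nat_lit 28053086208), (nat_lit 72, nat_lit 28053082176), (nat_lit 33, nat_lit 28036309056), (nat_lit 29, nat_lit 29126823936), (nat_lit 33, nat_lit 29110050816), (nat_lit 3, nat_lit 29110046784), (nat_lit 24, nat_lit 29093273664), (nat_lit 4, nat_lit 30183788544), (nat_lit 37, nat_lit 30167015424), (nat_lit 8, nat_lit 30167011392), (nat_lit 87, nat_lit 31240753152)]⟩,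
   ⟨V6_23724564480, [(nat_lit 21, nat_lit 25922379840), (nat_lit 21, nat_lit 26996121600), (nat_lit 103, nat_lit 26979344448), (nat_lit 52, nat_lit 28053086208), (nat_lit 22, nat_lit 28036309056), (nat_lit 13, nat_lit 29110050816), (nat_lit 58, nat_lit 29093273664), (nat_lit 36, nat_lit 30167015424)]⟩,
   ⟨V6_22667595840, [(nat_lit 51, nat_lit 25922379840), (nat_lit 126, nat_lit 26996117568), (nat_lit 125, nat_lit 26979344448), (nat_lit 26, nat_lit 28053082176), (nat_lit 112, nat_lit 28036309056), (nat_lit 59, nat_lit 29110046784)]⟩,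
   ⟨V6_21627408384, [(nat_lit 14, nat_lit 25922379840), (nat_lit 26, nat_lit 26996121600), (nat_lit 27, nat_lit 26996117568), (nat_lit 85, nat_lit 28069859328)]⟩],
  [W_25904549888, W_25887776768, W_25871519744, W_25870999616, W_24831070208, W_24830812160, W_24814297088, W_24814293056, W_24797782016, W_23773847552, W_22667595776, W_22650822656, W_21577080896, W_20536893440]⟩
theorem C_25922379840 : chkRec R_25922379840 = true := by decide +kernel

noncomputable def R_25922383872 : Rec := ⟨nat_lit 25922383872, nat_lit 127,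
  [⟨V6_23741337600, [(nat_lit 18, nat_lit 25922383872), (nat_lit 88, nat_lit 26996121600), (nat_lit 75, nat_lit 26979348480), (nat_lit 24, nat_lit 28069859328), (nat_lit 99, nat_lit 28053086208), (nat_lit 46, nat_lit 28036313088), (nat_lit 121, nat_lit 29126823936), (nat_lit 55, nat_lit 29110050816), (nat_lit 88, nat_lit 30183788544)]⟩,
   ⟨V6_22683856896, [(nat_lit 88, nat_lit 25922383872), (nat_lit 2, nat_lit 26995863552), (nat_lit 41, nat_lit 26979348480), (nat_lit 64, nat_lit 28069343232), (nat_lit 11, nat_lit 28052828160), (nat_lit 28, nat_lit 29126307840)]⟩,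
   ⟨V6_22650826752, [(nat_lit 48, nat_lit 25922383872), (nat_lit 114, nat_lit 26979348480), (nat_lit 123, nat_lit 28036313088), (nat_lit 108, nat_lit 29093277696)]⟩,
   ⟨V6_21627408384, [(nat_lit 44, nat_lit 25922383872), (nat_lit 82, nat_lit 26996121600), (nat_lit 89, nat_lit 28069859328)]⟩],
  [W_25871777792, W_24847843328, W_24831070208, W_24814813184, W_24798298112, W_24797782016, W_23757848576, W_23741333504, W_20553150464, W_20536893440, W_19463155712]⟩
theorem C_25922383872 : chkRec R_25922383872 = true := by decide +kernel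

noncomputable def R_25922637888 : Rec := ⟨nat_lit 25922637888, nat_lit 51,
  [⟨V6_24847585344, [(nat_lit 97, nat_lit 25922637888), (nat_lit 8, nat_lit 26996117568), (nat_lit 46, nat_lit 28069597248), (nat_lit 39, nat_lit 29143076928), (nat_lit 123, nat_lit 30216556608), (nat_lit 60, nat_lit 31290036288)]⟩,
   ⟨V6_22667857920, [(nat_lit 62, nat_lit 25922637888), (nat_lit 6, nat_lit 26996379648), (nat_lit 84, nat_lit 26979602496), (nat_lit 93, nat_lit 28053344256), (nat_lit 108, nat_lit 28036567104), (nat_lit 68, nat_lit 29110308864)]⟩,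
   ⟨V6_19480186944, [(nat_lit 8, nat_lit 25922637888)]⟩],
  [W_25904549888, W_24814555136, W_23757590528, W_19480186880]⟩
theorem C_25922637888 : chkRec R_25922637888 = true := by decide +kernel

noncomputable def R_25922641920 : Rec := ⟨nat_lit 25922641920, nat_lit 112,
  [⟨V6_21627408384, [(nat_lit 79, nat_lit 25922641920), (nat_lit 3, nat_lit 26996379648), (nat_lit 42, nat_lit 26996121600), (nat_lit 10, nat_lit 28069859328)]⟩,
   ⟨V6_21594120192, [(nat_lit 74, nat_lit 25922641920), (nat_lit 30, nat_lit 26979606528), (nat_lit 95, nat_lit 28036571136)]⟩,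
   ⟨V6_20537155584, [(nat_lit 54, nat_lit 25922641920), (nat_lit 107, nat_lit 26979606528)]⟩],
  [W_25921323008, W_24847843328, W_24831070208, W_24830812160, W_24814813184, W_24814297088, W_23773847552, W_23757848576, W_23741333504, W_22667853824, W_22667595776, W_21610889216, W_21594116096]⟩
theorem C_25922641920 : chkRec R_25922641920 = true := by decide +kernel

noncomputable def R_25922899968 : Rec := ⟨nat_lit 25922899968, nat_lit 64,
  [⟨V6_21627408384, [(nat_lit 81, nat_lit 25922899968), (nat_lit 21, nat_lit 26996379648), (nat_lit 8, nat_lit 28069859328)]⟩,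
   ⟨V6_20554186752, [(nat_lit 89, nat_lit 25922899968), (nat_lit 86, nat_lit 26996637696)]⟩],
  [W_25921323008, W_25904549888, W_24831070208, W_23774363648, W_23757848576, W_20537409536]⟩
theorem C_25922899968 : chkRec R_25922899968 = true := by decide +kernel

noncomputable def R_25923158016 : Rec := ⟨nat_lit 25923158016, nat_lit 14,
  [⟨V6_20554186752, [(nat_lit 72, nat_lit 25923158016), (nat_lit 79, nat_lit 26996637696)]⟩,
   ⟨V6_19480707072, [(nat_lit 78, nat_lit 25923158016)]⟩],
  [W_23774363648]⟩
theorem C_25923158016 : chkRec R_25923158016 = true := by decide +kernel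

noncomputable def R_25938108546 : Rec := ⟨nat_lit 25938108546, nat_lit 4,
  [⟨V6_24814035072, [(nat_lit 46, nat_lit 25938108546), (nat_lit 72, nat_lit 27011850369), (nat_lit 2, nat_lit 26995073154), (nat_lit 17, nat_lit 28085592192), (nat_lit 111, nat_lit 28068814977), (nat_lit 57, nat_lit 28052037762), (nat_lit 119, nat_lit 29142556800), (nat_lit 99, nat_lit 29125779585), (nat_lit 39, nat_lit 29109002370), (nat_lit 1, nat_lit 30199521408), (nat_lit 35, nat_lit 30182744193), (nat_lit 8, nat_lit 31256486016)]⟩],
  [W_25854222464, W_20569399424]⟩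
theorem C_25938108546 : chkRec R_25938108546 = true := by decide +kernel

noncomputable def R_25938370689 : Rec := ⟨nat_lit 25938370689, nat_lit 11,
  [⟨V6_22700105793, [(nat_lit 38, nat_lit 25938370689), (nat_lit 23, nat_lit 27012112449), (nat_lit 83, nat_lit 27011850369), (nat_lit 118, nat_lit 26995335297), (nat_lit 82, nat_lit 28085592129), (nat_lit 87, nat_lit 28069077057), (nat_lit 23, nat_lit 28068814977), (nat_lit 115, nat_lit 29142556737)]⟩,
   ⟨V6_21643141185, [(nat_lit 66, nat_lit 25938370689), (nat_lit 30, nat_lit 27012112449), (nat_lit 15, nat_lit 27011850369), (nat_lit 12, nat_lit 28085592129)]⟩,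
   ⟨V6_20569661505, [(nat_lit 16, nat_lit 25938370689), (nat_lit 44, nat_lit 27012112449)]⟩],
  [W_25870999616, W_25854484544, W_23757070400, W_21643141184]⟩
theorem C_25938370689 : chkRec R_25938370689 = true := by decide +kernel

noncomputable def R_25938374721 : Rec := ⟨nat_lit 25938374721, nat_lit 7,
  [⟨V6_21643399233, [(nat_lit 48, nat_lit 25938374721), (nat_lit 101, nat_lit 27012112449), (nat_lit 74, nat_lit 28085850177)]⟩,
   ⟨V6_19495923777, [(nat_lit 34, nat_lit 25938374721)]⟩],
  [W_24814293056, W_24797519936, W_23740555328]⟩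
theorem C_25938374721 : chkRec R_25938374721 = true := by decide +kernel

noncomputable def R_25938374784 : Rec := ⟨nat_lit 25938374784, nat_lit 15,
  [⟨V6_22700371968, [(nat_lit 123, nat_lit 25938374784), (nat_lit 93, nat_lit 27012116544), (nat_lit 119, nat_lit 26995339392), (nat_lit 95, nat_lit 28085858304), (nat_lit 105, nat_lit 28069081152), (nat_lit 105, nat_lit 29142822912)]⟩],
  [W_25871261696, W_25854484544, W_24814297088, W_24797519936, W_19495919744]⟩
theorem C_25938374784 : chkRec R_25938374784 = true := by decide +kernel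

noncomputable def R_25938632769 : Rec := ⟨nat_lit 25938632769, nat_lit 19,
  [⟨V6_21643141185, [(nat_lit 70, nat_lit 25938632769), (nat_lit 34, nat_lit 27012112449), (nat_lit 13, nat_lit 28085592129)]⟩,
   ⟨V6_20569661505, [(nat_lit 68, nat_lit 25938632769), (nat_lit 16, nat_lit 27012112449)]⟩,
   ⟨V6_20553146433, [(nat_lit 37, nat_lit 25938632769), (nat_lit 88, nat_lit 26995597377)]⟩],
  [W_25887772736, W_25870999616, W_25854742592, W_25854484544, W_25837969472, W_24814293056, W_24797777984, W_24781004864, W_23773843520, W_23757070400, W_23740813376]⟩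
theorem C_25938632769 : chkRec R_25938632769 = true := by decide +kernel

noncomputable def R_25938632832 : Rec := ⟨nat_lit 25938632832, nat_lit 61,
  [⟨V6_24847589376, [(nat_lit 103, nat_lit 25938632832), (nat_lit 110, nat_lit 27012374592), (nat_lit 95, nat_lit 27012112512), (nat_lit 55, nat_lit 26995597440), (nat_lit 15, nat_lit 28086116352), (nat_lit 100, nat_lit 28085854272), (nat_lit 99, nat_lit 28085592192), (nat_lit 47, nat_lit 28069339200), (nat_lit 29, nat_lit 28069077120), (nat_lit 121, nat_lit 29159596032), (nat_lit 27, nat_lit 29159333952), (nat_lit 75, nat_lit 29143080960), (nat_lit 72, nat_lit 29142818880), (nat_lit 54, nat_lit 29142556800), (nat_lit 108, nat_lit 30233075712), (nat_lit 17, nat_lit 30216560640), (nat_lit 72, nat_lit 30216298560), (nat_lit 52, nat_lit 31290040320)]⟩,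
   ⟨V6_24831074304, [(nat_lit 64, nat_lit 25938632832), (nat_lit 112, nat_lit 27012374592), (nat_lit 92, nat_lit 27012112512), (nat_lit 45, nat_lit 26995597440), (nat_lit 50, nat_lit 28086116352), (nat_lit 104, nat_lit 28085854272), (nat_lit 4, nat_lit 28069339200), (nat_lit 7, nat_lit 28069077120), (nat_lit 88, nat_lit 28052562048), (nat_lit 34, nat_lit 29159596032), (nat_lit 7, nat_lit 29143080960), (nat_lit 62, nat_lit 29142818880), (nat_lit 91, nat_lit 29126303808), (nat_lit 9, nat_lit 29126041728), (nat_lit 31, nat_lit 30216560640), (nat_lit 73, nat_lit 30200045568), (nat_lit 3, nat_lit 30199783488), (nat_lit 92, nat_lit 31273525248)]⟩,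
   ⟨V6_23790624768, [(nat_lit 116, nat_lit 25938632832), (nat_lit 38, nat_lit 27012374592), (nat_lit 106, nat_lit 27012112512), (nat_lit 76, nat_lit 28086116352), (nat_lit 82, nat_lit 28085854272), (nat_lit 55, nat_lit 28085592192), (nat_lit 65, nat_lit 29159596032), (nat_lit 26, nat_lit 29159333952), (nat_lit 86, nat_lit 30233075712)]⟩],
  [W_24764227712, W_22683852800, W_20569923584, W_19495919744, W_19479404672, W_18422440064]⟩
theorem C_25938632832 : chkRec R_25938632832 = true := by decide +kernel

noncomputable def R_25938636864 : Rec := ⟨nat_lit 25938636864, nat_lit 79,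
  [⟨V6_22700371968, [(nat_lit 87, nat_lit 25938636864), (nat_lit 7, nat_lit 27012378624), (nat_lit 19, nat_lit 27012116544), (nat_lit 19, nat_lit 26995601472), (nat_lit 107, nat_lit 28085858304), (nat_lit 5, nat_lit 28069343232), (nat_lit 23, nat_lit 28069081152), (nat_lit 123, nat_lit 29142822912)]⟩,
   ⟨V6_21643407360, [(nat_lit 44, nat_lit 25938636864), (nat_lit 11, nat_lit 27012378624), (nat_lit 15, nat_lit 27012116544), (nat_lit 119, nat_lit 28085858304)]⟩,
   ⟨V6_20569927680, [(nat_lit 28, nat_lit 25938636864), (nat_lit 105, nat_lit 27012378624)]⟩],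
  [W_25888034816, W_25871261696, W_25854746624, W_25854742592, W_25837969472, W_24831070208, W_24814555136, W_24814297088, W_24814293056, W_24797782016, W_24797777984, W_24781008896, W_23740817408, W_22683852800]⟩
theorem C_25938636864 : chkRec R_25938636864 = true := by decide +kernel

noncomputable def R_25938640896 : Rec := ⟨nat_lit 25938640896, nat_lit 68,
  [⟨V6_22667083776, [(nat_lit 115, nat_lit 25938640896), (nat_lit 27, nat_lit 26995605504), (nat_lit 69, nat_lit 28052570112), (nat_lit 95, nat_lit 29109534720)]⟩,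
   ⟨V6_20553154560, [(nat_lit 73, nat_lit 25938640896), (nat_lit 2, nat_lit 26995605504)]⟩,
   ⟨V6_19496189952, [(nat_lit 51, nat_lit 25938640896)]⟩],
  [W_25854746624, W_24814555136, W_24797782016, W_24764235776, W_23774363648, W_23757590528, W_22717399040]⟩
theorem C_25938640896 : chkRec R_25938640896 = true := by decide +kernel

noncomputable def R_25938890817 : Rec := ⟨nat_lit 25938890817, nat_lit 9,
  [⟨V6_21643399233, [(nat_lit 89, nat_lit 25938890817), (nat_lit 1, nat_lit 27012370497), (nat_lit 99, nat_lit 28085850177)]⟩,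
   ⟨V6_19496439873, [(nat_lit 125, nat_lit 25938890817)]⟩],
  [W_25887772736, W_25854742592, W_24814293056, W_24797777984, W_24781262912, W_23740813376]⟩
theorem C_25938890817 : chkRec R_25938890817 = true := by decide +kernel

noncomputable def R_25938894912 : Rec := ⟨nat_lit 25938894912, nat_lit 117,
  [⟨V6_25921327104, [(nat_lit 37, nat_lit 25938894912), (nat_lit 42, nat_lit 27012636672), (nat_lit 75, nat_lit 27012632640), (nat_lit 109, nat_lit 27012374592), (nat_lit 1, nat_lit 26995859520), (nat_lit 38, nat_lit 28086374400), (nat_lit 95, nat_lit 28086116352), (nat_lit 16, nat_lit 28086112320), (nat_lit 64, nat_lit 28085854272), (nat_lit 72, nat_lit 28069601280), (nat_lit 6, nat_lit 28069597248), (nat_lit 96, nat_lit 28069339200), (nat_lit 5, nat_lit 29159854080), (nat_lit 95, nat_lit 29159596032), (nat_lit 63, nat_lit 29159592000), (nat_lit 67, nat_lit 29159333952), (nat_lit 68, nat_lit 29143339008), (nat_lit 12, nat_lit 29143080960), (nat_lit 81, nat_lit 29143076928), (nat_lit 89, nat_lit 29142818880), (nat_lit 85, nat_lit 30233333760),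 (nat_lit 32, nat_lit 30233075712), (nat_lit 80, nat_lit 30233071680), (nat_lit 77, nat_lit 30216818688), (nat_lit 44, nat_lit 30216560640), (nat_lit 82, nat_lit 30216556608), (nat_lit 12, nat_lit 30216298560), (nat_lit 56, nat_lit 31306813440), (nat_lit 16, nat_lit 31290298368), (nat_lit 44, nat_lit 31290040320), (nat_lit 39, nat_lit 31290036288), (nat_lit 106, nat_lit 32363778048)]⟩,
   ⟨V6_25904553984, [(nat_lit 70, nat_lit 25938894912), (nat_lit 83, nat_lit 27012636672), (nat_lit 75, nat_lit 27012374592), (nat_lit 5, nat_lit 26995859520), (nat_lit 50, nat_lit 28086116352), (nat_lit 45, nat_lit 28085854272), (nat_lit 8, nat_lit 28069601280), (nat_lit 104, nat_lit 28069339200), (nat_lit 38, nat_lit 28052824128), (nat_lit 63, nat_lit 29159596032), (nat_lit 53, nat_lit 29159333952), (nat_lit 116, nat_lit 29143080960), (nat_lit 51, nat_lit 29142818880), (nat_lit 63, nat_lit 29126565888), (nat_lit 19, nat_lit 29126303808), (nat_lit 91, nat_lit 30233075712), (nat_lit 33, nat_lit 30216560640), (nat_lit 50, nat_lit 30216298560), (nat_lit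 7, nat_lit 30200045568), (nat_lit 125, nat_lit 30199783488), (nat_lit 37, nat_lit 31290040320), (nat_lit 80, nat_lit 31273525248), (nat_lit 114, nat_lit 31273263168), (nat_lit 89, nat_lit 32347004928)]⟩,
   ⟨V6_24864362496, [(nat_lit 32, nat_lit 25938894912), (nat_lit 47, nat_lit 27012636672), (nat_lit 28, nat_lit 27012632640), (nat_lit 69, nat_lit 27012374592), (nat_lit 76, nat_lit 28086374400), (nat_lit 4, nat_lit 28086116352), (nat_lit 39, nat_lit 28086112320), (nat_lit 77, nat_lit 28085854272), (nat_lit 84, nat_lit 29159854080), (nat_lit 16, nat_lit 29159596032), (nat_lit 11, nat_lit 29159592000), (nat_lit 26, nat_lit 29159333952), (nat_lit 124, nat_lit 30233333760), (nat_lit 89, nat_lit 30233075712), (nat_lit 11, nat_lit 30233071680), (nat_lit 73, nat_lit 31306813440)]⟩,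
   ⟨V6_24847589376, [(nat_lit 92, nat_lit 25938894912), (nat_lit 44, nat_lit 27012636672), (nat_lit 37, nat_lit 27012374592), (nat_lit 20, nat_lit 26995859520), (nat_lit 7, nat_lit 28086116352), (nat_lit 79, nat_lit 28085854272), (nat_lit 64, nat_lit 28069601280), (nat_lit 84, nat_lit 28069339200), (nat_lit 18, nat_lit 29159596032), (nat_lit 106, nat_lit 29159333952), (nat_lit 119, nat_lit 29143080960), (nat_lit 105, nat_lit 29142818880), (nat_lit 110, nat_lit 30233075712), (nat_lit 106, nat_lit 30216560640), (nat_lit 89, nat_lit 30216298560), (nat_lit 86, nat_lit 31290040320)]⟩,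
   ⟨V6_24831070272, [(nat_lit 120, nat_lit 25938894912), (nat_lit 112, nat_lit 27012632640), (nat_lit 26, nat_lit 27012374592), (nat_lit 73, nat_lit 26995859520), (nat_lit 5, nat_lit 28086112320), (nat_lit 66, nat_lit 28085854272), (nat_lit 53, nat_lit 28069597248), (nat_lit 99, nat_lit 28069339200), (nat_lit 52, nat_lit 28052824128), (nat_lit 79, nat_lit 29159592000), (nat_lit 29, nat_lit 29143076928), (nat_lit 52, nat_lit 29142818880), (nat_lit 15, nat_lit 29126561856), (nat_lit 3, nat_lit 29126303808), (nat_lit 46, nat_lit 30216556608), (nat_lit 40, nat_lit 30200041536), (nat_lit 29, nat_lit 30199783488), (nat_lit 54, nat_lit 31273521216)]⟩,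
   ⟨V6_23790624768, [(nat_lit 101, nat_lit 25938894912), (nat_lit 125, nat_lit 27012636672), (nat_lit 119, nat_lit 27012374592), (nat_lit 27, nat_lit 28086116352), (nat_lit 47, nat_lit 28085854272), (nat_lit 59, nat_lit 29159596032), (nat_lit 8, nat_lit 29159333952), (nat_lit 97, nat_lit 30233075712)]⟩,
   ⟨V6_23790620736, [(nat_lit 13, nat_lit 25938894912), (nat_lit 13, nat_lit 27012632640), (nat_lit 95, nat_lit 27012374592), (nat_lit 59, nat_lit 28086112320), (nat_lit 96, nat_lit 28085854272), (nat_lit 39, nat_lit 29159592000), (nat_lit 85, nat_lit 29159333952), (nat_lit 9, nat_lit 30233071680)]⟩,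
   ⟨V6_23774105664, [(nat_lit 80, nat_lit 25938894912), (nat_lit 17, nat_lit 27012632640), (nat_lit 10, nat_lit 27012374592), (nat_lit 74, nat_lit 26995859520), (nat_lit 70, nat_lit 28086112320), (nat_lit 96, nat_lit 28085854272), (nat_lit 123, nat_lit 28069597248), (nat_lit 122, nat_lit 28069339200), (nat_lit 121, nat_lit 29159592000), (nat_lit 125, nat_lit 29143076928), (nat_lit 78, nat_lit 29142818880), (nat_lit 124, nat_lit 30216556608)]⟩,
   ⟨V6_22717141056, [(nat_lit 6, nat_lit 25938894912), (nat_lit 17, nat_lit 27012632640), (nat_lit 57, nat_lit 27012374592), (nat_lit 113, nat_lit 28086112320), (nat_lit 68, nat_lit 28085854272), (nat_lit 28, nat_lit 29159592000)]⟩],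
  [W_24831070208, W_24830812160, W_24814297088, W_24798040064, W_24797782016, W_24781266944, W_24781262912, W_23773847552, W_23724302336, W_23707525184, W_22716882944, W_22683852800, W_20569923584]⟩
theorem C_25938894912 : chkRec R_25938894912 = true := by decide +kernel

noncomputable def R_25938898944 : Rec := ⟨nat_lit 25938898944, nat_lit 122,
  [⟨V6_24831590400, [(nat_lit 37, nat_lit 25938898944), (nat_lit 117, nat_lit 27012636672), (nat_lit 83, nat_lit 26995863552), (nat_lit 66, nat_lit 28086374400), (nat_lit 103, nat_lit 28069601280), (nat_lit 107, nat_lit 28052828160), (nat_lit 68, nat_lit 29160112128), (nat_lit 33, nat_lit 29143339008), (nat_lit 34, nat_lit 29126565888), (nat_lit 11, nat_lit 30217076736), (nat_lit 88, nat_lit 30200303616), (nat_lit 119, nat_lit 31274041344)]⟩,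
   ⟨V6_22717661184, [(nat_lit 70, nat_lit 25938898944), (nat_lit 103, nat_lit 27012636672), (nat_lit 118, nat_lit 28086374400), (nat_lit 59, nat_lit 29160112128)]⟩,
   ⟨V6_21643407360, [(nat_lit 105, nat_lit 25938898944), (nat_lit 34, nat_lit 27012378624), (nat_lit 64, nat_lit 28085858304)]⟩,
   ⟨V6_20569927680, [(nat_lit 30, nat_lit 25938898944), (nat_lit 59, nat_lit 27012378624)]⟩],
  [W_25871777792, W_25871519744, W_24831070208, W_24797782016, W_24781266944, W_23790878720, W_23757848576, W_20569923584, W_20553150464, W_19496185856]⟩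
theorem C_25938898944 : chkRec R_25938898944 = true := by decide +kernel

noncomputable def R_25939152960 : Rec := ⟨nat_lit 25939152960, nat_lit 62,
  [⟨V6_22667595840, [(nat_lit 41, nat_lit 25939152960), (nat_lit 3, nat_lit 26996117568), (nat_lit 50, nat_lit 28053082176), (nat_lit 67, nat_lit 29110046784)]⟩,
   ⟨V6_20570443776, [(nat_lit 91, nat_lit 25939152960), (nat_lit 119, nat_lit 27012894720)]⟩],
  [W_25904549888, W_25887772736, W_25871519744, W_24864100352, W_24831070208, W_24814555136, W_24814293056, W_24798040064, W_24797777984, W_23790620672, W_23773843520, W_23757328448, W_23724560384, W_23724298304]⟩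
theorem C_25939152960 : chkRec R_25939152960 = true := by decide +kernel

noncomputable def R_25939156992 : Rec := ⟨nat_lit 25939156992, nat_lit 171,
  [⟨V6_23741337600, [(nat_lit 102, nat_lit 25939156992), (nat_lit 57, nat_lit 27012894720), (nat_lit 71, nat_lit 26996121600), (nat_lit 52, nat_lit 28069859328), (nat_lit 28, nat_lit 28053086208), (nat_lit 34, nat_lit 29126823936), (nat_lit 23, nat_lit 29110050816), (nat_lit 90, nat_lit 30183788544)]⟩,
   ⟨V6_20570443776, [(nat_lit 71, nat_lit 25939156992), (nat_lit 4, nat_lit 27012894720)]⟩,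
   ⟨V6_19496706048, [(nat_lit 109, nat_lit 25939156992)]⟩],
  [W_25921323008, W_25904549888, W_25887776768, W_25871777792, W_25871519744, W_24864358400, W_24847843328, W_24831070208, W_24830812160, W_24814813184, W_24814297088, W_24798298112, W_24797782016, W_23790878720, W_23790620672, W_23773847552, W_23757332480, W_23724302336, W_22716882944, W_22650822656]⟩
theorem C_25939156992 : chkRec R_25939156992 = true := by decide +kernel

noncomputable def R_25939415040 : Rec := ⟨nat_lit 25939415040, nat_lit 113,
  [⟨V6_23741595648, [(nat_lit 102, nat_lit 25939415040), (nat_lit 88, nat_lit 27013152768), (nat_lit 104, nat_lit 26996379648), (nat_lit 126, nat_lit 28070117376), (nat_lit 106, nat_lit 28053344256), (nat_lit 64, nat_lit 29127081984), (nat_lit 30, nat_lit 29110308864), (nat_lit 107, nat_lit 30184046592)]⟩,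
   ⟨V6_21610893312, [(nat_lit 48, nat_lit 25939415040), (nat_lit 61, nat_lit 26996379648), (nat_lit 98, nat_lit 28053344256)]⟩,
   ⟨V6_20570443776, [(nat_lit 23, nat_lit 25939415040), (nat_lit 22, nat_lit 27012894720)]⟩,
   ⟨V6_19496964096, [(nat_lit 48, nat_lit 25939415040)]⟩],
  [W_25921323008, W_25888292864, W_25888034816, W_24864358400, W_24831070208, W_24814555136, W_23790878720, W_23790620672, W_23757848576, W_23741333504, W_21610889216]⟩
theorem C_25939415040 : chkRec R_25939415040 = true := by decide +kernel

noncomputable def R_25939673088 : Rec := ⟨nat_lit 25939673088, nat_lit 59,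
  [⟨V6_22717661184, [(nat_lit 104, nat_lit 25939673088), (nat_lit 1, nat_lit 27013152768), (nat_lit 50, nat_lit 28086632448), (nat_lit 49, nat_lit 29160112128)]⟩,
   ⟨V6_21611151360, [(nat_lit 57, nat_lit 25939673088), (nat_lit 1, nat_lit 26996637696), (nat_lit 37, nat_lit 28053602304)]⟩,
   ⟨V6_20554186752, [(nat_lit 29, nat_lit 25939673088), (nat_lit 93, nat_lit 26996637696)]⟩],
  [W_25921323008, W_24864358400, W_24847843328, W_23790878720, W_20537409536]⟩
theorem C_25939673088 : chkRec R_25939673088 = true := by decide +kernel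

noncomputable def R_25954885761 : Rec := ⟨nat_lit 25954885761, nat_lit 7,
  [⟨V6_25854222465, [(nat_lit 49, nat_lit 25954885761), (nat_lit 5, nat_lit 27011850369), (nat_lit 24, nat_lit 28068814977), (nat_lit 67, nat_lit 29125779585), (nat_lit 106, nat_lit 30182744193), (nat_lit 24, nat_lit 31239708801), (nat_lit 47, nat_lit 32296673409)]⟩,
   ⟨V6_24814035009, [(nat_lit 10, nat_lit 25954885761), (nat_lit 44, nat_lit 27028627521), (nat_lit 33, nat_lit 27011850369), (nat_lit 113, nat_lit 28085592129), (nat_lit 48, nat_lit 28068814977), (nat_lit 98, nat_lit 29142556737), (nat_lit 81, nat_lit 29125779585), (nat_lit 92, nat_lit 30199521345), (nat_lit 107, nat_lit 30182744193), (nat_lit 104, nat_lit 31256485953)]⟩,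
   ⟨V6_22700105793, [(nat_lit 52, nat_lit 25954885761), (nat_lit 65, nat_lit 27028627521), (nat_lit 98, nat_lit 27011850369), (nat_lit 23, nat_lit 28085592129), (nat_lit 110, nat_lit 28068814977), (nat_lit 81, nat_lit 29142556737)]⟩,
   ⟨V6_21643141185, [(nat_lit 88, nat_lit 25954885761), (nat_lit 55, nat_lit 27028627521), (nat_lit 7, nat_lit 27011850369), (nat_lit 87, nat_lit 28085592129)]⟩],
  [W_25870999616, W_20569399424, W_19512434816]⟩
theorem C_25954885761 : chkRec R_25954885761 = true := by decide +kernel

noncomputable def R_25955147841 : Rec := ⟨nat_lit 25955147841, nat_lit 13,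
  [⟨V6_22700105793, [(nat_lit 111, nat_lit 25955147841), (nat_lit 48, nat_lit 27028627521), (nat_lit 59, nat_lit 27012112449), (nat_lit 124, nat_lit 28085592129), (nat_lit 116, nat_lit 28069077057), (nat_lit 92, nat_lit 29142556737)]⟩,
   ⟨V6_21643399233, [(nat_lit 71, nat_lit 25955147841), (nat_lit 50, nat_lit 27028885569), (nat_lit 110, nat_lit 27012112449), (nat_lit 48, nat_lit 28085850177)]⟩,
   ⟨V6_21643141185, [(nat_lit 59, nat_lit 25955147841), (nat_lit 109, nat_lit 27028627521), (nat_lit 88, nat_lit 27012112449), (nat_lit 77, nat_lit 28085592129)]⟩,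
   ⟨V6_20569661505, [(nat_lit 53, nat_lit 25955147841), (nat_lit 19, nat_lit 27012112449)]⟩],
  [W_25887772736, W_25870999616, W_25854484544, W_24797519936, W_19512696896]⟩
theorem C_25955147841 : chkRec R_25955147841 = true := by decide +kernel

noncomputable def R_25955147904 : Rec := ⟨nat_lit 25955147904, nat_lit 34,
  [⟨V6_24831074304, [(nat_lit 103, nat_lit 25955147904), (nat_lit 118, nat_lit 27028889664), (nat_lit 22, nat_lit 27012112512), (nat_lit 103, nat_lit 28102631424), (nat_lit 106, nat_lit 28085854272), (nat_lit 9, nat_lit 28069077120), (nat_lit 113, nat_lit 29159596032), (nat_lit 85, nat_lit 29142818880), (nat_lit 79, nat_lit 29126041728), (nat_lit 2, nat_lit 30216560640), (nat_lit 89, nat_lit 30199783488), (nat_lit 113, nat_lit 31273525248)]⟩,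
   ⟨V6_23790624768, [(nat_lit 29, nat_lit 25955147904), (nat_lit 61, nat_lit 27028889664), (nat_lit 80, nat_lit 27028627584), (nat_lit 64, nat_lit 27012112512), (nat_lit 4, nat_lit 28102631424), (nat_lit 1, nat_lit 28102369344), (nat_lit 108, nat_lit 28085854272), (nat_lit 43, nat_lit 28085592192), (nat_lit 22, nat_lit 29176111104), (nat_lit 33, nat_lit 29159596032), (nat_lit 35, nat_lit 29159333952), (nat_lit 2, nat_lit 30233075712)]⟩],
  [W_25854222464, W_21659918336, W_20586438656, W_20569399424, W_19512696896, W_19495919744]⟩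
theorem C_25955147904 : chkRec R_25955147904 = true := by decide +kernel

noncomputable def R_25955151936 : Rec := ⟨nat_lit 25955151936, nat_lit 33,
  [⟨V6_21660176448, [(nat_lit 24, nat_lit 25955151936), (nat_lit 114, nat_lit 27028889664), (nat_lit 37, nat_lit 28102627392)]⟩,
   ⟨V6_21643407360, [(nat_lit 92, nat_lit 25955151936), (nat_lit 7, nat_lit 27028893696), (nat_lit 87, nat_lit 27012116544), (nat_lit 2, nat_lit 28085858304)]⟩],
  [W_25888034816, W_25871261696, W_25854484544, W_24814297088, W_24814293056, W_24797523968, W_24797519936, W_23757332480]⟩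
theorem C_25955151936 : chkRec R_25955151936 = true := by decide +kernel

noncomputable def R_25955405889 : Rec := ⟨nat_lit 25955405889, nat_lit 7,
  [⟨V6_20569919553, [(nat_lit 41, nat_lit 25955405889), (nat_lit 77, nat_lit 27012370497)]⟩,
   ⟨V6_19512954945, [(nat_lit 61, nat_lit 25955405889)]⟩],
  [W_25887772736, W_25854742592, W_24814293056, W_23773843520, W_22733393984]⟩
theorem C_25955405889 : chkRec R_25955405889 = true := by decide +kernel

noncomputable def R_25955409984 : Rec := ⟨nat_lit 25955409984, nat_lit 103,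
  [⟨V6_23790624768, [(nat_lit 108, nat_lit 25955409984), (nat_lit 8, nat_lit 27029151744), (nat_lit 112, nat_lit 27028889664), (nat_lit 40, nat_lit 27012374592), (nat_lit 40, nat_lit 28102631424), (nat_lit 2, nat_lit 28102369344), (nat_lit 76, nat_lit 28086116352), (nat_lit 62, nat_lit 28085854272), (nat_lit 31, nat_lit 29176111104), (nat_lit 1, nat_lit 29159596032), (nat_lit 31, nat_lit 29159333952), (nat_lit 9, nat_lit 30233075712)]⟩,
   ⟨V6_21660176448, [(nat_lit 76, nat_lit 25955409984), (nat_lit 47, nat_lit 27029147712), (nat_lit 125, nat_lit 27028889664), (nat_lit 116, nat_lit 28102627392)]⟩,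
   ⟨V6_20586700800, [(nat_lit 96, nat_lit 25955409984), (nat_lit 106, nat_lit 27029151744)]⟩],
  [W_25904549888, W_25888034816, W_25871519744, W_25870999616, W_25854746624, W_25854742592, W_25837969472, W_24831070208, W_24797782016, W_22733656064, W_22683852800, W_20586696704]⟩
theorem C_25955409984 : chkRec R_25955409984 = true := by decide +kernel

noncomputable def R_25955414016 : Rec := ⟨nat_lit 25955414016, nat_lit 100,
  [⟨V6_23740821504, [(nat_lit 58, nat_lit 25955414016), (nat_lit 43, nat_lit 27012378624), (nat_lit 23, nat_lit 28069343232), (nat_lit 82, nat_lit 29126307840), (nat_lit 57, nat_lit 30183272448)]⟩,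
   ⟨V6_20569927680, [(nat_lit 106, nat_lit 25955414016), (nat_lit 38, nat_lit 27012378624)]⟩,
   ⟨V6_19512963072, [(nat_lit 106, nat_lit 25955414016)]⟩],
  [W_25888292864, W_25888034816, W_25871519744, W_25871261696, W_25854746624, W_24831070208, W_24781008896, W_23790878720, W_22733914112, W_22700367872, W_21660434432]⟩
theorem C_25955414016 : chkRec R_25955414016 = true := by decide +kernel

noncomputable def R_25955668032 : Rec := ⟨nat_lit 25955668032, nat_lit 66,
  [⟨V6_24880877568, [(nat_lit 14, nat_lit 25955668032), (nat_lit 38, nat_lit 27029409792), (nat_lit 83, nat_lit 27029147712), (nat_lit 42, nat_lit 28102889472), (nat_lit 69, nat_lit 28102627392), (nat_lit 62, nat_lit 29176369152), (nat_lit 69, nat_lit 29176107072), (nat_lit 100, nat_lit 30249848832), (nat_lit 116, nat_lit 30249586752), (nat_lit 29, nat_lit 31323328512)]⟩,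
   ⟨V6_23790620736, [(nat_lit 115, nat_lit 25955668032), (nat_lit 25, nat_lit 27029147712), (nat_lit 50, nat_lit 27012632640), (nat_lit 50, nat_lit 28102627392), (nat_lit 119, nat_lit 28086112320), (nat_lit 67, nat_lit 29176107072), (nat_lit 16, nat_lit 29159592000), (nat_lit 72, nat_lit 30233071680)]⟩,
   ⟨V6_22717141056, [(nat_lit 84, nat_lit 25955668032), (nat_lit 90, nat_lit 27029147712), (nat_lit 124, nat_lit 27012632640), (nat_lit 22, nat_lit 28102627392), (nat_lit 88, nat_lit 28086112320), (nat_lit 18, nat_lit 29159592000)]⟩,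
   ⟨V6_21660176448, [(nat_lit 17, nat_lit 25955668032), (nat_lit 43, nat_lit 27029147712), (nat_lit 66, nat_lit 28102627392)]⟩,
   ⟨V6_20586696768, [(nat_lit 43, nat_lit 25955668032), (nat_lit 38, nat_lit 27029147712)]⟩],
  [W_25904549888, W_25888034816, W_25871519744, W_25854742592, W_24814555136, W_24814293056, W_24798040064, W_24797777984, W_24781262912, W_23741075456, W_22684110848]⟩
theorem C_25955668032 : chkRec R_25955668032 = true := by decide +kernel

noncomputable def R_25955672064 : Rec := ⟨nat_lit 25955672064, nat_lit 155,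
  [⟨V6_24847589376, [(nat_lit 71, nat_lit 25955672064), (nat_lit 86, nat_lit 27029151744), (nat_lit 54, nat_lit 27012636672), (nat_lit 104, nat_lit 28102631424), (nat_lit 86, nat_lit 28086116352), (nat_lit 36, nat_lit 28069601280), (nat_lit 38, nat_lit 29176111104), (nat_lit 23, nat_lit 29159596032), (nat_lit 88, nat_lit 29143080960), (nat_lit 79, nat_lit 30233075712), (nat_lit 105, nat_lit 30216560640), (nat_lit 59, nat_lit 31290040320)]⟩,
   ⟨V6_20586700800, [(nat_lit 68, nat_lit 25955672064), (nat_lit 66, nat_lit 27029151744)]⟩,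
   ⟨V6_19513221120, [(nat_lit 124, nat_lit 25955672064)]⟩],
  [W_25904807936, W_25904549888, W_25888292864, W_25871777792, W_25871519744, W_25871261696, W_25854746624, W_24864358400, W_24847843328, W_24831070208, W_24830812160, W_24814813184, W_24814297088, W_24798040064, W_24797782016, W_24781266944, W_23807393792, W_23773847552, W_23757848576, W_23724302336, W_21659918336]⟩
theorem C_25955672064 : chkRec R_25955672064 = true := by decide +kernel

noncomputable def R_25955930112 : Rec := ⟨nat_lit 25955930112, nat_lit 135,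
  [⟨V6_24880877568, [(nat_lit 113, nat_lit 25955930112), (nat_lit 21, nat_lit 27029409792), (nat_lit 8, nat_lit 28102889472), (nat_lit 70, nat_lit 29176369152), (nat_lit 42, nat_lit 30249848832), (nat_lit 102, nat_lit 31323328512)]⟩,
   ⟨V6_21627408384, [(nat_lit 55, nat_lit 25955930112), (nat_lit 96, nat_lit 27012894720), (nat_lit 94, nat_lit 28069859328)]⟩,
   ⟨V6_20570443776, [(nat_lit 16, nat_lit 25955930112), (nat_lit 92, nat_lit 27012894720)]⟩,
   ⟨V6_19513479168, [(nat_lit 4, nat_lit 25955930112)]⟩],
  [W_25921323008, W_25904549888, W_25888292864, W_25888034816, W_25871777792, W_25871519744, W_24864358400, W_24831070208, W_24814813184, W_24814555136, W_24798298112, W_24798040064, W_23807135744, W_23757848576, W_23741333504, W_23724560384, W_22667595776]⟩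
theorem C_25955930112 : chkRec R_25955930112 = true := by decide +kernel

noncomputable def R_25956188160 : Rec := ⟨nat_lit 25956188160, nat_lit 67,
  [⟨V6_25938100224, [(nat_lit 48, nat_lit 25956188160), (nat_lit 97, nat_lit 27029667840), (nat_lit 12, nat_lit 27013152768), (nat_lit 96, nat_lit 28103147520), (nat_lit 16, nat_lit 28086632448), (nat_lit 60, nat_lit 29176627200), (nat_lit 62, nat_lit 29160112128), (nat_lit 66, nat_lit 30250106880), (nat_lit 68, nat_lit 30233591808), (nat_lit 96, nat_lit 31323586560), (nat_lit 103, nat_lit 31307071488), (nat_lit 27, nat_lit 32380551168)]⟩,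
   ⟨V6_24881135616, [(nat_lit 18, nat_lit 25956188160), (nat_lit 46, nat_lit 27029667840), (nat_lit 74, nat_lit 28103147520), (nat_lit 2, nat_lit 29176627200), (nat_lit 104, nat_lit 30250106880), (nat_lit 91, nat_lit 31323586560)]⟩,
   ⟨V6_22717661184, [(nat_lit 120, nat_lit 25956188160), (nat_lit 75, nat_lit 27029667840), (nat_lit 80, nat_lit 27013152768), (nat_lit 76, nat_lit 28103147520), (nat_lit 105, nat_lit 28086632448), (nat_lit 18, nat_lit 29160112128)]⟩],
  [W_25888292864, W_24814813184, W_23757848576, W_23741333504, W_21627404288, W_21610889216]⟩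
theorem C_25956188160 : chkRec R_25956188160 = true := by decide +kernel

noncomputable def R_25971662913 : Rec := ⟨nat_lit 25971662913, nat_lit 5,
  [⟨V6_22700105793, [(nat_lit 7, nat_lit 25971662913), (nat_lit 112, nat_lit 27028627521), (nat_lit 11, nat_lit 28085592129), (nat_lit 29, nat_lit 29142556737)]⟩,
   ⟨V6_21643141185, [(nat_lit 75, nat_lit 25971662913), (nat_lit 85, nat_lit 27028627521), (nat_lit 14, nat_lit 28085592129)]⟩],
  [W_25887772736, W_24830808128, W_21659914304]⟩
theorem C_25971662913 : chkRec R_25971662913 = true := by decide +kernel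

noncomputable def R_25971662976 : Rec := ⟨nat_lit 25971662976, nat_lit 22,
  [⟨V6_24814035072, [(nat_lit 109, nat_lit 25971662976), (nat_lit 59, nat_lit 27028627584), (nat_lit 84, nat_lit 28085592192), (nat_lit 117, nat_lit 29142556800), (nat_lit 109, nat_lit 30199521408), (nat_lit 54, nat_lit 31256486016)]⟩,
   ⟨V6_21676695552, [(nat_lit 113, nat_lit 25971662976), (nat_lit 4, nat_lit 27045404736), (nat_lit 80, nat_lit 28119146496)]⟩],
  [W_25887776768, W_25870999616, W_24830812160, W_23757070400, W_23740293248]⟩
theorem C_25971662976 : chkRec R_25971662976 = true := by decide +kernel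

noncomputable def R_25971920961 : Rec := ⟨nat_lit 25971920961, nat_lit 5,
  [⟨V6_20603211840, [(nat_lit 117, nat_lit 25971920961), (nat_lit 78, nat_lit 27045662784)]⟩],
  [W_25887772736, W_24830808128, W_23773843520, W_22733393984]⟩
theorem C_25971920961 : chkRec R_25971920961 = true := by decide +kernel

noncomputable def R_25971925056 : Rec := ⟨nat_lit 25971925056, nat_lit 61,
  [⟨V6_22717141056, [(nat_lit 56, nat_lit 25971925056), (nat_lit 81, nat_lit 27045662784), (nat_lit 125, nat_lit 27028889664), (nat_lit 42, nat_lit 28102627392), (nat_lit 77, nat_lit 28085854272), (nat_lit 11, nat_lit 29159592000)]⟩,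
   ⟨V6_21676695552, [(nat_lit 42, nat_lit 25971925056), (nat_lit 117, nat_lit 27045666816), (nat_lit 14, nat_lit 27045404736), (nat_lit 67, nat_lit 28119146496)]⟩,
   ⟨V6_21660176448, [(nat_lit 31, nat_lit 25971925056), (nat_lit 32, nat_lit 27045662784), (nat_lit 85, nat_lit 27028889664), (nat_lit 126, nat_lit 28102627392)]⟩,
   ⟨V6_20603211840, [(nat_lit 29, nat_lit 25971925056), (nat_lit 7, nat_lit 27045662784)]⟩],
  [W_25904549888, W_25888034816, W_25887776768, W_25871261696, W_25870999616, W_25854484544, W_24830812160, W_24814297088, W_24797519936, W_23773847552, W_23757332480, W_23757070400]⟩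
theorem C_25971925056 : chkRec R_25971925056 = true := by decide +kernel

noncomputable def R_25971929088 : Rec := ⟨nat_lit 25971929088, nat_lit 39,
  [⟨V6_24831074304, [(nat_lit 80, nat_lit 25971929088), (nat_lit 64, nat_lit 27045666816), (nat_lit 29, nat_lit 27028893696), (nat_lit 9, nat_lit 28102631424), (nat_lit 36, nat_lit 28085858304), (nat_lit 114, nat_lit 29159596032), (nat_lit 19, nat_lit 29142822912), (nat_lit 76, nat_lit 30216560640), (nat_lit 24, nat_lit 30199787520), (nat_lit 31, nat_lit 31273525248)]⟩,
   ⟨V6_21643407360, [(nat_lit 23, nat_lit 25971929088), (nat_lit 43, nat_lit 27028893696), (nat_lit 28, nat_lit 28085858304)]⟩],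
  [W_21676949504, W_20603211776, W_20569665536, W_19529474048]⟩
theorem C_25971929088 : chkRec R_25971929088 = true := by decide +kernel

noncomputable def R_25972183104 : Rec := ⟨nat_lit 25972183104, nat_lit 51,
  [⟨V6_20603473920, [(nat_lit 2, nat_lit 25972183104), (nat_lit 71, nat_lit 27045924864)]⟩,
   ⟨V6_20586696768, [(nat_lit 105, nat_lit 25972183104), (nat_lit 67, nat_lit 27029147712)]⟩],
  [W_25904549888, W_25888034816, W_25887772736, W_25871519744, W_24847585280, W_24831070208, W_24814555136, W_24814293056, W_24797777984, W_23757328448, W_23740813376]⟩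
theorem C_25972183104 : chkRec R_25972183104 = true := by decide +kernel

noncomputable def R_25972187136 : Rec := ⟨nat_lit 25972187136, nat_lit 140,
  [⟨V6_24847589376, [(nat_lit 108, nat_lit 25972187136), (nat_lit 117, nat_lit 27045666816), (nat_lit 96, nat_lit 27029151744), (nat_lit 72, nat_lit 28119146496), (nat_lit 118, nat_lit 28102631424), (nat_lit 23, nat_lit 28086116352), (nat_lit 77, nat_lit 29176111104), (nat_lit 22, nat_lit 29159596032), (nat_lit 39, nat_lit 29143080960), (nat_lit 92, nat_lit 30233075712), (nat_lit 65, nat_lit 30216560640), (nat_lit 63, nat_lit 31290040320)]⟩,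
   ⟨V6_20603473920, [(nat_lit 109, nat_lit 25972187136), (nat_lit 92, nat_lit 27045924864)]⟩,
   ⟨V6_20586700800, [(nat_lit 66, nat_lit 25972187136), (nat_lit 53, nat_lit 27029151744)]⟩],
  [W_25887776768, W_25871519744, W_25871261696, W_25854746624, W_24864358400, W_24847843328, W_24831070208, W_24814297088, W_24797782016, W_23790878720, W_22750429184, W_21676949504, W_21660434432]⟩
theorem C_25972187136 : chkRec R_25972187136 = true := by decide +kernel

noncomputable def R_25972445184 : Rec := ⟨nat_lit 25972445184, nat_lit 123,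
  [⟨V6_24897650688, [(nat_lit 117, nat_lit 25972445184), (nat_lit 63, nat_lit 27046182912), (nat_lit 9, nat_lit 27045924864), (nat_lit 60, nat_lit 28119662592), (nat_lit 104, nat_lit 28119404544), (nat_lit 34, nat_lit 29193142272), (nat_lit 94, nat_lit 29192884224), (nat_lit 117, nat_lit 30266621952), (nat_lit 106, nat_lit 30266363904), (nat_lit 30, nat_lit 31340101632)]⟩,
   ⟨V6_24831590400, [(nat_lit 87, nat_lit 25972445184), (nat_lit 81, nat_lit 27046182912), (nat_lit 50, nat_lit 27029409792), (nat_lit 62, nat_lit 28103147520), (nat_lit 46, nat_lit 28086374400), (nat_lit 46, nat_lit 29160112128), (nat_lit 40, nat_lit 29143339008), (nat_lit 125, nat_lit 30217076736), (nat_lit 65, nat_lit 30200303616), (nat_lit 125, nat_lit 31274041344)]⟩,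
   ⟨V6_23823912960, [(nat_lit 56, nat_lit 25972445184), (nat_lit 49, nat_lit 27045924864), (nat_lit 41, nat_lit 28119404544), (nat_lit 29, nat_lit 29192884224), (nat_lit 113, nat_lit 30266363904)]⟩,
   ⟨V6_22717661184, [(nat_lit 80, nat_lit 25972445184), (nat_lit 82, nat_lit 27046182912), (nat_lit 43, nat_lit 27029409792), (nat_lit 115, nat_lit 28103147520), (nat_lit 63, nat_lit 28086374400), (nat_lit 81, nat_lit 29160112128)]⟩,
   ⟨V6_20603473920, [(nat_lit 42, nat_lit 25972445184), (nat_lit 108, nat_lit 27045924864)]⟩],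
  [W_25904549888, W_25871777792, W_25871519744, W_24864358400, W_24831070208, W_24798040064, W_23790878720, W_23757848576, W_20586696704, W_19529732096]⟩
theorem C_25972445184 : chkRec R_25972445184 = true := by decide +kernel

noncomputable def R_25972703232 : Rec := ⟨nat_lit 25972703232, nat_lit 90,
  [⟨V6_25971130368, [(nat_lit 86, nat_lit 25972703232), (nat_lit 71, nat_lit 27046182912), (nat_lit 99, nat_lit 28119662592), (nat_lit 67, nat_lit 29193142272), (nat_lit 59, nat_lit 30266621952), (nat_lit 19, nat_lit 31340101632), (nat_lit 115, nat_lit 32413581312)]⟩,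
   ⟨V6_25954615296, [(nat_lit 81, nat_lit 25972703232), (nat_lit 110, nat_lit 27046182912), (nat_lit 81, nat_lit 27029667840), (nat_lit 102, nat_lit 28119662592), (nat_lit 107, nat_lit 28103147520), (nat_lit 55, nat_lit 29193142272), (nat_lit 7, nat_lit 29176627200), (nat_lit 12, nat_lit 30266621952), (nat_lit 26, nat_lit 30250106880), (nat_lit 27, nat_lit 31340101632), (nat_lit 82, nat_lit 31323586560), (nat_lit 13, nat_lit 32397066240)]⟩,
   ⟨V6_25872039936, [(nat_lit 3, nat_lit 25972703232), (nat_lit 74, nat_lit 27029667840), (nat_lit 39, nat_lit 28086632448), (nat_lit 110, nat_lit 29143597056), (nat_lit 12, nat_lit 30200561664), (nat_lit 114, nat_lit 31257526272), (nat_lit 109, nat_lit 32314490880)]⟩,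
   ⟨V6_24897650688, [(nat_lit 49, nat_lit 25972703232), (nat_lit 117, nat_lit 27046182912), (nat_lit 99, nat_lit 28119662592), (nat_lit 9, nat_lit 29193142272), (nat_lit 107, nat_lit 30266621952), (nat_lit 24, nat_lit 31340101632)]⟩,
   ⟨V6_24831590400, [(nat_lit 100, nat_lit 25972703232), (nat_lit 96, nat_lit 27046182912), (nat_lit 41, nat_lit 27029667840), (nat_lit 124, nat_lit 28103147520), (nat_lit 50, nat_lit 28086632448), (nat_lit 25, nat_lit 29160112128), (nat_lit 92, nat_lit 29143597056), (nat_lit 122, nat_lit 30217076736), (nat_lit 40, nat_lit 30200561664), (nat_lit 121, nat_lit 31274041344)]⟩,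
   ⟨V6_22717661184, [(nat_lit 25, nat_lit 25972703232), (nat_lit 116, nat_lit 27046182912), (nat_lit 81, nat_lit 27029667840), (nat_lit 103, nat_lit 28103147520), (nat_lit 86, nat_lit 28086632448), (nat_lit 102, nat_lit 29160112128)]⟩],
  [W_25888292864, W_24864358400, W_24798298112, W_23790878720, W_23757848576, W_23741333504, W_18456510464]⟩
theorem C_25972703232 : chkRec R_25972703232 = true := by decide +kernel

noncomputable def R_25988436033 : Rec := ⟨nat_lit 25988436033, nat_lit 2,
  [⟨V6_23807135808, [(nat_lit 40, nat_lit 25988436033), (nat_lit 75, nat_lit 27062177856), (nat_lit 48, nat_lit 27061915713), (nat_lit 35, nat_lit 27045400641), (nat_lit 96, nat_lit 28135657536), (nat_lit 36, nat_lit 28119142464), (nat_lit 124, nat_lit 28118880321), (nat_lit 111, nat_lit 28102365249), (nat_lit 115, nat_lit 29192622144), (nat_lit 69, nat_lit 29176107072), (nat_lit 95, nat_lit 29175844929), (nat_lit 71, nat_lit 30249586752)]⟩,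
   ⟨V6_19545985089, [(nat_lit 11, nat_lit 25988436033)]⟩],
  [W_25887772736, W_24830808128]⟩
theorem C_25988436033 : chkRec R_25988436033 = true := by decide +kernel

noncomputable def R_25988440128 : Rec := ⟨nat_lit 25988440128, nat_lit 30,
  [⟨V6_21693468672, [(nat_lit 30, nat_lit 25988440128), (nat_lit 92, nat_lit 27062181888), (nat_lit 76, nat_lit 27062177856), (nat_lit 37, nat_lit 28135919616)]⟩,
   ⟨V6_21676695552, [(nat_lit 34, nat_lit 25988440128), (nat_lit 84, nat_lit 27062181888), (nat_lit 63, nat_lit 27045404736), (nat_lit 13, nat_lit 28119146496)]⟩],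
  [W_25904549888, W_25887776768, W_25887772736, W_25870999616, W_24830812160, W_24814035008, W_23757070400, W_18472247360]⟩
theorem C_25988440128 : chkRec R_25988440128 = true := by decide +kernel

noncomputable def R_25988698176 : Rec := ⟨nat_lit 25988698176, nat_lit 33,
  [⟨V6_24831070272, [(nat_lit 65, nat_lit 25988698176), (nat_lit 106, nat_lit 27045662784), (nat_lit 36, nat_lit 28102627392), (nat_lit 45, nat_lit 29159592000), (nat_lit 20, nat_lit 30216556608), (nat_lit 116, nat_lit 31273521216)]⟩,
   ⟨V6_22766948352, [(nat_lit 62, nat_lit 25988698176), (nat_lit 46, nat_lit 27062439936), (nat_lit 19, nat_lit 27062177856), (nat_lit 53, nat_lit 28135919616), (nat_lit 30, nat_lit 28135657536), (nat_lit 39, nat_lit 29209399296)]⟩,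
   ⟨V6_20603211840, [(nat_lit 2, nat_lit 25988698176), (nat_lit 38, nat_lit 27045662784)]⟩,
   ⟨V6_19546247232, [(nat_lit 88, nat_lit 25988698176)]⟩],
  [W_25888034816, W_25887772736, W_24847585280, W_24831070208, W_23790620672]⟩
theorem C_25988698176 : chkRec R_25988698176 = true := by decide +kernel

noncomputable def R_25988702208 : Rec := ⟨nat_lit 25988702208, nat_lit 79,
  [⟨V6_24831074304, [(nat_lit 113, nat_lit 25988702208), (nat_lit 69, nat_lit 27045666816), (nat_lit 45, nat_lit 28102631424), (nat_lit 88, nat_lit 29159596032), (nat_lit 25, nat_lit 30216560640), (nat_lit 18, nat_lit 31273525248)]⟩,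
   ⟨V6_21693726720, [(nat_lit 68, nat_lit 25988702208), (nat_lit 66, nat_lit 27062439936), (nat_lit 86, nat_lit 28136177664)]⟩,
   ⟨V6_21693468672, [(nat_lit 59, nat_lit 25988702208), (nat_lit 47, nat_lit 27062439936), (nat_lit 49, nat_lit 27062181888), (nat_lit 42, nat_lit 28135919616)]⟩,
   ⟨V6_21676695552, [(nat_lit 61, nat_lit 25988702208), (nat_lit 111, nat_lit 27062181888), (nat_lit 15, nat_lit 27045666816), (nat_lit 46, nat_lit 28119146496)]⟩],
  [W_25921323008, W_25887776768, W_24864358400, W_24847843328, W_23790878720, W_19529474048, W_18472509440]⟩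
theorem C_25988702208 : chkRec R_25988702208 = true := by decide +kernel

noncomputable def R_25988960256 : Rec := ⟨nat_lit 25988960256, nat_lit 105,
  [⟨V6_21693726720, [(nat_lit 16, nat_lit 25988960256), (nat_lit 89, nat_lit 27062697984), (nat_lit 23, nat_lit 27062439936), (nat_lit 1, nat_lit 28136177664)]⟩,
   ⟨V6_21693468672, [(nat_lit 61, nat_lit 25988960256), (nat_lit 26, nat_lit 27062439936), (nat_lit 122, nat_lit 28135919616)]⟩,
   ⟨V6_20620247040, [(nat_lit 16, nat_lit 25988960256), (nat_lit 44, nat_lit 27062697984)]⟩,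
   ⟨V6_20603473920, [(nat_lit 126, nat_lit 25988960256), (nat_lit 108, nat_lit 27045924864)]⟩],
  [W_25921323008, W_25921064960, W_25904807936, W_25904549888, W_25888292864, W_25888034816, W_25871519744, W_24864358400, W_24831328256, W_24831070208, W_24814555136, W_23790878720]⟩
theorem C_25988960256 : chkRec R_25988960256 = true := by decide +kernel

noncomputable def R_25989218304 : Rec := ⟨nat_lit 25989218304, nat_lit 73,
  [⟨V6_25971130368, [(nat_lit 14, nat_lit 25989218304), (nat_lit 83, nat_lit 27062697984), (nat_lit 32, nat_lit 27046182912), (nat_lit 36, nat_lit 28136177664), (nat_lit 105, nat_lit 28119662592), (nat_lit 61, nat_lit 29209657344), (nat_lit 99, nat_lit 29193142272), (nat_lit 90, nat_lit 30283137024), (nat_lit 44, nat_lit 30266621952), (nat_lit 99, nat_lit 31356616704), (nat_lit 95, nat_lit 31340101632), (nat_lit 42, nat_lit 32413581312)]⟩,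
   ⟨V6_24914165760, [(nat_lit 98, nat_lit 25989218304), (nat_lit 51, nat_lit 27062697984), (nat_lit 67, nat_lit 28136177664), (nat_lit 55, nat_lit 29209657344), (nat_lit 89, nat_lit 30283137024), (nat_lit 50, nat_lit 31356616704)]⟩,
   ⟨V6_22717661184, [(nat_lit 85, nat_lit 25989218304), (nat_lit 97, nat_lit 27046182912), (nat_lit 94, nat_lit 28103147520), (nat_lit 25, nat_lit 29160112128)]⟩,
   ⟨V6_20620247040, [(nat_lit 11, nat_lit 25989218304), (nat_lit 119, nat_lit 27062697984)]⟩],
  [W_25888292864, W_25871777792, W_24864358400, W_24847843328, W_24814813184, W_23757848576, W_20619984896]⟩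
theorem C_25989218304 : chkRec R_25989218304 = true := by decide +kernel

noncomputable def R_26005213248 : Rec := ⟨nat_lit 26005213248, nat_lit 15,
  [⟨V6_21693468672, [(nat_lit 16, nat_lit 26005213248), (nat_lit 92, nat_lit 27078955008), (nat_lit 43, nat_lit 27062177856), (nat_lit 50, nat_lit 28135919616)]⟩],
  [W_25921064960, W_25904549888, W_25887772736, W_24847585280, W_24830808128]⟩
theorem C_26005213248 : chkRec R_26005213248 = true := by decide +kernel

noncomputable def R_26005217280 : Rec := ⟨nat_lit 26005217280, nat_lit 44,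
  [⟨V6_24847589376, [(nat_lit 16, nat_lit 26005217280), (nat_lit 18, nat_lit 27062181888), (nat_lit 77, nat_lit 28119146496), (nat_lit 61, nat_lit 29176111104), (nat_lit 54, nat_lit 30233075712), (nat_lit 35, nat_lit 31290040320)]⟩,
   ⟨V6_23790624768, [(nat_lit 57, nat_lit 26005217280), (nat_lit 83, nat_lit 27062181888), (nat_lit 41, nat_lit 28119146496), (nat_lit 39, nat_lit 29176111104), (nat_lit 43, nat_lit 30233075712)]⟩,
   ⟨V6_21676695552, [(nat_lit 92, nat_lit 26005217280), (nat_lit 62, nat_lit 27062181888), (nat_lit 20, nat_lit 28119146496)]⟩],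
  [W_23807393792, W_21693464576, W_20636499968, W_19562762240, W_18489024512]⟩
theorem C_26005217280 : chkRec R_26005217280 = true := by decide +kernel

noncomputable def R_26005475328 : Rec := ⟨nat_lit 26005475328, nat_lit 64,
  [⟨V6_24864362496, [(nat_lit 95, nat_lit 26005475328), (nat_lit 76, nat_lit 27078955008), (nat_lit 45, nat_lit 27062439936), (nat_lit 70, nat_lit 28135919616), (nat_lit 94, nat_lit 28119404544), (nat_lit 83, nat_lit 29192884224), (nat_lit 28, nat_lit 29176369152), (nat_lit 36, nat_lit 30249848832), (nat_lit 45, nat_lit 30233333760), (nat_lit 96, nat_lit 31306813440)]⟩,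
   ⟨V6_22783721472, [(nat_lit 35, nat_lit 26005475328), (nat_lit 81, nat_lit 27079213056), (nat_lit 21, nat_lit 27078955008), (nat_lit 115, nat_lit 28152692736), (nat_lit 49, nat_lit 28152434688), (nat_lit 5, nat_lit 29226172416)]⟩,
   ⟨V6_21693726720, [(nat_lit 28, nat_lit 26005475328), (nat_lit 64, nat_lit 27079213056), (nat_lit 87, nat_lit 27062439936), (nat_lit 87, nat_lit 28136177664)]⟩,
   ⟨V6_21693468672, [(nat_lit 40, nat_lit 26005475328), (nat_lit 38, nat_lit 27078955008), (nat_lit 10, nat_lit 27062439936), (nat_lit 22, nat_lit 28135919616)]⟩],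
  [W_25921323008, W_25921064960, W_24847843328, W_23790878720, W_19563020288, W_18489282560]⟩
theorem C_26005475328 : chkRec R_26005475328 = true := by decide +kernel

noncomputable def R_26005733376 : Rec := ⟨nat_lit 26005733376, nat_lit 67,
  [⟨V6_25971130368, [(nat_lit 11, nat_lit 26005733376), (nat_lit 76, nat_lit 27079213056), (nat_lit 36, nat_lit 27062697984), (nat_lit 73, nat_lit 28152692736), (nat_lit 73, nat_lit 28136177664), (nat_lit 8, nat_lit 28119662592), (nat_lit 48, nat_lit 29226172416), (nat_lit 98, nat_lit 29209657344), (nat_lit 61, nat_lit 29193142272), (nat_lit 25, nat_lit 30299652096), (nat_lit 77, nat_lit 30283137024), (nat_lit 18, nat_lit 30266621952), (nat_lit 84, nat_lit 31356616704), (nat_lit 91, nat_lit 31340101632), (nat_lit 71, nat_lit 32413581312)]⟩,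
   ⟨V6_23857201152, [(nat_lit 85, nat_lit 26005733376), (nat_lit 124, nat_lit 27079213056), (nat_lit 123, nat_lit 28152692736), (nat_lit 65, nat_lit 29226172416), (nat_lit 65, nat_lit 30299652096)]⟩,
   ⟨V6_22783721472, [(nat_lit 105, nat_lit 26005733376), (nat_lit 49, nat_lit 27079213056), (nat_lit 65, nat_lit 28152692736), (nat_lit 58, nat_lit 29226172416)]⟩,
   ⟨V6_21693726720, [(nat_lit 93, nat_lit 26005733376), (nat_lit 103, nat_lit 27079213056), (nat_lit 114, nat_lit 27062697984), (nat_lit 117, nat_lit 28136177664)]⟩,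
   ⟨V6_20620247040, [(nat_lit 10, nat_lit 26005733376), (nat_lit 122, nat_lit 27062697984)]⟩],
  [W_25921323008, W_25888292864, W_24864358400, W_24847843328, W_23790878720, W_21709979648]⟩
theorem C_26005733376 : chkRec R_26005733376 = true := by decide +kernel

noncomputable def R_26021728320 : Rec := ⟨nat_lit 26021728320, nat_lit 3,
  [⟨V6_21709983744, [(nat_lit 124, nat_lit 26021728320), (nat_lit 29, nat_lit 27095470080), (nat_lit 107, nat_lit 27078692928), (nat_lit 77, nat_lit 28152434688)]⟩],
  [W_25921064960, W_22733393984]⟩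
theorem C_26021728320 : chkRec R_26021728320 = true := by decide +kernel

noncomputable def R_26021990400 : Rec := ⟨nat_lit 26021990400, nat_lit 36,
  [⟨V6_24864362496, [(nat_lit 59, nat_lit 26021990400), (nat_lit 105, nat_lit 27078955008), (nat_lit 79, nat_lit 28135919616), (nat_lit 109, nat_lit 29192884224), (nat_lit 44, nat_lit 30249848832), (nat_lit 11, nat_lit 31306813440)]⟩,
   ⟨V6_21726756864, [(nat_lit 49, nat_lit 26021990400), (nat_lit 60, nat_lit 27095728128), (nat_lit 119, nat_lit 27095470080), (nat_lit 31, nat_lit 28169207808)]⟩,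
   ⟨V6_21693468672, [(nat_lit 63, nat_lit 26021990400), (nat_lit 116, nat_lit 27078955008), (nat_lit 72, nat_lit 28135919616)]⟩],
  [W_25921064960, W_24880873472, W_22766944256, W_20653015040, W_20636499968, W_19579535360]⟩
theorem C_26021990400 : chkRec R_26021990400 = true := by decide +kernel

noncomputable def R_26022248448 : Rec := ⟨nat_lit 26022248448, nat_lit 43,
  [⟨V6_25921585152, [(nat_lit 38, nat_lit 26022248448), (nat_lit 116, nat_lit 27079213056), (nat_lit 94, nat_lit 28136177664), (nat_lit 109, nat_lit 29193142272), (nat_lit 8, nat_lit 30250106880), (nat_lit 102, nat_lit 31307071488), (nat_lit 119, nat_lit 32364036096)]⟩,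
   ⟨V6_22800236544, [(nat_lit 10, nat_lit 26022248448), (nat_lit 102, nat_lit 27095728128), (nat_lit 21, nat_lit 28169207808), (nat_lit 82, nat_lit 29242687488)]⟩,
   ⟨V6_21693726720, [(nat_lit 106, nat_lit 26022248448), (nat_lit 46, nat_lit 27079213056), (nat_lit 103, nat_lit 28136177664)]⟩],
  [W_21709979648, W_21676949504, W_20653015040, W_19579535360, W_19563020288]⟩
theorem C_26022248448 : chkRec R_26022248448 = true := by decide +kernel

noncomputable def R_26038505472 : Rec := ⟨nat_lit 26038505472, nat_lit 8,
  [⟨V6_21726756864, [(nat_lit 100, nat_lit 26038505472), (nat_lit 73, nat_lit 27112243200), (nat_lit 89, nat_lit 27095470080), (nat_lit 116, nat_lit 28169207808)]⟩,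
   ⟨V6_21709983744, [(nat_lit 105, nat_lit 26038505472), (nat_lit 22, nat_lit 27095470080), (nat_lit 121, nat_lit 28152434688)]⟩],
  [W_25937838080, W_24864100352]⟩
theorem C_26038505472 : chkRec R_26038505472 = true := by decide +kernel

noncomputable def R_26038763520 : Rec := ⟨nat_lit 26038763520, nat_lit 30,
  [⟨V6_25938100224, [(nat_lit 118, nat_lit 26038763520), (nat_lit 74, nat_lit 27095728128), (nat_lit 5, nat_lit 28152692736), (nat_lit 8, nat_lit 29209657344), (nat_lit 14, nat_lit 30266621952), (nat_lit 71, nat_lit 31323586560), (nat_lit 20, nat_lit 32380551168)]⟩,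
   ⟨V6_22800236544, [(nat_lit 117, nat_lit 26038763520), (nat_lit 36, nat_lit 27112243200), (nat_lit 83, nat_lit 27095728128), (nat_lit 48, nat_lit 28185722880), (nat_lit 82, nat_lit 28169207808), (nat_lit 7, nat_lit 29242687488)]⟩,
   ⟨V6_19596312576, [(nat_lit 113, nat_lit 26038763520)]⟩],
  [W_21726494720, W_21709979648, W_20636499968, W_19579535360, W_18522570752]⟩
theorem C_26038763520 : chkRec R_26038763520 = true := by decide +kernel

noncomputable def R_26055278592 : Rec := ⟨nat_lit 26055278592, nat_lit 11,
  [⟨V6_22800236544, [(nat_lit 61, nat_lit 26055278592), (nat_lit 51, nat_lit 27128758272), (nat_lit 115, nat_lit 27112243200), (nat_lit 125, nat_lit 28185722880), (nat_lit 7, nat_lit 28169207808), (nat_lit 87, nat_lit 29242687488)]⟩,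
   ⟨V6_21726756864, [(nat_lit 91, nat_lit 26055278592), (nat_lit 32, nat_lit 27112243200), (nat_lit 119, nat_lit 28169207808)]⟩,
   ⟨V6_19612827648, [(nat_lit 85, nat_lit 26055278592)]⟩],
  [W_25954353152, W_25937838080, W_20669530112, W_19612565504]⟩
theorem C_26055278592 : chkRec R_26055278592 = true := by decide +kernel

noncomputable def R_26071793664 : Rec := ⟨nat_lit 26071793664, nat_lit 7,
  [⟨V6_23857201152, [(nat_lit 70, nat_lit 26071793664), (nat_lit 79, nat_lit 27128758272), (nat_lit 48, nat_lit 28185722880), (nat_lit 3, nat_lit 29242687488), (nat_lit 11, nat_lit 30299652096)]⟩,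
   ⟨V6_19629342720, [(nat_lit 122, nat_lit 26071793664)]⟩],
  [W_23840423936, W_21726494720]⟩
theorem C_26071793664 : chkRec R_26071793664 = true := by decide +kernel

noncomputable def R_26911719681 : Rec := ⟨nat_lit 26911719681, nat_lit 1,
  [⟨V6_20469268737, [(nat_lit 72, nat_lit 26911719681)]⟩],
  [W_23690494016]⟩
theorem C_26911719681 : chkRec R_26911719681 = true := by decide +kernel

noncomputable def R_26928496770 : Rec := ⟨nat_lit 26928496770, nat_lit 1,
  [⟨V6_23690485890, [(nat_lit 62, nat_lit 26928496770), (nat_lit 22, nat_lit 28002234498), (nat_lit 54, nat_lit 27985461378), (nat_lit 15, nat_lit 29075972226), (nat_lit 125, nat_lit 29059199106), (nat_lit 114, nat_lit 30132936834)]⟩],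
  [W_22616752256]⟩
theorem C_26928496770 : chkRec R_26928496770 = true := by decide +kernel

noncomputable def R_26928496833 : Rec := ⟨nat_lit 26928496833, nat_lit 1,
  [⟨V6_22633525377, [(nat_lit 4, nat_lit 26928496833), (nat_lit 36, nat_lit 28002238593), (nat_lit 46, nat_lit 28002234561), (nat_lit 44, nat_lit 29075976321)]⟩],
  [W_23690494016]⟩
theorem C_26928496833 : chkRec R_26928496833 = true := by decide +kernel

noncomputable def R_26928496896 : Rec := ⟨nat_lit 26928496896, nat_lit 2,
  [⟨V6_23690494080, [(nat_lit 30, nat_lit 26928496896), (nat_lit 1, nat_lit 28002238656), (nat_lit 44, nat_lit 27985461504), (nat_lit 26, nat_lit 29075980416), (nat_lit 1, nat_lit 29059203264), (nat_lit 80, nat_lit 30132945024)]⟩],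
  [W_24764235776]⟩
theorem C_26928496896 : chkRec R_26928496896 = true := by decide +kernel

noncomputable def R_26928758913 : Rec := ⟨nat_lit 26928758913, nat_lit 1,
  [⟨V6_21559787649, [(nat_lit 89, nat_lit 26928758913), (nat_lit 6, nat_lit 28002238593)]⟩],
  [W_23707525184]⟩
theorem C_26928758913 : chkRec R_26928758913 = true := by decide +kernel

noncomputable def R_26928758976 : Rec := ⟨nat_lit 26928758976, nat_lit 1,
  [⟨V6_21560049792, [(nat_lit 69, nat_lit 26928758976), (nat_lit 31, nat_lit 28002500736)]⟩],
  [W_24781008896]⟩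
theorem C_26928758976 : chkRec R_26928758976 = true := by decide +kernel

noncomputable def R_26928762945 : Rec := ⟨nat_lit 26928762945, nat_lit 1,
  [⟨V6_24781262913, [(nat_lit 92, nat_lit 26928762945), (nat_lit 59, nat_lit 28002500673), (nat_lit 105, nat_lit 29076238401), (nat_lit 26, nat_lit 30149976129), (nat_lit 93, nat_lit 31223713857)]⟩],
  [W_24781262912]⟩
theorem C_26928762945 : chkRec R_26928762945 = true := by decide +kernel

noncomputable def R_26945269890 : Rec := ⟨nat_lit 26945269890, nat_lit 1,
  [⟨V6_20502818946, [(nat_lit 7, nat_lit 26945269890)]⟩],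
  [W_24764227712]⟩
theorem C_26945269890 : chkRec R_26945269890 = true := by decide +kernel

noncomputable def R_26945273985 : Rec := ⟨nat_lit 26945273985, nat_lit 5,
  [⟨V6_22650298497, [(nat_lit 1, nat_lit 26945273985), (nat_lit 100, nat_lit 28019011713), (nat_lit 28, nat_lit 29092749441)]⟩],
  [W_25837969472, W_23690494016, W_21576564800]⟩
theorem C_26945273985 : chkRec R_26945273985 = true := by decide +kernel

noncomputable def R_26945274048 : Rec := ⟨nat_lit 26945274048, nat_lit 6,
  [⟨V6_20502823104, [(nat_lit 115, nat_lit 26945274048)]⟩],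
  [W_24781008896, W_23724044288]⟩
theorem C_26945274048 : chkRec R_26945274048 = true := by decide +kernel

noncomputable def R_26945527938 : Rec := ⟨nat_lit 26945527938, nat_lit 2,
  [⟨V6_23723516034, [(nat_lit 39, nat_lit 26945527938), (nat_lit 69, nat_lit 28019007618), (nat_lit 6, nat_lit 29092487298), (nat_lit 105, nat_lit 30165966978)]⟩],
  [W_21576818816]⟩
theorem C_26945527938 : chkRec R_26945527938 = true := by decide +kernel

noncomputable def R_26945532033 : Rec := ⟨nat_lit 26945532033, nat_lit 5,
  [⟨V6_22633525377, [(nat_lit 11, nat_lit 26945532033), (nat_lit 73, nat_lit 28019011713), (nat_lit 60, nat_lit 28002496641), (nat_lit 46, nat_lit 29075976321)]⟩,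
   ⟨V6_21576818817, [(nat_lit 102, nat_lit 26945532033), (nat_lit 29, nat_lit 28019269761)]⟩],
  [W_24797519936, W_24781004864, W_23707267136]⟩
theorem C_26945532033 : chkRec R_26945532033 = true := by decide +kernel

noncomputable def R_26945532096 : Rec := ⟨nat_lit 26945532096, nat_lit 2,
  [⟨V6_24781271040, [(nat_lit 15, nat_lit 26945532096), (nat_lit 9, nat_lit 28019273856), (nat_lit 17, nat_lit 28002496704), (nat_lit 124, nat_lit 29093015616), (nat_lit 70, nat_lit 29076238464), (nat_lit 61, nat_lit 30166757376), (nat_lit 112, nat_lit 30149980224), (nat_lit 76, nat_lit 31223721984)]⟩],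
  [W_24797523968, W_23707267136]⟩
theorem C_26945532096 : chkRec R_26945532096 = true := by decide +kernel

noncomputable def R_26945536065 : Rec := ⟨nat_lit 26945536065, nat_lit 4,
  [⟨V6_20503085121, [(nat_lit 49, nat_lit 26945536065)]⟩],
  [W_25854742592, W_24781262912, W_24781004864]⟩
theorem C_26945536065 : chkRec R_26945536065 = true := by decide +kernel

noncomputable def R_26945536128 : Rec := ⟨nat_lit 26945536128, nat_lit 13,
  [⟨V6_22650568704, [(nat_lit 50, nat_lit 26945536128), (nat_lit 63, nat_lit 28019277888), (nat_lit 44, nat_lit 29093019648)]⟩,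
   ⟨V6_21560049792, [(nat_lit 52, nat_lit 26945536128), (nat_lit 108, nat_lit 28002500736)]⟩],
  [W_24797782016, W_23707525184, W_23707267136, W_23707263104, W_22650298496]⟩
theorem C_26945536128 : chkRec R_26945536128 = true := by decide +kernel

noncomputable def R_26945540160 : Rec := ⟨nat_lit 26945540160, nat_lit 4,
  [⟨V6_20503089216, [(nat_lit 33, nat_lit 26945540160)]⟩],
  [W_24798040064, W_24781262912]⟩
theorem C_26945540160 : chkRec R_26945540160 = true := by decide +kernel

noncomputable def R_26945790081 : Rec := ⟨nat_lit 26945790081, nat_lit 5,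
  [⟨V6_21577080897, [(nat_lit 1, nat_lit 26945790081), (nat_lit 99, nat_lit 28019531841)]⟩,
   ⟨V6_21576818817, [(nat_lit 102, nat_lit 26945790081), (nat_lit 99, nat_lit 28019269761)]⟩],
  [W_25870999616, W_21577080896]⟩
theorem C_26945790081 : chkRec R_26945790081 = true := by decide +kernel

noncomputable def R_26945794113 : Rec := ⟨nat_lit 26945794113, nat_lit 2,
  [⟨V6_20503343169, [(nat_lit 7, nat_lit 26945794113)]⟩],
  [W_24797519936]⟩
theorem C_26945794113 : chkRec R_26945794113 = true := by decide +kernel

noncomputable def R_26945794176 : Rec := ⟨nat_lit 26945794176, nat_lit 14,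
  [⟨V6_22650826752, [(nat_lit 55, nat_lit 26945794176), (nat_lit 82, nat_lit 28019535936), (nat_lit 23, nat_lit 29093277696)]⟩],
  [W_24797782016, W_24797519936, W_23724044288]⟩
theorem C_26945794176 : chkRec R_26945794176 = true := by decide +kernel

noncomputable def R_26945798208 : Rec := ⟨nat_lit 26945798208, nat_lit 17,
  [⟨V6_24798302208, [(nat_lit 96, nat_lit 26945798208), (nat_lit 123, nat_lit 28019539968), (nat_lit 115, nat_lit 28019535936), (nat_lit 9, nat_lit 29093277696), (nat_lit 63, nat_lit 29093273664), (nat_lit 54, nat_lit 30167015424), (nat_lit 99, nat_lit 30167011392), (nat_lit 95, nat_lit 31240753152)]⟩,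
   ⟨V6_21577089024, [(nat_lit 48, nat_lit 26945798208), (nat_lit 32, nat_lit 28019539968)]⟩],
  [W_25871519744, W_24797782016, W_21576564800]⟩
theorem C_26945798208 : chkRec R_26945798208 = true := by decide +kernel

noncomputable def R_26945802240 : Rec := ⟨nat_lit 26945802240, nat_lit 11,
  [⟨V6_20503351296, [(nat_lit 49, nat_lit 26945802240)]⟩],
  [W_25871777792, W_23724302336]⟩
theorem C_26945802240 : chkRec R_26945802240 = true := by decide +kernel

noncomputable def R_26962043010 : Rec := ⟨nat_lit 26962043010, nat_lit 4,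
  [⟨V6_23690485890, [(nat_lit 79, nat_lit 26962043010), (nat_lit 39, nat_lit 28019007618), (nat_lit 41, nat_lit 29075972226), (nat_lit 35, nat_lit 30132936834)]⟩,
   ⟨V6_21576556674, [(nat_lit 26, nat_lit 26962043010), (nat_lit 58, nat_lit 28019007618)]⟩],
  [W_26911187072, W_24764227712, W_23740293248]⟩
theorem C_26962043010 : chkRec R_26962043010 = true := by decide +kernel

noncomputable def R_26962047105 : Rec := ⟨nat_lit 26962047105, nat_lit 6,
  [⟨V6_22666817601, [(nat_lit 66, nat_lit 26962047105), (nat_lit 75, nat_lit 28035788865), (nat_lit 22, nat_lit 28035526785), (nat_lit 69, nat_lit 29109268545)]⟩,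
   ⟨V6_22633525377, [(nat_lit 9, nat_lit 26962047105), (nat_lit 50, nat_lit 28019011713), (nat_lit 114, nat_lit 29075976321)]⟩,
   ⟨V6_21593075841, [(nat_lit 73, nat_lit 26962047105), (nat_lit 104, nat_lit 28035526785)]⟩,
   ⟨V6_21576560769, [(nat_lit 95, nat_lit 26962047105), (nat_lit 124, nat_lit 28019011713)]⟩],
  [W_25837969472, W_24764227712, W_23724040256]⟩
theorem C_26962047105 : chkRec R_26962047105 = true := by decide +kernel

noncomputable def R_26962047168 : Rec := ⟨nat_lit 26962047168, nat_lit 4,
  [⟨V6_26911715328, [(nat_lit 51, nat_lit 26962047168), (nat_lit 67, nat_lit 28035788928), (nat_lit 1, nat_lit 28019011776), (nat_lit 111, nat_lit 29109530688), (nat_lit 43, nat_lit 29092753536), (nat_lit 53, nat_lit 29075976384), (nat_lit 1, nat_lit 30183272448), (nat_lit 124, nat_lit 30166495296), (nat_lit 69, nat_lit 30149718144), (nat_lit 70, nat_lit 30132940992), (nat_lit 37, nat_lit 31240237056), (nat_lit 68, nat_lit 31223459904), (nat_lit 50, nat_lit 31206682752), (nat_lit 119, nat_lit 32297201664), (nat_lit 113, nat_lit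 32280424512), (nat_lit 16, nat_lit 33354166272)]⟩,
   ⟨V6_24764231808, [(nat_lit 126, nat_lit 26962047168), (nat_lit 63, nat_lit 28035788928), (nat_lit 90, nat_lit 28019011776), (nat_lit 38, nat_lit 29092753536), (nat_lit 37, nat_lit 29075976384), (nat_lit 48, nat_lit 30149718144), (nat_lit 8, nat_lit 30132940992), (nat_lit 52, nat_lit 31206682752)]⟩],
  [W_21593337920]⟩
theorem C_26962047168 : chkRec R_26962047168 = true := by decide +kernel

noncomputable def R_26962051137 : Rec := ⟨nat_lit 26962051137, nat_lit 6,
  [⟨V6_24764235840, [(nat_lit 39, nat_lit 26962051137), (nat_lit 91, nat_lit 28035792960), (nat_lit 3, nat_lit 28019015745), (nat_lit 102, nat_lit 29092757568), (nat_lit 106, nat_lit 29075980353), (nat_lit 74, nat_lit 30149722176), (nat_lit 97, nat_lit 30132944961), (nat_lit 112, nat_lit 31206686784)]⟩,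
   ⟨V6_23740813377, [(nat_lit 116, nat_lit 26962051137), (nat_lit 109, nat_lit 28035788865), (nat_lit 25, nat_lit 29109526593), (nat_lit 76, nat_lit 30183264321)]⟩,
   ⟨V6_22633529409, [(nat_lit 75, nat_lit 26962051137), (nat_lit 78, nat_lit 28019015745), (nat_lit 61, nat_lit 29075980353)]⟩,
   ⟨V6_21576564801, [(nat_lit 114, nat_lit 26962051137), (nat_lit 98, nat_lit 28019015745)]⟩],
  [W_23740813376, W_23724040256]⟩
theorem C_26962051137 : chkRec R_26962051137 = true := by decide +kernel

noncomputable def R_26962051200 : Rec := ⟨nat_lit 26962051200, nat_lit 21,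
  [⟨V6_23690494080, [(nat_lit 118, nat_lit 26962051200), (nat_lit 47, nat_lit 28019015808), (nat_lit 95, nat_lit 29075980416), (nat_lit 78, nat_lit 30132945024)]⟩,
   ⟨V6_22667083776, [(nat_lit 125, nat_lit 26962051200), (nat_lit 94, nat_lit 28035792960), (nat_lit 110, nat_lit 29109534720)]⟩],
  [W_26911711232, W_24797782016, W_24764235776, W_23724040256, W_22650298496]⟩
theorem C_26962051200 : chkRec R_26962051200 = true := by decide +kernel

noncomputable def R_26962305153 : Rec := ⟨nat_lit 26962305153, nat_lit 9,
  [⟨V6_22650298497, [(nat_lit 20, nat_lit 26962305153), (nat_lit 100, nat_lit 28035784833), (nat_lit 107, nat_lit 28019269761), (nat_lit 78, nat_lit 29092749441)]⟩,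
   ⟨V6_21576818817, [(nat_lit 108, nat_lit 26962305153), (nat_lit 26, nat_lit 28019269761)]⟩],
  [W_26927964224, W_25870999616, W_21593595968]⟩
theorem C_26962305153 : chkRec R_26962305153 = true := by decide +kernel

noncomputable def R_26962309185 : Rec := ⟨nat_lit 26962309185, nat_lit 9,
  [⟨V6_26928484416, [(nat_lit 113, nat_lit 26962309185), (nat_lit 91, nat_lit 28036051008), (nat_lit 79, nat_lit 28036046913), (nat_lit 22, nat_lit 28035788865), (nat_lit 65, nat_lit 28019273793), (nat_lit 28, nat_lit 29109788736), (nat_lit 79, nat_lit 29109784641), (nat_lit 26, nat_lit 29109530688), (nat_lit 103, nat_lit 29109526593), (nat_lit 121, nat_lit 29093015616), (nat_lit 110, nat_lit 29093011521), (nat_lit 96, nat_lit 29092753473), (nat_lit 83, nat_lit 29076238401), (nat_lit 95, nat_lit 30183526464), (nat_lit 9, nat_lit 30183268416), (nat_lit 76, nat_lit 30183264321), (nat_lit 81, nat_lit 30166753344), (nat_lit 107, nat_lit 30166749249), (nat_lit 116, nat_lit 30166495296), (nat_lit 46, nat_lit 30166491201), (nat_lit 102, nat_lit 30149980224),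 (nat_lit 82, nat_lit 30149976129), (nat_lit 13, nat_lit 30149718081), (nat_lit 87, nat_lit 31257006144), (nat_lit 96, nat_lit 31240491072), (nat_lit 48, nat_lit 31240233024), (nat_lit 115, nat_lit 31240228929), (nat_lit 42, nat_lit 31223717952), (nat_lit 48, nat_lit 31223713857), (nat_lit 80, nat_lit 31223459904), (nat_lit 125, nat_lit 31223455809), (nat_lit 8, nat_lit 32313970752), (nat_lit 102, nat_lit 32297455680), (nat_lit 52, nat_lit 32297197632), (nat_lit 13, nat_lit 32297193537), (nat_lit 96, nat_lit 33370935360)]⟩,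
   ⟨V6_25855004736, [(nat_lit 91, nat_lit 26962309185), (nat_lit 49, nat_lit 28036051008), (nat_lit 114, nat_lit 28036046913), (nat_lit 29, nat_lit 28019273793), (nat_lit 1, nat_lit 29109788736), (nat_lit 68, nat_lit 29109784641), (nat_lit 81, nat_lit 29093015616), (nat_lit 116, nat_lit 29093011521), (nat_lit 116, nat_lit 29076238401), (nat_lit 126, nat_lit 30183526464), (nat_lit 117, nat_lit 30166753344), (nat_lit 97, nat_lit 30166749249), (nat_lit 55, nat_lit 30149980224), (nat_lit 60, nat_lit 30149976129), (nat_lit 79, nat_lit 31240491072), (nat_lit 61, nat_lit 31223717952), (nat_lit 71, nat_lit 31223713857), (nat_lit 82, nat_lit 32297455680)]⟩,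
   ⟨V6_24781262913, [(nat_lit 38, nat_lit 26962309185), (nat_lit 118, nat_lit 28036046913), (nat_lit 7, nat_lit 28019273793), (nat_lit 21, nat_lit 29109784641), (nat_lit 13, nat_lit 29093011521), (nat_lit 72, nat_lit 29076238401), (nat_lit 44, nat_lit 30166749249), (nat_lit 103, nat_lit 30149976129), (nat_lit 8, nat_lit 31223713857)]⟩,
   ⟨V6_23740813377, [(nat_lit 49, nat_lit 26962309185), (nat_lit 88, nat_lit 28036046913), (nat_lit 8, nat_lit 28035788865), (nat_lit 113, nat_lit 29109784641), (nat_lit 68, nat_lit 29109526593), (nat_lit 117, nat_lit 30183264321)]⟩,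
   ⟨V6_22667333697, [(nat_lit 126, nat_lit 26962309185), (nat_lit 70, nat_lit 28036046913), (nat_lit 122, nat_lit 29109784641)]⟩,
   ⟨V6_22666817601, [(nat_lit 35, nat_lit 26962309185), (nat_lit 17, nat_lit 28035788865), (nat_lit 70, nat_lit 29109268545)]⟩],
  [W_24814293056, W_21593337920, W_20519858240]⟩
theorem C_26962309185 : chkRec R_26962309185 = true := by decide +kernel

noncomputable def R_26962309248 : Rec := ⟨nat_lit 26962309248, nat_lit 24,
  [⟨V6_24781271040, [(nat_lit 8, nat_lit 26962309248), (nat_lit 80, nat_lit 28036051008), (nat_lit 110, nat_lit 28019273856), (nat_lit 103, nat_lit 29109792768), (nat_lit 43, nat_lit 29093015616), (nat_lit 126, nat_lit 29076238464), (nat_lit 96, nat_lit 30166757376), (nat_lit 79, nat_lit 30149980224), (nat_lit 54, nat_lit 31223721984)]⟩,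
   ⟨V6_23740821504, [(nat_lit 102, nat_lit 26962309248), (nat_lit 125, nat_lit 28036051008), (nat_lit 51, nat_lit 28035788928), (nat_lit 54, nat_lit 29109792768), (nat_lit 36, nat_lit 29109530688), (nat_lit 38, nat_lit 30183272448)]⟩],
  [W_25871261696, W_25854484544, W_24797782016, W_24797523968, W_24781008896, W_24781004864, W_23723778176, W_23707525184, W_23707267136, W_23707263104, W_22666813568]⟩
theorem C_26962309248 : chkRec R_26962309248 = true := by decide +kernel

noncomputable def R_26962313280 : Rec := ⟨nat_lit 26962313280, nat_lit 32,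
  [⟨V6_23724048384, [(nat_lit 120, nat_lit 26962313280), (nat_lit 82, nat_lit 28036055040), (nat_lit 118, nat_lit 28035792960), (nat_lit 13, nat_lit 28019277888), (nat_lit 96, nat_lit 29109534720), (nat_lit 54, nat_lit 29093019648), (nat_lit 12, nat_lit 29092757568), (nat_lit 99, nat_lit 30166499328)]⟩,
   ⟨V6_22667083776, [(nat_lit 68, nat_lit 26962313280), (nat_lit 102, nat_lit 28036055040), (nat_lit 87, nat_lit 28035792960), (nat_lit 29, nat_lit 29109534720)]⟩],
  [W_26928484352, W_25871519744, W_25854742592, W_24814555136, W_24798040064, W_23741075456, W_23740813376, W_22667333696]⟩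
theorem C_26962313280 : chkRec R_26962313280 = true := by decide +kernel

noncomputable def R_26962317312 : Rec := ⟨nat_lit 26962317312, nat_lit 9,
  [⟨V6_20519866368, [(nat_lit 100, nat_lit 26962317312)]⟩],
  [W_25871777792, W_24798040064, W_19446124544]⟩
theorem C_26962317312 : chkRec R_26962317312 = true := by decide +kernel

noncomputable def R_26962567233 : Rec := ⟨nat_lit 26962567233, nat_lit 8,
  [⟨V6_22667595840, [(nat_lit 45, nat_lit 26962567233), (nat_lit 102, nat_lit 28036309056), (nat_lit 64, nat_lit 28036304961), (nat_lit 87, nat_lit 29110046784)]⟩],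
  [W_25870999616, W_24797519936, W_23724040256]⟩
theorem C_26962567233 : chkRec R_26962567233 = true := by decide +kernel

noncomputable def R_26962567296 : Rec := ⟨nat_lit 26962567296, nat_lit 26,
  [⟨V6_23724564480, [(nat_lit 29, nat_lit 26962567296), (nat_lit 20, nat_lit 28036309056), (nat_lit 98, nat_lit 28019531904), (nat_lit 59, nat_lit 29110050816), (nat_lit 20, nat_lit 29093273664), (nat_lit 1, nat_lit 30167015424)]⟩,
   ⟨V6_21577080960, [(nat_lit 50, nat_lit 26962567296), (nat_lit 92, nat_lit 28019531904)]⟩],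
  [W_25887776768, W_25870999616, W_24814297088, W_23740817408, W_23740293248]⟩
theorem C_26962567296 : chkRec R_26962567296 = true := by decide +kernel

noncomputable def R_26962571328 : Rec := ⟨nat_lit 26962571328, nat_lit 40,
  [⟨V6_22667595840, [(nat_lit 54, nat_lit 26962571328), (nat_lit 30, nat_lit 28036309056), (nat_lit 16, nat_lit 29110046784)]⟩,
   ⟨V6_21593862144, [(nat_lit 24, nat_lit 26962571328), (nat_lit 16, nat_lit 28036313088)]⟩],
  [W_25888034816, W_25871261696, W_24814297088, W_24814293056, W_24797782016, W_24797777984, W_24797523968, W_24797519936, W_23724302336]⟩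
theorem C_26962571328 : chkRec R_26962571328 = true := by decide +kernel

noncomputable def R_26962575360 : Rec := ⟨nat_lit 26962575360, nat_lit 42,
  [⟨V6_25872039936, [(nat_lit 60, nat_lit 26962575360), (nat_lit 118, nat_lit 28036313088), (nat_lit 106, nat_lit 28019539968), (nat_lit 69, nat_lit 29110050816), (nat_lit 39, nat_lit 29093277696), (nat_lit 28, nat_lit 30183788544), (nat_lit 117, nat_lit 30167015424), (nat_lit 34, nat_lit 31257526272), (nat_lit 25, nat_lit 31240753152), (nat_lit 15, nat_lit 32314490880)]⟩,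
   ⟨V6_22667083776, [(nat_lit 63, nat_lit 26962575360), (nat_lit 122, nat_lit 28036055040), (nat_lit 13, nat_lit 29109534720)]⟩,
   ⟨V6_21577089024, [(nat_lit 102, nat_lit 26962575360), (nat_lit 81, nat_lit 28019539968)]⟩],
  [W_25888292864, W_23741333504, W_23740817408, W_22667595776]⟩
theorem C_26962575360 : chkRec R_26962575360 = true := by decide +kernel

noncomputable def R_26962825281 : Rec := ⟨nat_lit 26962825281, nat_lit 3,
  [⟨V6_20520374337, [(nat_lit 113, nat_lit 26962825281)]⟩],
  [W_25887772736, W_24814293056]⟩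
theorem C_26962825281 : chkRec R_26962825281 = true := by decide +kernel

noncomputable def R_26962829376 : Rec := ⟨nat_lit 26962829376, nat_lit 24,
  [⟨V6_22667857920, [(nat_lit 77, nat_lit 26962829376), (nat_lit 82, nat_lit 28036571136), (nat_lit 47, nat_lit 28036567104), (nat_lit 31, nat_lit 29110308864)]⟩,
   ⟨V6_22667595840, [(nat_lit 33, nat_lit 26962829376), (nat_lit 114, nat_lit 28036567104), (nat_lit 13, nat_lit 28036309056), (nat_lit 1, nat_lit 29110046784)]⟩],
  [W_25887776768, W_24814555136, W_24814297088, W_24814293056, W_24814035008]⟩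
theorem C_26962829376 : chkRec R_26962829376 = true := by decide +kernel

noncomputable def R_26962833408 : Rec := ⟨nat_lit 26962833408, nat_lit 26,
  [⟨V6_22667857920, [(nat_lit 6, nat_lit 26962833408), (nat_lit 88, nat_lit 28036571136), (nat_lit 30, nat_lit 29110308864)]⟩,
   ⟨V6_20520382464, [(nat_lit 17, nat_lit 26962833408)]⟩],
  [W_25888292864, W_25888034816, W_24814297088, W_23741333504, W_23740559360]⟩
theorem C_26962833408 : chkRec R_26962833408 = true := by decide +kernel

noncomputable def R_26978558082 : Rec := ⟨nat_lit 26978558082, nat_lit 3,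
  [⟨V6_23723516034, [(nat_lit 30, nat_lit 26978558082), (nat_lit 34, nat_lit 28052037762), (nat_lit 45, nat_lit 28035522690), (nat_lit 96, nat_lit 29109002370), (nat_lit 80, nat_lit 29092487298), (nat_lit 79, nat_lit 30165966978)]⟩,
   ⟨V6_22666551426, [(nat_lit 6, nat_lit 26978558082), (nat_lit 123, nat_lit 28052037762), (nat_lit 55, nat_lit 28035522690), (nat_lit 53, nat_lit 29109002370)]⟩],
  [W_26911187072, W_23740293248]⟩
theorem C_26978558082 : chkRec R_26978558082 = true := by decide +kernel

noncomputable def R_26978562177 : Rec := ⟨nat_lit 26978562177, nat_lit 2,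
  [⟨V6_20536111233, [(nat_lit 19, nat_lit 26978562177)]⟩],
  [W_24797519936]⟩
theorem C_26978562177 : chkRec R_26978562177 = true := by decide +kernel

noncomputable def R_26978820225 : Rec := ⟨nat_lit 26978820225, nat_lit 13,
  [⟨V6_24814035072, [(nat_lit 45, nat_lit 26978820225), (nat_lit 114, nat_lit 28052562048), (nat_lit 117, nat_lit 28052299905), (nat_lit 91, nat_lit 28035784833), (nat_lit 32, nat_lit 29126041728), (nat_lit 106, nat_lit 29125779585), (nat_lit 96, nat_lit 29109526656), (nat_lit 93, nat_lit 29109264513), (nat_lit 70, nat_lit 30199521408), (nat_lit 86, nat_lit 30183006336), (nat_lit 18, nat_lit 30182744193), (nat_lit 3, nat_lit 31256486016)]⟩,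
   ⟨V6_23723778177, [(nat_lit 126, nat_lit 26978820225), (nat_lit 64, nat_lit 28052299905), (nat_lit 42, nat_lit 28035784833), (nat_lit 121, nat_lit 29109264513), (nat_lit 106, nat_lit 29092749441), (nat_lit 54, nat_lit 30166229121)]⟩,
   ⟨V6_22650298497, [(nat_lit 13, nat_lit 26978820225), (nat_lit 41, nat_lit 28035784833), (nat_lit 64, nat_lit 29092749441)]⟩],
  [W_25837969472, W_24781004864, W_23757070400, W_22667075648]⟩
theorem C_26978820225 : chkRec R_26978820225 = true := by decide +kernel

noncomputable def R_26978824257 : Rec := ⟨nat_lit 26978824257, nat_lit 9,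
  [⟨V6_24831070272, [(nat_lit 62, nat_lit 26978824257), (nat_lit 72, nat_lit 28052566080), (nat_lit 56, nat_lit 28052561985), (nat_lit 11, nat_lit 28052303937), (nat_lit 3, nat_lit 29126303808), (nat_lit 50, nat_lit 29126299713), (nat_lit 52, nat_lit 29126045760), (nat_lit 31, nat_lit 29126041665), (nat_lit 41, nat_lit 30200041536), (nat_lit 17, nat_lit 30199783488), (nat_lit 85, nat_lit 30199779393), (nat_lit 55, nat_lit 31273521216)]⟩,
   ⟨V6_23757328449, [(nat_lit 106, nat_lit 26978824257), (nat_lit 8, nat_lit 28052561985), (nat_lit 35, nat_lit 28052303937), (nat_lit 4, nat_lit 29126299713), (nat_lit 81, nat_lit 29126041665), (nat_lit 117, nat_lit 30199779393)]⟩,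
   ⟨V6_23740813377, [(nat_lit 107, nat_lit 26978824257), (nat_lit 96, nat_lit 28052561985), (nat_lit 69, nat_lit 28035788865), (nat_lit 63, nat_lit 29126299713), (nat_lit 81, nat_lit 29109526593), (nat_lit 54, nat_lit 30183264321)]⟩,
   ⟨V6_22666817601, [(nat_lit 74, nat_lit 26978824257), (nat_lit 114, nat_lit 28052303937), (nat_lit 99, nat_lit 28035788865), (nat_lit 22, nat_lit 29109268545)]⟩],
  [W_23724040256, W_20536373312]⟩
theorem C_26978824257 : chkRec R_26978824257 = true := by decide +kernel

noncomputable def R_26978824320 : Rec := ⟨nat_lit 26978824320, nat_lit 30,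
  [⟨V6_24764231808, [(nat_lit 88, nat_lit 26978824320), (nat_lit 118, nat_lit 28035788928), (nat_lit 21, nat_lit 29092753536), (nat_lit 115, nat_lit 30149718144), (nat_lit 43, nat_lit 31206682752)]⟩,
   ⟨V6_22683856896, [(nat_lit 68, nat_lit 26978824320), (nat_lit 106, nat_lit 28052566080), (nat_lit 70, nat_lit 29126307840)]⟩],
  [W_26911711232, W_25871261696, W_25837969472, W_24814297088, W_23757332480, W_22683590720]⟩
theorem C_26978824320 : chkRec R_26978824320 = true := by decide +kernel

noncomputable def R_26978828352 : Rec := ⟨nat_lit 26978828352, nat_lit 36,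
  [⟨V6_22667083776, [(nat_lit 62, nat_lit 26978828352), (nat_lit 9, nat_lit 28052570112), (nat_lit 46, nat_lit 28035792960), (nat_lit 6, nat_lit 29109534720)]⟩,
   ⟨V6_21610119168, [(nat_lit 14, nat_lit 26978828352), (nat_lit 94, nat_lit 28052570112)]⟩],
  [W_26911711232, W_25871519744, W_25854742592, W_25837969472, W_24814555136, W_23757590528, W_22683848768]⟩
theorem C_26978828352 : chkRec R_26978828352 = true := by decide +kernel

noncomputable def R_26979082305 : Rec := ⟨nat_lit 26979082305, nat_lit 14,
  [⟨V6_24831070272, [(nat_lit 88, nat_lit 26979082305), (nat_lit 53, nat_lit 28052824128), (nat_lit 9, nat_lit 28052820033), (nat_lit 33, nat_lit 28052561985), (nat_lit 7, nat_lit 29126561856), (nat_lit 57, nat_lit 29126303808), (nat_lit 29, nat_lit 29126299713), (nat_lit 4, nat_lit 29126041665), (nat_lit 78, nat_lit 30200041536), (nat_lit 49, nat_lit 30199783488), (nat_lit 79, nat_lit 30199779393), (nat_lit 37, nat_lit 31273521216)]⟩,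
   ⟨V6_24781262913, [(nat_lit 25, nat_lit 26979082305), (nat_lit 99, nat_lit 28052820033), (nat_lit 76, nat_lit 28036046913), (nat_lit 14, nat_lit 29109784641), (nat_lit 6, nat_lit 29093011521), (nat_lit 111, nat_lit 30166749249), (nat_lit 125, nat_lit 30149976129), (nat_lit 20, nat_lit 31223713857)]⟩,
   ⟨V6_23757328449, [(nat_lit 51, nat_lit 26979082305), (nat_lit 70, nat_lit 28052820033), (nat_lit 41, nat_lit 28052561985), (nat_lit 109, nat_lit 29126299713), (nat_lit 76, nat_lit 29126041665), (nat_lit 43, nat_lit 30199779393)]⟩,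
   ⟨V6_22667333697, [(nat_lit 53, nat_lit 26979082305), (nat_lit 41, nat_lit 28052820033), (nat_lit 58, nat_lit 28036046913), (nat_lit 39, nat_lit 29109784641)]⟩,
   ⟨V6_21610369089, [(nat_lit 29, nat_lit 26979082305), (nat_lit 48, nat_lit 28052820033)]⟩],
  [W_26928222272, W_25887772736, W_25870999616, W_25854742592, W_24781262912, W_23757070400, W_23724040256]⟩
theorem C_26979082305 : chkRec R_26979082305 = true := by decide +kernel

noncomputable def R_26979082368 : Rec := ⟨nat_lit 26979082368, nat_lit 41,
  [⟨V6_25904553984, [(nat_lit 106, nat_lit 26979082368), (nat_lit 41, nat_lit 28052824128), (nat_lit 22, nat_lit 28052562048), (nat_lit 66, nat_lit 29126565888), (nat_lit 113, nat_lit 29126303808), (nat_lit 65, nat_lit 29126041728), (nat_lit 27, nat_lit 30200045568), (nat_lit 29, nat_lit 30199783488), (nat_lit 122, nat_lit 30199521408), (nat_lit 54, nat_lit 31273525248), (nat_lit 50, nat_lit 31273263168), (nat_lit 38, nat_lit 32347004928)]⟩,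
   ⟨V6_24831074304, [(nat_lit 78, nat_lit 26979082368), (nat_lit 116, nat_lit 28052824128), (nat_lit 42, nat_lit 28052562048), (nat_lit 50, nat_lit 29126565888), (nat_lit 96, nat_lit 29126303808), (nat_lit 28, nat_lit 29126041728), (nat_lit 107, nat_lit 30200045568), (nat_lit 9, nat_lit 30199783488), (nat_lit 4, nat_lit 31273525248)]⟩,
   ⟨V6_24814035072, [(nat_lit 14, nat_lit 26979082368), (nat_lit 72, nat_lit 28052562048), (nat_lit 93, nat_lit 28036046976), (nat_lit 102, nat_lit 29126041728), (nat_lit 82, nat_lit 29109526656), (nat_lit 119, nat_lit 30199521408), (nat_lit 9, nat_lit 30183006336), (nat_lit 87, nat_lit 31256486016)]⟩],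
  [W_24797782016, W_23724302336, W_22683852800, W_19462889600]⟩
theorem C_26979082368 : chkRec R_26979082368 = true := by decide +kernel

noncomputable def R_26979086400 : Rec := ⟨nat_lit 26979086400, nat_lit 58,
  [⟨V6_23740821504, [(nat_lit 112, nat_lit 26979086400), (nat_lit 94, nat_lit 28052828160), (nat_lit 35, nat_lit 28052566080), (nat_lit 99, nat_lit 28036051008), (nat_lit 3, nat_lit 29126307840), (nat_lit 93, nat_lit 29109792768), (nat_lit 33, nat_lit 29109530688), (nat_lit 21, nat_lit 30183272448)]⟩,
   ⟨V6_22683856896, [(nat_lit 76, nat_lit 26979086400), (nat_lit 114, nat_lit 28052828160), (nat_lit 30, nat_lit 28052566080), (nat_lit 10, nat_lit 29126307840)]⟩],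
  [W_26928222272, W_25888034816, W_25871261696, W_24831070208, W_24814293056, W_24798040064, W_24781262912, W_23741075456, W_22683852800]⟩
theorem C_26979086400 : chkRec R_26979086400 = true := by decide +kernel

noncomputable def R_26979090432 : Rec := ⟨nat_lit 26979090432, nat_lit 53,
  [⟨V6_24831590400, [(nat_lit 34, nat_lit 26979090432), (nat_lit 114, nat_lit 28052828160), (nat_lit 49, nat_lit 29126565888), (nat_lit 18, nat_lit 30200303616), (nat_lit 30, nat_lit 31274041344)]⟩,
   ⟨V6_21610119168, [(nat_lit 49, nat_lit 26979090432), (nat_lit 19, nat_lit 28052570112)]⟩],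
  [W_26928484352, W_25888292864, W_25871519744, W_25854746624, W_24797782016, W_24781008896, W_22683852800]⟩
theorem C_26979090432 : chkRec R_26979090432 = true := by decide +kernel

noncomputable def R_26979340353 : Rec := ⟨nat_lit 26979340353, nat_lit 3,
  [⟨V6_20536889409, [(nat_lit 125, nat_lit 26979340353)]⟩],
  [W_25887772736, W_24797777984, W_23724298304]⟩
theorem C_26979340353 : chkRec R_26979340353 = true := by decide +kernel

noncomputable def R_26979344448 : Rec := ⟨nat_lit 26979344448, nat_lit 69,
  [⟨V6_25904553984, [(nat_lit 8, nat_lit 26979344448), (nat_lit 65, nat_lit 28053086208), (nat_lit 102, nat_lit 28052824128), (nat_lit 86, nat_lit 29126565888), (nat_lit 22, nat_lit 29126303808), (nat_lit 21, nat_lit 30200045568), (nat_lit 77, nat_lit 30199783488), (nat_lit 21, nat_lit 31273525248), (nat_lit 62, nat_lit 31273263168), (nat_lit 85, nat_lit 32347004928)]⟩,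
   ⟨V6_23741337600, [(nat_lit 104, nat_lit 26979344448), (nat_lit 56, nat_lit 28053086208), (nat_lit 46, nat_lit 28053082176), (nat_lit 2, nat_lit 28036309056), (nat_lit 20, nat_lit 29126823936), (nat_lit 45, nat_lit 29110050816), (nat_lit 4, nat_lit 29110046784), (nat_lit 120, nat_lit 30183788544)]⟩,
   ⟨V6_23724564480, [(nat_lit 62, nat_lit 26979344448), (nat_lit 93, nat_lit 28053086208), (nat_lit 26, nat_lit 28036309056), (nat_lit 24, nat_lit 29110050816), (nat_lit 59, nat_lit 29093273664), (nat_lit 40, nat_lit 30167015424)]⟩,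
   ⟨V6_22667595840, [(nat_lit 111, nat_lit 26979344448), (nat_lit 2, nat_lit 28053082176), (nat_lit 40, nat_lit 28036309056), (nat_lit 5, nat_lit 29110046784)]⟩],
  [W_24831070208, W_24830812160, W_24797782016, W_22683852800, W_20536893440]⟩
theorem C_26979344448 : chkRec R_26979344448 = true := by decide +kernel

noncomputable def R_26979348480 : Rec := ⟨nat_lit 26979348480, nat_lit 82,
  [⟨V6_24798302208, [(nat_lit 87, nat_lit 26979348480), (nat_lit 98, nat_lit 28053086208), (nat_lit 15, nat_lit 28036313088), (nat_lit 52, nat_lit 29126823936), (nat_lit 24, nat_lit 29110050816), (nat_lit 55, nat_lit 29093277696), (nat_lit 8, nat_lit 30183788544), (nat_lit 76, nat_lit 30167015424), (nat_lit 107, nat_lit 31240753152)]⟩,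
   ⟨V6_23724564480, [(nat_lit 120, nat_lit 26979348480), (nat_lit 14, nat_lit 28053086208), (nat_lit 26, nat_lit 28036313088), (nat_lit 21, nat_lit 29110050816), (nat_lit 81, nat_lit 29093277696), (nat_lit 122, nat_lit 30167015424)]⟩,
   ⟨V6_22683856896, [(nat_lit 77, nat_lit 26979348480), (nat_lit 8, nat_lit 28052828160), (nat_lit 30, nat_lit 29126307840)]⟩,
   ⟨V6_22650826752, [(nat_lit 84, nat_lit 26979348480), (nat_lit 50, nat_lit 28036313088), (nat_lit 13, nat_lit 29093277696)]⟩],
  [W_25888292864, W_25888034816, W_25871261696, W_24831070208, W_23757848576, W_20536893440, W_19463155712]⟩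
theorem C_26979348480 : chkRec R_26979348480 = true := by decide +kernel

noncomputable def R_26979602496 : Rec := ⟨nat_lit 26979602496, nat_lit 27,
  [⟨V6_22667857920, [(nat_lit 34, nat_lit 26979602496), (nat_lit 50, nat_lit 28053344256), (nat_lit 58, nat_lit 28036567104), (nat_lit 118, nat_lit 29110308864)]⟩,
   ⟨V6_21610893312, [(nat_lit 13, nat_lit 26979602496), (nat_lit 51, nat_lit 28053344256)]⟩],
  [W_25904549888, W_25888034816, W_25887772736, W_24814555136, W_24814293056]⟩
theorem C_26979602496 : chkRec R_26979602496 = true := by decide +kernel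

noncomputable def R_26979606528 : Rec := ⟨nat_lit 26979606528, nat_lit 69,
  [⟨V6_23741595648, [(nat_lit 25, nat_lit 26979606528), (nat_lit 18, nat_lit 28053344256), (nat_lit 104, nat_lit 28036571136), (nat_lit 102, nat_lit 29127081984), (nat_lit 108, nat_lit 29110308864), (nat_lit 118, nat_lit 30184046592)]⟩,
   ⟨V6_22667857920, [(nat_lit 106, nat_lit 26979606528), (nat_lit 82, nat_lit 28053344256), (nat_lit 116, nat_lit 28036571136), (nat_lit 78, nat_lit 29110308864)]⟩,
   ⟨V6_21610893312, [(nat_lit 108, nat_lit 26979606528), (nat_lit 43, nat_lit 28053344256)]⟩,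
   ⟨V6_20537155584, [(nat_lit 27, nat_lit 26979606528)]⟩],
  [W_25904549888, W_25888292864, W_25888034816, W_25887776768, W_24831328256, W_24830812160, W_24814297088, W_23741333504]⟩
theorem C_26979606528 : chkRec R_26979606528 = true := by decide +kernel

noncomputable def R_26979864576 : Rec := ⟨nat_lit 26979864576, nat_lit 31,
  [⟨V6_24831590400, [(nat_lit 49, nat_lit 26979864576), (nat_lit 56, nat_lit 28053602304), (nat_lit 92, nat_lit 28053344256), (nat_lit 40, nat_lit 29127081984), (nat_lit 125, nat_lit 29126823936), (nat_lit 87, nat_lit 30200561664), (nat_lit 77, nat_lit 30200303616), (nat_lit 60, nat_lit 31274041344)]⟩,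
   ⟨V6_21610893312, [(nat_lit 112, nat_lit 26979864576), (nat_lit 74, nat_lit 28053344256)]⟩],
  [W_25904549888, W_24831328256, W_24831070208]⟩
theorem C_26979864576 : chkRec R_26979864576 = true := by decide +kernel

noncomputable def R_26995073154 : Rec := ⟨nat_lit 26995073154, nat_lit 2,
  [⟨V6_22666551426, [(nat_lit 34, nat_lit 26995073154), (nat_lit 92, nat_lit 28052037762), (nat_lit 53, nat_lit 29109002370)]⟩,
   ⟨V6_20552622210, [(nat_lit 100, nat_lit 26995073154)]⟩],
  [W_26911187072, W_25854222464]⟩
theorem C_26995073154 : chkRec R_26995073154 = true := by decide +kernel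

noncomputable def R_26995335297 : Rec := ⟨nat_lit 26995335297, nat_lit 9,
  [⟨V6_24814035072, [(nat_lit 36, nat_lit 26995335297), (nat_lit 80, nat_lit 28069077120), (nat_lit 28, nat_lit 28068814977), (nat_lit 89, nat_lit 28052299905), (nat_lit 46, nat_lit 29142556800), (nat_lit 2, nat_lit 29126041728), (nat_lit 108, nat_lit 29125779585), (nat_lit 55, nat_lit 29109264513), (nat_lit 91, nat_lit 30199521408), (nat_lit 72, nat_lit 30183006336), (nat_lit 119, nat_lit 30182744193), (nat_lit 93, nat_lit 31256486016)]⟩,
   ⟨V6_22700105793, [(nat_lit 68, nat_lit 26995335297), (nat_lit 120, nat_lit 28069077057), (nat_lit 46, nat_lit 28068814977), (nat_lit 110, nat_lit 29142556737)]⟩],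
  [W_25870999616, W_23757070400, W_23740555328]⟩
theorem C_26995335297 : chkRec R_26995335297 = true := by decide +kernel

noncomputable def R_26995339329 : Rec := ⟨nat_lit 26995339329, nat_lit 4,
  [⟨V6_23774105664, [(nat_lit 104, nat_lit 26995339329), (nat_lit 65, nat_lit 28069081152), (nat_lit 34, nat_lit 28069077057), (nat_lit 65, nat_lit 29142818880), (nat_lit 34, nat_lit 29142814785), (nat_lit 89, nat_lit 30216556608)]⟩],
  [W_26928222272, W_25854484544, W_24814293056]⟩
theorem C_26995339329 : chkRec R_26995339329 = true := by decide +kernel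

noncomputable def R_26995339392 : Rec := ⟨nat_lit 26995339392, nat_lit 11,
  [⟨V6_22700371968, [(nat_lit 88, nat_lit 26995339392), (nat_lit 55, nat_lit 28069081152), (nat_lit 113, nat_lit 29142822912)]⟩],
  [W_26928226304, W_25871261696, W_25854484544, W_24797523968, W_24797519936, W_23723778176]⟩
theorem C_26995339392 : chkRec R_26995339392 = true := by decide +kernel

noncomputable def R_26995597377 : Rec := ⟨nat_lit 26995597377, nat_lit 14,
  [⟨V6_22700105793, [(nat_lit 35, nat_lit 26995597377), (nat_lit 61, nat_lit 28069077057), (nat_lit 1, nat_lit 29142556737)]⟩,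
   ⟨V6_21626884161, [(nat_lit 11, nat_lit 26995597377), (nat_lit 62, nat_lit 28069335105)]⟩,
   ⟨V6_20553146433, [(nat_lit 30, nat_lit 26995597377)]⟩],
  [W_26928222272, W_25887772736, W_25870999616, W_25854484544, W_25837969472, W_24814293056, W_24797519936, W_23757070400]⟩
theorem C_26995597377 : chkRec R_26995597377 = true := by decide +kernel

noncomputable def R_26995597440 : Rec := ⟨nat_lit 26995597440, nat_lit 44,
  [⟨V6_24847589376, [(nat_lit 64, nat_lit 26995597440), (nat_lit 88, nat_lit 28069339200), (nat_lit 86, nat_lit 28069077120), (nat_lit 21, nat_lit 29143080960), (nat_lit 33, nat_lit 29142818880), (nat_lit 47, nat_lit 29142556800), (nat_lit 34, nat_lit 30216560640), (nat_lit 122, nat_lit 30216298560), (nat_lit 92, nat_lit 31290040320)]⟩,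
   ⟨V6_24831074304, [(nat_lit 87, nat_lit 26995597440), (nat_lit 21, nat_lit 28069339200), (nat_lit 12, nat_lit 28069077120), (nat_lit 89, nat_lit 28052562048), (nat_lit 68, nat_lit 29143080960), (nat_lit 39, nat_lit 29142818880), (nat_lit 24, nat_lit 29126303808), (nat_lit 11, nat_lit 29126041728), (nat_lit 62, nat_lit 30216560640), (nat_lit 7, nat_lit 30200045568), (nat_lit 22, nat_lit 30199783488), (nat_lit 23, nat_lit 31273525248)]⟩,
   ⟨V6_24814035072, [(nat_lit 91, nat_lit 26995597440), (nat_lit 42, nat_lit 28069077120), (nat_lit 80, nat_lit 28052562048), (nat_lit 63, nat_lit 29142556800), (nat_lit 31, nat_lit 29126041728), (nat_lit 13, nat_lit 29109526656), (nat_lit 107, nat_lit 30199521408), (nat_lit 79, nat_lit 30183006336), (nat_lit 26, nat_lit 31256486016)]⟩],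
  [W_26911711232, W_24797782016, W_23773847552, W_22683852800, W_19479404672]⟩
theorem C_26995597440 : chkRec R_26995597440 = true := by decide +kernel

noncomputable def R_26995601472 : Rec := ⟨nat_lit 26995601472, nat_lit 58,
  [⟨V6_23774105664, [(nat_lit 26, nat_lit 26995601472), (nat_lit 105, nat_lit 28069339200), (nat_lit 126, nat_lit 28069081152), (nat_lit 116, nat_lit 29143076928), (nat_lit 63, nat_lit 29142818880), (nat_lit 91, nat_lit 30216556608)]⟩,
   ⟨V6_22700371968, [(nat_lit 79, nat_lit 26995601472), (nat_lit 2, nat_lit 28069343232), (nat_lit 71, nat_lit 28069081152), (nat_lit 43, nat_lit 29142822912)]⟩,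
   ⟨V6_22683856896, [(nat_lit 7, nat_lit 26995601472), (nat_lit 23, nat_lit 28069343232), (nat_lit 83, nat_lit 28052566080), (nat_lit 29, nat_lit 29126307840)]⟩],
  [W_26928484352, W_26911711232, W_25871519744, W_25854746624, W_25854742592, W_25837969472, W_24814555136, W_24797782016, W_22683852800]⟩
theorem C_26995601472 : chkRec R_26995601472 = true := by decide +kernel

noncomputable def R_26995605504 : Rec := ⟨nat_lit 26995605504, nat_lit 47,
  [⟨V6_21610119168, [(nat_lit 52, nat_lit 26995605504), (nat_lit 50, nat_lit 28052570112)]⟩,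
   ⟨V6_20553154560, [(nat_lit 38, nat_lit 26995605504)]⟩],
  [W_26911711232, W_25888292864, W_25871519744, W_23774363648, W_23757590528]⟩
theorem C_26995605504 : chkRec R_26995605504 = true := by decide +kernel

noncomputable def R_26995855425 : Rec := ⟨nat_lit 26995855425, nat_lit 6,
  [⟨V6_24781262913, [(nat_lit 11, nat_lit 26995855425), (nat_lit 48, nat_lit 28052820033), (nat_lit 53, nat_lit 29109784641), (nat_lit 25, nat_lit 30166749249), (nat_lit 40, nat_lit 31223713857)]⟩,
   ⟨V6_20553404481, [(nat_lit 105, nat_lit 26995855425)]⟩],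
  [W_26928222272, W_25887772736, W_24814293056, W_23773843520]⟩
theorem C_26995855425 : chkRec R_26995855425 = true := by decide +kernel

noncomputable def R_26995859520 : Rec := ⟨nat_lit 26995859520, nat_lit 84,
  [⟨V6_26961518592, [(nat_lit 24, nat_lit 26995859520), (nat_lit 16, nat_lit 28069601280), (nat_lit 81, nat_lit 28069339200), (nat_lit 4, nat_lit 28052824128), (nat_lit 12, nat_lit 29143080960), (nat_lit 103, nat_lit 29142818880), (nat_lit 93, nat_lit 29126565888), (nat_lit 22, nat_lit 29126303808), (nat_lit 116, nat_lit 29109788736), (nat_lit 1, nat_lit 30216560640), (nat_lit 25, nat_lit 30216298560), (nat_lit 29, nat_lit 30200045568), (nat_lit 32, nat_lit 30199783488), (nat_lit 38, nat_lit 30183530496), (nat_lit 54, nat_lit 30183268416), (nat_lit 13, nat_lit 31290040320), (nat_lit 17, nat_lit 31273525248), (nat_lit 33, nat_lit 31273263168), (nat_lit 74, nat_lit 31257010176), (nat_lit 1, nat_lit 31256748096), (nat_lit 6, nat_lit 32347004928), (nat_lit 120, nat_lit 32330489856), (nat_lit 114, nat_lit 32330227776), (nat_lit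 114, nat_lit 33403969536)]⟩,
   ⟨V6_26928488448, [(nat_lit 27, nat_lit 26995859520), (nat_lit 108, nat_lit 28069601280), (nat_lit 26, nat_lit 28069339200), (nat_lit 102, nat_lit 28052824128), (nat_lit 9, nat_lit 29143080960), (nat_lit 5, nat_lit 29126565888), (nat_lit 20, nat_lit 29126303808), (nat_lit 43, nat_lit 29109788736), (nat_lit 112, nat_lit 30200045568), (nat_lit 67, nat_lit 30183530496), (nat_lit 92, nat_lit 30183268416), (nat_lit 60, nat_lit 30166753344), (nat_lit 65, nat_lit 31257010176), (nat_lit 57, nat_lit 31240495104), (nat_lit 44, nat_lit 31240233024), (nat_lit 53, nat_lit 31223717952), (nat_lit 125, nat_lit 32313974784), (nat_lit 83, nat_lit 32297459712), (nat_lit 49, nat_lit 32297197632), (nat_lit 8, nat_lit 33370939392)]⟩,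
   ⟨V6_25921327104, [(nat_lit 125, nat_lit 26995859520), (nat_lit 99, nat_lit 28069601280), (nat_lit 103, nat_lit 28069597248), (nat_lit 106, nat_lit 28069339200), (nat_lit 60, nat_lit 29143339008), (nat_lit 104, nat_lit 29143080960), (nat_lit 36, nat_lit 29143076928), (nat_lit 107, nat_lit 29142818880), (nat_lit 107, nat_lit 30216818688), (nat_lit 81, nat_lit 30216560640), (nat_lit 93, nat_lit 30216556608), (nat_lit 75, nat_lit 30216298560), (nat_lit 82, nat_lit 31290298368), (nat_lit 57, nat_lit 31290040320), (nat_lit 43, nat_lit 31290036288), (nat_lit 113, nat_lit 32363778048)]⟩,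
   ⟨V6_25904553984, [(nat_lit 117, nat_lit 26995859520), (nat_lit 11, nat_lit 28069601280), (nat_lit 9, nat_lit 28069339200), (nat_lit 54, nat_lit 28052824128), (nat_lit 74, nat_lit 29143080960), (nat_lit 87, nat_lit 29142818880), (nat_lit 116, nat_lit 29126565888), (nat_lit 124, nat_lit 29126303808), (nat_lit 29, nat_lit 30216560640), (nat_lit 122, nat_lit 30216298560), (nat_lit 124, nat_lit 30200045568), (nat_lit 50, nat_lit 30199783488), (nat_lit 97, nat_lit 31290040320), (nat_lit 105, nat_lit 31273525248), (nat_lit 97, nat_lit 31273263168), (nat_lit 9, nat_lit 32347004928)]⟩,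
   ⟨V6_25904549952, [(nat_lit 93, nat_lit 26995859520), (nat_lit 111, nat_lit 28069597248), (nat_lit 60, nat_lit 28069339200), (nat_lit 60, nat_lit 28052824128), (nat_lit 60, nat_lit 29143076928), (nat_lit 80, nat_lit 29142818880), (nat_lit 51, nat_lit 29126561856), (nat_lit 69, nat_lit 29126303808), (nat_lit 90, nat_lit 30216556608), (nat_lit 12, nat_lit 30216298560), (nat_lit 27, nat_lit 30200041536), (nat_lit 91, nat_lit 30199783488), (nat_lit 18, nat_lit 31290036288), (nat_lit 9, nat_lit 31273521216), (nat_lit 31, nat_lit 31273263168), (nat_lit 32, nat_lit 32347000896)]⟩,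
   ⟨V6_24847589376, [(nat_lit 87, nat_lit 26995859520), (nat_lit 88, nat_lit 28069601280), (nat_lit 61, nat_lit 28069339200), (nat_lit 100, nat_lit 29143080960), (nat_lit 82, nat_lit 29142818880), (nat_lit 97, nat_lit 30216560640), (nat_lit 80, nat_lit 30216298560), (nat_lit 71, nat_lit 31290040320)]⟩,
   ⟨V6_24847585344, [(nat_lit 118, nat_lit 26995859520), (nat_lit 2, nat_lit 28069597248), (nat_lit 68, nat_lit 28069339200), (nat_lit 109, nat_lit 29143076928), (nat_lit 90, nat_lit 29142818880), (nat_lit 103, nat_lit 30216556608), (nat_lit 62, nat_lit 30216298560), (nat_lit 9, nat_lit 31290036288)]⟩,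
   ⟨V6_24831070272, [(nat_lit 108, nat_lit 26995859520), (nat_lit 42, nat_lit 28069597248), (nat_lit 22, nat_lit 28069339200), (nat_lit 114, nat_lit 28052824128), (nat_lit 27, nat_lit 29143076928), (nat_lit 14, nat_lit 29142818880), (nat_lit 56, nat_lit 29126561856), (nat_lit 53, nat_lit 29126303808), (nat_lit 15, nat_lit 30216556608), (nat_lit 101, nat_lit 30200041536), (nat_lit 37, nat_lit 30199783488), (nat_lit 94, nat_lit 31273521216)]⟩,
   ⟨V6_23774105664, [(nat_lit 106, nat_lit 26995859520), (nat_lit 16, nat_lit 28069597248), (nat_lit 13, nat_lit 28069339200), (nat_lit 112, nat_lit 29143076928), (nat_lit 21, nat_lit 29142818880), (nat_lit 57, nat_lit 30216556608)]⟩],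
  [W_24831070208, W_24830812160, W_24798040064, W_24797782016, W_23773847552, W_23724302336, W_22684110848, W_22683852800]⟩
theorem C_26995859520 : chkRec R_26995859520 = true := by decide +kernel

noncomputable def R_26995863552 : Rec := ⟨nat_lit 26995863552, nat_lit 87,
  [⟨V6_24831590400, [(nat_lit 122, nat_lit 26995863552), (nat_lit 11, nat_lit 28069601280), (nat_lit 56, nat_lit 28052828160), (nat_lit 65, nat_lit 29143339008), (nat_lit 47, nat_lit 29126565888), (nat_lit 3, nat_lit 30217076736), (nat_lit 64, nat_lit 30200303616), (nat_lit 69, nat_lit 31274041344)]⟩,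
   ⟨V6_23740821504, [(nat_lit 73, nat_lit 26995863552), (nat_lit 61, nat_lit 28069343232), (nat_lit 50, nat_lit 28052828160), (nat_lit 86, nat_lit 29126307840), (nat_lit 104, nat_lit 29109792768), (nat_lit 55, nat_lit 30183272448)]⟩,
   ⟨V6_22700371968, [(nat_lit 73, nat_lit 26995863552), (nat_lit 79, nat_lit 28069343232), (nat_lit 19, nat_lit 29142822912)]⟩,
   ⟨V6_22683856896, [(nat_lit 35, nat_lit 26995863552), (nat_lit 83, nat_lit 28069343232), (nat_lit 12, nat_lit 28052828160), (nat_lit 75, nat_lit 29126307840)]⟩],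
  [W_25888292864, W_25871777792, W_25871519744, W_25871261696, W_25854746624, W_24847843328, W_24831070208, W_24814813184, W_23757848576, W_20553150464]⟩
theorem C_26995863552 : chkRec R_26995863552 = true := by decide +kernel

noncomputable def R_26996117568 : Rec := ⟨nat_lit 26996117568, nat_lit 43,
  [⟨V6_22667595840, [(nat_lit 63, nat_lit 26996117568), (nat_lit 36, nat_lit 28053082176), (nat_lit 87, nat_lit 29110046784)]⟩,
   ⟨V6_21627408384, [(nat_lit 77, nat_lit 26996117568), (nat_lit 9, nat_lit 28069859328)]⟩],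
  [W_25888034816, W_25887772736, W_25871519744, W_24831070208, W_24814555136, W_24798040064, W_23773843520]⟩
theorem C_26996117568 : chkRec R_26996117568 = true := by decide +kernel

noncomputable def R_26996121600 : Rec := ⟨nat_lit 26996121600, nat_lit 118,
  [⟨V6_25904553984, [(nat_lit 2, nat_lit 26996121600), (nat_lit 110, nat_lit 28069601280), (nat_lit 67, nat_lit 28053086208), (nat_lit 12, nat_lit 29143080960), (nat_lit 36, nat_lit 29126565888), (nat_lit 8, nat_lit 30216560640), (nat_lit 108, nat_lit 30200045568), (nat_lit 26, nat_lit 31290040320), (nat_lit 16, nat_lit 31273525248), (nat_lit 106, nat_lit 32347004928)]⟩,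
   ⟨V6_24847589376, [(nat_lit 26, nat_lit 26996121600), (nat_lit 118, nat_lit 28069601280), (nat_lit 78, nat_lit 29143080960), (nat_lit 18, nat_lit 30216560640), (nat_lit 57, nat_lit 31290040320)]⟩,
   ⟨V6_24798302208, [(nat_lit 78, nat_lit 26996121600), (nat_lit 109, nat_lit 28069859328), (nat_lit 122, nat_lit 28053086208), (nat_lit 3, nat_lit 29126823936), (nat_lit 105, nat_lit 29110050816), (nat_lit 63, nat_lit 30183788544), (nat_lit 93, nat_lit 30167015424), (nat_lit 103, nat_lit 31240753152)]⟩,
   ⟨V6_23741337600, [(nat_lit 26, nat_lit 26996121600), (nat_lit 115, nat_lit 28069859328), (nat_lit 46, nat_lit 28053086208), (nat_lit 21, nat_lit 29126823936), (nat_lit 79, nat_lit 29110050816), (nat_lit 44, nat_lit 30183788544)]⟩,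
   ⟨V6_21627408384, [(nat_lit 30, nat_lit 26996121600), (nat_lit 19, nat_lit 28069859328)]⟩],
  [W_25921323008, W_25871777792, W_24847843328, W_24831070208, W_24814813184, W_24798298112, W_24798040064, W_24797782016, W_23757848576, W_23741333504, W_22650822656, W_20536893440]⟩
theorem C_26996121600 : chkRec R_26996121600 = true := by decide +kernel

noncomputable def R_26996379648 : Rec := ⟨nat_lit 26996379648, nat_lit 74,
  [⟨V6_26994806784, [(nat_lit 95, nat_lit 26996379648), (nat_lit 74, nat_lit 28069859328), (nat_lit 37, nat_lit 29143339008), (nat_lit 43, nat_lit 30216818688), (nat_lit 108, nat_lit 31290298368), (nat_lit 52, nat_lit 32363778048), (nat_lit 34, nat_lit 33437257728)]⟩,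
   ⟨V6_23741595648, [(nat_lit 85, nat_lit 26996379648), (nat_lit 105, nat_lit 28070117376), (nat_lit 38, nat_lit 28053344256), (nat_lit 49, nat_lit 29127081984), (nat_lit 68, nat_lit 29110308864), (nat_lit 109, nat_lit 30184046592)]⟩,
   ⟨V6_22667857920, [(nat_lit 56, nat_lit 26996379648), (nat_lit 32, nat_lit 28053344256), (nat_lit 35, nat_lit 29110308864)]⟩,
   ⟨V6_21627408384, [(nat_lit 47, nat_lit 26996379648), (nat_lit 39, nat_lit 28069859328)]⟩],
  [W_26994802688, W_25921323008, W_25904549888, W_25888292864, W_24847843328, W_23757848576, W_19480186880]⟩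
theorem C_26996379648 : chkRec R_26996379648 = true := by decide +kernel

noncomputable def R_26996637696 : Rec := ⟨nat_lit 26996637696, nat_lit 32,
  [⟨V6_25921585152, [(nat_lit 58, nat_lit 26996637696), (nat_lit 120, nat_lit 28070117376), (nat_lit 55, nat_lit 29143597056), (nat_lit 77, nat_lit 30217076736), (nat_lit 67, nat_lit 31290556416), (nat_lit 11, nat_lit 32364036096)]⟩,
   ⟨V6_20554186752, [(nat_lit 66, nat_lit 26996637696)]⟩],
  [W_25921323008, W_25904807936, W_24847843328]⟩
theorem C_26996637696 : chkRec R_26996637696 = true := by decide +kernel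

noncomputable def R_27011850369 : Rec := ⟨nat_lit 27011850369, nat_lit 7,
  [⟨V6_26911187073, [(nat_lit 41, nat_lit 27011850369), (nat_lit 15, nat_lit 28068814977), (nat_lit 81, nat_lit 29125779585), (nat_lit 18, nat_lit 30182744193), (nat_lit 111, nat_lit 31239708801), (nat_lit 121, nat_lit 32296673409), (nat_lit 76, nat_lit 33353638017)]⟩,
   ⟨V6_24814035009, [(nat_lit 12, nat_lit 27011850369), (nat_lit 12, nat_lit 28085592129), (nat_lit 77, nat_lit 28068814977), (nat_lit 66, nat_lit 29142556737), (nat_lit 67, nat_lit 29125779585), (nat_lit 80, nat_lit 30199521345), (nat_lit 15, nat_lit 30182744193), (nat_lit 75, nat_lit 31256485953)]⟩,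
   ⟨V6_22700105793, [(nat_lit 1, nat_lit 27011850369), (nat_lit 71, nat_lit 28085592129), (nat_lit 23, nat_lit 28068814977), (nat_lit 39, nat_lit 29142556737)]⟩,
   ⟨V6_21643141185, [(nat_lit 118, nat_lit 27011850369), (nat_lit 125, nat_lit 28085592129)]⟩],
  [W_23757070400, W_20569399424]⟩
theorem C_27011850369 : chkRec R_27011850369 = true := by decide +kernel

noncomputable def R_27012112449 : Rec := ⟨nat_lit 27012112449, nat_lit 9,
  [⟨V6_21643399233, [(nat_lit 97, nat_lit 27012112449), (nat_lit 108, nat_lit 28085850177)]⟩,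
   ⟨V6_21643141185, [(nat_lit 103, nat_lit 27012112449), (nat_lit 3, nat_lit 28085592129)]⟩,
   ⟨V6_20569661505, [(nat_lit 41, nat_lit 27012112449)]⟩],
  [W_26928222272, W_25887772736, W_25870999616, W_25854484544, W_23757070400]⟩
theorem C_27012112449 : chkRec R_27012112449 = true := by decide +kernel

noncomputable def R_27012112512 : Rec := ⟨nat_lit 27012112512, nat_lit 29,
  [⟨V6_24814035072, [(nat_lit 102, nat_lit 27012112512), (nat_lit 109, nat_lit 28085592192), (nat_lit 34, nat_lit 28069077120), (nat_lit 6, nat_lit 29142556800), (nat_lit 16, nat_lit 29126041728), (nat_lit 100, nat_lit 30199521408), (nat_lit 72, nat_lit 30183006336), (nat_lit 100, nat_lit 31256486016)]⟩,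
   ⟨V6_23790624768, [(nat_lit 75, nat_lit 27012112512), (nat_lit 5, nat_lit 28085854272), (nat_lit 22, nat_lit 28085592192), (nat_lit 69, nat_lit 29159596032), (nat_lit 8, nat_lit 29159333952), (nat_lit 6, nat_lit 30233075712)]⟩],
  [W_25871261696, W_23757332480, W_22716882944, W_19495919744]⟩
theorem C_27012112512 : chkRec R_27012112512 = true := by decide +kernel

noncomputable def R_27012116544 : Rec := ⟨nat_lit 27012116544, nat_lit 24,
  [⟨V6_22700371968, [(nat_lit 12, nat_lit 27012116544), (nat_lit 96, nat_lit 28085858304), (nat_lit 73, nat_lit 28069081152), (nat_lit 49, nat_lit 29142822912)]⟩,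
   ⟨V6_21643407360, [(nat_lit 83, nat_lit 27012116544), (nat_lit 13, nat_lit 28085858304)]⟩],
  [W_26944999424, W_26928226304, W_26928222272, W_25871261696, W_25854484544, W_24831070208, W_24814293056, W_24797519936]⟩
theorem C_27012116544 : chkRec R_27012116544 = true := by decide +kernel

noncomputable def R_27012370497 : Rec := ⟨nat_lit 27012370497, nat_lit 5,
  [⟨V6_21643399233, [(nat_lit 76, nat_lit 27012370497), (nat_lit 70, nat_lit 28085850177)]⟩,
   ⟨V6_20569919553, [(nat_lit 76, nat_lit 27012370497)]⟩],
  [W_26928222272, W_25887772736, W_25854742592, W_24814293056]⟩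
theorem C_27012370497 : chkRec R_27012370497 = true := by decide +kernel

noncomputable def R_27012374592 : Rec := ⟨nat_lit 27012374592, nat_lit 82,
  [⟨V6_24864362496, [(nat_lit 125, nat_lit 27012374592), (nat_lit 89, nat_lit 28086116352), (nat_lit 15, nat_lit 28086112320), (nat_lit 31, nat_lit 28085854272), (nat_lit 126, nat_lit 29159854080), (nat_lit 5, nat_lit 29159596032), (nat_lit 48, nat_lit 29159592000), (nat_lit 3, nat_lit 29159333952), (nat_lit 39, nat_lit 30233333760), (nat_lit 21, nat_lit 30233075712), (nat_lit 125, nat_lit 30233071680), (nat_lit 66, nat_lit 31306813440)]⟩,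
   ⟨V6_24847589376, [(nat_lit 102, nat_lit 27012374592), (nat_lit 124, nat_lit 28086116352), (nat_lit 45, nat_lit 28085854272), (nat_lit 10, nat_lit 28069339200), (nat_lit 85, nat_lit 29159596032), (nat_lit 22, nat_lit 29159333952), (nat_lit 87, nat_lit 29143080960), (nat_lit 61, nat_lit 29142818880), (nat_lit 113, nat_lit 30233075712), (nat_lit 21, nat_lit 30216560640), (nat_lit 100, nat_lit 30216298560), (nat_lit 120, nat_lit 31290040320)]⟩,
   ⟨V6_23790624768, [(nat_lit 26, nat_lit 27012374592), (nat_lit 61, nat_lit 28086116352), (nat_lit 75, nat_lit 28085854272), (nat_lit 74, nat_lit 29159596032), (nat_lit 40, nat_lit 29159333952), (nat_lit 50, nat_lit 30233075712)]⟩,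
   ⟨V6_23790620736, [(nat_lit 104, nat_lit 27012374592), (nat_lit 52, nat_lit 28086112320), (nat_lit 37, nat_lit 28085854272), (nat_lit 124, nat_lit 29159592000), (nat_lit 44, nat_lit 29159333952), (nat_lit 33, nat_lit 30233071680)]⟩,
   ⟨V6_23774105664, [(nat_lit 31, nat_lit 27012374592), (nat_lit 66, nat_lit 28086112320), (nat_lit 37, nat_lit 28085854272), (nat_lit 75, nat_lit 28069339200), (nat_lit 20, nat_lit 29159592000), (nat_lit 22, nat_lit 29143076928), (nat_lit 107, nat_lit 29142818880), (nat_lit 95, nat_lit 30216556608)]⟩,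
   ⟨V6_22717141056, [(nat_lit 37, nat_lit 27012374592), (nat_lit 63, nat_lit 28086112320), (nat_lit 95, nat_lit 28085854272), (nat_lit 76, nat_lit 29159592000)]⟩],
  [W_26928484352, W_26911711232, W_25871519744, W_25870999616, W_25854746624, W_25837969472, W_24830812160, W_24797782016, W_22683852800, W_20569923584]⟩
theorem C_27012374592 : chkRec R_27012374592 = true := by decide +kernel

noncomputable def R_27012378624 : Rec := ⟨nat_lit 27012378624, nat_lit 83,
  [⟨V6_22700371968, [(nat_lit 64, nat_lit 27012378624), (nat_lit 11, nat_lit 28085858304), (nat_lit 6, nat_lit 28069343232), (nat_lit 103, nat_lit 29142822912)]⟩,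
   ⟨V6_22683856896, [(nat_lit 94, nat_lit 27012378624), (nat_lit 69, nat_lit 28069343232), (nat_lit 28, nat_lit 29126307840)]⟩,
   ⟨V6_20569927680, [(nat_lit 71, nat_lit 27012378624)]⟩],
  [W_26911711232, W_25888292864, W_25888034816, W_25871519744, W_25871261696, W_25854746624, W_24847843328, W_24831070208, W_24797782016, W_24781008896, W_23790878720]⟩
theorem C_27012378624 : chkRec R_27012378624 = true := by decide +kernel

noncomputable def R_27012632640 : Rec := ⟨nat_lit 27012632640, nat_lit 48,
  [⟨V6_25937842176, [(nat_lit 78, nat_lit 27012632640), (nat_lit 59, nat_lit 28086374400), (nat_lit 10, nat_lit 28086112320), (nat_lit 65, nat_lit 29159854080), (nat_lit 47, nat_lit 29159592000), (nat_lit 51, nat_lit 30233333760), (nat_lit 19, nat_lit 30233071680), (nat_lit 109, nat_lit 31306813440), (nat_lit 43, nat_lit 31306551360), (nat_lit 16, nat_lit 32380293120)]⟩,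
   ⟨V6_24864362496, [(nat_lit 93, nat_lit 27012632640), (nat_lit 24, nat_lit 28086374400), (nat_lit 109, nat_lit 28086112320), (nat_lit 85, nat_lit 29159854080), (nat_lit 57, nat_lit 29159592000), (nat_lit 38, nat_lit 30233333760), (nat_lit 68, nat_lit 30233071680), (nat_lit 54, nat_lit 31306813440)]⟩,
   ⟨V6_23790620736, [(nat_lit 84, nat_lit 27012632640), (nat_lit 90, nat_lit 28086112320), (nat_lit 52, nat_lit 29159592000), (nat_lit 21, nat_lit 30233071680)]⟩,
   ⟨V6_23774105664, [(nat_lit 61, nat_lit 27012632640), (nat_lit 124, nat_lit 28086112320), (nat_lit 15, nat_lit 28069597248), (nat_lit 119, nat_lit 29159592000), (nat_lit 4, nat_lit 29143076928), (nat_lit 25, nat_lit 30216556608)]⟩,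
   ⟨V6_22717141056, [(nat_lit 61, nat_lit 27012632640), (nat_lit 26, nat_lit 28086112320), (nat_lit 122, nat_lit 29159592000)]⟩],
  [W_26928484352, W_26928222272, W_25871519744, W_25854742592, W_24831070208, W_24798040064, W_24781262912, W_22684110848, W_22667333696]⟩
theorem C_27012632640 : chkRec R_27012632640 = true := by decide +kernel

noncomputable def R_27012636672 : Rec := ⟨nat_lit 27012636672, nat_lit 127,
  [⟨V6_26961518592, [(nat_lit 12, nat_lit 27012636672), (nat_lit 38, nat_lit 28086116352), (nat_lit 121, nat_lit 28069601280), (nat_lit 82, nat_lit 29159596032), (nat_lit 24, nat_lit 29143080960), (nat_lit 26, nat_lit 29126565888), (nat_lit 9, nat_lit 30233075712), (nat_lit 103, nat_lit 30216560640), (nat_lit 61, nat_lit 30200045568), (nat_lit 126, nat_lit 30183530496), (nat_lit 46, nat_lit 31290040320), (nat_lit 57, nat_lit 31273525248), (nat_lit 75, nat_lit 31257010176), (nat_lit 118, nat_lit 32347004928), (nat_lit 92, nat_lit 32330489856), (nat_lit 126, nat_lit 33403969536)]⟩,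
   ⟨V6_26928488448, [(nat_lit 77, nat_lit 27012636672), (nat_lit 100, nat_lit 28086116352), (nat_lit 23, nat_lit 28069601280), (nat_lit 18, nat_lit 29143080960), (nat_lit 41, nat_lit 29126565888), (nat_lit 21, nat_lit 30200045568), (nat_lit 35, nat_lit 30183530496), (nat_lit 47, nat_lit 31257010176), (nat_lit 126, nat_lit 31240495104), (nat_lit 57, nat_lit 32313974784), (nat_lit 91, nat_lit 32297459712), (nat_lit 69, nat_lit 33370939392)]⟩,
   ⟨V6_25904553984, [(nat_lit 64, nat_lit 27012636672), (nat_lit 104, nat_lit 28086116352), (nat_lit 107, nat_lit 28069601280), (nat_lit 71, nat_lit 29159596032), (nat_lit 21, nat_lit 29143080960), (nat_lit 113, nat_lit 29126565888), (nat_lit 84, nat_lit 30233075712), (nat_lit 66, nat_lit 30216560640), (nat_lit 55, nat_lit 30200045568), (nat_lit 99, nat_lit 31290040320), (nat_lit 113, nat_lit 31273525248), (nat_lit 50, nat_lit 32347004928)]⟩,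
   ⟨V6_24847589376, [(nat_lit 63, nat_lit 27012636672), (nat_lit 106, nat_lit 28086116352), (nat_lit 94, nat_lit 28069601280), (nat_lit 111, nat_lit 29159596032), (nat_lit 73, nat_lit 29143080960), (nat_lit 82, nat_lit 30233075712), (nat_lit 85, nat_lit 30216560640), (nat_lit 7, nat_lit 31290040320)]⟩,
   ⟨V6_24831590400, [(nat_lit 27, nat_lit 27012636672), (nat_lit 114, nat_lit 28086374400), (nat_lit 108, nat_lit 28069601280), (nat_lit 80, nat_lit 29160112128), (nat_lit 95, nat_lit 29143339008), (nat_lit 72, nat_lit 29126565888), (nat_lit 39, nat_lit 30217076736), (nat_lit 80, nat_lit 30200303616), (nat_lit 67, nat_lit 31274041344)]⟩,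
   ⟨V6_23790624768, [(nat_lit 26, nat_lit 27012636672), (nat_lit 46, nat_lit 28086116352), (nat_lit 4, nat_lit 29159596032), (nat_lit 70, nat_lit 30233075712)]⟩,
   ⟨V6_22717661184, [(nat_lit 14, nat_lit 27012636672), (nat_lit 123, nat_lit 28086374400), (nat_lit 47, nat_lit 29160112128)]⟩],
  [W_25871777792, W_24864358400, W_24831070208, W_24830812160, W_24814813184, W_24798040064, W_24781266944, W_23790878720, W_23773847552, W_23757848576, W_22716882944, W_20569923584]⟩
theorem C_27012636672 : chkRec R_27012636672 = true := by decide +kernel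

noncomputable def R_27012894720 : Rec := ⟨nat_lit 27012894720, nat_lit 109,
  [⟨V6_23741337600, [(nat_lit 124, nat_lit 27012894720), (nat_lit 104, nat_lit 28069859328), (nat_lit 32, nat_lit 29126823936), (nat_lit 25, nat_lit 30183788544)]⟩,
   ⟨V6_21627408384, [(nat_lit 89, nat_lit 27012894720), (nat_lit 47, nat_lit 28069859328)]⟩,
   ⟨V6_20570443776, [(nat_lit 80, nat_lit 27012894720)]⟩],
  [W_26994802688, W_25921323008, W_25921064960, W_25904549888, W_25888292864, W_25888034816, W_25871777792, W_25871519744, W_24864358400, W_24814813184, W_24798298112, W_24798040064, W_23790878720, W_23741333504]⟩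
theorem C_27012894720 : chkRec R_27012894720 = true := by decide +kernel

noncomputable def R_27013152768 : Rec := ⟨nat_lit 27013152768, nat_lit 59,
  [⟨V6_27011579904, [(nat_lit 78, nat_lit 27013152768), (nat_lit 26, nat_lit 28086632448), (nat_lit 13, nat_lit 29160112128), (nat_lit 46, nat_lit 30233591808), (nat_lit 86, nat_lit 31307071488), (nat_lit 32, nat_lit 32380551168), (nat_lit 60, nat_lit 33454030848)]⟩,
   ⟨V6_25938100224, [(nat_lit 33, nat_lit 27013152768), (nat_lit 14, nat_lit 28086632448), (nat_lit 90, nat_lit 29160112128), (nat_lit 89, nat_lit 30233591808), (nat_lit 28, nat_lit 31307071488), (nat_lit 68, nat_lit 32380551168)]⟩,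
   ⟨V6_22717661184, [(nat_lit 93, nat_lit 27013152768), (nat_lit 76, nat_lit 28086632448), (nat_lit 63, nat_lit 29160112128)]⟩],
  [W_25888292864, W_23757848576, W_23741333504, W_21627404288, W_21610889216]⟩
theorem C_27013152768 : chkRec R_27013152768 = true := by decide +kernel

noncomputable def R_27028627521 : Rec := ⟨nat_lit 27028627521, nat_lit 5,
  [⟨V6_22700105793, [(nat_lit 17, nat_lit 27028627521), (nat_lit 56, nat_lit 28085592129), (nat_lit 40, nat_lit 29142556737)]⟩,
   ⟨V6_21643141185, [(nat_lit 73, nat_lit 27028627521), (nat_lit 2, nat_lit 28085592129)]⟩],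
  [W_26927964224, W_25887772736, W_21659914304]⟩
theorem C_27028627521 : chkRec R_27028627521 = true := by decide +kernel

noncomputable def R_27028627584 : Rec := ⟨nat_lit 27028627584, nat_lit 18,
  [⟨V6_23790624768, [(nat_lit 23, nat_lit 27028627584), (nat_lit 109, nat_lit 28102369344), (nat_lit 91, nat_lit 28085592192), (nat_lit 87, nat_lit 29176111104), (nat_lit 110, nat_lit 29159333952), (nat_lit 47, nat_lit 30233075712)]⟩],
  [W_26911187072, W_25887776768, W_21659918336]⟩
theorem C_27028627584 : chkRec R_27028627584 = true := by decide +kernel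

noncomputable def R_27028885569 : Rec := ⟨nat_lit 27028885569, nat_lit 3,
  [⟨V6_23807135808, [(nat_lit 99, nat_lit 27028885569), (nat_lit 106, nat_lit 28102627392), (nat_lit 28, nat_lit 28102365249), (nat_lit 6, nat_lit 29176107072), (nat_lit 78, nat_lit 29175844929), (nat_lit 65, nat_lit 30249586752)]⟩,
   ⟨V6_21643399233, [(nat_lit 37, nat_lit 27028885569), (nat_lit 88, nat_lit 28085850177)]⟩],
  [W_21659914304]⟩
theorem C_27028885569 : chkRec R_27028885569 = true := by decide +kernel

noncomputable def R_27028889664 : Rec := ⟨nat_lit 27028889664, nat_lit 52,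
  [⟨V6_23790624768, [(nat_lit 22, nat_lit 27028889664), (nat_lit 31, nat_lit 28102631424), (nat_lit 98, nat_lit 28102369344), (nat_lit 104, nat_lit 28085854272), (nat_lit 38, nat_lit 29176111104), (nat_lit 2, nat_lit 29159596032), (nat_lit 110, nat_lit 29159333952), (nat_lit 126, nat_lit 30233075712)]⟩,
   ⟨V6_22717141056, [(nat_lit 84, nat_lit 27028889664), (nat_lit 93, nat_lit 28102627392), (nat_lit 64, nat_lit 28085854272), (nat_lit 40, nat_lit 29159592000)]⟩,
   ⟨V6_21660176448, [(nat_lit 113, nat_lit 27028889664), (nat_lit 25, nat_lit 28102627392)]⟩],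
  [W_26928222272, W_25904549888, W_25888034816, W_25887776768, W_25871261696, W_24831070208, W_20586438656]⟩
theorem C_27028889664 : chkRec R_27028889664 = true := by decide +kernel

noncomputable def R_27028893696 : Rec := ⟨nat_lit 27028893696, nat_lit 35,
  [⟨V6_25921585152, [(nat_lit 111, nat_lit 27028893696), (nat_lit 12, nat_lit 28102631424), (nat_lit 11, nat_lit 28085858304), (nat_lit 14, nat_lit 29176369152), (nat_lit 34, nat_lit 29159596032), (nat_lit 1, nat_lit 29142822912), (nat_lit 74, nat_lit 30250106880), (nat_lit 34, nat_lit 30233333760), (nat_lit 75, nat_lit 30216560640), (nat_lit 39, nat_lit 31307071488), (nat_lit 95, nat_lit 31290298368), (nat_lit 87, nat_lit 32364036096)]⟩,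
   ⟨V6_22700371968, [(nat_lit 7, nat_lit 27028893696), (nat_lit 38, nat_lit 28085858304), (nat_lit 9, nat_lit 29142822912)]⟩],
  [W_24797523968, W_23790878720, W_22733914112, W_20569665536, W_19512700928]⟩
theorem C_27028893696 : chkRec R_27028893696 = true := by decide +kernel

noncomputable def R_27029147712 : Rec := ⟨nat_lit 27029147712, nat_lit 44,
  [⟨V6_26928484416, [(nat_lit 111, nat_lit 27029147712), (nat_lit 90, nat_lit 28086112320), (nat_lit 102, nat_lit 29143076928), (nat_lit 55, nat_lit 30200041536), (nat_lit 118, nat_lit 31257006144), (nat_lit 72, nat_lit 32313970752), (nat_lit 43, nat_lit 33370935360)]⟩,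
   ⟨V6_23790620736, [(nat_lit 15, nat_lit 27029147712), (nat_lit 121, nat_lit 28102627392), (nat_lit 105, nat_lit 28086112320), (nat_lit 114, nat_lit 29176107072), (nat_lit 42, nat_lit 29159592000), (nat_lit 8, nat_lit 30233071680)]⟩,
   ⟨V6_21660176448, [(nat_lit 102, nat_lit 27029147712), (nat_lit 114, nat_lit 28102627392)]⟩,
   ⟨V6_20586696768, [(nat_lit 99, nat_lit 27029147712)]⟩],
  [W_26928484352, W_26928222272, W_25921064960, W_25904549888, W_25888034816, W_25887772736, W_25871519744, W_25854742592, W_24864100352, W_24814555136, W_24814293056]⟩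
theorem C_27029147712 : chkRec R_27029147712 = true := by decide +kernel

noncomputable def R_27029151744 : Rec := ⟨nat_lit 27029151744, nat_lit 116,
  [⟨V6_25904553984, [(nat_lit 80, nat_lit 27029151744), (nat_lit 120, nat_lit 28102631424), (nat_lit 55, nat_lit 28086116352), (nat_lit 14, nat_lit 29176111104), (nat_lit 108, nat_lit 29159596032), (nat_lit 55, nat_lit 29143080960), (nat_lit 48, nat_lit 30233075712), (nat_lit 15, nat_lit 30216560640), (nat_lit 99, nat_lit 30200045568), (nat_lit 78, nat_lit 31290040320), (nat_lit 6, nat_lit 31273525248), (nat_lit 89, nat_lit 32347004928)]⟩,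
   ⟨V6_24847589376, [(nat_lit 22, nat_lit 27029151744), (nat_lit 114, nat_lit 28102631424), (nat_lit 122, nat_lit 28086116352), (nat_lit 110, nat_lit 29176111104), (nat_lit 49, nat_lit 29159596032), (nat_lit 40, nat_lit 29143080960), (nat_lit 65, nat_lit 30233075712), (nat_lit 2, nat_lit 30216560640), (nat_lit 44, nat_lit 31290040320)]⟩,
   ⟨V6_23790624768, [(nat_lit 75, nat_lit 27029151744), (nat_lit 97, nat_lit 28102631424), (nat_lit 17, nat_lit 28086116352), (nat_lit 62, nat_lit 29176111104), (nat_lit 83, nat_lit 29159596032), (nat_lit 40, nat_lit 30233075712)]⟩,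
   ⟨V6_20586700800, [(nat_lit 73, nat_lit 27029151744)]⟩],
  [W_26911711232, W_25921323008, W_24864358400, W_24831070208, W_23807393792, W_23790878720, W_22733656064, W_21660434432, W_20586696704]⟩
theorem C_27029151744 : chkRec R_27029151744 = true := by decide +kernel

noncomputable def R_27029409792 : Rec := ⟨nat_lit 27029409792, nat_lit 105,
  [⟨V6_26994806784, [(nat_lit 3, nat_lit 27029409792), (nat_lit 6, nat_lit 28102889472), (nat_lit 66, nat_lit 28086374400), (nat_lit 61, nat_lit 29176369152), (nat_lit 103, nat_lit 29159854080), (nat_lit 8, nat_lit 29143339008), (nat_lit 21, nat_lit 30249848832), (nat_lit 117, nat_lit 30233333760), (nat_lit 93, nat_lit 30216818688), (nat_lit 79, nat_lit 31323328512), (nat_lit 66, nat_lit 31306813440), (nat_lit 68, nat_lit 31290298368), (nat_lit 23, nat_lit 32380293120), (nat_lit 17, nat_lit 32363778048), (nat_lit 112, nat_lit 33437257728)]⟩,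
   ⟨V6_25954615296, [(nat_lit 45, nat_lit 27029409792), (nat_lit 37, nat_lit 28103147520), (nat_lit 112, nat_lit 28102889472), (nat_lit 63, nat_lit 29176627200), (nat_lit 125, nat_lit 29176369152), (nat_lit 75, nat_lit 30250106880), (nat_lit 53, nat_lit 30249848832), (nat_lit 58, nat_lit 31323586560), (nat_lit 94, nat_lit 31323328512), (nat_lit 110, nat_lit 32397066240)]⟩,
   ⟨V6_25937842176, [(nat_lit 88, nat_lit 27029409792), (nat_lit 100, nat_lit 28102889472), (nat_lit 6, nat_lit 28086374400), (nat_lit 94, nat_lit 29176369152), (nat_lit 25, nat_lit 29159854080), (nat_lit 75, nat_lit 30249848832), (nat_lit 40, nat_lit 30233333760), (nat_lit 87, nat_lit 31323328512), (nat_lit 110, nat_lit 31306813440), (nat_lit 16, nat_lit 32380293120)]⟩,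
   ⟨V6_25921327104, [(nat_lit 108, nat_lit 27029409792), (nat_lit 120, nat_lit 28102889472), (nat_lit 111, nat_lit 28086374400), (nat_lit 108, nat_lit 29176369152), (nat_lit 43, nat_lit 29159854080), (nat_lit 33, nat_lit 29143339008), (nat_lit 86, nat_lit 30249848832), (nat_lit 101, nat_lit 30233333760), (nat_lit 102, nat_lit 30216818688), (nat_lit 60, nat_lit 31306813440), (nat_lit 19, nat_lit 31290298368), (nat_lit 122, nat_lit 32363778048)]⟩,
   ⟨V6_24880877568, [(nat_lit 84, nat_lit 27029409792), (nat_lit 6, nat_lit 28102889472), (nat_lit 8, nat_lit 29176369152), (nat_lit 124, nat_lit 30249848832), (nat_lit 124, nat_lit 31323328512)]⟩,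
   ⟨V6_24864362496, [(nat_lit 94, nat_lit 27029409792), (nat_lit 73, nat_lit 28102889472), (nat_lit 95, nat_lit 28086374400), (nat_lit 85, nat_lit 29176369152), (nat_lit 62, nat_lit 29159854080), (nat_lit 7, nat_lit 30249848832), (nat_lit 107, nat_lit 30233333760), (nat_lit 51, nat_lit 31306813440)]⟩,
   ⟨V6_24831590400, [(nat_lit 10, nat_lit 27029409792), (nat_lit 50, nat_lit 28103147520), (nat_lit 49, nat_lit 28086374400), (nat_lit 46, nat_lit 29160112128), (nat_lit 66, nat_lit 29143339008), (nat_lit 42, nat_lit 30217076736), (nat_lit 1, nat_lit 30200303616), (nat_lit 67, nat_lit 31274041344)]⟩,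
   ⟨V6_22717661184, [(nat_lit 34, nat_lit 27029409792), (nat_lit 19, nat_lit 28103147520), (nat_lit 103, nat_lit 28086374400), (nat_lit 81, nat_lit 29160112128)]⟩],
  [W_25888292864, W_25871777792, W_24864358400, W_24831070208, W_24814813184, W_24798040064, W_23790878720, W_23757848576, W_20586696704]⟩
theorem C_27029409792 : chkRec R_27029409792 = true := by decide +kernel

noncomputable def R_27029667840 : Rec := ⟨nat_lit 27029667840, nat_lit 72,
  [⟨V6_27028094976, [(nat_lit 69, nat_lit 27029667840), (nat_lit 32, nat_lit 28103147520), (nat_lit 56, nat_lit 29176627200), (nat_lit 126, nat_lit 30250106880), (nat_lit 82, nat_lit 31323586560), (nat_lit 115, nat_lit 32397066240), (nat_lit 96, nat_lit 33470545920)]⟩,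
   ⟨V6_25954615296, [(nat_lit 113, nat_lit 27029667840), (nat_lit 29, nat_lit 28103147520), (nat_lit 63, nat_lit 29176627200), (nat_lit 101, nat_lit 30250106880), (nat_lit 78, nat_lit 31323586560), (nat_lit 11, nat_lit 32397066240)]⟩,
   ⟨V6_25872039936, [(nat_lit 17, nat_lit 27029667840), (nat_lit 5, nat_lit 28086632448), (nat_lit 36, nat_lit 29143597056), (nat_lit 95, nat_lit 30200561664), (nat_lit 21, nat_lit 31257526272), (nat_lit 14, nat_lit 32314490880)]⟩,
   ⟨V6_24881135616, [(nat_lit 71, nat_lit 27029667840), (nat_lit 78, nat_lit 28103147520), (nat_lit 86, nat_lit 29176627200), (nat_lit 98, nat_lit 30250106880), (nat_lit 14, nat_lit 31323586560)]⟩,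
   ⟨V6_22717661184, [(nat_lit 113, nat_lit 27029667840), (nat_lit 111, nat_lit 28103147520), (nat_lit 125, nat_lit 28086632448), (nat_lit 64, nat_lit 29160112128)]⟩],
  [W_25888292864, W_25871777792, W_24847843328, W_24798298112, W_23790878720, W_23757848576, W_23741333504]⟩
theorem C_27029667840 : chkRec R_27029667840 = true := by decide +kernel

noncomputable def R_27045400641 : Rec := ⟨nat_lit 27045400641, nat_lit 1,
  [⟨V6_23807135808, [(nat_lit 110, nat_lit 27045400641), (nat_lit 1, nat_lit 28119142464), (nat_lit 31, nat_lit 28118880321), (nat_lit 67, nat_lit 28102365249), (nat_lit 12, nat_lit 29192622144), (nat_lit 108, nat_lit 29176107072), (nat_lit 2, nat_lit 29175844929), (nat_lit 113, nat_lit 30249586752)]⟩],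
  [W_25887772736]⟩
theorem C_27045400641 : chkRec R_27045400641 = true := by decide +kernel

noncomputable def R_27045404736 : Rec := ⟨nat_lit 27045404736, nat_lit 28,
  [⟨V6_26944741440, [(nat_lit 1, nat_lit 27045404736), (nat_lit 96, nat_lit 28102369344), (nat_lit 29, nat_lit 29159333952), (nat_lit 118, nat_lit 30216298560), (nat_lit 54, nat_lit 31273263168), (nat_lit 29, nat_lit 32330227776), (nat_lit 115, nat_lit 33387192384)]⟩,
   ⟨V6_25904549952, [(nat_lit 69, nat_lit 27045404736), (nat_lit 75, nat_lit 28119142464), (nat_lit 88, nat_lit 28102369344), (nat_lit 5, nat_lit 29176107072), (nat_lit 1, nat_lit 29159333952), (nat_lit 92, nat_lit 30233071680), (nat_lit 89, nat_lit 30216298560), (nat_lit 76, nat_lit 31290036288), (nat_lit 116, nat_lit 31273263168), (nat_lit 108, nat_lit 32347000896)]⟩,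
   ⟨V6_21676695552, [(nat_lit 119, nat_lit 27045404736), (nat_lit 37, nat_lit 28119146496)]⟩],
  [W_25904549888, W_23790620672, W_22733656064, W_21659914304]⟩
theorem C_27045404736 : chkRec R_27045404736 = true := by decide +kernel

noncomputable def R_27045662784 : Rec := ⟨nat_lit 27045662784, nat_lit 27,
  [⟨V6_21660176448, [(nat_lit 105, nat_lit 27045662784), (nat_lit 64, nat_lit 28102627392)]⟩,
   ⟨V6_20603211840, [(nat_lit 19, nat_lit 27045662784)]⟩],
  [W_26961514496, W_26944999424, W_26928222272, W_25904549888, W_25888034816, W_25887772736, W_24864100352, W_24814293056]⟩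
theorem C_27045662784 : chkRec R_27045662784 = true := by decide +kernel

noncomputable def R_27045666816 : Rec := ⟨nat_lit 27045666816, nat_lit 74,
  [⟨V6_26961518592, [(nat_lit 28, nat_lit 27045666816), (nat_lit 78, nat_lit 28119146496), (nat_lit 51, nat_lit 28102631424), (nat_lit 33, nat_lit 29176111104), (nat_lit 116, nat_lit 29159596032), (nat_lit 107, nat_lit 30233075712), (nat_lit 49, nat_lit 30216560640), (nat_lit 61, nat_lit 31290040320), (nat_lit 30, nat_lit 31273525248), (nat_lit 54, nat_lit 32347004928), (nat_lit 107, nat_lit 32330489856), (nat_lit 119, nat_lit 33403969536)]⟩,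
   ⟨V6_24831074304, [(nat_lit 21, nat_lit 27045666816), (nat_lit 9, nat_lit 28102631424), (nat_lit 120, nat_lit 29159596032), (nat_lit 91, nat_lit 30216560640), (nat_lit 71, nat_lit 31273525248)]⟩,
   ⟨V6_23790624768, [(nat_lit 13, nat_lit 27045666816), (nat_lit 38, nat_lit 28119146496), (nat_lit 62, nat_lit 28102631424), (nat_lit 98, nat_lit 29176111104), (nat_lit 80, nat_lit 29159596032), (nat_lit 42, nat_lit 30233075712)]⟩,
   ⟨V6_21676695552, [(nat_lit 115, nat_lit 27045666816), (nat_lit 65, nat_lit 28119146496)]⟩],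
  [W_25921323008, W_23807393792, W_23790878720, W_21676949504, W_20603211776]⟩
theorem C_27045666816 : chkRec R_27045666816 = true := by decide +kernel

end Crest.Agent.R187.SN.Top
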