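import Crest.Agent.R187.SN.Top
import Crest.Agent.R187.SN.TD.X6_11
import Crest.Agent.R187.SN.TD.X6_12
import Crest.Agent.R187.SN.TD.W7_3

/-!
# Row 187, PLAN S, generated certificate data (mod 127): rank records and checks, chunk 18

Written by a C++ program (helper824).  The tables are only data: every property is checked by
the kernel.
-/

set_option autoImplicit false
set_option maxRecDepth 100000
set_option Elab.async false

namespace Crest.Agent.R187.SN.Top

noncomputable def R_27045924864 : Rec := ⟨nat_lit 27045924864, nat_lit 96,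
  [⟨V6_25921327104, [(nat_lit 97, nat_lit 27045924864), (nat_lit 79, nat_lit 28119404544), (nat_lit 53, nat_lit 28102889472), (nat_lit 50, nat_lit 29192884224), (nat_lit 63, nat_lit 29176369152), (nat_lit 73, nat_lit 29159854080), (nat_lit 28, nat_lit 30249848832), (nat_lit 57, nat_lit 30233333760), (nat_lit 109, nat_lit 30216818688), (nat_lit 32, nat_lit 31306813440), (nat_lit 112, nat_lit 31290298368), (nat_lit 102, nat_lit 32363778048)]⟩,
   ⟨V6_24897650688, [(nat_lit 55, nat_lit 27045924864), (nat_lit 7, nat_lit 28119662592), (nat_lit 14, nat_lit 28119404544), (nat_lit 39, nat_lit 29193142272), (nat_lit 53, nat_lit 29192884224), (nat_lit 106, nat_lit 30266621952), (nat_lit 106, nat_lit 30266363904), (nat_lit 71, nat_lit 31340101632)]⟩,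
   ⟨V6_24864362496, [(nat_lit 14, nat_lit 27045924864), (nat_lit 115, nat_lit 28119404544), (nat_lit 46, nat_lit 28102889472), (nat_lit 117, nat_lit 29192884224), (nat_lit 39, nat_lit 29176369152), (nat_lit 58, nat_lit 29159854080), (nat_lit 20, nat_lit 30249848832), (nat_lit 122, nat_lit 30233333760), (nat_lit 78, nat_lit 31306813440)]⟩,
   ⟨V6_23823912960, [(nat_lit 116, nat_lit 27045924864), (nat_lit 91, nat_lit 28119404544), (nat_lit 15, nat_lit 29192884224), (nat_lit 113, nat_lit 30266363904)]⟩,
   ⟨V6_20603473920, [(nat_lit 25, nat_lit 27045924864)]⟩],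
  [W_26978029568, W_26928484352, W_25888292864, W_23807135744, W_23790878720, W_20603211776, W_20586696704, W_19529732096]⟩
theorem C_27045924864 : chkRec R_27045924864 = true := by decide +kernel

noncomputable def R_27046182912 : Rec := ⟨nat_lit 27046182912, nat_lit 70,
  [⟨V6_25971130368, [(nat_lit 85, nat_lit 27046182912), (nat_lit 4, nat_lit 28119662592), (nat_lit 35, nat_lit 29193142272), (nat_lit 44, nat_lit 30266621952), (nat_lit 9, nat_lit 31340101632), (nat_lit 83, nat_lit 32413581312)]⟩,
   ⟨V6_24897650688, [(nat_lit 56, nat_lit 27046182912), (nat_lit 4, nat_lit 28119662592), (nat_lit 90, nat_lit 29193142272), (nat_lit 125, nat_lit 30266621952), (nat_lit 125, nat_lit 31340101632)]⟩,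
   ⟨V6_24831590400, [(nat_lit 72, nat_lit 27046182912), (nat_lit 49, nat_lit 28103147520), (nat_lit 103, nat_lit 29160112128), (nat_lit 58, nat_lit 30217076736), (nat_lit 62, nat_lit 31274041344)]⟩,
   ⟨V6_22717661184, [(nat_lit 87, nat_lit 27046182912), (nat_lit 11, nat_lit 28103147520), (nat_lit 24, nat_lit 29160112128)]⟩],
  [W_25888292864, W_24864358400, W_23790878720, W_23757848576, W_21676949504]⟩
theorem C_27046182912 : chkRec R_27046182912 = true := by decide +kernel

noncomputable def R_27062177856 : Rec := ⟨nat_lit 27062177856, nat_lit 14,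
  [⟨V6_25904549952, [(nat_lit 97, nat_lit 27062177856), (nat_lit 56, nat_lit 28119142464), (nat_lit 13, nat_lit 29176107072), (nat_lit 68, nat_lit 30233071680), (nat_lit 97, nat_lit 31290036288), (nat_lit 90, nat_lit 32347000896)]⟩,
   ⟨V6_21693468672, [(nat_lit 15, nat_lit 27062177856), (nat_lit 10, nat_lit 28135919616)]⟩],
  [W_26961514496, W_25904549888, W_25887772736, W_24864100352]⟩
theorem C_27062177856 : chkRec R_27062177856 = true := by decide +kernel

noncomputable def R_27062181888 : Rec := ⟨nat_lit 27062181888, nat_lit 38,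
  [⟨V6_26961518592, [(nat_lit 92, nat_lit 27062181888), (nat_lit 68, nat_lit 28119146496), (nat_lit 53, nat_lit 29176111104), (nat_lit 29, nat_lit 30233075712), (nat_lit 114, nat_lit 31290040320), (nat_lit 67, nat_lit 32347004928), (nat_lit 83, nat_lit 33403969536)]⟩,
   ⟨V6_21693468672, [(nat_lit 96, nat_lit 27062181888), (nat_lit 10, nat_lit 28135919616)]⟩,
   ⟨V6_21676695552, [(nat_lit 49, nat_lit 27062181888), (nat_lit 99, nat_lit 28119146496)]⟩],
  [W_26978287616, W_25921323008, W_25904549888, W_25887776768, W_24830812160]⟩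
theorem C_27062181888 : chkRec R_27062181888 = true := by decide +kernel

noncomputable def R_27062439936 : Rec := ⟨nat_lit 27062439936, nat_lit 64,
  [⟨V6_24864362496, [(nat_lit 33, nat_lit 27062439936), (nat_lit 50, nat_lit 28135919616), (nat_lit 24, nat_lit 28119404544), (nat_lit 79, nat_lit 29192884224), (nat_lit 50, nat_lit 29176369152), (nat_lit 85, nat_lit 30249848832), (nat_lit 12, nat_lit 30233333760), (nat_lit 114, nat_lit 31306813440)]⟩,
   ⟨V6_22766948352, [(nat_lit 55, nat_lit 27062439936), (nat_lit 39, nat_lit 28135919616), (nat_lit 16, nat_lit 29209399296)]⟩,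
   ⟨V6_21693726720, [(nat_lit 13, nat_lit 27062439936), (nat_lit 17, nat_lit 28136177664)]⟩,
   ⟨V6_21693468672, [(nat_lit 92, nat_lit 27062439936), (nat_lit 52, nat_lit 28135919616)]⟩],
  [W_26994802688, W_25921323008, W_24880873472, W_24847843328, W_23790878720, W_21676949504]⟩
theorem C_27062439936 : chkRec R_27062439936 = true := by decide +kernel

noncomputable def R_27062697984 : Rec := ⟨nat_lit 27062697984, nat_lit 62,
  [⟨V6_27028094976, [(nat_lit 35, nat_lit 27062697984), (nat_lit 62, nat_lit 28136177664), (nat_lit 36, nat_lit 28119662592), (nat_lit 5, nat_lit 29209657344), (nat_lit 104, nat_lit 29193142272), (nat_lit 35, nat_lit 29176627200), (nat_lit 63, nat_lit 30283137024), (nat_lit 102, nat_lit 30266621952), (nat_lit 23, nat_lit 30250106880), (nat_lit 93, nat_lit 31356616704), (nat_lit 86, nat_lit 31340101632), (nat_lit 74, nat_lit 31323586560), (nat_lit 65, nat_lit 32413581312), (nat_lit 30, nat_lit 32397066240), (nat_lit 18, nat_lit 33470545920)]⟩,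
   ⟨V6_25954615296, [(nat_lit 2, nat_lit 27062697984), (nat_lit 21, nat_lit 28136177664), (nat_lit 79, nat_lit 28119662592), (nat_lit 47, nat_lit 29209657344), (nat_lit 22, nat_lit 29193142272), (nat_lit 87, nat_lit 29176627200), (nat_lit 14, nat_lit 30283137024), (nat_lit 107, nat_lit 30266621952), (nat_lit 90, nat_lit 30250106880), (nat_lit 95, nat_lit 31340101632), (nat_lit 58, nat_lit 31323586560), (nat_lit 36, nat_lit 32397066240)]⟩,
   ⟨V6_24897650688, [(nat_lit 64, nat_lit 27062697984), (nat_lit 52, nat_lit 28136177664), (nat_lit 58, nat_lit 28119662592), (nat_lit 60, nat_lit 29209657344), (nat_lit 29, nat_lit 29193142272), (nat_lit 31, nat_lit 30283137024), (nat_lit 118, nat_lit 30266621952), (nat_lit 28, nat_lit 31340101632)]⟩,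
   ⟨V6_21693726720, [(nat_lit 108, nat_lit 27062697984), (nat_lit 46, nat_lit 28136177664)]⟩,
   ⟨V6_20620247040, [(nat_lit 22, nat_lit 27062697984)]⟩],
  [W_25921323008, W_25888292864, W_24847843328, W_23790878720, W_20619984896]⟩
theorem C_27062697984 : chkRec R_27062697984 = true := by decide +kernel

noncomputable def R_27078692928 : Rec := ⟨nat_lit 27078692928, nat_lit 2,
  [⟨V6_21709983744, [(nat_lit 124, nat_lit 27078692928), (nat_lit 125, nat_lit 28152434688)]⟩],
  [W_25921064960]⟩
theorem C_27078692928 : chkRec R_27078692928 = true := by decide +kernel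

noncomputable def R_27078955008 : Rec := ⟨nat_lit 27078955008, nat_lit 37,
  [⟨V6_24864362496, [(nat_lit 5, nat_lit 27078955008), (nat_lit 53, nat_lit 28135919616), (nat_lit 60, nat_lit 29192884224), (nat_lit 95, nat_lit 30249848832), (nat_lit 70, nat_lit 31306813440)]⟩,
   ⟨V6_21709983744, [(nat_lit 82, nat_lit 27078955008), (nat_lit 103, nat_lit 28152434688)]⟩,
   ⟨V6_21693468672, [(nat_lit 66, nat_lit 27078955008), (nat_lit 111, nat_lit 28135919616)]⟩],
  [W_26994802688, W_24880873472, W_22766944256, W_21709979648, W_21693206528, W_20636499968]⟩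
theorem C_27078955008 : chkRec R_27078955008 = true := by decide +kernel

noncomputable def R_27079213056 : Rec := ⟨nat_lit 27079213056, nat_lit 45,
  [⟨V6_25921585152, [(nat_lit 108, nat_lit 27079213056), (nat_lit 12, nat_lit 28136177664), (nat_lit 52, nat_lit 29193142272), (nat_lit 65, nat_lit 30250106880), (nat_lit 43, nat_lit 31307071488), (nat_lit 97, nat_lit 32364036096)]⟩,
   ⟨V6_23857201152, [(nat_lit 59, nat_lit 27079213056), (nat_lit 85, nat_lit 28152692736), (nat_lit 16, nat_lit 29226172416), (nat_lit 8, nat_lit 30299652096)]⟩,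
   ⟨V6_21693726720, [(nat_lit 91, nat_lit 27079213056), (nat_lit 78, nat_lit 28136177664)]⟩],
  [W_23840423936, W_21709979648, W_21676949504, W_20619984896, W_19563020288]⟩
theorem C_27079213056 : chkRec R_27079213056 = true := by decide +kernel

noncomputable def R_27095470080 : Rec := ⟨nat_lit 27095470080, nat_lit 10,
  [⟨V6_22766948352, [(nat_lit 124, nat_lit 27095470080), (nat_lit 67, nat_lit 28152434688), (nat_lit 38, nat_lit 29209399296)]⟩,
   ⟨V6_21726756864, [(nat_lit 51, nat_lit 27095470080), (nat_lit 96, nat_lit 28169207808)]⟩],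
  [W_26994802688, W_26978029568, W_24880873472]⟩
theorem C_27095470080 : chkRec R_27095470080 = true := by decide +kernel

noncomputable def R_27095728128 : Rec := ⟨nat_lit 27095728128, nat_lit 29,
  [⟨V6_25938100224, [(nat_lit 57, nat_lit 27095728128), (nat_lit 80, nat_lit 28152692736), (nat_lit 60, nat_lit 29209657344), (nat_lit 3, nat_lit 30266621952), (nat_lit 113, nat_lit 31323586560), (nat_lit 85, nat_lit 32380551168)]⟩,
   ⟨V6_23857201152, [(nat_lit 67, nat_lit 27095728128), (nat_lit 58, nat_lit 28169207808), (nat_lit 82, nat_lit 28152692736), (nat_lit 66, nat_lit 29242687488), (nat_lit 32, nat_lit 29226172416), (nat_lit 86, nat_lit 30299652096)]⟩,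
   ⟨V6_21726756864, [(nat_lit 58, nat_lit 27095728128), (nat_lit 14, nat_lit 28169207808)]⟩],
  [W_25921323008, W_20636499968, W_19579535360]⟩
theorem C_27095728128 : chkRec R_27095728128 = true := by decide +kernel

noncomputable def R_27112243200 : Rec := ⟨nat_lit 27112243200, nat_lit 14,
  [⟨V6_22800236544, [(nat_lit 50, nat_lit 27112243200), (nat_lit 50, nat_lit 28185722880), (nat_lit 124, nat_lit 28169207808), (nat_lit 121, nat_lit 29242687488)]⟩,
   ⟨V6_22783721472, [(nat_lit 92, nat_lit 27112243200), (nat_lit 119, nat_lit 28169207808), (nat_lit 87, nat_lit 29226172416)]⟩,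
   ⟨V6_21726756864, [(nat_lit 36, nat_lit 27112243200), (nat_lit 76, nat_lit 28169207808)]⟩],
  [W_27011317760, W_26994802688, W_23840423936, W_20669530112]⟩
theorem C_27112243200 : chkRec R_27112243200 = true := by decide +kernel

noncomputable def R_27128758272 : Rec := ⟨nat_lit 27128758272, nat_lit 5,
  [⟨V6_23857201152, [(nat_lit 54, nat_lit 27128758272), (nat_lit 106, nat_lit 28185722880), (nat_lit 48, nat_lit 29242687488), (nat_lit 74, nat_lit 30299652096)]⟩],
  [W_27011317760]⟩
theorem C_27128758272 : chkRec R_27128758272 = true := by decide +kernel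

noncomputable def R_27985461378 : Rec := ⟨nat_lit 27985461378, nat_lit 1,
  [⟨V6_23690485890, [(nat_lit 39, nat_lit 27985461378), (nat_lit 64, nat_lit 29059199106), (nat_lit 68, nat_lit 30132936834)]⟩],
  [W_22616752256]⟩
theorem C_27985461378 : chkRec R_27985461378 = true := by decide +kernel

noncomputable def R_27985461504 : Rec := ⟨nat_lit 27985461504, nat_lit 2,
  [⟨V6_23690494080, [(nat_lit 24, nat_lit 27985461504), (nat_lit 102, nat_lit 29059203264), (nat_lit 8, nat_lit 30132945024)]⟩],
  [W_24764235776]⟩
theorem C_27985461504 : chkRec R_27985461504 = true := by decide +kernel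

noncomputable def R_28002238593 : Rec := ⟨nat_lit 28002238593, nat_lit 2,
  [⟨V6_21559787649, [(nat_lit 15, nat_lit 28002238593)]⟩],
  [W_25837969472, W_24764227712]⟩
theorem C_28002238593 : chkRec R_28002238593 = true := by decide +kernel

noncomputable def R_28002238656 : Rec := ⟨nat_lit 28002238656, nat_lit 2,
  [⟨V6_23690494080, [(nat_lit 91, nat_lit 28002238656), (nat_lit 118, nat_lit 29075980416), (nat_lit 57, nat_lit 29059203264), (nat_lit 122, nat_lit 30132945024)]⟩],
  [W_24781008896]⟩
theorem C_28002238656 : chkRec R_28002238656 = true := by decide +kernel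

noncomputable def R_28002496641 : Rec := ⟨nat_lit 28002496641, nat_lit 1,
  [⟨V6_22633525377, [(nat_lit 81, nat_lit 28002496641), (nat_lit 98, nat_lit 29075976321)]⟩],
  [W_25854484544]⟩
theorem C_28002496641 : chkRec R_28002496641 = true := by decide +kernel

noncomputable def R_28002496704 : Rec := ⟨nat_lit 28002496704, nat_lit 1,
  [⟨V6_24781271040, [(nat_lit 38, nat_lit 28002496704), (nat_lit 120, nat_lit 29076238464), (nat_lit 98, nat_lit 30149980224), (nat_lit 62, nat_lit 31223721984)]⟩],
  [W_23707267136]⟩
theorem C_28002496704 : chkRec R_28002496704 = true := by decide +kernel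

noncomputable def R_28002500673 : Rec := ⟨nat_lit 28002500673, nat_lit 2,
  [⟨V6_24781262913, [(nat_lit 120, nat_lit 28002500673), (nat_lit 8, nat_lit 29076238401), (nat_lit 12, nat_lit 30149976129), (nat_lit 51, nat_lit 31223713857)]⟩,
   ⟨V6_22633529409, [(nat_lit 124, nat_lit 28002500673), (nat_lit 34, nat_lit 29075980353)]⟩],
  [W_24781004864]⟩
theorem C_28002500673 : chkRec R_28002500673 = true := by decide +kernel

noncomputable def R_28002500736 : Rec := ⟨nat_lit 28002500736, nat_lit 2,
  [⟨V6_21560049792, [(nat_lit 76, nat_lit 28002500736)]⟩],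
  [W_25854746624]⟩
theorem C_28002500736 : chkRec R_28002500736 = true := by decide +kernel

noncomputable def R_28019007618 : Rec := ⟨nat_lit 28019007618, nat_lit 3,
  [⟨V6_21576556674, [(nat_lit 91, nat_lit 28019007618)]⟩],
  [W_26911187072, W_25854222464, W_24764227712]⟩
theorem C_28019007618 : chkRec R_28019007618 = true := by decide +kernel

noncomputable def R_28019011713 : Rec := ⟨nat_lit 28019011713, nat_lit 3,
  [⟨V6_21576560769, [(nat_lit 82, nat_lit 28019011713)]⟩],
  [W_25854484544, W_25837969472, W_24764227712]⟩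
theorem C_28019011713 : chkRec R_28019011713 = true := by decide +kernel

noncomputable def R_28019011776 : Rec := ⟨nat_lit 28019011776, nat_lit 1,
  [⟨V6_24764231808, [(nat_lit 103, nat_lit 28019011776), (nat_lit 50, nat_lit 29092753536), (nat_lit 92, nat_lit 29075976384), (nat_lit 75, nat_lit 30149718144), (nat_lit 56, nat_lit 30132940992), (nat_lit 2, nat_lit 31206682752)]⟩],
  [W_24797523968]⟩
theorem C_28019011776 : chkRec R_28019011776 = true := by decide +kernel

noncomputable def R_28019015745 : Rec := ⟨nat_lit 28019015745, nat_lit 2,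
  [⟨V6_21576564801, [(nat_lit 80, nat_lit 28019015745)]⟩],
  [W_25854742592, W_25837969472]⟩
theorem C_28019015745 : chkRec R_28019015745 = true := by decide +kernel

noncomputable def R_28019015808 : Rec := ⟨nat_lit 28019015808, nat_lit 13,
  [⟨V6_23724048384, [(nat_lit 87, nat_lit 28019015808), (nat_lit 110, nat_lit 29092757568), (nat_lit 60, nat_lit 30166499328)]⟩],
  [W_25837969472, W_24797782016, W_22650298496]⟩
theorem C_28019015808 : chkRec R_28019015808 = true := by decide +kernel

noncomputable def R_28019269761 : Rec := ⟨nat_lit 28019269761, nat_lit 5,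
  [⟨V6_21576818817, [(nat_lit 25, nat_lit 28019269761)]⟩],
  [W_26927964224, W_25870999616, W_24781004864]⟩
theorem C_28019269761 : chkRec R_28019269761 = true := by decide +kernel

noncomputable def R_28019273793 : Rec := ⟨nat_lit 28019273793, nat_lit 4,
  [⟨V6_26944999488, [(nat_lit 116, nat_lit 28019273793), (nat_lit 90, nat_lit 29093015616), (nat_lit 3, nat_lit 29093011521), (nat_lit 113, nat_lit 29092753473), (nat_lit 20, nat_lit 30166753344), (nat_lit 117, nat_lit 30166749249), (nat_lit 39, nat_lit 30166495296), (nat_lit 88, nat_lit 30166491201), (nat_lit 98, nat_lit 30166233153), (nat_lit 52, nat_lit 31240491072), (nat_lit 105, nat_lit 31240233024), (nat_lit 54, nat_lit 31240228929), (nat_lit 24, nat_lit 31239974976), (nat_lit 110, nat_lit 31239970881), (nat_lit 88, nat_lit 32313970752), (nat_lit 8, nat_lit 32313712704), (nat_lit 68, nat_lit 32313708609), (nat_lit 91, nat_lit 33387450432)]⟩,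
   ⟨V6_25855004736, [(nat_lit 37, nat_lit 28019273793), (nat_lit 73, nat_lit 29093015616), (nat_lit 33, nat_lit 29093011521), (nat_lit 17, nat_lit 29076238401), (nat_lit 77, nat_lit 30166753344), (nat_lit 94, nat_lit 30166749249), (nat_lit 57, nat_lit 30149980224), (nat_lit 72, nat_lit 30149976129), (nat_lit 88, nat_lit 31240491072), (nat_lit 5, nat_lit 31223717952), (nat_lit 111, nat_lit 31223713857), (nat_lit 94, nat_lit 32297455680)]⟩,
   ⟨V6_24781262913, [(nat_lit 79, nat_lit 28019273793), (nat_lit 88, nat_lit 29093011521), (nat_lit 85, nat_lit 29076238401), (nat_lit 23, nat_lit 30166749249), (nat_lit 22, nat_lit 30149976129), (nat_lit 93, nat_lit 31223713857)]⟩],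
  [W_23724040256]⟩
theorem C_28019273793 : chkRec R_28019273793 = true := by decide +kernel

noncomputable def R_28019273856 : Rec := ⟨nat_lit 28019273856, nat_lit 10,
  [⟨V6_24798044160, [(nat_lit 91, nat_lit 28019273856), (nat_lit 123, nat_lit 29093015616), (nat_lit 19, nat_lit 29093011584), (nat_lit 83, nat_lit 30166757376), (nat_lit 111, nat_lit 30166753344), (nat_lit 56, nat_lit 31240495104)]⟩],
  [W_24797782016, W_23707263104]⟩
theorem C_28019273856 : chkRec R_28019273856 = true := by decide +kernel

noncomputable def R_28019277888 : Rec := ⟨nat_lit 28019277888, nat_lit 14,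
  [⟨V6_23724048384, [(nat_lit 105, nat_lit 28019277888), (nat_lit 107, nat_lit 29093019648), (nat_lit 75, nat_lit 29092757568), (nat_lit 19, nat_lit 30166499328)]⟩],
  [W_25871519744, W_25854742592, W_24797782016]⟩
theorem C_28019277888 : chkRec R_28019277888 = true := by decide +kernel

noncomputable def R_28019281920 : Rec := ⟨nat_lit 28019281920, nat_lit 2,
  [⟨V6_24781271040, [(nat_lit 58, nat_lit 28019281920), (nat_lit 123, nat_lit 29093019648), (nat_lit 71, nat_lit 29076246528), (nat_lit 55, nat_lit 30166757376), (nat_lit 35, nat_lit 30149984256), (nat_lit 37, nat_lit 31223721984)]⟩],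
  [W_25871777792]⟩
theorem C_28019281920 : chkRec R_28019281920 = true := by decide +kernel

noncomputable def R_28019531841 : Rec := ⟨nat_lit 28019531841, nat_lit 1,
  [⟨V6_21577080897, [(nat_lit 10, nat_lit 28019531841)]⟩],
  [W_24797777984]⟩
theorem C_28019531841 : chkRec R_28019531841 = true := by decide +kernel

noncomputable def R_28019531904 : Rec := ⟨nat_lit 28019531904, nat_lit 14,
  [⟨V6_21577080960, [(nat_lit 91, nat_lit 28019531904)]⟩],
  [W_25871261696, W_25870999616, W_24797782016]⟩
theorem C_28019531904 : chkRec R_28019531904 = true := by decide +kernel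

noncomputable def R_28019535936 : Rec := ⟨nat_lit 28019535936, nat_lit 13,
  [⟨V6_24798302208, [(nat_lit 25, nat_lit 28019535936), (nat_lit 21, nat_lit 29093277696), (nat_lit 100, nat_lit 29093273664), (nat_lit 31, nat_lit 30167015424), (nat_lit 99, nat_lit 30167011392), (nat_lit 46, nat_lit 31240753152)]⟩,
   ⟨V6_22650826752, [(nat_lit 14, nat_lit 28019535936), (nat_lit 65, nat_lit 29093277696)]⟩],
  [W_25871519744, W_25871261696, W_24797519936]⟩
theorem C_28019535936 : chkRec R_28019535936 = true := by decide +kernel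

noncomputable def R_28019539968 : Rec := ⟨nat_lit 28019539968, nat_lit 20,
  [⟨V6_21577089024, [(nat_lit 80, nat_lit 28019539968)]⟩],
  [W_25871777792, W_25871519744, W_24797782016]⟩
theorem C_28019539968 : chkRec R_28019539968 = true := by decide +kernel

noncomputable def R_28035522690 : Rec := ⟨nat_lit 28035522690, nat_lit 1,
  [⟨V6_22666551426, [(nat_lit 32, nat_lit 28035522690), (nat_lit 34, nat_lit 29109002370)]⟩],
  [W_26911187072]⟩
theorem C_28035522690 : chkRec R_28035522690 = true := by decide +kernel

noncomputable def R_28035526785 : Rec := ⟨nat_lit 28035526785, nat_lit 1,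
  [⟨V6_21593075841, [(nat_lit 106, nat_lit 28035526785)]⟩],
  [W_25854484544]⟩
theorem C_28035526785 : chkRec R_28035526785 = true := by decide +kernel

noncomputable def R_28035784833 : Rec := ⟨nat_lit 28035784833, nat_lit 8,
  [⟨V6_24814035009, [(nat_lit 72, nat_lit 28035784833), (nat_lit 4, nat_lit 29109526593), (nat_lit 52, nat_lit 29109264513), (nat_lit 52, nat_lit 30183006273), (nat_lit 13, nat_lit 30182744193), (nat_lit 94, nat_lit 31256485953)]⟩,
   ⟨V6_23723778177, [(nat_lit 89, nat_lit 28035784833), (nat_lit 99, nat_lit 29109264513), (nat_lit 12, nat_lit 29092749441), (nat_lit 99, nat_lit 30166229121)]⟩,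
   ⟨V6_22650298497, [(nat_lit 102, nat_lit 28035784833), (nat_lit 36, nat_lit 29092749441)]⟩],
  [W_27984928832, W_25837969472, W_22667075648]⟩
theorem C_28035784833 : chkRec R_28035784833 = true := by decide +kernel

noncomputable def R_28035788865 : Rec := ⟨nat_lit 28035788865, nat_lit 5,
  [⟨V6_27985190976, [(nat_lit 120, nat_lit 28035788865), (nat_lit 68, nat_lit 29109530688), (nat_lit 105, nat_lit 29109526593), (nat_lit 102, nat_lit 29109268545), (nat_lit 85, nat_lit 29092753473), (nat_lit 55, nat_lit 30183268416), (nat_lit 58, nat_lit 30183010368), (nat_lit 119, nat_lit 30183006273), (nat_lit 85, nat_lit 30166495296), (nat_lit 13, nat_lit 30166491201), (nat_lit 94, nat_lit 30166233153), (nat_lit 2, nat_lit 30149718081), (nat_lit 75, nat_lit 31256748096), (nat_lit 107, nat_lit 31240233024), (nat_lit 35, nat_lit 31239974976), (nat_lit 62, nat_lit 31239970881), (nat_lit 56, nat_lit 31223459904), (nat_lit 113, nat_lit 31223455809), (nat_lit 63, nat_lit 31223197761), (nat_lit 126, nat_lit 31206682689), (nat_lit 121, nat_lit 32313712704),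 (nat_lit 56, nat_lit 32297197632), (nat_lit 11, nat_lit 32296939584), (nat_lit 47, nat_lit 32296935489), (nat_lit 28, nat_lit 32280424512), (nat_lit 126, nat_lit 32280420417), (nat_lit 85, nat_lit 32280162369), (nat_lit 57, nat_lit 33370677312), (nat_lit 123, nat_lit 33354162240), (nat_lit 92, nat_lit 33353904192), (nat_lit 71, nat_lit 33353900097), (nat_lit 49, nat_lit 34427641920)]⟩,
   ⟨V6_26928484416, [(nat_lit 14, nat_lit 28035788865), (nat_lit 98, nat_lit 29109530688), (nat_lit 27, nat_lit 29109526593), (nat_lit 8, nat_lit 29092753473), (nat_lit 100, nat_lit 30183268416), (nat_lit 71, nat_lit 30183264321), (nat_lit 54, nat_lit 30166495296), (nat_lit 76, nat_lit 30166491201), (nat_lit 20, nat_lit 30149718081), (nat_lit 63, nat_lit 31257006144), (nat_lit 90, nat_lit 31240233024), (nat_lit 68, nat_lit 31240228929), (nat_lit 97, nat_lit 31223459904), (nat_lit 18, nat_lit 31223455809), (nat_lit 119, nat_lit 32313970752), (nat_lit 22, nat_lit 32297197632), (nat_lit 37, nat_lit 32297193537), (nat_lit 35, nat_lit 33370935360)]⟩,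
   ⟨V6_23740813377, [(nat_lit 109, nat_lit 28035788865), (nat_lit 114, nat_lit 29109526593), (nat_lit 121, nat_lit 30183264321)]⟩,
   ⟨V6_22666817601, [(nat_lit 57, nat_lit 28035788865), (nat_lit 104, nat_lit 29109268545)]⟩],
  [W_24814293056, W_21593337920]⟩
theorem C_28035788865 : chkRec R_28035788865 = true := by decide +kernel

noncomputable def R_28035788928 : Rec := ⟨nat_lit 28035788928, nat_lit 17,
  [⟨V6_23740821504, [(nat_lit 71, nat_lit 28035788928), (nat_lit 27, nat_lit 29109530688), (nat_lit 84, nat_lit 30183272448)]⟩],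
  [W_26911711232, W_25871261696, W_25854484544, W_24814297088, W_24764227712, W_23723778176]⟩
theorem C_28035788928 : chkRec R_28035788928 = true := by decide +kernel

noncomputable def R_28035792960 : Rec := ⟨nat_lit 28035792960, nat_lit 21,
  [⟨V6_23724048384, [(nat_lit 62, nat_lit 28035792960), (nat_lit 114, nat_lit 29109534720), (nat_lit 94, nat_lit 29092757568), (nat_lit 120, nat_lit 30166499328)]⟩,
   ⟨V6_22667083776, [(nat_lit 78, nat_lit 28035792960), (nat_lit 90, nat_lit 29109534720)]⟩],
  [W_27985448960, W_26928484352, W_26911711232, W_25854742592, W_25837969472, W_24814555136, W_24781004864]⟩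
theorem C_28035792960 : chkRec R_28035792960 = true := by decide +kernel

noncomputable def R_28036046913 : Rec := ⟨nat_lit 28036046913, nat_lit 8,
  [⟨V6_26961514560, [(nat_lit 44, nat_lit 28036046913), (nat_lit 124, nat_lit 29109788736), (nat_lit 65, nat_lit 29109784641), (nat_lit 63, nat_lit 29109526593), (nat_lit 43, nat_lit 30183526464), (nat_lit 16, nat_lit 30183268416), (nat_lit 30, nat_lit 30183264321), (nat_lit 47, nat_lit 30183006273), (nat_lit 63, nat_lit 31257006144), (nat_lit 75, nat_lit 31256748096), (nat_lit 66, nat_lit 31256744001), (nat_lit 15, nat_lit 31256485953), (nat_lit 107, nat_lit 32330485824), (nat_lit 30, nat_lit 32330227776), (nat_lit 47, nat_lit 32330223681), (nat_lit 74, nat_lit 33403965504)]⟩,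
   ⟨V6_25855004736, [(nat_lit 97, nat_lit 28036046913), (nat_lit 80, nat_lit 29109788736), (nat_lit 124, nat_lit 29109784641), (nat_lit 18, nat_lit 29093011521), (nat_lit 9, nat_lit 30183526464), (nat_lit 117, nat_lit 30166753344), (nat_lit 32, nat_lit 30166749249), (nat_lit 115, nat_lit 30149976129), (nat_lit 107, nat_lit 31240491072), (nat_lit 102, nat_lit 31223717952), (nat_lit 47, nat_lit 31223713857), (nat_lit 3, nat_lit 32297455680)]⟩,
   ⟨V6_24814035009, [(nat_lit 104, nat_lit 28036046913), (nat_lit 121, nat_lit 29109526593), (nat_lit 66, nat_lit 30183006273), (nat_lit 40, nat_lit 31256485953)]⟩,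
   ⟨V6_24781262913, [(nat_lit 116, nat_lit 28036046913), (nat_lit 113, nat_lit 29109784641), (nat_lit 48, nat_lit 29093011521), (nat_lit 97, nat_lit 30166749249), (nat_lit 81, nat_lit 30149976129), (nat_lit 84, nat_lit 31223713857)]⟩,
   ⟨V6_23740813377, [(nat_lit 37, nat_lit 28036046913), (nat_lit 94, nat_lit 29109784641), (nat_lit 97, nat_lit 29109526593), (nat_lit 56, nat_lit 30183264321)]⟩,
   ⟨V6_22667333697, [(nat_lit 15, nat_lit 28036046913), (nat_lit 88, nat_lit 29109784641)]⟩],
  [W_26928222272, W_26927964224, W_25870999616, W_23724040256]⟩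
theorem C_28036046913 : chkRec R_28036046913 = true := by decide +kernel

noncomputable def R_28036046976 : Rec := ⟨nat_lit 28036046976, nat_lit 21,
  [⟨V6_24814035072, [(nat_lit 38, nat_lit 28036046976), (nat_lit 32, nat_lit 29109526656), (nat_lit 29, nat_lit 30183006336), (nat_lit 83, nat_lit 31256486016)]⟩,
   ⟨V6_24798044160, [(nat_lit 98, nat_lit 28036046976), (nat_lit 12, nat_lit 29109788736), (nat_lit 49, nat_lit 29093011584), (nat_lit 49, nat_lit 30183530496), (nat_lit 121, nat_lit 30166753344), (nat_lit 76, nat_lit 31240495104)]⟩],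
  [W_26927964224, W_25887776768, W_25854746624, W_25854222464, W_24814297088, W_24781004864]⟩
theorem C_28036046976 : chkRec R_28036046976 = true := by decide +kernel

noncomputable def R_28036051008 : Rec := ⟨nat_lit 28036051008, nat_lit 32,
  [⟨V6_24798044160, [(nat_lit 125, nat_lit 28036051008), (nat_lit 102, nat_lit 29109792768), (nat_lit 39, nat_lit 29109788736), (nat_lit 46, nat_lit 29093015616), (nat_lit 96, nat_lit 30183530496), (nat_lit 98, nat_lit 30166757376), (nat_lit 97, nat_lit 30166753344), (nat_lit 62, nat_lit 31240495104)]⟩,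
   ⟨V6_23740821504, [(nat_lit 48, nat_lit 28036051008), (nat_lit 9, nat_lit 29109792768), (nat_lit 125, nat_lit 29109530688), (nat_lit 74, nat_lit 30183272448)]⟩],
  [W_28001964032, W_26928222272, W_25888034816, W_25871519744, W_25854742592, W_24814297088, W_24814293056, W_24781262912, W_22667333696]⟩
theorem C_28036051008 : chkRec R_28036051008 = true := by decide +kernel

noncomputable def R_28036055040 : Rec := ⟨nat_lit 28036055040, nat_lit 26,
  [⟨V6_24781271040, [(nat_lit 96, nat_lit 28036055040), (nat_lit 47, nat_lit 29109792768), (nat_lit 82, nat_lit 29093019648), (nat_lit 47, nat_lit 30166757376), (nat_lit 36, nat_lit 30149984256), (nat_lit 9, nat_lit 31223721984)]⟩,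
   ⟨V6_22667083776, [(nat_lit 106, nat_lit 28036055040), (nat_lit 111, nat_lit 29109534720)]⟩,
   ⟨V6_22650568704, [(nat_lit 43, nat_lit 28036055040), (nat_lit 60, nat_lit 29093019648)]⟩],
  [W_25871777792, W_25871519744, W_25854746624, W_24814813184, W_24798040064]⟩
theorem C_28036055040 : chkRec R_28036055040 = true := by decide +kernel

noncomputable def R_28036304961 : Rec := ⟨nat_lit 28036304961, nat_lit 1,
  [⟨V6_23740813377, [(nat_lit 101, nat_lit 28036304961), (nat_lit 118, nat_lit 29109784641), (nat_lit 75, nat_lit 30183264321)]⟩],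
  [W_25887772736]⟩
theorem C_28036304961 : chkRec R_28036304961 = true := by decide +kernel

noncomputable def R_28036309056 : Rec := ⟨nat_lit 28036309056, nat_lit 34,
  [⟨V6_24798302208, [(nat_lit 123, nat_lit 28036309056), (nat_lit 26, nat_lit 29110050816), (nat_lit 7, nat_lit 29110046784), (nat_lit 2, nat_lit 29093273664), (nat_lit 24, nat_lit 30183788544), (nat_lit 17, nat_lit 30167015424), (nat_lit 93, nat_lit 30167011392), (nat_lit 38, nat_lit 31240753152)]⟩,
   ⟨V6_23724564480, [(nat_lit 82, nat_lit 28036309056), (nat_lit 118, nat_lit 29110050816), (nat_lit 26, nat_lit 29093273664), (nat_lit 44, nat_lit 30167015424)]⟩,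
   ⟨V6_22667595840, [(nat_lit 48, nat_lit 28036309056), (nat_lit 53, nat_lit 29110046784)]⟩],
  [W_25888034816, W_25887776768, W_25870999616, W_24814297088, W_23740817408]⟩
theorem C_28036309056 : chkRec R_28036309056 = true := by decide +kernel

noncomputable def R_28036313088 : Rec := ⟨nat_lit 28036313088, nat_lit 41,
  [⟨V6_22650826752, [(nat_lit 53, nat_lit 28036313088), (nat_lit 71, nat_lit 29093277696)]⟩,
   ⟨V6_21593862144, [(nat_lit 105, nat_lit 28036313088)]⟩],
  [W_28018737152, W_25888292864, W_25888034816, W_25871261696, W_24814297088, W_24797782016]⟩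
theorem C_28036313088 : chkRec R_28036313088 = true := by decide +kernel

noncomputable def R_28036567104 : Rec := ⟨nat_lit 28036567104, nat_lit 13,
  [⟨V6_22667857920, [(nat_lit 69, nat_lit 28036567104), (nat_lit 21, nat_lit 29110308864)]⟩,
   ⟨V6_22667595840, [(nat_lit 89, nat_lit 28036567104), (nat_lit 120, nat_lit 29110046784)]⟩],
  [W_28034994176, W_25887772736, W_24814555136]⟩
theorem C_28036567104 : chkRec R_28036567104 = true := by decide +kernel

noncomputable def R_28036571136 : Rec := ⟨nat_lit 28036571136, nat_lit 21,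
  [⟨V6_23741595648, [(nat_lit 30, nat_lit 28036571136), (nat_lit 114, nat_lit 29110308864), (nat_lit 1, nat_lit 30184046592)]⟩,
   ⟨V6_22667857920, [(nat_lit 53, nat_lit 28036571136), (nat_lit 40, nat_lit 29110308864)]⟩,
   ⟨V6_21594120192, [(nat_lit 74, nat_lit 28036571136)]⟩],
  [W_25888292864, W_24814813184, W_23741333504]⟩
theorem C_28036571136 : chkRec R_28036571136 = true := by decide +kernel

noncomputable def R_28052037762 : Rec := ⟨nat_lit 28052037762, nat_lit 3,
  [⟨V6_23723516034, [(nat_lit 36, nat_lit 28052037762), (nat_lit 73, nat_lit 29109002370), (nat_lit 75, nat_lit 30165966978)]⟩,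
   ⟨V6_22666551426, [(nat_lit 63, nat_lit 28052037762), (nat_lit 121, nat_lit 29109002370)]⟩],
  [W_26911187072, W_23740293248]⟩
theorem C_28052037762 : chkRec R_28052037762 = true := by decide +kernel

noncomputable def R_28052299905 : Rec := ⟨nat_lit 28052299905, nat_lit 6,
  [⟨V6_24814035072, [(nat_lit 78, nat_lit 28052299905), (nat_lit 91, nat_lit 29126041728), (nat_lit 61, nat_lit 29125779585), (nat_lit 103, nat_lit 29109264513), (nat_lit 105, nat_lit 30199521408), (nat_lit 103, nat_lit 30183006336), (nat_lit 125, nat_lit 30182744193), (nat_lit 72, nat_lit 31256486016)]⟩],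
  [W_27984928832, W_26927964224, W_23757070400]⟩
theorem C_28052299905 : chkRec R_28052299905 = true := by decide +kernel

noncomputable def R_28052303937 : Rec := ⟨nat_lit 28052303937, nat_lit 3,
  [⟨V6_27985190976, [(nat_lit 23, nat_lit 28052303937), (nat_lit 35, nat_lit 29126045760), (nat_lit 98, nat_lit 29126041665), (nat_lit 53, nat_lit 29109268545), (nat_lit 56, nat_lit 30199783488), (nat_lit 36, nat_lit 30183010368), (nat_lit 101, nat_lit 30183006273), (nat_lit 51, nat_lit 30166233153), (nat_lit 8, nat_lit 31256748096), (nat_lit 18, nat_lit 31239974976), (nat_lit 20, nat_lit 31239970881), (nat_lit 26, nat_lit 31223197761), (nat_lit 15, nat_lit 32313712704), (nat_lit 115, nat_lit 32296939584), (nat_lit 126, nat_lit 32296935489), (nat_lit 57, nat_lit 32280162369), (nat_lit 106, nat_lit 33370677312), (nat_lit 124, nat_lit 33353904192), (nat_lit 68, nat_lit 33353900097), (nat_lit 96, nat_lit 34427641920)]⟩,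
   ⟨V6_23757328449, [(nat_lit 41, nat_lit 28052303937), (nat_lit 79, nat_lit 29126041665), (nat_lit 56, nat_lit 30199779393)]⟩,
   ⟨V6_22666817601, [(nat_lit 90, nat_lit 28052303937), (nat_lit 64, nat_lit 29109268545)]⟩],
  [W_22683590720]⟩
theorem C_28052303937 : chkRec R_28052303937 = true := by decide +kernel

noncomputable def R_28052304000 : Rec := ⟨nat_lit 28052304000, nat_lit 6,
  [⟨V6_24831074304, [(nat_lit 19, nat_lit 28052304000), (nat_lit 115, nat_lit 29126045760), (nat_lit 57, nat_lit 29126041728), (nat_lit 122, nat_lit 30199787520), (nat_lit 79, nat_lit 30199783488), (nat_lit 41, nat_lit 31273525248)]⟩],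
  [W_25871261696, W_23723778176]⟩
theorem C_28052304000 : chkRec R_28052304000 = true := by decide +kernel

noncomputable def R_28052561985 : Rec := ⟨nat_lit 28052561985, nat_lit 8,
  [⟨V6_24831070272, [(nat_lit 94, nat_lit 28052561985), (nat_lit 102, nat_lit 29126303808), (nat_lit 7, nat_lit 29126299713), (nat_lit 99, nat_lit 29126041665), (nat_lit 94, nat_lit 30200041536), (nat_lit 59, nat_lit 30199783488), (nat_lit 24, nat_lit 30199779393), (nat_lit 120, nat_lit 31273521216)]⟩,
   ⟨V6_23757328449, [(nat_lit 86, nat_lit 28052561985), (nat_lit 92, nat_lit 29126299713), (nat_lit 103, nat_lit 29126041665), (nat_lit 42, nat_lit 30199779393)]⟩,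
   ⟨V6_23740813377, [(nat_lit 16, nat_lit 28052561985), (nat_lit 52, nat_lit 29126299713), (nat_lit 50, nat_lit 29109526593), (nat_lit 28, nat_lit 30183264321)]⟩],
  [W_26928222272, W_25870999616, W_25837969472, W_23757070400]⟩
theorem C_28052561985 : chkRec R_28052561985 = true := by decide +kernel

noncomputable def R_28052562048 : Rec := ⟨nat_lit 28052562048, nat_lit 34,
  [⟨V6_25904553984, [(nat_lit 28, nat_lit 28052562048), (nat_lit 80, nat_lit 29126303808), (nat_lit 48, nat_lit 29126041728), (nat_lit 80, nat_lit 30200045568), (nat_lit 110, nat_lit 30199783488), (nat_lit 33, nat_lit 30199521408), (nat_lit 104, nat_lit 31273525248), (nat_lit 95, nat_lit 31273263168), (nat_lit 35, nat_lit 32347004928)]⟩,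
   ⟨V6_24831074304, [(nat_lit 65, nat_lit 28052562048), (nat_lit 32, nat_lit 29126303808), (nat_lit 7, nat_lit 29126041728), (nat_lit 16, nat_lit 30200045568), (nat_lit 21, nat_lit 30199783488), (nat_lit 3, nat_lit 31273525248)]⟩],
  [W_26911711232, W_25837969472, W_24797782016, W_24764227712, W_22683852800]⟩
theorem C_28052562048 : chkRec R_28052562048 = true := by decide +kernel

noncomputable def R_28052566080 : Rec := ⟨nat_lit 28052566080, nat_lit 37,
  [⟨V6_26911715328, [(nat_lit 31, nat_lit 28052566080), (nat_lit 69, nat_lit 29126307840), (nat_lit 116, nat_lit 29109530688), (nat_lit 105, nat_lit 30183272448), (nat_lit 69, nat_lit 30166495296), (nat_lit 54, nat_lit 31240237056), (nat_lit 28, nat_lit 31223459904), (nat_lit 83, nat_lit 32297201664), (nat_lit 70, nat_lit 32280424512), (nat_lit 20, nat_lit 33354166272)]⟩,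
   ⟨V6_24831070272, [(nat_lit 70, nat_lit 28052566080), (nat_lit 105, nat_lit 29126303808), (nat_lit 111, nat_lit 29126045760), (nat_lit 97, nat_lit 30200041536), (nat_lit 95, nat_lit 30199783488), (nat_lit 101, nat_lit 31273521216)]⟩,
   ⟨V6_22683856896, [(nat_lit 55, nat_lit 28052566080), (nat_lit 83, nat_lit 29126307840)]⟩],
  [W_28001964032, W_27985448960, W_26928484352, W_26911711232, W_25871519744, W_22683852800]⟩
theorem C_28052566080 : chkRec R_28052566080 = true := by decide +kernel

noncomputable def R_28052570112 : Rec := ⟨nat_lit 28052570112, nat_lit 37,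
  [⟨V6_23724048384, [(nat_lit 7, nat_lit 28052570112), (nat_lit 53, nat_lit 29109534720), (nat_lit 4, nat_lit 30166499328)]⟩,
   ⟨V6_21610119168, [(nat_lit 117, nat_lit 28052570112)]⟩],
  [W_28002222080, W_26928484352, W_26911711232, W_25888292864, W_24764235776, W_23757590528]⟩
theorem C_28052570112 : chkRec R_28052570112 = true := by decide +kernel

noncomputable def R_28052820033 : Rec := ⟨nat_lit 28052820033, nat_lit 4,
  [⟨V6_21610369089, [(nat_lit 35, nat_lit 28052820033)]⟩],
  [W_26928222272, W_25887772736, W_24814293056]⟩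
theorem C_28052820033 : chkRec R_28052820033 = true := by decide +kernel

noncomputable def R_28052824128 : Rec := ⟨nat_lit 28052824128, nat_lit 54,
  [⟨V6_25904553984, [(nat_lit 76, nat_lit 28052824128), (nat_lit 42, nat_lit 29126565888), (nat_lit 53, nat_lit 29126303808), (nat_lit 109, nat_lit 30200045568), (nat_lit 69, nat_lit 30199783488), (nat_lit 96, nat_lit 31273525248), (nat_lit 115, nat_lit 31273263168), (nat_lit 86, nat_lit 32347004928)]⟩,
   ⟨V6_24831074304, [(nat_lit 119, nat_lit 28052824128), (nat_lit 78, nat_lit 29126565888), (nat_lit 72, nat_lit 29126303808), (nat_lit 98, nat_lit 30200045568), (nat_lit 109, nat_lit 30199783488), (nat_lit 120, nat_lit 31273525248)]⟩,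
   ⟨V6_24798044160, [(nat_lit 111, nat_lit 28052824128), (nat_lit 111, nat_lit 29126565888), (nat_lit 18, nat_lit 29109788736), (nat_lit 99, nat_lit 30183530496), (nat_lit 4, nat_lit 30166753344), (nat_lit 108, nat_lit 31240495104)]⟩],
  [W_25887772736, W_24831070208, W_24830812160, W_24797782016, W_24781262912, W_22683852800, W_22667333696]⟩
theorem C_28052824128 : chkRec R_28052824128 = true := by decide +kernel

noncomputable def R_28052828160 : Rec := ⟨nat_lit 28052828160, nat_lit 56,
  [⟨V6_24831590400, [(nat_lit 120, nat_lit 28052828160), (nat_lit 32, nat_lit 29126565888), (nat_lit 27, nat_lit 30200303616), (nat_lit 1, nat_lit 31274041344)]⟩,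
   ⟨V6_22683856896, [(nat_lit 62, nat_lit 28052828160), (nat_lit 17, nat_lit 29126307840)]⟩],
  [W_28018737152, W_28002222080, W_28001964032, W_26928484352, W_25888292864, W_25871777792, W_25871261696, W_25854746624, W_24831070208, W_24797782016]⟩
theorem C_28052828160 : chkRec R_28052828160 = true := by decide +kernel

noncomputable def R_28053082176 : Rec := ⟨nat_lit 28053082176, nat_lit 24,
  [⟨V6_22667595840, [(nat_lit 27, nat_lit 28053082176), (nat_lit 70, nat_lit 29110046784)]⟩,
   ⟨V6_21610631232, [(nat_lit 102, nat_lit 28053082176)]⟩],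
  [W_28034994176, W_28018479104, W_26978029568, W_25904549888, W_25887772736, W_25871519744, W_24798040064]⟩
theorem C_28053082176 : chkRec R_28053082176 = true := by decide +kernel

noncomputable def R_28053086208 : Rec := ⟨nat_lit 28053086208, nat_lit 82,
  [⟨V6_25904553984, [(nat_lit 94, nat_lit 28053086208), (nat_lit 43, nat_lit 29126565888), (nat_lit 15, nat_lit 30200045568), (nat_lit 42, nat_lit 31273525248), (nat_lit 42, nat_lit 32347004928)]⟩,
   ⟨V6_25872039936, [(nat_lit 20, nat_lit 28053086208), (nat_lit 73, nat_lit 29126823936), (nat_lit 21, nat_lit 29110050816), (nat_lit 67, nat_lit 30200561664), (nat_lit 44, nat_lit 30183788544), (nat_lit 61, nat_lit 30167015424), (nat_lit 113, nat_lit 31257526272), (nat_lit 7, nat_lit 31240753152), (nat_lit 8, nat_lit 32314490880)]⟩,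
   ⟨V6_24831590400, [(nat_lit 102, nat_lit 28053086208), (nat_lit 125, nat_lit 29126823936), (nat_lit 51, nat_lit 29126565888), (nat_lit 54, nat_lit 30200561664), (nat_lit 36, nat_lit 30200303616), (nat_lit 38, nat_lit 31274041344)]⟩,
   ⟨V6_23741337600, [(nat_lit 38, nat_lit 28053086208), (nat_lit 60, nat_lit 29126823936), (nat_lit 87, nat_lit 29110050816), (nat_lit 3, nat_lit 30183788544)]⟩,
   ⟨V6_23724564480, [(nat_lit 113, nat_lit 28053086208), (nat_lit 21, nat_lit 29110050816), (nat_lit 119, nat_lit 30167015424)]⟩],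
  [W_25888292864, W_24830812160, W_24798298112, W_24797782016, W_23757848576, W_23741333504, W_20536893440]⟩
theorem C_28053086208 : chkRec R_28053086208 = true := by decide +kernel

noncomputable def R_28053344256 : Rec := ⟨nat_lit 28053344256, nat_lit 43,
  [⟨V6_24831590400, [(nat_lit 21, nat_lit 28053344256), (nat_lit 44, nat_lit 29127081984), (nat_lit 30, nat_lit 29126823936), (nat_lit 43, nat_lit 30200561664), (nat_lit 38, nat_lit 30200303616), (nat_lit 109, nat_lit 31274041344)]⟩,
   ⟨V6_21610893312, [(nat_lit 108, nat_lit 28053344256)]⟩],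
  [W_28051767296, W_28035252224, W_28034994176, W_26978029568, W_25904549888, W_25888292864, W_25888034816, W_24814813184]⟩
theorem C_28053344256 : chkRec R_28053344256 = true := by decide +kernel

noncomputable def R_28053602304 : Rec := ⟨nat_lit 28053602304, nat_lit 21,
  [⟨V6_28052029440, [(nat_lit 78, nat_lit 28053602304), (nat_lit 26, nat_lit 29127081984), (nat_lit 13, nat_lit 30200561664), (nat_lit 46, nat_lit 31274041344), (nat_lit 86, nat_lit 32347521024), (nat_lit 32, nat_lit 33421000704), (nat_lit 60, nat_lit 34494480384)]⟩,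
   ⟨V6_21611151360, [(nat_lit 2, nat_lit 28053602304)]⟩],
  [W_22684368896, W_20537409536]⟩
theorem C_28053602304 : chkRec R_28053602304 = true := by decide +kernel

noncomputable def R_28068814977 : Rec := ⟨nat_lit 28068814977, nat_lit 5,
  [⟨V6_26911187073, [(nat_lit 62, nat_lit 28068814977), (nat_lit 117, nat_lit 29125779585), (nat_lit 18, nat_lit 30182744193), (nat_lit 20, nat_lit 31239708801), (nat_lit 14, nat_lit 32296673409), (nat_lit 88, nat_lit 33353638017)]⟩,
   ⟨V6_25854222465, [(nat_lit 66, nat_lit 28068814977), (nat_lit 25, nat_lit 29125779585), (nat_lit 111, nat_lit 30182744193), (nat_lit 118, nat_lit 31239708801), (nat_lit 64, nat_lit 32296673409)]⟩,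
   ⟨V6_22700105793, [(nat_lit 112, nat_lit 28068814977), (nat_lit 117, nat_lit 29142556737)]⟩],
  [W_27984928832, W_23757070400]⟩
theorem C_28068814977 : chkRec R_28068814977 = true := by decide +kernel

noncomputable def R_28069077057 : Rec := ⟨nat_lit 28069077057, nat_lit 7,
  [⟨V6_23774105664, [(nat_lit 44, nat_lit 28069077057), (nat_lit 15, nat_lit 29142818880), (nat_lit 103, nat_lit 29142814785), (nat_lit 11, nat_lit 30216556608)]⟩,
   ⟨V6_22700105793, [(nat_lit 87, nat_lit 28069077057), (nat_lit 21, nat_lit 29142556737)]⟩],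
  [W_27984928832, W_25870999616, W_23757070400]⟩
theorem C_28069077057 : chkRec R_28069077057 = true := by decide +kernel

noncomputable def R_28069077120 : Rec := ⟨nat_lit 28069077120, nat_lit 21,
  [⟨V6_24847589376, [(nat_lit 20, nat_lit 28069077120), (nat_lit 50, nat_lit 29142818880), (nat_lit 76, nat_lit 29142556800), (nat_lit 79, nat_lit 30216560640), (nat_lit 55, nat_lit 30216298560), (nat_lit 91, nat_lit 31290040320)]⟩,
   ⟨V6_24814035072, [(nat_lit 122, nat_lit 28069077120), (nat_lit 10, nat_lit 29142556800), (nat_lit 73, nat_lit 29126041728), (nat_lit 15, nat_lit 30199521408), (nat_lit 76, nat_lit 30183006336), (nat_lit 69, nat_lit 31256486016)]⟩],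
  [W_27984928832, W_24830812160, W_23757332480]⟩
theorem C_28069077120 : chkRec R_28069077120 = true := by decide +kernel

noncomputable def R_28069081152 : Rec := ⟨nat_lit 28069081152, nat_lit 17,
  [⟨V6_23774105664, [(nat_lit 19, nat_lit 28069081152), (nat_lit 49, nat_lit 29142818880), (nat_lit 91, nat_lit 30216556608)]⟩,
   ⟨V6_22700371968, [(nat_lit 48, nat_lit 28069081152), (nat_lit 114, nat_lit 29142822912)]⟩],
  [W_27985190912, W_26928226304, W_26928222272, W_25888034816, W_25871261696, W_25854484544]⟩
theorem C_28069081152 : chkRec R_28069081152 = true := by decide +kernel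

noncomputable def R_28069335105 : Rec := ⟨nat_lit 28069335105, nat_lit 3,
  [⟨V6_21626884161, [(nat_lit 25, nat_lit 28069335105)]⟩],
  [W_26928222272, W_25887772736, W_25854742592]⟩
theorem C_28069335105 : chkRec R_28069335105 = true := by decide +kernel

noncomputable def R_28069339200 : Rec := ⟨nat_lit 28069339200, nat_lit 60,
  [⟨V6_25921327104, [(nat_lit 28, nat_lit 28069339200), (nat_lit 28, nat_lit 29143080960), (nat_lit 51, nat_lit 29143076928), (nat_lit 102, nat_lit 29142818880), (nat_lit 68, nat_lit 30216818688), (nat_lit 11, nat_lit 30216560640), (nat_lit 65, nat_lit 30216556608), (nat_lit 65, nat_lit 30216298560), (nat_lit 55, nat_lit 31290298368), (nat_lit 44, nat_lit 31290040320), (nat_lit 71, nat_lit 31290036288), (nat_lit 124, nat_lit 32363778048)]⟩,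
   ⟨V6_24847589376, [(nat_lit 88, nat_lit 28069339200), (nat_lit 66, nat_lit 29143080960), (nat_lit 39, nat_lit 29142818880), (nat_lit 90, nat_lit 30216560640), (nat_lit 27, nat_lit 30216298560), (nat_lit 86, nat_lit 31290040320)]⟩,
   ⟨V6_24831074304, [(nat_lit 21, nat_lit 28069339200), (nat_lit 123, nat_lit 29143080960), (nat_lit 23, nat_lit 29142818880), (nat_lit 98, nat_lit 29126303808), (nat_lit 67, nat_lit 30216560640), (nat_lit 111, nat_lit 30200045568), (nat_lit 85, nat_lit 30199783488), (nat_lit 116, nat_lit 31273525248)]⟩,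
   ⟨V6_23774105664, [(nat_lit 25, nat_lit 28069339200), (nat_lit 74, nat_lit 29143076928), (nat_lit 58, nat_lit 29142818880), (nat_lit 89, nat_lit 30216556608)]⟩],
  [W_27985448960, W_26928484352, W_26911711232, W_25837969472, W_24830812160, W_24797782016, W_23773847552, W_23757070400, W_22683852800]⟩
theorem C_28069339200 : chkRec R_28069339200 = true := by decide +kernel

noncomputable def R_28069343232 : Rec := ⟨nat_lit 28069343232, nat_lit 60,
  [⟨V6_23740821504, [(nat_lit 110, nat_lit 28069343232), (nat_lit 5, nat_lit 29126307840), (nat_lit 14, nat_lit 30183272448)]⟩,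
   ⟨V6_22700371968, [(nat_lit 80, nat_lit 28069343232), (nat_lit 117, nat_lit 29142822912)]⟩,
   ⟨V6_22683856896, [(nat_lit 31, nat_lit 28069343232), (nat_lit 59, nat_lit 29126307840)]⟩],
  [W_28018737152, W_27985448960, W_27985190912, W_26911711232, W_25888292864, W_25888034816, W_25871261696, W_25854746624, W_24847843328, W_24831070208]⟩
theorem C_28069343232 : chkRec R_28069343232 = true := by decide +kernel

noncomputable def R_28069597248 : Rec := ⟨nat_lit 28069597248, nat_lit 34,
  [⟨V6_26994806784, [(nat_lit 15, nat_lit 28069597248), (nat_lit 80, nat_lit 29143339008), (nat_lit 84, nat_lit 29143076928), (nat_lit 29, nat_lit 30216818688), (nat_lit 58, nat_lit 30216556608), (nat_lit 23, nat_lit 31290298368), (nat_lit 14, nat_lit 31290036288), (nat_lit 43, nat_lit 32363778048), (nat_lit 107, nat_lit 32363515968), (nat_lit 8, nat_lit 33437257728)]⟩,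
   ⟨V6_25921327104, [(nat_lit 71, nat_lit 28069597248), (nat_lit 76, nat_lit 29143339008), (nat_lit 108, nat_lit 29143076928), (nat_lit 40, nat_lit 30216818688), (nat_lit 16, nat_lit 30216556608), (nat_lit 83, nat_lit 31290298368), (nat_lit 69, nat_lit 31290036288), (nat_lit 77, nat_lit 32363778048)]⟩,
   ⟨V6_24847585344, [(nat_lit 47, nat_lit 28069597248), (nat_lit 73, nat_lit 29143076928), (nat_lit 86, nat_lit 30216556608), (nat_lit 106, nat_lit 31290036288)]⟩,
   ⟨V6_24831070272, [(nat_lit 98, nat_lit 28069597248), (nat_lit 81, nat_lit 29143076928), (nat_lit 12, nat_lit 29126561856), (nat_lit 105, nat_lit 30216556608), (nat_lit 68, nat_lit 30200041536), (nat_lit 6, nat_lit 31273521216)]⟩,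
   ⟨V6_23774105664, [(nat_lit 122, nat_lit 28069597248), (nat_lit 82, nat_lit 29143076928), (nat_lit 18, nat_lit 30216556608)]⟩],
  [W_26928484352, W_24831070208, W_24798040064, W_22684110848]⟩
theorem C_28069597248 : chkRec R_28069597248 = true := by decide +kernel

noncomputable def R_28069601280 : Rec := ⟨nat_lit 28069601280, nat_lit 89,
  [⟨V6_28018483200, [(nat_lit 117, nat_lit 28069601280), (nat_lit 75, nat_lit 29143080960), (nat_lit 119, nat_lit 29126565888), (nat_lit 91, nat_lit 30216560640), (nat_lit 126, nat_lit 30200045568), (nat_lit 26, nat_lit 30183530496), (nat_lit 68, nat_lit 31290040320), (nat_lit 78, nat_lit 31273525248), (nat_lit 122, nat_lit 31257010176), (nat_lit 48, nat_lit 31240495104), (nat_lit 123, nat_lit 32347004928), (nat_lit 57, nat_lit 32330489856), (nat_lit 58, nat_lit 32313974784), (nat_lit 33, nat_lit 33403969536), (nat_lit 11, nat_lit 33387454464), (nat_lit 125, nat_lit 34460934144)]⟩,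
   ⟨V6_26961518592, [(nat_lit 110, nat_lit 28069601280), (nat_lit 9, nat_lit 29143080960), (nat_lit 46, nat_lit 29126565888), (nat_lit 91, nat_lit 30216560640), (nat_lit 40, nat_lit 30200045568), (nat_lit 113, nat_lit 30183530496), (nat_lit 107, nat_lit 31290040320), (nat_lit 35, nat_lit 31273525248), (nat_lit 68, nat_lit 31257010176), (nat_lit 76, nat_lit 32347004928), (nat_lit 17, nat_lit 32330489856), (nat_lit 84, nat_lit 33403969536)]⟩,
   ⟨V6_26928488448, [(nat_lit 44, nat_lit 28069601280), (nat_lit 102, nat_lit 29143080960), (nat_lit 53, nat_lit 29126565888), (nat_lit 45, nat_lit 30200045568), (nat_lit 109, nat_lit 30183530496), (nat_lit 46, nat_lit 31257010176), (nat_lit 81, nat_lit 31240495104), (nat_lit 37, nat_lit 32313974784), (nat_lit 33, nat_lit 32297459712), (nat_lit 64, nat_lit 33370939392)]⟩,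
   ⟨V6_25921327104, [(nat_lit 125, nat_lit 28069601280), (nat_lit 39, nat_lit 29143339008), (nat_lit 78, nat_lit 29143080960), (nat_lit 54, nat_lit 30216818688), (nat_lit 5, nat_lit 30216560640), (nat_lit 10, nat_lit 31290298368), (nat_lit 10, nat_lit 31290040320), (nat_lit 69, nat_lit 32363778048)]⟩,
   ⟨V6_25904553984, [(nat_lit 28, nat_lit 28069601280), (nat_lit 119, nat_lit 29143080960), (nat_lit 112, nat_lit 29126565888), (nat_lit 99, nat_lit 30216560640), (nat_lit 9, nat_lit 30200045568), (nat_lit 95, nat_lit 31290040320), (nat_lit 7, nat_lit 31273525248), (nat_lit 114, nat_lit 32347004928)]⟩,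
   ⟨V6_24847589376, [(nat_lit 97, nat_lit 28069601280), (nat_lit 75, nat_lit 29143080960), (nat_lit 64, nat_lit 30216560640), (nat_lit 8, nat_lit 31290040320)]⟩,
   ⟨V6_24831590400, [(nat_lit 52, nat_lit 28069601280), (nat_lit 78, nat_lit 29143339008), (nat_lit 59, nat_lit 29126565888), (nat_lit 42, nat_lit 30217076736), (nat_lit 65, nat_lit 30200303616), (nat_lit 2, nat_lit 31274041344)]⟩],
  [W_25921323008, W_25888292864, W_25871777792, W_24847843328, W_24831070208, W_24814813184, W_24798040064, W_23773847552, W_23757848576, W_23724302336]⟩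
theorem C_28069601280 : chkRec R_28069601280 = true := by decide +kernel

noncomputable def R_28069859328 : Rec := ⟨nat_lit 28069859328, nat_lit 76,
  [⟨V6_26994806784, [(nat_lit 80, nat_lit 28069859328), (nat_lit 71, nat_lit 29143339008), (nat_lit 18, nat_lit 30216818688), (nat_lit 19, nat_lit 31290298368), (nat_lit 1, nat_lit 32363778048), (nat_lit 108, nat_lit 33437257728)]⟩,
   ⟨V6_23741337600, [(nat_lit 31, nat_lit 28069859328), (nat_lit 88, nat_lit 29126823936), (nat_lit 94, nat_lit 30183788544)]⟩,
   ⟨V6_21627408384, [(nat_lit 25, nat_lit 28069859328)]⟩],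
  [W_28051767296, W_28035252224, W_28018737152, W_26994802688, W_26978029568, W_25921323008, W_25904549888, W_25888292864, W_25871777792, W_25871519744, W_24847843328, W_24798298112]⟩
theorem C_28069859328 : chkRec R_28069859328 = true := by decide +kernel

noncomputable def R_28070117376 : Rec := ⟨nat_lit 28070117376, nat_lit 36,
  [⟨V6_25921585152, [(nat_lit 24, nat_lit 28070117376), (nat_lit 21, nat_lit 29143597056), (nat_lit 72, nat_lit 30217076736), (nat_lit 85, nat_lit 31290556416), (nat_lit 121, nat_lit 32364036096)]⟩,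
   ⟨V6_24831590400, [(nat_lit 88, nat_lit 28070117376), (nat_lit 31, nat_lit 29143597056), (nat_lit 58, nat_lit 29127081984), (nat_lit 96, nat_lit 30217076736), (nat_lit 102, nat_lit 30200561664), (nat_lit 69, nat_lit 31274041344)]⟩],
  [W_28068282368, W_28051767296, W_22667853824, W_21627404288, W_21610889216]⟩
theorem C_28070117376 : chkRec R_28070117376 = true := by decide +kernel

noncomputable def R_28085592129 : Rec := ⟨nat_lit 28085592129, nat_lit 3,
  [⟨V6_22700105793, [(nat_lit 77, nat_lit 28085592129), (nat_lit 118, nat_lit 29142556737)]⟩,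
   ⟨V6_21643141185, [(nat_lit 98, nat_lit 28085592129)]⟩],
  [W_27984928832, W_26927964224, W_25887772736]⟩
theorem C_28085592129 : chkRec R_28085592129 = true := by decide +kernel

noncomputable def R_28085592192 : Rec := ⟨nat_lit 28085592192, nat_lit 17,
  [⟨V6_24814035072, [(nat_lit 114, nat_lit 28085592192), (nat_lit 115, nat_lit 29142556800), (nat_lit 83, nat_lit 30199521408), (nat_lit 71, nat_lit 31256486016)]⟩,
   ⟨V6_23790624768, [(nat_lit 30, nat_lit 28085592192), (nat_lit 108, nat_lit 29159333952), (nat_lit 82, nat_lit 30233075712)]⟩],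
  [W_28001705984, W_27984928832, W_26911187072, W_24830812160, W_20569399424]⟩
theorem C_28085592192 : chkRec R_28085592192 = true := by decide +kernel

noncomputable def R_28085850177 : Rec := ⟨nat_lit 28085850177, nat_lit 2,
  [⟨V6_21643399233, [(nat_lit 3, nat_lit 28085850177)]⟩],
  [W_26928222272, W_25887772736]⟩
theorem C_28085850177 : chkRec R_28085850177 = true := by decide +kernel

noncomputable def R_28085854272 : Rec := ⟨nat_lit 28085854272, nat_lit 41,
  [⟨V6_23790624768, [(nat_lit 3, nat_lit 28085854272), (nat_lit 14, nat_lit 29159596032), (nat_lit 91, nat_lit 29159333952), (nat_lit 24, nat_lit 30233075712)]⟩,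
   ⟨V6_23790620736, [(nat_lit 98, nat_lit 28085854272), (nat_lit 55, nat_lit 29159592000), (nat_lit 62, nat_lit 29159333952), (nat_lit 87, nat_lit 30233071680)]⟩,
   ⟨V6_22717141056, [(nat_lit 80, nat_lit 28085854272), (nat_lit 46, nat_lit 29159592000)]⟩],
  [W_28001964032, W_28001705984, W_27985190912, W_27984928832, W_26928222272, W_25888034816, W_25871261696, W_24831070208, W_23757332480]⟩
theorem C_28085854272 : chkRec R_28085854272 = true := by decide +kernel

noncomputable def R_28085858304 : Rec := ⟨nat_lit 28085858304, nat_lit 25,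
  [⟨V6_25921585152, [(nat_lit 46, nat_lit 28085858304), (nat_lit 65, nat_lit 29159596032), (nat_lit 90, nat_lit 29142822912), (nat_lit 9, nat_lit 30233333760), (nat_lit 38, nat_lit 30216560640), (nat_lit 115, nat_lit 31307071488), (nat_lit 111, nat_lit 31290298368), (nat_lit 109, nat_lit 32364036096)]⟩,
   ⟨V6_21643407360, [(nat_lit 22, nat_lit 28085858304)]⟩],
  [W_28018737152, W_28001964032, W_26944999424, W_25904807936, W_25871261696]⟩
theorem C_28085858304 : chkRec R_28085858304 = true := by decide +kernel

noncomputable def R_28086112320 : Rec := ⟨nat_lit 28086112320, nat_lit 31,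
  [⟨V6_26928484416, [(nat_lit 95, nat_lit 28086112320), (nat_lit 114, nat_lit 29143076928), (nat_lit 50, nat_lit 30200041536), (nat_lit 82, nat_lit 31257006144), (nat_lit 102, nat_lit 32313970752), (nat_lit 120, nat_lit 33370935360)]⟩,
   ⟨V6_24864362496, [(nat_lit 126, nat_lit 28086112320), (nat_lit 31, nat_lit 29159854080), (nat_lit 1, nat_lit 29159592000), (nat_lit 100, nat_lit 30233333760), (nat_lit 30, nat_lit 30233071680), (nat_lit 25, nat_lit 31306813440)]⟩,
   ⟨V6_22717141056, [(nat_lit 72, nat_lit 28086112320), (nat_lit 118, nat_lit 29159592000)]⟩],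
  [W_28034994176, W_27985448960, W_26978029568, W_26928484352, W_25888034816, W_25871519744, W_24831070208]⟩
theorem C_28086112320 : chkRec R_28086112320 = true := by decide +kernel

noncomputable def R_28086116352 : Rec := ⟨nat_lit 28086116352, nat_lit 99,
  [⟨V6_26961518592, [(nat_lit 30, nat_lit 28086116352), (nat_lit 12, nat_lit 29159596032), (nat_lit 6, nat_lit 29143080960), (nat_lit 104, nat_lit 30233075712), (nat_lit 85, nat_lit 30216560640), (nat_lit 53, nat_lit 30200045568), (nat_lit 110, nat_lit 31290040320), (nat_lit 101, nat_lit 31273525248), (nat_lit 26, nat_lit 31257010176), (nat_lit 36, nat_lit 32347004928), (nat_lit 59, nat_lit 32330489856), (nat_lit 60, nat_lit 33403969536)]⟩,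
   ⟨V6_26928488448, [(nat_lit 99, nat_lit 28086116352), (nat_lit 68, nat_lit 29143080960), (nat_lit 12, nat_lit 30200045568), (nat_lit 40, nat_lit 31257010176), (nat_lit 121, nat_lit 32313974784), (nat_lit 105, nat_lit 33370939392)]⟩,
   ⟨V6_25921327104, [(nat_lit 29, nat_lit 28086116352), (nat_lit 58, nat_lit 29159854080), (nat_lit 126, nat_lit 29159596032), (nat_lit 52, nat_lit 29143080960), (nat_lit 93, nat_lit 30233333760), (nat_lit 45, nat_lit 30233075712), (nat_lit 64, nat_lit 30216818688), (nat_lit 27, nat_lit 30216560640), (nat_lit 8, nat_lit 31306813440), (nat_lit 96, nat_lit 31290298368), (nat_lit 72, nat_lit 31290040320), (nat_lit 45, nat_lit 32363778048)]⟩,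
   ⟨V6_25904553984, [(nat_lit 42, nat_lit 28086116352), (nat_lit 125, nat_lit 29159596032), (nat_lit 37, nat_lit 29143080960), (nat_lit 124, nat_lit 30233075712), (nat_lit 52, nat_lit 30216560640), (nat_lit 104, nat_lit 30200045568), (nat_lit 49, nat_lit 31290040320), (nat_lit 71, nat_lit 31273525248), (nat_lit 54, nat_lit 32347004928)]⟩,
   ⟨V6_24864362496, [(nat_lit 44, nat_lit 28086116352), (nat_lit 60, nat_lit 29159854080), (nat_lit 64, nat_lit 29159596032), (nat_lit 52, nat_lit 30233333760), (nat_lit 18, nat_lit 30233075712), (nat_lit 83, nat_lit 31306813440)]⟩,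
   ⟨V6_24847589376, [(nat_lit 77, nat_lit 28086116352), (nat_lit 72, nat_lit 29159596032), (nat_lit 50, nat_lit 29143080960), (nat_lit 115, nat_lit 30233075712), (nat_lit 117, nat_lit 30216560640), (nat_lit 83, nat_lit 31290040320)]⟩,
   ⟨V6_23790624768, [(nat_lit 43, nat_lit 28086116352), (nat_lit 109, nat_lit 29159596032), (nat_lit 61, nat_lit 30233075712)]⟩],
  [W_26911711232, W_25921323008, W_25888292864, W_24864358400, W_24847843328, W_23790878720, W_22716882944, W_20569923584]⟩
theorem C_28086116352 : chkRec R_28086116352 = true := by decide +kernel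

noncomputable def R_28086374400 : Rec := ⟨nat_lit 28086374400, nat_lit 84,
  [⟨V6_25921327104, [(nat_lit 86, nat_lit 28086374400), (nat_lit 50, nat_lit 29159854080), (nat_lit 83, nat_lit 29143339008), (nat_lit 53, nat_lit 30233333760), (nat_lit 99, nat_lit 30216818688), (nat_lit 83, nat_lit 31306813440), (nat_lit 113, nat_lit 31290298368), (nat_lit 101, nat_lit 32363778048)]⟩,
   ⟨V6_24864362496, [(nat_lit 45, nat_lit 28086374400), (nat_lit 78, nat_lit 29159854080), (nat_lit 31, nat_lit 30233333760), (nat_lit 115, nat_lit 31306813440)]⟩,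
   ⟨V6_24831590400, [(nat_lit 70, nat_lit 28086374400), (nat_lit 41, nat_lit 29160112128), (nat_lit 39, nat_lit 29143339008), (nat_lit 102, nat_lit 30217076736), (nat_lit 85, nat_lit 30200303616), (nat_lit 109, nat_lit 31274041344)]⟩,
   ⟨V6_22717661184, [(nat_lit 2, nat_lit 28086374400), (nat_lit 86, nat_lit 29160112128)]⟩],
  [W_28002222080, W_25921323008, W_25888292864, W_25871777792, W_24864358400, W_24847843328, W_23790878720, W_23757848576]⟩
theorem C_28086374400 : chkRec R_28086374400 = true := by decide +kernel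

noncomputable def R_28086632448 : Rec := ⟨nat_lit 28086632448, nat_lit 63,
  [⟨V6_25938100224, [(nat_lit 80, nat_lit 28086632448), (nat_lit 42, nat_lit 29160112128), (nat_lit 56, nat_lit 30233591808), (nat_lit 106, nat_lit 31307071488), (nat_lit 106, nat_lit 32380551168)]⟩,
   ⟨V6_25872039936, [(nat_lit 21, nat_lit 28086632448), (nat_lit 57, nat_lit 29143597056), (nat_lit 55, nat_lit 30200561664), (nat_lit 117, nat_lit 31257526272), (nat_lit 111, nat_lit 32314490880)]⟩,
   ⟨V6_22717661184, [(nat_lit 17, nat_lit 28086632448), (nat_lit 4, nat_lit 29160112128)]⟩],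
  [W_24798298112, W_23790878720, W_23757848576, W_23741333504, W_21627404288]⟩
theorem C_28086632448 : chkRec R_28086632448 = true := by decide +kernel

noncomputable def R_28102365249 : Rec := ⟨nat_lit 28102365249, nat_lit 1,
  [⟨V6_23807135808, [(nat_lit 4, nat_lit 28102365249), (nat_lit 104, nat_lit 29176107072), (nat_lit 90, nat_lit 29175844929), (nat_lit 83, nat_lit 30249586752)]⟩],
  [W_25887772736]⟩
theorem C_28102365249 : chkRec R_28102365249 = true := by decide +kernel

noncomputable def R_28102369344 : Rec := ⟨nat_lit 28102369344, nat_lit 23,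
  [⟨V6_23790624768, [(nat_lit 79, nat_lit 28102369344), (nat_lit 76, nat_lit 29176111104), (nat_lit 102, nat_lit 29159333952), (nat_lit 39, nat_lit 30233075712)]⟩],
  [W_28018479104, W_28001705984, W_27984928832, W_26927964224, W_25887772736, W_22733656064, W_21659914304]⟩
theorem C_28102369344 : chkRec R_28102369344 = true := by decide +kernel

noncomputable def R_28102627392 : Rec := ⟨nat_lit 28102627392, nat_lit 23,
  [⟨V6_22717141056, [(nat_lit 47, nat_lit 28102627392), (nat_lit 119, nat_lit 29159592000)]⟩,
   ⟨V6_21660176448, [(nat_lit 14, nat_lit 28102627392)]⟩],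
  [W_28034994176, W_28018479104, W_28001964032, W_26928222272, W_25904549888, W_24847585280]⟩
theorem C_28102627392 : chkRec R_28102627392 = true := by decide +kernel

noncomputable def R_28102631424 : Rec := ⟨nat_lit 28102631424, nat_lit 62,
  [⟨V6_24881135616, [(nat_lit 48, nat_lit 28102631424), (nat_lit 104, nat_lit 29176369152), (nat_lit 36, nat_lit 29176111104), (nat_lit 65, nat_lit 30250106880), (nat_lit 104, nat_lit 30249848832), (nat_lit 89, nat_lit 31323586560)]⟩,
   ⟨V6_24831074304, [(nat_lit 84, nat_lit 28102631424), (nat_lit 9, nat_lit 29159596032), (nat_lit 120, nat_lit 30216560640), (nat_lit 62, nat_lit 31273525248)]⟩,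
   ⟨V6_23790624768, [(nat_lit 113, nat_lit 28102631424), (nat_lit 111, nat_lit 29176111104), (nat_lit 6, nat_lit 29159596032), (nat_lit 65, nat_lit 30233075712)]⟩],
  [W_27985190912, W_25921323008, W_24864358400, W_24847843328, W_23790878720, W_21659918336]⟩
theorem C_28102631424 : chkRec R_28102631424 = true := by decide +kernel

noncomputable def R_28102889472 : Rec := ⟨nat_lit 28102889472, nat_lit 81,
  [⟨V6_26994806784, [(nat_lit 64, nat_lit 28102889472), (nat_lit 25, nat_lit 29176369152), (nat_lit 24, nat_lit 29159854080), (nat_lit 83, nat_lit 30249848832), (nat_lit 70, nat_lit 30233333760), (nat_lit 15, nat_lit 30216818688), (nat_lit 14, nat_lit 31323328512), (nat_lit 81, nat_lit 31306813440), (nat_lit 44, nat_lit 31290298368), (nat_lit 17, nat_lit 32380293120), (nat_lit 116, nat_lit 32363778048), (nat_lit 31, nat_lit 33437257728)]⟩,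
   ⟨V6_25954615296, [(nat_lit 94, nat_lit 28102889472), (nat_lit 49, nat_lit 29176627200), (nat_lit 20, nat_lit 29176369152), (nat_lit 112, nat_lit 30250106880), (nat_lit 22, nat_lit 30249848832), (nat_lit 37, nat_lit 31323586560), (nat_lit 89, nat_lit 31323328512), (nat_lit 11, nat_lit 32397066240)]⟩,
   ⟨V6_25938100224, [(nat_lit 43, nat_lit 28102889472), (nat_lit 17, nat_lit 29176627200), (nat_lit 22, nat_lit 29176369152), (nat_lit 75, nat_lit 29159854080), (nat_lit 65, nat_lit 30250106880), (nat_lit 118, nat_lit 30249848832), (nat_lit 4, nat_lit 30233591808), (nat_lit 65, nat_lit 30233333760), (nat_lit 4, nat_lit 31323586560), (nat_lit 37, nat_lit 31307071488), (nat_lit 29, nat_lit 31306813440), (nat_lit 11, nat_lit 32380551168)]⟩,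
   ⟨V6_25937842176, [(nat_lit 93, nat_lit 28102889472), (nat_lit 76, nat_lit 29176369152), (nat_lit 102, nat_lit 29159854080), (nat_lit 115, nat_lit 30249848832), (nat_lit 101, nat_lit 30233333760), (nat_lit 54, nat_lit 31323328512), (nat_lit 8, nat_lit 31306813440), (nat_lit 56, nat_lit 32380293120)]⟩,
   ⟨V6_25921327104, [(nat_lit 10, nat_lit 28102889472), (nat_lit 63, nat_lit 29176369152), (nat_lit 84, nat_lit 29159854080), (nat_lit 98, nat_lit 30249848832), (nat_lit 55, nat_lit 30233333760), (nat_lit 82, nat_lit 30216818688), (nat_lit 39, nat_lit 31306813440), (nat_lit 87, nat_lit 31290298368), (nat_lit 63, nat_lit 32363778048)]⟩,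
   ⟨V6_24881135616, [(nat_lit 61, nat_lit 28102889472), (nat_lit 81, nat_lit 29176627200), (nat_lit 37, nat_lit 29176369152), (nat_lit 37, nat_lit 30250106880), (nat_lit 41, nat_lit 30249848832), (nat_lit 62, nat_lit 31323586560)]⟩,
   ⟨V6_24880877568, [(nat_lit 64, nat_lit 28102889472), (nat_lit 47, nat_lit 29176369152), (nat_lit 97, nat_lit 30249848832), (nat_lit 112, nat_lit 31323328512)]⟩,
   ⟨V6_24864362496, [(nat_lit 59, nat_lit 28102889472), (nat_lit 39, nat_lit 29176369152), (nat_lit 65, nat_lit 29159854080), (nat_lit 70, nat_lit 30249848832), (nat_lit 13, nat_lit 30233333760), (nat_lit 103, nat_lit 31306813440)]⟩],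
  [W_28002222080, W_27985448960, W_26928484352, W_25888292864, W_24847843328, W_24831070208, W_23790878720, W_20586696704]⟩
theorem C_28102889472 : chkRec R_28102889472 = true := by decide +kernel

noncomputable def R_28103147520 : Rec := ⟨nat_lit 28103147520, nat_lit 58,
  [⟨V6_27028094976, [(nat_lit 41, nat_lit 28103147520), (nat_lit 119, nat_lit 29176627200), (nat_lit 96, nat_lit 30250106880), (nat_lit 97, nat_lit 31323586560), (nat_lit 28, nat_lit 32397066240), (nat_lit 71, nat_lit 33470545920)]⟩,
   ⟨V6_24831590400, [(nat_lit 53, nat_lit 28103147520), (nat_lit 110, nat_lit 29160112128), (nat_lit 112, nat_lit 30217076736), (nat_lit 24, nat_lit 31274041344)]⟩,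
   ⟨V6_22717661184, [(nat_lit 43, nat_lit 28103147520), (nat_lit 17, nat_lit 29160112128)]⟩],
  [W_28002222080, W_25921323008, W_25888292864, W_25871777792, W_24864358400, W_23790878720]⟩
theorem C_28103147520 : chkRec R_28103147520 = true := by decide +kernel

noncomputable def R_28119142464 : Rec := ⟨nat_lit 28119142464, nat_lit 11,
  [⟨V6_24847585344, [(nat_lit 78, nat_lit 28119142464), (nat_lit 15, nat_lit 29176107072), (nat_lit 123, nat_lit 30233071680), (nat_lit 81, nat_lit 31290036288)]⟩,
   ⟨V6_23823912960, [(nat_lit 91, nat_lit 28119142464), (nat_lit 20, nat_lit 29192884224), (nat_lit 25, nat_lit 29192622144), (nat_lit 32, nat_lit 30266363904)]⟩,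
   ⟨V6_23790620736, [(nat_lit 26, nat_lit 28119142464), (nat_lit 123, nat_lit 29176107072), (nat_lit 106, nat_lit 30233071680)]⟩],
  [W_28018479104, W_21676691456]⟩
theorem C_28119142464 : chkRec R_28119142464 = true := by decide +kernel

noncomputable def R_28119146496 : Rec := ⟨nat_lit 28119146496, nat_lit 39,
  [⟨V6_23790624768, [(nat_lit 106, nat_lit 28119146496), (nat_lit 13, nat_lit 29176111104), (nat_lit 100, nat_lit 30233075712)]⟩,
   ⟨V6_21676695552, [(nat_lit 61, nat_lit 28119146496)]⟩],
  [W_28035252224, W_28018479104, W_28001705984, W_24864358400, W_22750429184]⟩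
theorem C_28119146496 : chkRec R_28119146496 = true := by decide +kernel

noncomputable def R_28119404544 : Rec := ⟨nat_lit 28119404544, nat_lit 55,
  [⟨V6_25921327104, [(nat_lit 112, nat_lit 28119404544), (nat_lit 85, nat_lit 29192884224), (nat_lit 68, nat_lit 29176369152), (nat_lit 82, nat_lit 30249848832), (nat_lit 93, nat_lit 30233333760), (nat_lit 122, nat_lit 31306813440), (nat_lit 90, nat_lit 31290298368), (nat_lit 54, nat_lit 32363778048)]⟩,
   ⟨V6_24897650688, [(nat_lit 52, nat_lit 28119404544), (nat_lit 96, nat_lit 29193142272), (nat_lit 52, nat_lit 29192884224), (nat_lit 108, nat_lit 30266621952), (nat_lit 122, nat_lit 30266363904), (nat_lit 35, nat_lit 31340101632)]⟩,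
   ⟨V6_24881135616, [(nat_lit 7, nat_lit 28119404544), (nat_lit 96, nat_lit 29193142272), (nat_lit 73, nat_lit 29192884224), (nat_lit 48, nat_lit 29176369152), (nat_lit 74, nat_lit 30266621952), (nat_lit 92, nat_lit 30250106880), (nat_lit 68, nat_lit 30249848832), (nat_lit 99, nat_lit 31323586560)]⟩,
   ⟨V6_24864362496, [(nat_lit 28, nat_lit 28119404544), (nat_lit 110, nat_lit 29192884224), (nat_lit 30, nat_lit 29176369152), (nat_lit 113, nat_lit 30249848832), (nat_lit 52, nat_lit 30233333760), (nat_lit 91, nat_lit 31306813440)]⟩],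
  [W_28018737152, W_28001964032, W_23790878720, W_21676949504, W_20603211776]⟩
theorem C_28119404544 : chkRec R_28119404544 = true := by decide +kernel

noncomputable def R_28119662592 : Rec := ⟨nat_lit 28119662592, nat_lit 62,
  [⟨V6_27028094976, [(nat_lit 8, nat_lit 28119662592), (nat_lit 41, nat_lit 29193142272), (nat_lit 4, nat_lit 29176627200), (nat_lit 72, nat_lit 30266621952), (nat_lit 66, nat_lit 30250106880), (nat_lit 34, nat_lit 31340101632), (nat_lit 83, nat_lit 31323586560), (nat_lit 102, nat_lit 32413581312), (nat_lit 85, nat_lit 32397066240), (nat_lit 9, nat_lit 33470545920)]⟩,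
   ⟨V6_25971130368, [(nat_lit 27, nat_lit 28119662592), (nat_lit 98, nat_lit 29193142272), (nat_lit 80, nat_lit 30266621952), (nat_lit 89, nat_lit 31340101632), (nat_lit 106, nat_lit 32413581312)]⟩,
   ⟨V6_25954615296, [(nat_lit 74, nat_lit 28119662592), (nat_lit 16, nat_lit 29193142272), (nat_lit 68, nat_lit 29176627200), (nat_lit 83, nat_lit 30266621952), (nat_lit 65, nat_lit 30250106880), (nat_lit 73, nat_lit 31340101632), (nat_lit 17, nat_lit 31323586560), (nat_lit 102, nat_lit 32397066240)]⟩,
   ⟨V6_25938100224, [(nat_lit 96, nat_lit 28119662592), (nat_lit 43, nat_lit 29193142272), (nat_lit 21, nat_lit 29176627200), (nat_lit 18, nat_lit 30266621952), (nat_lit 57, nat_lit 30250106880), (nat_lit 6, nat_lit 30233591808), (nat_lit 19, nat_lit 31323586560), (nat_lit 20, nat_lit 31307071488), (nat_lit 102, nat_lit 32380551168)]⟩,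
   ⟨V6_24897650688, [(nat_lit 27, nat_lit 28119662592), (nat_lit 125, nat_lit 29193142272), (nat_lit 31, nat_lit 30266621952), (nat_lit 79, nat_lit 31340101632)]⟩,
   ⟨V6_24881135616, [(nat_lit 117, nat_lit 28119662592), (nat_lit 125, nat_lit 29193142272), (nat_lit 115, nat_lit 29176627200), (nat_lit 33, nat_lit 30266621952), (nat_lit 9, nat_lit 30250106880), (nat_lit 104, nat_lit 31323586560)]⟩],
  [W_28068282368, W_28002222080, W_25888292864, W_24847843328, W_23790878720, W_21676949504]⟩
theorem C_28119662592 : chkRec R_28119662592 = true := by decide +kernel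

noncomputable def R_28135657536 : Rec := ⟨nat_lit 28135657536, nat_lit 2,
  [⟨V6_22766948352, [(nat_lit 23, nat_lit 28135657536), (nat_lit 7, nat_lit 29209399296)]⟩],
  [W_28034994176, W_26978029568]⟩
theorem C_28135657536 : chkRec R_28135657536 = true := by decide +kernel

noncomputable def R_28135919616 : Rec := ⟨nat_lit 28135919616, nat_lit 35,
  [⟨V6_24864362496, [(nat_lit 74, nat_lit 28135919616), (nat_lit 15, nat_lit 29192884224), (nat_lit 84, nat_lit 30249848832), (nat_lit 1, nat_lit 31306813440)]⟩,
   ⟨V6_21693468672, [(nat_lit 16, nat_lit 28135919616)]⟩],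
  [W_28035252224, W_28034994176, W_26994802688, W_25921323008, W_24880873472, W_22766944256]⟩
theorem C_28135919616 : chkRec R_28135919616 = true := by decide +kernel

noncomputable def R_28136177664 : Rec := ⟨nat_lit 28136177664, nat_lit 42,
  [⟨V6_25921585152, [(nat_lit 102, nat_lit 28136177664), (nat_lit 80, nat_lit 29193142272), (nat_lit 93, nat_lit 30250106880), (nat_lit 61, nat_lit 31307071488), (nat_lit 109, nat_lit 32364036096)]⟩,
   ⟨V6_24914165760, [(nat_lit 2, nat_lit 28136177664), (nat_lit 34, nat_lit 29209657344), (nat_lit 51, nat_lit 30283137024), (nat_lit 58, nat_lit 31356616704)]⟩,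
   ⟨V6_21693726720, [(nat_lit 28, nat_lit 28136177664)]⟩],
  [W_28068282368, W_28018737152, W_23840423936, W_21676949504, W_20619984896]⟩
theorem C_28136177664 : chkRec R_28136177664 = true := by decide +kernel

noncomputable def R_28152434688 : Rec := ⟨nat_lit 28152434688, nat_lit 8,
  [⟨V6_22783721472, [(nat_lit 39, nat_lit 28152434688), (nat_lit 26, nat_lit 29226172416)]⟩,
   ⟨V6_22766948352, [(nat_lit 31, nat_lit 28152434688), (nat_lit 73, nat_lit 29209399296)]⟩],
  [W_28051767296, W_28034994176, W_26994802688, W_26978029568]⟩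
theorem C_28152434688 : chkRec R_28152434688 = true := by decide +kernel

noncomputable def R_28152692736 : Rec := ⟨nat_lit 28152692736, nat_lit 33,
  [⟨V6_24914165760, [(nat_lit 29, nat_lit 28152692736), (nat_lit 51, nat_lit 29226172416), (nat_lit 71, nat_lit 29209657344), (nat_lit 108, nat_lit 30299652096), (nat_lit 98, nat_lit 30283137024), (nat_lit 37, nat_lit 31356616704)]⟩,
   ⟨V6_24881135616, [(nat_lit 70, nat_lit 28152692736), (nat_lit 104, nat_lit 29209657344), (nat_lit 110, nat_lit 30266621952), (nat_lit 36, nat_lit 31323586560)]⟩,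
   ⟨V6_23857201152, [(nat_lit 113, nat_lit 28152692736), (nat_lit 4, nat_lit 29226172416), (nat_lit 80, nat_lit 30299652096)]⟩,
   ⟨V6_22783721472, [(nat_lit 37, nat_lit 28152692736), (nat_lit 70, nat_lit 29226172416)]⟩],
  [W_28051767296, W_28035252224, W_25921323008, W_20636499968]⟩
theorem C_28152692736 : chkRec R_28152692736 = true := by decide +kernel

noncomputable def R_28169207808 : Rec := ⟨nat_lit 28169207808, nat_lit 14,
  [⟨V6_23857201152, [(nat_lit 114, nat_lit 28169207808), (nat_lit 65, nat_lit 29242687488), (nat_lit 17, nat_lit 29226172416), (nat_lit 66, nat_lit 30299652096)]⟩,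
   ⟨V6_22783721472, [(nat_lit 19, nat_lit 28169207808), (nat_lit 107, nat_lit 29226172416)]⟩,
   ⟨V6_21726756864, [(nat_lit 10, nat_lit 28169207808)]⟩],
  [W_28051767296, W_27011317760, W_26994802688]⟩
theorem C_28169207808 : chkRec R_28169207808 = true := by decide +kernel

noncomputable def R_28185722880 : Rec := ⟨nat_lit 28185722880, nat_lit 8,
  [⟨V6_23857201152, [(nat_lit 33, nat_lit 28185722880), (nat_lit 25, nat_lit 29242687488), (nat_lit 90, nat_lit 30299652096)]⟩,
   ⟨V6_22800236544, [(nat_lit 46, nat_lit 28185722880), (nat_lit 104, nat_lit 29242687488)]⟩],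
  [W_28068282368, W_27011317760]⟩
theorem C_28185722880 : chkRec R_28185722880 = true := by decide +kernel

noncomputable def R_29059203201 : Rec := ⟨nat_lit 29059203201, nat_lit 1,
  [⟨V6_23690494080, [(nat_lit 18, nat_lit 29059203201), (nat_lit 33, nat_lit 30132945024)]⟩],
  [W_25837969472]⟩
theorem C_29059203201 : chkRec R_29059203201 = true := by decide +kernel

noncomputable def R_29059203264 : Rec := ⟨nat_lit 29059203264, nat_lit 1,
  [⟨V6_23690494080, [(nat_lit 126, nat_lit 29059203264), (nat_lit 84, nat_lit 30132945024)]⟩],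
  [W_25837973504]⟩
theorem C_29059203264 : chkRec R_29059203264 = true := by decide +kernel

noncomputable def R_29075972226 : Rec := ⟨nat_lit 29075972226, nat_lit 1,
  [⟨V6_23690485890, [(nat_lit 67, nat_lit 29075972226), (nat_lit 45, nat_lit 30132936834)]⟩],
  [W_26911187072]⟩
theorem C_29075972226 : chkRec R_29075972226 = true := by decide +kernel

noncomputable def R_29075976321 : Rec := ⟨nat_lit 29075976321, nat_lit 1,
  [⟨V6_22633525377, [(nat_lit 94, nat_lit 29075976321)]⟩],
  [W_25854484544]⟩
theorem C_29075976321 : chkRec R_29075976321 = true := by decide +kernel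

noncomputable def R_29075980353 : Rec := ⟨nat_lit 29075980353, nat_lit 1,
  [⟨V6_22633529409, [(nat_lit 54, nat_lit 29075980353)]⟩],
  [W_25854742592]⟩
theorem C_29075980353 : chkRec R_29075980353 = true := by decide +kernel

noncomputable def R_29075980416 : Rec := ⟨nat_lit 29075980416, nat_lit 5,
  [⟨V6_24764235840, [(nat_lit 21, nat_lit 29075980416), (nat_lit 123, nat_lit 30149722176), (nat_lit 15, nat_lit 30132945024), (nat_lit 80, nat_lit 31206686784)]⟩,
   ⟨V6_23690494080, [(nat_lit 12, nat_lit 29075980416), (nat_lit 118, nat_lit 30132945024)]⟩],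
  [W_26911711232, W_25854746624]⟩
theorem C_29075980416 : chkRec R_29075980416 = true := by decide +kernel

noncomputable def R_29076234369 : Rec := ⟨nat_lit 29076234369, nat_lit 1,
  [⟨V6_25854222465, [(nat_lit 16, nat_lit 29076234369), (nat_lit 107, nat_lit 30149714049), (nat_lit 56, nat_lit 31223193729), (nat_lit 28, nat_lit 32296673409)]⟩],
  [W_23707525184]⟩
theorem C_29076234369 : chkRec R_29076234369 = true := by decide +kernel

noncomputable def R_29076238401 : Rec := ⟨nat_lit 29076238401, nat_lit 2,
  [⟨V6_25855004736, [(nat_lit 45, nat_lit 29076238401), (nat_lit 20, nat_lit 30149980224), (nat_lit 85, nat_lit 30149976129), (nat_lit 45, nat_lit 31223717952), (nat_lit 11, nat_lit 31223713857), (nat_lit 99, nat_lit 32297455680)]⟩],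
  [W_24781004864]⟩
theorem C_29076238401 : chkRec R_29076238401 = true := by decide +kernel

noncomputable def R_29076238464 : Rec := ⟨nat_lit 29076238464, nat_lit 2,
  [⟨V6_24781271040, [(nat_lit 113, nat_lit 29076238464), (nat_lit 108, nat_lit 30149980224), (nat_lit 94, nat_lit 31223721984)]⟩],
  [W_26928226304, W_25854484544]⟩
theorem C_29076238464 : chkRec R_29076238464 = true := by decide +kernel

noncomputable def R_29076242496 : Rec := ⟨nat_lit 29076242496, nat_lit 3,
  [⟨V6_25855004736, [(nat_lit 26, nat_lit 29076242496), (nat_lit 117, nat_lit 30149980224), (nat_lit 63, nat_lit 31223717952), (nat_lit 87, nat_lit 32297455680)]⟩,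
   ⟨V6_24781271040, [(nat_lit 106, nat_lit 29076242496), (nat_lit 89, nat_lit 30149984256), (nat_lit 99, nat_lit 30149980224), (nat_lit 104, nat_lit 31223721984)]⟩],
  [W_26928484352, W_23707271168]⟩
theorem C_29076242496 : chkRec R_29076242496 = true := by decide +kernel

noncomputable def R_29092487298 : Rec := ⟨nat_lit 29092487298, nat_lit 1,
  [⟨V6_23723516034, [(nat_lit 114, nat_lit 29092487298), (nat_lit 123, nat_lit 30165966978)]⟩],
  [W_26911187072]⟩
theorem C_29092487298 : chkRec R_29092487298 = true := by decide +kernel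

noncomputable def R_29092749441 : Rec := ⟨nat_lit 29092749441, nat_lit 5,
  [⟨V6_22650298497, [(nat_lit 97, nat_lit 29092749441)]⟩],
  [W_27984928832, W_26911187072, W_25870999616, W_25837969472]⟩
theorem C_29092749441 : chkRec R_29092749441 = true := by decide +kernel

noncomputable def R_29092753473 : Rec := ⟨nat_lit 29092753473, nat_lit 2,
  [⟨V6_26928484416, [(nat_lit 92, nat_lit 29092753473), (nat_lit 97, nat_lit 30166495296), (nat_lit 126, nat_lit 30166491201), (nat_lit 59, nat_lit 30149718081), (nat_lit 39, nat_lit 31240233024), (nat_lit 73, nat_lit 31240228929), (nat_lit 19, nat_lit 31223459904), (nat_lit 1, nat_lit 31223455809), (nat_lit 115, nat_lit 32313970752), (nat_lit 51, nat_lit 32297197632), (nat_lit 12, nat_lit 32297193537), (nat_lit 117, nat_lit 33370935360)]⟩],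
  [W_26928222272, W_25837969472]⟩
theorem C_29092753473 : chkRec R_29092753473 = true := by decide +kernel

noncomputable def R_29092753536 : Rec := ⟨nat_lit 29092753536, nat_lit 9,
  [⟨V6_26928488448, [(nat_lit 26, nat_lit 29092753536), (nat_lit 38, nat_lit 30166495296), (nat_lit 108, nat_lit 30166491264), (nat_lit 44, nat_lit 30149718144), (nat_lit 61, nat_lit 31240237056), (nat_lit 103, nat_lit 31240233024), (nat_lit 86, nat_lit 31223459904), (nat_lit 122, nat_lit 31223455872), (nat_lit 87, nat_lit 32313974784), (nat_lit 9, nat_lit 32297201664), (nat_lit 37, nat_lit 32297197632), (nat_lit 23, nat_lit 33370939392)]⟩,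
   ⟨V6_24764231808, [(nat_lit 89, nat_lit 29092753536), (nat_lit 65, nat_lit 30149718144), (nat_lit 51, nat_lit 31206682752)]⟩],
  [W_24797782016, W_24764227712, W_23723778176]⟩
theorem C_29092753536 : chkRec R_29092753536 = true := by decide +kernel

noncomputable def R_29092757568 : Rec := ⟨nat_lit 29092757568, nat_lit 12,
  [⟨V6_24764235840, [(nat_lit 37, nat_lit 29092757568), (nat_lit 47, nat_lit 30149722176), (nat_lit 74, nat_lit 31206686784)]⟩,
   ⟨V6_23724048384, [(nat_lit 80, nat_lit 29092757568), (nat_lit 42, nat_lit 30166499328)]⟩],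
  [W_27985448960, W_26928484352, W_25871519744, W_25854742592, W_25837969472]⟩
theorem C_29092757568 : chkRec R_29092757568 = true := by decide +kernel

noncomputable def R_29093011521 : Rec := ⟨nat_lit 29093011521, nat_lit 3,
  [⟨V6_25855004736, [(nat_lit 14, nat_lit 29093011521), (nat_lit 68, nat_lit 30166753344), (nat_lit 8, nat_lit 30166749249), (nat_lit 30, nat_lit 30149976129), (nat_lit 80, nat_lit 31240491072), (nat_lit 16, nat_lit 31223717952), (nat_lit 28, nat_lit 31223713857), (nat_lit 93, nat_lit 32297455680)]⟩,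
   ⟨V6_24781262913, [(nat_lit 122, nat_lit 29093011521), (nat_lit 56, nat_lit 30166749249), (nat_lit 115, nat_lit 30149976129), (nat_lit 123, nat_lit 31223713857)]⟩],
  [W_26928222272, W_25870999616]⟩
theorem C_29093011521 : chkRec R_29093011521 = true := by decide +kernel

noncomputable def R_29093011584 : Rec := ⟨nat_lit 29093011584, nat_lit 12,
  [⟨V6_24798044160, [(nat_lit 7, nat_lit 29093011584), (nat_lit 73, nat_lit 30166753344), (nat_lit 80, nat_lit 31240495104)]⟩],
  [W_28001705984, W_25870999616, W_25854746624, W_25854484544, W_25854222464, W_23707263104]⟩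
theorem C_29093011584 : chkRec R_29093011584 = true := by decide +kernel

noncomputable def R_29093015616 : Rec := ⟨nat_lit 29093015616, nat_lit 13,
  [⟨V6_24798044160, [(nat_lit 98, nat_lit 29093015616), (nat_lit 120, nat_lit 30166757376), (nat_lit 62, nat_lit 30166753344), (nat_lit 88, nat_lit 31240495104)]⟩],
  [W_28001964032, W_26928484352, W_26928222272, W_25871519744, W_25854742592]⟩
theorem C_29093015616 : chkRec R_29093015616 = true := by decide +kernel

noncomputable def R_29093019648 : Rec := ⟨nat_lit 29093019648, nat_lit 12,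
  [⟨V6_22650568704, [(nat_lit 27, nat_lit 29093019648)]⟩],
  [W_28002222080, W_26928484352, W_25854746624, W_24781008896]⟩
theorem C_29093019648 : chkRec R_29093019648 = true := by decide +kernel

noncomputable def R_29093273664 : Rec := ⟨nat_lit 29093273664, nat_lit 12,
  [⟨V6_26944741440, [(nat_lit 105, nat_lit 29093273664), (nat_lit 77, nat_lit 30166753344), (nat_lit 66, nat_lit 31240233024), (nat_lit 49, nat_lit 32313712704), (nat_lit 102, nat_lit 33387192384)]⟩,
   ⟨V6_23724564480, [(nat_lit 123, nat_lit 29093273664), (nat_lit 36, nat_lit 30167015424)]⟩],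
  [W_28018479104, W_25871519744, W_24797777984, W_23724298304]⟩
theorem C_29093273664 : chkRec R_29093273664 = true := by decide +kernel

noncomputable def R_29093277696 : Rec := ⟨nat_lit 29093277696, nat_lit 18,
  [⟨V6_22650826752, [(nat_lit 112, nat_lit 29093277696)]⟩],
  [W_28018737152, W_26944999424, W_25871777792, W_25871261696]⟩
theorem C_29093277696 : chkRec R_29093277696 = true := by decide +kernel

noncomputable def R_29109002370 : Rec := ⟨nat_lit 29109002370, nat_lit 2,
  [⟨V6_23723516034, [(nat_lit 95, nat_lit 29109002370), (nat_lit 81, nat_lit 30165966978)]⟩],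
  [W_29025116288, W_26911187072]⟩
theorem C_29109002370 : chkRec R_29109002370 = true := by decide +kernel

noncomputable def R_29109264513 : Rec := ⟨nat_lit 29109264513, nat_lit 4,
  [⟨V6_26911187073, [(nat_lit 80, nat_lit 29109264513), (nat_lit 28, nat_lit 30182744193), (nat_lit 63, nat_lit 30166229121), (nat_lit 19, nat_lit 31239708801), (nat_lit 53, nat_lit 31223193729), (nat_lit 70, nat_lit 32296673409), (nat_lit 57, nat_lit 32280158337), (nat_lit 17, nat_lit 33353638017)]⟩,
   ⟨V6_24814035009, [(nat_lit 68, nat_lit 29109264513), (nat_lit 61, nat_lit 30183006273), (nat_lit 108, nat_lit 30182744193), (nat_lit 123, nat_lit 31256485953)]⟩,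
   ⟨V6_23723778177, [(nat_lit 22, nat_lit 29109264513), (nat_lit 111, nat_lit 30166229121)]⟩],
  [W_27984928832, W_26927964224, W_25870999616]⟩
theorem C_29109264513 : chkRec R_29109264513 = true := by decide +kernel

noncomputable def R_29109268545 : Rec := ⟨nat_lit 29109268545, nat_lit 1,
  [⟨V6_22666817601, [(nat_lit 68, nat_lit 29109268545)]⟩],
  [W_26928222272]⟩
theorem C_29109268545 : chkRec R_29109268545 = true := by decide +kernel

noncomputable def R_29109268608 : Rec := ⟨nat_lit 29109268608, nat_lit 3,
  [⟨V6_27985190976, [(nat_lit 96, nat_lit 29109268608), (nat_lit 99, nat_lit 30183010368), (nat_lit 42, nat_lit 30183006336), (nat_lit 72, nat_lit 30166233216), (nat_lit 26, nat_lit 31256748096), (nat_lit 21, nat_lit 31239974976), (nat_lit 7, nat_lit 31239970944), (nat_lit 102, nat_lit 31223197824), (nat_lit 38, nat_lit 32313712704), (nat_lit 35, nat_lit 32296939584), (nat_lit 24, nat_lit 32296935552), (nat_lit 123, nat_lit 32280162432), (nat_lit 6, nat_lit 33370677312), (nat_lit 21, nat_lit 33353904192), (nat_lit 125, nat_lit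 33353900160), (nat_lit 14, nat_lit 34427641920)]⟩,
   ⟨V6_26928230400, [(nat_lit 39, nat_lit 29109268608), (nat_lit 68, nat_lit 30183010368), (nat_lit 63, nat_lit 30166233216), (nat_lit 23, nat_lit 31256752128), (nat_lit 66, nat_lit 31239974976), (nat_lit 20, nat_lit 31223197824), (nat_lit 5, nat_lit 32313716736), (nat_lit 99, nat_lit 32296939584), (nat_lit 56, nat_lit 33370681344)]⟩,
   ⟨V6_26911449216, [(nat_lit 11, nat_lit 29109268608), (nat_lit 79, nat_lit 30183006336), (nat_lit 62, nat_lit 30166233216), (nat_lit 13, nat_lit 31239970944), (nat_lit 112, nat_lit 31223197824), (nat_lit 19, nat_lit 32296935552), (nat_lit 65, nat_lit 32280162432), (nat_lit 42, nat_lit 33353900160)]⟩],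
  [W_25871261696]⟩
theorem C_29109268608 : chkRec R_29109268608 = true := by decide +kernel

noncomputable def R_29109526593 : Rec := ⟨nat_lit 29109526593, nat_lit 5,
  [⟨V6_26944741440, [(nat_lit 80, nat_lit 29109526593), (nat_lit 20, nat_lit 30183268416), (nat_lit 52, nat_lit 30183006273), (nat_lit 13, nat_lit 30166491201), (nat_lit 17, nat_lit 31256748096), (nat_lit 32, nat_lit 31256485953), (nat_lit 2, nat_lit 31240233024), (nat_lit 114, nat_lit 31239970881), (nat_lit 63, nat_lit 32330227776), (nat_lit 56, nat_lit 32313712704), (nat_lit 34, nat_lit 32313450561), (nat_lit 7, nat_lit 33387192384)]⟩,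
   ⟨V6_23740813377, [(nat_lit 45, nat_lit 29109526593), (nat_lit 30, nat_lit 30183264321)]⟩],
  [W_24814293056, W_23740813376]⟩
theorem C_29109526593 : chkRec R_29109526593 = true := by decide +kernel

noncomputable def R_29109526656 : Rec := ⟨nat_lit 29109526656, nat_lit 19,
  [⟨V6_26961518592, [(nat_lit 72, nat_lit 29109526656), (nat_lit 113, nat_lit 30183268416), (nat_lit 102, nat_lit 30183006336), (nat_lit 21, nat_lit 31257010176), (nat_lit 24, nat_lit 31256748096), (nat_lit 122, nat_lit 31256486016), (nat_lit 26, nat_lit 32330489856), (nat_lit 107, nat_lit 32330227776), (nat_lit 118, nat_lit 33403969536)]⟩,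
   ⟨V6_26928488448, [(nat_lit 110, nat_lit 29109526656), (nat_lit 42, nat_lit 30183268416), (nat_lit 80, nat_lit 30166491264), (nat_lit 3, nat_lit 31257010176), (nat_lit 108, nat_lit 31240233024), (nat_lit 102, nat_lit 31223455872), (nat_lit 89, nat_lit 32313974784), (nat_lit 35, nat_lit 32297197632), (nat_lit 57, nat_lit 33370939392)]⟩,
   ⟨V6_24814035072, [(nat_lit 78, nat_lit 29109526656), (nat_lit 1, nat_lit 30183006336), (nat_lit 9, nat_lit 31256486016)]⟩],
  [W_26911711232, W_25887776768, W_24797782016, W_24764227712]⟩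
theorem C_29109526656 : chkRec R_29109526656 = true := by decide +kernel

noncomputable def R_29109530688 : Rec := ⟨nat_lit 29109530688, nat_lit 22,
  [⟨V6_26928484416, [(nat_lit 125, nat_lit 29109530688), (nat_lit 81, nat_lit 30183268416), (nat_lit 20, nat_lit 30166495296), (nat_lit 36, nat_lit 31257006144), (nat_lit 74, nat_lit 31240233024), (nat_lit 32, nat_lit 31223459904), (nat_lit 3, nat_lit 32313970752), (nat_lit 81, nat_lit 32297197632), (nat_lit 114, nat_lit 33370935360)]⟩,
   ⟨V6_26911715328, [(nat_lit 74, nat_lit 29109530688), (nat_lit 92, nat_lit 30183272448), (nat_lit 91, nat_lit 30166495296), (nat_lit 58, nat_lit 31240237056), (nat_lit 107, nat_lit 31223459904), (nat_lit 123, nat_lit 32297201664), (nat_lit 49, nat_lit 32280424512), (nat_lit 19, nat_lit 33354166272)]⟩,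
   ⟨V6_23740821504, [(nat_lit 118, nat_lit 29109530688), (nat_lit 81, nat_lit 30183272448)]⟩],
  [W_29058928640, W_27985448960, W_27985190912, W_26911711232, W_25888034816, W_25871261696, W_25837969472, W_24814293056]⟩
theorem C_29109530688 : chkRec R_29109530688 = true := by decide +kernel

noncomputable def R_29109534720 : Rec := ⟨nat_lit 29109534720, nat_lit 21,
  [⟨V6_23724048384, [(nat_lit 121, nat_lit 29109534720), (nat_lit 39, nat_lit 30166499328)]⟩,
   ⟨V6_22667083776, [(nat_lit 22, nat_lit 29109534720)]⟩],
  [W_29059186688, W_28002222080, W_27985448960, W_26911711232, W_25888292864, W_24764235776]⟩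
theorem C_29109534720 : chkRec R_29109534720 = true := by decide +kernel

noncomputable def R_29109784641 : Rec := ⟨nat_lit 29109784641, nat_lit 2,
  [⟨V6_22667333697, [(nat_lit 114, nat_lit 29109784641)]⟩],
  [W_26928222272, W_25887772736]⟩
theorem C_29109784641 : chkRec R_29109784641 = true := by decide +kernel

noncomputable def R_29109788736 : Rec := ⟨nat_lit 29109788736, nat_lit 30,
  [⟨V6_26961518592, [(nat_lit 103, nat_lit 29109788736), (nat_lit 60, nat_lit 30183530496), (nat_lit 79, nat_lit 30183268416), (nat_lit 69, nat_lit 31257010176), (nat_lit 49, nat_lit 31256748096), (nat_lit 91, nat_lit 32330489856), (nat_lit 43, nat_lit 32330227776), (nat_lit 113, nat_lit 33403969536)]⟩,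
   ⟨V6_26944741440, [(nat_lit 37, nat_lit 29109788736), (nat_lit 6, nat_lit 30183268416), (nat_lit 40, nat_lit 30166753344), (nat_lit 18, nat_lit 31256748096), (nat_lit 124, nat_lit 31240233024), (nat_lit 55, nat_lit 32330227776), (nat_lit 92, nat_lit 32313712704), (nat_lit 40, nat_lit 33387192384)]⟩,
   ⟨V6_24798044160, [(nat_lit 12, nat_lit 29109788736), (nat_lit 17, nat_lit 30183530496), (nat_lit 109, nat_lit 30166753344), (nat_lit 48, nat_lit 31240495104)]⟩],
  [W_29075443712, W_26928484352, W_26928222272, W_24814293056, W_24798040064, W_24797782016, W_24781262912, W_23740813376, W_22667333696]⟩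
theorem C_29109788736 : chkRec R_29109788736 = true := by decide +kernel

noncomputable def R_29109792768 : Rec := ⟨nat_lit 29109792768, nat_lit 30,
  [⟨V6_24798044160, [(nat_lit 78, nat_lit 29109792768), (nat_lit 60, nat_lit 30183530496), (nat_lit 74, nat_lit 30166757376), (nat_lit 106, nat_lit 31240495104)]⟩,
   ⟨V6_23740821504, [(nat_lit 104, nat_lit 29109792768), (nat_lit 114, nat_lit 30183272448)]⟩],
  [W_29075701760, W_28018737152, W_25888034816, W_25871777792, W_24814813184, W_24798040064]⟩
theorem C_29109792768 : chkRec R_29109792768 = true := by decide +kernel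

noncomputable def R_29110046784 : Rec := ⟨nat_lit 29110046784, nat_lit 12,
  [⟨V6_22667595840, [(nat_lit 21, nat_lit 29110046784)]⟩],
  [W_28034994176, W_26961514496, W_26944999424, W_24814293056]⟩
theorem C_29110046784 : chkRec R_29110046784 = true := by decide +kernel

noncomputable def R_29110050816 : Rec := ⟨nat_lit 29110050816, nat_lit 40,
  [⟨V6_23741337600, [(nat_lit 39, nat_lit 29110050816), (nat_lit 26, nat_lit 30183788544)]⟩,
   ⟨V6_23724564480, [(nat_lit 97, nat_lit 29110050816), (nat_lit 68, nat_lit 30167015424)]⟩],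
  [W_29092216832, W_28035252224, W_28018737152, W_25888292864, W_25887776768, W_25871261696, W_24798298112]⟩
theorem C_29110050816 : chkRec R_29110050816 = true := by decide +kernel

noncomputable def R_29110308864 : Rec := ⟨nat_lit 29110308864, nat_lit 16,
  [⟨V6_29108736000, [(nat_lit 124, nat_lit 29110308864), (nat_lit 89, nat_lit 30183788544), (nat_lit 54, nat_lit 31257268224), (nat_lit 2, nat_lit 32330747904), (nat_lit 1, nat_lit 33404227584), (nat_lit 57, nat_lit 34477707264), (nat_lit 43, nat_lit 35551186944)]⟩,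
   ⟨V6_23741595648, [(nat_lit 116, nat_lit 29110308864), (nat_lit 85, nat_lit 30184046592)]⟩,
   ⟨V6_22667857920, [(nat_lit 112, nat_lit 29110308864)]⟩],
  [W_29108731904, W_28035252224, W_28034994176, W_25888034816]⟩
theorem C_29110308864 : chkRec R_29110308864 = true := by decide +kernel

noncomputable def R_29125779585 : Rec := ⟨nat_lit 29125779585, nat_lit 4,
  [⟨V6_24814035072, [(nat_lit 74, nat_lit 29125779585), (nat_lit 89, nat_lit 30199521408), (nat_lit 49, nat_lit 30182744193), (nat_lit 102, nat_lit 31256486016)]⟩],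
  [W_29025116288, W_27984928832, W_25870999616]⟩
theorem C_29125779585 : chkRec R_29125779585 = true := by decide +kernel

noncomputable def R_29126041665 : Rec := ⟨nat_lit 29126041665, nat_lit 4,
  [⟨V6_25904549952, [(nat_lit 32, nat_lit 29126041665), (nat_lit 2, nat_lit 30199783488), (nat_lit 40, nat_lit 30199779393), (nat_lit 61, nat_lit 30199521345), (nat_lit 106, nat_lit 31273521216), (nat_lit 85, nat_lit 31273263168), (nat_lit 17, nat_lit 31273259073), (nat_lit 80, nat_lit 32347000896)]⟩,
   ⟨V6_24814035009, [(nat_lit 28, nat_lit 29126041665), (nat_lit 39, nat_lit 30199521345), (nat_lit 88, nat_lit 30183006273), (nat_lit 124, nat_lit 31256485953)]⟩,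
   ⟨V6_23757328449, [(nat_lit 71, nat_lit 29126041665), (nat_lit 5, nat_lit 30199779393)]⟩],
  [W_27984928832, W_26928222272, W_25870999616]⟩
theorem C_29126041665 : chkRec R_29126041665 = true := by decide +kernel

noncomputable def R_29126041728 : Rec := ⟨nat_lit 29126041728, nat_lit 16,
  [⟨V6_29041893504, [(nat_lit 83, nat_lit 29126041728), (nat_lit 98, nat_lit 30199521408), (nat_lit 61, nat_lit 30183006336), (nat_lit 75, nat_lit 31256486016), (nat_lit 75, nat_lit 31239970944), (nat_lit 101, nat_lit 32313450624), (nat_lit 18, nat_lit 32296935552), (nat_lit 35, nat_lit 33370415232), (nat_lit 52, nat_lit 33353900160), (nat_lit 82, nat_lit 34427379840), (nat_lit 47, nat_lit 34410864768), (nat_lit 63, nat_lit 35484344448)]⟩,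
   ⟨V6_24831074304, [(nat_lit 26, nat_lit 29126041728), (nat_lit 126, nat_lit 30199783488), (nat_lit 25, nat_lit 31273525248)]⟩],
  [W_29058670592, W_24830812160, W_23740293248, W_23723778176, W_22683328640]⟩
theorem C_29126041728 : chkRec R_29126041728 = true := by decide +kernel

noncomputable def R_29126045760 : Rec := ⟨nat_lit 29126045760, nat_lit 10,
  [⟨V6_24831074304, [(nat_lit 74, nat_lit 29126045760), (nat_lit 31, nat_lit 30199787520), (nat_lit 52, nat_lit 30199783488), (nat_lit 82, nat_lit 31273525248)]⟩],
  [W_29058928640, W_27985190912, W_26928222272, W_24831070208]⟩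
theorem C_29126045760 : chkRec R_29126045760 = true := by decide +kernel

noncomputable def R_29126299713 : Rec := ⟨nat_lit 29126299713, nat_lit 1,
  [⟨V6_23757328449, [(nat_lit 88, nat_lit 29126299713), (nat_lit 30, nat_lit 30199779393)]⟩],
  [W_26928222272]⟩
theorem C_29126299713 : chkRec R_29126299713 = true := by decide +kernel

noncomputable def R_29126303808 : Rec := ⟨nat_lit 29126303808, nat_lit 41,
  [⟨V6_25904553984, [(nat_lit 89, nat_lit 29126303808), (nat_lit 119, nat_lit 30200045568), (nat_lit 42, nat_lit 30199783488), (nat_lit 56, nat_lit 31273525248), (nat_lit 87, nat_lit 31273263168), (nat_lit 56, nat_lit 32347004928)]⟩,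
   ⟨V6_25904549952, [(nat_lit 112, nat_lit 29126303808), (nat_lit 70, nat_lit 30200041536), (nat_lit 112, nat_lit 30199783488), (nat_lit 47, nat_lit 31273521216), (nat_lit 126, nat_lit 31273263168), (nat_lit 7, nat_lit 32347000896)]⟩,
   ⟨V6_24831074304, [(nat_lit 61, nat_lit 29126303808), (nat_lit 100, nat_lit 30200045568), (nat_lit 105, nat_lit 30199783488), (nat_lit 70, nat_lit 31273525248)]⟩],
  [W_29075443712, W_29058928640, W_29058670592, W_27985448960, W_26928484352, W_26911711232, W_25837969472, W_24797782016, W_22683852800]⟩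
theorem C_29126303808 : chkRec R_29126303808 = true := by decide +kernel

noncomputable def R_29126307840 : Rec := ⟨nat_lit 29126307840, nat_lit 41,
  [⟨V6_23740821504, [(nat_lit 24, nat_lit 29126307840), (nat_lit 1, nat_lit 30183272448)]⟩,
   ⟨V6_22683856896, [(nat_lit 80, nat_lit 29126307840)]⟩],
  [W_29075701760, W_29059186688, W_29058928640, W_28018737152, W_28001964032, W_27985448960, W_26928484352, W_26911711232, W_25888292864, W_24831070208]⟩
theorem C_29126307840 : chkRec R_29126307840 = true := by decide +kernel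

noncomputable def R_29126561856 : Rec := ⟨nat_lit 29126561856, nat_lit 20,
  [⟨V6_28051771392, [(nat_lit 77, nat_lit 29126561856), (nat_lit 47, nat_lit 30200303616), (nat_lit 3, nat_lit 30200041536), (nat_lit 18, nat_lit 31273783296), (nat_lit 38, nat_lit 31273521216), (nat_lit 47, nat_lit 32347262976), (nat_lit 82, nat_lit 32347000896), (nat_lit 81, nat_lit 33420742656), (nat_lit 23, nat_lit 33420480576), (nat_lit 109, nat_lit 34494222336)]⟩,
   ⟨V6_28035256320, [(nat_lit 114, nat_lit 29126561856), (nat_lit 104, nat_lit 30200303616), (nat_lit 46, nat_lit 30200041536), (nat_lit 11, nat_lit 30183526464), (nat_lit 17, nat_lit 31273783296), (nat_lit 37, nat_lit 31273521216), (nat_lit 24, nat_lit 31257268224), (nat_lit 120, nat_lit 31257006144), (nat_lit 82, nat_lit 32347262976), (nat_lit 16, nat_lit 32347000896), (nat_lit 12, nat_lit 32330747904), (nat_lit 26, nat_lit 32330485824), (nat_lit 17, nat_lit 33420742656), (nat_lit 8, nat_lit 33404227584), (nat_lit 25, nat_lit 33403965504), (nat_lit 31, nat_lit 34477707264)]⟩,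
   ⟨V6_26961514560, [(nat_lit 103, nat_lit 29126561856), (nat_lit 78, nat_lit 30200041536), (nat_lit 36, nat_lit 30183526464), (nat_lit 21, nat_lit 31273521216), (nat_lit 53, nat_lit 31257006144), (nat_lit 103, nat_lit 32347000896), (nat_lit 92, nat_lit 32330485824), (nat_lit 23, nat_lit 33403965504)]⟩,
   ⟨V6_26928746496, [(nat_lit 36, nat_lit 29126561856), (nat_lit 1, nat_lit 30200303616), (nat_lit 105, nat_lit 30183526464), (nat_lit 106, nat_lit 31257268224), (nat_lit 7, nat_lit 31240491072), (nat_lit 37, nat_lit 32314232832), (nat_lit 6, nat_lit 32297455680), (nat_lit 59, nat_lit 33371197440)]⟩,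
   ⟨V6_26928484416, [(nat_lit 13, nat_lit 29126561856), (nat_lit 20, nat_lit 30200041536), (nat_lit 58, nat_lit 30183526464), (nat_lit 4, nat_lit 31257006144), (nat_lit 91, nat_lit 31240491072), (nat_lit 41, nat_lit 32313970752), (nat_lit 104, nat_lit 32297455680), (nat_lit 2, nat_lit 33370935360)]⟩,
   ⟨V6_25904549952, [(nat_lit 11, nat_lit 29126561856), (nat_lit 18, nat_lit 30200041536), (nat_lit 102, nat_lit 31273521216), (nat_lit 51, nat_lit 32347000896)]⟩,
   ⟨V6_24831070272, [(nat_lit 32, nat_lit 29126561856), (nat_lit 25, nat_lit 30200041536), (nat_lit 7, nat_lit 31273521216)]⟩],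
  [W_24798040064, W_24781262912, W_22684110848, W_22667333696]⟩
theorem C_29126561856 : chkRec R_29126561856 = true := by decide +kernel

noncomputable def R_29126565888 : Rec := ⟨nat_lit 29126565888, nat_lit 62,
  [⟨V6_25904553984, [(nat_lit 11, nat_lit 29126565888), (nat_lit 18, nat_lit 30200045568), (nat_lit 102, nat_lit 31273525248), (nat_lit 51, nat_lit 32347004928)]⟩,
   ⟨V6_24831590400, [(nat_lit 16, nat_lit 29126565888), (nat_lit 83, nat_lit 30200303616), (nat_lit 103, nat_lit 31274041344)]⟩,
   ⟨V6_24831074304, [(nat_lit 93, nat_lit 29126565888), (nat_lit 29, nat_lit 30200045568), (nat_lit 64, nat_lit 31273525248)]⟩],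
  [W_29075701760, W_28002222080, W_25888292864, W_25871777792, W_24781266944, W_23757848576, W_23724302336, W_22683852800]⟩
theorem C_29126565888 : chkRec R_29126565888 = true := by decide +kernel

noncomputable def R_29126823936 : Rec := ⟨nat_lit 29126823936, nat_lit 50,
  [⟨V6_24831590400, [(nat_lit 76, nat_lit 29126823936), (nat_lit 46, nat_lit 30200561664), (nat_lit 18, nat_lit 30200303616), (nat_lit 96, nat_lit 31274041344)]⟩,
   ⟨V6_24798302208, [(nat_lit 19, nat_lit 29126823936), (nat_lit 92, nat_lit 30183788544), (nat_lit 103, nat_lit 31240753152)]⟩,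
   ⟨V6_23741337600, [(nat_lit 6, nat_lit 29126823936), (nat_lit 32, nat_lit 30183788544)]⟩],
  [W_29108731904, W_29092216832, W_25904549888, W_25888292864, W_24831070208, W_23757848576]⟩
theorem C_29126823936 : chkRec R_29126823936 = true := by decide +kernel

noncomputable def R_29127081984 : Rec := ⟨nat_lit 29127081984, nat_lit 23,
  [⟨V6_24831590400, [(nat_lit 50, nat_lit 29127081984), (nat_lit 115, nat_lit 30200561664), (nat_lit 100, nat_lit 31274041344)]⟩,
   ⟨V6_23741595648, [(nat_lit 14, nat_lit 29127081984), (nat_lit 117, nat_lit 30184046592)]⟩],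
  [W_29125246976, W_29108731904, W_28035252224, W_21610889216]⟩
theorem C_29127081984 : chkRec R_29127081984 = true := by decide +kernel

noncomputable def R_29142556737 : Rec := ⟨nat_lit 29142556737, nat_lit 3,
  [⟨V6_22700105793, [(nat_lit 71, nat_lit 29142556737)]⟩],
  [W_27984928832, W_26927964224, W_25887772736]⟩
theorem C_29142556737 : chkRec R_29142556737 = true := by decide +kernel

noncomputable def R_29142556800 : Rec := ⟨nat_lit 29142556800, nat_lit 13,
  [⟨V6_24847589376, [(nat_lit 34, nat_lit 29142556800), (nat_lit 28, nat_lit 30216298560), (nat_lit 62, nat_lit 31290040320)]⟩,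
   ⟨V6_24814035072, [(nat_lit 78, nat_lit 29142556800), (nat_lit 10, nat_lit 30199521408), (nat_lit 99, nat_lit 31256486016)]⟩],
  [W_29058670592, W_27984928832, W_26911187072, W_24830812160]⟩
theorem C_29142556800 : chkRec R_29142556800 = true := by decide +kernel

noncomputable def R_29142814785 : Rec := ⟨nat_lit 29142814785, nat_lit 1,
  [⟨V6_23757328449, [(nat_lit 120, nat_lit 29142814785), (nat_lit 43, nat_lit 30199779393)]⟩],
  [W_26928222272]⟩
theorem C_29142814785 : chkRec R_29142814785 = true := by decide +kernel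

noncomputable def R_29142818880 : Rec := ⟨nat_lit 29142818880, nat_lit 29,
  [⟨V6_24831074304, [(nat_lit 125, nat_lit 29142818880), (nat_lit 114, nat_lit 30216560640), (nat_lit 94, nat_lit 30199783488), (nat_lit 52, nat_lit 31273525248)]⟩,
   ⟨V6_23774105664, [(nat_lit 6, nat_lit 29142818880), (nat_lit 4, nat_lit 30216556608)]⟩],
  [W_29075443712, W_29058670592, W_25904549888, W_24830812160, W_23773847552]⟩
theorem C_29142818880 : chkRec R_29142818880 = true := by decide +kernel

noncomputable def R_29142822912 : Rec := ⟨nat_lit 29142822912, nat_lit 20,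
  [⟨V6_25921585152, [(nat_lit 108, nat_lit 29142822912), (nat_lit 67, nat_lit 30216560640), (nat_lit 78, nat_lit 31290298368), (nat_lit 96, nat_lit 32364036096)]⟩,
   ⟨V6_22700371968, [(nat_lit 83, nat_lit 29142822912)]⟩],
  [W_28018737152, W_25904807936, W_25871261696]⟩
theorem C_29142822912 : chkRec R_29142822912 = true := by decide +kernel

noncomputable def R_29143076928 : Rec := ⟨nat_lit 29143076928, nat_lit 23,
  [⟨V6_25921327104, [(nat_lit 71, nat_lit 29143076928), (nat_lit 35, nat_lit 30216818688), (nat_lit 102, nat_lit 30216556608), (nat_lit 9, nat_lit 31290298368), (nat_lit 48, nat_lit 31290036288), (nat_lit 9, nat_lit 32363778048)]⟩,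
   ⟨V6_23774105664, [(nat_lit 108, nat_lit 29143076928), (nat_lit 83, nat_lit 30216556608)]⟩],
  [W_29075443712, W_29058928640, W_28034994176, W_28001964032, W_27985448960, W_26928484352, W_26928222272, W_25854742592, W_24831070208]⟩
theorem C_29143076928 : chkRec R_29143076928 = true := by decide +kernel

noncomputable def R_29143080960 : Rec := ⟨nat_lit 29143080960, nat_lit 71,
  [⟨V6_26928488448, [(nat_lit 88, nat_lit 29143080960), (nat_lit 31, nat_lit 30200045568), (nat_lit 69, nat_lit 31257010176), (nat_lit 18, nat_lit 32313974784), (nat_lit 101, nat_lit 33370939392)]⟩,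
   ⟨V6_25921327104, [(nat_lit 15, nat_lit 29143080960), (nat_lit 57, nat_lit 30216818688), (nat_lit 15, nat_lit 30216560640), (nat_lit 80, nat_lit 31290298368), (nat_lit 1, nat_lit 31290040320), (nat_lit 120, nat_lit 32363778048)]⟩,
   ⟨V6_25904553984, [(nat_lit 18, nat_lit 29143080960), (nat_lit 43, nat_lit 30216560640), (nat_lit 57, nat_lit 30200045568), (nat_lit 73, nat_lit 31290040320), (nat_lit 82, nat_lit 31273525248), (nat_lit 30, nat_lit 32347004928)]⟩,
   ⟨V6_24847589376, [(nat_lit 117, nat_lit 29143080960), (nat_lit 65, nat_lit 30216560640), (nat_lit 77, nat_lit 31290040320)]⟩,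
   ⟨V6_24831074304, [(nat_lit 16, nat_lit 29143080960), (nat_lit 126, nat_lit 30216560640), (nat_lit 113, nat_lit 30200045568), (nat_lit 39, nat_lit 31273525248)]⟩],
  [W_29059186688, W_28002222080, W_26911711232, W_25921323008, W_25888292864, W_24847843328, W_24797782016, W_22683852800]⟩
theorem C_29143080960 : chkRec R_29143080960 = true := by decide +kernel

noncomputable def R_29143339008 : Rec := ⟨nat_lit 29143339008, nat_lit 59,
  [⟨V6_28068544512, [(nat_lit 91, nat_lit 29143339008), (nat_lit 88, nat_lit 30217076736), (nat_lit 97, nat_lit 30216818688), (nat_lit 27, nat_lit 31290556416), (nat_lit 91, nat_lit 31290298368), (nat_lit 126, nat_lit 32364036096), (nat_lit 119, nat_lit 32363778048), (nat_lit 95, nat_lit 33437515776), (nat_lit 30, nat_lit 33437257728), (nat_lit 33, nat_lit 34510995456)]⟩,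
   ⟨V6_25921585152, [(nat_lit 9, nat_lit 29143339008), (nat_lit 102, nat_lit 30217076736), (nat_lit 118, nat_lit 30216818688), (nat_lit 116, nat_lit 31290556416), (nat_lit 111, nat_lit 31290298368), (nat_lit 29, nat_lit 32364036096)]⟩,
   ⟨V6_25921327104, [(nat_lit 121, nat_lit 29143339008), (nat_lit 71, nat_lit 30216818688), (nat_lit 106, nat_lit 31290298368), (nat_lit 53, nat_lit 32363778048)]⟩,
   ⟨V6_24831590400, [(nat_lit 115, nat_lit 29143339008), (nat_lit 9, nat_lit 30217076736), (nat_lit 48, nat_lit 30200303616), (nat_lit 56, nat_lit 31274041344)]⟩],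
  [W_26928484352, W_25888292864, W_25871777792, W_24847843328, W_24831070208, W_24798040064, W_23757848576]⟩
theorem C_29143339008 : chkRec R_29143339008 = true := by decide +kernel

noncomputable def R_29143597056 : Rec := ⟨nat_lit 29143597056, nat_lit 44,
  [⟨V6_25921585152, [(nat_lit 108, nat_lit 29143597056), (nat_lit 111, nat_lit 30217076736), (nat_lit 49, nat_lit 31290556416), (nat_lit 22, nat_lit 32364036096)]⟩,
   ⟨V6_25872039936, [(nat_lit 51, nat_lit 29143597056), (nat_lit 30, nat_lit 30200561664), (nat_lit 12, nat_lit 31257526272), (nat_lit 66, nat_lit 32314490880)]⟩,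
   ⟨V6_24831590400, [(nat_lit 105, nat_lit 29143597056), (nat_lit 21, nat_lit 30217076736), (nat_lit 100, nat_lit 30200561664), (nat_lit 106, nat_lit 31274041344)]⟩],
  [W_29108731904, W_29092216832, W_28068282368, W_28018737152, W_24798298112, W_21627404288]⟩
theorem C_29143597056 : chkRec R_29143597056 = true := by decide +kernel

noncomputable def R_29159333952 : Rec := ⟨nat_lit 29159333952, nat_lit 19,
  [⟨V6_29058670656, [(nat_lit 50, nat_lit 29159333952), (nat_lit 50, nat_lit 30216298560), (nat_lit 40, nat_lit 31273263168), (nat_lit 50, nat_lit 32330227776), (nat_lit 71, nat_lit 33387192384), (nat_lit 91, nat_lit 34444156992), (nat_lit 101, nat_lit 35501121600)]⟩,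
   ⟨V6_23790624768, [(nat_lit 87, nat_lit 29159333952), (nat_lit 106, nat_lit 30233075712)]⟩,
   ⟨V6_23790620736, [(nat_lit 83, nat_lit 29159333952), (nat_lit 13, nat_lit 30233071680)]⟩],
  [W_29075443712, W_29058670592, W_28018479104, W_28001705984, W_27984928832, W_26927964224, W_25904549888, W_25887772736]⟩
theorem C_29159333952 : chkRec R_29159333952 = true := by decide +kernel

noncomputable def R_29159592000 : Rec := ⟨nat_lit 29159592000, nat_lit 16,
  [⟨V6_28001964096, [(nat_lit 105, nat_lit 29159592000), (nat_lit 65, nat_lit 30216556608), (nat_lit 10, nat_lit 31273521216), (nat_lit 124, nat_lit 32330485824), (nat_lit 36, nat_lit 33387450432), (nat_lit 63, nat_lit 34444415040)]⟩,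
   ⟨V6_23790620736, [(nat_lit 101, nat_lit 29159592000), (nat_lit 119, nat_lit 30233071680)]⟩,
   ⟨V6_22717141056, [(nat_lit 66, nat_lit 29159592000)]⟩],
  [W_29075443712, W_28034994176, W_28018479104, W_26978029568, W_25921064960, W_25888034816]⟩
theorem C_29159592000 : chkRec R_29159592000 = true := by decide +kernel

noncomputable def R_29159596032 : Rec := ⟨nat_lit 29159596032, nat_lit 51,
  [⟨V6_24847589376, [(nat_lit 92, nat_lit 29159596032), (nat_lit 52, nat_lit 30233075712), (nat_lit 24, nat_lit 30216560640), (nat_lit 3, nat_lit 31290040320)]⟩,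
   ⟨V6_24831074304, [(nat_lit 29, nat_lit 29159596032), (nat_lit 111, nat_lit 30216560640), (nat_lit 6, nat_lit 31273525248)]⟩,
   ⟨V6_23790624768, [(nat_lit 104, nat_lit 29159596032), (nat_lit 32, nat_lit 30233075712)]⟩],
  [W_29075701760, W_29075443712, W_29058928640, W_29058670592, W_28018737152, W_27985190912, W_25921323008, W_24847843328, W_23790878720]⟩
theorem C_29159596032 : chkRec R_29159596032 = true := by decide +kernel

noncomputable def R_29159854080 : Rec := ⟨nat_lit 29159854080, nat_lit 66,
  [⟨V6_29059190784, [(nat_lit 26, nat_lit 29159854080), (nat_lit 26, nat_lit 30216818688), (nat_lit 97, nat_lit 31273783296), (nat_lit 26, nat_lit 32330747904), (nat_lit 42, nat_lit 33387712512), (nat_lit 27, nat_lit 34444677120), (nat_lit 83, nat_lit 35501641728)]⟩,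
   ⟨V6_28051771392, [(nat_lit 57, nat_lit 29159854080), (nat_lit 31, nat_lit 30233333760), (nat_lit 72, nat_lit 30216818688), (nat_lit 109, nat_lit 31306813440), (nat_lit 50, nat_lit 31290298368), (nat_lit 53, nat_lit 31273783296), (nat_lit 89, nat_lit 32380293120), (nat_lit 70, nat_lit 32363778048), (nat_lit 56, nat_lit 32347262976), (nat_lit 102, nat_lit 33437257728), (nat_lit 25, nat_lit 33420742656), (nat_lit 18, nat_lit 34494222336)]⟩,
   ⟨V6_27011579904, [(nat_lit 81, nat_lit 29159854080), (nat_lit 4, nat_lit 30233591808), (nat_lit 72, nat_lit 30233333760), (nat_lit 64, nat_lit 31307071488), (nat_lit 84, nat_lit 31306813440), (nat_lit 84, nat_lit 32380551168), (nat_lit 26, nat_lit 32380293120), (nat_lit 77, nat_lit 33454030848)]⟩,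
   ⟨V6_26994806784, [(nat_lit 45, nat_lit 29159854080), (nat_lit 100, nat_lit 30233333760), (nat_lit 70, nat_lit 30216818688), (nat_lit 21, nat_lit 31306813440), (nat_lit 100, nat_lit 31290298368), (nat_lit 65, nat_lit 32380293120), (nat_lit 106, nat_lit 32363778048), (nat_lit 85, nat_lit 33437257728)]⟩,
   ⟨V6_25938100224, [(nat_lit 93, nat_lit 29159854080), (nat_lit 74, nat_lit 30233591808), (nat_lit 111, nat_lit 30233333760), (nat_lit 74, nat_lit 31307071488), (nat_lit 111, nat_lit 31306813440), (nat_lit 115, nat_lit 32380551168)]⟩,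
   ⟨V6_25937842176, [(nat_lit 96, nat_lit 29159854080), (nat_lit 108, nat_lit 30233333760), (nat_lit 35, nat_lit 31306813440), (nat_lit 117, nat_lit 32380293120)]⟩,
   ⟨V6_25921327104, [(nat_lit 94, nat_lit 29159854080), (nat_lit 6, nat_lit 30233333760), (nat_lit 44, nat_lit 30216818688), (nat_lit 123, nat_lit 31306813440), (nat_lit 13, nat_lit 31290298368), (nat_lit 51, nat_lit 32363778048)]⟩,
   ⟨V6_24864362496, [(nat_lit 106, nat_lit 29159854080), (nat_lit 73, nat_lit 30233333760), (nat_lit 22, nat_lit 31306813440)]⟩],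
  [W_29059186688, W_27985448960, W_25888292864, W_24864358400, W_24847843328, W_24831070208, W_23790878720]⟩
theorem C_29159854080 : chkRec R_29159854080 = true := by decide +kernel

noncomputable def R_29160112128 : Rec := ⟨nat_lit 29160112128, nat_lit 50,
  [⟨V6_24831590400, [(nat_lit 113, nat_lit 29160112128), (nat_lit 34, nat_lit 30217076736), (nat_lit 19, nat_lit 31274041344)]⟩,
   ⟨V6_22717661184, [(nat_lit 14, nat_lit 29160112128)]⟩],
  [W_29125246976, W_29108731904, W_29092216832, W_29075701760, W_28068282368, W_28018737152, W_28002222080, W_25921323008, W_24864358400]⟩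
theorem C_29160112128 : chkRec R_29160112128 = true := by decide +kernel

noncomputable def R_29176107072 : Rec := ⟨nat_lit 29176107072, nat_lit 9,
  [⟨V6_24847585344, [(nat_lit 103, nat_lit 29176107072), (nat_lit 77, nat_lit 30233071680), (nat_lit 112, nat_lit 31290036288)]⟩,
   ⟨V6_23790620736, [(nat_lit 108, nat_lit 29176107072), (nat_lit 55, nat_lit 30233071680)]⟩],
  [W_29075443712, W_28034994176, W_28018479104, W_24864100352]⟩
theorem C_29176107072 : chkRec R_29176107072 = true := by decide +kernel

noncomputable def R_29176111104 : Rec := ⟨nat_lit 29176111104, nat_lit 31,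
  [⟨V6_24881135616, [(nat_lit 64, nat_lit 29176111104), (nat_lit 78, nat_lit 30249848832), (nat_lit 31, nat_lit 31323586560)]⟩,
   ⟨V6_23790624768, [(nat_lit 28, nat_lit 29176111104), (nat_lit 66, nat_lit 30233075712)]⟩],
  [W_29092216832, W_29075443712, W_29058670592, W_28035252224, W_25921323008, W_25887776768]⟩
theorem C_29176111104 : chkRec R_29176111104 = true := by decide +kernel

noncomputable def R_29176369152 : Rec := ⟨nat_lit 29176369152, nat_lit 48,
  [⟨V6_26994806784, [(nat_lit 47, nat_lit 29176369152), (nat_lit 4, nat_lit 30249848832), (nat_lit 83, nat_lit 30233333760), (nat_lit 53, nat_lit 31323328512), (nat_lit 87, nat_lit 31306813440), (nat_lit 90, nat_lit 31290298368), (nat_lit 6, nat_lit 32380293120), (nat_lit 126, nat_lit 32363778048), (nat_lit 55, nat_lit 33437257728)]⟩,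
   ⟨V6_25954615296, [(nat_lit 63, nat_lit 29176369152), (nat_lit 58, nat_lit 30250106880), (nat_lit 125, nat_lit 30249848832), (nat_lit 7, nat_lit 31323586560), (nat_lit 92, nat_lit 31323328512), (nat_lit 121, nat_lit 32397066240)]⟩,
   ⟨V6_25937842176, [(nat_lit 87, nat_lit 29176369152), (nat_lit 105, nat_lit 30249848832), (nat_lit 49, nat_lit 30233333760), (nat_lit 23, nat_lit 31323328512), (nat_lit 18, nat_lit 31306813440), (nat_lit 87, nat_lit 32380293120)]⟩,
   ⟨V6_24881135616, [(nat_lit 34, nat_lit 29176369152), (nat_lit 94, nat_lit 30250106880), (nat_lit 54, nat_lit 30249848832), (nat_lit 125, nat_lit 31323586560)]⟩,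
   ⟨V6_24880877568, [(nat_lit 2, nat_lit 29176369152), (nat_lit 72, nat_lit 30249848832), (nat_lit 43, nat_lit 31323328512)]⟩,
   ⟨V6_24864362496, [(nat_lit 53, nat_lit 29176369152), (nat_lit 86, nat_lit 30249848832), (nat_lit 39, nat_lit 30233333760), (nat_lit 73, nat_lit 31306813440)]⟩],
  [W_29108731904, W_29092216832, W_29075701760, W_29058928640, W_28018737152, W_28001964032, W_24847843328, W_23790878720]⟩
theorem C_29176369152 : chkRec R_29176369152 = true := by decide +kernel

noncomputable def R_29176627200 : Rec := ⟨nat_lit 29176627200, nat_lit 49,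
  [⟨V6_27011579904, [(nat_lit 7, nat_lit 29176627200), (nat_lit 10, nat_lit 30250106880), (nat_lit 74, nat_lit 30233591808), (nat_lit 36, nat_lit 31323586560), (nat_lit 112, nat_lit 31307071488), (nat_lit 72, nat_lit 32397066240), (nat_lit 12, nat_lit 32380551168), (nat_lit 5, nat_lit 33454030848)]⟩,
   ⟨V6_25954615296, [(nat_lit 86, nat_lit 29176627200), (nat_lit 65, nat_lit 30250106880), (nat_lit 34, nat_lit 31323586560), (nat_lit 81, nat_lit 32397066240)]⟩,
   ⟨V6_25938100224, [(nat_lit 105, nat_lit 29176627200), (nat_lit 57, nat_lit 30250106880), (nat_lit 99, nat_lit 30233591808), (nat_lit 38, nat_lit 31323586560), (nat_lit 66, nat_lit 31307071488), (nat_lit 89, nat_lit 32380551168)]⟩,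
   ⟨V6_24881135616, [(nat_lit 67, nat_lit 29176627200), (nat_lit 9, nat_lit 30250106880), (nat_lit 81, nat_lit 31323586560)]⟩],
  [W_29075701760, W_29059186688, W_28068282368, W_28002222080, W_25888292864, W_24847843328, W_23790878720]⟩
theorem C_29176627200 : chkRec R_29176627200 = true := by decide +kernel

noncomputable def R_29192622144 : Rec := ⟨nat_lit 29192622144, nat_lit 1,
  [⟨V6_23807135808, [(nat_lit 28, nat_lit 29192622144), (nat_lit 79, nat_lit 30249586752)]⟩],
  [W_28034994176]⟩
theorem C_29192622144 : chkRec R_29192622144 = true := by decide +kernel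

noncomputable def R_29192884224 : Rec := ⟨nat_lit 29192884224, nat_lit 31,
  [⟨V6_24881135616, [(nat_lit 97, nat_lit 29192884224), (nat_lit 111, nat_lit 30266621952), (nat_lit 32, nat_lit 30249848832), (nat_lit 72, nat_lit 31323586560)]⟩,
   ⟨V6_24864362496, [(nat_lit 47, nat_lit 29192884224), (nat_lit 98, nat_lit 30249848832), (nat_lit 14, nat_lit 31306813440)]⟩],
  [W_29092216832, W_29075443712, W_28051767296, W_28035252224, W_21676691456]⟩
theorem C_29192884224 : chkRec R_29192884224 = true := by decide +kernel

noncomputable def R_29193142272 : Rec := ⟨nat_lit 29193142272, nat_lit 41,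
  [⟨V6_25971130368, [(nat_lit 61, nat_lit 29193142272), (nat_lit 84, nat_lit 30266621952), (nat_lit 55, nat_lit 31340101632), (nat_lit 82, nat_lit 32413581312)]⟩,
   ⟨V6_25921585152, [(nat_lit 51, nat_lit 29193142272), (nat_lit 10, nat_lit 30250106880), (nat_lit 91, nat_lit 31307071488), (nat_lit 83, nat_lit 32364036096)]⟩,
   ⟨V6_24881135616, [(nat_lit 48, nat_lit 29193142272), (nat_lit 41, nat_lit 30266621952), (nat_lit 21, nat_lit 30250106880), (nat_lit 55, nat_lit 31323586560)]⟩],
  [W_29092216832, W_29075701760, W_28068282368, W_23790878720, W_21676949504]⟩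
theorem C_29193142272 : chkRec R_29193142272 = true := by decide +kernel

noncomputable def R_29209399296 : Rec := ⟨nat_lit 29209399296, nat_lit 9,
  [⟨V6_29108736000, [(nat_lit 15, nat_lit 29209399296), (nat_lit 122, nat_lit 30266363904), (nat_lit 79, nat_lit 31323328512), (nat_lit 4, nat_lit 32380293120), (nat_lit 64, nat_lit 33437257728), (nat_lit 123, nat_lit 34494222336), (nat_lit 47, nat_lit 35551186944)]⟩,
   ⟨V6_23823912960, [(nat_lit 32, nat_lit 29209399296), (nat_lit 107, nat_lit 30266363904)]⟩,
   ⟨V6_22766948352, [(nat_lit 77, nat_lit 29209399296)]⟩],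
  [W_28051767296, W_28034994176, W_26994802688]⟩
theorem C_29209399296 : chkRec R_29209399296 = true := by decide +kernel

noncomputable def R_29209657344 : Rec := ⟨nat_lit 29209657344, nat_lit 29,
  [⟨V6_28052029440, [(nat_lit 123, nat_lit 29209657344), (nat_lit 81, nat_lit 30266621952), (nat_lit 126, nat_lit 31323586560), (nat_lit 15, nat_lit 32380551168), (nat_lit 10, nat_lit 33437515776), (nat_lit 49, nat_lit 34494480384)]⟩,
   ⟨V6_24881135616, [(nat_lit 17, nat_lit 29209657344), (nat_lit 56, nat_lit 30266621952), (nat_lit 40, nat_lit 31323586560)]⟩],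
  [W_29125246976, W_28068282368, W_24864358400, W_23840423936, W_22766944256]⟩
theorem C_29209657344 : chkRec R_29209657344 = true := by decide +kernel

noncomputable def R_29226172416 : Rec := ⟨nat_lit 29226172416, nat_lit 14,
  [⟨V6_24897650688, [(nat_lit 3, nat_lit 29226172416), (nat_lit 123, nat_lit 30283137024), (nat_lit 49, nat_lit 31340101632)]⟩,
   ⟨V6_22783721472, [(nat_lit 16, nat_lit 29226172416)]⟩],
  [W_29125246976, W_29108731904, W_28068282368, W_26994802688]⟩
theorem C_29226172416 : chkRec R_29226172416 = true := by decide +kernel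

noncomputable def R_29242687488 : Rec := ⟨nat_lit 29242687488, nat_lit 7,
  [⟨V6_23857201152, [(nat_lit 73, nat_lit 29242687488), (nat_lit 49, nat_lit 30299652096)]⟩,
   ⟨V6_22800236544, [(nat_lit 70, nat_lit 29242687488)]⟩],
  [W_29125246976, W_28068282368]⟩
theorem C_29242687488 : chkRec R_29242687488 = true := by decide +kernel

noncomputable def R_30132936834 : Rec := ⟨nat_lit 30132936834, nat_lit 1,
  [⟨V6_23690485890, [(nat_lit 99, nat_lit 30132936834)]⟩],
  [W_26911187072]⟩
theorem C_30132936834 : chkRec R_30132936834 = true := by decide +kernel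

noncomputable def R_30132945024 : Rec := ⟨nat_lit 30132945024, nat_lit 3,
  [⟨V6_23690494080, [(nat_lit 121, nat_lit 30132945024)]⟩],
  [W_26911711232]⟩
theorem C_30132945024 : chkRec R_30132945024 = true := by decide +kernel

noncomputable def R_30149714049 : Rec := ⟨nat_lit 30149714049, nat_lit 2,
  [⟨V6_26911187073, [(nat_lit 18, nat_lit 30149714049), (nat_lit 27, nat_lit 31223193729), (nat_lit 112, nat_lit 31206678657), (nat_lit 83, nat_lit 32296673409), (nat_lit 97, nat_lit 32280158337), (nat_lit 55, nat_lit 33353638017)]⟩,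
   ⟨V6_25854222465, [(nat_lit 86, nat_lit 30149714049), (nat_lit 48, nat_lit 31223193729), (nat_lit 71, nat_lit 32296673409)]⟩],
  [W_24781004864]⟩
theorem C_30149714049 : chkRec R_30149714049 = true := by decide +kernel

noncomputable def R_30149718081 : Rec := ⟨nat_lit 30149718081, nat_lit 1,
  [⟨V6_26928484416, [(nat_lit 86, nat_lit 30149718081), (nat_lit 120, nat_lit 31223459904), (nat_lit 38, nat_lit 31223455809), (nat_lit 92, nat_lit 32297197632), (nat_lit 74, nat_lit 32297193537), (nat_lit 118, nat_lit 33370935360)]⟩],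
  [W_25837969472]⟩
theorem C_30149718081 : chkRec R_30149718081 = true := by decide +kernel

noncomputable def R_30149718144 : Rec := ⟨nat_lit 30149718144, nat_lit 3,
  [⟨V6_26911715328, [(nat_lit 12, nat_lit 30149718144), (nat_lit 85, nat_lit 31223459904), (nat_lit 78, nat_lit 31206682752), (nat_lit 111, nat_lit 32297201664), (nat_lit 24, nat_lit 32280424512), (nat_lit 94, nat_lit 33354166272)]⟩],
  [W_26928226304, W_25854484544]⟩
theorem C_30149718144 : chkRec R_30149718144 = true := by decide +kernel

noncomputable def R_30149722176 : Rec := ⟨nat_lit 30149722176, nat_lit 5,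
  [⟨V6_26911715328, [(nat_lit 94, nat_lit 30149722176), (nat_lit 90, nat_lit 31223463936), (nat_lit 78, nat_lit 31223459904), (nat_lit 27, nat_lit 31206686784), (nat_lit 4, nat_lit 32297201664), (nat_lit 111, nat_lit 32280428544), (nat_lit 35, nat_lit 32280424512), (nat_lit 50, nat_lit 33354166272)]⟩,
   ⟨V6_24764235840, [(nat_lit 94, nat_lit 30149722176), (nat_lit 20, nat_lit 31206686784)]⟩],
  [W_27985448960, W_26928484352, W_23690494016]⟩
theorem C_30149722176 : chkRec R_30149722176 = true := by decide +kernel

noncomputable def R_30149976129 : Rec := ⟨nat_lit 30149976129, nat_lit 2,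
  [⟨V6_25855004736, [(nat_lit 84, nat_lit 30149976129), (nat_lit 41, nat_lit 31223717952), (nat_lit 76, nat_lit 31223713857), (nat_lit 44, nat_lit 32297455680)]⟩],
  [W_26928222272, W_26927964224]⟩
theorem C_30149976129 : chkRec R_30149976129 = true := by decide +kernel

noncomputable def R_30149976192 : Rec := ⟨nat_lit 30149976192, nat_lit 2,
  [⟨V6_26928488448, [(nat_lit 93, nat_lit 30149976192), (nat_lit 99, nat_lit 31223717952), (nat_lit 52, nat_lit 31223455872), (nat_lit 79, nat_lit 32297459712), (nat_lit 72, nat_lit 32297197632), (nat_lit 100, nat_lit 33370939392)]⟩],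
  [W_25854222464, W_23707263104]⟩
theorem C_30149976192 : chkRec R_30149976192 = true := by decide +kernel

noncomputable def R_30149980224 : Rec := ⟨nat_lit 30149980224, nat_lit 4,
  [⟨V6_25855004736, [(nat_lit 14, nat_lit 30149980224), (nat_lit 25, nat_lit 31223717952), (nat_lit 106, nat_lit 32297455680)]⟩,
   ⟨V6_24781271040, [(nat_lit 90, nat_lit 30149980224), (nat_lit 38, nat_lit 31223721984)]⟩],
  [W_28001964032, W_26928226304, W_26928222272]⟩
theorem C_30149980224 : chkRec R_30149980224 = true := by decide +kernel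

noncomputable def R_30149984256 : Rec := ⟨nat_lit 30149984256, nat_lit 1,
  [⟨V6_24781271040, [(nat_lit 64, nat_lit 30149984256), (nat_lit 113, nat_lit 31223721984)]⟩],
  [W_28002222080]⟩
theorem C_30149984256 : chkRec R_30149984256 = true := by decide +kernel

noncomputable def R_30165966978 : Rec := ⟨nat_lit 30165966978, nat_lit 2,
  [⟨V6_23723516034, [(nat_lit 117, nat_lit 30165966978)]⟩],
  [W_29025116288, W_26911187072]⟩
theorem C_30165966978 : chkRec R_30165966978 = true := by decide +kernel

noncomputable def R_30166229121 : Rec := ⟨nat_lit 30166229121, nat_lit 2,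
  [⟨V6_23723778177, [(nat_lit 102, nat_lit 30166229121)]⟩],
  [W_27984928832, W_26927964224]⟩
theorem C_30166229121 : chkRec R_30166229121 = true := by decide +kernel

noncomputable def R_30166233153 : Rec := ⟨nat_lit 30166233153, nat_lit 1,
  [⟨V6_26944999488, [(nat_lit 67, nat_lit 30166233153), (nat_lit 61, nat_lit 31239974976), (nat_lit 68, nat_lit 31239970881), (nat_lit 51, nat_lit 32313712704), (nat_lit 99, nat_lit 32313708609), (nat_lit 24, nat_lit 33387450432)]⟩],
  [W_26928222272]⟩
theorem C_30166233153 : chkRec R_30166233153 = true := by decide +kernel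

noncomputable def R_30166233216 : Rec := ⟨nat_lit 30166233216, nat_lit 1,
  [⟨V6_26911449216, [(nat_lit 63, nat_lit 30166233216), (nat_lit 55, nat_lit 31239970944), (nat_lit 1, nat_lit 31223197824), (nat_lit 23, nat_lit 32296935552), (nat_lit 9, nat_lit 32280162432), (nat_lit 43, nat_lit 33353900160)]⟩],
  [W_24797523968]⟩
theorem C_30166233216 : chkRec R_30166233216 = true := by decide +kernel

noncomputable def R_30166491201 : Rec := ⟨nat_lit 30166491201, nat_lit 2,
  [⟨V6_26944741440, [(nat_lit 125, nat_lit 30166491201), (nat_lit 14, nat_lit 31240233024), (nat_lit 120, nat_lit 31239970881), (nat_lit 25, nat_lit 32313712704), (nat_lit 29, nat_lit 32313450561), (nat_lit 100, nat_lit 33387192384)]⟩],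
  [W_26928222272, W_25854742592]⟩
theorem C_30166491201 : chkRec R_30166491201 = true := by decide +kernel

noncomputable def R_30166491264 : Rec := ⟨nat_lit 30166491264, nat_lit 13,
  [⟨V6_26944741440, [(nat_lit 107, nat_lit 30166491264), (nat_lit 21, nat_lit 31240233024), (nat_lit 52, nat_lit 31239970944), (nat_lit 84, nat_lit 32313712704), (nat_lit 61, nat_lit 32313450624), (nat_lit 73, nat_lit 33387192384)]⟩,
   ⟨V6_26928488448, [(nat_lit 56, nat_lit 30166491264), (nat_lit 27, nat_lit 31240233024), (nat_lit 67, nat_lit 31223455872), (nat_lit 74, nat_lit 32313974784), (nat_lit 30, nat_lit 32297197632), (nat_lit 73, nat_lit 33370939392)]⟩,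
   ⟨V6_26911449216, [(nat_lit 64, nat_lit 30166491264), (nat_lit 32, nat_lit 31239970944), (nat_lit 13, nat_lit 31223455872), (nat_lit 47, nat_lit 32296935552), (nat_lit 115, nat_lit 32280420480), (nat_lit 118, nat_lit 33353900160)]⟩],
  [W_29058670592, W_26911711232, W_24797782016]⟩
theorem C_30166491264 : chkRec R_30166491264 = true := by decide +kernel

noncomputable def R_30166495296 : Rec := ⟨nat_lit 30166495296, nat_lit 10,
  [⟨V6_26928488448, [(nat_lit 77, nat_lit 30166495296), (nat_lit 7, nat_lit 31240237056), (nat_lit 27, nat_lit 31240233024), (nat_lit 88, nat_lit 31223459904), (nat_lit 111, nat_lit 32313974784), (nat_lit 119, nat_lit 32297201664), (nat_lit 14, nat_lit 32297197632), (nat_lit 13, nat_lit 33370939392)]⟩,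
   ⟨V6_26911715328, [(nat_lit 102, nat_lit 30166495296), (nat_lit 68, nat_lit 31240237056), (nat_lit 31, nat_lit 31223459904), (nat_lit 64, nat_lit 32297201664), (nat_lit 41, nat_lit 32280424512), (nat_lit 55, nat_lit 33354166272)]⟩],
  [W_26928222272, W_24797782016]⟩
theorem C_30166495296 : chkRec R_30166495296 = true := by decide +kernel

noncomputable def R_30166499328 : Rec := ⟨nat_lit 30166499328, nat_lit 14,
  [⟨V6_23724048384, [(nat_lit 67, nat_lit 30166499328)]⟩],
  [W_29059186688, W_28002222080, W_26928484352, W_26911711232, W_24764235776]⟩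
theorem C_30166499328 : chkRec R_30166499328 = true := by decide +kernel

noncomputable def R_30166753344 : Rec := ⟨nat_lit 30166753344, nat_lit 14,
  [⟨V6_26944741440, [(nat_lit 45, nat_lit 30166753344), (nat_lit 3, nat_lit 31240233024), (nat_lit 68, nat_lit 32313712704), (nat_lit 35, nat_lit 33387192384)]⟩,
   ⟨V6_24798044160, [(nat_lit 75, nat_lit 30166753344), (nat_lit 74, nat_lit 31240495104)]⟩],
  [W_29075443712, W_28018479104, W_28001964032, W_26928484352, W_26928222272, W_25854746624]⟩
theorem C_30166753344 : chkRec R_30166753344 = true := by decide +kernel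

noncomputable def R_30166757376 : Rec := ⟨nat_lit 30166757376, nat_lit 13,
  [⟨V6_24798044160, [(nat_lit 1, nat_lit 30166757376), (nat_lit 43, nat_lit 31240495104)]⟩,
   ⟨V6_24781271040, [(nat_lit 1, nat_lit 30166757376), (nat_lit 31, nat_lit 31223721984)]⟩],
  [W_28018737152, W_28002222080, W_26928484352, W_24781008896]⟩
theorem C_30166757376 : chkRec R_30166757376 = true := by decide +kernel

noncomputable def R_30167011392 : Rec := ⟨nat_lit 30167011392, nat_lit 2,
  [⟨V6_24798302208, [(nat_lit 87, nat_lit 30167011392), (nat_lit 96, nat_lit 31240753152)]⟩],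
  [W_28018479104]⟩
theorem C_30167011392 : chkRec R_30167011392 = true := by decide +kernel

noncomputable def R_30167015424 : Rec := ⟨nat_lit 30167015424, nat_lit 20,
  [⟨V6_23724564480, [(nat_lit 4, nat_lit 30167015424)]⟩],
  [W_29092216832, W_28018737152, W_28018479104, W_26944999424, W_25871261696]⟩
theorem C_30167015424 : chkRec R_30167015424 = true := by decide +kernel

noncomputable def R_30182744193 : Rec := ⟨nat_lit 30182744193, nat_lit 3,
  [⟨V6_24814035072, [(nat_lit 66, nat_lit 30182744193), (nat_lit 73, nat_lit 31256486016)]⟩],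
  [W_29025116288, W_27984928832, W_26911187072]⟩
theorem C_30182744193 : chkRec R_30182744193 = true := by decide +kernel

noncomputable def R_30183006273 : Rec := ⟨nat_lit 30183006273, nat_lit 2,
  [⟨V6_26961514560, [(nat_lit 115, nat_lit 30183006273), (nat_lit 118, nat_lit 31256748096), (nat_lit 117, nat_lit 31256744001), (nat_lit 4, nat_lit 31256485953), (nat_lit 63, nat_lit 32330485824), (nat_lit 19, nat_lit 32330227776), (nat_lit 75, nat_lit 32330223681), (nat_lit 119, nat_lit 33403965504)]⟩,
   ⟨V6_24814035009, [(nat_lit 48, nat_lit 30183006273), (nat_lit 53, nat_lit 31256485953)]⟩],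
  [W_27984928832, W_26928222272]⟩
theorem C_30183006273 : chkRec R_30183006273 = true := by decide +kernel

noncomputable def R_30183006336 : Rec := ⟨nat_lit 30183006336, nat_lit 9,
  [⟨V6_29041893504, [(nat_lit 118, nat_lit 30183006336), (nat_lit 18, nat_lit 31256486016), (nat_lit 3, nat_lit 31239970944), (nat_lit 89, nat_lit 32313450624), (nat_lit 102, nat_lit 32296935552), (nat_lit 112, nat_lit 33370415232), (nat_lit 91, nat_lit 33353900160), (nat_lit 90, nat_lit 34427379840), (nat_lit 32, nat_lit 34410864768), (nat_lit 105, nat_lit 35484344448)]⟩,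
   ⟨V6_27985190976, [(nat_lit 92, nat_lit 30183006336), (nat_lit 30, nat_lit 31256748096), (nat_lit 111, nat_lit 31239970944), (nat_lit 77, nat_lit 32313712704), (nat_lit 16, nat_lit 32296935552), (nat_lit 14, nat_lit 33370677312), (nat_lit 60, nat_lit 33353900160), (nat_lit 54, nat_lit 34427641920)]⟩,
   ⟨V6_26911449216, [(nat_lit 40, nat_lit 30183006336), (nat_lit 61, nat_lit 31239970944), (nat_lit 55, nat_lit 32296935552), (nat_lit 10, nat_lit 33353900160)]⟩,
   ⟨V6_24814035072, [(nat_lit 38, nat_lit 30183006336), (nat_lit 79, nat_lit 31256486016)]⟩],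
  [W_29058670592, W_24814297088]⟩
theorem C_30183006336 : chkRec R_30183006336 = true := by decide +kernel

noncomputable def R_30183010368 : Rec := ⟨nat_lit 30183010368, nat_lit 6,
  [⟨V6_30132670464, [(nat_lit 84, nat_lit 30183010368), (nat_lit 56, nat_lit 31256752128), (nat_lit 32, nat_lit 31256748096), (nat_lit 92, nat_lit 31239974976), (nat_lit 24, nat_lit 32330489856), (nat_lit 121, nat_lit 32330485824), (nat_lit 24, nat_lit 32313716736), (nat_lit 77, nat_lit 32313712704), (nat_lit 31, nat_lit 32296939584), (nat_lit 121, nat_lit 33404227584), (nat_lit 93, nat_lit 33387454464), (nat_lit 82, nat_lit 33387450432), (nat_lit 14, nat_lit 33370681344), (nat_lit 93, nat_lit 33370677312), (nat_lit 65, nat_lit 33353904192), (nat_lit 10, nat_lit 34461192192), (nat_lit 79, nat_lit 34444419072), (nat_lit 44, nat_lit 34444415040), (nat_lit 109, nat_lit 34427645952), (nat_lit 81, nat_lit 34427641920), (nat_lit 38, nat_lit 35518156800), (nat_lit 113, nat_lit 35501383680), (nat_lit 1, nat_lit 35501379648), (nat_lit 109, nat_lit 36575121408)]⟩,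
   ⟨V6_29058932736, [(nat_lit 47, nat_lit 30183010368), (nat_lit 118, nat_lit 31256752128), (nat_lit 19, nat_lit 31256748096), (nat_lit 100, nat_lit 31239974976), (nat_lit 3, nat_lit 32330489856), (nat_lit 61, nat_lit 32313716736), (nat_lit 30, nat_lit 32313712704), (nat_lit 35, nat_lit 32296939584), (nat_lit 19, nat_lit 33387454464), (nat_lit 112, nat_lit 33370681344), (nat_lit 3, nat_lit 33370677312), (nat_lit 27, nat_lit 33353904192), (nat_lit 87, nat_lit 34444419072), (nat_lit 12, nat_lit 34427645952), (nat_lit 9, nat_lit 34427641920), (nat_lit 68, nat_lit 35501383680)]⟩,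
   ⟨V6_28001964096, [(nat_lit 95, nat_lit 30183010368), (nat_lit 120, nat_lit 31256748096), (nat_lit 65, nat_lit 31239974976), (nat_lit 34, nat_lit 32330485824), (nat_lit 94, nat_lit 32313712704), (nat_lit 111, nat_lit 32296939584), (nat_lit 116, nat_lit 33387450432), (nat_lit 28, nat_lit 33370677312), (nat_lit 35, nat_lit 34444415040)]⟩,
   ⟨V6_27985190976, [(nat_lit 37, nat_lit 30183010368), (nat_lit 71, nat_lit 31256748096), (nat_lit 42, nat_lit 31239974976), (nat_lit 98, nat_lit 32313712704), (nat_lit 121, nat_lit 32296939584), (nat_lit 123, nat_lit 33370677312), (nat_lit 53, nat_lit 33353904192), (nat_lit 1, nat_lit 34427641920)]⟩,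
   ⟨V6_26928230400, [(nat_lit 19, nat_lit 30183010368), (nat_lit 10, nat_lit 31256752128), (nat_lit 5, nat_lit 31239974976), (nat_lit 67, nat_lit 32313716736), (nat_lit 81, nat_lit 32296939584), (nat_lit 83, nat_lit 33370681344)]⟩],
  [W_26928222272, W_25888034816]⟩
theorem C_30183010368 : chkRec R_30183010368 = true := by decide +kernel

noncomputable def R_30183264321 : Rec := ⟨nat_lit 30183264321, nat_lit 1,
  [⟨V6_23740813377, [(nat_lit 45, nat_lit 30183264321)]⟩],
  [W_26928222272]⟩
theorem C_30183264321 : chkRec R_30183264321 = true := by decide +kernel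

end Crest.Agent.R187.SN.Top
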