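import Crest.Agent.R187.SN.Top
import Crest.Agent.R187.SN.TD.X6_12
import Crest.Agent.R187.SN.TD.W7_3

/-!
# Row 187, PLAN S, generated certificate data (mod 127): rank records and checks, chunk 19

Written by a C++ program (helper824).  The tables are only data: every property is checked by
the kernel.
-/

set_option autoImplicit false
set_option maxRecDepth 100000
set_option Elab.async false

namespace Crest.Agent.R187.SN.Top

noncomputable def R_30183268416 : Rec := ⟨nat_lit 30183268416, nat_lit 24,
  [⟨V6_26961518592, [(nat_lit 103, nat_lit 30183268416), (nat_lit 38, nat_lit 31257010176), (nat_lit 66, nat_lit 31256748096), (nat_lit 79, nat_lit 32330489856), (nat_lit 10, nat_lit 32330227776), (nat_lit 100, nat_lit 33403969536)]⟩,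
   ⟨V6_26961514560, [(nat_lit 45, nat_lit 30183268416), (nat_lit 114, nat_lit 31257006144), (nat_lit 53, nat_lit 31256748096), (nat_lit 5, nat_lit 32330485824), (nat_lit 102, nat_lit 32330227776), (nat_lit 32, nat_lit 33403965504)]⟩,
   ⟨V6_26944741440, [(nat_lit 3, nat_lit 30183268416), (nat_lit 102, nat_lit 31256748096), (nat_lit 115, nat_lit 31240233024), (nat_lit 63, nat_lit 32330227776), (nat_lit 22, nat_lit 32313712704), (nat_lit 101, nat_lit 33387192384)]⟩,
   ⟨V6_26928488448, [(nat_lit 72, nat_lit 30183268416), (nat_lit 78, nat_lit 31257010176), (nat_lit 39, nat_lit 31240233024), (nat_lit 40, nat_lit 32313974784), (nat_lit 73, nat_lit 32297197632), (nat_lit 114, nat_lit 33370939392)]⟩,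
   ⟨V6_26928484416, [(nat_lit 119, nat_lit 30183268416), (nat_lit 11, nat_lit 31257006144), (nat_lit 79, nat_lit 31240233024), (nat_lit 115, nat_lit 32313970752), (nat_lit 108, nat_lit 32297197632), (nat_lit 6, nat_lit 33370935360)]⟩],
  [W_30132408320, W_29075443712, W_29058928640, W_27985448960, W_26911711232, W_25887776768, W_24797782016]⟩
theorem C_30183268416 : chkRec R_30183268416 = true := by decide +kernel

noncomputable def R_30183272448 : Rec := ⟨nat_lit 30183272448, nat_lit 25,
  [⟨V6_26911715328, [(nat_lit 86, nat_lit 30183272448), (nat_lit 74, nat_lit 31240237056), (nat_lit 23, nat_lit 32297201664), (nat_lit 85, nat_lit 33354166272)]⟩,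
   ⟨V6_23740821504, [(nat_lit 84, nat_lit 30183272448)]⟩],
  [W_30132666368, W_29075701760, W_28018737152, W_28001964032, W_25888292864, W_25871261696]⟩
theorem C_30183272448 : chkRec R_30183272448 = true := by decide +kernel

noncomputable def R_30183526464 : Rec := ⟨nat_lit 30183526464, nat_lit 12,
  [⟨V6_28035256320, [(nat_lit 38, nat_lit 30183526464), (nat_lit 82, nat_lit 31257268224), (nat_lit 24, nat_lit 31257006144), (nat_lit 114, nat_lit 32330747904), (nat_lit 76, nat_lit 32330485824), (nat_lit 85, nat_lit 33404227584), (nat_lit 70, nat_lit 33403965504), (nat_lit 59, nat_lit 34477707264)]⟩,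
   ⟨V6_26961514560, [(nat_lit 32, nat_lit 30183526464), (nat_lit 36, nat_lit 31257006144), (nat_lit 54, nat_lit 32330485824), (nat_lit 39, nat_lit 33403965504)]⟩,
   ⟨V6_26928484416, [(nat_lit 108, nat_lit 30183526464), (nat_lit 77, nat_lit 31257006144), (nat_lit 121, nat_lit 31240491072), (nat_lit 19, nat_lit 32313970752), (nat_lit 99, nat_lit 32297455680), (nat_lit 90, nat_lit 33370935360)]⟩,
   ⟨V6_25855004736, [(nat_lit 51, nat_lit 30183526464), (nat_lit 3, nat_lit 31240491072), (nat_lit 102, nat_lit 32297455680)]⟩],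
  [W_26928484352, W_24798040064, W_22667333696]⟩
theorem C_30183526464 : chkRec R_30183526464 = true := by decide +kernel

noncomputable def R_30183530496 : Rec := ⟨nat_lit 30183530496, nat_lit 32,
  [⟨V6_26961518592, [(nat_lit 15, nat_lit 30183530496), (nat_lit 1, nat_lit 31257010176), (nat_lit 65, nat_lit 32330489856), (nat_lit 54, nat_lit 33403969536)]⟩,
   ⟨V6_26928488448, [(nat_lit 110, nat_lit 30183530496), (nat_lit 109, nat_lit 31257010176), (nat_lit 8, nat_lit 31240495104), (nat_lit 17, nat_lit 32313974784), (nat_lit 122, nat_lit 32297459712), (nat_lit 7, nat_lit 33370939392)]⟩,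
   ⟨V6_24798044160, [(nat_lit 36, nat_lit 30183530496), (nat_lit 1, nat_lit 31240495104)]⟩],
  [W_29075443712, W_28018737152, W_28002222080, W_25888292864, W_25871777792, W_24814813184]⟩
theorem C_30183530496 : chkRec R_30183530496 = true := by decide +kernel

noncomputable def R_30183788544 : Rec := ⟨nat_lit 30183788544, nat_lit 26,
  [⟨V6_24798302208, [(nat_lit 90, nat_lit 30183788544), (nat_lit 66, nat_lit 31240753152)]⟩,
   ⟨V6_23741337600, [(nat_lit 81, nat_lit 30183788544)]⟩],
  [W_30165696512, W_29092216832, W_28035252224, W_28034994176, W_28018737152, W_28018479104, W_25871777792]⟩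
theorem C_30183788544 : chkRec R_30183788544 = true := by decide +kernel

noncomputable def R_30184046592 : Rec := ⟨nat_lit 30184046592, nat_lit 6,
  [⟨V6_30182473728, [(nat_lit 54, nat_lit 30184046592), (nat_lit 7, nat_lit 31257526272), (nat_lit 34, nat_lit 32331005952), (nat_lit 2, nat_lit 33404485632), (nat_lit 55, nat_lit 34477965312), (nat_lit 6, nat_lit 35551444992), (nat_lit 91, nat_lit 36624924672)]⟩,
   ⟨V6_23741595648, [(nat_lit 4, nat_lit 30184046592)]⟩],
  [W_23741333504]⟩
theorem C_30184046592 : chkRec R_30184046592 = true := by decide +kernel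

noncomputable def R_30199521345 : Rec := ⟨nat_lit 30199521345, nat_lit 1,
  [⟨V6_24814035009, [(nat_lit 47, nat_lit 30199521345), (nat_lit 12, nat_lit 31256485953)]⟩],
  [W_27984928832]⟩
theorem C_30199521345 : chkRec R_30199521345 = true := by decide +kernel

noncomputable def R_30199521408 : Rec := ⟨nat_lit 30199521408, nat_lit 11,
  [⟨V6_25904553984, [(nat_lit 46, nat_lit 30199521408), (nat_lit 99, nat_lit 31273263168), (nat_lit 115, nat_lit 32347004928)]⟩],
  [W_30115635200, W_29025116288, W_24830812160]⟩
theorem C_30199521408 : chkRec R_30199521408 = true := by decide +kernel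

noncomputable def R_30199779393 : Rec := ⟨nat_lit 30199779393, nat_lit 1,
  [⟨V6_23757328449, [(nat_lit 68, nat_lit 30199779393)]⟩],
  [W_26928222272]⟩
theorem C_30199779393 : chkRec R_30199779393 = true := by decide +kernel

noncomputable def R_30199783488 : Rec := ⟨nat_lit 30199783488, nat_lit 20,
  [⟨V6_24831074304, [(nat_lit 18, nat_lit 30199783488), (nat_lit 33, nat_lit 31273525248)]⟩,
   ⟨V6_24831070272, [(nat_lit 48, nat_lit 30199783488), (nat_lit 114, nat_lit 31273521216)]⟩],
  [W_30115635200, W_29075443712, W_29058928640, W_29058670592, W_28018479104, W_27984928832, W_25887776768, W_23757070400]⟩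
theorem C_30199783488 : chkRec R_30199783488 = true := by decide +kernel

noncomputable def R_30199787520 : Rec := ⟨nat_lit 30199787520, nat_lit 11,
  [⟨V6_24831074304, [(nat_lit 62, nat_lit 30199787520), (nat_lit 126, nat_lit 31273525248)]⟩],
  [W_30132666368, W_29058928640, W_28018737152, W_28001964032, W_27985190912]⟩
theorem C_30199787520 : chkRec R_30199787520 = true := by decide +kernel

noncomputable def R_30200041536 : Rec := ⟨nat_lit 30200041536, nat_lit 13,
  [⟨V6_28051771392, [(nat_lit 31, nat_lit 30200041536), (nat_lit 111, nat_lit 31273783296), (nat_lit 104, nat_lit 31273521216), (nat_lit 11, nat_lit 32347262976), (nat_lit 20, nat_lit 32347000896), (nat_lit 126, nat_lit 33420742656), (nat_lit 102, nat_lit 33420480576), (nat_lit 53, nat_lit 34494222336)]⟩,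
   ⟨V6_28001964096, [(nat_lit 37, nat_lit 30200041536), (nat_lit 32, nat_lit 31273521216), (nat_lit 72, nat_lit 31257006144), (nat_lit 58, nat_lit 32330485824), (nat_lit 115, nat_lit 32313970752), (nat_lit 80, nat_lit 33387450432), (nat_lit 47, nat_lit 33370935360), (nat_lit 92, nat_lit 34444415040)]⟩,
   ⟨V6_26961514560, [(nat_lit 44, nat_lit 30200041536), (nat_lit 4, nat_lit 31273521216), (nat_lit 102, nat_lit 31257006144), (nat_lit 53, nat_lit 32347000896), (nat_lit 1, nat_lit 32330485824), (nat_lit 10, nat_lit 33403965504)]⟩,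
   ⟨V6_26928484416, [(nat_lit 122, nat_lit 30200041536), (nat_lit 70, nat_lit 31257006144), (nat_lit 25, nat_lit 32313970752), (nat_lit 113, nat_lit 33370935360)]⟩,
   ⟨V6_25904549952, [(nat_lit 59, nat_lit 30200041536), (nat_lit 92, nat_lit 31273521216), (nat_lit 62, nat_lit 32347000896)]⟩,
   ⟨V6_24831070272, [(nat_lit 89, nat_lit 30200041536), (nat_lit 86, nat_lit 31273521216)]⟩],
  [W_30132408320, W_29075443712, W_23757590528]⟩
theorem C_30200041536 : chkRec R_30200041536 = true := by decide +kernel

noncomputable def R_30200045568 : Rec := ⟨nat_lit 30200045568, nat_lit 53,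
  [⟨V6_26961518592, [(nat_lit 20, nat_lit 30200045568), (nat_lit 48, nat_lit 31273525248), (nat_lit 81, nat_lit 31257010176), (nat_lit 1, nat_lit 32347004928), (nat_lit 12, nat_lit 32330489856), (nat_lit 120, nat_lit 33403969536)]⟩,
   ⟨V6_26928488448, [(nat_lit 86, nat_lit 30200045568), (nat_lit 66, nat_lit 31257010176), (nat_lit 78, nat_lit 32313974784), (nat_lit 63, nat_lit 33370939392)]⟩,
   ⟨V6_25904553984, [(nat_lit 68, nat_lit 30200045568), (nat_lit 35, nat_lit 31273525248), (nat_lit 65, nat_lit 32347004928)]⟩,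
   ⟨V6_24831074304, [(nat_lit 39, nat_lit 30200045568), (nat_lit 12, nat_lit 31273525248)]⟩],
  [W_30132408320, W_29059186688, W_28018737152, W_28002222080, W_25888292864, W_24831070208, W_22683852800]⟩
theorem C_30200045568 : chkRec R_30200045568 = true := by decide +kernel

noncomputable def R_30200303616 : Rec := ⟨nat_lit 30200303616, nat_lit 39,
  [⟨V6_29125509120, [(nat_lit 49, nat_lit 30200303616), (nat_lit 108, nat_lit 31274041344), (nat_lit 117, nat_lit 31273783296), (nat_lit 117, nat_lit 32347521024), (nat_lit 35, nat_lit 32347262976), (nat_lit 122, nat_lit 33421000704), (nat_lit 84, nat_lit 33420742656), (nat_lit 50, nat_lit 34494480384), (nat_lit 113, nat_lit 34494222336), (nat_lit 3, nat_lit 35567960064)]⟩,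
   ⟨V6_29108736000, [(nat_lit 8, nat_lit 30200303616), (nat_lit 56, nat_lit 31273783296), (nat_lit 124, nat_lit 31257268224), (nat_lit 93, nat_lit 32347262976), (nat_lit 3, nat_lit 32330747904), (nat_lit 76, nat_lit 33420742656), (nat_lit 120, nat_lit 33404227584), (nat_lit 23, nat_lit 34494222336), (nat_lit 40, nat_lit 34477707264), (nat_lit 109, nat_lit 35551186944)]⟩,
   ⟨V6_28052029440, [(nat_lit 118, nat_lit 30200303616), (nat_lit 18, nat_lit 31274041344), (nat_lit 99, nat_lit 31273783296), (nat_lit 16, nat_lit 32347521024), (nat_lit 17, nat_lit 32347262976), (nat_lit 61, nat_lit 33421000704), (nat_lit 88, nat_lit 33420742656), (nat_lit 34, nat_lit 34494480384)]⟩,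
   ⟨V6_28051771392, [(nat_lit 106, nat_lit 30200303616), (nat_lit 45, nat_lit 31273783296), (nat_lit 67, nat_lit 32347262976), (nat_lit 72, nat_lit 33420742656), (nat_lit 124, nat_lit 34494222336)]⟩,
   ⟨V6_26928746496, [(nat_lit 59, nat_lit 30200303616), (nat_lit 63, nat_lit 31257268224), (nat_lit 86, nat_lit 32314232832), (nat_lit 89, nat_lit 33371197440)]⟩,
   ⟨V6_24831590400, [(nat_lit 41, nat_lit 30200303616), (nat_lit 12, nat_lit 31274041344)]⟩],
  [W_26928484352, W_25888292864, W_24831070208, W_24798040064, W_23757848576]⟩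
theorem C_30200303616 : chkRec R_30200303616 = true := by decide +kernel

noncomputable def R_30200561664 : Rec := ⟨nat_lit 30200561664, nat_lit 33,
  [⟨V6_29125509120, [(nat_lit 98, nat_lit 30200561664), (nat_lit 108, nat_lit 31274041344), (nat_lit 123, nat_lit 32347521024), (nat_lit 126, nat_lit 33421000704), (nat_lit 5, nat_lit 34494480384), (nat_lit 56, nat_lit 35567960064)]⟩,
   ⟨V6_25872039936, [(nat_lit 22, nat_lit 30200561664), (nat_lit 93, nat_lit 31257526272), (nat_lit 63, nat_lit 32314490880)]⟩,
   ⟨V6_24831590400, [(nat_lit 31, nat_lit 30200561664), (nat_lit 12, nat_lit 31274041344)]⟩],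
  [W_30182211584, W_24798298112, W_23757848576, W_23741333504]⟩
theorem C_30200561664 : chkRec R_30200561664 = true := by decide +kernel

noncomputable def R_30216298560 : Rec := ⟨nat_lit 30216298560, nat_lit 14,
  [⟨V6_24847589376, [(nat_lit 13, nat_lit 30216298560), (nat_lit 45, nat_lit 31290040320)]⟩,
   ⟨V6_24847585344, [(nat_lit 45, nat_lit 30216298560), (nat_lit 91, nat_lit 31290036288)]⟩],
  [W_30132408320, W_30115635200, W_29075443712, W_29058670592, W_27984928832, W_25904549888]⟩
theorem C_30216298560 : chkRec R_30216298560 = true := by decide +kernel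

noncomputable def R_30216556608 : Rec := ⟨nat_lit 30216556608, nat_lit 11,
  [⟨V6_28001964096, [(nat_lit 69, nat_lit 30216556608), (nat_lit 90, nat_lit 31273521216), (nat_lit 97, nat_lit 32330485824), (nat_lit 45, nat_lit 33387450432), (nat_lit 10, nat_lit 34444415040)]⟩,
   ⟨V6_23774105664, [(nat_lit 88, nat_lit 30216556608)]⟩],
  [W_28034994176, W_26978029568, W_25921064960, W_25904549888]⟩
theorem C_30216556608 : chkRec R_30216556608 = true := by decide +kernel

noncomputable def R_30216560640 : Rec := ⟨nat_lit 30216560640, nat_lit 37,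
  [⟨V6_24847589376, [(nat_lit 31, nat_lit 30216560640), (nat_lit 21, nat_lit 31290040320)]⟩,
   ⟨V6_24831074304, [(nat_lit 64, nat_lit 30216560640), (nat_lit 45, nat_lit 31273525248)]⟩],
  [W_30132666368, W_30132408320, W_30115635200, W_29075443712, W_29058928640, W_29058670592, W_28018737152, W_28001964032, W_26978287616, W_25921323008]⟩
theorem C_30216560640 : chkRec R_30216560640 = true := by decide +kernel

noncomputable def R_30216818688 : Rec := ⟨nat_lit 30216818688, nat_lit 48,
  [⟨V6_30132928512, [(nat_lit 20, nat_lit 30216818688), (nat_lit 19, nat_lit 31290556416), (nat_lit 119, nat_lit 31273783296), (nat_lit 9, nat_lit 32347521024), (nat_lit 67, nat_lit 32330747904), (nat_lit 112, nat_lit 33404485632), (nat_lit 48, nat_lit 33387712512), (nat_lit 115, nat_lit 34461450240), (nat_lit 10, nat_lit 34444677120), (nat_lit 12, nat_lit 35518414848), (nat_lit 13, nat_lit 35501641728), (nat_lit 122, nat_lit 36575379456)]⟩,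
   ⟨V6_29059190784, [(nat_lit 69, nat_lit 30216818688), (nat_lit 87, nat_lit 31273783296), (nat_lit 15, nat_lit 32330747904), (nat_lit 36, nat_lit 33387712512), (nat_lit 47, nat_lit 34444677120), (nat_lit 96, nat_lit 35501641728)]⟩,
   ⟨V6_28068544512, [(nat_lit 80, nat_lit 30216818688), (nat_lit 27, nat_lit 31290556416), (nat_lit 72, nat_lit 31290298368), (nat_lit 31, nat_lit 32364036096), (nat_lit 5, nat_lit 32363778048), (nat_lit 56, nat_lit 33437515776), (nat_lit 116, nat_lit 33437257728), (nat_lit 22, nat_lit 34510995456)]⟩,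
   ⟨V6_28051771392, [(nat_lit 25, nat_lit 30216818688), (nat_lit 15, nat_lit 31290298368), (nat_lit 113, nat_lit 31273783296), (nat_lit 122, nat_lit 32363778048), (nat_lit 32, nat_lit 32347262976), (nat_lit 17, nat_lit 33437257728), (nat_lit 102, nat_lit 33420742656), (nat_lit 42, nat_lit 34494222336)]⟩,
   ⟨V6_26994806784, [(nat_lit 49, nat_lit 30216818688), (nat_lit 30, nat_lit 31290298368), (nat_lit 65, nat_lit 32363778048), (nat_lit 120, nat_lit 33437257728)]⟩,
   ⟨V6_25921585152, [(nat_lit 24, nat_lit 30216818688), (nat_lit 116, nat_lit 31290556416), (nat_lit 32, nat_lit 31290298368), (nat_lit 117, nat_lit 32364036096)]⟩,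
   ⟨V6_25921327104, [(nat_lit 107, nat_lit 30216818688), (nat_lit 42, nat_lit 31290298368), (nat_lit 78, nat_lit 32363778048)]⟩],
  [W_29059186688, W_27985448960, W_25921323008, W_25888292864, W_24847843328, W_24831070208]⟩
theorem C_30216818688 : chkRec R_30216818688 = true := by decide +kernel

noncomputable def R_30217076736 : Rec := ⟨nat_lit 30217076736, nat_lit 34,
  [⟨V6_25921585152, [(nat_lit 84, nat_lit 30217076736), (nat_lit 89, nat_lit 31290556416), (nat_lit 39, nat_lit 32364036096)]⟩,
   ⟨V6_24831590400, [(nat_lit 112, nat_lit 30217076736), (nat_lit 47, nat_lit 31274041344)]⟩],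
  [W_30149181440, W_29125246976, W_29092216832, W_29075701760, W_28068282368, W_28002222080, W_25871777792, W_24814813184]⟩
theorem C_30217076736 : chkRec R_30217076736 = true := by decide +kernel

noncomputable def R_30233071680 : Rec := ⟨nat_lit 30233071680, nat_lit 6,
  [⟨V6_26961514560, [(nat_lit 25, nat_lit 30233071680), (nat_lit 67, nat_lit 31290036288), (nat_lit 103, nat_lit 32347000896), (nat_lit 122, nat_lit 33403965504)]⟩,
   ⟨V6_23790620736, [(nat_lit 125, nat_lit 30233071680)]⟩],
  [W_30132408320, W_25921064960, W_24864100352]⟩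
theorem C_30233071680 : chkRec R_30233071680 = true := by decide +kernel

noncomputable def R_30233075712 : Rec := ⟨nat_lit 30233075712, nat_lit 28,
  [⟨V6_24847589376, [(nat_lit 28, nat_lit 30233075712), (nat_lit 82, nat_lit 31290040320)]⟩,
   ⟨V6_23790624768, [(nat_lit 27, nat_lit 30233075712)]⟩],
  [W_30149181440, W_30132408320, W_30115635200, W_29092216832, W_29075443712, W_29058670592, W_28018479104, W_25921323008]⟩
theorem C_30233075712 : chkRec R_30233075712 = true := by decide +kernel

noncomputable def R_30233333760 : Rec := ⟨nat_lit 30233333760, nat_lit 37,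
  [⟨V6_26994806784, [(nat_lit 63, nat_lit 30233333760), (nat_lit 96, nat_lit 31306813440), (nat_lit 64, nat_lit 31290298368), (nat_lit 80, nat_lit 32380293120), (nat_lit 96, nat_lit 32363778048), (nat_lit 81, nat_lit 33437257728)]⟩,
   ⟨V6_25938100224, [(nat_lit 122, nat_lit 30233333760), (nat_lit 82, nat_lit 31307071488), (nat_lit 72, nat_lit 31306813440), (nat_lit 94, nat_lit 32380551168)]⟩,
   ⟨V6_25937842176, [(nat_lit 2, nat_lit 30233333760), (nat_lit 33, nat_lit 31306813440), (nat_lit 17, nat_lit 32380293120)]⟩,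
   ⟨V6_24864362496, [(nat_lit 126, nat_lit 30233333760), (nat_lit 28, nat_lit 31306813440)]⟩],
  [W_30132666368, W_30132408320, W_29108731904, W_29092216832, W_29075701760, W_29058928640, W_28018737152, W_23790878720]⟩
theorem C_30233333760 : chkRec R_30233333760 = true := by decide +kernel

noncomputable def R_30233591808 : Rec := ⟨nat_lit 30233591808, nat_lit 46,
  [⟨V6_30132928512, [(nat_lit 58, nat_lit 30233591808), (nat_lit 25, nat_lit 31290556416), (nat_lit 7, nat_lit 32347521024), (nat_lit 95, nat_lit 33404485632), (nat_lit 34, nat_lit 34461450240), (nat_lit 42, nat_lit 35518414848), (nat_lit 39, nat_lit 36575379456)]⟩,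
   ⟨V6_27011579904, [(nat_lit 58, nat_lit 30233591808), (nat_lit 7, nat_lit 31307071488), (nat_lit 121, nat_lit 32380551168), (nat_lit 28, nat_lit 33454030848)]⟩,
   ⟨V6_25938100224, [(nat_lit 57, nat_lit 30233591808), (nat_lit 20, nat_lit 31307071488), (nat_lit 19, nat_lit 32380551168)]⟩,
   ⟨V6_25921585152, [(nat_lit 18, nat_lit 30233591808), (nat_lit 60, nat_lit 31307071488), (nat_lit 39, nat_lit 31290556416), (nat_lit 11, nat_lit 32364036096)]⟩],
  [W_29059186688, W_28068282368, W_25888292864, W_24864358400, W_23790878720]⟩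
theorem C_30233591808 : chkRec R_30233591808 = true := by decide +kernel

noncomputable def R_30249586752 : Rec := ⟨nat_lit 30249586752, nat_lit 1,
  [⟨V6_23807135808, [(nat_lit 43, nat_lit 30249586752)]⟩],
  [W_28034994176]⟩
theorem C_30249586752 : chkRec R_30249586752 = true := by decide +kernel

noncomputable def R_30249848832 : Rec := ⟨nat_lit 30249848832, nat_lit 26,
  [⟨V6_29108736000, [(nat_lit 30, nat_lit 30249848832), (nat_lit 119, nat_lit 31323328512), (nat_lit 49, nat_lit 31306813440), (nat_lit 89, nat_lit 32380293120), (nat_lit 117, nat_lit 32363778048), (nat_lit 72, nat_lit 33437257728), (nat_lit 34, nat_lit 33420742656), (nat_lit 67, nat_lit 34494222336), (nat_lit 39, nat_lit 34477707264), (nat_lit 39, nat_lit 35551186944)]⟩,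
   ⟨V6_26994806784, [(nat_lit 2, nat_lit 30249848832), (nat_lit 3, nat_lit 31323328512), (nat_lit 50, nat_lit 31306813440), (nat_lit 95, nat_lit 32380293120), (nat_lit 6, nat_lit 32363778048), (nat_lit 116, nat_lit 33437257728)]⟩,
   ⟨V6_24881135616, [(nat_lit 27, nat_lit 30249848832), (nat_lit 11, nat_lit 31323586560)]⟩,
   ⟨V6_24880877568, [(nat_lit 36, nat_lit 30249848832), (nat_lit 24, nat_lit 31323328512)]⟩],
  [W_30165696512, W_30149181440, W_29108731904, W_29092216832, W_29075443712, W_23790620672]⟩
theorem C_30249848832 : chkRec R_30249848832 = true := by decide +kernel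

noncomputable def R_30250106880 : Rec := ⟨nat_lit 30250106880, nat_lit 33,
  [⟨V6_25921585152, [(nat_lit 22, nat_lit 30250106880), (nat_lit 1, nat_lit 31307071488), (nat_lit 79, nat_lit 32364036096)]⟩,
   ⟨V6_24881135616, [(nat_lit 97, nat_lit 30250106880), (nat_lit 78, nat_lit 31323586560)]⟩],
  [W_30182211584, W_30149181440, W_30132666368, W_29125246976, W_29108731904, W_29075701760, W_28068282368, W_22733914112]⟩
theorem C_30250106880 : chkRec R_30250106880 = true := by decide +kernel

noncomputable def R_30266363904 : Rec := ⟨nat_lit 30266363904, nat_lit 6,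
  [⟨V6_24897650688, [(nat_lit 37, nat_lit 30266363904), (nat_lit 48, nat_lit 31340101632)]⟩,
   ⟨V6_23823912960, [(nat_lit 67, nat_lit 30266363904)]⟩],
  [W_30165696512, W_29108731904, W_28034994176]⟩
theorem C_30266363904 : chkRec R_30266363904 = true := by decide +kernel

noncomputable def R_30266621952 : Rec := ⟨nat_lit 30266621952, nat_lit 29,
  [⟨V6_25971130368, [(nat_lit 53, nat_lit 30266621952), (nat_lit 13, nat_lit 31340101632), (nat_lit 111, nat_lit 32413581312)]⟩,
   ⟨V6_24897650688, [(nat_lit 38, nat_lit 30266621952), (nat_lit 110, nat_lit 31340101632)]⟩,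
   ⟨V6_24881135616, [(nat_lit 106, nat_lit 30266621952), (nat_lit 14, nat_lit 31323586560)]⟩],
  [W_30182211584, W_30165696512, W_30149181440, W_29125246976, W_29092216832, W_25921323008]⟩
theorem C_30266621952 : chkRec R_30266621952 = true := by decide +kernel

noncomputable def R_30283137024 : Rec := ⟨nat_lit 30283137024, nat_lit 14,
  [⟨V6_25971130368, [(nat_lit 38, nat_lit 30283137024), (nat_lit 88, nat_lit 31356616704), (nat_lit 78, nat_lit 31340101632), (nat_lit 112, nat_lit 32413581312)]⟩,
   ⟨V6_24897650688, [(nat_lit 123, nat_lit 30283137024), (nat_lit 25, nat_lit 31340101632)]⟩],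
  [W_30165696512, W_29125246976, W_29108731904, W_28051767296]⟩
theorem C_30283137024 : chkRec R_30283137024 = true := by decide +kernel

noncomputable def R_30299652096 : Rec := ⟨nat_lit 30299652096, nat_lit 9,
  [⟨V6_25971130368, [(nat_lit 124, nat_lit 30299652096), (nat_lit 20, nat_lit 31356616704), (nat_lit 105, nat_lit 32413581312)]⟩,
   ⟨V6_23857201152, [(nat_lit 43, nat_lit 30299652096)]⟩],
  [W_30182211584, W_29125246976, W_28068282368]⟩
theorem C_30299652096 : chkRec R_30299652096 = true := by decide +kernel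

noncomputable def R_31206678657 : Rec := ⟨nat_lit 31206678657, nat_lit 1,
  [⟨V6_26911187073, [(nat_lit 102, nat_lit 31206678657), (nat_lit 32, nat_lit 32280158337), (nat_lit 105, nat_lit 33353638017)]⟩],
  [W_27984928832]⟩
theorem C_31206678657 : chkRec R_31206678657 = true := by decide +kernel

noncomputable def R_31206682752 : Rec := ⟨nat_lit 31206682752, nat_lit 1,
  [⟨V6_24764231808, [(nat_lit 117, nat_lit 31206682752)]⟩],
  [W_27985190912]⟩
theorem C_31206682752 : chkRec R_31206682752 = true := by decide +kernel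

noncomputable def R_31206686784 : Rec := ⟨nat_lit 31206686784, nat_lit 2,
  [⟨V6_24764235840, [(nat_lit 24, nat_lit 31206686784)]⟩],
  [W_27985448960]⟩
theorem C_31206686784 : chkRec R_31206686784 = true := by decide +kernel

noncomputable def R_31222931586 : Rec := ⟨nat_lit 31222931586, nat_lit 1,
  [⟨V6_25854222465, [(nat_lit 19, nat_lit 31222931586), (nat_lit 123, nat_lit 32296673409)]⟩],
  [W_29025116288]⟩
theorem C_31222931586 : chkRec R_31222931586 = true := by decide +kernel

noncomputable def R_31223193729 : Rec := ⟨nat_lit 31223193729, nat_lit 1,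
  [⟨V6_25854222465, [(nat_lit 3, nat_lit 31223193729), (nat_lit 2, nat_lit 32296673409)]⟩],
  [W_27984928832]⟩
theorem C_31223193729 : chkRec R_31223193729 = true := by decide +kernel

noncomputable def R_31223455809 : Rec := ⟨nat_lit 31223455809, nat_lit 1,
  [⟨V6_26928484416, [(nat_lit 112, nat_lit 31223455809), (nat_lit 16, nat_lit 32297197632), (nat_lit 111, nat_lit 32297193537), (nat_lit 70, nat_lit 33370935360)]⟩],
  [W_27984928832]⟩
theorem C_31223455809 : chkRec R_31223455809 = true := by decide +kernel

noncomputable def R_31223455872 : Rec := ⟨nat_lit 31223455872, nat_lit 5,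
  [⟨V6_26928488448, [(nat_lit 82, nat_lit 31223455872), (nat_lit 68, nat_lit 32297197632), (nat_lit 102, nat_lit 33370939392)]⟩],
  [W_29058670592, W_27984928832, W_26911187072, W_24764227712]⟩
theorem C_31223455872 : chkRec R_31223455872 = true := by decide +kernel

noncomputable def R_31223459904 : Rec := ⟨nat_lit 31223459904, nat_lit 5,
  [⟨V6_26928484416, [(nat_lit 16, nat_lit 31223459904), (nat_lit 58, nat_lit 32297197632), (nat_lit 74, nat_lit 33370935360)]⟩,
   ⟨V6_26911715328, [(nat_lit 117, nat_lit 31223459904), (nat_lit 65, nat_lit 32297201664), (nat_lit 19, nat_lit 32280424512), (nat_lit 34, nat_lit 33354166272)]⟩],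
  [W_28001964032, W_26911711232]⟩
theorem C_31223459904 : chkRec R_31223459904 = true := by decide +kernel

noncomputable def R_31223463936 : Rec := ⟨nat_lit 31223463936, nat_lit 5,
  [⟨V6_26928488448, [(nat_lit 43, nat_lit 31223463936), (nat_lit 104, nat_lit 32297201664), (nat_lit 126, nat_lit 33370939392)]⟩],
  [W_29059186688, W_24764235776]⟩
theorem C_31223463936 : chkRec R_31223463936 = true := by decide +kernel

noncomputable def R_31223713857 : Rec := ⟨nat_lit 31223713857, nat_lit 1,
  [⟨V6_24781262913, [(nat_lit 9, nat_lit 31223713857)]⟩],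
  [W_26928222272]⟩
theorem C_31223713857 : chkRec R_31223713857 = true := by decide +kernel

noncomputable def R_31223717952 : Rec := ⟨nat_lit 31223717952, nat_lit 4,
  [⟨V6_26928484416, [(nat_lit 72, nat_lit 31223717952), (nat_lit 94, nat_lit 32297455680), (nat_lit 96, nat_lit 32297197632), (nat_lit 97, nat_lit 33370935360)]⟩,
   ⟨V6_25855004736, [(nat_lit 32, nat_lit 31223717952), (nat_lit 93, nat_lit 32297455680)]⟩],
  [W_29075443712, W_28001705984]⟩
theorem C_31223717952 : chkRec R_31223717952 = true := by decide +kernel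

noncomputable def R_31223721984 : Rec := ⟨nat_lit 31223721984, nat_lit 2,
  [⟨V6_24781271040, [(nat_lit 65, nat_lit 31223721984)]⟩],
  [W_28001964032]⟩
theorem C_31223721984 : chkRec R_31223721984 = true := by decide +kernel

noncomputable def R_31239708801 : Rec := ⟨nat_lit 31239708801, nat_lit 2,
  [⟨V6_26911187073, [(nat_lit 118, nat_lit 31239708801), (nat_lit 116, nat_lit 32296673409), (nat_lit 2, nat_lit 33353638017)]⟩,
   ⟨V6_25854222465, [(nat_lit 112, nat_lit 31239708801), (nat_lit 113, nat_lit 32296673409)]⟩],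
  [W_25870999616]⟩
theorem C_31239708801 : chkRec R_31239708801 = true := by decide +kernel

noncomputable def R_31239970881 : Rec := ⟨nat_lit 31239970881, nat_lit 1,
  [⟨V6_26944999488, [(nat_lit 7, nat_lit 31239970881), (nat_lit 1, nat_lit 32313712704), (nat_lit 126, nat_lit 32313708609), (nat_lit 52, nat_lit 33387450432)]⟩],
  [W_27984928832]⟩
theorem C_31239970881 : chkRec R_31239970881 = true := by decide +kernel

noncomputable def R_31239970944 : Rec := ⟨nat_lit 31239970944, nat_lit 6,
  [⟨V6_28018483200, [(nat_lit 6, nat_lit 31239970944), (nat_lit 120, nat_lit 32313712704), (nat_lit 114, nat_lit 32313450624), (nat_lit 99, nat_lit 33387454464), (nat_lit 25, nat_lit 33387192384), (nat_lit 22, nat_lit 34460934144)]⟩],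
  [W_26911187072, W_25871261696]⟩
theorem C_31239970944 : chkRec R_31239970944 = true := by decide +kernel

noncomputable def R_31239974976 : Rec := ⟨nat_lit 31239974976, nat_lit 2,
  [⟨V6_26944999488, [(nat_lit 104, nat_lit 31239974976), (nat_lit 123, nat_lit 32313712704), (nat_lit 100, nat_lit 33387450432)]⟩,
   ⟨V6_26928230400, [(nat_lit 98, nat_lit 31239974976), (nat_lit 35, nat_lit 32313716736), (nat_lit 115, nat_lit 32296939584), (nat_lit 95, nat_lit 33370681344)]⟩],
  [W_29058928640, W_27985190912]⟩
theorem C_31239974976 : chkRec R_31239974976 = true := by decide +kernel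

noncomputable def R_31240233024 : Rec := ⟨nat_lit 31240233024, nat_lit 13,
  [⟨V6_28018483200, [(nat_lit 76, nat_lit 31240233024), (nat_lit 80, nat_lit 32313974784), (nat_lit 65, nat_lit 32313712704), (nat_lit 10, nat_lit 33387454464), (nat_lit 98, nat_lit 33387192384), (nat_lit 76, nat_lit 34460934144)]⟩,
   ⟨V6_26944741440, [(nat_lit 80, nat_lit 31240233024), (nat_lit 50, nat_lit 32313712704), (nat_lit 45, nat_lit 33387192384)]⟩,
   ⟨V6_26928484416, [(nat_lit 66, nat_lit 31240233024), (nat_lit 44, nat_lit 32313970752), (nat_lit 40, nat_lit 32297197632), (nat_lit 100, nat_lit 33370935360)]⟩],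
  [W_29058928640, W_27985448960, W_26911711232, W_24797782016]⟩
theorem C_31240233024 : chkRec R_31240233024 = true := by decide +kernel

noncomputable def R_31240237056 : Rec := ⟨nat_lit 31240237056, nat_lit 14,
  [⟨V6_30132928512, [(nat_lit 44, nat_lit 31240237056), (nat_lit 48, nat_lit 32313974784), (nat_lit 95, nat_lit 32297201664), (nat_lit 52, nat_lit 33387712512), (nat_lit 56, nat_lit 33370939392), (nat_lit 104, nat_lit 33354166272), (nat_lit 2, nat_lit 34461450240), (nat_lit 37, nat_lit 34444677120), (nat_lit 26, nat_lit 34427904000), (nat_lit 85, nat_lit 35518414848), (nat_lit 71, nat_lit 35501641728), (nat_lit 29, nat_lit 36575379456)]⟩,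
   ⟨V6_26928488448, [(nat_lit 87, nat_lit 31240237056), (nat_lit 69, nat_lit 32313974784), (nat_lit 13, nat_lit 32297201664), (nat_lit 58, nat_lit 33370939392)]⟩,
   ⟨V6_26911715328, [(nat_lit 65, nat_lit 31240237056), (nat_lit 23, nat_lit 32297201664), (nat_lit 42, nat_lit 33354166272)]⟩],
  [W_28018737152, W_24797782016]⟩
theorem C_31240237056 : chkRec R_31240237056 = true := by decide +kernel

noncomputable def R_31240491072 : Rec := ⟨nat_lit 31240491072, nat_lit 4,
  [⟨V6_26928484416, [(nat_lit 96, nat_lit 31240491072), (nat_lit 102, nat_lit 32313970752), (nat_lit 88, nat_lit 32297455680), (nat_lit 40, nat_lit 33370935360)]⟩,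
   ⟨V6_25855004736, [(nat_lit 79, nat_lit 31240491072), (nat_lit 6, nat_lit 32297455680)]⟩],
  [W_29075443712, W_28018479104]⟩
theorem C_31240491072 : chkRec R_31240491072 = true := by decide +kernel

noncomputable def R_31240495104 : Rec := ⟨nat_lit 31240495104, nat_lit 17,
  [⟨V6_24798044160, [(nat_lit 41, nat_lit 31240495104)]⟩],
  [W_29092216832, W_29075443712, W_28018737152, W_28002222080, W_26928484352]⟩
theorem C_31240495104 : chkRec R_31240495104 = true := by decide +kernel

noncomputable def R_31240753152 : Rec := ⟨nat_lit 31240753152, nat_lit 11,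
  [⟨V6_24798302208, [(nat_lit 110, nat_lit 31240753152)]⟩],
  [W_30165696512, W_28018737152, W_28018479104]⟩
theorem C_31240753152 : chkRec R_31240753152 = true := by decide +kernel

noncomputable def R_31256485953 : Rec := ⟨nat_lit 31256485953, nat_lit 1,
  [⟨V6_24814035009, [(nat_lit 49, nat_lit 31256485953)]⟩],
  [W_27984928832]⟩
theorem C_31256485953 : chkRec R_31256485953 = true := by decide +kernel

noncomputable def R_31256486016 : Rec := ⟨nat_lit 31256486016, nat_lit 7,
  [⟨V6_30098858112, [(nat_lit 14, nat_lit 31256486016), (nat_lit 84, nat_lit 32313450624), (nat_lit 8, nat_lit 33370415232), (nat_lit 61, nat_lit 34427379840), (nat_lit 87, nat_lit 35484344448), (nat_lit 80, nat_lit 36541309056)]⟩,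
   ⟨V6_24814035072, [(nat_lit 16, nat_lit 31256486016)]⟩],
  [W_31172599808, W_25887776768]⟩
theorem C_31256486016 : chkRec R_31256486016 = true := by decide +kernel

noncomputable def R_31256748096 : Rec := ⟨nat_lit 31256748096, nat_lit 12,
  [⟨V6_26961518592, [(nat_lit 31, nat_lit 31256748096), (nat_lit 38, nat_lit 32330489856), (nat_lit 38, nat_lit 32330227776), (nat_lit 15, nat_lit 33403969536)]⟩,
   ⟨V6_26944741440, [(nat_lit 71, nat_lit 31256748096), (nat_lit 87, nat_lit 32330227776), (nat_lit 104, nat_lit 32313712704), (nat_lit 29, nat_lit 33387192384)]⟩],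
  [W_30132408320, W_29075443712, W_24814297088, W_24814293056]⟩
theorem C_31256748096 : chkRec R_31256748096 = true := by decide +kernel

noncomputable def R_31256752128 : Rec := ⟨nat_lit 31256752128, nat_lit 7,
  [⟨V6_30149443584, [(nat_lit 54, nat_lit 31256752128), (nat_lit 77, nat_lit 32330489856), (nat_lit 42, nat_lit 32313716736), (nat_lit 10, nat_lit 33404227584), (nat_lit 87, nat_lit 33387454464), (nat_lit 27, nat_lit 33370681344), (nat_lit 81, nat_lit 34477965312), (nat_lit 114, nat_lit 34461192192), (nat_lit 73, nat_lit 34444419072), (nat_lit 118, nat_lit 35534929920), (nat_lit 85, nat_lit 35518156800), (nat_lit 79, nat_lit 36591894528)]⟩,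
   ⟨V6_30132670464, [(nat_lit 66, nat_lit 31256752128), (nat_lit 40, nat_lit 32330489856), (nat_lit 12, nat_lit 32313716736), (nat_lit 73, nat_lit 33404227584), (nat_lit 85, nat_lit 33387454464), (nat_lit 77, nat_lit 33370681344), (nat_lit 119, nat_lit 34461192192), (nat_lit 50, nat_lit 34444419072), (nat_lit 111, nat_lit 34427645952), (nat_lit 72, nat_lit 35518156800), (nat_lit 34, nat_lit 35501383680), (nat_lit 51, nat_lit 36575121408)]⟩,
   ⟨V6_29058932736, [(nat_lit 3, nat_lit 31256752128), (nat_lit 5, nat_lit 32330489856), (nat_lit 94, nat_lit 32313716736), (nat_lit 16, nat_lit 33387454464), (nat_lit 108, nat_lit 33370681344), (nat_lit 84, nat_lit 34444419072), (nat_lit 53, nat_lit 34427645952), (nat_lit 107, nat_lit 35501383680)]⟩,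
   ⟨V6_26928230400, [(nat_lit 39, nat_lit 31256752128), (nat_lit 97, nat_lit 32313716736), (nat_lit 12, nat_lit 33370681344)]⟩],
  [W_29058928640, W_25871261696, W_24797523968]⟩
theorem C_31256752128 : chkRec R_31256752128 = true := by decide +kernel

noncomputable def R_31257006144 : Rec := ⟨nat_lit 31257006144, nat_lit 8,
  [⟨V6_28035256320, [(nat_lit 65, nat_lit 31257006144), (nat_lit 35, nat_lit 32330747904), (nat_lit 84, nat_lit 32330485824), (nat_lit 52, nat_lit 33404227584), (nat_lit 27, nat_lit 33403965504), (nat_lit 65, nat_lit 34477707264)]⟩,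
   ⟨V6_26928484416, [(nat_lit 108, nat_lit 31257006144), (nat_lit 83, nat_lit 32313970752), (nat_lit 43, nat_lit 33370935360)]⟩],
  [W_29058928640, W_27985448960, W_26928222272, W_25854742592, W_23740813376]⟩
theorem C_31257006144 : chkRec R_31257006144 = true := by decide +kernel

noncomputable def R_31257010176 : Rec := ⟨nat_lit 31257010176, nat_lit 31,
  [⟨V6_28035256320, [(nat_lit 100, nat_lit 31257010176), (nat_lit 57, nat_lit 32330747904), (nat_lit 98, nat_lit 32330489856), (nat_lit 53, nat_lit 33404227584), (nat_lit 114, nat_lit 33403969536), (nat_lit 20, nat_lit 34477707264)]⟩,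
   ⟨V6_28018483200, [(nat_lit 73, nat_lit 31257010176), (nat_lit 15, nat_lit 32330489856), (nat_lit 4, nat_lit 32313974784), (nat_lit 43, nat_lit 33403969536), (nat_lit 107, nat_lit 33387454464), (nat_lit 32, nat_lit 34460934144)]⟩,
   ⟨V6_26961518592, [(nat_lit 74, nat_lit 31257010176), (nat_lit 78, nat_lit 32330489856), (nat_lit 121, nat_lit 33403969536)]⟩,
   ⟨V6_26928488448, [(nat_lit 65, nat_lit 31257010176), (nat_lit 77, nat_lit 32313974784), (nat_lit 20, nat_lit 33370939392)]⟩],
  [W_29059186688, W_28018737152, W_28002222080, W_25888292864, W_24797782016]⟩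
theorem C_31257010176 : chkRec R_31257010176 = true := by decide +kernel

noncomputable def R_31257268224 : Rec := ⟨nat_lit 31257268224, nat_lit 22,
  [⟨V6_30182473728, [(nat_lit 12, nat_lit 31257268224), (nat_lit 93, nat_lit 32331005952), (nat_lit 116, nat_lit 32330747904), (nat_lit 21, nat_lit 33404485632), (nat_lit 111, nat_lit 33404227584), (nat_lit 88, nat_lit 34477965312), (nat_lit 22, nat_lit 34477707264), (nat_lit 102, nat_lit 35551444992), (nat_lit 5, nat_lit 35551186944), (nat_lit 54, nat_lit 36624924672)]⟩,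
   ⟨V6_30165958656, [(nat_lit 73, nat_lit 31257268224), (nat_lit 109, nat_lit 32331005952), (nat_lit 120, nat_lit 32330747904), (nat_lit 32, nat_lit 32314232832), (nat_lit 84, nat_lit 33404485632), (nat_lit 18, nat_lit 33404227584), (nat_lit 74, nat_lit 33387970560), (nat_lit 47, nat_lit 33387712512), (nat_lit 49, nat_lit 34477965312), (nat_lit 79, nat_lit 34477707264), (nat_lit 56, nat_lit 34461450240), (nat_lit 38, nat_lit 34461192192), (nat_lit 107, nat_lit 35551444992), (nat_lit 80, nat_lit 35534929920), (nat_lit 92, nat_lit 35534671872), (nat_lit 4, nat_lit 36608409600)]⟩,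
   ⟨V6_30149185536, [(nat_lit 25, nat_lit 31257268224), (nat_lit 38, nat_lit 32330747904), (nat_lit 120, nat_lit 32314232832), (nat_lit 64, nat_lit 33404227584), (nat_lit 2, nat_lit 33387712512), (nat_lit 116, nat_lit 33371197440), (nat_lit 31, nat_lit 34477707264), (nat_lit 74, nat_lit 34461192192), (nat_lit 107, nat_lit 34444677120), (nat_lit 59, nat_lit 35534671872), (nat_lit 120, nat_lit 35518156800), (nat_lit 54, nat_lit 36591636480)]⟩,
   ⟨V6_29108736000, [(nat_lit 28, nat_lit 31257268224), (nat_lit 98, nat_lit 32330747904), (nat_lit 91, nat_lit 33404227584), (nat_lit 4, nat_lit 34477707264), (nat_lit 88, nat_lit 35551186944)]⟩,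
   ⟨V6_28035256320, [(nat_lit 37, nat_lit 31257268224), (nat_lit 103, nat_lit 32330747904), (nat_lit 75, nat_lit 33404227584), (nat_lit 31, nat_lit 34477707264)]⟩,
   ⟨V6_26928746496, [(nat_lit 47, nat_lit 31257268224), (nat_lit 42, nat_lit 32314232832), (nat_lit 34, nat_lit 33371197440)]⟩],
  [W_25888292864, W_25871777792, W_24814813184, W_24798040064]⟩
theorem C_31257268224 : chkRec R_31257268224 = true := by decide +kernel

noncomputable def R_31257526272 : Rec := ⟨nat_lit 31257526272, nat_lit 16,
  [⟨V6_30165958656, [(nat_lit 61, nat_lit 31257526272), (nat_lit 73, nat_lit 32331005952), (nat_lit 118, nat_lit 32314490880), (nat_lit 50, nat_lit 33404485632), (nat_lit 71, nat_lit 33387970560), (nat_lit 4, nat_lit 34477965312), (nat_lit 16, nat_lit 34461450240), (nat_lit 121, nat_lit 35551444992), (nat_lit 84, nat_lit 35534929920), (nat_lit 91, nat_lit 36608409600)]⟩,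
   ⟨V6_25872039936, [(nat_lit 74, nat_lit 31257526272), (nat_lit 8, nat_lit 32314490880)]⟩],
  [W_24814813184, W_24798298112, W_23741333504]⟩
theorem C_31257526272 : chkRec R_31257526272 = true := by decide +kernel

noncomputable def R_31273263168 : Rec := ⟨nat_lit 31273263168, nat_lit 10,
  [⟨V6_25904553984, [(nat_lit 37, nat_lit 31273263168), (nat_lit 39, nat_lit 32347004928)]⟩,
   ⟨V6_25904549952, [(nat_lit 93, nat_lit 31273263168), (nat_lit 52, nat_lit 32347000896)]⟩],
  [W_31172599808, W_30132408320, W_30115635200, W_29075443712, W_29058670592, W_27984928832, W_26927964224, W_25887772736]⟩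
theorem C_31273263168 : chkRec R_31273263168 = true := by decide +kernel

noncomputable def R_31273521216 : Rec := ⟨nat_lit 31273521216, nat_lit 6,
  [⟨V6_24831070272, [(nat_lit 100, nat_lit 31273521216)]⟩],
  [W_30132408320, W_28034994176, W_28018479104, W_26978029568]⟩
theorem C_31273521216 : chkRec R_31273521216 = true := by decide +kernel

noncomputable def R_31273525248 : Rec := ⟨nat_lit 31273525248, nat_lit 27,
  [⟨V6_25904553984, [(nat_lit 113, nat_lit 31273525248), (nat_lit 33, nat_lit 32347004928)]⟩,
   ⟨V6_24831074304, [(nat_lit 46, nat_lit 31273525248)]⟩],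
  [W_31206146048, W_30132666368, W_30132408320, W_30115635200, W_29092216832, W_29075443712, W_28018737152, W_26978287616]⟩
theorem C_31273525248 : chkRec R_31273525248 = true := by decide +kernel

noncomputable def R_31273783296 : Rec := ⟨nat_lit 31273783296, nat_lit 34,
  [⟨V6_30132928512, [(nat_lit 111, nat_lit 31273783296), (nat_lit 93, nat_lit 32347521024), (nat_lit 41, nat_lit 32330747904), (nat_lit 90, nat_lit 33404485632), (nat_lit 10, nat_lit 33387712512), (nat_lit 40, nat_lit 34461450240), (nat_lit 45, nat_lit 34444677120), (nat_lit 25, nat_lit 35518414848), (nat_lit 110, nat_lit 35501641728), (nat_lit 81, nat_lit 36575379456)]⟩,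
   ⟨V6_29125509120, [(nat_lit 105, nat_lit 31273783296), (nat_lit 3, nat_lit 32347521024), (nat_lit 85, nat_lit 32347262976), (nat_lit 80, nat_lit 33421000704), (nat_lit 94, nat_lit 33420742656), (nat_lit 107, nat_lit 34494480384), (nat_lit 72, nat_lit 34494222336), (nat_lit 12, nat_lit 35567960064)]⟩,
   ⟨V6_29108736000, [(nat_lit 47, nat_lit 31273783296), (nat_lit 117, nat_lit 32347262976), (nat_lit 34, nat_lit 32330747904), (nat_lit 79, nat_lit 33420742656), (nat_lit 101, nat_lit 33404227584), (nat_lit 45, nat_lit 34494222336), (nat_lit 40, nat_lit 34477707264), (nat_lit 53, nat_lit 35551186944)]⟩,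
   ⟨V6_29059190784, [(nat_lit 47, nat_lit 31273783296), (nat_lit 85, nat_lit 32330747904), (nat_lit 71, nat_lit 33387712512), (nat_lit 21, nat_lit 34444677120), (nat_lit 21, nat_lit 35501641728)]⟩,
   ⟨V6_28052029440, [(nat_lit 40, nat_lit 31273783296), (nat_lit 46, nat_lit 32347521024), (nat_lit 5, nat_lit 32347262976), (nat_lit 40, nat_lit 33421000704), (nat_lit 38, nat_lit 33420742656), (nat_lit 88, nat_lit 34494480384)]⟩,
   ⟨V6_28051771392, [(nat_lit 99, nat_lit 31273783296), (nat_lit 72, nat_lit 32347262976), (nat_lit 8, nat_lit 33420742656), (nat_lit 88, nat_lit 34494222336)]⟩,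
   ⟨V6_28035256320, [(nat_lit 30, nat_lit 31273783296), (nat_lit 104, nat_lit 32347262976), (nat_lit 15, nat_lit 32330747904), (nat_lit 113, nat_lit 33420742656), (nat_lit 33, nat_lit 33404227584), (nat_lit 56, nat_lit 34477707264)]⟩],
  [W_30132408320, W_29059186688, W_26928484352, W_25904549888, W_25888292864, W_24831070208]⟩
theorem C_31273783296 : chkRec R_31273783296 = true := by decide +kernel

noncomputable def R_31274041344 : Rec := ⟨nat_lit 31274041344, nat_lit 26,
  [⟨V6_29125509120, [(nat_lit 35, nat_lit 31274041344), (nat_lit 59, nat_lit 32347521024), (nat_lit 82, nat_lit 33421000704), (nat_lit 5, nat_lit 34494480384), (nat_lit 110, nat_lit 35567960064)]⟩,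
   ⟨V6_24831590400, [(nat_lit 18, nat_lit 31274041344)]⟩],
  [W_30182211584, W_25888292864, W_24831328256]⟩
theorem C_31274041344 : chkRec R_31274041344 = true := by decide +kernel

noncomputable def R_31290036288 : Rec := ⟨nat_lit 31290036288, nat_lit 4,
  [⟨V6_24847585344, [(nat_lit 110, nat_lit 31290036288)]⟩],
  [W_30132408320, W_29075443712, W_28034994176]⟩
theorem C_31290036288 : chkRec R_31290036288 = true := by decide +kernel

noncomputable def R_31290040320 : Rec := ⟨nat_lit 31290040320, nat_lit 20,
  [⟨V6_25904553984, [(nat_lit 77, nat_lit 31290040320), (nat_lit 71, nat_lit 32347004928)]⟩,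
   ⟨V6_24847589376, [(nat_lit 76, nat_lit 31290040320)]⟩],
  [W_31206146048, W_31172599808, W_30132408320, W_30115635200, W_29092216832, W_26978287616]⟩
theorem C_31290040320 : chkRec R_31290040320 = true := by decide +kernel

noncomputable def R_31290298368 : Rec := ⟨nat_lit 31290298368, nat_lit 28,
  [⟨V6_25921585152, [(nat_lit 24, nat_lit 31290298368), (nat_lit 44, nat_lit 32364036096)]⟩,
   ⟨V6_25921327104, [(nat_lit 95, nat_lit 31290298368), (nat_lit 21, nat_lit 32363778048)]⟩],
  [W_31206146048, W_30165696512, W_30149181440, W_30132666368, W_30132408320, W_29092216832, W_29075701760, W_29075443712, W_29058928640, W_28018737152, W_28001964032]⟩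
theorem C_31290298368 : chkRec R_31290298368 = true := by decide +kernel

noncomputable def R_31290556416 : Rec := ⟨nat_lit 31290556416, nat_lit 32,
  [⟨V6_30132928512, [(nat_lit 123, nat_lit 31290556416), (nat_lit 99, nat_lit 32347521024), (nat_lit 18, nat_lit 33404485632), (nat_lit 47, nat_lit 34461450240), (nat_lit 113, nat_lit 35518414848), (nat_lit 112, nat_lit 36575379456)]⟩,
   ⟨V6_29125509120, [(nat_lit 15, nat_lit 31290556416), (nat_lit 123, nat_lit 32364036096), (nat_lit 122, nat_lit 32347521024), (nat_lit 55, nat_lit 33437515776), (nat_lit 5, nat_lit 33421000704), (nat_lit 57, nat_lit 34510995456), (nat_lit 76, nat_lit 34494480384), (nat_lit 39, nat_lit 35567960064)]⟩,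
   ⟨V6_28068544512, [(nat_lit 1, nat_lit 31290556416), (nat_lit 70, nat_lit 32364036096), (nat_lit 36, nat_lit 33437515776), (nat_lit 15, nat_lit 34510995456)]⟩,
   ⟨V6_25921585152, [(nat_lit 9, nat_lit 31290556416), (nat_lit 2, nat_lit 32364036096)]⟩],
  [W_25921323008, W_25888292864, W_24847843328]⟩
theorem C_31290556416 : chkRec R_31290556416 = true := by decide +kernel

noncomputable def R_31306813440 : Rec := ⟨nat_lit 31306813440, nat_lit 21,
  [⟨V6_30149185536, [(nat_lit 30, nat_lit 31306813440), (nat_lit 82, nat_lit 32363778048), (nat_lit 1, nat_lit 33420742656), (nat_lit 104, nat_lit 34477707264), (nat_lit 37, nat_lit 35534671872), (nat_lit 108, nat_lit 36591636480)]⟩,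
   ⟨V6_26994806784, [(nat_lit 106, nat_lit 31306813440), (nat_lit 72, nat_lit 32380293120), (nat_lit 46, nat_lit 32363778048), (nat_lit 29, nat_lit 33437257728)]⟩,
   ⟨V6_24864362496, [(nat_lit 105, nat_lit 31306813440)]⟩],
  [W_30165696512, W_28051767296, W_24864358400]⟩
theorem C_31306813440 : chkRec R_31306813440 = true := by decide +kernel

noncomputable def R_31307071488 : Rec := ⟨nat_lit 31307071488, nat_lit 29,
  [⟨V6_25938100224, [(nat_lit 45, nat_lit 31307071488), (nat_lit 30, nat_lit 32380551168)]⟩,
   ⟨V6_25921585152, [(nat_lit 8, nat_lit 31307071488), (nat_lit 85, nat_lit 32364036096)]⟩],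
  [W_31206146048, W_30182211584, W_30149181440, W_30132666368, W_29125246976, W_29092216832, W_29075701760, W_28018737152]⟩
theorem C_31307071488 : chkRec R_31307071488 = true := by decide +kernel

noncomputable def R_31323328512 : Rec := ⟨nat_lit 31323328512, nat_lit 6,
  [⟨V6_25937842176, [(nat_lit 85, nat_lit 31323328512), (nat_lit 4, nat_lit 32380293120)]⟩,
   ⟨V6_24880877568, [(nat_lit 54, nat_lit 31323328512)]⟩],
  [W_30165696512, W_29108731904, W_28034994176]⟩
theorem C_31323328512 : chkRec R_31323328512 = true := by decide +kernel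

noncomputable def R_31323586560 : Rec := ⟨nat_lit 31323586560, nat_lit 24,
  [⟨V6_25938100224, [(nat_lit 39, nat_lit 31323586560), (nat_lit 87, nat_lit 32380551168)]⟩,
   ⟨V6_24881135616, [(nat_lit 33, nat_lit 31323586560)]⟩],
  [W_30182211584, W_30165696512, W_30149181440, W_29125246976, W_29108731904, W_29092216832, W_28068282368]⟩
theorem C_31323586560 : chkRec R_31323586560 = true := by decide +kernel

noncomputable def R_31340101632 : Rec := ⟨nat_lit 31340101632, nat_lit 13,
  [⟨V6_27028094976, [(nat_lit 71, nat_lit 31340101632), (nat_lit 69, nat_lit 32413581312), (nat_lit 116, nat_lit 32397066240), (nat_lit 29, nat_lit 33470545920)]⟩,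
   ⟨V6_24897650688, [(nat_lit 94, nat_lit 31340101632)]⟩],
  [W_30182211584, W_30165696512, W_29125246976, W_29108731904]⟩
theorem C_31340101632 : chkRec R_31340101632 = true := by decide +kernel

noncomputable def R_31356616704 : Rec := ⟨nat_lit 31356616704, nat_lit 6,
  [⟨V6_25971130368, [(nat_lit 96, nat_lit 31356616704), (nat_lit 63, nat_lit 32413581312)]⟩,
   ⟨V6_24914165760, [(nat_lit 10, nat_lit 31356616704)]⟩],
  [W_31239176192, W_29125246976]⟩
theorem C_31356616704 : chkRec R_31356616704 = true := by decide +kernel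

noncomputable def R_32279896194 : Rec := ⟨nat_lit 32279896194, nat_lit 1,
  [⟨V6_26911187073, [(nat_lit 6, nat_lit 32279896194), (nat_lit 10, nat_lit 33353638017)]⟩],
  [W_29025116288]⟩
theorem C_32279896194 : chkRec R_32279896194 = true := by decide +kernel

noncomputable def R_32280420480 : Rec := ⟨nat_lit 32280420480, nat_lit 3,
  [⟨V6_29058932736, [(nat_lit 22, nat_lit 32280420480), (nat_lit 98, nat_lit 33354162240), (nat_lit 46, nat_lit 33353900160), (nat_lit 70, nat_lit 34427904000), (nat_lit 40, nat_lit 34427641920), (nat_lit 60, nat_lit 35501383680)]⟩,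
   ⟨V6_26911449216, [(nat_lit 111, nat_lit 32280420480), (nat_lit 74, nat_lit 33353900160)]⟩],
  [W_26911711232]⟩
theorem C_32280420480 : chkRec R_32280420480 = true := by decide +kernel

noncomputable def R_32280424512 : Rec := ⟨nat_lit 32280424512, nat_lit 1,
  [⟨V6_26911715328, [(nat_lit 62, nat_lit 32280424512), (nat_lit 61, nat_lit 33354166272)]⟩],
  [W_29058928640]⟩
theorem C_32280424512 : chkRec R_32280424512 = true := by decide +kernel

noncomputable def R_32280428544 : Rec := ⟨nat_lit 32280428544, nat_lit 4,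
  [⟨V6_30132928512, [(nat_lit 96, nat_lit 32280428544), (nat_lit 10, nat_lit 33354166272), (nat_lit 52, nat_lit 34427904000), (nat_lit 85, nat_lit 35501641728), (nat_lit 125, nat_lit 36575379456)]⟩],
  [W_26911711232, W_24764235776]⟩
theorem C_32280428544 : chkRec R_32280428544 = true := by decide +kernel

noncomputable def R_32296673409 : Rec := ⟨nat_lit 32296673409, nat_lit 1,
  [⟨V6_25854222465, [(nat_lit 51, nat_lit 32296673409)]⟩],
  [W_29025116288]⟩
theorem C_32296673409 : chkRec R_32296673409 = true := by decide +kernel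

noncomputable def R_32296935489 : Rec := ⟨nat_lit 32296935489, nat_lit 1,
  [⟨V6_28001964096, [(nat_lit 40, nat_lit 32296935489), (nat_lit 86, nat_lit 33370677312), (nat_lit 82, nat_lit 33370673217), (nat_lit 38, nat_lit 34444415040)]⟩],
  [W_27984928832]⟩
theorem C_32296935489 : chkRec R_32296935489 = true := by decide +kernel

noncomputable def R_32296935552 : Rec := ⟨nat_lit 32296935552, nat_lit 2,
  [⟨V6_29041893504, [(nat_lit 53, nat_lit 32296935552), (nat_lit 75, nat_lit 33370415232), (nat_lit 85, nat_lit 33353900160), (nat_lit 20, nat_lit 34427379840), (nat_lit 27, nat_lit 34410864768), (nat_lit 1, nat_lit 35484344448)]⟩,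
   ⟨V6_26911449216, [(nat_lit 112, nat_lit 32296935552), (nat_lit 54, nat_lit 33353900160)]⟩],
  [W_29058670592]⟩
theorem C_32296935552 : chkRec R_32296935552 = true := by decide +kernel

noncomputable def R_32296939584 : Rec := ⟨nat_lit 32296939584, nat_lit 1,
  [⟨V6_26928230400, [(nat_lit 78, nat_lit 32296939584), (nat_lit 3, nat_lit 33370681344)]⟩],
  [W_29058928640]⟩
theorem C_32296939584 : chkRec R_32296939584 = true := by decide +kernel

noncomputable def R_32297197632 : Rec := ⟨nat_lit 32297197632, nat_lit 6,
  [⟨V6_26928488448, [(nat_lit 37, nat_lit 32297197632), (nat_lit 104, nat_lit 33370939392)]⟩,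
   ⟨V6_26928484416, [(nat_lit 53, nat_lit 32297197632), (nat_lit 76, nat_lit 33370935360)]⟩],
  [W_29075443712, W_29058670592, W_27984928832, W_26928222272]⟩
theorem C_32297197632 : chkRec R_32297197632 = true := by decide +kernel

noncomputable def R_32297201664 : Rec := ⟨nat_lit 32297201664, nat_lit 5,
  [⟨V6_30132928512, [(nat_lit 89, nat_lit 32297201664), (nat_lit 110, nat_lit 33370939392), (nat_lit 45, nat_lit 33354166272), (nat_lit 79, nat_lit 34444677120), (nat_lit 95, nat_lit 34427904000), (nat_lit 66, nat_lit 35518414848), (nat_lit 3, nat_lit 35501641728), (nat_lit 52, nat_lit 36575379456)]⟩,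
   ⟨V6_26911715328, [(nat_lit 67, nat_lit 32297201664), (nat_lit 89, nat_lit 33354166272)]⟩],
  [W_30132666368, W_29059186688, W_29058928640]⟩
theorem C_32297201664 : chkRec R_32297201664 = true := by decide +kernel

noncomputable def R_32297455680 : Rec := ⟨nat_lit 32297455680, nat_lit 2,
  [⟨V6_25855004736, [(nat_lit 50, nat_lit 32297455680)]⟩],
  [W_29075443712]⟩
theorem C_32297455680 : chkRec R_32297455680 = true := by decide +kernel

noncomputable def R_32297459712 : Rec := ⟨nat_lit 32297459712, nat_lit 3,
  [⟨V6_26928488448, [(nat_lit 64, nat_lit 32297459712), (nat_lit 113, nat_lit 33370939392)]⟩],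
  [W_30149181440, W_29075443712]⟩
theorem C_32297459712 : chkRec R_32297459712 = true := by decide +kernel

noncomputable def R_32313450624 : Rec := ⟨nat_lit 32313450624, nat_lit 6,
  [⟨V6_28018483200, [(nat_lit 120, nat_lit 32313450624), (nat_lit 85, nat_lit 33387192384), (nat_lit 59, nat_lit 34460934144)]⟩],
  [W_31172599808, W_30115635200, W_29025116288, W_27984928832, W_25870999616]⟩
theorem C_32313450624 : chkRec R_32313450624 = true := by decide +kernel

noncomputable def R_32313712704 : Rec := ⟨nat_lit 32313712704, nat_lit 6,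
  [⟨V6_29058670656, [(nat_lit 24, nat_lit 32313712704), (nat_lit 15, nat_lit 33387192384), (nat_lit 86, nat_lit 33370677312), (nat_lit 15, nat_lit 34444156992), (nat_lit 86, nat_lit 34427641920), (nat_lit 1, nat_lit 35501121600)]⟩,
   ⟨V6_28001964096, [(nat_lit 70, nat_lit 32313712704), (nat_lit 50, nat_lit 33387450432), (nat_lit 105, nat_lit 33370677312), (nat_lit 59, nat_lit 34444415040)]⟩,
   ⟨V6_27985190976, [(nat_lit 100, nat_lit 32313712704), (nat_lit 112, nat_lit 33370677312), (nat_lit 119, nat_lit 34427641920)]⟩,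
   ⟨V6_26944741440, [(nat_lit 4, nat_lit 32313712704), (nat_lit 73, nat_lit 33387192384)]⟩],
  [W_30132408320, W_29075443712, W_28018479104]⟩
theorem C_32313712704 : chkRec R_32313712704 = true := by decide +kernel

noncomputable def R_32313716736 : Rec := ⟨nat_lit 32313716736, nat_lit 3,
  [⟨V6_30132670464, [(nat_lit 63, nat_lit 32313716736), (nat_lit 3, nat_lit 33387454464), (nat_lit 96, nat_lit 33370681344), (nat_lit 11, nat_lit 34461192192), (nat_lit 35, nat_lit 34444419072), (nat_lit 63, nat_lit 34427645952), (nat_lit 5, nat_lit 35518156800), (nat_lit 88, nat_lit 35501383680), (nat_lit 1, nat_lit 36575121408)]⟩,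
   ⟨V6_29058932736, [(nat_lit 49, nat_lit 32313716736), (nat_lit 17, nat_lit 33387454464), (nat_lit 6, nat_lit 33370681344), (nat_lit 8, nat_lit 34444419072), (nat_lit 85, nat_lit 34427645952), (nat_lit 8, nat_lit 35501383680)]⟩],
  [W_28018737152]⟩
theorem C_32313716736 : chkRec R_32313716736 = true := by decide +kernel

noncomputable def R_32313970752 : Rec := ⟨nat_lit 32313970752, nat_lit 3,
  [⟨V6_26944999488, [(nat_lit 45, nat_lit 32313970752), (nat_lit 30, nat_lit 33387450432)]⟩,
   ⟨V6_26928484416, [(nat_lit 1, nat_lit 32313970752), (nat_lit 9, nat_lit 33370935360)]⟩],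
  [W_28018479104]⟩
theorem C_32313970752 : chkRec R_32313970752 = true := by decide +kernel

noncomputable def R_32313974784 : Rec := ⟨nat_lit 32313974784, nat_lit 20,
  [⟨V6_30132928512, [(nat_lit 69, nat_lit 32313974784), (nat_lit 123, nat_lit 33387712512), (nat_lit 101, nat_lit 33370939392), (nat_lit 125, nat_lit 34461450240), (nat_lit 94, nat_lit 34444677120), (nat_lit 19, nat_lit 34427904000), (nat_lit 3, nat_lit 35518414848), (nat_lit 99, nat_lit 35501641728), (nat_lit 125, nat_lit 36575379456)]⟩,
   ⟨V6_28018483200, [(nat_lit 107, nat_lit 32313974784), (nat_lit 55, nat_lit 33387454464), (nat_lit 30, nat_lit 34460934144)]⟩,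
   ⟨V6_26928488448, [(nat_lit 123, nat_lit 32313974784), (nat_lit 91, nat_lit 33370939392)]⟩],
  [W_30132666368, W_29059186688, W_28018737152, W_24797782016]⟩
theorem C_32313974784 : chkRec R_32313974784 = true := by decide +kernel

noncomputable def R_32314232832 : Rec := ⟨nat_lit 32314232832, nat_lit 10,
  [⟨V6_30165958656, [(nat_lit 99, nat_lit 32314232832), (nat_lit 91, nat_lit 33387970560), (nat_lit 90, nat_lit 33387712512), (nat_lit 116, nat_lit 34461450240), (nat_lit 13, nat_lit 34461192192), (nat_lit 73, nat_lit 35534929920), (nat_lit 71, nat_lit 35534671872), (nat_lit 37, nat_lit 36608409600)]⟩,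
   ⟨V6_30149185536, [(nat_lit 22, nat_lit 32314232832), (nat_lit 93, nat_lit 33387712512), (nat_lit 93, nat_lit 33371197440), (nat_lit 32, nat_lit 34461192192), (nat_lit 97, nat_lit 34444677120), (nat_lit 69, nat_lit 35534671872), (nat_lit 99, nat_lit 35518156800), (nat_lit 88, nat_lit 36591636480)]⟩,
   ⟨V6_26928746496, [(nat_lit 122, nat_lit 32314232832), (nat_lit 82, nat_lit 33371197440)]⟩],
  [W_30165696512, W_25871777792, W_24798040064]⟩
theorem C_32314232832 : chkRec R_32314232832 = true := by decide +kernel

noncomputable def R_32314490880 : Rec := ⟨nat_lit 32314490880, nat_lit 11,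
  [⟨V6_30165958656, [(nat_lit 52, nat_lit 32314490880), (nat_lit 55, nat_lit 33387970560), (nat_lit 42, nat_lit 34461450240), (nat_lit 80, nat_lit 35534929920), (nat_lit 109, nat_lit 36608409600)]⟩,
   ⟨V6_25872039936, [(nat_lit 109, nat_lit 32314490880)]⟩],
  [W_31239176192, W_25871777792, W_24798298112]⟩
theorem C_32314490880 : chkRec R_32314490880 = true := by decide +kernel

noncomputable def R_32330227776 : Rec := ⟨nat_lit 32330227776, nat_lit 6,
  [⟨V6_26961518592, [(nat_lit 1, nat_lit 32330227776), (nat_lit 44, nat_lit 33403969536)]⟩,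
   ⟨V6_26961514560, [(nat_lit 61, nat_lit 32330227776), (nat_lit 6, nat_lit 33403965504)]⟩],
  [W_31172599808, W_30132408320, W_30115635200, W_29075443712, W_27984928832]⟩
theorem C_32330227776 : chkRec R_32330227776 = true := by decide +kernel

noncomputable def R_32330485824 : Rec := ⟨nat_lit 32330485824, nat_lit 4,
  [⟨V6_28035256320, [(nat_lit 87, nat_lit 32330485824), (nat_lit 48, nat_lit 33404227584), (nat_lit 84, nat_lit 33403965504), (nat_lit 116, nat_lit 34477707264)]⟩],
  [W_29058928640, W_26928222272, W_24814293056]⟩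
theorem C_32330485824 : chkRec R_32330485824 = true := by decide +kernel

noncomputable def R_32330489856 : Rec := ⟨nat_lit 32330489856, nat_lit 16,
  [⟨V6_28035256320, [(nat_lit 39, nat_lit 32330489856), (nat_lit 53, nat_lit 33404227584), (nat_lit 110, nat_lit 33403969536), (nat_lit 81, nat_lit 34477707264)]⟩,
   ⟨V6_28018483200, [(nat_lit 28, nat_lit 32330489856), (nat_lit 66, nat_lit 33403969536), (nat_lit 29, nat_lit 33387454464), (nat_lit 61, nat_lit 34460934144)]⟩,
   ⟨V6_26961518592, [(nat_lit 44, nat_lit 32330489856), (nat_lit 41, nat_lit 33403969536)]⟩],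
  [W_31206146048, W_30132666368, W_30115635200, W_29092216832, W_29058928640, W_28018737152]⟩
theorem C_32330489856 : chkRec R_32330489856 = true := by decide +kernel

noncomputable def R_32330747904 : Rec := ⟨nat_lit 32330747904, nat_lit 21,
  [⟨V6_30182473728, [(nat_lit 88, nat_lit 32330747904), (nat_lit 107, nat_lit 33404485632), (nat_lit 72, nat_lit 33404227584), (nat_lit 98, nat_lit 34477965312), (nat_lit 66, nat_lit 34477707264), (nat_lit 109, nat_lit 35551444992), (nat_lit 89, nat_lit 35551186944), (nat_lit 60, nat_lit 36624924672)]⟩,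
   ⟨V6_30149185536, [(nat_lit 77, nat_lit 32330747904), (nat_lit 93, nat_lit 33404227584), (nat_lit 5, nat_lit 33387712512), (nat_lit 93, nat_lit 34477707264), (nat_lit 112, nat_lit 34461192192), (nat_lit 59, nat_lit 34444677120), (nat_lit 32, nat_lit 35534671872), (nat_lit 39, nat_lit 35518156800), (nat_lit 1, nat_lit 36591636480)]⟩,
   ⟨V6_30132928512, [(nat_lit 93, nat_lit 32330747904), (nat_lit 2, nat_lit 33404485632), (nat_lit 7, nat_lit 33387712512), (nat_lit 105, nat_lit 34461450240), (nat_lit 32, nat_lit 34444677120), (nat_lit 109, nat_lit 35518414848), (nat_lit 25, nat_lit 35501641728), (nat_lit 108, nat_lit 36575379456)]⟩,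
   ⟨V6_29108736000, [(nat_lit 105, nat_lit 32330747904), (nat_lit 35, nat_lit 33404227584), (nat_lit 12, nat_lit 34477707264), (nat_lit 17, nat_lit 35551186944)]⟩,
   ⟨V6_29059190784, [(nat_lit 72, nat_lit 32330747904), (nat_lit 37, nat_lit 33387712512), (nat_lit 125, nat_lit 34444677120), (nat_lit 126, nat_lit 35501641728)]⟩,
   ⟨V6_28035256320, [(nat_lit 65, nat_lit 32330747904), (nat_lit 107, nat_lit 33404227584), (nat_lit 93, nat_lit 34477707264)]⟩],
  [W_30132666368, W_29059186688, W_28018737152, W_25888292864]⟩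
theorem C_32330747904 : chkRec R_32330747904 = true := by decide +kernel

noncomputable def R_32331005952 : Rec := ⟨nat_lit 32331005952, nat_lit 13,
  [⟨V6_31255953408, [(nat_lit 39, nat_lit 32331005952), (nat_lit 82, nat_lit 33404485632), (nat_lit 40, nat_lit 34477965312), (nat_lit 5, nat_lit 35551444992), (nat_lit 12, nat_lit 36624924672), (nat_lit 93, nat_lit 37698404352)]⟩,
   ⟨V6_30182473728, [(nat_lit 47, nat_lit 32331005952), (nat_lit 68, nat_lit 33404485632), (nat_lit 110, nat_lit 34477965312), (nat_lit 61, nat_lit 35551444992), (nat_lit 19, nat_lit 36624924672)]⟩,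
   ⟨V6_30165958656, [(nat_lit 122, nat_lit 32331005952), (nat_lit 18, nat_lit 33404485632), (nat_lit 85, nat_lit 33387970560), (nat_lit 93, nat_lit 34477965312), (nat_lit 5, nat_lit 34461450240), (nat_lit 125, nat_lit 35551444992), (nat_lit 84, nat_lit 35534929920), (nat_lit 106, nat_lit 36608409600)]⟩],
  [W_25888292864, W_24814813184]⟩
theorem C_32331005952 : chkRec R_32331005952 = true := by decide +kernel

noncomputable def R_32347000896 : Rec := ⟨nat_lit 32347000896, nat_lit 2,
  [⟨V6_25904549952, [(nat_lit 47, nat_lit 32347000896)]⟩],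
  [W_30132408320, W_28034994176]⟩
theorem C_32347000896 : chkRec R_32347000896 = true := by decide +kernel

noncomputable def R_32347004928 : Rec := ⟨nat_lit 32347004928, nat_lit 17,
  [⟨V6_32246341632, [(nat_lit 120, nat_lit 32347004928), (nat_lit 72, nat_lit 33403969536), (nat_lit 5, nat_lit 34460934144), (nat_lit 75, nat_lit 35517898752), (nat_lit 94, nat_lit 36574863360), (nat_lit 98, nat_lit 37631827968), (nat_lit 47, nat_lit 38688792576)]⟩,
   ⟨V6_25904553984, [(nat_lit 62, nat_lit 32347004928)]⟩],
  [W_31206146048, W_31172599808, W_30149181440, W_30132408320, W_26978287616]⟩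
theorem C_32347004928 : chkRec R_32347004928 = true := by decide +kernel

noncomputable def R_32347262976 : Rec := ⟨nat_lit 32347262976, nat_lit 18,
  [⟨V6_28052029440, [(nat_lit 71, nat_lit 32347262976), (nat_lit 15, nat_lit 33421000704), (nat_lit 34, nat_lit 33420742656), (nat_lit 13, nat_lit 34494480384)]⟩,
   ⟨V6_28035256320, [(nat_lit 29, nat_lit 32347262976), (nat_lit 61, nat_lit 33420742656), (nat_lit 57, nat_lit 33404227584), (nat_lit 50, nat_lit 34477707264)]⟩],
  [W_32279625728, W_32263110656, W_30132666368, W_25904549888, W_24831070208]⟩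
theorem C_32347262976 : chkRec R_32347262976 = true := by decide +kernel

noncomputable def R_32347521024 : Rec := ⟨nat_lit 32347521024, nat_lit 26,
  [⟨V6_30198988800, [(nat_lit 6, nat_lit 32347521024), (nat_lit 123, nat_lit 33421000704), (nat_lit 107, nat_lit 34494480384), (nat_lit 109, nat_lit 35567960064), (nat_lit 14, nat_lit 36641439744)]⟩,
   ⟨V6_30132928512, [(nat_lit 80, nat_lit 32347521024), (nat_lit 101, nat_lit 33404485632), (nat_lit 14, nat_lit 34461450240), (nat_lit 122, nat_lit 35518414848), (nat_lit 114, nat_lit 36575379456)]⟩,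
   ⟨V6_29125509120, [(nat_lit 105, nat_lit 32347521024), (nat_lit 35, nat_lit 33421000704), (nat_lit 12, nat_lit 34494480384), (nat_lit 17, nat_lit 35567960064)]⟩,
   ⟨V6_28052029440, [(nat_lit 86, nat_lit 32347521024), (nat_lit 81, nat_lit 33421000704), (nat_lit 125, nat_lit 34494480384)]⟩],
  [W_32296140800, W_29059186688, W_25904807936, W_25888292864]⟩
theorem C_32347521024 : chkRec R_32347521024 = true := by decide +kernel

noncomputable def R_32363778048 : Rec := ⟨nat_lit 32363778048, nat_lit 15,
  [⟨V6_30149185536, [(nat_lit 43, nat_lit 32363778048), (nat_lit 121, nat_lit 33420742656), (nat_lit 119, nat_lit 34477707264), (nat_lit 3, nat_lit 35534671872), (nat_lit 3, nat_lit 36591636480)]⟩,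
   ⟨V6_25921327104, [(nat_lit 37, nat_lit 32363778048)]⟩],
  [W_31206146048, W_30165696512, W_30149181440, W_30132408320, W_29092216832]⟩
theorem C_32363778048 : chkRec R_32363778048 = true := by decide +kernel

noncomputable def R_32364036096 : Rec := ⟨nat_lit 32364036096, nat_lit 22,
  [⟨V6_31206408192, [(nat_lit 72, nat_lit 32364036096), (nat_lit 102, nat_lit 33421000704), (nat_lit 67, nat_lit 34477965312), (nat_lit 106, nat_lit 35534929920), (nat_lit 39, nat_lit 36591894528), (nat_lit 21, nat_lit 37648859136)]⟩,
   ⟨V6_28068544512, [(nat_lit 37, nat_lit 32364036096), (nat_lit 23, nat_lit 33437515776), (nat_lit 60, nat_lit 34510995456)]⟩,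
   ⟨V6_25921585152, [(nat_lit 70, nat_lit 32364036096)]⟩],
  [W_32296140800, W_32279625728, W_30182211584, W_30132666368, W_29125246976, W_25904807936]⟩
theorem C_32364036096 : chkRec R_32364036096 = true := by decide +kernel

noncomputable def R_32380293120 : Rec := ⟨nat_lit 32380293120, nat_lit 4,
  [⟨V6_29108736000, [(nat_lit 124, nat_lit 32380293120), (nat_lit 42, nat_lit 33437257728), (nat_lit 15, nat_lit 34494222336), (nat_lit 17, nat_lit 35551186944)]⟩,
   ⟨V6_25937842176, [(nat_lit 77, nat_lit 32380293120)]⟩],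
  [W_32279625728, W_30165696512]⟩
theorem C_32380293120 : chkRec R_32380293120 = true := by decide +kernel

noncomputable def R_32380551168 : Rec := ⟨nat_lit 32380551168, nat_lit 22,
  [⟨V6_28052029440, [(nat_lit 36, nat_lit 32380551168), (nat_lit 106, nat_lit 33437515776), (nat_lit 80, nat_lit 34494480384)]⟩,
   ⟨V6_25938100224, [(nat_lit 104, nat_lit 32380551168)]⟩],
  [W_32296140800, W_30182211584, W_29125246976, W_24864358400]⟩
theorem C_32380551168 : chkRec R_32380551168 = true := by decide +kernel

noncomputable def R_32397066240 : Rec := ⟨nat_lit 32397066240, nat_lit 10,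
  [⟨V6_27011579904, [(nat_lit 23, nat_lit 32397066240), (nat_lit 38, nat_lit 33454030848)]⟩,
   ⟨V6_25954615296, [(nat_lit 10, nat_lit 32397066240)]⟩],
  [W_32296140800, W_31239176192, W_31222661120, W_30182211584, W_30165696512]⟩
theorem C_32397066240 : chkRec R_32397066240 = true := by decide +kernel

noncomputable def R_32413581312 : Rec := ⟨nat_lit 32413581312, nat_lit 9,
  [⟨V6_27028094976, [(nat_lit 91, nat_lit 32413581312), (nat_lit 76, nat_lit 33470545920)]⟩,
   ⟨V6_25971130368, [(nat_lit 112, nat_lit 32413581312)]⟩],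
  [W_32296140800, W_31239176192, W_29125246976]⟩
theorem C_32413581312 : chkRec R_32413581312 = true := by decide +kernel

noncomputable def R_33353638017 : Rec := ⟨nat_lit 33353638017, nat_lit 1,
  [⟨V6_26911187073, [(nat_lit 20, nat_lit 33353638017)]⟩],
  [W_29025116288]⟩
theorem C_33353638017 : chkRec R_33353638017 = true := by decide +kernel

noncomputable def R_33353900160 : Rec := ⟨nat_lit 33353900160, nat_lit 1,
  [⟨V6_26911449216, [(nat_lit 57, nat_lit 33353900160)]⟩],
  [W_30115635200]⟩
theorem C_33353900160 : chkRec R_33353900160 = true := by decide +kernel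

noncomputable def R_33354162240 : Rec := ⟨nat_lit 33354162240, nat_lit 2,
  [⟨V6_29059190784, [(nat_lit 63, nat_lit 33354162240), (nat_lit 100, nat_lit 34427904000), (nat_lit 93, nat_lit 34427899968), (nat_lit 92, nat_lit 35501641728)]⟩],
  [W_29058670592]⟩
theorem C_33354162240 : chkRec R_33354162240 = true := by decide +kernel

noncomputable def R_33354166272 : Rec := ⟨nat_lit 33354166272, nat_lit 3,
  [⟨V6_26911715328, [(nat_lit 88, nat_lit 33354166272)]⟩],
  [W_30132666368, W_29058928640]⟩
theorem C_33354166272 : chkRec R_33354166272 = true := by decide +kernel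

noncomputable def R_33370415232 : Rec := ⟨nat_lit 33370415232, nat_lit 3,
  [⟨V6_32246341632, [(nat_lit 36, nat_lit 33370415232), (nat_lit 123, nat_lit 34444156992), (nat_lit 84, nat_lit 34427379840), (nat_lit 13, nat_lit 35517898752), (nat_lit 92, nat_lit 35501121600), (nat_lit 7, nat_lit 35484344448), (nat_lit 89, nat_lit 36574863360), (nat_lit 105, nat_lit 36558086208), (nat_lit 56, nat_lit 36541309056), (nat_lit 110, nat_lit 37631827968), (nat_lit 7, nat_lit 37615050816), (nat_lit 117, nat_lit 38688792576)]⟩,
   ⟨V6_30098858112, [(nat_lit 25, nat_lit 33370415232), (nat_lit 99, nat_lit 34427379840), (nat_lit 11, nat_lit 35484344448), (nat_lit 121, nat_lit 36541309056)]⟩,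
   ⟨V6_29041893504, [(nat_lit 88, nat_lit 33370415232), (nat_lit 55, nat_lit 34427379840), (nat_lit 113, nat_lit 35484344448)]⟩],
  [W_28001705984]⟩
theorem C_33370415232 : chkRec R_33370415232 = true := by decide +kernel

noncomputable def R_33370677312 : Rec := ⟨nat_lit 33370677312, nat_lit 3,
  [⟨V6_29058670656, [(nat_lit 69, nat_lit 33370677312), (nat_lit 113, nat_lit 34444156992), (nat_lit 124, nat_lit 34427641920), (nat_lit 49, nat_lit 35501121600)]⟩,
   ⟨V6_28001964096, [(nat_lit 68, nat_lit 33370677312), (nat_lit 106, nat_lit 34444415040)]⟩,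
   ⟨V6_27985190976, [(nat_lit 81, nat_lit 33370677312), (nat_lit 18, nat_lit 34427641920)]⟩],
  [W_30132408320, W_29075443712]⟩
theorem C_33370677312 : chkRec R_33370677312 = true := by decide +kernel

noncomputable def R_33370681344 : Rec := ⟨nat_lit 33370681344, nat_lit 1,
  [⟨V6_26928230400, [(nat_lit 106, nat_lit 33370681344)]⟩],
  [W_30132666368]⟩
theorem C_33370681344 : chkRec R_33370681344 = true := by decide +kernel

noncomputable def R_33370935360 : Rec := ⟨nat_lit 33370935360, nat_lit 2,
  [⟨V6_26928484416, [(nat_lit 115, nat_lit 33370935360)]⟩],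
  [W_30132408320, W_29058928640]⟩
theorem C_33370935360 : chkRec R_33370935360 = true := by decide +kernel

noncomputable def R_33370939392 : Rec := ⟨nat_lit 33370939392, nat_lit 8,
  [⟨V6_26928488448, [(nat_lit 93, nat_lit 33370939392)]⟩],
  [W_31206146048, W_30149181440, W_30132666368, W_29058670592]⟩
theorem C_33370939392 : chkRec R_33370939392 = true := by decide +kernel

noncomputable def R_33371197440 : Rec := ⟨nat_lit 33371197440, nat_lit 2,
  [⟨V6_30149185536, [(nat_lit 59, nat_lit 33371197440), (nat_lit 62, nat_lit 34444677120), (nat_lit 14, nat_lit 35518156800), (nat_lit 41, nat_lit 36591636480)]⟩],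
  [W_28002222080]⟩
theorem C_33371197440 : chkRec R_33371197440 = true := by decide +kernel

noncomputable def R_33387192384 : Rec := ⟨nat_lit 33387192384, nat_lit 4,
  [⟨V6_26944741440, [(nat_lit 122, nat_lit 33387192384)]⟩],
  [W_31172599808, W_30132408320, W_29075443712]⟩
theorem C_33387192384 : chkRec R_33387192384 = true := by decide +kernel

noncomputable def R_33387450432 : Rec := ⟨nat_lit 33387450432, nat_lit 1,
  [⟨V6_26944999488, [(nat_lit 112, nat_lit 33387450432)]⟩],
  [W_30132408320]⟩
theorem C_33387450432 : chkRec R_33387450432 = true := by decide +kernel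

noncomputable def R_33387454464 : Rec := ⟨nat_lit 33387454464, nat_lit 10,
  [⟨V6_31206408192, [(nat_lit 125, nat_lit 33387454464), (nat_lit 64, nat_lit 34461192192), (nat_lit 80, nat_lit 34444419072), (nat_lit 56, nat_lit 35534929920), (nat_lit 52, nat_lit 35518156800), (nat_lit 77, nat_lit 35501383680), (nat_lit 61, nat_lit 36591894528), (nat_lit 27, nat_lit 36575121408), (nat_lit 51, nat_lit 37648859136)]⟩,
   ⟨V6_31189377024, [(nat_lit 116, nat_lit 33387454464), (nat_lit 109, nat_lit 34460934144), (nat_lit 79, nat_lit 34444419072), (nat_lit 64, nat_lit 35517898752), (nat_lit 39, nat_lit 35501383680), (nat_lit 5, nat_lit 36574863360), (nat_lit 92, nat_lit 36558348288), (nat_lit 70, nat_lit 37631827968)]⟩,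
   ⟨V6_28018483200, [(nat_lit 65, nat_lit 33387454464), (nat_lit 50, nat_lit 34460934144)]⟩],
  [W_32263110656, W_28018737152, W_25871261696]⟩
theorem C_33387454464 : chkRec R_33387454464 = true := by decide +kernel

noncomputable def R_33387712512 : Rec := ⟨nat_lit 33387712512, nat_lit 12,
  [⟨V6_30165958656, [(nat_lit 44, nat_lit 33387712512), (nat_lit 3, nat_lit 34461450240), (nat_lit 74, nat_lit 34461192192), (nat_lit 10, nat_lit 35534929920), (nat_lit 125, nat_lit 35534671872), (nat_lit 16, nat_lit 36608409600)]⟩,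
   ⟨V6_30132928512, [(nat_lit 1, nat_lit 33387712512), (nat_lit 57, nat_lit 34461450240), (nat_lit 76, nat_lit 34444677120), (nat_lit 9, nat_lit 35518414848), (nat_lit 89, nat_lit 35501641728), (nat_lit 126, nat_lit 36575379456)]⟩,
   ⟨V6_29059190784, [(nat_lit 96, nat_lit 33387712512), (nat_lit 27, nat_lit 34444677120), (nat_lit 32, nat_lit 35501641728)]⟩],
  [W_29059186688, W_28018737152, W_26928484352]⟩
theorem C_33387712512 : chkRec R_33387712512 = true := by decide +kernel

noncomputable def R_33387970560 : Rec := ⟨nat_lit 33387970560, nat_lit 8,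
  [⟨V6_33369882624, [(nat_lit 34, nat_lit 33387970560), (nat_lit 115, nat_lit 34461450240), (nat_lit 3, nat_lit 34444935168), (nat_lit 7, nat_lit 35534929920), (nat_lit 21, nat_lit 35518414848), (nat_lit 83, nat_lit 36608409600), (nat_lit 14, nat_lit 36591894528), (nat_lit 125, nat_lit 37681889280), (nat_lit 67, nat_lit 37665374208), (nat_lit 17, nat_lit 38755368960), (nat_lit 52, nat_lit 38738853888), (nat_lit 57, nat_lit 39812333568)]⟩,
   ⟨V6_30165958656, [(nat_lit 111, nat_lit 33387970560), (nat_lit 37, nat_lit 34461450240), (nat_lit 78, nat_lit 35534929920), (nat_lit 47, nat_lit 36608409600)]⟩],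
  [W_28018737152, W_25871777792]⟩
theorem C_33387970560 : chkRec R_33387970560 = true := by decide +kernel

noncomputable def R_33403965504 : Rec := ⟨nat_lit 33403965504, nat_lit 1,
  [⟨V6_26961514560, [(nat_lit 31, nat_lit 33403965504)]⟩],
  [W_30132408320]⟩
theorem C_33403965504 : chkRec R_33403965504 = true := by decide +kernel

noncomputable def R_33403969536 : Rec := ⟨nat_lit 33403969536, nat_lit 10,
  [⟨V6_31189377024, [(nat_lit 65, nat_lit 33403969536), (nat_lit 24, nat_lit 34460934144), (nat_lit 95, nat_lit 35517898752), (nat_lit 13, nat_lit 36574863360), (nat_lit 100, nat_lit 37631827968)]⟩,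
   ⟨V6_26961518592, [(nat_lit 109, nat_lit 33403969536)]⟩],
  [W_31206146048, W_30132408320, W_29092216832]⟩
theorem C_33403969536 : chkRec R_33403969536 = true := by decide +kernel

noncomputable def R_33404227584 : Rec := ⟨nat_lit 33404227584, nat_lit 12,
  [⟨V6_30182473728, [(nat_lit 109, nat_lit 33404227584), (nat_lit 80, nat_lit 34477965312), (nat_lit 50, nat_lit 34477707264), (nat_lit 4, nat_lit 35551444992), (nat_lit 118, nat_lit 35551186944), (nat_lit 60, nat_lit 36624924672)]⟩,
   ⟨V6_29108736000, [(nat_lit 23, nat_lit 33404227584), (nat_lit 113, nat_lit 34477707264), (nat_lit 121, nat_lit 35551186944)]⟩,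
   ⟨V6_28035256320, [(nat_lit 5, nat_lit 33404227584), (nat_lit 82, nat_lit 34477707264)]⟩],
  [W_32279625728, W_32263110656, W_30132666368, W_30132408320, W_29058928640, W_28018737152]⟩
theorem C_33404227584 : chkRec R_33404227584 = true := by decide +kernel

noncomputable def R_33404485632 : Rec := ⟨nat_lit 33404485632, nat_lit 16,
  [⟨V6_31206408192, [(nat_lit 20, nat_lit 33404485632), (nat_lit 59, nat_lit 34477965312), (nat_lit 46, nat_lit 34461450240), (nat_lit 55, nat_lit 35534929920), (nat_lit 96, nat_lit 35518414848), (nat_lit 96, nat_lit 36591894528), (nat_lit 66, nat_lit 36575379456), (nat_lit 88, nat_lit 37648859136)]⟩,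
   ⟨V6_30182473728, [(nat_lit 126, nat_lit 33404485632), (nat_lit 28, nat_lit 34477965312), (nat_lit 119, nat_lit 35551444992), (nat_lit 87, nat_lit 36624924672)]⟩,
   ⟨V6_30165958656, [(nat_lit 123, nat_lit 33404485632), (nat_lit 56, nat_lit 34477965312), (nat_lit 93, nat_lit 34461450240), (nat_lit 19, nat_lit 35551444992), (nat_lit 59, nat_lit 35534929920), (nat_lit 123, nat_lit 36608409600)]⟩,
   ⟨V6_30132928512, [(nat_lit 89, nat_lit 33404485632), (nat_lit 116, nat_lit 34461450240), (nat_lit 47, nat_lit 35518414848), (nat_lit 41, nat_lit 36575379456)]⟩],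
  [W_32296140800, W_28018737152, W_25888292864]⟩
theorem C_33404485632 : chkRec R_33404485632 = true := by decide +kernel

noncomputable def R_33420742656 : Rec := ⟨nat_lit 33420742656, nat_lit 11,
  [⟨V6_30149185536, [(nat_lit 113, nat_lit 33420742656), (nat_lit 81, nat_lit 34477707264), (nat_lit 78, nat_lit 35534671872), (nat_lit 39, nat_lit 36591636480)]⟩,
   ⟨V6_28052029440, [(nat_lit 126, nat_lit 33420742656), (nat_lit 83, nat_lit 34494480384)]⟩],
  [W_33320075264, W_30165696512, W_25904549888]⟩
theorem C_33420742656 : chkRec R_33420742656 = true := by decide +kernel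

noncomputable def R_33421000704 : Rec := ⟨nat_lit 33421000704, nat_lit 17,
  [⟨V6_30198988800, [(nat_lit 73, nat_lit 33421000704), (nat_lit 10, nat_lit 34494480384), (nat_lit 23, nat_lit 35567960064), (nat_lit 110, nat_lit 36641439744)]⟩,
   ⟨V6_28052029440, [(nat_lit 14, nat_lit 33421000704), (nat_lit 1, nat_lit 34494480384)]⟩],
  [W_32263110656, W_28018737152, W_25904807936]⟩
theorem C_33421000704 : chkRec R_33421000704 = true := by decide +kernel

noncomputable def R_33437257728 : Rec := ⟨nat_lit 33437257728, nat_lit 3,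
  [⟨V6_26994806784, [(nat_lit 95, nat_lit 33437257728)]⟩],
  [W_30165696512]⟩
theorem C_33437257728 : chkRec R_33437257728 = true := by decide +kernel

noncomputable def R_33437515776 : Rec := ⟨nat_lit 33437515776, nat_lit 16,
  [⟨V6_28068544512, [(nat_lit 113, nat_lit 33437515776), (nat_lit 59, nat_lit 34510995456)]⟩,
   ⟨V6_28052029440, [(nat_lit 95, nat_lit 33437515776), (nat_lit 24, nat_lit 34494480384)]⟩],
  [W_33353105408, W_33320075264, W_32296140800, W_25921323008]⟩
theorem C_33437515776 : chkRec R_33437515776 = true := by decide +kernel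

noncomputable def R_33454030848 : Rec := ⟨nat_lit 33454030848, nat_lit 10,
  [⟨V6_28068544512, [(nat_lit 46, nat_lit 33454030848), (nat_lit 93, nat_lit 34510995456)]⟩,
   ⟨V6_27011579904, [(nat_lit 91, nat_lit 33454030848)]⟩],
  [W_33353105408, W_32279625728, W_31239176192, W_29125246976]⟩
theorem C_33454030848 : chkRec R_33454030848 = true := by decide +kernel

noncomputable def R_33470545920 : Rec := ⟨nat_lit 33470545920, nat_lit 6,
  [⟨V6_30198988800, [(nat_lit 83, nat_lit 33470545920), (nat_lit 108, nat_lit 34527510528), (nat_lit 93, nat_lit 35584475136), (nat_lit 80, nat_lit 36641439744)]⟩,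
   ⟨V6_27028094976, [(nat_lit 67, nat_lit 33470545920)]⟩],
  [W_33353105408, W_28068282368]⟩
theorem C_33470545920 : chkRec R_33470545920 = true := by decide +kernel

noncomputable def R_34393825410 : Rec := ⟨nat_lit 34393825410, nat_lit 1,
  [⟨V6_30098858112, [(nat_lit 122, nat_lit 34393825410), (nat_lit 58, nat_lit 35467567233), (nat_lit 47, nat_lit 36541309056)]⟩],
  [W_29025116288]⟩
theorem C_34393825410 : chkRec R_34393825410 = true := by decide +kernel

noncomputable def R_34427379840 : Rec := ⟨nat_lit 34427379840, nat_lit 2,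
  [⟨V6_30098858112, [(nat_lit 36, nat_lit 34427379840), (nat_lit 67, nat_lit 35484344448), (nat_lit 103, nat_lit 36541309056)]⟩,
   ⟨V6_29041893504, [(nat_lit 20, nat_lit 34427379840), (nat_lit 111, nat_lit 35484344448)]⟩],
  [W_29058670592]⟩
theorem C_34427379840 : chkRec R_34427379840 = true := by decide +kernel

noncomputable def R_34427641920 : Rec := ⟨nat_lit 34427641920, nat_lit 1,
  [⟨V6_27985190976, [(nat_lit 120, nat_lit 34427641920)]⟩],
  [W_30132408320]⟩
theorem C_34427641920 : chkRec R_34427641920 = true := by decide +kernel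

noncomputable def R_34427904000 : Rec := ⟨nat_lit 34427904000, nat_lit 5,
  [⟨V6_30132928512, [(nat_lit 12, nat_lit 34427904000), (nat_lit 114, nat_lit 35501641728), (nat_lit 60, nat_lit 36575379456)]⟩,
   ⟨V6_29059190784, [(nat_lit 44, nat_lit 34427904000), (nat_lit 31, nat_lit 35501641728)]⟩],
  [W_31206146048, W_29058670592]⟩
theorem C_34427904000 : chkRec R_34427904000 = true := by decide +kernel

noncomputable def R_34444156992 : Rec := ⟨nat_lit 34444156992, nat_lit 2,
  [⟨V6_30149185536, [(nat_lit 72, nat_lit 34444156992), (nat_lit 96, nat_lit 35517898752), (nat_lit 5, nat_lit 35517894720), (nat_lit 23, nat_lit 36591636480)]⟩],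
  [W_31172599808, W_27984928832]⟩
theorem C_34444156992 : chkRec R_34444156992 = true := by decide +kernel

noncomputable def R_34444415040 : Rec := ⟨nat_lit 34444415040, nat_lit 1,
  [⟨V6_28001964096, [(nat_lit 20, nat_lit 34444415040)]⟩],
  [W_30132408320]⟩
theorem C_34444415040 : chkRec R_34444415040 = true := by decide +kernel

noncomputable def R_34444419072 : Rec := ⟨nat_lit 34444419072, nat_lit 4,
  [⟨V6_31189377024, [(nat_lit 9, nat_lit 34444419072), (nat_lit 45, nat_lit 35517898752), (nat_lit 45, nat_lit 35501383680), (nat_lit 15, nat_lit 36574863360), (nat_lit 66, nat_lit 36558348288), (nat_lit 114, nat_lit 37631827968)]⟩,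
   ⟨V6_30149443584, [(nat_lit 85, nat_lit 34444419072), (nat_lit 109, nat_lit 35518156800), (nat_lit 44, nat_lit 36591894528)]⟩],
  [W_32263110656, W_30132666368, W_29058928640]⟩
theorem C_34444419072 : chkRec R_34444419072 = true := by decide +kernel

noncomputable def R_34444677120 : Rec := ⟨nat_lit 34444677120, nat_lit 5,
  [⟨V6_30132928512, [(nat_lit 108, nat_lit 34444677120), (nat_lit 68, nat_lit 35518414848), (nat_lit 49, nat_lit 35501641728), (nat_lit 91, nat_lit 36575379456)]⟩,
   ⟨V6_29059190784, [(nat_lit 25, nat_lit 34444677120), (nat_lit 59, nat_lit 35501641728)]⟩],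
  [W_31206146048, W_29075443712]⟩
theorem C_34444677120 : chkRec R_34444677120 = true := by decide +kernel

noncomputable def R_34444935168 : Rec := ⟨nat_lit 34444935168, nat_lit 1,
  [⟨V6_33369882624, [(nat_lit 123, nat_lit 34444935168), (nat_lit 61, nat_lit 35518414848), (nat_lit 103, nat_lit 36591894528), (nat_lit 86, nat_lit 37665374208), (nat_lit 102, nat_lit 38738853888), (nat_lit 57, nat_lit 39812333568)]⟩],
  [W_28002222080]⟩
theorem C_34444935168 : chkRec R_34444935168 = true := by decide +kernel

noncomputable def R_34460934144 : Rec := ⟨nat_lit 34460934144, nat_lit 8,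
  [⟨V6_28018483200, [(nat_lit 97, nat_lit 34460934144)]⟩],
  [W_31206146048, W_31172599808, W_30149181440, W_30132408320]⟩
theorem C_34460934144 : chkRec R_34460934144 = true := by decide +kernel

noncomputable def R_34461192192 : Rec := ⟨nat_lit 34461192192, nat_lit 6,
  [⟨V6_30165958656, [(nat_lit 13, nat_lit 34461192192), (nat_lit 47, nat_lit 35534929920), (nat_lit 33, nat_lit 35534671872), (nat_lit 6, nat_lit 36608409600)]⟩],
  [W_29058928640, W_28018737152]⟩
theorem C_34461192192 : chkRec R_34461192192 = true := by decide +kernel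

noncomputable def R_34461450240 : Rec := ⟨nat_lit 34461450240, nat_lit 12,
  [⟨V6_31206408192, [(nat_lit 61, nat_lit 34461450240), (nat_lit 97, nat_lit 35534929920), (nat_lit 42, nat_lit 35518414848), (nat_lit 59, nat_lit 36591894528), (nat_lit 67, nat_lit 36575379456), (nat_lit 63, nat_lit 37648859136)]⟩,
   ⟨V6_30165958656, [(nat_lit 104, nat_lit 34461450240), (nat_lit 14, nat_lit 35534929920), (nat_lit 6, nat_lit 36608409600)]⟩,
   ⟨V6_30132928512, [(nat_lit 71, nat_lit 34461450240), (nat_lit 92, nat_lit 35518414848), (nat_lit 32, nat_lit 36575379456)]⟩],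
  [W_33353105408, W_32296140800, W_29059186688, W_28018737152]⟩
theorem C_34461450240 : chkRec R_34461450240 = true := by decide +kernel

noncomputable def R_34477707264 : Rec := ⟨nat_lit 34477707264, nat_lit 7,
  [⟨V6_28035256320, [(nat_lit 72, nat_lit 34477707264)]⟩],
  [W_32279625728, W_31206146048, W_30165696512]⟩
theorem C_34477707264 : chkRec R_34477707264 = true := by decide +kernel

noncomputable def R_34477965312 : Rec := ⟨nat_lit 34477965312, nat_lit 10,
  [⟨V6_30182473728, [(nat_lit 13, nat_lit 34477965312), (nat_lit 113, nat_lit 35551444992), (nat_lit 106, nat_lit 36624924672)]⟩,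
   ⟨V6_30165958656, [(nat_lit 26, nat_lit 34477965312), (nat_lit 65, nat_lit 35551444992), (nat_lit 79, nat_lit 35534929920), (nat_lit 2, nat_lit 36608409600)]⟩],
  [W_33353105408, W_32296140800, W_28018737152]⟩
theorem C_34477965312 : chkRec R_34477965312 = true := by decide +kernel

noncomputable def R_34494222336 : Rec := ⟨nat_lit 34494222336, nat_lit 1,
  [⟨V6_28051771392, [(nat_lit 87, nat_lit 34494222336)]⟩],
  [W_32279625728]⟩
theorem C_34494222336 : chkRec R_34494222336 = true := by decide +kernel

noncomputable def R_34494480384 : Rec := ⟨nat_lit 34494480384, nat_lit 14,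
  [⟨V6_29125509120, [(nat_lit 45, nat_lit 34494480384), (nat_lit 44, nat_lit 35567960064)]⟩,
   ⟨V6_28052029440, [(nat_lit 56, nat_lit 34494480384)]⟩],
  [W_34410070016, W_33353105408, W_33320075264, W_32296140800, W_32263110656, W_30165696512, W_29125246976]⟩
theorem C_34494480384 : chkRec R_34494480384 = true := by decide +kernel

noncomputable def R_34510995456 : Rec := ⟨nat_lit 34510995456, nat_lit 7,
  [⟨V6_29125509120, [(nat_lit 112, nat_lit 34510995456), (nat_lit 113, nat_lit 35567960064)]⟩,
   ⟨V6_28068544512, [(nat_lit 103, nat_lit 34510995456)]⟩],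
  [W_33353105408, W_32296140800, W_32279625728, W_31239176192]⟩
theorem C_34510995456 : chkRec R_34510995456 = true := by decide +kernel

noncomputable def R_34527510528 : Rec := ⟨nat_lit 34527510528, nat_lit 7,
  [⟨V6_31255953408, [(nat_lit 115, nat_lit 34527510528), (nat_lit 30, nat_lit 35584475136), (nat_lit 51, nat_lit 36641439744), (nat_lit 54, nat_lit 37698404352)]⟩,
   ⟨V6_30198988800, [(nat_lit 113, nat_lit 34527510528), (nat_lit 1, nat_lit 35584475136), (nat_lit 25, nat_lit 36641439744)]⟩],
  [W_34410070016, W_33353105408, W_28068282368]⟩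
theorem C_34527510528 : chkRec R_34527510528 = true := by decide +kernel

noncomputable def R_35484344448 : Rec := ⟨nat_lit 35484344448, nat_lit 1,
  [⟨V6_29041893504, [(nat_lit 58, nat_lit 35484344448)]⟩],
  [W_31172599808]⟩
theorem C_35484344448 : chkRec R_35484344448 = true := by decide +kernel

noncomputable def R_35501121600 : Rec := ⟨nat_lit 35501121600, nat_lit 1,
  [⟨V6_29058670656, [(nat_lit 51, nat_lit 35501121600)]⟩],
  [W_31172599808]⟩
theorem C_35501121600 : chkRec R_35501121600 = true := by decide +kernel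

noncomputable def R_35501383680 : Rec := ⟨nat_lit 35501383680, nat_lit 2,
  [⟨V6_29058932736, [(nat_lit 23, nat_lit 35501383680)]⟩],
  [W_32263110656, W_30115635200]⟩
theorem C_35501383680 : chkRec R_35501383680 = true := by decide +kernel

noncomputable def R_35501641728 : Rec := ⟨nat_lit 35501641728, nat_lit 3,
  [⟨V6_29059190784, [(nat_lit 71, nat_lit 35501641728)]⟩],
  [W_31206146048]⟩
theorem C_35501641728 : chkRec R_35501641728 = true := by decide +kernel

noncomputable def R_35517898752 : Rec := ⟨nat_lit 35517898752, nat_lit 4,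
  [⟨V6_32246341632, [(nat_lit 29, nat_lit 35517898752), (nat_lit 77, nat_lit 36574863360), (nat_lit 105, nat_lit 37631827968), (nat_lit 17, nat_lit 38688792576)]⟩,
   ⟨V6_31189377024, [(nat_lit 90, nat_lit 35517898752), (nat_lit 104, nat_lit 36574863360), (nat_lit 67, nat_lit 37631827968)]⟩,
   ⟨V6_30149185536, [(nat_lit 75, nat_lit 35517898752), (nat_lit 83, nat_lit 36591636480)]⟩],
  [W_33320075264, W_31206146048]⟩
theorem C_35517898752 : chkRec R_35517898752 = true := by decide +kernel

noncomputable def R_35518156800 : Rec := ⟨nat_lit 35518156800, nat_lit 3,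
  [⟨V6_30149443584, [(nat_lit 74, nat_lit 35518156800), (nat_lit 23, nat_lit 36591894528)]⟩,
   ⟨V6_30132670464, [(nat_lit 109, nat_lit 35518156800), (nat_lit 116, nat_lit 36575121408)]⟩],
  [W_31206146048]⟩
theorem C_35518156800 : chkRec R_35518156800 = true := by decide +kernel

noncomputable def R_35518414848 : Rec := ⟨nat_lit 35518414848, nat_lit 4,
  [⟨V6_33369882624, [(nat_lit 25, nat_lit 35518414848), (nat_lit 84, nat_lit 36591894528), (nat_lit 24, nat_lit 37665374208), (nat_lit 90, nat_lit 38738853888), (nat_lit 52, nat_lit 39812333568)]⟩,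
   ⟨V6_30132928512, [(nat_lit 14, nat_lit 35518414848), (nat_lit 65, nat_lit 36575379456)]⟩],
  [W_33353105408, W_31206146048]⟩
theorem C_35518414848 : chkRec R_35518414848 = true := by decide +kernel

noncomputable def R_35534671872 : Rec := ⟨nat_lit 35534671872, nat_lit 4,
  [⟨V6_30165958656, [(nat_lit 59, nat_lit 35534671872), (nat_lit 99, nat_lit 36608409600)]⟩],
  [W_33320075264, W_30165696512]⟩
theorem C_35534671872 : chkRec R_35534671872 = true := by decide +kernel

noncomputable def R_35534929920 : Rec := ⟨nat_lit 35534929920, nat_lit 8,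
  [⟨V6_31206408192, [(nat_lit 85, nat_lit 35534929920), (nat_lit 52, nat_lit 36591894528), (nat_lit 63, nat_lit 37648859136)]⟩,
   ⟨V6_30165958656, [(nat_lit 45, nat_lit 35534929920), (nat_lit 44, nat_lit 36608409600)]⟩],
  [W_33353105408, W_32296140800, W_32279625728, W_30165696512]⟩
theorem C_35534929920 : chkRec R_35534929920 = true := by decide +kernel

noncomputable def R_35551186944 : Rec := ⟨nat_lit 35551186944, nat_lit 1,
  [⟨V6_29108736000, [(nat_lit 84, nat_lit 35551186944)]⟩],
  [W_32279625728]⟩
theorem C_35551186944 : chkRec R_35551186944 = true := by decide +kernel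

noncomputable def R_35551444992 : Rec := ⟨nat_lit 35551444992, nat_lit 9,
  [⟨V6_31255953408, [(nat_lit 39, nat_lit 35551444992), (nat_lit 53, nat_lit 36624924672), (nat_lit 68, nat_lit 37698404352)]⟩,
   ⟨V6_30165958656, [(nat_lit 86, nat_lit 35551444992), (nat_lit 5, nat_lit 36608409600)]⟩],
  [W_33353105408, W_33320075264, W_32296140800, W_32279625728, W_31239176192]⟩
theorem C_35551444992 : chkRec R_35551444992 = true := by decide +kernel

noncomputable def R_35567960064 : Rec := ⟨nat_lit 35567960064, nat_lit 6,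
  [⟨V6_30198988800, [(nat_lit 56, nat_lit 35567960064), (nat_lit 106, nat_lit 36641439744)]⟩,
   ⟨V6_29125509120, [(nat_lit 60, nat_lit 35567960064)]⟩],
  [W_35467034624, W_33353105408, W_32296140800, W_32279625728]⟩
theorem C_35567960064 : chkRec R_35567960064 = true := by decide +kernel

noncomputable def R_35584475136 : Rec := ⟨nat_lit 35584475136, nat_lit 5,
  [⟨V6_30198988800, [(nat_lit 78, nat_lit 35584475136), (nat_lit 67, nat_lit 36641439744)]⟩],
  [W_35467034624, W_33353105408, W_32296140800]⟩
theorem C_35584475136 : chkRec R_35584475136 = true := by decide +kernel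

noncomputable def R_36541309056 : Rec := ⟨nat_lit 36541309056, nat_lit 1,
  [⟨V6_30098858112, [(nat_lit 118, nat_lit 36541309056)]⟩],
  [W_31172599808]⟩
theorem C_36541309056 : chkRec R_36541309056 = true := by decide +kernel

noncomputable def R_36574863360 : Rec := ⟨nat_lit 36574863360, nat_lit 3,
  [⟨V6_34393817088, [(nat_lit 126, nat_lit 36574863360), (nat_lit 75, nat_lit 37648601088), (nat_lit 94, nat_lit 37631827968), (nat_lit 72, nat_lit 38722338816), (nat_lit 100, nat_lit 38705565696), (nat_lit 25, nat_lit 38688792576), (nat_lit 100, nat_lit 39779303424), (nat_lit 36, nat_lit 39762530304), (nat_lit 13, nat_lit 40836268032)]⟩,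
   ⟨V6_32246341632, [(nat_lit 29, nat_lit 36574863360), (nat_lit 86, nat_lit 37631827968), (nat_lit 2, nat_lit 38688792576)]⟩,
   ⟨V6_31189377024, [(nat_lit 87, nat_lit 36574863360), (nat_lit 96, nat_lit 37631827968)]⟩],
  [W_31206146048]⟩
theorem C_36574863360 : chkRec R_36574863360 = true := by decide +kernel

noncomputable def R_36575121408 : Rec := ⟨nat_lit 36575121408, nat_lit 1,
  [⟨V6_30132670464, [(nat_lit 99, nat_lit 36575121408)]⟩],
  [W_32279625728]⟩
theorem C_36575121408 : chkRec R_36575121408 = true := by decide +kernel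

noncomputable def R_36575379456 : Rec := ⟨nat_lit 36575379456, nat_lit 4,
  [⟨V6_30132928512, [(nat_lit 82, nat_lit 36575379456)]⟩],
  [W_33353105408, W_31206146048]⟩
theorem C_36575379456 : chkRec R_36575379456 = true := by decide +kernel

noncomputable def R_36591636480 : Rec := ⟨nat_lit 36591636480, nat_lit 2,
  [⟨V6_30149185536, [(nat_lit 6, nat_lit 36591636480)]⟩],
  [W_33320075264, W_32279625728]⟩
theorem C_36591636480 : chkRec R_36591636480 = true := by decide +kernel

noncomputable def R_36591894528 : Rec := ⟨nat_lit 36591894528, nat_lit 3,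
  [⟨V6_30149443584, [(nat_lit 119, nat_lit 36591894528)]⟩],
  [W_33353105408, W_32263110656]⟩
theorem C_36591894528 : chkRec R_36591894528 = true := by decide +kernel

noncomputable def R_36608409600 : Rec := ⟨nat_lit 36608409600, nat_lit 7,
  [⟨V6_30165958656, [(nat_lit 56, nat_lit 36608409600)]⟩],
  [W_35467034624, W_33353105408, W_33320075264, W_31239176192]⟩
theorem C_36608409600 : chkRec R_36608409600 = true := by decide +kernel

noncomputable def R_36624924672 : Rec := ⟨nat_lit 36624924672, nat_lit 4,
  [⟨V6_30182473728, [(nat_lit 39, nat_lit 36624924672)]⟩],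
  [W_35467034624, W_33353105408, W_32279625728]⟩
theorem C_36624924672 : chkRec R_36624924672 = true := by decide +kernel

noncomputable def R_36641439744 : Rec := ⟨nat_lit 36641439744, nat_lit 5,
  [⟨V6_30198988800, [(nat_lit 12, nat_lit 36641439744)]⟩],
  [W_35467034624, W_33353105408, W_32296140800]⟩
theorem C_36641439744 : chkRec R_36641439744 = true := by decide +kernel

noncomputable def R_37631827968 : Rec := ⟨nat_lit 37631827968, nat_lit 1,
  [⟨V6_32246341632, [(nat_lit 93, nat_lit 37631827968), (nat_lit 28, nat_lit 38688792576)]⟩],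
  [W_33320075264]⟩
theorem C_37631827968 : chkRec R_37631827968 = true := by decide +kernel

noncomputable def R_37648601088 : Rec := ⟨nat_lit 37648601088, nat_lit 1,
  [⟨V6_34393817088, [(nat_lit 98, nat_lit 37648601088), (nat_lit 53, nat_lit 38722338816), (nat_lit 45, nat_lit 38705565696), (nat_lit 101, nat_lit 39779303424), (nat_lit 6, nat_lit 39762530304), (nat_lit 90, nat_lit 40836268032)]⟩],
  [W_32279625728]⟩
theorem C_37648601088 : chkRec R_37648601088 = true := by decide +kernel

noncomputable def R_37648859136 : Rec := ⟨nat_lit 37648859136, nat_lit 2,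
  [⟨V6_31206408192, [(nat_lit 36, nat_lit 37648859136)]⟩],
  [W_34410070016, W_32263110656]⟩
theorem C_37648859136 : chkRec R_37648859136 = true := by decide +kernel

noncomputable def R_37665374208 : Rec := ⟨nat_lit 37665374208, nat_lit 4,
  [⟨V6_34393817088, [(nat_lit 28, nat_lit 37665374208), (nat_lit 117, nat_lit 38722338816), (nat_lit 105, nat_lit 39779303424), (nat_lit 126, nat_lit 40836268032)]⟩,
   ⟨V6_33369882624, [(nat_lit 74, nat_lit 37665374208), (nat_lit 56, nat_lit 38738853888), (nat_lit 41, nat_lit 39812333568)]⟩,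
   ⟨V6_33336852480, [(nat_lit 50, nat_lit 37665374208), (nat_lit 122, nat_lit 38722338816), (nat_lit 56, nat_lit 39779303424)]⟩],
  [W_35467034624, W_31206146048]⟩
theorem C_37665374208 : chkRec R_37665374208 = true := by decide +kernel

noncomputable def R_37681889280 : Rec := ⟨nat_lit 37681889280, nat_lit 3,
  [⟨V6_36540776448, [(nat_lit 36, nat_lit 37681889280), (nat_lit 47, nat_lit 38755368960), (nat_lit 19, nat_lit 38738853888), (nat_lit 11, nat_lit 39812333568), (nat_lit 87, nat_lit 39795818496), (nat_lit 65, nat_lit 40869298176), (nat_lit 107, nat_lit 40852783104), (nat_lit 77, nat_lit 41926262784), (nat_lit 76, nat_lit 41909747712), (nat_lit 55, nat_lit 42983227392)]⟩,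
   ⟨V6_33369882624, [(nat_lit 102, nat_lit 37681889280), (nat_lit 2, nat_lit 38755368960), (nat_lit 19, nat_lit 38738853888), (nat_lit 7, nat_lit 39812333568)]⟩],
  [W_31239176192]⟩
theorem C_37681889280 : chkRec R_37681889280 = true := by decide +kernel

noncomputable def R_37698404352 : Rec := ⟨nat_lit 37698404352, nat_lit 3,
  [⟨V6_36540776448, [(nat_lit 20, nat_lit 37698404352), (nat_lit 76, nat_lit 38755368960), (nat_lit 120, nat_lit 39812333568), (nat_lit 78, nat_lit 40869298176), (nat_lit 125, nat_lit 41926262784), (nat_lit 96, nat_lit 42983227392)]⟩,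
   ⟨V6_31255953408, [(nat_lit 119, nat_lit 37698404352)]⟩],
  [W_37580963840, W_33353105408]⟩
theorem C_37698404352 : chkRec R_37698404352 = true := by decide +kernel

noncomputable def R_38688792576 : Rec := ⟨nat_lit 38688792576, nat_lit 1,
  [⟨V6_32246341632, [(nat_lit 64, nat_lit 38688792576)]⟩],
  [W_33320075264]⟩
theorem C_38688792576 : chkRec R_38688792576 = true := by decide +kernel

noncomputable def R_38722338816 : Rec := ⟨nat_lit 38722338816, nat_lit 3,
  [⟨V6_36540776448, [(nat_lit 122, nat_lit 38722338816), (nat_lit 74, nat_lit 39795818496), (nat_lit 65, nat_lit 39779303424), (nat_lit 125, nat_lit 40869298176), (nat_lit 29, nat_lit 40852783104), (nat_lit 122, nat_lit 40836268032), (nat_lit 82, nat_lit 41926262784), (nat_lit 111, nat_lit 41909747712), (nat_lit 98, nat_lit 42983227392)]⟩,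
   ⟨V6_34393817088, [(nat_lit 105, nat_lit 38722338816), (nat_lit 45, nat_lit 39779303424), (nat_lit 17, nat_lit 40836268032)]⟩,
   ⟨V6_33336852480, [(nat_lit 116, nat_lit 38722338816), (nat_lit 24, nat_lit 39779303424)]⟩],
  [W_31206146048]⟩
theorem C_38722338816 : chkRec R_38722338816 = true := by decide +kernel

noncomputable def R_38738853888 : Rec := ⟨nat_lit 38738853888, nat_lit 1,
  [⟨V6_33369882624, [(nat_lit 70, nat_lit 38738853888), (nat_lit 48, nat_lit 39812333568)]⟩],
  [W_35467034624]⟩
theorem C_38738853888 : chkRec R_38738853888 = true := by decide +kernel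

noncomputable def R_38755368960 : Rec := ⟨nat_lit 38755368960, nat_lit 4,
  [⟨V6_38654705664, [(nat_lit 124, nat_lit 38755368960), (nat_lit 73, nat_lit 39812333568), (nat_lit 27, nat_lit 40869298176), (nat_lit 107, nat_lit 41926262784), (nat_lit 69, nat_lit 42983227392), (nat_lit 79, nat_lit 44040192000), (nat_lit 73, nat_lit 45097156608)]⟩,
   ⟨V6_36540776448, [(nat_lit 123, nat_lit 38755368960), (nat_lit 78, nat_lit 39812333568), (nat_lit 113, nat_lit 40869298176), (nat_lit 11, nat_lit 41926262784), (nat_lit 12, nat_lit 42983227392)]⟩,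
   ⟨V6_33369882624, [(nat_lit 89, nat_lit 38755368960), (nat_lit 15, nat_lit 39812333568)]⟩],
  [W_37580963840, W_31239176192]⟩
theorem C_38755368960 : chkRec R_38755368960 = true := by decide +kernel

noncomputable def R_39779303424 : Rec := ⟨nat_lit 39779303424, nat_lit 1,
  [⟨V6_34393817088, [(nat_lit 23, nat_lit 39779303424), (nat_lit 2, nat_lit 40836268032)]⟩],
  [W_35467034624]⟩
theorem C_39779303424 : chkRec R_39779303424 = true := by decide +kernel

noncomputable def R_39795818496 : Rec := ⟨nat_lit 39795818496, nat_lit 1,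
  [⟨V6_36540776448, [(nat_lit 119, nat_lit 39795818496), (nat_lit 85, nat_lit 40869298176), (nat_lit 54, nat_lit 40852783104), (nat_lit 23, nat_lit 41926262784), (nat_lit 95, nat_lit 41909747712), (nat_lit 27, nat_lit 42983227392)]⟩],
  [W_32279625728]⟩
theorem C_39795818496 : chkRec R_39795818496 = true := by decide +kernel

noncomputable def R_39812333568 : Rec := ⟨nat_lit 39812333568, nat_lit 2,
  [⟨V6_33369882624, [(nat_lit 100, nat_lit 39812333568)]⟩],
  [W_37580963840, W_35467034624]⟩
theorem C_39812333568 : chkRec R_39812333568 = true := by decide +kernel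

noncomputable def R_40836268032 : Rec := ⟨nat_lit 40836268032, nat_lit 1,
  [⟨V6_34393817088, [(nat_lit 125, nat_lit 40836268032)]⟩],
  [W_35467034624]⟩
theorem C_40836268032 : chkRec R_40836268032 = true := by decide +kernel

noncomputable def R_40869298176 : Rec := ⟨nat_lit 40869298176, nat_lit 2,
  [⟨V6_38654705664, [(nat_lit 36, nat_lit 40869298176), (nat_lit 122, nat_lit 41926262784), (nat_lit 103, nat_lit 42983227392), (nat_lit 115, nat_lit 44040192000), (nat_lit 120, nat_lit 45097156608)]⟩,
   ⟨V6_36540776448, [(nat_lit 66, nat_lit 40869298176), (nat_lit 98, nat_lit 41926262784), (nat_lit 40, nat_lit 42983227392)]⟩],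
  [W_33353105408]⟩
theorem C_40869298176 : chkRec R_40869298176 = true := by decide +kernel

noncomputable def R_41926262784 : Rec := ⟨nat_lit 41926262784, nat_lit 1,
  [⟨V6_38654705664, [(nat_lit 101, nat_lit 41926262784), (nat_lit 23, nat_lit 42983227392), (nat_lit 51, nat_lit 44040192000), (nat_lit 99, nat_lit 45097156608)]⟩],
  [W_37580963840]⟩
theorem C_41926262784 : chkRec R_41926262784 = true := by decide +kernel

noncomputable def R_42983227392 : Rec := ⟨nat_lit 42983227392, nat_lit 1,
  [⟨V6_36540776448, [(nat_lit 120, nat_lit 42983227392)]⟩],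
  [W_37580963840]⟩
theorem C_42983227392 : chkRec R_42983227392 = true := by decide +kernel

noncomputable def R_45097156608 : Rec := ⟨nat_lit 45097156608, nat_lit 1,
  [⟨V6_38654705664, [(nat_lit 14, nat_lit 45097156608)]⟩],
  [W_37580963840]⟩
theorem C_45097156608 : chkRec R_45097156608 = true := by decide +kernel

end Crest.Agent.R187.SN.Top
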