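import Crest.Agent.R187.SN.TD.Ks
import Crest.Agent.R187.SN.FwdKs
import Crest.Agent.R187.SN.KD.Low
import Crest.Agent.R187.SN.KD.L_5_5
import Crest.Agent.R187.SN.KD.L_5_6

/-!
# Row 187, PLAN S: the key lists `ks b` are the index lists `ix_5_b`
-/

set_option autoImplicit false

namespace Crest.Agent.R187.SN.Fwd

open Crest.Agent.R187.SN.Top Crest.Agent.R187.SN.KD

theorem ks1_chk : ksChk ks1 68719476736 ix_5_1 = true := by decide +kernel
theorem ks2_chk : ksChk ks2 68719476736 ix_5_2 = true := by decide +kernel
theorem ks3_chk : ksChk ks3 68719476736 ix_5_3 = true := by decide +kernel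
theorem ks4_chk : ksChk ks4 68719476736 ix_5_4 = true := by decide +kernel
theorem ks5_chk : ksChk ks5 68719476736 ix_5_5 = true := by decide +kernel
theorem ks6_chk : ksChk ks6 68719476736 ix_5_6 = true := by decide +kernel

end Crest.Agent.R187.SN.Fwd
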