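import Crest.Agent.R187.SN.WOk
import Crest.Agent.R187.SN.KDec
import Crest.Agent.R187.SN.KE.Low
import Crest.Agent.R187.SN.KD.Low
import Crest.Agent.R187.SN.KD.L_5_5
import Crest.Agent.R187.SN.TD.W1_0
import Crest.Agent.R187.SN.TD.W2_0
import Crest.Agent.R187.SN.TD.W3_0
import Crest.Agent.R187.SN.TD.W4_0
import Crest.Agent.R187.SN.TD.W5_0

/-!
# Row 187, PLAN S, block E4: kernel checks of the `W` tables (W1_0, W2_0, W3_0, W4_0, W5_0)
-/

set_option autoImplicit false
set_option Elab.async false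

namespace Crest.Agent.R187.SN.Top

open Crest.Agent.R187.SN.KD Crest.Agent.R187.SN.KE Crest.Agent.R187.SN.KDec Crest.Agent.R187.SN.WOk

theorem W1_5368709120_chk : wChk (nbDec bN_5_0) 0 ix_5_0 ix_5_1 W1_5368709120 = true := by
  decide +kernel

theorem W2_6509559808_chk : wChk (nbDec bN_5_1) 5 ix_5_1 ix_5_2 W2_6509559808 = true := by
  decide +kernel

theorem W2_8623489024_chk : wChk (nbDec bN_5_1) 5 ix_5_1 ix_5_2 W2_8623489024 = true := by
  decide +kernel

theorem W2_10737418240_chk : wChk (nbDec bN_5_1) 5 ix_5_1 ix_5_2 W2_10737418240 = true := by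
  decide +kernel

theorem W3_6543900672_chk : wChk (nbDec bN_5_2) 10 ix_5_2 ix_5_3 W3_6543900672 = true := by
  decide +kernel

theorem W3_7584350208_chk : wChk (nbDec bN_5_2) 10 ix_5_2 ix_5_3 W3_7584350208 = true := by
  decide +kernel

theorem W3_8674344960_chk : wChk (nbDec bN_5_2) 10 ix_5_2 ix_5_3 W3_8674344960 = true := by
  decide +kernel

theorem W3_8690860032_chk : wChk (nbDec bN_5_2) 10 ix_5_2 ix_5_3 W3_8690860032 = true := by
  decide +kernel

theorem W3_9731309568_chk : wChk (nbDec bN_5_2) 10 ix_5_2 ix_5_3 W3_9731309568 = true := by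
  decide +kernel

theorem W3_9764339712_chk : wChk (nbDec bN_5_2) 10 ix_5_2 ix_5_3 W3_9764339712 = true := by
  decide +kernel

theorem W3_10804789248_chk : wChk (nbDec bN_5_2) 10 ix_5_2 ix_5_3 W3_10804789248 = true := by
  decide +kernel

theorem W3_10821304320_chk : wChk (nbDec bN_5_2) 10 ix_5_2 ix_5_3 W3_10821304320 = true := by
  decide +kernel

theorem W3_11845238784_chk : wChk (nbDec bN_5_2) 10 ix_5_2 ix_5_3 W3_11845238784 = true := by
  decide +kernel

theorem W3_11878268928_chk : wChk (nbDec bN_5_2) 10 ix_5_2 ix_5_3 W3_11878268928 = true := by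
  decide +kernel

theorem W3_12935233536_chk : wChk (nbDec bN_5_2) 10 ix_5_2 ix_5_3 W3_12935233536 = true := by
  decide +kernel

theorem W3_13992198144_chk : wChk (nbDec bN_5_2) 10 ix_5_2 ix_5_3 W3_13992198144 = true := by
  decide +kernel

theorem W3_16106127360_chk : wChk (nbDec bN_5_2) 10 ix_5_2 ix_5_3 W3_16106127360 = true := by
  decide +kernel

theorem W4_6544695296_chk : wChk (nbDec bN_5_3) 15 ix_5_3 ix_5_4 W4_6544695296 = true := by
  decide +kernel

theorem W4_7617916928_chk : wChk (nbDec bN_5_3) 15 ix_5_3 ix_5_4 W4_7617916928 = true := by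
  decide +kernel

theorem W4_8658108416_chk : wChk (nbDec bN_5_3) 15 ix_5_3 ix_5_4 W4_8658108416 = true := by
  decide +kernel

theorem W4_8691654656_chk : wChk (nbDec bN_5_3) 15 ix_5_3 ix_5_4 W4_8691654656 = true := by
  decide +kernel

theorem W4_8691912704_chk : wChk (nbDec bN_5_3) 15 ix_5_3 ix_5_4 W4_8691912704 = true := by
  decide +kernel

theorem W4_8692170752_chk : wChk (nbDec bN_5_3) 15 ix_5_3 ix_5_4 W4_8692170752 = true := by
  decide +kernel

theorem W4_8708427776_chk : wChk (nbDec bN_5_3) 15 ix_5_3 ix_5_4 W4_8708427776 = true := by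
  decide +kernel

theorem W4_8724684800_chk : wChk (nbDec bN_5_3) 15 ix_5_3 ix_5_4 W4_8724684800 = true := by
  decide +kernel

theorem W4_8725200896_chk : wChk (nbDec bN_5_3) 15 ix_5_3 ix_5_4 W4_8725200896 = true := by
  decide +kernel

theorem W4_9748619264_chk : wChk (nbDec bN_5_3) 15 ix_5_3 ix_5_4 W4_9748619264 = true := by
  decide +kernel

theorem W4_9765134336_chk : wChk (nbDec bN_5_3) 15 ix_5_3 ix_5_4 W4_9765134336 = true := by
  decide +kernel

theorem W4_9765392384_chk : wChk (nbDec bN_5_3) 15 ix_5_3 ix_5_4 W4_9765392384 = true := by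
  decide +kernel

theorem W4_9765650432_chk : wChk (nbDec bN_5_3) 15 ix_5_3 ix_5_4 W4_9765650432 = true := by
  decide +kernel

theorem W4_9781907456_chk : wChk (nbDec bN_5_3) 15 ix_5_3 ix_5_4 W4_9781907456 = true := by
  decide +kernel

theorem W4_9782165504_chk : wChk (nbDec bN_5_3) 15 ix_5_3 ix_5_4 W4_9782165504 = true := by
  decide +kernel

theorem W4_9798422528_chk : wChk (nbDec bN_5_3) 15 ix_5_3 ix_5_4 W4_9798422528 = true := by
  decide +kernel

theorem W4_9798680576_chk : wChk (nbDec bN_5_3) 15 ix_5_3 ix_5_4 W4_9798680576 = true := by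
  decide +kernel

theorem W4_10805583872_chk : wChk (nbDec bN_5_3) 15 ix_5_3 ix_5_4 W4_10805583872 = true := by
  decide +kernel

theorem W4_10822356992_chk : wChk (nbDec bN_5_3) 15 ix_5_3 ix_5_4 W4_10822356992 = true := by
  decide +kernel

theorem W4_10838614016_chk : wChk (nbDec bN_5_3) 15 ix_5_3 ix_5_4 W4_10838614016 = true := by
  decide +kernel

theorem W4_10838872064_chk : wChk (nbDec bN_5_3) 15 ix_5_3 ix_5_4 W4_10838872064 = true := by
  decide +kernel

theorem W4_10839130112_chk : wChk (nbDec bN_5_3) 15 ix_5_3 ix_5_4 W4_10839130112 = true := by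
  decide +kernel

theorem W4_10855387136_chk : wChk (nbDec bN_5_3) 15 ix_5_3 ix_5_4 W4_10855387136 = true := by
  decide +kernel

theorem W4_10855645184_chk : wChk (nbDec bN_5_3) 15 ix_5_3 ix_5_4 W4_10855645184 = true := by
  decide +kernel

theorem W4_10872160256_chk : wChk (nbDec bN_5_3) 15 ix_5_3 ix_5_4 W4_10872160256 = true := by
  decide +kernel

theorem W4_10888675328_chk : wChk (nbDec bN_5_3) 15 ix_5_3 ix_5_4 W4_10888675328 = true := by
  decide +kernel

theorem W4_10905190400_chk : wChk (nbDec bN_5_3) 15 ix_5_3 ix_5_4 W4_10905190400 = true := by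
  decide +kernel

theorem W4_11879321600_chk : wChk (nbDec bN_5_3) 15 ix_5_3 ix_5_4 W4_11879321600 = true := by
  decide +kernel

theorem W4_11895578624_chk : wChk (nbDec bN_5_3) 15 ix_5_3 ix_5_4 W4_11895578624 = true := by
  decide +kernel

theorem W4_11895836672_chk : wChk (nbDec bN_5_3) 15 ix_5_3 ix_5_4 W4_11895836672 = true := by
  decide +kernel

theorem W4_11896094720_chk : wChk (nbDec bN_5_3) 15 ix_5_3 ix_5_4 W4_11896094720 = true := by
  decide +kernel

theorem W4_11912351744_chk : wChk (nbDec bN_5_3) 15 ix_5_3 ix_5_4 W4_11912351744 = true := by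
  decide +kernel

theorem W4_11912609792_chk : wChk (nbDec bN_5_3) 15 ix_5_3 ix_5_4 W4_11912609792 = true := by
  decide +kernel

theorem W4_11928866816_chk : wChk (nbDec bN_5_3) 15 ix_5_3 ix_5_4 W4_11928866816 = true := by
  decide +kernel

theorem W4_11929124864_chk : wChk (nbDec bN_5_3) 15 ix_5_3 ix_5_4 W4_11929124864 = true := by
  decide +kernel

theorem W4_11945639936_chk : wChk (nbDec bN_5_3) 15 ix_5_3 ix_5_4 W4_11945639936 = true := by
  decide +kernel

theorem W4_12952543232_chk : wChk (nbDec bN_5_3) 15 ix_5_3 ix_5_4 W4_12952543232 = true := by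
  decide +kernel

theorem W4_12953059328_chk : wChk (nbDec bN_5_3) 15 ix_5_3 ix_5_4 W4_12953059328 = true := by
  decide +kernel

theorem W4_12969316352_chk : wChk (nbDec bN_5_3) 15 ix_5_3 ix_5_4 W4_12969316352 = true := by
  decide +kernel

theorem W4_12969574400_chk : wChk (nbDec bN_5_3) 15 ix_5_3 ix_5_4 W4_12969574400 = true := by
  decide +kernel

theorem W4_12986089472_chk : wChk (nbDec bN_5_3) 15 ix_5_3 ix_5_4 W4_12986089472 = true := by
  decide +kernel

theorem W4_13002604544_chk : wChk (nbDec bN_5_3) 15 ix_5_3 ix_5_4 W4_13002604544 = true := by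
  decide +kernel

theorem W4_13019119616_chk : wChk (nbDec bN_5_3) 15 ix_5_3 ix_5_4 W4_13019119616 = true := by
  decide +kernel

theorem W4_14026280960_chk : wChk (nbDec bN_5_3) 15 ix_5_3 ix_5_4 W4_14026280960 = true := by
  decide +kernel

theorem W4_14026539008_chk : wChk (nbDec bN_5_3) 15 ix_5_3 ix_5_4 W4_14026539008 = true := by
  decide +kernel

theorem W4_14043054080_chk : wChk (nbDec bN_5_3) 15 ix_5_3 ix_5_4 W4_14043054080 = true := by
  decide +kernel

theorem W4_14059569152_chk : wChk (nbDec bN_5_3) 15 ix_5_3 ix_5_4 W4_14059569152 = true := by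
  decide +kernel

theorem W4_14076084224_chk : wChk (nbDec bN_5_3) 15 ix_5_3 ix_5_4 W4_14076084224 = true := by
  decide +kernel

theorem W4_15066472448_chk : wChk (nbDec bN_5_3) 15 ix_5_3 ix_5_4 W4_15066472448 = true := by
  decide +kernel

theorem W4_15100018688_chk : wChk (nbDec bN_5_3) 15 ix_5_3 ix_5_4 W4_15100018688 = true := by
  decide +kernel

theorem W4_15116533760_chk : wChk (nbDec bN_5_3) 15 ix_5_3 ix_5_4 W4_15116533760 = true := by
  decide +kernel

theorem W4_15133048832_chk : wChk (nbDec bN_5_3) 15 ix_5_3 ix_5_4 W4_15133048832 = true := by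
  decide +kernel

theorem W4_16156983296_chk : wChk (nbDec bN_5_3) 15 ix_5_3 ix_5_4 W4_16156983296 = true := by
  decide +kernel

theorem W4_16173498368_chk : wChk (nbDec bN_5_3) 15 ix_5_3 ix_5_4 W4_16173498368 = true := by
  decide +kernel

theorem W4_16190013440_chk : wChk (nbDec bN_5_3) 15 ix_5_3 ix_5_4 W4_16190013440 = true := by
  decide +kernel

theorem W4_17213947904_chk : wChk (nbDec bN_5_3) 15 ix_5_3 ix_5_4 W4_17213947904 = true := by
  decide +kernel

theorem W4_17246978048_chk : wChk (nbDec bN_5_3) 15 ix_5_3 ix_5_4 W4_17246978048 = true := by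
  decide +kernel

theorem W4_18303942656_chk : wChk (nbDec bN_5_3) 15 ix_5_3 ix_5_4 W4_18303942656 = true := by
  decide +kernel

theorem W4_19360907264_chk : wChk (nbDec bN_5_3) 15 ix_5_3 ix_5_4 W4_19360907264 = true := by
  decide +kernel

theorem W4_21474836480_chk : wChk (nbDec bN_5_3) 15 ix_5_3 ix_5_4 W4_21474836480 = true := by
  decide +kernel

theorem W5_6544711744_chk : wChk (nbDec bN_5_4) 20 ix_5_4 ix_5_5 W5_6544711744 = true := by
  decide +kernel

theorem W5_7618445440_chk : wChk (nbDec bN_5_4) 20 ix_5_4 ix_5_5 W5_7618445440 = true := by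
  decide +kernel

theorem W5_7634956480_chk : wChk (nbDec bN_5_4) 20 ix_5_4 ix_5_5 W5_7634956480 = true := by
  decide +kernel

theorem W5_8691663040_chk : wChk (nbDec bN_5_4) 20 ix_5_4 ix_5_5 W5_8691663040 = true := by
  decide +kernel

theorem W5_8692183168_chk : wChk (nbDec bN_5_4) 20 ix_5_4 ix_5_5 W5_8692183168 = true := by
  decide +kernel

theorem W5_8692187200_chk : wChk (nbDec bN_5_4) 20 ix_5_4 ix_5_5 W5_8692187200 = true := by
  decide +kernel

theorem W5_8692191232_chk : wChk (nbDec bN_5_4) 20 ix_5_4 ix_5_5 W5_8692191232 = true := by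
  decide +kernel

theorem W5_8708440192_chk : wChk (nbDec bN_5_4) 20 ix_5_4 ix_5_5 W5_8708440192 = true := by
  decide +kernel

theorem W5_8708702272_chk : wChk (nbDec bN_5_4) 20 ix_5_4 ix_5_5 W5_8708702272 = true := by
  decide +kernel

theorem W5_8708960320_chk : wChk (nbDec bN_5_4) 20 ix_5_4 ix_5_5 W5_8708960320 = true := by
  decide +kernel

theorem W5_8708964352_chk : wChk (nbDec bN_5_4) 20 ix_5_4 ix_5_5 W5_8708964352 = true := by
  decide +kernel

theorem W5_8725217344_chk : wChk (nbDec bN_5_4) 20 ix_5_4 ix_5_5 W5_8725217344 = true := by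
  decide +kernel

theorem W5_8725471360_chk : wChk (nbDec bN_5_4) 20 ix_5_4 ix_5_5 W5_8725471360 = true := by
  decide +kernel

theorem W5_8725479424_chk : wChk (nbDec bN_5_4) 20 ix_5_4 ix_5_5 W5_8725479424 = true := by
  decide +kernel

theorem W5_8725733440_chk : wChk (nbDec bN_5_4) 20 ix_5_4 ix_5_5 W5_8725733440 = true := by
  decide +kernel

theorem W5_8725737472_chk : wChk (nbDec bN_5_4) 20 ix_5_4 ix_5_5 W5_8725737472 = true := by
  decide +kernel

theorem W5_8725995520_chk : wChk (nbDec bN_5_4) 20 ix_5_4 ix_5_5 W5_8725995520 = true := by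
  decide +kernel

theorem W5_9731850496_chk : wChk (nbDec bN_5_4) 20 ix_5_4 ix_5_5 W5_9731850496 = true := by
  decide +kernel

theorem W5_9765404800_chk : wChk (nbDec bN_5_4) 20 ix_5_4 ix_5_5 W5_9765404800 = true := by
  decide +kernel

theorem W5_9765662848_chk : wChk (nbDec bN_5_4) 20 ix_5_4 ix_5_5 W5_9765662848 = true := by
  decide +kernel

theorem W5_9765666880_chk : wChk (nbDec bN_5_4) 20 ix_5_4 ix_5_5 W5_9765666880 = true := by
  decide +kernel

theorem W5_9765920896_chk : wChk (nbDec bN_5_4) 20 ix_5_4 ix_5_5 W5_9765920896 = true := by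
  decide +kernel

theorem W5_9765924928_chk : wChk (nbDec bN_5_4) 20 ix_5_4 ix_5_5 W5_9765924928 = true := by
  decide +kernel

theorem W5_9765928960_chk : wChk (nbDec bN_5_4) 20 ix_5_4 ix_5_5 W5_9765928960 = true := by
  decide +kernel

theorem W5_9782177920_chk : wChk (nbDec bN_5_4) 20 ix_5_4 ix_5_5 W5_9782177920 = true := by
  decide +kernel

theorem W5_9782181952_chk : wChk (nbDec bN_5_4) 20 ix_5_4 ix_5_5 W5_9782181952 = true := by
  decide +kernel

theorem W5_9782440000_chk : wChk (nbDec bN_5_4) 20 ix_5_4 ix_5_5 W5_9782440000 = true := by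
  decide +kernel

theorem W5_9782444032_chk : wChk (nbDec bN_5_4) 20 ix_5_4 ix_5_5 W5_9782444032 = true := by
  decide +kernel

theorem W5_9782698048_chk : wChk (nbDec bN_5_4) 20 ix_5_4 ix_5_5 W5_9782698048 = true := by
  decide +kernel

theorem W5_9782702080_chk : wChk (nbDec bN_5_4) 20 ix_5_4 ix_5_5 W5_9782702080 = true := by
  decide +kernel

theorem W5_9782956096_chk : wChk (nbDec bN_5_4) 20 ix_5_4 ix_5_5 W5_9782956096 = true := by
  decide +kernel

theorem W5_9798951040_chk : wChk (nbDec bN_5_4) 20 ix_5_4 ix_5_5 W5_9798951040 = true := by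
  decide +kernel

theorem W5_9798955072_chk : wChk (nbDec bN_5_4) 20 ix_5_4 ix_5_5 W5_9798955072 = true := by
  decide +kernel

theorem W5_9798959104_chk : wChk (nbDec bN_5_4) 20 ix_5_4 ix_5_5 W5_9798959104 = true := by
  decide +kernel

theorem W5_9799213120_chk : wChk (nbDec bN_5_4) 20 ix_5_4 ix_5_5 W5_9799213120 = true := by
  decide +kernel

theorem W5_9799217152_chk : wChk (nbDec bN_5_4) 20 ix_5_4 ix_5_5 W5_9799217152 = true := by
  decide +kernel

theorem W5_9799471168_chk : wChk (nbDec bN_5_4) 20 ix_5_4 ix_5_5 W5_9799471168 = true := by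
  decide +kernel

theorem W5_9799475200_chk : wChk (nbDec bN_5_4) 20 ix_5_4 ix_5_5 W5_9799475200 = true := by
  decide +kernel

theorem W5_9799733248_chk : wChk (nbDec bN_5_4) 20 ix_5_4 ix_5_5 W5_9799733248 = true := by
  decide +kernel

theorem W5_9799991296_chk : wChk (nbDec bN_5_4) 20 ix_5_4 ix_5_5 W5_9799991296 = true := by
  decide +kernel

theorem W5_9815470144_chk : wChk (nbDec bN_5_4) 20 ix_5_4 ix_5_5 W5_9815470144 = true := by
  decide +kernel

theorem W5_9815728192_chk : wChk (nbDec bN_5_4) 20 ix_5_4 ix_5_5 W5_9815728192 = true := by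
  decide +kernel

theorem W5_9815732224_chk : wChk (nbDec bN_5_4) 20 ix_5_4 ix_5_5 W5_9815732224 = true := by
  decide +kernel

theorem W5_9815986240_chk : wChk (nbDec bN_5_4) 20 ix_5_4 ix_5_5 W5_9815986240 = true := by
  decide +kernel

theorem W5_9815990272_chk : wChk (nbDec bN_5_4) 20 ix_5_4 ix_5_5 W5_9815990272 = true := by
  decide +kernel

theorem W5_9816248320_chk : wChk (nbDec bN_5_4) 20 ix_5_4 ix_5_5 W5_9816248320 = true := by
  decide +kernel

theorem W5_10822369408_chk : wChk (nbDec bN_5_4) 20 ix_5_4 ix_5_5 W5_10822369408 = true := by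
  decide +kernel

theorem W5_10839142528_chk : wChk (nbDec bN_5_4) 20 ix_5_4 ix_5_5 W5_10839142528 = true := by
  decide +kernel

theorem W5_10839146560_chk : wChk (nbDec bN_5_4) 20 ix_5_4 ix_5_5 W5_10839146560 = true := by
  decide +kernel

theorem W5_10839400576_chk : wChk (nbDec bN_5_4) 20 ix_5_4 ix_5_5 W5_10839400576 = true := by
  decide +kernel

theorem W5_10839404608_chk : wChk (nbDec bN_5_4) 20 ix_5_4 ix_5_5 W5_10839404608 = true := by
  decide +kernel

theorem W5_10839408640_chk : wChk (nbDec bN_5_4) 20 ix_5_4 ix_5_5 W5_10839408640 = true := by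
  decide +kernel

theorem W5_10839662656_chk : wChk (nbDec bN_5_4) 20 ix_5_4 ix_5_5 W5_10839662656 = true := by
  decide +kernel

theorem W5_10839666688_chk : wChk (nbDec bN_5_4) 20 ix_5_4 ix_5_5 W5_10839666688 = true := by
  decide +kernel

theorem W5_10855915648_chk : wChk (nbDec bN_5_4) 20 ix_5_4 ix_5_5 W5_10855915648 = true := by
  decide +kernel

theorem W5_10855919680_chk : wChk (nbDec bN_5_4) 20 ix_5_4 ix_5_5 W5_10855919680 = true := by
  decide +kernel

theorem W5_10855923712_chk : wChk (nbDec bN_5_4) 20 ix_5_4 ix_5_5 W5_10855923712 = true := by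
  decide +kernel

theorem W5_10856177728_chk : wChk (nbDec bN_5_4) 20 ix_5_4 ix_5_5 W5_10856177728 = true := by
  decide +kernel

theorem W5_10856181760_chk : wChk (nbDec bN_5_4) 20 ix_5_4 ix_5_5 W5_10856181760 = true := by
  decide +kernel

theorem W5_10856435776_chk : wChk (nbDec bN_5_4) 20 ix_5_4 ix_5_5 W5_10856435776 = true := by
  decide +kernel

theorem W5_10856439808_chk : wChk (nbDec bN_5_4) 20 ix_5_4 ix_5_5 W5_10856439808 = true := by
  decide +kernel

theorem W5_10856697856_chk : wChk (nbDec bN_5_4) 20 ix_5_4 ix_5_5 W5_10856697856 = true := by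
  decide +kernel

theorem W5_10872430720_chk : wChk (nbDec bN_5_4) 20 ix_5_4 ix_5_5 W5_10872430720 = true := by
  decide +kernel

theorem W5_10872692800_chk : wChk (nbDec bN_5_4) 20 ix_5_4 ix_5_5 W5_10872692800 = true := by
  decide +kernel

theorem W5_10872696832_chk : wChk (nbDec bN_5_4) 20 ix_5_4 ix_5_5 W5_10872696832 = true := by
  decide +kernel

theorem W5_10872950848_chk : wChk (nbDec bN_5_4) 20 ix_5_4 ix_5_5 W5_10872950848 = true := by
  decide +kernel

theorem W5_10872954880_chk : wChk (nbDec bN_5_4) 20 ix_5_4 ix_5_5 W5_10872954880 = true := by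
  decide +kernel

theorem W5_10873212928_chk : wChk (nbDec bN_5_4) 20 ix_5_4 ix_5_5 W5_10873212928 = true := by
  decide +kernel

theorem W5_10873470976_chk : wChk (nbDec bN_5_4) 20 ix_5_4 ix_5_5 W5_10873470976 = true := by
  decide +kernel

theorem W5_10889207872_chk : wChk (nbDec bN_5_4) 20 ix_5_4 ix_5_5 W5_10889207872 = true := by
  decide +kernel

theorem W5_10889211904_chk : wChk (nbDec bN_5_4) 20 ix_5_4 ix_5_5 W5_10889211904 = true := by
  decide +kernel

theorem W5_10889465920_chk : wChk (nbDec bN_5_4) 20 ix_5_4 ix_5_5 W5_10889465920 = true := by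
  decide +kernel

theorem W5_10889469952_chk : wChk (nbDec bN_5_4) 20 ix_5_4 ix_5_5 W5_10889469952 = true := by
  decide +kernel

theorem W5_10889728000_chk : wChk (nbDec bN_5_4) 20 ix_5_4 ix_5_5 W5_10889728000 = true := by
  decide +kernel

theorem W5_10889986048_chk : wChk (nbDec bN_5_4) 20 ix_5_4 ix_5_5 W5_10889986048 = true := by
  decide +kernel

theorem W5_10905722944_chk : wChk (nbDec bN_5_4) 20 ix_5_4 ix_5_5 W5_10905722944 = true := by
  decide +kernel

theorem W5_10905985024_chk : wChk (nbDec bN_5_4) 20 ix_5_4 ix_5_5 W5_10905985024 = true := by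
  decide +kernel

theorem W5_10906243072_chk : wChk (nbDec bN_5_4) 20 ix_5_4 ix_5_5 W5_10906243072 = true := by
  decide +kernel

theorem W5_10906501120_chk : wChk (nbDec bN_5_4) 20 ix_5_4 ix_5_5 W5_10906501120 = true := by
  decide +kernel

theorem W5_11879334016_chk : wChk (nbDec bN_5_4) 20 ix_5_4 ix_5_5 W5_11879334016 = true := by
  decide +kernel

theorem W5_11896369216_chk : wChk (nbDec bN_5_4) 20 ix_5_4 ix_5_5 W5_11896369216 = true := by
  decide +kernel

theorem W5_11912880256_chk : wChk (nbDec bN_5_4) 20 ix_5_4 ix_5_5 W5_11912880256 = true := by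
  decide +kernel

theorem W5_11912884288_chk : wChk (nbDec bN_5_4) 20 ix_5_4 ix_5_5 W5_11912884288 = true := by
  decide +kernel

theorem W5_11912888320_chk : wChk (nbDec bN_5_4) 20 ix_5_4 ix_5_5 W5_11912888320 = true := by
  decide +kernel

theorem W5_11913142336_chk : wChk (nbDec bN_5_4) 20 ix_5_4 ix_5_5 W5_11913142336 = true := by
  decide +kernel

theorem W5_11913146368_chk : wChk (nbDec bN_5_4) 20 ix_5_4 ix_5_5 W5_11913146368 = true := by
  decide +kernel

theorem W5_11913404416_chk : wChk (nbDec bN_5_4) 20 ix_5_4 ix_5_5 W5_11913404416 = true := by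
  decide +kernel

theorem W5_11929399360_chk : wChk (nbDec bN_5_4) 20 ix_5_4 ix_5_5 W5_11929399360 = true := by
  decide +kernel

theorem W5_11929657408_chk : wChk (nbDec bN_5_4) 20 ix_5_4 ix_5_5 W5_11929657408 = true := by
  decide +kernel

theorem W5_11929661440_chk : wChk (nbDec bN_5_4) 20 ix_5_4 ix_5_5 W5_11929661440 = true := by
  decide +kernel

theorem W5_11929915456_chk : wChk (nbDec bN_5_4) 20 ix_5_4 ix_5_5 W5_11929915456 = true := by
  decide +kernel

theorem W5_11929919488_chk : wChk (nbDec bN_5_4) 20 ix_5_4 ix_5_5 W5_11929919488 = true := by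
  decide +kernel

theorem W5_11930177536_chk : wChk (nbDec bN_5_4) 20 ix_5_4 ix_5_5 W5_11930177536 = true := by
  decide +kernel

theorem W5_11945910400_chk : wChk (nbDec bN_5_4) 20 ix_5_4 ix_5_5 W5_11945910400 = true := by
  decide +kernel

theorem W5_11946172480_chk : wChk (nbDec bN_5_4) 20 ix_5_4 ix_5_5 W5_11946172480 = true := by
  decide +kernel

theorem W5_11946176512_chk : wChk (nbDec bN_5_4) 20 ix_5_4 ix_5_5 W5_11946176512 = true := by
  decide +kernel

theorem W5_11946430528_chk : wChk (nbDec bN_5_4) 20 ix_5_4 ix_5_5 W5_11946430528 = true := by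
  decide +kernel

theorem W5_11946434560_chk : wChk (nbDec bN_5_4) 20 ix_5_4 ix_5_5 W5_11946434560 = true := by
  decide +kernel

theorem W5_11946692608_chk : wChk (nbDec bN_5_4) 20 ix_5_4 ix_5_5 W5_11946692608 = true := by
  decide +kernel

theorem W5_11946950656_chk : wChk (nbDec bN_5_4) 20 ix_5_4 ix_5_5 W5_11946950656 = true := by
  decide +kernel

theorem W5_11962687552_chk : wChk (nbDec bN_5_4) 20 ix_5_4 ix_5_5 W5_11962687552 = true := by
  decide +kernel

theorem W5_11962945600_chk : wChk (nbDec bN_5_4) 20 ix_5_4 ix_5_5 W5_11962945600 = true := by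
  decide +kernel

theorem W5_11962949632_chk : wChk (nbDec bN_5_4) 20 ix_5_4 ix_5_5 W5_11962949632 = true := by
  decide +kernel

theorem W5_11963207680_chk : wChk (nbDec bN_5_4) 20 ix_5_4 ix_5_5 W5_11963207680 = true := by
  decide +kernel

theorem W5_11963465728_chk : wChk (nbDec bN_5_4) 20 ix_5_4 ix_5_5 W5_11963465728 = true := by
  decide +kernel

theorem W5_11979464704_chk : wChk (nbDec bN_5_4) 20 ix_5_4 ix_5_5 W5_11979464704 = true := by
  decide +kernel

theorem W5_11979722752_chk : wChk (nbDec bN_5_4) 20 ix_5_4 ix_5_5 W5_11979722752 = true := by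
  decide +kernel

theorem W5_11979980800_chk : wChk (nbDec bN_5_4) 20 ix_5_4 ix_5_5 W5_11979980800 = true := by
  decide +kernel

theorem W5_11995975744_chk : wChk (nbDec bN_5_4) 20 ix_5_4 ix_5_5 W5_11995975744 = true := by
  decide +kernel

theorem W5_11996237824_chk : wChk (nbDec bN_5_4) 20 ix_5_4 ix_5_5 W5_11996237824 = true := by
  decide +kernel

theorem W5_12953075776_chk : wChk (nbDec bN_5_4) 20 ix_5_4 ix_5_5 W5_12953075776 = true := by
  decide +kernel

theorem W5_12969844864_chk : wChk (nbDec bN_5_4) 20 ix_5_4 ix_5_5 W5_12969844864 = true := by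
  decide +kernel

theorem W5_12969852928_chk : wChk (nbDec bN_5_4) 20 ix_5_4 ix_5_5 W5_12969852928 = true := by
  decide +kernel

theorem W5_12970106944_chk : wChk (nbDec bN_5_4) 20 ix_5_4 ix_5_5 W5_12970106944 = true := by
  decide +kernel

theorem W5_12986622016_chk : wChk (nbDec bN_5_4) 20 ix_5_4 ix_5_5 W5_12986622016 = true := by
  decide +kernel

theorem W5_12986626048_chk : wChk (nbDec bN_5_4) 20 ix_5_4 ix_5_5 W5_12986626048 = true := by
  decide +kernel

theorem W5_12986880064_chk : wChk (nbDec bN_5_4) 20 ix_5_4 ix_5_5 W5_12986880064 = true := by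
  decide +kernel

theorem W5_12986884096_chk : wChk (nbDec bN_5_4) 20 ix_5_4 ix_5_5 W5_12986884096 = true := by
  decide +kernel

theorem W5_12987142144_chk : wChk (nbDec bN_5_4) 20 ix_5_4 ix_5_5 W5_12987142144 = true := by
  decide +kernel

theorem W5_13002875008_chk : wChk (nbDec bN_5_4) 20 ix_5_4 ix_5_5 W5_13002875008 = true := by
  decide +kernel

theorem W5_13003137088_chk : wChk (nbDec bN_5_4) 20 ix_5_4 ix_5_5 W5_13003137088 = true := by
  decide +kernel

theorem W5_13003141120_chk : wChk (nbDec bN_5_4) 20 ix_5_4 ix_5_5 W5_13003141120 = true := by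
  decide +kernel

theorem W5_13003395136_chk : wChk (nbDec bN_5_4) 20 ix_5_4 ix_5_5 W5_13003395136 = true := by
  decide +kernel

theorem W5_13003399168_chk : wChk (nbDec bN_5_4) 20 ix_5_4 ix_5_5 W5_13003399168 = true := by
  decide +kernel

theorem W5_13003657216_chk : wChk (nbDec bN_5_4) 20 ix_5_4 ix_5_5 W5_13003657216 = true := by
  decide +kernel

theorem W5_13003915264_chk : wChk (nbDec bN_5_4) 20 ix_5_4 ix_5_5 W5_13003915264 = true := by
  decide +kernel

theorem W5_13019652160_chk : wChk (nbDec bN_5_4) 20 ix_5_4 ix_5_5 W5_13019652160 = true := by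
  decide +kernel

theorem W5_13019910208_chk : wChk (nbDec bN_5_4) 20 ix_5_4 ix_5_5 W5_13019910208 = true := by
  decide +kernel

theorem W5_13019914240_chk : wChk (nbDec bN_5_4) 20 ix_5_4 ix_5_5 W5_13019914240 = true := by
  decide +kernel

theorem W5_13020172288_chk : wChk (nbDec bN_5_4) 20 ix_5_4 ix_5_5 W5_13020172288 = true := by
  decide +kernel

theorem W5_13020430336_chk : wChk (nbDec bN_5_4) 20 ix_5_4 ix_5_5 W5_13020430336 = true := by
  decide +kernel

theorem W5_13036425280_chk : wChk (nbDec bN_5_4) 20 ix_5_4 ix_5_5 W5_13036425280 = true := by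
  decide +kernel

theorem W5_13036429312_chk : wChk (nbDec bN_5_4) 20 ix_5_4 ix_5_5 W5_13036429312 = true := by
  decide +kernel

theorem W5_13036687360_chk : wChk (nbDec bN_5_4) 20 ix_5_4 ix_5_5 W5_13036687360 = true := by
  decide +kernel

theorem W5_13036945408_chk : wChk (nbDec bN_5_4) 20 ix_5_4 ix_5_5 W5_13036945408 = true := by
  decide +kernel

theorem W5_13053202432_chk : wChk (nbDec bN_5_4) 20 ix_5_4 ix_5_5 W5_13053202432 = true := by
  decide +kernel

theorem W5_13053460480_chk : wChk (nbDec bN_5_4) 20 ix_5_4 ix_5_5 W5_13053460480 = true := by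
  decide +kernel

theorem W5_13069975552_chk : wChk (nbDec bN_5_4) 20 ix_5_4 ix_5_5 W5_13069975552 = true := by
  decide +kernel

theorem W5_13086490624_chk : wChk (nbDec bN_5_4) 20 ix_5_4 ix_5_5 W5_13086490624 = true := by
  decide +kernel

theorem W5_14026809472_chk : wChk (nbDec bN_5_4) 20 ix_5_4 ix_5_5 W5_14026809472 = true := by
  decide +kernel

theorem W5_14026817536_chk : wChk (nbDec bN_5_4) 20 ix_5_4 ix_5_5 W5_14026817536 = true := by
  decide +kernel

theorem W5_14043586624_chk : wChk (nbDec bN_5_4) 20 ix_5_4 ix_5_5 W5_14043586624 = true := by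
  decide +kernel

theorem W5_14043590656_chk : wChk (nbDec bN_5_4) 20 ix_5_4 ix_5_5 W5_14043590656 = true := by
  decide +kernel

theorem W5_14043844672_chk : wChk (nbDec bN_5_4) 20 ix_5_4 ix_5_5 W5_14043844672 = true := by
  decide +kernel

theorem W5_14043848704_chk : wChk (nbDec bN_5_4) 20 ix_5_4 ix_5_5 W5_14043848704 = true := by
  decide +kernel

theorem W5_14059839616_chk : wChk (nbDec bN_5_4) 20 ix_5_4 ix_5_5 W5_14059839616 = true := by
  decide +kernel

theorem W5_14060101696_chk : wChk (nbDec bN_5_4) 20 ix_5_4 ix_5_5 W5_14060101696 = true := by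
  decide +kernel

theorem W5_14060105728_chk : wChk (nbDec bN_5_4) 20 ix_5_4 ix_5_5 W5_14060105728 = true := by
  decide +kernel

theorem W5_14060359744_chk : wChk (nbDec bN_5_4) 20 ix_5_4 ix_5_5 W5_14060359744 = true := by
  decide +kernel

theorem W5_14060363776_chk : wChk (nbDec bN_5_4) 20 ix_5_4 ix_5_5 W5_14060363776 = true := by
  decide +kernel

theorem W5_14060621824_chk : wChk (nbDec bN_5_4) 20 ix_5_4 ix_5_5 W5_14060621824 = true := by
  decide +kernel

theorem W5_14060879872_chk : wChk (nbDec bN_5_4) 20 ix_5_4 ix_5_5 W5_14060879872 = true := by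
  decide +kernel

theorem W5_14076874816_chk : wChk (nbDec bN_5_4) 20 ix_5_4 ix_5_5 W5_14076874816 = true := by
  decide +kernel

theorem W5_14076878848_chk : wChk (nbDec bN_5_4) 20 ix_5_4 ix_5_5 W5_14076878848 = true := by
  decide +kernel

theorem W5_14077136896_chk : wChk (nbDec bN_5_4) 20 ix_5_4 ix_5_5 W5_14077136896 = true := by
  decide +kernel

theorem W5_14077394944_chk : wChk (nbDec bN_5_4) 20 ix_5_4 ix_5_5 W5_14077394944 = true := by
  decide +kernel

theorem W5_14093389888_chk : wChk (nbDec bN_5_4) 20 ix_5_4 ix_5_5 W5_14093389888 = true := by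
  decide +kernel

theorem W5_14093393920_chk : wChk (nbDec bN_5_4) 20 ix_5_4 ix_5_5 W5_14093393920 = true := by
  decide +kernel

theorem W5_14093651968_chk : wChk (nbDec bN_5_4) 20 ix_5_4 ix_5_5 W5_14093651968 = true := by
  decide +kernel

theorem W5_14093910016_chk : wChk (nbDec bN_5_4) 20 ix_5_4 ix_5_5 W5_14093910016 = true := by
  decide +kernel

theorem W5_14110167040_chk : wChk (nbDec bN_5_4) 20 ix_5_4 ix_5_5 W5_14110167040 = true := by
  decide +kernel

theorem W5_14110425088_chk : wChk (nbDec bN_5_4) 20 ix_5_4 ix_5_5 W5_14110425088 = true := by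
  decide +kernel

theorem W5_14126682112_chk : wChk (nbDec bN_5_4) 20 ix_5_4 ix_5_5 W5_14126682112 = true := by
  decide +kernel

theorem W5_14126940160_chk : wChk (nbDec bN_5_4) 20 ix_5_4 ix_5_5 W5_14126940160 = true := by
  decide +kernel

theorem W5_14143455232_chk : wChk (nbDec bN_5_4) 20 ix_5_4 ix_5_5 W5_14143455232 = true := by
  decide +kernel

theorem W5_14159970304_chk : wChk (nbDec bN_5_4) 20 ix_5_4 ix_5_5 W5_14159970304 = true := by
  decide +kernel

theorem W5_15100551232_chk : wChk (nbDec bN_5_4) 20 ix_5_4 ix_5_5 W5_15100551232 = true := by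
  decide +kernel

theorem W5_15100555264_chk : wChk (nbDec bN_5_4) 20 ix_5_4 ix_5_5 W5_15100555264 = true := by
  decide +kernel

theorem W5_15116804224_chk : wChk (nbDec bN_5_4) 20 ix_5_4 ix_5_5 W5_15116804224 = true := by
  decide +kernel

theorem W5_15117066304_chk : wChk (nbDec bN_5_4) 20 ix_5_4 ix_5_5 W5_15117066304 = true := by
  decide +kernel

theorem W5_15117324352_chk : wChk (nbDec bN_5_4) 20 ix_5_4 ix_5_5 W5_15117324352 = true := by
  decide +kernel

theorem W5_15117328384_chk : wChk (nbDec bN_5_4) 20 ix_5_4 ix_5_5 W5_15117328384 = true := by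
  decide +kernel

theorem W5_15117586432_chk : wChk (nbDec bN_5_4) 20 ix_5_4 ix_5_5 W5_15117586432 = true := by
  decide +kernel

theorem W5_15133581376_chk : wChk (nbDec bN_5_4) 20 ix_5_4 ix_5_5 W5_15133581376 = true := by
  decide +kernel

theorem W5_15133843456_chk : wChk (nbDec bN_5_4) 20 ix_5_4 ix_5_5 W5_15133843456 = true := by
  decide +kernel

theorem W5_15134101504_chk : wChk (nbDec bN_5_4) 20 ix_5_4 ix_5_5 W5_15134101504 = true := by
  decide +kernel

theorem W5_15134359552_chk : wChk (nbDec bN_5_4) 20 ix_5_4 ix_5_5 W5_15134359552 = true := by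
  decide +kernel

theorem W5_15150354496_chk : wChk (nbDec bN_5_4) 20 ix_5_4 ix_5_5 W5_15150354496 = true := by
  decide +kernel

theorem W5_15150358528_chk : wChk (nbDec bN_5_4) 20 ix_5_4 ix_5_5 W5_15150358528 = true := by
  decide +kernel

theorem W5_15150616576_chk : wChk (nbDec bN_5_4) 20 ix_5_4 ix_5_5 W5_15150616576 = true := by
  decide +kernel

theorem W5_15150874624_chk : wChk (nbDec bN_5_4) 20 ix_5_4 ix_5_5 W5_15150874624 = true := by
  decide +kernel

theorem W5_15167131648_chk : wChk (nbDec bN_5_4) 20 ix_5_4 ix_5_5 W5_15167131648 = true := by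
  decide +kernel

theorem W5_15167389696_chk : wChk (nbDec bN_5_4) 20 ix_5_4 ix_5_5 W5_15167389696 = true := by
  decide +kernel

theorem W5_15183646720_chk : wChk (nbDec bN_5_4) 20 ix_5_4 ix_5_5 W5_15183646720 = true := by
  decide +kernel

theorem W5_15183904768_chk : wChk (nbDec bN_5_4) 20 ix_5_4 ix_5_5 W5_15183904768 = true := by
  decide +kernel

theorem W5_15200419840_chk : wChk (nbDec bN_5_4) 20 ix_5_4 ix_5_5 W5_15200419840 = true := by
  decide +kernel

theorem W5_15216934912_chk : wChk (nbDec bN_5_4) 20 ix_5_4 ix_5_5 W5_15216934912 = true := by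
  decide +kernel

theorem W5_16173768832_chk : wChk (nbDec bN_5_4) 20 ix_5_4 ix_5_5 W5_16173768832 = true := by
  decide +kernel

theorem W5_16174292992_chk : wChk (nbDec bN_5_4) 20 ix_5_4 ix_5_5 W5_16174292992 = true := by
  decide +kernel

theorem W5_16190545984_chk : wChk (nbDec bN_5_4) 20 ix_5_4 ix_5_5 W5_16190545984 = true := by
  decide +kernel

theorem W5_16190804032_chk : wChk (nbDec bN_5_4) 20 ix_5_4 ix_5_5 W5_16190804032 = true := by
  decide +kernel

theorem W5_16190808064_chk : wChk (nbDec bN_5_4) 20 ix_5_4 ix_5_5 W5_16190808064 = true := by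
  decide +kernel

theorem W5_16191066112_chk : wChk (nbDec bN_5_4) 20 ix_5_4 ix_5_5 W5_16191066112 = true := by
  decide +kernel

theorem W5_16207323136_chk : wChk (nbDec bN_5_4) 20 ix_5_4 ix_5_5 W5_16207323136 = true := by
  decide +kernel

theorem W5_16207581184_chk : wChk (nbDec bN_5_4) 20 ix_5_4 ix_5_5 W5_16207581184 = true := by
  decide +kernel

theorem W5_16207839232_chk : wChk (nbDec bN_5_4) 20 ix_5_4 ix_5_5 W5_16207839232 = true := by
  decide +kernel

theorem W5_16224096256_chk : wChk (nbDec bN_5_4) 20 ix_5_4 ix_5_5 W5_16224096256 = true := by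
  decide +kernel

theorem W5_16224354304_chk : wChk (nbDec bN_5_4) 20 ix_5_4 ix_5_5 W5_16224354304 = true := by
  decide +kernel

theorem W5_16240611328_chk : wChk (nbDec bN_5_4) 20 ix_5_4 ix_5_5 W5_16240611328 = true := by
  decide +kernel

theorem W5_16240869376_chk : wChk (nbDec bN_5_4) 20 ix_5_4 ix_5_5 W5_16240869376 = true := by
  decide +kernel

theorem W5_16257384448_chk : wChk (nbDec bN_5_4) 20 ix_5_4 ix_5_5 W5_16257384448 = true := by
  decide +kernel

theorem W5_16273899520_chk : wChk (nbDec bN_5_4) 20 ix_5_4 ix_5_5 W5_16273899520 = true := by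
  decide +kernel

theorem W5_17247510592_chk : wChk (nbDec bN_5_4) 20 ix_5_4 ix_5_5 W5_17247510592 = true := by
  decide +kernel

theorem W5_17247772672_chk : wChk (nbDec bN_5_4) 20 ix_5_4 ix_5_5 W5_17247772672 = true := by
  decide +kernel

theorem W5_17248030720_chk : wChk (nbDec bN_5_4) 20 ix_5_4 ix_5_5 W5_17248030720 = true := by
  decide +kernel

theorem W5_17264287744_chk : wChk (nbDec bN_5_4) 20 ix_5_4 ix_5_5 W5_17264287744 = true := by
  decide +kernel

theorem W5_17264545792_chk : wChk (nbDec bN_5_4) 20 ix_5_4 ix_5_5 W5_17264545792 = true := by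
  decide +kernel

theorem W5_17264803840_chk : wChk (nbDec bN_5_4) 20 ix_5_4 ix_5_5 W5_17264803840 = true := by
  decide +kernel

theorem W5_17281060864_chk : wChk (nbDec bN_5_4) 20 ix_5_4 ix_5_5 W5_17281060864 = true := by
  decide +kernel

theorem W5_17281318912_chk : wChk (nbDec bN_5_4) 20 ix_5_4 ix_5_5 W5_17281318912 = true := by
  decide +kernel

theorem W5_17297575936_chk : wChk (nbDec bN_5_4) 20 ix_5_4 ix_5_5 W5_17297575936 = true := by
  decide +kernel

theorem W5_17297833984_chk : wChk (nbDec bN_5_4) 20 ix_5_4 ix_5_5 W5_17297833984 = true := by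
  decide +kernel

theorem W5_17314349056_chk : wChk (nbDec bN_5_4) 20 ix_5_4 ix_5_5 W5_17314349056 = true := by
  decide +kernel

theorem W5_17330864128_chk : wChk (nbDec bN_5_4) 20 ix_5_4 ix_5_5 W5_17330864128 = true := by
  decide +kernel

theorem W5_18287698048_chk : wChk (nbDec bN_5_4) 20 ix_5_4 ix_5_5 W5_18287698048 = true := by
  decide +kernel

theorem W5_18321252352_chk : wChk (nbDec bN_5_4) 20 ix_5_4 ix_5_5 W5_18321252352 = true := by
  decide +kernel

theorem W5_18321510400_chk : wChk (nbDec bN_5_4) 20 ix_5_4 ix_5_5 W5_18321510400 = true := by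
  decide +kernel

theorem W5_18321768448_chk : wChk (nbDec bN_5_4) 20 ix_5_4 ix_5_5 W5_18321768448 = true := by
  decide +kernel

theorem W5_18338025472_chk : wChk (nbDec bN_5_4) 20 ix_5_4 ix_5_5 W5_18338025472 = true := by
  decide +kernel

theorem W5_18338283520_chk : wChk (nbDec bN_5_4) 20 ix_5_4 ix_5_5 W5_18338283520 = true := by
  decide +kernel

theorem W5_18354798592_chk : wChk (nbDec bN_5_4) 20 ix_5_4 ix_5_5 W5_18354798592 = true := by
  decide +kernel

theorem W5_18371313664_chk : wChk (nbDec bN_5_4) 20 ix_5_4 ix_5_5 W5_18371313664 = true := by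
  decide +kernel

theorem W5_18387828736_chk : wChk (nbDec bN_5_4) 20 ix_5_4 ix_5_5 W5_18387828736 = true := by
  decide +kernel

theorem W5_19378216960_chk : wChk (nbDec bN_5_4) 20 ix_5_4 ix_5_5 W5_19378216960 = true := by
  decide +kernel

theorem W5_19394990080_chk : wChk (nbDec bN_5_4) 20 ix_5_4 ix_5_5 W5_19394990080 = true := by
  decide +kernel

theorem W5_19395248128_chk : wChk (nbDec bN_5_4) 20 ix_5_4 ix_5_5 W5_19395248128 = true := by
  decide +kernel

theorem W5_19411763200_chk : wChk (nbDec bN_5_4) 20 ix_5_4 ix_5_5 W5_19411763200 = true := by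
  decide +kernel

theorem W5_19428278272_chk : wChk (nbDec bN_5_4) 20 ix_5_4 ix_5_5 W5_19428278272 = true := by
  decide +kernel

theorem W5_19444793344_chk : wChk (nbDec bN_5_4) 20 ix_5_4 ix_5_5 W5_19444793344 = true := by
  decide +kernel

theorem W5_20435181568_chk : wChk (nbDec bN_5_4) 20 ix_5_4 ix_5_5 W5_20435181568 = true := by
  decide +kernel

theorem W5_20468727808_chk : wChk (nbDec bN_5_4) 20 ix_5_4 ix_5_5 W5_20468727808 = true := by
  decide +kernel

theorem W5_20485242880_chk : wChk (nbDec bN_5_4) 20 ix_5_4 ix_5_5 W5_20485242880 = true := by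
  decide +kernel

theorem W5_20501757952_chk : wChk (nbDec bN_5_4) 20 ix_5_4 ix_5_5 W5_20501757952 = true := by
  decide +kernel

theorem W5_21525692416_chk : wChk (nbDec bN_5_4) 20 ix_5_4 ix_5_5 W5_21525692416 = true := by
  decide +kernel

theorem W5_21542207488_chk : wChk (nbDec bN_5_4) 20 ix_5_4 ix_5_5 W5_21542207488 = true := by
  decide +kernel

theorem W5_21558722560_chk : wChk (nbDec bN_5_4) 20 ix_5_4 ix_5_5 W5_21558722560 = true := by
  decide +kernel

theorem W5_22582657024_chk : wChk (nbDec bN_5_4) 20 ix_5_4 ix_5_5 W5_22582657024 = true := by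
  decide +kernel

theorem W5_22615687168_chk : wChk (nbDec bN_5_4) 20 ix_5_4 ix_5_5 W5_22615687168 = true := by
  decide +kernel

theorem W5_23672651776_chk : wChk (nbDec bN_5_4) 20 ix_5_4 ix_5_5 W5_23672651776 = true := by
  decide +kernel

theorem W5_24729616384_chk : wChk (nbDec bN_5_4) 20 ix_5_4 ix_5_5 W5_24729616384 = true := by
  decide +kernel

theorem W5_26843545600_chk : wChk (nbDec bN_5_4) 20 ix_5_4 ix_5_5 W5_26843545600 = true := by
  decide +kernel

end Crest.Agent.R187.SN.Top
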