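import Crest.Agent.R187.SN.WOk
import Crest.Agent.R187.SN.KDec
import Crest.Agent.R187.SN.KE.B55
import Crest.Agent.R187.SN.KD.L_5_5
import Crest.Agent.R187.SN.KD.L_5_6
import Crest.Agent.R187.SN.TD.W6_0

/-!
# Row 187, PLAN S, block E4: kernel checks of the `W` tables (W6_0)
-/

set_option autoImplicit false
set_option Elab.async false

namespace Crest.Agent.R187.SN.Top

open Crest.Agent.R187.SN.KD Crest.Agent.R187.SN.KE Crest.Agent.R187.SN.KDec Crest.Agent.R187.SN.WOk

theorem W6_6544712064_chk : wChk (nbDec bN_5_5) 25 ix_5_5 ix_5_6 W6_6544712064 = true := by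
  decide +kernel

theorem W6_8692195584_chk : wChk (nbDec bN_5_5) 25 ix_5_5 ix_5_6 W6_8692195584 = true := by
  decide +kernel

theorem W6_8725741824_chk : wChk (nbDec bN_5_5) 25 ix_5_5 ix_5_6 W6_8725741824 = true := by
  decide +kernel

theorem W6_8725749888_chk : wChk (nbDec bN_5_5) 25 ix_5_5 ix_5_6 W6_8725749888 = true := by
  decide +kernel

theorem W6_8726265984_chk : wChk (nbDec bN_5_5) 25 ix_5_5 ix_5_6 W6_8726265984 = true := by
  decide +kernel

theorem W6_8726274048_chk : wChk (nbDec bN_5_5) 25 ix_5_5 ix_5_6 W6_8726274048 = true := by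
  decide +kernel

theorem W6_9765937344_chk : wChk (nbDec bN_5_5) 25 ix_5_5 ix_5_6 W6_9765937344 = true := by
  decide +kernel

theorem W6_9782710464_chk : wChk (nbDec bN_5_5) 25 ix_5_5 ix_5_6 W6_9782710464 = true := by
  decide +kernel

theorem W6_9799483584_chk : wChk (nbDec bN_5_5) 25 ix_5_5 ix_5_6 W6_9799483584 = true := by
  decide +kernel

theorem W6_9799487616_chk : wChk (nbDec bN_5_5) 25 ix_5_5 ix_5_6 W6_9799487616 = true := by
  decide +kernel

theorem W6_9799491648_chk : wChk (nbDec bN_5_5) 25 ix_5_5 ix_5_6 W6_9799491648 = true := by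
  decide +kernel

theorem W6_9799745664_chk : wChk (nbDec bN_5_5) 25 ix_5_5 ix_5_6 W6_9799745664 = true := by
  decide +kernel

theorem W6_9799749696_chk : wChk (nbDec bN_5_5) 25 ix_5_5 ix_5_6 W6_9799749696 = true := by
  decide +kernel

theorem W6_9800007744_chk : wChk (nbDec bN_5_5) 25 ix_5_5 ix_5_6 W6_9800007744 = true := by
  decide +kernel

theorem W6_9800011776_chk : wChk (nbDec bN_5_5) 25 ix_5_5 ix_5_6 W6_9800011776 = true := by
  decide +kernel

theorem W6_9816002688_chk : wChk (nbDec bN_5_5) 25 ix_5_5 ix_5_6 W6_9816002688 = true := by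
  decide +kernel

theorem W6_9816256704_chk : wChk (nbDec bN_5_5) 25 ix_5_5 ix_5_6 W6_9816256704 = true := by
  decide +kernel

theorem W6_9816264768_chk : wChk (nbDec bN_5_5) 25 ix_5_5 ix_5_6 W6_9816264768 = true := by
  decide +kernel

theorem W6_9816518784_chk : wChk (nbDec bN_5_5) 25 ix_5_5 ix_5_6 W6_9816518784 = true := by
  decide +kernel

theorem W6_9816526848_chk : wChk (nbDec bN_5_5) 25 ix_5_5 ix_5_6 W6_9816526848 = true := by
  decide +kernel

theorem W6_9816780864_chk : wChk (nbDec bN_5_5) 25 ix_5_5 ix_5_6 W6_9816780864 = true := by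
  decide +kernel

theorem W6_10839671040_chk : wChk (nbDec bN_5_5) 25 ix_5_5 ix_5_6 W6_10839671040 = true := by
  decide +kernel

theorem W6_10839679104_chk : wChk (nbDec bN_5_5) 25 ix_5_5 ix_5_6 W6_10839679104 = true := by
  decide +kernel

theorem W6_10856448192_chk : wChk (nbDec bN_5_5) 25 ix_5_5 ix_5_6 W6_10856448192 = true := by
  decide +kernel

theorem W6_10856452224_chk : wChk (nbDec bN_5_5) 25 ix_5_5 ix_5_6 W6_10856452224 = true := by
  decide +kernel

theorem W6_10856456256_chk : wChk (nbDec bN_5_5) 25 ix_5_5 ix_5_6 W6_10856456256 = true := by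
  decide +kernel

theorem W6_10856706240_chk : wChk (nbDec bN_5_5) 25 ix_5_5 ix_5_6 W6_10856706240 = true := by
  decide +kernel

theorem W6_10872701184_chk : wChk (nbDec bN_5_5) 25 ix_5_5 ix_5_6 W6_10872701184 = true := by
  decide +kernel

theorem W6_10872963264_chk : wChk (nbDec bN_5_5) 25 ix_5_5 ix_5_6 W6_10872963264 = true := by
  decide +kernel

theorem W6_10873225344_chk : wChk (nbDec bN_5_5) 25 ix_5_5 ix_5_6 W6_10873225344 = true := by
  decide +kernel

theorem W6_10873229376_chk : wChk (nbDec bN_5_5) 25 ix_5_5 ix_5_6 W6_10873229376 = true := by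
  decide +kernel

theorem W6_10873233408_chk : wChk (nbDec bN_5_5) 25 ix_5_5 ix_5_6 W6_10873233408 = true := by
  decide +kernel

theorem W6_10873483392_chk : wChk (nbDec bN_5_5) 25 ix_5_5 ix_5_6 W6_10873483392 = true := by
  decide +kernel

theorem W6_10873487424_chk : wChk (nbDec bN_5_5) 25 ix_5_5 ix_5_6 W6_10873487424 = true := by
  decide +kernel

theorem W6_10873491456_chk : wChk (nbDec bN_5_5) 25 ix_5_5 ix_5_6 W6_10873491456 = true := by
  decide +kernel

theorem W6_10873741440_chk : wChk (nbDec bN_5_5) 25 ix_5_5 ix_5_6 W6_10873741440 = true := by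
  decide +kernel

theorem W6_10873745472_chk : wChk (nbDec bN_5_5) 25 ix_5_5 ix_5_6 W6_10873745472 = true := by
  decide +kernel

theorem W6_10873749504_chk : wChk (nbDec bN_5_5) 25 ix_5_5 ix_5_6 W6_10873749504 = true := by
  decide +kernel

theorem W6_10889736384_chk : wChk (nbDec bN_5_5) 25 ix_5_5 ix_5_6 W6_10889736384 = true := by
  decide +kernel

theorem W6_10889740416_chk : wChk (nbDec bN_5_5) 25 ix_5_5 ix_5_6 W6_10889740416 = true := by
  decide +kernel

theorem W6_10889998464_chk : wChk (nbDec bN_5_5) 25 ix_5_5 ix_5_6 W6_10889998464 = true := by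
  decide +kernel

theorem W6_10890002496_chk : wChk (nbDec bN_5_5) 25 ix_5_5 ix_5_6 W6_10890002496 = true := by
  decide +kernel

theorem W6_10890006528_chk : wChk (nbDec bN_5_5) 25 ix_5_5 ix_5_6 W6_10890006528 = true := by
  decide +kernel

theorem W6_10890260544_chk : wChk (nbDec bN_5_5) 25 ix_5_5 ix_5_6 W6_10890260544 = true := by
  decide +kernel

theorem W6_10890264576_chk : wChk (nbDec bN_5_5) 25 ix_5_5 ix_5_6 W6_10890264576 = true := by
  decide +kernel

theorem W6_10890518592_chk : wChk (nbDec bN_5_5) 25 ix_5_5 ix_5_6 W6_10890518592 = true := by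
  decide +kernel

theorem W6_10890522624_chk : wChk (nbDec bN_5_5) 25 ix_5_5 ix_5_6 W6_10890522624 = true := by
  decide +kernel

theorem W6_10906255488_chk : wChk (nbDec bN_5_5) 25 ix_5_5 ix_5_6 W6_10906255488 = true := by
  decide +kernel

theorem W6_10906517568_chk : wChk (nbDec bN_5_5) 25 ix_5_5 ix_5_6 W6_10906517568 = true := by
  decide +kernel

theorem W6_10906771584_chk : wChk (nbDec bN_5_5) 25 ix_5_5 ix_5_6 W6_10906771584 = true := by
  decide +kernel

theorem W6_10906775616_chk : wChk (nbDec bN_5_5) 25 ix_5_5 ix_5_6 W6_10906775616 = true := by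
  decide +kernel

theorem W6_10906779648_chk : wChk (nbDec bN_5_5) 25 ix_5_5 ix_5_6 W6_10906779648 = true := by
  decide +kernel

theorem W6_10907033664_chk : wChk (nbDec bN_5_5) 25 ix_5_5 ix_5_6 W6_10907033664 = true := by
  decide +kernel

theorem W6_10907037696_chk : wChk (nbDec bN_5_5) 25 ix_5_5 ix_5_6 W6_10907037696 = true := by
  decide +kernel

theorem W6_10907295744_chk : wChk (nbDec bN_5_5) 25 ix_5_5 ix_5_6 W6_10907295744 = true := by
  decide +kernel

theorem W6_10907553792_chk : wChk (nbDec bN_5_5) 25 ix_5_5 ix_5_6 W6_10907553792 = true := by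
  decide +kernel

theorem W6_10907811840_chk : wChk (nbDec bN_5_5) 25 ix_5_5 ix_5_6 W6_10907811840 = true := by
  decide +kernel

theorem W6_11913412800_chk : wChk (nbDec bN_5_5) 25 ix_5_5 ix_5_6 W6_11913412800 = true := by
  decide +kernel

theorem W6_11913416832_chk : wChk (nbDec bN_5_5) 25 ix_5_5 ix_5_6 W6_11913416832 = true := by
  decide +kernel

theorem W6_11913420864_chk : wChk (nbDec bN_5_5) 25 ix_5_5 ix_5_6 W6_11913420864 = true := by
  decide +kernel

theorem W6_11929927872_chk : wChk (nbDec bN_5_5) 25 ix_5_5 ix_5_6 W6_11929927872 = true := by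
  decide +kernel

theorem W6_11930185920_chk : wChk (nbDec bN_5_5) 25 ix_5_5 ix_5_6 W6_11930185920 = true := by
  decide +kernel

theorem W6_11930189952_chk : wChk (nbDec bN_5_5) 25 ix_5_5 ix_5_6 W6_11930189952 = true := by
  decide +kernel

theorem W6_11930193984_chk : wChk (nbDec bN_5_5) 25 ix_5_5 ix_5_6 W6_11930193984 = true := by
  decide +kernel

theorem W6_11930198016_chk : wChk (nbDec bN_5_5) 25 ix_5_5 ix_5_6 W6_11930198016 = true := by
  decide +kernel

theorem W6_11930452032_chk : wChk (nbDec bN_5_5) 25 ix_5_5 ix_5_6 W6_11930452032 = true := by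
  decide +kernel

theorem W6_11930456064_chk : wChk (nbDec bN_5_5) 25 ix_5_5 ix_5_6 W6_11930456064 = true := by
  decide +kernel

theorem W6_11946442944_chk : wChk (nbDec bN_5_5) 25 ix_5_5 ix_5_6 W6_11946442944 = true := by
  decide +kernel

theorem W6_11946705024_chk : wChk (nbDec bN_5_5) 25 ix_5_5 ix_5_6 W6_11946705024 = true := by
  decide +kernel

theorem W6_11946709056_chk : wChk (nbDec bN_5_5) 25 ix_5_5 ix_5_6 W6_11946709056 = true := by
  decide +kernel

theorem W6_11946963072_chk : wChk (nbDec bN_5_5) 25 ix_5_5 ix_5_6 W6_11946963072 = true := by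
  decide +kernel

theorem W6_11946967104_chk : wChk (nbDec bN_5_5) 25 ix_5_5 ix_5_6 W6_11946967104 = true := by
  decide +kernel

theorem W6_11946971136_chk : wChk (nbDec bN_5_5) 25 ix_5_5 ix_5_6 W6_11946971136 = true := by
  decide +kernel

theorem W6_11947221120_chk : wChk (nbDec bN_5_5) 25 ix_5_5 ix_5_6 W6_11947221120 = true := by
  decide +kernel

theorem W6_11947225152_chk : wChk (nbDec bN_5_5) 25 ix_5_5 ix_5_6 W6_11947225152 = true := by
  decide +kernel

theorem W6_11947229184_chk : wChk (nbDec bN_5_5) 25 ix_5_5 ix_5_6 W6_11947229184 = true := by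
  decide +kernel

theorem W6_11947483200_chk : wChk (nbDec bN_5_5) 25 ix_5_5 ix_5_6 W6_11947483200 = true := by
  decide +kernel

theorem W6_11947487232_chk : wChk (nbDec bN_5_5) 25 ix_5_5 ix_5_6 W6_11947487232 = true := by
  decide +kernel

theorem W6_11963216064_chk : wChk (nbDec bN_5_5) 25 ix_5_5 ix_5_6 W6_11963216064 = true := by
  decide +kernel

theorem W6_11963220096_chk : wChk (nbDec bN_5_5) 25 ix_5_5 ix_5_6 W6_11963220096 = true := by
  decide +kernel

theorem W6_11963478144_chk : wChk (nbDec bN_5_5) 25 ix_5_5 ix_5_6 W6_11963478144 = true := by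
  decide +kernel

theorem W6_11963482176_chk : wChk (nbDec bN_5_5) 25 ix_5_5 ix_5_6 W6_11963482176 = true := by
  decide +kernel

theorem W6_11963486208_chk : wChk (nbDec bN_5_5) 25 ix_5_5 ix_5_6 W6_11963486208 = true := by
  decide +kernel

theorem W6_11963736192_chk : wChk (nbDec bN_5_5) 25 ix_5_5 ix_5_6 W6_11963736192 = true := by
  decide +kernel

theorem W6_11963740224_chk : wChk (nbDec bN_5_5) 25 ix_5_5 ix_5_6 W6_11963740224 = true := by
  decide +kernel

theorem W6_11963744256_chk : wChk (nbDec bN_5_5) 25 ix_5_5 ix_5_6 W6_11963744256 = true := by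
  decide +kernel

theorem W6_11963998272_chk : wChk (nbDec bN_5_5) 25 ix_5_5 ix_5_6 W6_11963998272 = true := by
  decide +kernel

theorem W6_11964002304_chk : wChk (nbDec bN_5_5) 25 ix_5_5 ix_5_6 W6_11964002304 = true := by
  decide +kernel

theorem W6_11964256320_chk : wChk (nbDec bN_5_5) 25 ix_5_5 ix_5_6 W6_11964256320 = true := by
  decide +kernel

theorem W6_11964260352_chk : wChk (nbDec bN_5_5) 25 ix_5_5 ix_5_6 W6_11964260352 = true := by
  decide +kernel

theorem W6_11964518400_chk : wChk (nbDec bN_5_5) 25 ix_5_5 ix_5_6 W6_11964518400 = true := by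
  decide +kernel

theorem W6_11979993216_chk : wChk (nbDec bN_5_5) 25 ix_5_5 ix_5_6 W6_11979993216 = true := by
  decide +kernel

theorem W6_11979997248_chk : wChk (nbDec bN_5_5) 25 ix_5_5 ix_5_6 W6_11979997248 = true := by
  decide +kernel

theorem W6_11980251264_chk : wChk (nbDec bN_5_5) 25 ix_5_5 ix_5_6 W6_11980251264 = true := by
  decide +kernel

theorem W6_11980255296_chk : wChk (nbDec bN_5_5) 25 ix_5_5 ix_5_6 W6_11980255296 = true := by
  decide +kernel

theorem W6_11980259328_chk : wChk (nbDec bN_5_5) 25 ix_5_5 ix_5_6 W6_11980259328 = true := by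
  decide +kernel

theorem W6_11980513344_chk : wChk (nbDec bN_5_5) 25 ix_5_5 ix_5_6 W6_11980513344 = true := by
  decide +kernel

theorem W6_11980517376_chk : wChk (nbDec bN_5_5) 25 ix_5_5 ix_5_6 W6_11980517376 = true := by
  decide +kernel

theorem W6_11980771392_chk : wChk (nbDec bN_5_5) 25 ix_5_5 ix_5_6 W6_11980771392 = true := by
  decide +kernel

theorem W6_11980775424_chk : wChk (nbDec bN_5_5) 25 ix_5_5 ix_5_6 W6_11980775424 = true := by
  decide +kernel

theorem W6_11981033472_chk : wChk (nbDec bN_5_5) 25 ix_5_5 ix_5_6 W6_11981033472 = true := by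
  decide +kernel

theorem W6_11981291520_chk : wChk (nbDec bN_5_5) 25 ix_5_5 ix_5_6 W6_11981291520 = true := by
  decide +kernel

theorem W6_11996770368_chk : wChk (nbDec bN_5_5) 25 ix_5_5 ix_5_6 W6_11996770368 = true := by
  decide +kernel

theorem W6_11997028416_chk : wChk (nbDec bN_5_5) 25 ix_5_5 ix_5_6 W6_11997028416 = true := by
  decide +kernel

theorem W6_11997032448_chk : wChk (nbDec bN_5_5) 25 ix_5_5 ix_5_6 W6_11997032448 = true := by
  decide +kernel

theorem W6_11997286464_chk : wChk (nbDec bN_5_5) 25 ix_5_5 ix_5_6 W6_11997286464 = true := by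
  decide +kernel

theorem W6_11997290496_chk : wChk (nbDec bN_5_5) 25 ix_5_5 ix_5_6 W6_11997290496 = true := by
  decide +kernel

theorem W6_11997548544_chk : wChk (nbDec bN_5_5) 25 ix_5_5 ix_5_6 W6_11997548544 = true := by
  decide +kernel

theorem W6_12986630400_chk : wChk (nbDec bN_5_5) 25 ix_5_5 ix_5_6 W6_12986630400 = true := by
  decide +kernel

theorem W6_12987154560_chk : wChk (nbDec bN_5_5) 25 ix_5_5 ix_5_6 W6_12987154560 = true := by
  decide +kernel

theorem W6_12987158592_chk : wChk (nbDec bN_5_5) 25 ix_5_5 ix_5_6 W6_12987158592 = true := by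
  decide +kernel

theorem W6_12987162624_chk : wChk (nbDec bN_5_5) 25 ix_5_5 ix_5_6 W6_12987162624 = true := by
  decide +kernel

theorem W6_13003407552_chk : wChk (nbDec bN_5_5) 25 ix_5_5 ix_5_6 W6_13003407552 = true := by
  decide +kernel

theorem W6_13003665600_chk : wChk (nbDec bN_5_5) 25 ix_5_5 ix_5_6 W6_13003665600 = true := by
  decide +kernel

theorem W6_13003669632_chk : wChk (nbDec bN_5_5) 25 ix_5_5 ix_5_6 W6_13003669632 = true := by
  decide +kernel

theorem W6_13003673664_chk : wChk (nbDec bN_5_5) 25 ix_5_5 ix_5_6 W6_13003673664 = true := by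
  decide +kernel

theorem W6_13003927680_chk : wChk (nbDec bN_5_5) 25 ix_5_5 ix_5_6 W6_13003927680 = true := by
  decide +kernel

theorem W6_13003931712_chk : wChk (nbDec bN_5_5) 25 ix_5_5 ix_5_6 W6_13003931712 = true := by
  decide +kernel

theorem W6_13003935744_chk : wChk (nbDec bN_5_5) 25 ix_5_5 ix_5_6 W6_13003935744 = true := by
  decide +kernel

theorem W6_13004189760_chk : wChk (nbDec bN_5_5) 25 ix_5_5 ix_5_6 W6_13004189760 = true := by
  decide +kernel

theorem W6_13004193792_chk : wChk (nbDec bN_5_5) 25 ix_5_5 ix_5_6 W6_13004193792 = true := by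
  decide +kernel

theorem W6_13020184704_chk : wChk (nbDec bN_5_5) 25 ix_5_5 ix_5_6 W6_13020184704 = true := by
  decide +kernel

theorem W6_13020442752_chk : wChk (nbDec bN_5_5) 25 ix_5_5 ix_5_6 W6_13020442752 = true := by
  decide +kernel

theorem W6_13020446784_chk : wChk (nbDec bN_5_5) 25 ix_5_5 ix_5_6 W6_13020446784 = true := by
  decide +kernel

theorem W6_13020450816_chk : wChk (nbDec bN_5_5) 25 ix_5_5 ix_5_6 W6_13020450816 = true := by
  decide +kernel

theorem W6_13020700800_chk : wChk (nbDec bN_5_5) 25 ix_5_5 ix_5_6 W6_13020700800 = true := by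
  decide +kernel

theorem W6_13020704832_chk : wChk (nbDec bN_5_5) 25 ix_5_5 ix_5_6 W6_13020704832 = true := by
  decide +kernel

theorem W6_13020708864_chk : wChk (nbDec bN_5_5) 25 ix_5_5 ix_5_6 W6_13020708864 = true := by
  decide +kernel

theorem W6_13020962880_chk : wChk (nbDec bN_5_5) 25 ix_5_5 ix_5_6 W6_13020962880 = true := by
  decide +kernel

theorem W6_13020966912_chk : wChk (nbDec bN_5_5) 25 ix_5_5 ix_5_6 W6_13020966912 = true := by
  decide +kernel

theorem W6_13021224960_chk : wChk (nbDec bN_5_5) 25 ix_5_5 ix_5_6 W6_13021224960 = true := by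
  decide +kernel

theorem W6_13036957824_chk : wChk (nbDec bN_5_5) 25 ix_5_5 ix_5_6 W6_13036957824 = true := by
  decide +kernel

theorem W6_13036961856_chk : wChk (nbDec bN_5_5) 25 ix_5_5 ix_5_6 W6_13036961856 = true := by
  decide +kernel

theorem W6_13037215872_chk : wChk (nbDec bN_5_5) 25 ix_5_5 ix_5_6 W6_13037215872 = true := by
  decide +kernel

theorem W6_13037219904_chk : wChk (nbDec bN_5_5) 25 ix_5_5 ix_5_6 W6_13037219904 = true := by
  decide +kernel

theorem W6_13037223936_chk : wChk (nbDec bN_5_5) 25 ix_5_5 ix_5_6 W6_13037223936 = true := by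
  decide +kernel

theorem W6_13037477952_chk : wChk (nbDec bN_5_5) 25 ix_5_5 ix_5_6 W6_13037477952 = true := by
  decide +kernel

theorem W6_13037481984_chk : wChk (nbDec bN_5_5) 25 ix_5_5 ix_5_6 W6_13037481984 = true := by
  decide +kernel

theorem W6_13037736000_chk : wChk (nbDec bN_5_5) 25 ix_5_5 ix_5_6 W6_13037736000 = true := by
  decide +kernel

theorem W6_13037740032_chk : wChk (nbDec bN_5_5) 25 ix_5_5 ix_5_6 W6_13037740032 = true := by
  decide +kernel

theorem W6_13037998080_chk : wChk (nbDec bN_5_5) 25 ix_5_5 ix_5_6 W6_13037998080 = true := by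
  decide +kernel

theorem W6_13053730944_chk : wChk (nbDec bN_5_5) 25 ix_5_5 ix_5_6 W6_13053730944 = true := by
  decide +kernel

theorem W6_13053734976_chk : wChk (nbDec bN_5_5) 25 ix_5_5 ix_5_6 W6_13053734976 = true := by
  decide +kernel

theorem W6_13053739008_chk : wChk (nbDec bN_5_5) 25 ix_5_5 ix_5_6 W6_13053739008 = true := by
  decide +kernel

theorem W6_13053993024_chk : wChk (nbDec bN_5_5) 25 ix_5_5 ix_5_6 W6_13053993024 = true := by
  decide +kernel

theorem W6_13053997056_chk : wChk (nbDec bN_5_5) 25 ix_5_5 ix_5_6 W6_13053997056 = true := by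
  decide +kernel

theorem W6_13054251072_chk : wChk (nbDec bN_5_5) 25 ix_5_5 ix_5_6 W6_13054251072 = true := by
  decide +kernel

theorem W6_13054255104_chk : wChk (nbDec bN_5_5) 25 ix_5_5 ix_5_6 W6_13054255104 = true := by
  decide +kernel

theorem W6_13054513152_chk : wChk (nbDec bN_5_5) 25 ix_5_5 ix_5_6 W6_13054513152 = true := by
  decide +kernel

theorem W6_13054771200_chk : wChk (nbDec bN_5_5) 25 ix_5_5 ix_5_6 W6_13054771200 = true := by
  decide +kernel

theorem W6_13070246016_chk : wChk (nbDec bN_5_5) 25 ix_5_5 ix_5_6 W6_13070246016 = true := by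
  decide +kernel

theorem W6_13070250048_chk : wChk (nbDec bN_5_5) 25 ix_5_5 ix_5_6 W6_13070250048 = true := by
  decide +kernel

theorem W6_13070508096_chk : wChk (nbDec bN_5_5) 25 ix_5_5 ix_5_6 W6_13070508096 = true := by
  decide +kernel

theorem W6_13070512128_chk : wChk (nbDec bN_5_5) 25 ix_5_5 ix_5_6 W6_13070512128 = true := by
  decide +kernel

theorem W6_13070766144_chk : wChk (nbDec bN_5_5) 25 ix_5_5 ix_5_6 W6_13070766144 = true := by
  decide +kernel

theorem W6_13070770176_chk : wChk (nbDec bN_5_5) 25 ix_5_5 ix_5_6 W6_13070770176 = true := by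
  decide +kernel

theorem W6_13071028224_chk : wChk (nbDec bN_5_5) 25 ix_5_5 ix_5_6 W6_13071028224 = true := by
  decide +kernel

theorem W6_13071286272_chk : wChk (nbDec bN_5_5) 25 ix_5_5 ix_5_6 W6_13071286272 = true := by
  decide +kernel

theorem W6_13086761088_chk : wChk (nbDec bN_5_5) 25 ix_5_5 ix_5_6 W6_13086761088 = true := by
  decide +kernel

theorem W6_13087023168_chk : wChk (nbDec bN_5_5) 25 ix_5_5 ix_5_6 W6_13087023168 = true := by
  decide +kernel

theorem W6_13087285248_chk : wChk (nbDec bN_5_5) 25 ix_5_5 ix_5_6 W6_13087285248 = true := by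
  decide +kernel

theorem W6_13087543296_chk : wChk (nbDec bN_5_5) 25 ix_5_5 ix_5_6 W6_13087543296 = true := by
  decide +kernel

theorem W6_13087801344_chk : wChk (nbDec bN_5_5) 25 ix_5_5 ix_5_6 W6_13087801344 = true := by
  decide +kernel

theorem W6_14060372160_chk : wChk (nbDec bN_5_5) 25 ix_5_5 ix_5_6 W6_14060372160 = true := by
  decide +kernel

theorem W6_14060634240_chk : wChk (nbDec bN_5_5) 25 ix_5_5 ix_5_6 W6_14060634240 = true := by
  decide +kernel

theorem W6_14060892288_chk : wChk (nbDec bN_5_5) 25 ix_5_5 ix_5_6 W6_14060892288 = true := by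
  decide +kernel

theorem W6_14060896320_chk : wChk (nbDec bN_5_5) 25 ix_5_5 ix_5_6 W6_14060896320 = true := by
  decide +kernel

theorem W6_14060900352_chk : wChk (nbDec bN_5_5) 25 ix_5_5 ix_5_6 W6_14060900352 = true := by
  decide +kernel

theorem W6_14077149312_chk : wChk (nbDec bN_5_5) 25 ix_5_5 ix_5_6 W6_14077149312 = true := by
  decide +kernel

theorem W6_14077407360_chk : wChk (nbDec bN_5_5) 25 ix_5_5 ix_5_6 W6_14077407360 = true := by
  decide +kernel

theorem W6_14077411392_chk : wChk (nbDec bN_5_5) 25 ix_5_5 ix_5_6 W6_14077411392 = true := by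
  decide +kernel

theorem W6_14077415424_chk : wChk (nbDec bN_5_5) 25 ix_5_5 ix_5_6 W6_14077415424 = true := by
  decide +kernel

theorem W6_14077665408_chk : wChk (nbDec bN_5_5) 25 ix_5_5 ix_5_6 W6_14077665408 = true := by
  decide +kernel

theorem W6_14077669440_chk : wChk (nbDec bN_5_5) 25 ix_5_5 ix_5_6 W6_14077669440 = true := by
  decide +kernel

theorem W6_14077673472_chk : wChk (nbDec bN_5_5) 25 ix_5_5 ix_5_6 W6_14077673472 = true := by
  decide +kernel

theorem W6_14077927488_chk : wChk (nbDec bN_5_5) 25 ix_5_5 ix_5_6 W6_14077927488 = true := by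
  decide +kernel

theorem W6_14077931520_chk : wChk (nbDec bN_5_5) 25 ix_5_5 ix_5_6 W6_14077931520 = true := by
  decide +kernel

theorem W6_14093922432_chk : wChk (nbDec bN_5_5) 25 ix_5_5 ix_5_6 W6_14093922432 = true := by
  decide +kernel

theorem W6_14093926464_chk : wChk (nbDec bN_5_5) 25 ix_5_5 ix_5_6 W6_14093926464 = true := by
  decide +kernel

theorem W6_14094180480_chk : wChk (nbDec bN_5_5) 25 ix_5_5 ix_5_6 W6_14094180480 = true := by
  decide +kernel

theorem W6_14094184512_chk : wChk (nbDec bN_5_5) 25 ix_5_5 ix_5_6 W6_14094184512 = true := by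
  decide +kernel

theorem W6_14094188544_chk : wChk (nbDec bN_5_5) 25 ix_5_5 ix_5_6 W6_14094188544 = true := by
  decide +kernel

theorem W6_14094442560_chk : wChk (nbDec bN_5_5) 25 ix_5_5 ix_5_6 W6_14094442560 = true := by
  decide +kernel

theorem W6_14094446592_chk : wChk (nbDec bN_5_5) 25 ix_5_5 ix_5_6 W6_14094446592 = true := by
  decide +kernel

theorem W6_14094700608_chk : wChk (nbDec bN_5_5) 25 ix_5_5 ix_5_6 W6_14094700608 = true := by
  decide +kernel

theorem W6_14094704640_chk : wChk (nbDec bN_5_5) 25 ix_5_5 ix_5_6 W6_14094704640 = true := by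
  decide +kernel

theorem W6_14094962688_chk : wChk (nbDec bN_5_5) 25 ix_5_5 ix_5_6 W6_14094962688 = true := by
  decide +kernel

theorem W6_14110437504_chk : wChk (nbDec bN_5_5) 25 ix_5_5 ix_5_6 W6_14110437504 = true := by
  decide +kernel

theorem W6_14110695552_chk : wChk (nbDec bN_5_5) 25 ix_5_5 ix_5_6 W6_14110695552 = true := by
  decide +kernel

theorem W6_14110699584_chk : wChk (nbDec bN_5_5) 25 ix_5_5 ix_5_6 W6_14110699584 = true := by
  decide +kernel

theorem W6_14110703616_chk : wChk (nbDec bN_5_5) 25 ix_5_5 ix_5_6 W6_14110703616 = true := by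
  decide +kernel

theorem W6_14110957632_chk : wChk (nbDec bN_5_5) 25 ix_5_5 ix_5_6 W6_14110957632 = true := by
  decide +kernel

theorem W6_14110961664_chk : wChk (nbDec bN_5_5) 25 ix_5_5 ix_5_6 W6_14110961664 = true := by
  decide +kernel

theorem W6_14111215680_chk : wChk (nbDec bN_5_5) 25 ix_5_5 ix_5_6 W6_14111215680 = true := by
  decide +kernel

theorem W6_14111219712_chk : wChk (nbDec bN_5_5) 25 ix_5_5 ix_5_6 W6_14111219712 = true := by
  decide +kernel

theorem W6_14111477760_chk : wChk (nbDec bN_5_5) 25 ix_5_5 ix_5_6 W6_14111477760 = true := by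
  decide +kernel

theorem W6_14111735808_chk : wChk (nbDec bN_5_5) 25 ix_5_5 ix_5_6 W6_14111735808 = true := by
  decide +kernel

theorem W6_14127210624_chk : wChk (nbDec bN_5_5) 25 ix_5_5 ix_5_6 W6_14127210624 = true := by
  decide +kernel

theorem W6_14127214656_chk : wChk (nbDec bN_5_5) 25 ix_5_5 ix_5_6 W6_14127214656 = true := by
  decide +kernel

theorem W6_14127472704_chk : wChk (nbDec bN_5_5) 25 ix_5_5 ix_5_6 W6_14127472704 = true := by
  decide +kernel

theorem W6_14127476736_chk : wChk (nbDec bN_5_5) 25 ix_5_5 ix_5_6 W6_14127476736 = true := by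
  decide +kernel

theorem W6_14127730752_chk : wChk (nbDec bN_5_5) 25 ix_5_5 ix_5_6 W6_14127730752 = true := by
  decide +kernel

theorem W6_14127734784_chk : wChk (nbDec bN_5_5) 25 ix_5_5 ix_5_6 W6_14127734784 = true := by
  decide +kernel

theorem W6_14127992832_chk : wChk (nbDec bN_5_5) 25 ix_5_5 ix_5_6 W6_14127992832 = true := by
  decide +kernel

theorem W6_14128250880_chk : wChk (nbDec bN_5_5) 25 ix_5_5 ix_5_6 W6_14128250880 = true := by
  decide +kernel

theorem W6_14143987776_chk : wChk (nbDec bN_5_5) 25 ix_5_5 ix_5_6 W6_14143987776 = true := by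
  decide +kernel

theorem W6_14143991808_chk : wChk (nbDec bN_5_5) 25 ix_5_5 ix_5_6 W6_14143991808 = true := by
  decide +kernel

theorem W6_14144245824_chk : wChk (nbDec bN_5_5) 25 ix_5_5 ix_5_6 W6_14144245824 = true := by
  decide +kernel

theorem W6_14144249856_chk : wChk (nbDec bN_5_5) 25 ix_5_5 ix_5_6 W6_14144249856 = true := by
  decide +kernel

theorem W6_14144507904_chk : wChk (nbDec bN_5_5) 25 ix_5_5 ix_5_6 W6_14144507904 = true := by
  decide +kernel

theorem W6_14144765952_chk : wChk (nbDec bN_5_5) 25 ix_5_5 ix_5_6 W6_14144765952 = true := by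
  decide +kernel

theorem W6_14160502848_chk : wChk (nbDec bN_5_5) 25 ix_5_5 ix_5_6 W6_14160502848 = true := by
  decide +kernel

theorem W6_14160760896_chk : wChk (nbDec bN_5_5) 25 ix_5_5 ix_5_6 W6_14160760896 = true := by
  decide +kernel

theorem W6_14160764928_chk : wChk (nbDec bN_5_5) 25 ix_5_5 ix_5_6 W6_14160764928 = true := by
  decide +kernel

theorem W6_14161022976_chk : wChk (nbDec bN_5_5) 25 ix_5_5 ix_5_6 W6_14161022976 = true := by
  decide +kernel

theorem W6_14161281024_chk : wChk (nbDec bN_5_5) 25 ix_5_5 ix_5_6 W6_14161281024 = true := by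
  decide +kernel

theorem W6_14177275968_chk : wChk (nbDec bN_5_5) 25 ix_5_5 ix_5_6 W6_14177275968 = true := by
  decide +kernel

theorem W6_14177538048_chk : wChk (nbDec bN_5_5) 25 ix_5_5 ix_5_6 W6_14177538048 = true := by
  decide +kernel

theorem W6_14177796096_chk : wChk (nbDec bN_5_5) 25 ix_5_5 ix_5_6 W6_14177796096 = true := by
  decide +kernel

theorem W6_15100559616_chk : wChk (nbDec bN_5_5) 25 ix_5_5 ix_5_6 W6_15100559616 = true := by
  decide +kernel

theorem W6_15134113920_chk : wChk (nbDec bN_5_5) 25 ix_5_5 ix_5_6 W6_15134113920 = true := by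
  decide +kernel

theorem W6_15134371968_chk : wChk (nbDec bN_5_5) 25 ix_5_5 ix_5_6 W6_15134371968 = true := by
  decide +kernel

theorem W6_15134376000_chk : wChk (nbDec bN_5_5) 25 ix_5_5 ix_5_6 W6_15134376000 = true := by
  decide +kernel

theorem W6_15134630016_chk : wChk (nbDec bN_5_5) 25 ix_5_5 ix_5_6 W6_15134630016 = true := by
  decide +kernel

theorem W6_15134634048_chk : wChk (nbDec bN_5_5) 25 ix_5_5 ix_5_6 W6_15134634048 = true := by
  decide +kernel

theorem W6_15134638080_chk : wChk (nbDec bN_5_5) 25 ix_5_5 ix_5_6 W6_15134638080 = true := by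
  decide +kernel

theorem W6_15150887040_chk : wChk (nbDec bN_5_5) 25 ix_5_5 ix_5_6 W6_15150887040 = true := by
  decide +kernel

theorem W6_15150891072_chk : wChk (nbDec bN_5_5) 25 ix_5_5 ix_5_6 W6_15150891072 = true := by
  decide +kernel

theorem W6_15151145088_chk : wChk (nbDec bN_5_5) 25 ix_5_5 ix_5_6 W6_15151145088 = true := by
  decide +kernel

theorem W6_15151149120_chk : wChk (nbDec bN_5_5) 25 ix_5_5 ix_5_6 W6_15151149120 = true := by
  decide +kernel

theorem W6_15151153152_chk : wChk (nbDec bN_5_5) 25 ix_5_5 ix_5_6 W6_15151153152 = true := by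
  decide +kernel

theorem W6_15151407168_chk : wChk (nbDec bN_5_5) 25 ix_5_5 ix_5_6 W6_15151407168 = true := by
  decide +kernel

theorem W6_15151411200_chk : wChk (nbDec bN_5_5) 25 ix_5_5 ix_5_6 W6_15151411200 = true := by
  decide +kernel

theorem W6_15151665216_chk : wChk (nbDec bN_5_5) 25 ix_5_5 ix_5_6 W6_15151665216 = true := by
  decide +kernel

theorem W6_15151669248_chk : wChk (nbDec bN_5_5) 25 ix_5_5 ix_5_6 W6_15151669248 = true := by
  decide +kernel

theorem W6_15167660160_chk : wChk (nbDec bN_5_5) 25 ix_5_5 ix_5_6 W6_15167660160 = true := by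
  decide +kernel

theorem W6_15167664192_chk : wChk (nbDec bN_5_5) 25 ix_5_5 ix_5_6 W6_15167664192 = true := by
  decide +kernel

theorem W6_15167668224_chk : wChk (nbDec bN_5_5) 25 ix_5_5 ix_5_6 W6_15167668224 = true := by
  decide +kernel

theorem W6_15167922240_chk : wChk (nbDec bN_5_5) 25 ix_5_5 ix_5_6 W6_15167922240 = true := by
  decide +kernel

theorem W6_15167926272_chk : wChk (nbDec bN_5_5) 25 ix_5_5 ix_5_6 W6_15167926272 = true := by
  decide +kernel

theorem W6_15168180288_chk : wChk (nbDec bN_5_5) 25 ix_5_5 ix_5_6 W6_15168180288 = true := by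
  decide +kernel

end Crest.Agent.R187.SN.Top
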