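import Crest.Agent.R187.SN.WOk
import Crest.Agent.R187.SN.KDec
import Crest.Agent.R187.SN.KE.B56
import Crest.Agent.R187.SN.KD.L_5_6
import Crest.Agent.R187.SN.KD.L_5_7
import Crest.Agent.R187.SN.TD.W7_0

/-!
# Row 187, PLAN S, block E4: kernel checks of the `W` tables (W7_0)
-/

set_option autoImplicit false
set_option Elab.async false

namespace Crest.Agent.R187.SN.Top

open Crest.Agent.R187.SN.KD Crest.Agent.R187.SN.KE Crest.Agent.R187.SN.KDec Crest.Agent.R187.SN.WOk

theorem W_8726282432_chk : wChk (nbDec bN_5_6) 30 ix_5_6 ix_5_7 W_8726282432 = true := by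
  decide +kernel

theorem W_9800016128_chk : wChk (nbDec bN_5_6) 30 ix_5_6 ix_5_7 W_9800016128 = true := by
  decide +kernel

theorem W_9816527168_chk : wChk (nbDec bN_5_6) 30 ix_5_6 ix_5_7 W_9816527168 = true := by
  decide +kernel

theorem W_10873233728_chk : wChk (nbDec bN_5_6) 30 ix_5_6 ix_5_7 W_10873233728 = true := by
  decide +kernel

theorem W_10873753856_chk : wChk (nbDec bN_5_6) 30 ix_5_6 ix_5_7 W_10873753856 = true := by
  decide +kernel

theorem W_10873757888_chk : wChk (nbDec bN_5_6) 30 ix_5_6 ix_5_7 W_10873757888 = true := by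
  decide +kernel

theorem W_10873761920_chk : wChk (nbDec bN_5_6) 30 ix_5_6 ix_5_7 W_10873761920 = true := by
  decide +kernel

theorem W_10873765952_chk : wChk (nbDec bN_5_6) 30 ix_5_6 ix_5_7 W_10873765952 = true := by
  decide +kernel

theorem W_10890010880_chk : wChk (nbDec bN_5_6) 30 ix_5_6 ix_5_7 W_10890010880 = true := by
  decide +kernel

theorem W_10890272960_chk : wChk (nbDec bN_5_6) 30 ix_5_6 ix_5_7 W_10890272960 = true := by
  decide +kernel

theorem W_10890531008_chk : wChk (nbDec bN_5_6) 30 ix_5_6 ix_5_7 W_10890531008 = true := by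
  decide +kernel

theorem W_10890535040_chk : wChk (nbDec bN_5_6) 30 ix_5_6 ix_5_7 W_10890535040 = true := by
  decide +kernel

theorem W_10906788032_chk : wChk (nbDec bN_5_6) 30 ix_5_6 ix_5_7 W_10906788032 = true := by
  decide +kernel

theorem W_10907042048_chk : wChk (nbDec bN_5_6) 30 ix_5_6 ix_5_7 W_10907042048 = true := by
  decide +kernel

theorem W_10907050112_chk : wChk (nbDec bN_5_6) 30 ix_5_6 ix_5_7 W_10907050112 = true := by
  decide +kernel

theorem W_10907304128_chk : wChk (nbDec bN_5_6) 30 ix_5_6 ix_5_7 W_10907304128 = true := by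
  decide +kernel

theorem W_10907308160_chk : wChk (nbDec bN_5_6) 30 ix_5_6 ix_5_7 W_10907308160 = true := by
  decide +kernel

theorem W_10907312192_chk : wChk (nbDec bN_5_6) 30 ix_5_6 ix_5_7 W_10907312192 = true := by
  decide +kernel

theorem W_10907316224_chk : wChk (nbDec bN_5_6) 30 ix_5_6 ix_5_7 W_10907316224 = true := by
  decide +kernel

theorem W_10907566208_chk : wChk (nbDec bN_5_6) 30 ix_5_6 ix_5_7 W_10907566208 = true := by
  decide +kernel

theorem W_10907574272_chk : wChk (nbDec bN_5_6) 30 ix_5_6 ix_5_7 W_10907574272 = true := by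
  decide +kernel

theorem W_10907828288_chk : wChk (nbDec bN_5_6) 30 ix_5_6 ix_5_7 W_10907828288 = true := by
  decide +kernel

theorem W_10907832320_chk : wChk (nbDec bN_5_6) 30 ix_5_6 ix_5_7 W_10907832320 = true := by
  decide +kernel

theorem W_11913421184_chk : wChk (nbDec bN_5_6) 30 ix_5_6 ix_5_7 W_11913421184 = true := by
  decide +kernel

theorem W_11946975488_chk : wChk (nbDec bN_5_6) 30 ix_5_6 ix_5_7 W_11946975488 = true := by
  decide +kernel

theorem W_11947233536_chk : wChk (nbDec bN_5_6) 30 ix_5_6 ix_5_7 W_11947233536 = true := by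
  decide +kernel

theorem W_11947237568_chk : wChk (nbDec bN_5_6) 30 ix_5_6 ix_5_7 W_11947237568 = true := by
  decide +kernel

theorem W_11947491584_chk : wChk (nbDec bN_5_6) 30 ix_5_6 ix_5_7 W_11947491584 = true := by
  decide +kernel

theorem W_11947495616_chk : wChk (nbDec bN_5_6) 30 ix_5_6 ix_5_7 W_11947495616 = true := by
  decide +kernel

theorem W_11947499648_chk : wChk (nbDec bN_5_6) 30 ix_5_6 ix_5_7 W_11947499648 = true := by
  decide +kernel

theorem W_11947503680_chk : wChk (nbDec bN_5_6) 30 ix_5_6 ix_5_7 W_11947503680 = true := by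
  decide +kernel

theorem W_11947507712_chk : wChk (nbDec bN_5_6) 30 ix_5_6 ix_5_7 W_11947507712 = true := by
  decide +kernel

theorem W_11963748608_chk : wChk (nbDec bN_5_6) 30 ix_5_6 ix_5_7 W_11963748608 = true := by
  decide +kernel

theorem W_11963752640_chk : wChk (nbDec bN_5_6) 30 ix_5_6 ix_5_7 W_11963752640 = true := by
  decide +kernel

theorem W_11964010688_chk : wChk (nbDec bN_5_6) 30 ix_5_6 ix_5_7 W_11964010688 = true := by
  decide +kernel

theorem W_11964014720_chk : wChk (nbDec bN_5_6) 30 ix_5_6 ix_5_7 W_11964014720 = true := by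
  decide +kernel

theorem W_11964018752_chk : wChk (nbDec bN_5_6) 30 ix_5_6 ix_5_7 W_11964018752 = true := by
  decide +kernel

theorem W_11964268736_chk : wChk (nbDec bN_5_6) 30 ix_5_6 ix_5_7 W_11964268736 = true := by
  decide +kernel

theorem W_11964272768_chk : wChk (nbDec bN_5_6) 30 ix_5_6 ix_5_7 W_11964272768 = true := by
  decide +kernel

theorem W_11964276800_chk : wChk (nbDec bN_5_6) 30 ix_5_6 ix_5_7 W_11964276800 = true := by
  decide +kernel

theorem W_11964280832_chk : wChk (nbDec bN_5_6) 30 ix_5_6 ix_5_7 W_11964280832 = true := by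
  decide +kernel

theorem W_11964526784_chk : wChk (nbDec bN_5_6) 30 ix_5_6 ix_5_7 W_11964526784 = true := by
  decide +kernel

theorem W_11964534848_chk : wChk (nbDec bN_5_6) 30 ix_5_6 ix_5_7 W_11964534848 = true := by
  decide +kernel

theorem W_11980521728_chk : wChk (nbDec bN_5_6) 30 ix_5_6 ix_5_7 W_11980521728 = true := by
  decide +kernel

theorem W_11980525760_chk : wChk (nbDec bN_5_6) 30 ix_5_6 ix_5_7 W_11980525760 = true := by
  decide +kernel

theorem W_11980529792_chk : wChk (nbDec bN_5_6) 30 ix_5_6 ix_5_7 W_11980529792 = true := by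
  decide +kernel

theorem W_11980783808_chk : wChk (nbDec bN_5_6) 30 ix_5_6 ix_5_7 W_11980783808 = true := by
  decide +kernel

theorem W_11980787840_chk : wChk (nbDec bN_5_6) 30 ix_5_6 ix_5_7 W_11980787840 = true := by
  decide +kernel

theorem W_11980791872_chk : wChk (nbDec bN_5_6) 30 ix_5_6 ix_5_7 W_11980791872 = true := by
  decide +kernel

theorem W_11980795904_chk : wChk (nbDec bN_5_6) 30 ix_5_6 ix_5_7 W_11980795904 = true := by
  decide +kernel

theorem W_11981041856_chk : wChk (nbDec bN_5_6) 30 ix_5_6 ix_5_7 W_11981041856 = true := by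
  decide +kernel

theorem W_11981045888_chk : wChk (nbDec bN_5_6) 30 ix_5_6 ix_5_7 W_11981045888 = true := by
  decide +kernel

theorem W_11981049920_chk : wChk (nbDec bN_5_6) 30 ix_5_6 ix_5_7 W_11981049920 = true := by
  decide +kernel

theorem W_11981053952_chk : wChk (nbDec bN_5_6) 30 ix_5_6 ix_5_7 W_11981053952 = true := by
  decide +kernel

theorem W_11981303936_chk : wChk (nbDec bN_5_6) 30 ix_5_6 ix_5_7 W_11981303936 = true := by
  decide +kernel

theorem W_11981312000_chk : wChk (nbDec bN_5_6) 30 ix_5_6 ix_5_7 W_11981312000 = true := by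
  decide +kernel

theorem W_11981561984_chk : wChk (nbDec bN_5_6) 30 ix_5_6 ix_5_7 W_11981561984 = true := by
  decide +kernel

theorem W_11981566016_chk : wChk (nbDec bN_5_6) 30 ix_5_6 ix_5_7 W_11981566016 = true := by
  decide +kernel

theorem W_11981570048_chk : wChk (nbDec bN_5_6) 30 ix_5_6 ix_5_7 W_11981570048 = true := by
  decide +kernel

theorem W_11997040832_chk : wChk (nbDec bN_5_6) 30 ix_5_6 ix_5_7 W_11997040832 = true := by
  decide +kernel

theorem W_11997298880_chk : wChk (nbDec bN_5_6) 30 ix_5_6 ix_5_7 W_11997298880 = true := by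
  decide +kernel

theorem W_11997302912_chk : wChk (nbDec bN_5_6) 30 ix_5_6 ix_5_7 W_11997302912 = true := by
  decide +kernel

theorem W_11997556928_chk : wChk (nbDec bN_5_6) 30 ix_5_6 ix_5_7 W_11997556928 = true := by
  decide +kernel

theorem W_11997560960_chk : wChk (nbDec bN_5_6) 30 ix_5_6 ix_5_7 W_11997560960 = true := by
  decide +kernel

theorem W_11997564992_chk : wChk (nbDec bN_5_6) 30 ix_5_6 ix_5_7 W_11997564992 = true := by
  decide +kernel

theorem W_11997569024_chk : wChk (nbDec bN_5_6) 30 ix_5_6 ix_5_7 W_11997569024 = true := by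
  decide +kernel

theorem W_11997819008_chk : wChk (nbDec bN_5_6) 30 ix_5_6 ix_5_7 W_11997819008 = true := by
  decide +kernel

theorem W_11997823040_chk : wChk (nbDec bN_5_6) 30 ix_5_6 ix_5_7 W_11997823040 = true := by
  decide +kernel

theorem W_11997827072_chk : wChk (nbDec bN_5_6) 30 ix_5_6 ix_5_7 W_11997827072 = true := by
  decide +kernel

theorem W_11998081088_chk : wChk (nbDec bN_5_6) 30 ix_5_6 ix_5_7 W_11998081088 = true := by
  decide +kernel

theorem W_11998085120_chk : wChk (nbDec bN_5_6) 30 ix_5_6 ix_5_7 W_11998085120 = true := by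
  decide +kernel

theorem W_11998343168_chk : wChk (nbDec bN_5_6) 30 ix_5_6 ix_5_7 W_11998343168 = true := by
  decide +kernel

theorem W_11998597184_chk : wChk (nbDec bN_5_6) 30 ix_5_6 ix_5_7 W_11998597184 = true := by
  decide +kernel

theorem W_13003940096_chk : wChk (nbDec bN_5_6) 30 ix_5_6 ix_5_7 W_13003940096 = true := by
  decide +kernel

theorem W_13020713216_chk : wChk (nbDec bN_5_6) 30 ix_5_6 ix_5_7 W_13020713216 = true := by
  decide +kernel

theorem W_13020717248_chk : wChk (nbDec bN_5_6) 30 ix_5_6 ix_5_7 W_13020717248 = true := by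
  decide +kernel

theorem W_13020971264_chk : wChk (nbDec bN_5_6) 30 ix_5_6 ix_5_7 W_13020971264 = true := by
  decide +kernel

theorem W_13020975296_chk : wChk (nbDec bN_5_6) 30 ix_5_6 ix_5_7 W_13020975296 = true := by
  decide +kernel

theorem W_13020979328_chk : wChk (nbDec bN_5_6) 30 ix_5_6 ix_5_7 W_13020979328 = true := by
  decide +kernel

theorem W_13021233344_chk : wChk (nbDec bN_5_6) 30 ix_5_6 ix_5_7 W_13021233344 = true := by
  decide +kernel

theorem W_13021237376_chk : wChk (nbDec bN_5_6) 30 ix_5_6 ix_5_7 W_13021237376 = true := by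
  decide +kernel

theorem W_13021241408_chk : wChk (nbDec bN_5_6) 30 ix_5_6 ix_5_7 W_13021241408 = true := by
  decide +kernel

theorem W_13021245440_chk : wChk (nbDec bN_5_6) 30 ix_5_6 ix_5_7 W_13021245440 = true := by
  decide +kernel

theorem W_13037486336_chk : wChk (nbDec bN_5_6) 30 ix_5_6 ix_5_7 W_13037486336 = true := by
  decide +kernel

theorem W_13037490368_chk : wChk (nbDec bN_5_6) 30 ix_5_6 ix_5_7 W_13037490368 = true := by
  decide +kernel

theorem W_13037494400_chk : wChk (nbDec bN_5_6) 30 ix_5_6 ix_5_7 W_13037494400 = true := by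
  decide +kernel

theorem W_13037748416_chk : wChk (nbDec bN_5_6) 30 ix_5_6 ix_5_7 W_13037748416 = true := by
  decide +kernel

theorem W_13037752448_chk : wChk (nbDec bN_5_6) 30 ix_5_6 ix_5_7 W_13037752448 = true := by
  decide +kernel

theorem W_13037756480_chk : wChk (nbDec bN_5_6) 30 ix_5_6 ix_5_7 W_13037756480 = true := by
  decide +kernel

theorem W_13038006464_chk : wChk (nbDec bN_5_6) 30 ix_5_6 ix_5_7 W_13038006464 = true := by
  decide +kernel

theorem W_13038010496_chk : wChk (nbDec bN_5_6) 30 ix_5_6 ix_5_7 W_13038010496 = true := by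
  decide +kernel

theorem W_13038018560_chk : wChk (nbDec bN_5_6) 30 ix_5_6 ix_5_7 W_13038018560 = true := by
  decide +kernel

theorem W_13038268544_chk : wChk (nbDec bN_5_6) 30 ix_5_6 ix_5_7 W_13038268544 = true := by
  decide +kernel

theorem W_13038272576_chk : wChk (nbDec bN_5_6) 30 ix_5_6 ix_5_7 W_13038272576 = true := by
  decide +kernel

theorem W_13038276608_chk : wChk (nbDec bN_5_6) 30 ix_5_6 ix_5_7 W_13038276608 = true := by
  decide +kernel

theorem W_13054001408_chk : wChk (nbDec bN_5_6) 30 ix_5_6 ix_5_7 W_13054001408 = true := by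
  decide +kernel

theorem W_13054263488_chk : wChk (nbDec bN_5_6) 30 ix_5_6 ix_5_7 W_13054263488 = true := by
  decide +kernel

theorem W_13054267520_chk : wChk (nbDec bN_5_6) 30 ix_5_6 ix_5_7 W_13054267520 = true := by
  decide +kernel

theorem W_13054271552_chk : wChk (nbDec bN_5_6) 30 ix_5_6 ix_5_7 W_13054271552 = true := by
  decide +kernel

theorem W_13054521536_chk : wChk (nbDec bN_5_6) 30 ix_5_6 ix_5_7 W_13054521536 = true := by
  decide +kernel

theorem W_13054525568_chk : wChk (nbDec bN_5_6) 30 ix_5_6 ix_5_7 W_13054525568 = true := by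
  decide +kernel

theorem W_13054529600_chk : wChk (nbDec bN_5_6) 30 ix_5_6 ix_5_7 W_13054529600 = true := by
  decide +kernel

theorem W_13054533632_chk : wChk (nbDec bN_5_6) 30 ix_5_6 ix_5_7 W_13054533632 = true := by
  decide +kernel

theorem W_13054783616_chk : wChk (nbDec bN_5_6) 30 ix_5_6 ix_5_7 W_13054783616 = true := by
  decide +kernel

theorem W_13054787648_chk : wChk (nbDec bN_5_6) 30 ix_5_6 ix_5_7 W_13054787648 = true := by
  decide +kernel

theorem W_13054791680_chk : wChk (nbDec bN_5_6) 30 ix_5_6 ix_5_7 W_13054791680 = true := by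
  decide +kernel

theorem W_13055041664_chk : wChk (nbDec bN_5_6) 30 ix_5_6 ix_5_7 W_13055041664 = true := by
  decide +kernel

theorem W_13055045696_chk : wChk (nbDec bN_5_6) 30 ix_5_6 ix_5_7 W_13055045696 = true := by
  decide +kernel

theorem W_13055049728_chk : wChk (nbDec bN_5_6) 30 ix_5_6 ix_5_7 W_13055049728 = true := by
  decide +kernel

theorem W_13055303744_chk : wChk (nbDec bN_5_6) 30 ix_5_6 ix_5_7 W_13055303744 = true := by
  decide +kernel

theorem W_13055307776_chk : wChk (nbDec bN_5_6) 30 ix_5_6 ix_5_7 W_13055307776 = true := by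
  decide +kernel

theorem W_13070778560_chk : wChk (nbDec bN_5_6) 30 ix_5_6 ix_5_7 W_13070778560 = true := by
  decide +kernel

theorem W_13070782592_chk : wChk (nbDec bN_5_6) 30 ix_5_6 ix_5_7 W_13070782592 = true := by
  decide +kernel

theorem W_13071036608_chk : wChk (nbDec bN_5_6) 30 ix_5_6 ix_5_7 W_13071036608 = true := by
  decide +kernel

theorem W_13071040640_chk : wChk (nbDec bN_5_6) 30 ix_5_6 ix_5_7 W_13071040640 = true := by
  decide +kernel

theorem W_13071044672_chk : wChk (nbDec bN_5_6) 30 ix_5_6 ix_5_7 W_13071044672 = true := by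
  decide +kernel

theorem W_13071048704_chk : wChk (nbDec bN_5_6) 30 ix_5_6 ix_5_7 W_13071048704 = true := by
  decide +kernel

theorem W_13071298688_chk : wChk (nbDec bN_5_6) 30 ix_5_6 ix_5_7 W_13071298688 = true := by
  decide +kernel

theorem W_13071302720_chk : wChk (nbDec bN_5_6) 30 ix_5_6 ix_5_7 W_13071302720 = true := by
  decide +kernel

theorem W_13071306752_chk : wChk (nbDec bN_5_6) 30 ix_5_6 ix_5_7 W_13071306752 = true := by
  decide +kernel

theorem W_13071556736_chk : wChk (nbDec bN_5_6) 30 ix_5_6 ix_5_7 W_13071556736 = true := by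
  decide +kernel

theorem W_13071560768_chk : wChk (nbDec bN_5_6) 30 ix_5_6 ix_5_7 W_13071560768 = true := by
  decide +kernel

theorem W_13071564800_chk : wChk (nbDec bN_5_6) 30 ix_5_6 ix_5_7 W_13071564800 = true := by
  decide +kernel

theorem W_13071818816_chk : wChk (nbDec bN_5_6) 30 ix_5_6 ix_5_7 W_13071818816 = true := by
  decide +kernel

theorem W_13071822848_chk : wChk (nbDec bN_5_6) 30 ix_5_6 ix_5_7 W_13071822848 = true := by
  decide +kernel

theorem W_13072076864_chk : wChk (nbDec bN_5_6) 30 ix_5_6 ix_5_7 W_13072076864 = true := by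
  decide +kernel

theorem W_13072080896_chk : wChk (nbDec bN_5_6) 30 ix_5_6 ix_5_7 W_13072080896 = true := by
  decide +kernel

theorem W_13087293632_chk : wChk (nbDec bN_5_6) 30 ix_5_6 ix_5_7 W_13087293632 = true := by
  decide +kernel

theorem W_13087555712_chk : wChk (nbDec bN_5_6) 30 ix_5_6 ix_5_7 W_13087555712 = true := by
  decide +kernel

theorem W_13087813760_chk : wChk (nbDec bN_5_6) 30 ix_5_6 ix_5_7 W_13087813760 = true := by
  decide +kernel

theorem W_13087817792_chk : wChk (nbDec bN_5_6) 30 ix_5_6 ix_5_7 W_13087817792 = true := by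
  decide +kernel

theorem W_13087821824_chk : wChk (nbDec bN_5_6) 30 ix_5_6 ix_5_7 W_13087821824 = true := by
  decide +kernel

theorem W_13088071808_chk : wChk (nbDec bN_5_6) 30 ix_5_6 ix_5_7 W_13088071808 = true := by
  decide +kernel

theorem W_13088075840_chk : wChk (nbDec bN_5_6) 30 ix_5_6 ix_5_7 W_13088075840 = true := by
  decide +kernel

theorem W_13088079872_chk : wChk (nbDec bN_5_6) 30 ix_5_6 ix_5_7 W_13088079872 = true := by
  decide +kernel

theorem W_13088333888_chk : wChk (nbDec bN_5_6) 30 ix_5_6 ix_5_7 W_13088333888 = true := by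
  decide +kernel

theorem W_13088337920_chk : wChk (nbDec bN_5_6) 30 ix_5_6 ix_5_7 W_13088337920 = true := by
  decide +kernel

theorem W_13088595968_chk : wChk (nbDec bN_5_6) 30 ix_5_6 ix_5_7 W_13088595968 = true := by
  decide +kernel

theorem W_13088854016_chk : wChk (nbDec bN_5_6) 30 ix_5_6 ix_5_7 W_13088854016 = true := by
  decide +kernel

theorem W_13089112064_chk : wChk (nbDec bN_5_6) 30 ix_5_6 ix_5_7 W_13089112064 = true := by
  decide +kernel

theorem W_14060904704_chk : wChk (nbDec bN_5_6) 30 ix_5_6 ix_5_7 W_14060904704 = true := by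
  decide +kernel

theorem W_14077681856_chk : wChk (nbDec bN_5_6) 30 ix_5_6 ix_5_7 W_14077681856 = true := by
  decide +kernel

theorem W_14077939904_chk : wChk (nbDec bN_5_6) 30 ix_5_6 ix_5_7 W_14077939904 = true := by
  decide +kernel

theorem W_14094450944_chk : wChk (nbDec bN_5_6) 30 ix_5_6 ix_5_7 W_14094450944 = true := by
  decide +kernel

theorem W_14094454976_chk : wChk (nbDec bN_5_6) 30 ix_5_6 ix_5_7 W_14094454976 = true := by
  decide +kernel

theorem W_14094459008_chk : wChk (nbDec bN_5_6) 30 ix_5_6 ix_5_7 W_14094459008 = true := by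
  decide +kernel

theorem W_14094713024_chk : wChk (nbDec bN_5_6) 30 ix_5_6 ix_5_7 W_14094713024 = true := by
  decide +kernel

theorem W_14094717056_chk : wChk (nbDec bN_5_6) 30 ix_5_6 ix_5_7 W_14094717056 = true := by
  decide +kernel

theorem W_14094721088_chk : wChk (nbDec bN_5_6) 30 ix_5_6 ix_5_7 W_14094721088 = true := by
  decide +kernel

theorem W_14094725120_chk : wChk (nbDec bN_5_6) 30 ix_5_6 ix_5_7 W_14094725120 = true := by
  decide +kernel

theorem W_14094975104_chk : wChk (nbDec bN_5_6) 30 ix_5_6 ix_5_7 W_14094975104 = true := by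
  decide +kernel

theorem W_14094979136_chk : wChk (nbDec bN_5_6) 30 ix_5_6 ix_5_7 W_14094979136 = true := by
  decide +kernel

theorem W_14094983168_chk : wChk (nbDec bN_5_6) 30 ix_5_6 ix_5_7 W_14094983168 = true := by
  decide +kernel

theorem W_14110970048_chk : wChk (nbDec bN_5_6) 30 ix_5_6 ix_5_7 W_14110970048 = true := by
  decide +kernel

theorem W_14111228096_chk : wChk (nbDec bN_5_6) 30 ix_5_6 ix_5_7 W_14111228096 = true := by
  decide +kernel

theorem W_14111232128_chk : wChk (nbDec bN_5_6) 30 ix_5_6 ix_5_7 W_14111232128 = true := by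
  decide +kernel

theorem W_14111236160_chk : wChk (nbDec bN_5_6) 30 ix_5_6 ix_5_7 W_14111236160 = true := by
  decide +kernel

theorem W_14111486144_chk : wChk (nbDec bN_5_6) 30 ix_5_6 ix_5_7 W_14111486144 = true := by
  decide +kernel

theorem W_14111490176_chk : wChk (nbDec bN_5_6) 30 ix_5_6 ix_5_7 W_14111490176 = true := by
  decide +kernel

theorem W_14111494208_chk : wChk (nbDec bN_5_6) 30 ix_5_6 ix_5_7 W_14111494208 = true := by
  decide +kernel

theorem W_14111748224_chk : wChk (nbDec bN_5_6) 30 ix_5_6 ix_5_7 W_14111748224 = true := by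
  decide +kernel

theorem W_14111752256_chk : wChk (nbDec bN_5_6) 30 ix_5_6 ix_5_7 W_14111752256 = true := by
  decide +kernel

theorem W_14112010304_chk : wChk (nbDec bN_5_6) 30 ix_5_6 ix_5_7 W_14112010304 = true := by
  decide +kernel

theorem W_14112014336_chk : wChk (nbDec bN_5_6) 30 ix_5_6 ix_5_7 W_14112014336 = true := by
  decide +kernel

theorem W_14127481088_chk : wChk (nbDec bN_5_6) 30 ix_5_6 ix_5_7 W_14127481088 = true := by
  decide +kernel

theorem W_14127743168_chk : wChk (nbDec bN_5_6) 30 ix_5_6 ix_5_7 W_14127743168 = true := by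
  decide +kernel

theorem W_14127747200_chk : wChk (nbDec bN_5_6) 30 ix_5_6 ix_5_7 W_14127747200 = true := by
  decide +kernel

theorem W_14128001216_chk : wChk (nbDec bN_5_6) 30 ix_5_6 ix_5_7 W_14128001216 = true := by
  decide +kernel

theorem W_14128009280_chk : wChk (nbDec bN_5_6) 30 ix_5_6 ix_5_7 W_14128009280 = true := by
  decide +kernel

theorem W_14128013312_chk : wChk (nbDec bN_5_6) 30 ix_5_6 ix_5_7 W_14128013312 = true := by
  decide +kernel

theorem W_14128263296_chk : wChk (nbDec bN_5_6) 30 ix_5_6 ix_5_7 W_14128263296 = true := by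
  decide +kernel

theorem W_14128267328_chk : wChk (nbDec bN_5_6) 30 ix_5_6 ix_5_7 W_14128267328 = true := by
  decide +kernel

theorem W_14128521344_chk : wChk (nbDec bN_5_6) 30 ix_5_6 ix_5_7 W_14128521344 = true := by
  decide +kernel

theorem W_14128525376_chk : wChk (nbDec bN_5_6) 30 ix_5_6 ix_5_7 W_14128525376 = true := by
  decide +kernel

theorem W_14128529408_chk : wChk (nbDec bN_5_6) 30 ix_5_6 ix_5_7 W_14128529408 = true := by
  decide +kernel

theorem W_14128783424_chk : wChk (nbDec bN_5_6) 30 ix_5_6 ix_5_7 W_14128783424 = true := by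
  decide +kernel

theorem W_14128787456_chk : wChk (nbDec bN_5_6) 30 ix_5_6 ix_5_7 W_14128787456 = true := by
  decide +kernel

theorem W_14129045504_chk : wChk (nbDec bN_5_6) 30 ix_5_6 ix_5_7 W_14129045504 = true := by
  decide +kernel

theorem W_14144258240_chk : wChk (nbDec bN_5_6) 30 ix_5_6 ix_5_7 W_14144258240 = true := by
  decide +kernel

theorem W_14144516288_chk : wChk (nbDec bN_5_6) 30 ix_5_6 ix_5_7 W_14144516288 = true := by
  decide +kernel

theorem W_14144520320_chk : wChk (nbDec bN_5_6) 30 ix_5_6 ix_5_7 W_14144520320 = true := by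
  decide +kernel

theorem W_14144524352_chk : wChk (nbDec bN_5_6) 30 ix_5_6 ix_5_7 W_14144524352 = true := by
  decide +kernel

theorem W_14144778368_chk : wChk (nbDec bN_5_6) 30 ix_5_6 ix_5_7 W_14144778368 = true := by
  decide +kernel

theorem W_14144782400_chk : wChk (nbDec bN_5_6) 30 ix_5_6 ix_5_7 W_14144782400 = true := by
  decide +kernel

theorem W_14145036416_chk : wChk (nbDec bN_5_6) 30 ix_5_6 ix_5_7 W_14145036416 = true := by
  decide +kernel

theorem W_14145040448_chk : wChk (nbDec bN_5_6) 30 ix_5_6 ix_5_7 W_14145040448 = true := by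
  decide +kernel

theorem W_14145044480_chk : wChk (nbDec bN_5_6) 30 ix_5_6 ix_5_7 W_14145044480 = true := by
  decide +kernel

theorem W_14145298496_chk : wChk (nbDec bN_5_6) 30 ix_5_6 ix_5_7 W_14145298496 = true := by
  decide +kernel

theorem W_14145302528_chk : wChk (nbDec bN_5_6) 30 ix_5_6 ix_5_7 W_14145302528 = true := by
  decide +kernel

theorem W_14145556544_chk : wChk (nbDec bN_5_6) 30 ix_5_6 ix_5_7 W_14145556544 = true := by
  decide +kernel

theorem W_14145560576_chk : wChk (nbDec bN_5_6) 30 ix_5_6 ix_5_7 W_14145560576 = true := by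
  decide +kernel

theorem W_14145818624_chk : wChk (nbDec bN_5_6) 30 ix_5_6 ix_5_7 W_14145818624 = true := by
  decide +kernel

theorem W_14161293440_chk : wChk (nbDec bN_5_6) 30 ix_5_6 ix_5_7 W_14161293440 = true := by
  decide +kernel

theorem W_14161297472_chk : wChk (nbDec bN_5_6) 30 ix_5_6 ix_5_7 W_14161297472 = true := by
  decide +kernel

theorem W_14161301504_chk : wChk (nbDec bN_5_6) 30 ix_5_6 ix_5_7 W_14161301504 = true := by
  decide +kernel

theorem W_14161551488_chk : wChk (nbDec bN_5_6) 30 ix_5_6 ix_5_7 W_14161551488 = true := by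
  decide +kernel

theorem W_14161555520_chk : wChk (nbDec bN_5_6) 30 ix_5_6 ix_5_7 W_14161555520 = true := by
  decide +kernel

theorem W_14161559552_chk : wChk (nbDec bN_5_6) 30 ix_5_6 ix_5_7 W_14161559552 = true := by
  decide +kernel

theorem W_14161813568_chk : wChk (nbDec bN_5_6) 30 ix_5_6 ix_5_7 W_14161813568 = true := by
  decide +kernel

theorem W_14161817600_chk : wChk (nbDec bN_5_6) 30 ix_5_6 ix_5_7 W_14161817600 = true := by
  decide +kernel

theorem W_14162071616_chk : wChk (nbDec bN_5_6) 30 ix_5_6 ix_5_7 W_14162071616 = true := by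
  decide +kernel

theorem W_14162333696_chk : wChk (nbDec bN_5_6) 30 ix_5_6 ix_5_7 W_14162333696 = true := by
  decide +kernel

theorem W_14162591744_chk : wChk (nbDec bN_5_6) 30 ix_5_6 ix_5_7 W_14162591744 = true := by
  decide +kernel

theorem W_14177546432_chk : wChk (nbDec bN_5_6) 30 ix_5_6 ix_5_7 W_14177546432 = true := by
  decide +kernel

theorem W_14177808512_chk : wChk (nbDec bN_5_6) 30 ix_5_6 ix_5_7 W_14177808512 = true := by
  decide +kernel

theorem W_14178070592_chk : wChk (nbDec bN_5_6) 30 ix_5_6 ix_5_7 W_14178070592 = true := by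
  decide +kernel

theorem W_14178328640_chk : wChk (nbDec bN_5_6) 30 ix_5_6 ix_5_7 W_14178328640 = true := by
  decide +kernel

theorem W_14178332672_chk : wChk (nbDec bN_5_6) 30 ix_5_6 ix_5_7 W_14178332672 = true := by
  decide +kernel

theorem W_14178586688_chk : wChk (nbDec bN_5_6) 30 ix_5_6 ix_5_7 W_14178586688 = true := by
  decide +kernel

theorem W_14178590720_chk : wChk (nbDec bN_5_6) 30 ix_5_6 ix_5_7 W_14178590720 = true := by
  decide +kernel

theorem W_14178848768_chk : wChk (nbDec bN_5_6) 30 ix_5_6 ix_5_7 W_14178848768 = true := by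
  decide +kernel

theorem W_14179106816_chk : wChk (nbDec bN_5_6) 30 ix_5_6 ix_5_7 W_14179106816 = true := by
  decide +kernel

theorem W_15134646464_chk : wChk (nbDec bN_5_6) 30 ix_5_6 ix_5_7 W_15134646464 = true := by
  decide +kernel

theorem W_15151415552_chk : wChk (nbDec bN_5_6) 30 ix_5_6 ix_5_7 W_15151415552 = true := by
  decide +kernel

theorem W_15151419584_chk : wChk (nbDec bN_5_6) 30 ix_5_6 ix_5_7 W_15151419584 = true := by
  decide +kernel

theorem W_15151423616_chk : wChk (nbDec bN_5_6) 30 ix_5_6 ix_5_7 W_15151423616 = true := by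
  decide +kernel

theorem W_15151677632_chk : wChk (nbDec bN_5_6) 30 ix_5_6 ix_5_7 W_15151677632 = true := by
  decide +kernel

theorem W_15151685696_chk : wChk (nbDec bN_5_6) 30 ix_5_6 ix_5_7 W_15151685696 = true := by
  decide +kernel

theorem W_15167930624_chk : wChk (nbDec bN_5_6) 30 ix_5_6 ix_5_7 W_15167930624 = true := by
  decide +kernel

theorem W_15168192704_chk : wChk (nbDec bN_5_6) 30 ix_5_6 ix_5_7 W_15168192704 = true := by
  decide +kernel

theorem W_15168196736_chk : wChk (nbDec bN_5_6) 30 ix_5_6 ix_5_7 W_15168196736 = true := by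
  decide +kernel

theorem W_15168200768_chk : wChk (nbDec bN_5_6) 30 ix_5_6 ix_5_7 W_15168200768 = true := by
  decide +kernel

theorem W_15168450752_chk : wChk (nbDec bN_5_6) 30 ix_5_6 ix_5_7 W_15168450752 = true := by
  decide +kernel

theorem W_15168454784_chk : wChk (nbDec bN_5_6) 30 ix_5_6 ix_5_7 W_15168454784 = true := by
  decide +kernel

theorem W_15168458816_chk : wChk (nbDec bN_5_6) 30 ix_5_6 ix_5_7 W_15168458816 = true := by
  decide +kernel

theorem W_15168462848_chk : wChk (nbDec bN_5_6) 30 ix_5_6 ix_5_7 W_15168462848 = true := by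
  decide +kernel

theorem W_15168712832_chk : wChk (nbDec bN_5_6) 30 ix_5_6 ix_5_7 W_15168712832 = true := by
  decide +kernel

theorem W_15168716864_chk : wChk (nbDec bN_5_6) 30 ix_5_6 ix_5_7 W_15168716864 = true := by
  decide +kernel

theorem W_15168720896_chk : wChk (nbDec bN_5_6) 30 ix_5_6 ix_5_7 W_15168720896 = true := by
  decide +kernel

theorem W_15184445696_chk : wChk (nbDec bN_5_6) 30 ix_5_6 ix_5_7 W_15184445696 = true := by
  decide +kernel

theorem W_15184707776_chk : wChk (nbDec bN_5_6) 30 ix_5_6 ix_5_7 W_15184707776 = true := by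
  decide +kernel

theorem W_15184711808_chk : wChk (nbDec bN_5_6) 30 ix_5_6 ix_5_7 W_15184711808 = true := by
  decide +kernel

theorem W_15184965824_chk : wChk (nbDec bN_5_6) 30 ix_5_6 ix_5_7 W_15184965824 = true := by
  decide +kernel

theorem W_15184969856_chk : wChk (nbDec bN_5_6) 30 ix_5_6 ix_5_7 W_15184969856 = true := by
  decide +kernel

theorem W_15184973888_chk : wChk (nbDec bN_5_6) 30 ix_5_6 ix_5_7 W_15184973888 = true := by
  decide +kernel

theorem W_15185227904_chk : wChk (nbDec bN_5_6) 30 ix_5_6 ix_5_7 W_15185227904 = true := by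
  decide +kernel

theorem W_15185231936_chk : wChk (nbDec bN_5_6) 30 ix_5_6 ix_5_7 W_15185231936 = true := by
  decide +kernel

end Crest.Agent.R187.SN.Top
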